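import Mathlib

/-!
# Row 128, part A, deterministic accounting (helper485)

Abstract sequences.  `β` is a nonnegative sequence with `β 0 = 0`.  The total descent of `β` is
bounded by `2κ` times the number of pairs (`t`, `r`), `t` a first top of a closed component whose
two ends are at least `rκ` lower.
-/

set_option autoImplicit false
open Finset

namespace Crest.Agent.R128.Acc

/-- `t` is a first top, with both ends at least `r κ` lower -/
def Top (β : ℕ → ℝ) (κ : ℝ) (N t r : ℕ) : Prop :=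
  ∃ a b, a < t ∧ t < b ∧ b ≤ N ∧ β a ≤ β t - r * κ ∧ β b ≤ β t - r * κ ∧
    (∀ m, a ≤ m → m ≤ b → β m ≤ β t) ∧ β (t - 1) < β t

theorem exists_top {β : ℕ → ℝ} {κ : ℝ} (hκ : 0 < κ) (h0 : β 0 = 0) {n j : ℕ}
    (h1 : β (n + 1) ≤ j * κ) (h2 : j * κ < β n) :
    ∃ a t, a < t ∧ t ≤ n ∧ β a ≤ j * κ ∧ (∀ m, a < m → m ≤ n → j * κ < β m) ∧
      (∀ m, a ≤ m → m ≤ n + 1 → β m ≤ β t) ∧ β (t - 1) < β t := by
  classical
  set a := Nat.findGreatest (fun a => β a ≤ j * κ) n with ha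
  have hP0 : β 0 ≤ j * κ := by rw [h0]; positivity
  have hPa : β a ≤ j * κ := Nat.findGreatest_spec (P := fun a => β a ≤ j * κ) (Nat.zero_le n) hP0
  have han : a ≤ n := Nat.findGreatest_le n
  have hgt : ∀ m, a < m → m ≤ n → j * κ < β m := fun m hm hmn =>
    not_le.mp (Nat.findGreatest_is_greatest (P := fun a => β a ≤ j * κ) hm hmn)
  have han' : a < n := by
    rcases han.lt_or_eq with h | h
    · exact h
    · rw [h] at hPa
      exact absurd h2 (not_lt.mpr hPa)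
  obtain ⟨t0, ht0, hmax⟩ := (Finset.Icc (a + 1) n).exists_max_image β
    ⟨n, Finset.mem_Icc.mpr ⟨han', le_rfl⟩⟩
  have hex : ∃ t, a < t ∧ t ≤ n ∧ ∀ m, a < m → m ≤ n → β m ≤ β t := by
    rw [Finset.mem_Icc] at ht0
    exact ⟨t0, ht0.1, ht0.2, fun m h3 h4 => hmax m (Finset.mem_Icc.mpr ⟨h3, h4⟩)⟩
  set t := Nat.find hex with ht
  obtain ⟨hat, htn, htmax⟩ := Nat.find_spec hex
  have hjt : j * κ < β t := hgt t hat htn
  refine ⟨a, t, hat, htn, hPa, hgt, ?_, ?_⟩
  · intro m h3 h4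
    rcases h3.eq_or_lt with h5 | h5
    · rw [← h5]; linarith
    · rcases h4.eq_or_lt with h6 | h6
      · rw [h6]; linarith
      · exact htmax m h5 (by omega)
  · rcases Nat.lt_or_ge a (t - 1) with h3 | h3
    · by_contra hc
      push Not at hc
      have : a < t - 1 ∧ t - 1 ≤ n ∧ ∀ m, a < m → m ≤ n → β m ≤ β (t - 1) :=
        ⟨h3, by omega, fun m h5 h6 => (htmax m h5 h6).trans hc⟩
      have h7 := Nat.find_min' hex this
      omega
    · have : t - 1 = a := by omega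
      rw [this]
      linarith

open Classical in
theorem crossings_le {β : ℕ → ℝ} {κ : ℝ} (hκ : 0 < κ) (h0 : β 0 = 0) (N R : ℕ)
    (hR : ∀ t, t < N → β t ≤ R * κ) :
    ∑ n ∈ range N, (⌈β n / κ⌉₊ - ⌈β (n + 1) / κ⌉₊) ≤
      ∑ r ∈ range R, #{t ∈ range N | Top β κ N t r} := by
  have key : ∀ p : Σ _ : ℕ, ℕ, p ∈ (range N).sigma
      (fun n => Finset.Ico ⌈β (n + 1) / κ⌉₊ ⌈β n / κ⌉₊) →
      ∃ a t, a < t ∧ t ≤ p.1 ∧ β a ≤ p.2 * κ ∧ (∀ m, a < m → m ≤ p.1 → p.2 * κ < β m) ∧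
      (∀ m, a ≤ m → m ≤ p.1 + 1 → β m ≤ β t) ∧ β (t - 1) < β t := by
    rintro ⟨n, j⟩ hp
    rw [Finset.mem_sigma, Finset.mem_Ico] at hp
    obtain ⟨_, h1, h2⟩ := hp
    apply exists_top hκ h0
    · rwa [Nat.ceil_le, div_le_iff₀ hκ] at h1
    · rwa [Nat.lt_ceil, lt_div_iff₀ hκ] at h2
  have key2 : ∀ p : Σ _ : ℕ, ℕ, ∃ q : ℕ × ℕ, p ∈ (range N).sigma
      (fun n => Finset.Ico ⌈β (n + 1) / κ⌉₊ ⌈β n / κ⌉₊) →
      q ∈ ((range R) ×ˢ (range N)).filter (fun q => Top β κ N q.2 q.1) ∧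
      q.2 ≤ p.1 ∧ (∀ m, q.2 ≤ m → m ≤ p.1 → p.2 * κ < β m) ∧ p.2 + q.1 + 1 = ⌈β q.2 / κ⌉₊ := by
    intro p
    by_cases hp : p ∈ (range N).sigma (fun n => Finset.Ico ⌈β (n + 1) / κ⌉₊ ⌈β n / κ⌉₊)
    · obtain ⟨a, t, h1, h2, h3, h4, h5, h6⟩ := key p hp
      rw [Finset.mem_sigma, Finset.mem_Ico, Finset.mem_range] at hp
      obtain ⟨hn, hj1, hj2⟩ := hp
      have hjt : (p.2 : ℝ) * κ < β t := h4 t h1 h2
      have hjt' : p.2 < ⌈β t / κ⌉₊ := by
        rw [Nat.lt_ceil, lt_div_iff₀ hκ]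
        exact hjt
      have hcl : (⌈β t / κ⌉₊ : ℝ) < β t / κ + 1 := Nat.ceil_lt_add_one (by
        apply div_nonneg _ hκ.le
        have : (0 : ℝ) ≤ (p.2 : ℝ) * κ := by positivity
        linarith)
      have hcR : ⌈β t / κ⌉₊ ≤ R := by
        rw [Nat.ceil_le, div_le_iff₀ hκ]
        exact hR t (by omega)
      refine ⟨(⌈β t / κ⌉₊ - 1 - p.2, t), fun _ => ⟨?_, h2, fun m hm1 hm2 => h4 m (by omega) hm2,
        ?_⟩⟩
      · rw [Finset.mem_filter, Finset.mem_product, Finset.mem_range, Finset.mem_range]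
        refine ⟨⟨by simp only; omega, by simp only; omega⟩, a, p.1 + 1, h1, by simp only; omega,
          by omega, ?_, ?_, h5, h6⟩
        · have e : ((⌈β t / κ⌉₊ - 1 - p.2 : ℕ) : ℝ) = (⌈β t / κ⌉₊ : ℝ) - 1 - p.2 := by
            rw [Nat.cast_sub (by omega), Nat.cast_sub (by omega)]
            simp
          simp only [e]
          have : ((⌈β t / κ⌉₊ : ℝ) - 1) * κ < β t := by
            have := (sub_lt_iff_lt_add.mpr hcl)
            rw [lt_div_iff₀ hκ] at this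
            exact this
          nlinarith
        · have e : ((⌈β t / κ⌉₊ - 1 - p.2 : ℕ) : ℝ) = (⌈β t / κ⌉₊ : ℝ) - 1 - p.2 := by
            rw [Nat.cast_sub (by omega), Nat.cast_sub (by omega)]
            simp
          simp only [e]
          have h8 : ((⌈β t / κ⌉₊ : ℝ) - 1) * κ < β t := by
            have := (sub_lt_iff_lt_add.mpr hcl)
            rw [lt_div_iff₀ hκ] at this
            exact this
          have h9 : β (p.1 + 1) ≤ p.2 * κ := by
            rwa [Nat.ceil_le, div_le_iff₀ hκ] at hj1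
          nlinarith
      · simp only
        omega
    · exact ⟨(0, 0), fun h => absurd h hp⟩
  choose q hq using key2
  have h1 : ∑ n ∈ range N, (⌈β n / κ⌉₊ - ⌈β (n + 1) / κ⌉₊) =
      #((range N).sigma (fun n => Finset.Ico ⌈β (n + 1) / κ⌉₊ ⌈β n / κ⌉₊)) := by
    rw [Finset.card_sigma]
    simp
  have h2 : ∑ r ∈ range R, #{t ∈ range N | Top β κ N t r} =
      #(((range R) ×ˢ (range N)).filter (fun q => Top β κ N q.2 q.1)) := by
    rw [Finset.card_filter, Finset.sum_product]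
    refine Finset.sum_congr rfl fun r _ => ?_
    rw [Finset.card_filter]
  rw [h1, h2]
  apply Finset.card_le_card_of_injOn q
  · intro p hp
    exact (hq p hp).1
  · intro p hp p' hp' h
    have hp := Finset.mem_coe.mp hp
    have hp' := Finset.mem_coe.mp hp'
    obtain ⟨_, h3, h4, h5⟩ := hq p hp
    obtain ⟨_, h3', h4', h5'⟩ := hq p' hp'
    rw [← h] at h3' h4' h5'
    have ej : p.2 = p'.2 := by omega
    rw [Finset.mem_sigma, Finset.mem_Ico] at hp hp'
    have u1 : β (p.1 + 1) ≤ p.2 * κ := by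
      have := hp.2.1
      rwa [Nat.ceil_le, div_le_iff₀ hκ] at this
    have u2 : β (p'.1 + 1) ≤ p'.2 * κ := by
      have := hp'.2.1
      rwa [Nat.ceil_le, div_le_iff₀ hκ] at this
    have en : p.1 = p'.1 := by
      rcases lt_trichotomy p.1 p'.1 with hlt | heq | hlt
      · have := h4' (p.1 + 1) (by omega) (by omega)
        rw [← ej] at this
        linarith
      · exact heq
      · have := h4 (p'.1 + 1) (by omega) (by omega)
        rw [ej] at this
        linarith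
    exact Sigma.ext en (heq_of_eq ej)

open Classical in
/-- total descent -/
theorem down_le {β : ℕ → ℝ} {κ L : ℝ} (hκ : 0 < κ) (h0 : β 0 = 0) (hβ : ∀ n, 0 ≤ β n)
    (hL0 : 0 ≤ L) (N R : ℕ)
    (hR : ∀ t, t < N → β t ≤ R * κ) (bad : ℕ → Prop)
    (hL : ∀ n, β n - β (n + 1) ≤ L)
    (hgood : ∀ n, ¬ bad n → β (n + 1) < β n → κ ≤ β n - β (n + 1)) :
    ∑ n ∈ range N, max 0 (β n - β (n + 1)) ≤
      2 * κ * ∑ r ∈ range R, (#{t ∈ range N | Top β κ N t r} : ℝ) +
        L * #{n ∈ range N | bad n} := by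
  have h1 : (∑ n ∈ range N, ((⌈β n / κ⌉₊ - ⌈β (n + 1) / κ⌉₊ : ℕ) : ℝ)) ≤
      ∑ r ∈ range R, (#{t ∈ range N | Top β κ N t r} : ℝ) := by
    exact_mod_cast crossings_le hκ h0 N R hR
  have h2 : ∀ n, max 0 (β n - β (n + 1)) ≤
      2 * κ * ((⌈β n / κ⌉₊ - ⌈β (n + 1) / κ⌉₊ : ℕ) : ℝ) + L * (if bad n then 1 else 0) := by
    intro n
    have hc0 : (0 : ℝ) ≤ ((⌈β n / κ⌉₊ - ⌈β (n + 1) / κ⌉₊ : ℕ) : ℝ) := Nat.cast_nonneg _
    have hκc : 0 ≤ 2 * κ * ((⌈β n / κ⌉₊ - ⌈β (n + 1) / κ⌉₊ : ℕ) : ℝ) := by positivity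
    by_cases hb : bad n
    · simp only [hb, if_true]
      refine max_le (by linarith) ?_
      linarith [hL n]
    · simp only [hb, if_false]
      rcases le_or_gt (β n) (β (n + 1)) with h | h
      · refine max_le (by linarith) (by linarith)
      · have h3 := hgood n hb h
        have hle : ⌈β (n + 1) / κ⌉₊ + 1 ≤ ⌈β n / κ⌉₊ := by
          rw [← Nat.ceil_add_one (div_nonneg (hβ _) hκ.le)]
          apply Nat.ceil_mono
          rw [← div_self hκ.ne', ← add_div]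
          exact div_le_div_of_nonneg_right (by linarith) hκ.le
        have e : (((⌈β n / κ⌉₊ - ⌈β (n + 1) / κ⌉₊ : ℕ)) : ℝ) =
            (⌈β n / κ⌉₊ : ℝ) - ⌈β (n + 1) / κ⌉₊ := by
          rw [Nat.cast_sub (by omega)]
        have c1 : β n / κ ≤ ⌈β n / κ⌉₊ := Nat.le_ceil _
        have c2 : (⌈β (n + 1) / κ⌉₊ : ℝ) < β (n + 1) / κ + 1 :=
          Nat.ceil_lt_add_one (div_nonneg (hβ _) hκ.le)
        have c3 : (1 : ℝ) ≤ (⌈β n / κ⌉₊ : ℝ) - ⌈β (n + 1) / κ⌉₊ := by
          have : ((⌈β (n + 1) / κ⌉₊ + 1 : ℕ) : ℝ) ≤ ⌈β n / κ⌉₊ := by exact_mod_cast hle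
          push_cast at this
          linarith
        have c4 : (β n - β (n + 1)) ≤ κ * ((⌈β n / κ⌉₊ : ℝ) - ⌈β (n + 1) / κ⌉₊ + 1) := by
          have : (β n - β (n + 1)) / κ ≤ (⌈β n / κ⌉₊ : ℝ) - ⌈β (n + 1) / κ⌉₊ + 1 := by
            rw [sub_div]
            linarith
          rw [div_le_iff₀ hκ] at this
          linarith
        rw [e]
        refine max_le (by nlinarith) ?_
        nlinarith
  calc ∑ n ∈ range N, max 0 (β n - β (n + 1)) ≤
      ∑ n ∈ range N, (2 * κ * ((⌈β n / κ⌉₊ - ⌈β (n + 1) / κ⌉₊ : ℕ) : ℝ) +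
        L * (if bad n then 1 else 0)) := Finset.sum_le_sum fun n _ => h2 n
    _ = 2 * κ * (∑ n ∈ range N, ((⌈β n / κ⌉₊ - ⌈β (n + 1) / κ⌉₊ : ℕ) : ℝ)) +
        L * #{n ∈ range N | bad n} := by
      rw [Finset.sum_add_distrib, ← Finset.mul_sum, ← Finset.mul_sum]
      congr 2
      simp
    _ ≤ _ := by
      have : 0 ≤ 2 * κ := by positivity
      nlinarith

/-! ## Sequences of row norms -/

section Rho

variable {ρ V : ℕ → ℝ} {L κ : ℝ}

/-- `log` of the norm of the cocycle, from the norms of its rows -/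
noncomputable def bt (ρ : ℕ → ℝ) (n : ℕ) : ℝ := Real.log (max (ρ n) (ρ (n + 1)))

theorem bt_nonneg (hρ : ∀ n, 0 < ρ n) (h4 : ∀ n, 1 ≤ ρ n * ρ (n + 1)) (n : ℕ) : 0 ≤ bt ρ n := by
  apply Real.log_nonneg
  by_contra hc
  push Not at hc
  rw [max_lt_iff] at hc
  have := h4 n
  have h1 := hρ n
  have h2 := hρ (n + 1)
  nlinarith [hc.1, hc.2]

theorem bt_succ_le (hV : ∀ n, 0 ≤ V n) (hρ : ∀ n, 0 < ρ n)
    (h2 : ∀ n, ρ (n + 2) ≤ V n * ρ (n + 1) + ρ n)
    (hL : ∀ n, Real.log (1 + V n) ≤ L) (n : ℕ) : bt ρ (n + 1) ≤ bt ρ n + L := by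
  have hm : 0 < max (ρ n) (ρ (n + 1)) := lt_max_of_lt_left (hρ n)
  have h1 : max (ρ (n + 1)) (ρ (n + 2)) ≤ (1 + V n) * max (ρ n) (ρ (n + 1)) := by
    have a := le_max_left (ρ n) (ρ (n + 1))
    have b := le_max_right (ρ n) (ρ (n + 1))
    have c := h2 n
    have d := hV n
    have e := mul_le_mul_of_nonneg_left b d
    have e' := mul_nonneg d hm.le
    refine max_le (by nlinarith) (by nlinarith)
  unfold bt
  have h3 := Real.log_le_log (lt_max_of_lt_left (hρ (n + 1))) h1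
  rw [Real.log_mul (by linarith [hV n]) hm.ne'] at h3
  rw [show n + 1 + 1 = n + 2 from rfl]
  linarith [hL n]

theorem bt_le_succ (hV : ∀ n, 0 ≤ V n) (hρ : ∀ n, 0 < ρ n)
    (h3 : ∀ n, ρ n ≤ V n * ρ (n + 1) + ρ (n + 2))
    (hL : ∀ n, Real.log (1 + V n) ≤ L) (n : ℕ) : bt ρ n ≤ bt ρ (n + 1) + L := by
  have hm : 0 < max (ρ (n + 1)) (ρ (n + 2)) := lt_max_of_lt_left (hρ _)
  have h1 : max (ρ n) (ρ (n + 1)) ≤ (1 + V n) * max (ρ (n + 1)) (ρ (n + 2)) := by
    have a := le_max_left (ρ (n + 1)) (ρ (n + 2))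
    have b := le_max_right (ρ (n + 1)) (ρ (n + 2))
    have c := h3 n
    have d := hV n
    have e := mul_le_mul_of_nonneg_left a d
    have e' := mul_nonneg d hm.le
    refine max_le (by nlinarith) (by nlinarith)
  unfold bt
  have h3 := Real.log_le_log (lt_max_of_lt_left (hρ n)) h1
  rw [Real.log_mul (by linarith [hV n]) hm.ne'] at h3
  rw [show n + 1 + 1 = n + 2 from rfl]
  linarith [hL n]

/-- `n` is a valley -/
def Val (ρ : ℕ → ℝ) (n : ℕ) : Prop := ρ (n + 1) < ρ n ∧ ρ (n + 1) ≤ ρ (n + 2)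

theorem up_step (hρ : ∀ n, 0 < ρ n) (h1 : ∀ n, V n * ρ (n + 1) ≤ ρ (n + 2) + ρ n) {n : ℕ}
    (hV : 2 ≤ V n) (h : ρ n ≤ ρ (n + 1)) : Real.log (V n - 1) ≤ bt ρ (n + 1) - bt ρ n := by
  have a := hρ (n + 1)
  have b := h1 n
  have c : (V n - 1) * ρ (n + 1) ≤ ρ (n + 2) := by nlinarith
  have d : ρ (n + 1) ≤ ρ (n + 2) := by nlinarith
  unfold bt
  rw [max_eq_right h, show n + 1 + 1 = n + 2 from rfl, max_eq_right d]
  have := Real.log_le_log (by nlinarith) c
  rw [Real.log_mul (by linarith) a.ne'] at this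
  linarith

theorem down_step (hρ : ∀ n, 0 < ρ n) (h1 : ∀ n, V n * ρ (n + 1) ≤ ρ (n + 2) + ρ n) {n : ℕ}
    (hV : 2 ≤ V n) (h : ρ (n + 2) ≤ ρ (n + 1)) : Real.log (V n - 1) ≤ bt ρ n - bt ρ (n + 1) := by
  have a := hρ (n + 1)
  have b := h1 n
  have c : (V n - 1) * ρ (n + 1) ≤ ρ n := by nlinarith
  have d : ρ (n + 1) ≤ ρ n := by nlinarith
  unfold bt
  rw [max_eq_left d, show n + 1 + 1 = n + 2 from rfl, max_eq_left h]
  have := Real.log_le_log (by nlinarith) c
  rw [Real.log_mul (by linarith) a.ne'] at this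
  linarith

theorem step_abs (hρ : ∀ n, 0 < ρ n) (h1 : ∀ n, V n * ρ (n + 1) ≤ ρ (n + 2) + ρ n) {n : ℕ}
    (hV : 2 ≤ V n) (h : ¬ Val ρ n) : Real.log (V n - 1) ≤ |bt ρ (n + 1) - bt ρ n| := by
  unfold Val at h
  rcases le_or_gt (ρ n) (ρ (n + 1)) with h2 | h2
  · exact (up_step hρ h1 hV h2).trans (le_abs_self _)
  · have h3 : ρ (n + 2) ≤ ρ (n + 1) := by
      by_contra hc
      exact h ⟨h2, by linarith⟩
    rw [abs_sub_comm]
    exact (down_step hρ h1 hV h3).trans (le_abs_self _)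

open Classical in
/-- there are not more valleys than near critical digits -/
theorem valleys_le (hρ : ∀ n, 0 < ρ n) (h1 : ∀ n, V n * ρ (n + 1) ≤ ρ (n + 2) + ρ n)
    (h01 : ρ 0 ≤ ρ 1) (N : ℕ) :
    (#{n ∈ range N | Val ρ n} : ℝ) ≤ #{n ∈ range N | V n < 2} := by
  set u : ℕ → ℝ := fun n => if ρ (n + 1) < ρ n then 1 else 0 with hu
  have hstep : ∀ n, (if Val ρ n then (1 : ℝ) else 0) ≤ (if V n < 2 then 1 else 0) + (u n - u (n + 1)) := by
    intro n
    have e : u (n + 1) = if ρ (n + 2) < ρ (n + 1) then 1 else 0 := rfl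
    rw [e]
    simp only [hu]
    by_cases hv : Val ρ n
    · obtain ⟨a, b⟩ := hv
      rw [if_pos ⟨a, b⟩, if_pos a, if_neg (not_lt.mpr b)]
      split_ifs <;> norm_num
    · rw [if_neg hv]
      by_cases a : ρ (n + 1) < ρ n
      · rw [if_pos a]
        split_ifs <;> norm_num
      · rw [if_neg a]
        by_cases b : ρ (n + 2) < ρ (n + 1)
        · have : V n < 2 := by
            by_contra hc
            push Not at hc a
            have := h1 n
            have := hρ (n + 1)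
            nlinarith
          rw [if_pos b, if_pos this]
          norm_num
        · rw [if_neg b]
          split_ifs <;> norm_num
  have hsum := Finset.sum_le_sum fun n (_ : n ∈ range N) => hstep n
  rw [Finset.sum_add_distrib, Finset.sum_range_sub'] at hsum
  have e0 : u 0 = 0 := by
    simp only [hu, zero_add]
    rw [if_neg (not_lt.mpr h01)]
  have eN : 0 ≤ u N := by
    simp only [hu]
    split_ifs <;> norm_num
  simp only [Finset.sum_boole] at hsum
  linarith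

theorem top_zero (hρ : ∀ n, 0 < ρ n) (h1 : ∀ n, V n * ρ (n + 1) ≤ ρ (n + 2) + ρ n) {κ : ℝ}
    {N t r : ℕ} (h : Top (bt ρ) κ N t r) : V t < 2 := by
  obtain ⟨a, b, h2, h3, _, _, _, h4, h5⟩ := h
  have ht : t - 1 + 1 = t := by omega
  have h6 := h4 (t + 1) (by omega) (by omega)
  unfold bt at h5 h6
  rw [ht] at h5
  have p := hρ (t - 1)
  have p0 := hρ t
  have p1 := hρ (t + 1)
  have p2 := hρ (t + 2)
  have h7 : max (ρ (t - 1)) (ρ t) < max (ρ t) (ρ (t + 1)) :=
    (Real.log_lt_log_iff (lt_max_of_lt_left p) (lt_max_of_lt_left p0)).mp h5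
  have h8 : ρ t < ρ (t + 1) := by
    by_contra hc
    push Not at hc
    rw [max_eq_left hc] at h7
    exact absurd (le_max_right _ _) (not_le.mpr h7)
  rw [show t + 1 + 1 = t + 2 from rfl] at h6
  have h9 : max (ρ (t + 1)) (ρ (t + 2)) ≤ max (ρ t) (ρ (t + 1)) :=
    (Real.log_le_log_iff (lt_max_of_lt_left p1) (lt_max_of_lt_left p0)).mp h6
  rw [max_eq_right h8.le] at h9
  have h10 := (le_max_right _ _).trans h9
  have h11 := h1 t
  by_contra hc
  push Not at hc
  nlinarith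

/-- gain of a step -/
noncomputable def gn (v : ℝ) : ℝ := if v < 2 then 0 else Real.log (v - 1)

open Classical in
/-- **deterministic accounting** -/
theorem accounting (hV : ∀ n, 0 ≤ V n) (hρ : ∀ n, 0 < ρ n)
    (h1 : ∀ n, V n * ρ (n + 1) ≤ ρ (n + 2) + ρ n)
    (h2 : ∀ n, ρ (n + 2) ≤ V n * ρ (n + 1) + ρ n)
    (h3 : ∀ n, ρ n ≤ V n * ρ (n + 1) + ρ (n + 2))
    (h4 : ∀ n, 1 ≤ ρ n * ρ (n + 1)) (h00 : ρ 0 = 1) (h01 : ρ 1 = 1)
    (hL : ∀ n, Real.log (1 + V n) ≤ L) (hκ : 0 < κ) (N R : ℕ) (hR : N * L ≤ R * κ) :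
    (∑ n ∈ range N, gn (V n)) - (5 * L + 4 * κ) * #{n ∈ range N | V n < Real.exp κ + 1}
      - 4 * κ * ∑ r ∈ Ico 1 R, (#{t ∈ range N | Top (bt ρ) κ N t r} : ℝ) ≤ bt ρ N := by
  have hL0 : 0 ≤ L := (Real.log_nonneg (by linarith [hV 0])).trans (hL 0)
  have hb0 : bt ρ 0 = 0 := by
    unfold bt
    rw [zero_add, h00, h01]
    simp
  have hbn := bt_nonneg hρ h4
  have hbL : ∀ n, bt ρ n ≤ n * L := by
    intro n
    induction n with
    | zero => rw [hb0]; simp
    | succ n ih =>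
      have := bt_succ_le hV hρ h2 hL n
      push_cast
      linarith
  have hRt : ∀ t, t < N → bt ρ t ≤ R * κ := by
    intro t ht
    refine (hbL t).trans (le_trans ?_ hR)
    have : (t : ℝ) ≤ N := by exact_mod_cast ht.le
    nlinarith
  have he2 : (2 : ℝ) ≤ Real.exp κ + 1 := by linarith [Real.add_one_le_exp κ]
  -- counting
  set B : ℝ := (#{n ∈ range N | V n < Real.exp κ + 1} : ℝ) with hB
  have hB2 : (#{n ∈ range N | V n < 2} : ℝ) ≤ B := by
    rw [hB]
    have : #{n ∈ range N | V n < 2} ≤ #{n ∈ range N | V n < Real.exp κ + 1} := by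
      apply Finset.card_le_card
      intro n hn
      rw [Finset.mem_filter] at hn ⊢
      exact ⟨hn.1, by linarith [hn.2]⟩
    exact_mod_cast this
  have hVal := (valleys_le hρ h1 (by rw [h00, h01]) N).trans hB2
  -- bad steps
  have hbad : ∀ bad : ℕ → Prop, (∀ n, bad n → V n < Real.exp κ + 1 ∨ Val ρ n) →
      (#{n ∈ range N | bad n} : ℝ) ≤ 2 * B := by
    intro bad hb
    have : #{n ∈ range N | bad n} ≤
        #{n ∈ range N | V n < Real.exp κ + 1} + #{n ∈ range N | Val ρ n} := by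
      refine le_trans (Finset.card_le_card ?_) (Finset.card_union_le _ _)
      intro n hn
      rw [Finset.mem_filter] at hn
      rw [Finset.mem_union, Finset.mem_filter, Finset.mem_filter]
      rcases hb n hn.2 with h | h
      · exact Or.inl ⟨hn.1, h⟩
      · exact Or.inr ⟨hn.1, h⟩
    have h' : (#{n ∈ range N | bad n} : ℝ) ≤
        B + #{n ∈ range N | Val ρ n} := by
      rw [hB]
      exact_mod_cast this
    linarith
  have hdown := down_le (β := bt ρ) (L := L) hκ hb0 hbn hL0 N R hRt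
    (fun n => V n < Real.exp κ + 1 ∨ Val ρ n)
    (fun n => by linarith [bt_le_succ hV hρ h3 hL n])
    (by
      intro n hn hlt
      push Not at hn
      have h5 := step_abs hρ h1 (by linarith [hn.1]) hn.2
      have h6 : κ ≤ Real.log (V n - 1) := by
        rw [Real.le_log_iff_exp_le (by linarith [Real.exp_pos κ, hn.1])]
        linarith [hn.1]
      rw [abs_of_neg (by linarith)] at h5
      linarith)
  -- total variation
  have hvar : ∀ n, gn (V n) - L * (if Val ρ n then 1 else 0) ≤ |bt ρ (n + 1) - bt ρ n| := by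
    intro n
    unfold gn
    by_cases h5 : V n < 2
    · rw [if_pos h5]
      have : 0 ≤ L * (if Val ρ n then (1 : ℝ) else 0) := by
        apply mul_nonneg hL0
        split_ifs <;> norm_num
      linarith [abs_nonneg (bt ρ (n + 1) - bt ρ n)]
    · rw [if_neg h5]
      push Not at h5
      by_cases h6 : Val ρ n
      · rw [if_pos h6]
        have : Real.log (V n - 1) ≤ L :=
          (Real.log_le_log (by linarith) (by linarith)).trans (hL n)
        linarith [abs_nonneg (bt ρ (n + 1) - bt ρ n)]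
      · rw [if_neg h6]
        linarith [step_abs hρ h1 h5 h6]
  have hvar2 := Finset.sum_le_sum fun n (_ : n ∈ range N) => hvar n
  rw [Finset.sum_sub_distrib, ← Finset.mul_sum, Finset.sum_boole] at hvar2
  have hid : bt ρ N = ∑ n ∈ range N, |bt ρ (n + 1) - bt ρ n| -
      2 * ∑ n ∈ range N, max 0 (bt ρ n - bt ρ (n + 1)) := by
    have : bt ρ N = ∑ n ∈ range N, (bt ρ (n + 1) - bt ρ n) := by
      rw [Finset.sum_range_sub, hb0, sub_zero]
    rw [this, Finset.mul_sum, ← Finset.sum_sub_distrib]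
    refine Finset.sum_congr rfl fun n _ => ?_
    rcases le_total (bt ρ n) (bt ρ (n + 1)) with h | h
    · rw [abs_of_nonneg (by linarith), max_eq_left (by linarith)]
      ring
    · rw [abs_of_nonpos (by linarith), max_eq_right (by linarith)]
      ring
  -- tops at level 0
  have htop : ∑ r ∈ range R, (#{t ∈ range N | Top (bt ρ) κ N t r} : ℝ) ≤
      B + ∑ r ∈ Ico 1 R, (#{t ∈ range N | Top (bt ρ) κ N t r} : ℝ) := by
    rcases Nat.eq_zero_or_pos R with h0 | h0
    · subst h0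
      simp only [Finset.range_zero, Finset.sum_empty]
      rw [Finset.Ico_eq_empty (by omega)]
      simp only [Finset.sum_empty, add_zero]
      rw [hB]
      positivity
    · have e1 : ∑ r ∈ range R, (#{t ∈ range N | Top (bt ρ) κ N t r} : ℝ) =
          (#{t ∈ range N | Top (bt ρ) κ N t 0} : ℝ) +
          ∑ r ∈ Ico 1 R, (#{t ∈ range N | Top (bt ρ) κ N t r} : ℝ) := by
        rw [Finset.sum_range_eq_add_Ico _ h0]
      rw [e1]
      have : (#{t ∈ range N | Top (bt ρ) κ N t 0} : ℝ) ≤ B := by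
        refine le_trans ?_ hB2
        have : #{t ∈ range N | Top (bt ρ) κ N t 0} ≤ #{n ∈ range N | V n < 2} := by
          apply Finset.card_le_card
          intro n hn
          rw [Finset.mem_filter] at hn ⊢
          exact ⟨hn.1, top_zero hρ h1 hn.2⟩
        exact_mod_cast this
      linarith
  have hmul := mul_le_mul_of_nonneg_left htop (by positivity : 0 ≤ 4 * κ)
  have hmul2 := mul_le_mul_of_nonneg_left (hbad (fun n => V n < Real.exp κ + 1 ∨ Val ρ n)
    fun n h => h) hL0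
  have hmul3 := mul_le_mul_of_nonneg_left hVal hL0
  rw [hid]
  nlinarith

end Rho

end Crest.Agent.R128.Acc
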