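import Mathlib
import Crest.Prelude.Def_StandardMap

set_option autoImplicit false

open MeasureTheory Filter Topology
open Crest.AnalysisR.StandardFamily

namespace Crest.Agent.R128

/-- the unit square -/
def Q : Set (ℝ × ℝ) := Set.Ico (0 : ℝ) 1 ×ˢ Set.Ico (0 : ℝ) 1

theorem measurableSet_Q : MeasurableSet Q := measurableSet_Ico.prod measurableSet_Ico

theorem volume_Q : volume Q = 1 := by
  unfold Q
  rw [Measure.volume_eq_prod, Measure.prod_prod]
  simp

/-- `log ‖D(F^n)(p)‖` -/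
noncomputable def lg (k : ℝ) (n : ℕ) (p : ℝ × ℝ) : ℝ :=
  Real.log ‖fderiv ℝ (standardMapLift k)^[n] p‖

/-- the set of the statement -/
def Good (k : ℝ) : Set (ℝ × ℝ) :=
  {p : ℝ × ℝ | ∃ c : ℝ, 0 < c ∧
          ∃ᶠ n : ℕ in Filter.atTop, c * n ≤ Real.log ‖fderiv ℝ (standardMapLift k)^[n] p‖}

theorem contDiff_F (k : ℝ) : ContDiff ℝ ⊤ (standardMapLift k) := by
  unfold standardMapLift
  fun_prop

theorem contDiff_iter (k : ℝ) (n : ℕ) : ContDiff ℝ ⊤ (standardMapLift k)^[n] := by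
  induction n with
  | zero => simpa using contDiff_id
  | succ n ih =>
    rw [Function.iterate_succ]
    exact ih.comp (contDiff_F k)

theorem continuous_fderiv_iter (k : ℝ) (n : ℕ) :
    Continuous (fun p => fderiv ℝ (standardMapLift k)^[n] p) :=
  (contDiff_iter k n).continuous_fderiv (by simp)

theorem measurable_lg (k : ℝ) (n : ℕ) : Measurable (lg k n) := by
  unfold lg
  exact Real.measurable_log.comp (continuous_fderiv_iter k n).norm.measurable

theorem differentiable_iter (k : ℝ) (n : ℕ) : Differentiable ℝ (standardMapLift k)^[n] :=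
  (contDiff_iter k n).differentiable (by simp)

/-- explicit derivative -/
noncomputable def DF (k : ℝ) (p : ℝ × ℝ) : ℝ × ℝ →L[ℝ] ℝ × ℝ :=
  ((ContinuousLinearMap.fst ℝ ℝ ℝ + ContinuousLinearMap.snd ℝ ℝ ℝ +
      (k * (2 * Real.pi * Real.cos (2 * Real.pi * p.1))) • ContinuousLinearMap.fst ℝ ℝ ℝ).prod
    (ContinuousLinearMap.snd ℝ ℝ ℝ +
      (k * (2 * Real.pi * Real.cos (2 * Real.pi * p.1))) • ContinuousLinearMap.fst ℝ ℝ ℝ))

theorem hasFDerivAt_F (k : ℝ) (p : ℝ × ℝ) : HasFDerivAt (standardMapLift k) (DF k p) p := by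
  have h1 : HasFDerivAt (fun p : ℝ × ℝ => p.1) (ContinuousLinearMap.fst ℝ ℝ ℝ) p :=
    hasFDerivAt_fst
  have h2 : HasFDerivAt (fun p : ℝ × ℝ => p.2) (ContinuousLinearMap.snd ℝ ℝ ℝ) p :=
    hasFDerivAt_snd
  have h3 : HasFDerivAt (fun p : ℝ × ℝ => k * Real.sin (2 * Real.pi * p.1))
      ((k * (2 * Real.pi * Real.cos (2 * Real.pi * p.1))) • ContinuousLinearMap.fst ℝ ℝ ℝ) p := by
    have hs : HasDerivAt (fun t : ℝ => k * Real.sin (2 * Real.pi * t))
        (k * (2 * Real.pi * Real.cos (2 * Real.pi * p.1))) p.1 := by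
      have h := ((Real.hasDerivAt_sin (2 * Real.pi * p.1)).comp p.1
        ((hasDerivAt_id p.1).const_mul (2 * Real.pi))).const_mul k
      have e : k * (2 * Real.pi * Real.cos (2 * Real.pi * p.1)) =
          k * (Real.cos (2 * Real.pi * p.1) * (2 * Real.pi * 1)) := by ring
      rw [e]
      exact h
    exact hs.comp_hasFDerivAt p h1
  exact ((h1.add h2).add h3).prodMk (h2.add h3)

theorem fderiv_F (k : ℝ) (p : ℝ × ℝ) : fderiv ℝ (standardMapLift k) p = DF k p :=
  (hasFDerivAt_F k p).fderiv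

theorem norm_DF_le (k : ℝ) (p : ℝ × ℝ) : ‖DF k p‖ ≤ 2 + 2 * Real.pi * |k| := by
  have hc : |k * (2 * Real.pi * Real.cos (2 * Real.pi * p.1))| ≤ 2 * Real.pi * |k| := by
    rw [abs_mul, abs_mul, abs_of_pos (by positivity : (0:ℝ) < 2 * Real.pi)]
    have := Real.abs_cos_le_one (2 * Real.pi * p.1)
    nlinarith [abs_nonneg k, Real.pi_pos, mul_nonneg (abs_nonneg k) Real.pi_pos.le]
  apply ContinuousLinearMap.opNorm_le_bound _ (by positivity)
  intro v
  have h1 : |v.1| ≤ ‖v‖ := by simpa using norm_fst_le v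
  have h2 : |v.2| ≤ ‖v‖ := by simpa using norm_snd_le v
  set c := k * (2 * Real.pi * Real.cos (2 * Real.pi * p.1)) with hcdef
  have e : DF k p v = (v.1 + v.2 + c * v.1, v.2 + c * v.1) := by
    simp [DF, hcdef]
  rw [e, Prod.norm_def]
  simp only [Real.norm_eq_abs]
  have h3 : |c * v.1| ≤ 2 * Real.pi * |k| * ‖v‖ := by
    rw [abs_mul]
    exact mul_le_mul hc h1 (abs_nonneg _) (by positivity)
  apply max_le
  · calc |v.1 + v.2 + c * v.1| ≤ |v.1 + v.2| + |c * v.1| := abs_add_le _ _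
      _ ≤ |v.1| + |v.2| + |c * v.1| := by gcongr; exact abs_add_le _ _
      _ ≤ (2 + 2 * Real.pi * |k|) * ‖v‖ := by nlinarith
  · calc |v.2 + c * v.1| ≤ |v.2| + |c * v.1| := abs_add_le _ _
      _ ≤ (2 + 2 * Real.pi * |k|) * ‖v‖ := by nlinarith [norm_nonneg v]

theorem fderiv_iter_succ (k : ℝ) (n : ℕ) (p : ℝ × ℝ) :
    fderiv ℝ (standardMapLift k)^[n + 1] p =
      (fderiv ℝ (standardMapLift k)^[n] (standardMapLift k p)).comp (DF k p) := by
  rw [Function.iterate_succ]
  rw [fderiv_comp p ((differentiable_iter k n) _) ((hasFDerivAt_F k p).differentiableAt),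
    fderiv_F]

theorem norm_fderiv_iter_le (k : ℝ) (n : ℕ) (p : ℝ × ℝ) :
    ‖fderiv ℝ (standardMapLift k)^[n] p‖ ≤ (2 + 2 * Real.pi * |k|) ^ n := by
  induction n generalizing p with
  | zero =>
    simp only [Function.iterate_zero, pow_zero]
    rw [show (id : ℝ × ℝ → ℝ × ℝ) = fun x => x from rfl]
    simp only [fderiv_fun_id]
    exact ContinuousLinearMap.norm_id_le
  | succ n ih =>
    rw [fderiv_iter_succ, pow_succ]
    refine (ContinuousLinearMap.opNorm_comp_le _ _).trans ?_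
    exact mul_le_mul (ih _) (norm_DF_le k p) (norm_nonneg _) (by positivity)

theorem lg_le (k : ℝ) (n : ℕ) (p : ℝ × ℝ) :
    lg k n p ≤ n * Real.log (2 + 2 * Real.pi * |k|) := by
  unfold lg
  rcases eq_or_lt_of_le (norm_nonneg (fderiv ℝ (standardMapLift k)^[n] p)) with h | h
  · rw [← h, Real.log_zero]
    have : (1 : ℝ) ≤ 2 + 2 * Real.pi * |k| := by
      have := abs_nonneg k
      nlinarith [Real.pi_pos, mul_nonneg Real.pi_pos.le this]
    exact mul_nonneg (Nat.cast_nonneg _) (Real.log_nonneg this)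
  · rw [← Real.log_pow]
    exact Real.log_le_log h (norm_fderiv_iter_le k n p)

/-- **Reverse Fatou reduction.** -/
theorem pos_of_integral {k c : ℝ} (hc : 0 < c)
    (h : ∃ᶠ n : ℕ in atTop, c * n ≤ ∫ p in Q, lg k n p) :
    0 < volume (Good k ∩ Q) := by
  by_contra hcon
  have h0 : volume (Good k ∩ Q) = 0 := by
    simpa using hcon
  set L := Real.log (2 + 2 * Real.pi * |k|) with hL
  have hLnn : 0 ≤ L := by
    apply Real.log_nonneg
    nlinarith [Real.pi_pos, abs_nonneg k, mul_nonneg Real.pi_pos.le (abs_nonneg k)]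
  let ψ : ℕ → ℝ × ℝ → ℝ := fun n p => max (lg k n p / n) 0
  have hψm : ∀ n, Measurable (ψ n) := fun n =>
    ((measurable_lg k n).div_const _).max measurable_const
  have hψb : ∀ n p, ‖ψ n p‖ ≤ L := by
    intro n p
    rw [Real.norm_of_nonneg (le_max_right _ _)]
    apply max_le _ hLnn
    rcases Nat.eq_zero_or_pos n with rfl | hn
    · simpa using hLnn
    · rw [div_le_iff₀ (by exact_mod_cast hn)]
      have := lg_le k n p
      rw [mul_comm]
      exact this
  have : IsFiniteMeasure (volume.restrict Q : Measure (ℝ × ℝ)) :=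
    ⟨by rw [Measure.restrict_apply_univ, volume_Q]; exact ENNReal.one_lt_top⟩
  have hae : ∀ᵐ p ∂(volume.restrict Q), Tendsto (fun n => ψ n p) atTop (𝓝 0) := by
    rw [ae_restrict_iff' measurableSet_Q]
    have : ∀ᵐ p ∂(volume : Measure (ℝ × ℝ)), p ∉ Good k ∩ Q := measure_eq_zero_iff_ae_notMem.mp h0
    filter_upwards [this] with p hp hpQ
    have hpG : p ∉ Good k := fun hh => hp ⟨hh, hpQ⟩
    rw [Metric.tendsto_atTop]
    intro ε hε
    have h1 : ¬ ∃ᶠ n : ℕ in atTop, (ε / 2) * n ≤ lg k n p := by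
      intro hf
      exact hpG ⟨ε / 2, by positivity, hf⟩
    rw [Filter.not_frequently] at h1
    obtain ⟨N, hN⟩ := (h1.and (eventually_gt_atTop 0)).exists_forall_of_atTop
    refine ⟨N, fun n hn => ?_⟩
    obtain ⟨h2, h3⟩ := hN n hn
    push Not at h2
    rw [Real.dist_eq, sub_zero, abs_of_nonneg (le_max_right _ _)]
    have hn' : (0:ℝ) < n := by exact_mod_cast h3
    apply max_lt _ hε
    rw [div_lt_iff₀ hn']
    nlinarith
  have hT : Tendsto (fun n => ∫ p in Q, ψ n p) atTop (𝓝 (∫ p in Q, (0:ℝ))) := by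
    apply tendsto_integral_of_dominated_convergence (fun _ => L)
    · intro n
      exact (hψm n).aestronglyMeasurable
    · exact integrable_const L
    · intro n
      exact Eventually.of_forall (hψb n)
    · simpa using hae
  simp only [integral_zero] at hT
  have hev : ∀ᶠ n in atTop, ∫ p in Q, ψ n p < c := by
    exact (hT.eventually_lt_const hc)
  obtain ⟨n, h1, h2, h3⟩ := (h.and_eventually (hev.and (eventually_gt_atTop 0))).exists
  have hn' : (0:ℝ) < n := by exact_mod_cast h3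
  have hint : Integrable (lg k n) (volume.restrict Q) := by
    by_contra hni
    have := integral_undef hni
    rw [this] at h1
    have : 0 < c * n := by positivity
    linarith
  have hψi : Integrable (ψ n) (volume.restrict Q) := by
    refine Integrable.mono' (integrable_const L) (hψm n).aestronglyMeasurable ?_
    exact Eventually.of_forall (hψb n)
  have h4 : ∫ p in Q, lg k n p / n ≤ ∫ p in Q, ψ n p := by
    apply integral_mono (hint.div_const _) hψi
    intro p
    exact le_max_left _ _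
  rw [integral_div] at h4
  have h5 : c ≤ (∫ p in Q, lg k n p) / n := by
    rw [le_div_iff₀ hn']
    exact h1
  linarith

/-- The statement of S0172 from integral lower bounds. -/
theorem result_of_integral
    (H : ∃ k₀ : ℝ, 0 < k₀ ∧ ∀ k : ℝ, k₀ ≤ k → ∃ c : ℝ, 0 < c ∧
      ∃ᶠ n : ℕ in atTop, c * n ≤ ∫ p in Q, lg k n p) :
    ∃ k₀ : ℝ, 0 < k₀ ∧ ∀ k : ℝ, k₀ ≤ k →
      0 < MeasureTheory.volume ({p : ℝ × ℝ | ∃ c : ℝ, 0 < c ∧
          ∃ᶠ n : ℕ in Filter.atTop, c * n ≤ Real.log ‖fderiv ℝ (standardMapLift k)^[n] p‖} ∩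
        Set.Ico (0 : ℝ) 1 ×ˢ Set.Ico (0 : ℝ) 1) := by
  obtain ⟨k₀, hk₀, H⟩ := H
  refine ⟨k₀, hk₀, fun k hk => ?_⟩
  obtain ⟨c, hc, h⟩ := H k hk
  exact pos_of_integral hc h

end Crest.Agent.R128
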