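import Mathlib
import Crest.Agent.R128.Red

set_option autoImplicit false

open MeasureTheory Filter Topology
open Crest.AnalysisR.StandardFamily

namespace Crest.Agent.R128

/-- the torus; a point is `(x_{n-1}, x_n)` -/
abbrev Tor := UnitAddCircle × UnitAddCircle

/-- `k sin 2πx` mod 1 -/
noncomputable def sk (k : ℝ) (x : UnitAddCircle) : UnitAddCircle :=
  ((k * (AddCircle.toCircle x : ℂ).im : ℝ) : UnitAddCircle)

/-- `V(x) = 2 + 2πk cos 2πx` -/
noncomputable def V (k : ℝ) (x : UnitAddCircle) : ℝ :=
  2 + 2 * Real.pi * k * (AddCircle.toCircle x : ℂ).re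

theorem sk_coe (k x : ℝ) : sk k (x : UnitAddCircle) = ((k * Real.sin (2 * Real.pi * x) : ℝ) : UnitAddCircle) := by
  unfold sk
  rw [AddCircle.toCircle_apply_mk, Circle.coe_exp, Complex.exp_ofReal_mul_I_im]
  simp

theorem V_coe (k x : ℝ) : V k (x : UnitAddCircle) = 2 + 2 * Real.pi * k * Real.cos (2 * Real.pi * x) := by
  unfold V
  rw [AddCircle.toCircle_apply_mk, Circle.coe_exp, Complex.exp_ofReal_mul_I_re]
  simp

theorem continuous_sk (k : ℝ) : Continuous (sk k) := by
  unfold sk
  have h1 : Continuous fun x : UnitAddCircle => ((AddCircle.toCircle x : ℂ)) :=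
    continuous_subtype_val.comp AddCircle.continuous_toCircle
  exact (AddCircle.continuous_mk' 1).comp (continuous_const.mul (Complex.continuous_im.comp h1))

theorem continuous_V (k : ℝ) : Continuous (V k) := by
  unfold V
  have h1 : Continuous fun x : UnitAddCircle => ((AddCircle.toCircle x : ℂ)) :=
    continuous_subtype_val.comp AddCircle.continuous_toCircle
  exact continuous_const.add (continuous_const.mul (Complex.continuous_re.comp h1))

/-- The standard map in the coordinates `(x_{n-1}, x_n)`. -/
noncomputable def T (k : ℝ) (p : Tor) : Tor := (p.2, p.2 + p.2 + sk k p.2 - p.1)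

noncomputable def Tinv (k : ℝ) (p : Tor) : Tor := (p.1 + p.1 + sk k p.1 - p.2, p.1)

theorem Tinv_T (k : ℝ) (p : Tor) : Tinv k (T k p) = p := by
  unfold Tinv T
  ext <;> simp

theorem T_Tinv (k : ℝ) (p : Tor) : T k (Tinv k p) = p := by
  unfold Tinv T
  ext <;> simp

theorem continuous_T (k : ℝ) : Continuous (T k) := by
  unfold T
  exact continuous_snd.prodMk (((continuous_snd.add continuous_snd).add
    ((continuous_sk k).comp continuous_snd)).sub continuous_fst)

theorem continuous_Tinv (k : ℝ) : Continuous (Tinv k) := by
  unfold Tinv
  exact (((continuous_fst.add continuous_fst).add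
    ((continuous_sk k).comp continuous_fst)).sub continuous_snd).prodMk continuous_fst

/-- `T` as a homeomorphism -/
noncomputable def TH (k : ℝ) : Tor ≃ₜ Tor where
  toFun := T k
  invFun := Tinv k
  left_inv := Tinv_T k
  right_inv := T_Tinv k
  continuous_toFun := continuous_T k
  continuous_invFun := continuous_Tinv k

/-- a fibred reflection `(b, a) ↦ (b, h b - a)` preserves the measure -/
theorem mp_fib (h : UnitAddCircle → UnitAddCircle) (hh : Measurable h) :
    MeasurePreserving (fun p : Tor => (p.1, h p.1 - p.2)) volume volume := by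
  have := (MeasurePreserving.id (volume : Measure UnitAddCircle)).skew_product
    (μc := (volume : Measure UnitAddCircle)) (μd := (volume : Measure UnitAddCircle))
    (g := fun b a => h b - a) (by
      exact (hh.comp measurable_fst).sub measurable_snd)
    (ae_of_all _ fun b => (Measure.measurePreserving_sub_left (volume : Measure UnitAddCircle) (h b)).map_eq)
  exact this

theorem mp_fib' (h : UnitAddCircle → UnitAddCircle) (hh : Measurable h) :
    MeasurePreserving (fun p : Tor => (p.1, h p.1 + p.2)) volume volume := by
  have := (MeasurePreserving.id (volume : Measure UnitAddCircle)).skew_product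
    (μc := (volume : Measure UnitAddCircle)) (μd := (volume : Measure UnitAddCircle))
    (g := fun b a => h b + a) (by
      exact (hh.comp measurable_fst).add measurable_snd)
    (ae_of_all _ fun b => (measurePreserving_add_left (volume : Measure UnitAddCircle) (h b)).map_eq)
  exact this

theorem mp_swap : MeasurePreserving (Prod.swap : Tor → Tor) volume volume :=
  Measure.measurePreserving_swap

/-- `T` preserves the measure of the torus. -/
theorem mp_T (k : ℝ) : MeasurePreserving (T k) volume volume := by
  have h1 := (mp_fib (fun b => b + b + sk k b)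
    ((measurable_id.add measurable_id).add (continuous_sk k).measurable)).comp mp_swap
  exact h1

theorem mp_Tinv (k : ℝ) : MeasurePreserving (Tinv k) volume volume := by
  have h := (mp_T k).symm (TH k).toMeasurableEquiv
  exact h

/-- The projection of the plane onto the torus. -/
def pr (p : ℝ × ℝ) : Tor := ((p.1 : UnitAddCircle), (p.2 : UnitAddCircle))

theorem mp_pr : MeasurePreserving pr (volume.restrict Q) volume := by
  have h := UnitAddCircle.measurePreserving_mk 0
  rw [zero_add] at h
  have h2 := h.prod h
  have e : (volume.restrict Q : Measure (ℝ × ℝ)) =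
      (volume.restrict (Set.Ioc (0:ℝ) 1)).prod (volume.restrict (Set.Ioc (0:ℝ) 1)) := by
    unfold Q
    rw [Measure.volume_eq_prod, ← Measure.prod_restrict, restrict_Ico_eq_restrict_Ioc]
  rw [e]
  exact h2

/-- `(x, y) ↦ (x - y, x)` on the torus -/
def Ssh (p : Tor) : Tor := (p.1 - p.2, p.1)

theorem mp_Ssh : MeasurePreserving Ssh volume volume := by
  have h1 := mp_swap.comp (mp_fib (fun b => b) measurable_id)
  exact h1

instance : IsProbabilityMeasure (volume : Measure Tor) := by
  constructor
  rw [Measure.volume_eq_prod, ← Set.univ_prod_univ, Measure.prod_prod]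
  simp

end Crest.Agent.R128
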