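import Mathlib
import Crest.Agent.R128.Torus

set_option autoImplicit false

open MeasureTheory Filter Topology
open Crest.AnalysisR.StandardFamily

namespace Crest.Agent.R128

/-- one-step matrix on `(δ_{n-1}, δ_n)` -/
noncomputable def Am (k : ℝ) (z : Tor) : Matrix (Fin 2) (Fin 2) ℝ := !![0, 1; -1, V k z.2]

/-- the cocycle: `Mn k n z` maps `(δ_{-1}, δ_0)` to `(δ_{n-1}, δ_n)` -/
noncomputable def Mn (k : ℝ) : ℕ → Tor → Matrix (Fin 2) (Fin 2) ℝ
  | 0, _ => 1
  | n + 1, z => Mn k n (T k z) * Am k z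

@[simp] theorem Mn_zero (k : ℝ) (z : Tor) : Mn k 0 z = 1 := rfl

theorem Mn_succ (k : ℝ) (n : ℕ) (z : Tor) : Mn k (n + 1) z = Mn k n (T k z) * Am k z := rfl

theorem Mn_add (k : ℝ) (m n : ℕ) (z : Tor) :
    Mn k (m + n) z = Mn k m ((T k)^[n] z) * Mn k n z := by
  induction n generalizing z with
  | zero => simp
  | succ n ih =>
    rw [← Nat.add_assoc, Mn_succ, ih, Mn_succ, Matrix.mul_assoc, Function.iterate_succ_apply]

theorem Mn_succ' (k : ℝ) (n : ℕ) (z : Tor) :
    Mn k (n + 1) z = Am k ((T k)^[n] z) * Mn k n z := by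
  rw [add_comm, Mn_add, Mn_succ, Mn_zero, one_mul]

theorem det_Am (k : ℝ) (z : Tor) : (Am k z).det = 1 := by
  simp [Am, Matrix.det_fin_two]

theorem det_Mn (k : ℝ) (n : ℕ) (z : Tor) : (Mn k n z).det = 1 := by
  induction n generalizing z with
  | zero => simp
  | succ n ih => rw [Mn_succ, Matrix.det_mul, ih, det_Am, one_mul]

theorem continuous_Am (k : ℝ) : Continuous (Am k) := by
  unfold Am
  apply continuous_matrix
  intro i j
  fin_cases i <;> fin_cases j <;> simp <;> first | exact continuous_const |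
    exact (continuous_V k).comp continuous_snd

theorem continuous_Mn (k : ℝ) (n : ℕ) : Continuous (Mn k n) := by
  induction n with
  | zero => exact continuous_const
  | succ n ih => exact (ih.comp (continuous_T k)).matrix_mul (continuous_Am k)

/-- maximum of the absolute values of the entries -/
noncomputable def mx (M : Matrix (Fin 2) (Fin 2) ℝ) : ℝ :=
  max (max |M 0 0| |M 0 1|) (max |M 1 0| |M 1 1|)

theorem mx_nonneg (M : Matrix (Fin 2) (Fin 2) ℝ) : 0 ≤ mx M :=
  le_max_of_le_left (le_max_of_le_left (abs_nonneg _))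

theorem entry_le_mx (M : Matrix (Fin 2) (Fin 2) ℝ) (i j : Fin 2) : |M i j| ≤ mx M := by
  unfold mx
  fin_cases i <;> fin_cases j <;> simp

theorem continuous_mx : Continuous mx := by
  unfold mx
  fun_prop

theorem mx_sq_ge {M : Matrix (Fin 2) (Fin 2) ℝ} (h : M.det = 1) : 1 ≤ 2 * mx M ^ 2 := by
  rw [Matrix.det_fin_two] at h
  have h0 := mx_nonneg M
  have a := abs_le.mp (entry_le_mx M 0 0)
  have b := abs_le.mp (entry_le_mx M 0 1)
  have c := abs_le.mp (entry_le_mx M 1 0)
  have d := abs_le.mp (entry_le_mx M 1 1)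
  have h1 : M 0 0 * M 1 1 ≤ mx M ^ 2 := by
    have := mul_le_mul (entry_le_mx M 0 0) (entry_le_mx M 1 1) (abs_nonneg _) h0
    rw [← abs_mul] at this
    calc _ ≤ |M 0 0 * M 1 1| := le_abs_self _
      _ ≤ _ := by rw [sq]; exact this
  have h2 : -(M 0 1 * M 1 0) ≤ mx M ^ 2 := by
    have := mul_le_mul (entry_le_mx M 0 1) (entry_le_mx M 1 0) (abs_nonneg _) h0
    rw [← abs_mul] at this
    calc _ ≤ |M 0 1 * M 1 0| := neg_le_abs _
      _ ≤ _ := by rw [sq]; exact this
  linarith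

theorem mx_pos {M : Matrix (Fin 2) (Fin 2) ℝ} (h : M.det = 1) : 0 < mx M := by
  rcases (mx_nonneg M).eq_or_lt with h0 | h0
  · have := mx_sq_ge h
    rw [← h0] at this
    norm_num at this
  · exact h0

theorem log_mx_ge {M : Matrix (Fin 2) (Fin 2) ℝ} (h : M.det = 1) : -Real.log 2 ≤ Real.log (mx M) := by
  rw [← Real.log_inv]
  apply Real.log_le_log (by norm_num)
  have h1 := mx_sq_ge h
  have h2 := mx_nonneg M
  by_contra hc
  push Not at hc
  nlinarith

/-- action of a matrix on a pair -/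
def act (M : Matrix (Fin 2) (Fin 2) ℝ) (v : ℝ × ℝ) : ℝ × ℝ :=
  (M 0 0 * v.1 + M 0 1 * v.2, M 1 0 * v.1 + M 1 1 * v.2)

theorem act_mul (M N : Matrix (Fin 2) (Fin 2) ℝ) (v : ℝ × ℝ) :
    act (M * N) v = act M (act N v) := by
  unfold act
  simp only [Matrix.mul_apply, Fin.sum_univ_two]
  ext <;> simp <;> ring

def sv (v : ℝ × ℝ) : ℝ × ℝ := (v.1 - v.2, v.1)

theorem pr_sv (p : ℝ × ℝ) : pr (sv p) = Ssh (pr p) := by
  unfold pr sv Ssh
  simp

theorem pr_sv_F (k : ℝ) (p : ℝ × ℝ) : pr (sv (standardMapLift k p)) = T k (pr (sv p)) := by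
  unfold pr sv T standardMapLift
  have : sk k ((p.1 : ℝ) : UnitAddCircle) =
    ((k * Real.sin (2 * Real.pi * p.1) : ℝ) : UnitAddCircle) := sk_coe k p.1
  simp only [this]
  ext
  · simp
  · simp only [AddCircle.coe_add, AddCircle.coe_sub]
    abel

theorem act_fderiv (k : ℝ) (n : ℕ) (p v : ℝ × ℝ) :
    sv (fderiv ℝ (standardMapLift k)^[n] p v) = act (Mn k n (pr (sv p))) (sv v) := by
  induction n generalizing p v with
  | zero =>
    simp only [Function.iterate_zero, Mn_zero]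
    rw [show (id : ℝ × ℝ → ℝ × ℝ) = fun x => x from rfl, fderiv_fun_id]
    simp [act]
  | succ n ih =>
    rw [fderiv_iter_succ, ContinuousLinearMap.comp_apply, ih, Mn_succ, act_mul, pr_sv_F]
    congr 1
    have e : V k (pr (sv p)).2 = 2 + 2 * Real.pi * k * Real.cos (2 * Real.pi * p.1) := V_coe k p.1
    unfold act Am
    simp only [e]
    simp [DF, sv]
    ring

theorem norm_sv_le (v : ℝ × ℝ) : ‖sv v‖ ≤ 2 * ‖v‖ := by
  have h1 : |v.1| ≤ ‖v‖ := by simpa using norm_fst_le v
  have h2 : |v.2| ≤ ‖v‖ := by simpa using norm_snd_le v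
  rw [Prod.norm_def]
  unfold sv
  simp only [Real.norm_eq_abs]
  apply max_le
  · calc |v.1 - v.2| ≤ |v.1| + |v.2| := abs_sub _ _
      _ ≤ 2 * ‖v‖ := by linarith
  · linarith [norm_nonneg v]

theorem mx_le (k : ℝ) (n : ℕ) (p : ℝ × ℝ) :
    mx (Mn k n (pr (sv p))) ≤ 2 * ‖fderiv ℝ (standardMapLift k)^[n] p‖ := by
  set M := Mn k n (pr (sv p)) with hM
  set D := fderiv ℝ (standardMapLift k)^[n] p with hD
  have e1 : act M (1, 0) = sv (D (0, -1)) := by
    rw [hD, act_fderiv]
    simp [sv, hM]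
  have e2 : act M (0, 1) = sv (D (1, 1)) := by
    rw [hD, act_fderiv]
    simp [sv, hM]
  have n1 : ‖act M (1, 0)‖ ≤ 2 * ‖D‖ := by
    rw [e1]
    refine (norm_sv_le _).trans ?_
    have := D.le_opNorm (0, -1)
    have h1 : ‖((0 : ℝ), (-1 : ℝ))‖ = 1 := by simp [Prod.norm_def]
    rw [h1, mul_one] at this
    linarith
  have n2 : ‖act M (0, 1)‖ ≤ 2 * ‖D‖ := by
    rw [e2]
    refine (norm_sv_le _).trans ?_
    have := D.le_opNorm (1, 1)
    have h1 : ‖((1 : ℝ), (1 : ℝ))‖ = 1 := by simp [Prod.norm_def]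
    rw [h1, mul_one] at this
    linarith
  have a1 : act M (1, 0) = (M 0 0, M 1 0) := by simp [act]
  have a2 : act M (0, 1) = (M 0 1, M 1 1) := by simp [act]
  rw [a1, Prod.norm_def] at n1
  rw [a2, Prod.norm_def] at n2
  simp only [Real.norm_eq_abs] at n1 n2
  unfold mx
  exact max_le (max_le ((le_max_left _ _).trans n1) ((le_max_left _ _).trans n2))
    (max_le ((le_max_right _ _).trans n1) ((le_max_right _ _).trans n2))

/-- `log` of the size of the cocycle -/
noncomputable def lm (k : ℝ) (n : ℕ) (z : Tor) : ℝ := Real.log (mx (Mn k n z))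

theorem continuous_lm (k : ℝ) (n : ℕ) : Continuous (lm k n) :=
  Continuous.log (continuous_mx.comp (continuous_Mn k n)) fun z => (mx_pos (det_Mn k n z)).ne'

theorem integrable_lm (k : ℝ) (n : ℕ) : Integrable (lm k n) (volume : Measure Tor) :=
  (continuous_lm k n).integrable_of_hasCompactSupport (HasCompactSupport.of_compactSpace _)

theorem lm_le_lg (k : ℝ) (n : ℕ) (p : ℝ × ℝ) :
    lm k n (Ssh (pr p)) - Real.log 2 ≤ lg k n p := by
  have h := mx_le k n p
  have hp := mx_pos (det_Mn k n (pr (sv p)))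
  have hD : 0 < ‖fderiv ℝ (standardMapLift k)^[n] p‖ := by linarith
  have := Real.log_le_log hp h
  rw [Real.log_mul (by norm_num) hD.ne'] at this
  unfold lm lg
  rw [← pr_sv]
  linarith

theorem integrable_lg (k : ℝ) (n : ℕ) : Integrable (lg k n) (volume.restrict Q) := by
  have : IsFiniteMeasure (volume.restrict Q : Measure (ℝ × ℝ)) :=
    ⟨by rw [Measure.restrict_apply_univ, volume_Q]; exact ENNReal.one_lt_top⟩
  refine Integrable.mono' (integrable_const
    (max (n * Real.log (2 + 2 * Real.pi * |k|)) (2 * Real.log 2)))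
    (measurable_lg k n).aestronglyMeasurable (Eventually.of_forall fun p => ?_)
  rw [Real.norm_eq_abs, abs_le]
  constructor
  · have h1 := lm_le_lg k n p
    have h2 : -Real.log 2 ≤ lm k n (Ssh (pr p)) := log_mx_ge (det_Mn k n _)
    have h3 := le_max_right (n * Real.log (2 + 2 * Real.pi * |k|)) (2 * Real.log 2)
    linarith
  · exact (lg_le k n p).trans (le_max_left _ _)

theorem integral_lm_le (k : ℝ) (n : ℕ) :
    ∫ z : Tor, lm k n z ≤ (∫ p in Q, lg k n p) + Real.log 2 := by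
  have h1 : ∫ z : Tor, lm k n z = ∫ z : Tor, lm k n (Ssh z) := by
    conv_lhs => rw [← mp_Ssh.map_eq]
    rw [integral_map mp_Ssh.measurable.aemeasurable
      (continuous_lm k n).measurable.aestronglyMeasurable]
  have hm : Measurable fun z => lm k n (Ssh z) :=
    (continuous_lm k n).measurable.comp mp_Ssh.measurable
  have h2 : ∫ z : Tor, lm k n (Ssh z) = ∫ p in Q, lm k n (Ssh (pr p)) := by
    conv_lhs => rw [← mp_pr.map_eq]
    rw [integral_map mp_pr.measurable.aemeasurable hm.aestronglyMeasurable]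
  have hi : Integrable (fun p => lm k n (Ssh (pr p))) (volume.restrict Q) := by
    have := (mp_Ssh.integrable_comp (continuous_lm k n).measurable.aestronglyMeasurable).mpr
      (integrable_lm k n)
    exact (mp_pr.integrable_comp hm.aestronglyMeasurable).mpr this
  have hfin : IsFiniteMeasure (volume.restrict Q : Measure (ℝ × ℝ)) :=
    ⟨by rw [Measure.restrict_apply_univ, volume_Q]; exact ENNReal.one_lt_top⟩
  have h3 : ∫ p in Q, (lm k n (Ssh (pr p)) - Real.log 2) ≤ ∫ p in Q, lg k n p :=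
    integral_mono (hi.sub (integrable_const _)) (integrable_lg k n) (lm_le_lg k n)
  rw [integral_sub hi (integrable_const _), integral_const] at h3
  have h4 : (volume.restrict Q : Measure (ℝ × ℝ)).real Set.univ = 1 := by
    rw [measureReal_def, Measure.restrict_apply_univ, volume_Q]
    simp
  rw [h4] at h3
  simp only [smul_eq_mul, one_mul] at h3
  rw [h1, h2]
  linarith

/-- **S0172 from integral lower bounds for the cocycle on the torus.** -/
theorem result_of_torus
    (H : ∃ k₀ : ℝ, 0 < k₀ ∧ ∀ k : ℝ, k₀ ≤ k → ∃ c : ℝ, 0 < c ∧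
      ∃ᶠ n : ℕ in atTop, c * n ≤ ∫ z : Tor, lm k n z) :
    ∃ k₀ : ℝ, 0 < k₀ ∧ ∀ k : ℝ, k₀ ≤ k →
      0 < MeasureTheory.volume ({p : ℝ × ℝ | ∃ c : ℝ, 0 < c ∧
          ∃ᶠ n : ℕ in Filter.atTop, c * n ≤ Real.log ‖fderiv ℝ (standardMapLift k)^[n] p‖} ∩
        Set.Ico (0 : ℝ) 1 ×ˢ Set.Ico (0 : ℝ) 1) := by
  apply result_of_integral
  obtain ⟨k₀, hk₀, H⟩ := H
  refine ⟨k₀, hk₀, fun k hk => ?_⟩
  obtain ⟨c, hc, h⟩ := H k hk
  refine ⟨c / 2, by positivity, ?_⟩
  obtain ⟨N, hN⟩ := exists_nat_gt (2 * Real.log 2 / c)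
  refine (h.and_eventually (eventually_ge_atTop N)).mono ?_
  rintro n ⟨h1, h2⟩
  have h3 := integral_lm_le k n
  have h4 : (N : ℝ) ≤ n := by exact_mod_cast h2
  have h5 : 2 * Real.log 2 / c < n := lt_of_lt_of_le hN h4
  rw [div_lt_iff₀ hc] at h5
  nlinarith

end Crest.Agent.R128
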