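import Mathlib
import Crest.Agent.R128.AccSeq
import Crest.Agent.R128.Near

/-!
# Row 128, part A (helper485): reduction of S0172 to the density of deep tips

`TIP k h N z`: there is a vector `v` of norm one at `z` which is contracted below `exp (-h)` at
some time in `[-N, 0)` and at some time in `(0, N]`, and which has norm at most one in between (and less
than one just before: `z` is a first maximum, hence `|V k z.2| < 2`, `TIP_V`).
The start of the window is called `z'`, the vector there `w`.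
-/

set_option autoImplicit false
open MeasureTheory Filter Topology Finset
open Crest.AnalysisR.StandardFamily

namespace Crest.Agent.R128.Acc

/-- doubly contracted vectors; `z` is the place of the maximum -/
def TIP (k h : ℝ) (N : ℕ) (z : Tor) : Prop :=
  ∃ i j : ℕ, 0 < i ∧ i ≤ N ∧ 0 < j ∧ j ≤ N ∧ ∃ (z' : Tor) (w : ℝ × ℝ),
    (T k)^[i] z' = z ∧ ‖w‖ ≤ Real.exp (-h) ∧ ‖act (Mn k i z') w‖ = 1 ∧
    ‖act (Mn k (i - 1) z') w‖ < 1 ∧
    (∀ m, m ≤ i + j → ‖act (Mn k m z') w‖ ≤ 1) ∧ ‖act (Mn k (i + j) z') w‖ ≤ Real.exp (-h)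

/-- `l¹` norm of a row -/
noncomputable def rn (M : Matrix (Fin 2) (Fin 2) ℝ) (i : Fin 2) : ℝ := |M i 0| + |M i 1|

/-- `ρ_n`, norms of the rows of the cocycle -/
noncomputable def rr (k : ℝ) (z : Tor) (n : ℕ) : ℝ := rn (Mn k n z) 0

/-- digit -/
noncomputable def dg (k : ℝ) (z : Tor) (n : ℕ) : ℝ := |V k ((T k)^[n] z).2|

theorem row_succ_zero (k : ℝ) (n : ℕ) (z : Tor) (j : Fin 2) :
    Mn k (n + 1) z 0 j = Mn k n z 1 j := by
  rw [Mn_succ', Matrix.mul_apply, Fin.sum_univ_two]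
  simp [Am]

theorem row_succ_one (k : ℝ) (n : ℕ) (z : Tor) (j : Fin 2) :
    Mn k (n + 1) z 1 j = V k ((T k)^[n] z).2 * Mn k n z 1 j - Mn k n z 0 j := by
  rw [Mn_succ', Matrix.mul_apply, Fin.sum_univ_two]
  simp [Am]
  ring

theorem rr_succ (k : ℝ) (z : Tor) (n : ℕ) : rr k z (n + 1) = rn (Mn k n z) 1 := by
  unfold rr rn
  rw [row_succ_zero, row_succ_zero]

theorem rr_succ2 (k : ℝ) (z : Tor) (n : ℕ) : rr k z (n + 2) =
    |V k ((T k)^[n] z).2 * Mn k n z 1 0 - Mn k n z 0 0| +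
    |V k ((T k)^[n] z).2 * Mn k n z 1 1 - Mn k n z 0 1| := by
  rw [show n + 2 = (n + 1) + 1 from rfl, rr_succ]
  unfold rn
  rw [row_succ_one, row_succ_one]

theorem rr_h1 (k : ℝ) (z : Tor) (n : ℕ) :
    dg k z n * rr k z (n + 1) ≤ rr k z (n + 2) + rr k z n := by
  rw [rr_succ2, rr_succ]
  unfold dg rr rn
  set v := V k ((T k)^[n] z).2
  have a := abs_sub_abs_le_abs_sub (v * Mn k n z 1 0) (Mn k n z 0 0)
  have b := abs_sub_abs_le_abs_sub (v * Mn k n z 1 1) (Mn k n z 0 1)
  rw [abs_mul] at a b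
  nlinarith

theorem rr_h2 (k : ℝ) (z : Tor) (n : ℕ) :
    rr k z (n + 2) ≤ dg k z n * rr k z (n + 1) + rr k z n := by
  rw [rr_succ2, rr_succ]
  unfold dg rr rn
  set v := V k ((T k)^[n] z).2
  have a := abs_sub (v * Mn k n z 1 0) (Mn k n z 0 0)
  have b := abs_sub (v * Mn k n z 1 1) (Mn k n z 0 1)
  rw [abs_mul] at a b
  nlinarith

theorem rr_h3 (k : ℝ) (z : Tor) (n : ℕ) :
    rr k z n ≤ dg k z n * rr k z (n + 1) + rr k z (n + 2) := by
  rw [rr_succ2, rr_succ]
  unfold dg rr rn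
  set v := V k ((T k)^[n] z).2
  have a := abs_sub_abs_le_abs_sub (Mn k n z 0 0) (v * Mn k n z 1 0)
  have b := abs_sub_abs_le_abs_sub (Mn k n z 0 1) (v * Mn k n z 1 1)
  rw [abs_mul, abs_sub_comm] at a b
  nlinarith

theorem rr_h4 (k : ℝ) (z : Tor) (n : ℕ) : 1 ≤ rr k z n * rr k z (n + 1) := by
  rw [rr_succ]
  unfold rr rn
  have h := det_Mn k n z
  rw [Matrix.det_fin_two] at h
  have a := le_abs_self (Mn k n z 0 0 * Mn k n z 1 1)
  have b := neg_abs_le (Mn k n z 0 1 * Mn k n z 1 0)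
  rw [abs_mul] at a b
  have c := abs_nonneg (Mn k n z 0 0)
  have d := abs_nonneg (Mn k n z 0 1)
  have e := abs_nonneg (Mn k n z 1 0)
  have f := abs_nonneg (Mn k n z 1 1)
  have c1 := mul_nonneg c e
  have c2 := mul_nonneg d f
  nlinarith

theorem rr_nonneg (k : ℝ) (z : Tor) (n : ℕ) : 0 ≤ rr k z n := by
  unfold rr rn
  positivity

theorem rr_pos (k : ℝ) (z : Tor) (n : ℕ) : 0 < rr k z n := by
  rcases (rr_nonneg k z n).eq_or_lt with h | h
  · have := rr_h4 k z n
    rw [← h, zero_mul] at this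
    linarith
  · exact h

theorem rr_zero (k : ℝ) (z : Tor) : rr k z 0 = 1 := by
  unfold rr rn
  simp

theorem rr_one (k : ℝ) (z : Tor) : rr k z 1 = 1 := by
  rw [show (1:ℕ) = 0 + 1 from rfl, rr_succ]
  unfold rn
  simp

/-- the norm of the cocycle for the maximum norm -/
noncomputable def nm (k : ℝ) (n : ℕ) (z : Tor) : ℝ := max (rr k z n) (rr k z (n + 1))

theorem nm_pos (k : ℝ) (n : ℕ) (z : Tor) : 0 < nm k n z := lt_max_of_lt_left (rr_pos k z n)

theorem exp_bt (k : ℝ) (n : ℕ) (z : Tor) : Real.exp (bt (rr k z) n) = nm k n z :=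
  Real.exp_log (nm_pos k n z)

theorem abs_row_le (M : Matrix (Fin 2) (Fin 2) ℝ) (i : Fin 2) (v : ℝ × ℝ) :
    |M i 0 * v.1 + M i 1 * v.2| ≤ rn M i * ‖v‖ := by
  have h1 : |v.1| ≤ ‖v‖ := by simpa using norm_fst_le v
  have h2 : |v.2| ≤ ‖v‖ := by simpa using norm_snd_le v
  have a := abs_add_le (M i 0 * v.1) (M i 1 * v.2)
  rw [abs_mul, abs_mul] at a
  unfold rn
  have b := mul_le_mul_of_nonneg_left h1 (abs_nonneg (M i 0))
  have c := mul_le_mul_of_nonneg_left h2 (abs_nonneg (M i 1))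
  linarith

theorem norm_act_le (M : Matrix (Fin 2) (Fin 2) ℝ) (v : ℝ × ℝ) :
    ‖act M v‖ ≤ max (rn M 0) (rn M 1) * ‖v‖ := by
  rw [Prod.norm_def]
  unfold act
  simp only [Real.norm_eq_abs]
  apply max_le
  · exact (abs_row_le M 0 v).trans (mul_le_mul_of_nonneg_right (le_max_left _ _) (norm_nonneg v))
  · exact (abs_row_le M 1 v).trans (mul_le_mul_of_nonneg_right (le_max_right _ _) (norm_nonneg v))

theorem norm_act_Mn_le (k : ℝ) (n : ℕ) (z : Tor) (v : ℝ × ℝ) :
    ‖act (Mn k n z) v‖ ≤ nm k n z * ‖v‖ := by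
  have := norm_act_le (Mn k n z) v
  unfold nm
  rw [rr_succ]
  exact this

theorem exists_max_row (M : Matrix (Fin 2) (Fin 2) ℝ) (i : Fin 2) :
    ∃ e : ℝ × ℝ, ‖e‖ ≤ 1 ∧ M i 0 * e.1 + M i 1 * e.2 = rn M i := by
  have hs : ∀ x : ℝ, ∃ s : ℝ, |s| ≤ 1 ∧ x * s = |x| := by
    intro x
    rcases le_total 0 x with h | h
    · exact ⟨1, by simp, by rw [abs_of_nonneg h, mul_one]⟩
    · exact ⟨-1, by simp, by rw [abs_of_nonpos h]; ring⟩
  obtain ⟨s, hs1, hs2⟩ := hs (M i 0)
  obtain ⟨t, ht1, ht2⟩ := hs (M i 1)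
  refine ⟨(s, t), ?_, ?_⟩
  · rw [Prod.norm_def]
    exact max_le hs1 ht1
  · simp only [hs2, ht2]
    rfl

theorem exists_max (M : Matrix (Fin 2) (Fin 2) ℝ) :
    ∃ e : ℝ × ℝ, ‖e‖ ≤ 1 ∧ max (rn M 0) (rn M 1) ≤ ‖act M e‖ := by
  rcases le_total (rn M 0) (rn M 1) with h | h
  · obtain ⟨e, h1, h2⟩ := exists_max_row M 1
    refine ⟨e, h1, ?_⟩
    rw [max_eq_right h, ← h2, Prod.norm_def]
    exact (le_abs_self _).trans (le_max_right _ _)
  · obtain ⟨e, h1, h2⟩ := exists_max_row M 0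
    refine ⟨e, h1, ?_⟩
    rw [max_eq_left h, ← h2, Prod.norm_def]
    exact (le_abs_self _).trans (le_max_left _ _)

theorem act_smul (M : Matrix (Fin 2) (Fin 2) ℝ) (c : ℝ) (v : ℝ × ℝ) :
    act M (c • v) = c • act M v := by
  unfold act
  ext <;> simp <;> ring

/-- a top of the norm sequence is a TIP -/
theorem TIP_of_Top {k κ : ℝ} {z : Tor} {N t r : ℕ} (h : Top (bt (rr k z)) κ N t r) :
    TIP k (r * κ) N ((T k)^[t] z) := by
  obtain ⟨a, b, hat, htb, hbN, ha, hb, hm, hlt⟩ := h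
  obtain ⟨e, he1, he2⟩ := exists_max (Mn k t z)
  have hnm : max (rn (Mn k t z) 0) (rn (Mn k t z) 1) = nm k t z := by
    unfold nm
    rw [rr_succ]
    rfl
  rw [hnm] at he2
  have hp := nm_pos k t z
  have he3 : ‖act (Mn k t z) e‖ = nm k t z := by
    apply le_antisymm _ he2
    refine (norm_act_Mn_le k t z e).trans ?_
    nlinarith
  have key : ∀ m, ‖act (Mn k m z) ((nm k t z)⁻¹ • e)‖ ≤
      Real.exp (bt (rr k z) m - bt (rr k z) t) := by
    intro m
    rw [act_smul, norm_smul, Real.exp_sub, exp_bt, exp_bt, norm_inv, Real.norm_of_nonneg hp.le,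
      div_eq_inv_mul]
    apply mul_le_mul_of_nonneg_left _ (inv_nonneg.mpr hp.le)
    refine (norm_act_Mn_le k m z e).trans ?_
    have := (nm_pos k m z)
    nlinarith
  refine ⟨t - a, b - t, by omega, by omega, by omega, by omega, (T k)^[a] z,
    act (Mn k a z) ((nm k t z)⁻¹ • e), ?_, ?_, ?_, ?_, ?_, ?_⟩
  · rw [← Function.iterate_add_apply]
    congr 1
    omega
  · refine (key a).trans (Real.exp_le_exp.mpr (by linarith))
  · rw [← act_mul, ← Mn_add, show t - a + a = t by omega, act_smul, norm_smul, he3, norm_inv,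
      Real.norm_of_nonneg hp.le, inv_mul_cancel₀ hp.ne']
  · rw [← act_mul, ← Mn_add, show t - a - 1 + a = t - 1 by omega]
    refine (key (t - 1)).trans_lt ?_
    rw [← Real.exp_zero]
    exact Real.exp_lt_exp.mpr (by linarith)
  · intro m hm'
    rw [← act_mul, ← Mn_add]
    refine (key (m + a)).trans ?_
    rw [← Real.exp_zero]
    apply Real.exp_le_exp.mpr
    have := hm (m + a) (by omega) (by omega)
    linarith
  · rw [← act_mul, ← Mn_add, show t - a + (b - t) + a = b by omega]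
    refine (key b).trans (Real.exp_le_exp.mpr (by linarith))

theorem bt_le_lm (k : ℝ) (n : ℕ) (z : Tor) : bt (rr k z) n ≤ lm k n z + Real.log 2 := by
  have hp := mx_pos (det_Mn k n z)
  have h : nm k n z ≤ 2 * mx (Mn k n z) := by
    unfold nm
    rw [rr_succ]
    unfold rr rn
    have a := entry_le_mx (Mn k n z) 0 0
    have b := entry_le_mx (Mn k n z) 0 1
    have c := entry_le_mx (Mn k n z) 1 0
    have d := entry_le_mx (Mn k n z) 1 1
    exact max_le (by linarith) (by linarith)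
  have := Real.log_le_log (nm_pos k n z) h
  rw [Real.log_mul (by norm_num) hp.ne'] at this
  unfold lm bt
  unfold nm at this
  linarith

/-! ## Elementary properties of `TIP` -/

theorem TIP_mono {k h h' : ℝ} (hh : h' ≤ h) {N : ℕ} {z : Tor} (H : TIP k h N z) : TIP k h' N z := by
  obtain ⟨i, j, h1, h2, h3, h4, z', w, h5, h6, h7, h8, h9, h10⟩ := H
  have : Real.exp (-h) ≤ Real.exp (-h') := Real.exp_le_exp.mpr (by linarith)
  exact ⟨i, j, h1, h2, h3, h4, z', w, h5, h6.trans this, h7, h8, h9, h10.trans this⟩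

theorem TIP_mono_N {k h : ℝ} {N N' : ℕ} (hN : N ≤ N') {z : Tor} (H : TIP k h N z) :
    TIP k h N' z := by
  obtain ⟨i, j, h1, h2, h3, h4, z', w, H'⟩ := H
  exact ⟨i, j, h1, h2.trans hN, h3, h4.trans hN, z', w, H'⟩

/-- the digit at a tip is at most two -/
theorem TIP_V {k h : ℝ} {N : ℕ} {z : Tor} (H : TIP k h N z) : |V k z.2| < 2 := by
  obtain ⟨i, j, h1, h2, h3, h4, z', w, h5, h6, h7, h8, h9, h10⟩ := H
  set u := act (Mn k (i - 1) z') w with hu
  set v := act (Mn k i z') w with hv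
  have e1 : v = act (Am k ((T k)^[i - 1] z')) u := by
    rw [hv, hu, ← act_mul, ← Mn_succ', show i - 1 + 1 = i by omega]
  have e2 : act (Mn k (i + 1) z') w = act (Am k z) v := by
    rw [hv, ← act_mul, ← h5, ← Mn_succ']
  have e3 : v.1 = u.2 := by
    rw [e1]
    simp [act, Am]
  have h11 : |v.1| < 1 := by
    rw [e3]
    have : |u.2| ≤ ‖u‖ := by simpa using norm_snd_le u
    linarith
  have h12 : |v.2| = 1 := by
    rw [Prod.norm_def] at h7
    simp only [Real.norm_eq_abs] at h7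
    rcases le_total |v.1| |v.2| with h | h
    · rwa [max_eq_right h] at h7
    · rw [max_eq_left h] at h7
      linarith
  have h13 := h9 (i + 1) (by omega)
  rw [e2] at h13
  have h14 : |(act (Am k z) v).2| ≤ 1 := by
    have : |(act (Am k z) v).2| ≤ ‖act (Am k z) v‖ := by simpa using norm_snd_le (act (Am k z) v)
    linarith
  have e4 : (act (Am k z) v).2 = V k z.2 * v.2 - v.1 := by
    simp [act, Am]
    ring
  rw [e4] at h14
  have h15 := abs_sub_abs_le_abs_sub (V k z.2 * v.2) v.1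
  rw [abs_mul, h12, mul_one] at h15
  linarith

/-- area of the tips -/
noncomputable def NT (k h : ℝ) (N : ℕ) : ℝ := (volume : Measure Tor).real {z | TIP k h N z}

theorem NT_nonneg (k h : ℝ) (N : ℕ) : 0 ≤ NT k h N := measureReal_nonneg

theorem NT_anti {k h h' : ℝ} (hh : h' ≤ h) (N : ℕ) : NT k h N ≤ NT k h' N :=
  measureReal_mono fun _ H => TIP_mono hh H

theorem NT_le {k : ℝ} (hk : 1 ≤ k) (h : ℝ) (N : ℕ) : NT k h N ≤ 2 / k := by
  refine le_trans (measureReal_mono ?_) (volumeReal_V_le hk (by norm_num : (0:ℝ) ≤ 2))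
  intro z H
  exact (TIP_V H).le

/-! ## Pointwise and integrated accounting -/

theorem dg_le (k : ℝ) (hk : 0 ≤ k) (z : Tor) (n : ℕ) : dg k z n ≤ 2 + 2 * Real.pi * k := by
  unfold dg V
  have h1 : |((AddCircle.toCircle ((T k)^[n] z).2 : Circle) : ℂ).re| ≤ 1 := by
    have := Complex.abs_re_le_norm ((AddCircle.toCircle ((T k)^[n] z).2 : Circle) : ℂ)
    rwa [Circle.norm_coe] at this
  have h2 := abs_add_le 2 (2 * Real.pi * k * ((AddCircle.toCircle ((T k)^[n] z).2 : Circle) : ℂ).re)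
  rw [abs_mul, abs_of_nonneg (by positivity : 0 ≤ 2 * Real.pi * k)] at h2
  have h3 := mul_le_mul_of_nonneg_left h1 (by positivity : 0 ≤ 2 * Real.pi * k)
  have h4 : |(2 : ℝ)| = 2 := abs_of_pos (by norm_num)
  rw [h4] at h2
  linarith

theorem gn_ge (k : ℝ) (z : Tor) : lm k 1 z - Real.log 2 ≤ gn |V k z.2| := by
  have e : mx (Am k z) = max 1 |V k z.2| := by
    unfold mx Am
    simp
  rw [lm_one, e]
  unfold gn
  split_ifs with h
  · have : max 1 |V k z.2| ≤ 2 := max_le (by norm_num) h.le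
    have := Real.log_le_log (lt_max_of_lt_left (by norm_num)) this
    linarith
  · push Not at h
    rw [max_eq_right (by linarith), ← Real.log_div (by linarith) (by norm_num)]
    exact Real.log_le_log (by linarith) (by linarith)

open Classical in
theorem pointwise {k κ : ℝ} (hk : 0 ≤ k) (hκ : 0 < κ) (z : Tor) (N R : ℕ)
    (hR : N * Real.log (3 + 2 * Real.pi * k) ≤ R * κ) :
    (∑ n ∈ range N, (lm k 1 ((T k)^[n] z) - Real.log 2)) -
      (5 * Real.log (3 + 2 * Real.pi * k) + 4 * κ) *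
        #{n ∈ range N | dg k z n < Real.exp κ + 1}
      - 4 * κ * ∑ r ∈ Ico 1 R, (#{t ∈ range N | TIP k (r * κ) N ((T k)^[t] z)} : ℝ)
      ≤ lm k N z + Real.log 2 := by
  have h := accounting (ρ := rr k z) (V := dg k z) (L := Real.log (3 + 2 * Real.pi * k)) (κ := κ)
    (fun n => abs_nonneg _) (rr_pos k z) (rr_h1 k z) (rr_h2 k z) (rr_h3 k z) (rr_h4 k z)
    (rr_zero k z) (rr_one k z)
    (fun n => Real.log_le_log (by have := abs_nonneg (V k ((T k)^[n] z).2); unfold dg; linarith)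
      (by linarith [dg_le k hk z n])) hκ N R hR
  have h1 := bt_le_lm k N z
  have h2 : (∑ n ∈ range N, (lm k 1 ((T k)^[n] z) - Real.log 2)) ≤
      ∑ n ∈ range N, gn (dg k z n) := Finset.sum_le_sum fun n _ => gn_ge k _
  have h3 : ∑ r ∈ Ico 1 R, (#{t ∈ range N | Top (bt (rr k z)) κ N t r} : ℝ) ≤
      ∑ r ∈ Ico 1 R, (#{t ∈ range N | TIP k (r * κ) N ((T k)^[t] z)} : ℝ) := by
    refine Finset.sum_le_sum fun r _ => ?_
    have : #{t ∈ range N | Top (bt (rr k z)) κ N t r} ≤
        #{t ∈ range N | TIP k (r * κ) N ((T k)^[t] z)} := by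
      apply Finset.card_le_card
      intro t ht
      rw [Finset.mem_filter] at ht ⊢
      exact ⟨ht.1, TIP_of_Top ht.2⟩
    exact_mod_cast this
  have h4 := mul_le_mul_of_nonneg_left h3 (by positivity : 0 ≤ 4 * κ)
  linarith

theorem mp_iter (k : ℝ) (n : ℕ) : MeasurePreserving (T k)^[n] (volume : Measure Tor) volume :=
  (mp_T k).iterate n

theorem integral_comp_iter {k : ℝ} (n : ℕ) {f : Tor → ℝ} (hf : AEStronglyMeasurable f volume) :
    ∫ z, f ((T k)^[n] z) = ∫ z : Tor, f z := by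
  have := (mp_iter k n).map_eq
  conv_rhs => rw [← this]
  rw [integral_map (mp_iter k n).measurable.aemeasurable (by rw [this]; exact hf)]

theorem integrable_comp_iter {k : ℝ} (n : ℕ) {f : Tor → ℝ} (hf : Integrable f volume) :
    Integrable (fun z => f ((T k)^[n] z)) (volume : Measure Tor) :=
  (mp_iter k n).integrable_comp_of_integrable hf

/-- **integrated accounting** -/
theorem integrated {k κ : ℝ} (hk : 1 ≤ k) (hκ : 0 < κ) (N R : ℕ)
    (hR : N * Real.log (3 + 2 * Real.pi * k) ≤ R * κ) :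
    N * (Real.log k - 3 - Real.log 2
      - (5 * Real.log (3 + 2 * Real.pi * k) + 4 * κ) * ((Real.exp κ + 1) / k)
      - 4 * κ * ∑ r ∈ Ico 1 R, NT k (r * κ) N) - Real.log 2 ≤ ∫ z : Tor, lm k N z := by
  classical
  set c1 := 5 * Real.log (3 + 2 * Real.pi * k) + 4 * κ with hc1
  have hc1n : 0 ≤ c1 := by
    have : 0 ≤ Real.log (3 + 2 * Real.pi * k) := Real.log_nonneg (by
      have : 0 ≤ 2 * Real.pi * k := by positivity
      linarith)
    positivity
  set B : Set Tor := {z | |V k z.2| ≤ Real.exp κ + 1} with hB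
  have hBm : MeasurableSet B :=
    (isClosed_le ((continuous_V k).comp continuous_snd).abs continuous_const).measurableSet
  set S : ℕ → Set Tor := fun r => toMeasurable volume {z | TIP k (r * κ) N z} with hS
  have hSm : ∀ r, MeasurableSet (S r) := fun r => measurableSet_toMeasurable _ _
  have hSv : ∀ r : ℕ, (volume : Measure Tor).real (S r) = NT k (r * κ) N := by
    intro r
    simp only [hS, NT, measureReal_def, measure_toMeasurable]
  have hBI : Integrable (B.indicator (fun _ => (1:ℝ))) (volume : Measure Tor) :=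
    (integrable_const (1:ℝ)).indicator hBm
  have hSI : ∀ r, Integrable ((S r).indicator (fun _ => (1:ℝ))) (volume : Measure Tor) :=
    fun r => (integrable_const (1:ℝ)).indicator (hSm r)
  have hlI : Integrable (fun z => lm k 1 z - Real.log 2) (volume : Measure Tor) :=
    (integrable_lm k 1).sub (integrable_const _)
  have hpt : ∀ z : Tor, (∑ n ∈ range N, (lm k 1 ((T k)^[n] z) - Real.log 2)) -
      c1 * (∑ n ∈ range N, B.indicator (fun _ => (1:ℝ)) ((T k)^[n] z))
      - 4 * κ * (∑ r ∈ Ico 1 R, ∑ n ∈ range N, (S r).indicator (fun _ => (1:ℝ)) ((T k)^[n] z))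
      ≤ lm k N z + Real.log 2 := by
    intro z
    refine le_trans ?_ (pointwise (by linarith) hκ z N R hR)
    have e1 : (#{n ∈ range N | dg k z n < Real.exp κ + 1} : ℝ) ≤
        ∑ n ∈ range N, B.indicator (fun _ => (1:ℝ)) ((T k)^[n] z) := by
      rw [Finset.card_filter]
      push_cast
      refine Finset.sum_le_sum fun n _ => ?_
      rw [Set.indicator_apply]
      split_ifs with h1 h2 h2
      · exact le_rfl
      · exact absurd h1.le h2
      · norm_num
      · exact le_rfl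
    have e2 : (∑ r ∈ Ico 1 R, (#{t ∈ range N | TIP k (r * κ) N ((T k)^[t] z)} : ℝ)) ≤
        ∑ r ∈ Ico 1 R, ∑ n ∈ range N, (S r).indicator (fun _ => (1:ℝ)) ((T k)^[n] z) := by
      refine Finset.sum_le_sum fun r _ => ?_
      rw [Finset.card_filter]
      push_cast
      refine Finset.sum_le_sum fun n _ => ?_
      rw [Set.indicator_apply]
      split_ifs with h1 h2 h2
      · exact le_rfl
      · exact absurd (subset_toMeasurable volume {z | TIP k (r * κ) N z} h1) h2
      · norm_num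
      · exact le_rfl
    have e3 := mul_le_mul_of_nonneg_left e1 hc1n
    have e4 := mul_le_mul_of_nonneg_left e2 (by positivity : 0 ≤ 4 * κ)
    linarith
  have i1 : Integrable (fun z : Tor => ∑ n ∈ range N, (lm k 1 ((T k)^[n] z) - Real.log 2)) volume :=
    integrable_finsetSum _ fun n _ => integrable_comp_iter n hlI
  have i2 : Integrable (fun z : Tor => c1 * ∑ n ∈ range N, B.indicator (fun _ => (1:ℝ))
      ((T k)^[n] z)) volume :=
    (integrable_finsetSum _ fun n _ => integrable_comp_iter n hBI).const_mul _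
  have i3 : Integrable (fun z : Tor => 4 * κ * ∑ r ∈ Ico 1 R, ∑ n ∈ range N,
      (S r).indicator (fun _ => (1:ℝ)) ((T k)^[n] z)) volume :=
    (integrable_finsetSum _ fun r _ => integrable_finsetSum _ fun n _ =>
      integrable_comp_iter n (hSI r)).const_mul _
  have hI : ∫ z : Tor, ((∑ n ∈ range N, (lm k 1 ((T k)^[n] z) - Real.log 2)) -
      c1 * (∑ n ∈ range N, B.indicator (fun _ => (1:ℝ)) ((T k)^[n] z))
      - 4 * κ * (∑ r ∈ Ico 1 R, ∑ n ∈ range N, (S r).indicator (fun _ => (1:ℝ)) ((T k)^[n] z)))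
      ≤ ∫ z : Tor, (lm k N z + Real.log 2) :=
    integral_mono ((i1.sub i2).sub i3) ((integrable_lm k N).add (integrable_const _)) hpt
  have j1 : ∫ z : Tor, ∑ n ∈ range N, (lm k 1 ((T k)^[n] z) - Real.log 2) =
      N * ((∫ z : Tor, lm k 1 z) - Real.log 2) := by
    rw [integral_finsetSum _ fun n _ => integrable_comp_iter n hlI]
    have : ∀ n, ∫ z : Tor, (lm k 1 ((T k)^[n] z) - Real.log 2) =
        (∫ z : Tor, lm k 1 z) - Real.log 2 := by
      intro n
      rw [integral_comp_iter (f := fun z => lm k 1 z - Real.log 2) n hlI.aestronglyMeasurable,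
        integral_sub (integrable_lm k 1) (integrable_const _)]
      simp
    rw [Finset.sum_congr rfl fun n _ => this n]
    simp only [Finset.sum_const, Finset.card_range, nsmul_eq_mul]
  have j2 : ∫ z : Tor, c1 * ∑ n ∈ range N, B.indicator (fun _ => (1:ℝ)) ((T k)^[n] z) =
      c1 * (N * (volume : Measure Tor).real B) := by
    rw [integral_const_mul, integral_finsetSum _ fun n _ => integrable_comp_iter n hBI]
    have : ∀ n, ∫ z : Tor, B.indicator (fun _ => (1:ℝ)) ((T k)^[n] z) =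
        (volume : Measure Tor).real B := by
      intro n
      rw [integral_comp_iter (f := B.indicator (fun _ => (1:ℝ))) n hBI.aestronglyMeasurable,
        integral_indicator hBm]
      simp
    rw [Finset.sum_congr rfl fun n _ => this n]
    simp
  have j3 : ∫ z : Tor, 4 * κ * ∑ r ∈ Ico 1 R, ∑ n ∈ range N,
      (S r).indicator (fun _ => (1:ℝ)) ((T k)^[n] z) =
      4 * κ * (N * ∑ r ∈ Ico 1 R, NT k (r * κ) N) := by
    rw [integral_const_mul, integral_finsetSum _ fun r _ => integrable_finsetSum _ fun n _ =>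
      integrable_comp_iter n (hSI r)]
    congr 1
    rw [Finset.mul_sum]
    refine Finset.sum_congr rfl fun r _ => ?_
    rw [integral_finsetSum _ fun n _ => integrable_comp_iter n (hSI r)]
    have : ∀ n, ∫ z : Tor, (S r).indicator (fun _ => (1:ℝ)) ((T k)^[n] z) = NT k (r * κ) N := by
      intro n
      rw [integral_comp_iter (f := (S r).indicator (fun _ => (1:ℝ))) n
        (hSI r).aestronglyMeasurable, integral_indicator (hSm r)]
      simp [hSv r]
    rw [Finset.sum_congr rfl fun n _ => this n]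
    simp
  have k1 := integral_sub (i1.sub i2) i3
  have k2 := integral_sub i1 i2
  simp only [Pi.sub_apply] at k1 k2
  rw [k1, k2, j1, j2, j3, integral_add (integrable_lm k N) (integrable_const _)] at hI
  simp only [integral_const, probReal_univ, smul_eq_mul, one_mul] at hI
  have hl := log_sub_le_integral_lm_one hk
  have hBv : (volume : Measure Tor).real B ≤ (Real.exp κ + 1) / k :=
    volumeReal_V_le hk (by positivity)
  have hN : (0 : ℝ) ≤ N := Nat.cast_nonneg N
  have a1 := mul_le_mul_of_nonneg_left hl hN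
  have a2 := mul_le_mul_of_nonneg_left (mul_le_mul_of_nonneg_left hBv hc1n) hN
  nlinarith

/-! ## The reduction -/

theorem sum_NT_half {k : ℝ} (hk : 1 ≤ k) (N R : ℕ) :
    ∑ r ∈ Ico 1 (2 * (R + 1)), NT k (r * (Real.log k / 2)) N ≤
      2 / k + 2 * ∑ l ∈ Ico 1 (R + 1), NT k (l * Real.log k) N := by
  have hl : 0 ≤ Real.log k := Real.log_nonneg hk
  induction R with
  | zero =>
    simp only [zero_add, mul_one, Finset.Ico_self, Finset.sum_empty, mul_zero, add_zero]
    rw [show Ico 1 2 = {1} from rfl, Finset.sum_singleton]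
    exact NT_le hk _ _
  | succ R ih =>
    rw [show 2 * (R + 1 + 1) = 2 * (R + 1) + 1 + 1 by ring,
      Finset.sum_Ico_succ_top (by omega), Finset.sum_Ico_succ_top (by omega),
      Finset.sum_Ico_succ_top (by omega : 1 ≤ R + 1)]
    have a : NT k (((2 * (R + 1) : ℕ) : ℝ) * (Real.log k / 2)) N ≤
        NT k (((R + 1 : ℕ) : ℝ) * Real.log k) N := by
      apply le_of_eq
      congr 1
      push_cast
      ring
    have b : NT k (((2 * (R + 1) + 1 : ℕ) : ℝ) * (Real.log k / 2)) N ≤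
        NT k (((R + 1 : ℕ) : ℝ) * Real.log k) N := by
      apply NT_anti
      push_cast
      nlinarith
    linarith

/-- **Part A.** It is enough to bound the total density of the tips of height `≥ l log k`,
`l ≥ 1`, by `1/10`. -/
theorem torus_of_tips
    (H : ∃ k₁ : ℝ, ∀ k : ℝ, k₁ ≤ k → ∃ᶠ N : ℕ in atTop, ∀ R : ℕ,
      ∑ l ∈ Ico 1 R, NT k (l * Real.log k) N ≤ 1 / 10) :
    ∃ k₀ : ℝ, 0 < k₀ ∧ ∀ k : ℝ, k₀ ≤ k → ∃ c : ℝ, 0 < c ∧
      ∃ᶠ n : ℕ in atTop, c * n ≤ ∫ z : Tor, lm k n z := by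
  obtain ⟨k₁, H⟩ := H
  refine ⟨max k₁ (Real.exp 100), lt_max_of_lt_right (Real.exp_pos _), fun k hk => ?_⟩
  have hk1 : k₁ ≤ k := (le_max_left _ _).trans hk
  have hk2 : Real.exp 100 ≤ k := (le_max_right _ _).trans hk
  have hk0 : 0 < k := (Real.exp_pos _).trans_le hk2
  set x := Real.log k with hx
  have hx100 : 100 ≤ x := by
    rw [hx, Real.le_log_iff_exp_le hk0]
    exact hk2
  have hk' : 1 ≤ k := by
    have := Real.add_one_le_exp 100
    linarith
  have hkx : k = Real.exp x := (Real.exp_log hk0).symm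
  refine ⟨1, one_pos, ((H k hk1).and_eventually (eventually_ge_atTop 1)).mono ?_⟩
  rintro N ⟨hN, hN1⟩
  set κ := x / 2 with hκ
  have hκ0 : 0 < κ := by linarith
  obtain ⟨R, hR⟩ := exists_nat_ge (N * Real.log (3 + 2 * Real.pi * k) / κ)
  have hR2 : N * Real.log (3 + 2 * Real.pi * k) ≤ ((2 * (R + 1) : ℕ) : ℝ) * κ := by
    rw [div_le_iff₀ hκ0] at hR
    push_cast
    have : (0 : ℝ) ≤ R := Nat.cast_nonneg R
    nlinarith
  have h := integrated hk' hκ0 N (2 * (R + 1)) hR2
  have h1 := sum_NT_half hk' N R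
  have h2 := hN (R + 1)
  rw [← hx] at h1 h2 h
  rw [← hκ] at h1
  set Sg := ∑ r ∈ Ico 1 (2 * (R + 1)), NT k (r * κ) N
  have hSg : Sg ≤ 2 / k + 1 / 5 := by linarith
  have hNr : (1 : ℝ) ≤ N := by exact_mod_cast hN1
  have hlog2 : Real.log 2 ≤ 1 := by
    have := Real.log_le_sub_one_of_pos (by norm_num : (0:ℝ) < 2)
    linarith
  have hpi := Real.pi_lt_d2
  have hpi0 := Real.pi_pos
  have hL : Real.log (3 + 2 * Real.pi * k) ≤ x + 9 := by
    have a : 3 + 2 * Real.pi * k ≤ 10 * k := by nlinarith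
    have b := Real.log_le_log (by positivity) a
    rw [Real.log_mul (by norm_num) hk0.ne'] at b
    have c := Real.log_le_sub_one_of_pos (by norm_num : (0:ℝ) < 10)
    linarith
  have hL0 : 0 ≤ Real.log (3 + 2 * Real.pi * k) := Real.log_nonneg (by
    have : 0 ≤ 2 * Real.pi * k := by positivity
    linarith)
  -- `(√k + 1) / k ≤ 16 / x²`
  have he : x ^ 2 / 8 ≤ Real.exp κ := by
    have := Real.quadratic_le_exp_of_nonneg hκ0.le
    rw [hκ] at this ⊢
    nlinarith
  have hkk : k = Real.exp κ * Real.exp κ := by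
    rw [← Real.exp_add, hκ, add_halves]
    exact hkx
  have heκ : 0 < Real.exp κ := Real.exp_pos κ
  have he1 : 1 ≤ Real.exp κ := by nlinarith
  have hB : (Real.exp κ + 1) / k ≤ 16 / x ^ 2 := by
    rw [div_le_div_iff₀ hk0 (by positivity)]
    nlinarith
  have hB2 : (5 * Real.log (3 + 2 * Real.pi * k) + 4 * κ) * ((Real.exp κ + 1) / k) ≤ 2 := by
    have a : 5 * Real.log (3 + 2 * Real.pi * k) + 4 * κ ≤ 7 * x + 45 := by linarith
    have b : 0 ≤ (Real.exp κ + 1) / k := by positivity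
    have c : (7 * x + 45) * (16 / x ^ 2) ≤ 2 := by
      rw [mul_div_assoc', div_le_iff₀ (by positivity)]
      nlinarith
    calc _ ≤ (7 * x + 45) * ((Real.exp κ + 1) / k) := mul_le_mul_of_nonneg_right a b
      _ ≤ (7 * x + 45) * (16 / x ^ 2) := mul_le_mul_of_nonneg_left hB (by linarith)
      _ ≤ 2 := c
  have hC : 4 * κ * Sg ≤ 1 + 2 * x / 5 := by
    have a : 4 * κ * Sg ≤ 4 * κ * (2 / k + 1 / 5) := mul_le_mul_of_nonneg_left hSg (by positivity)
    have b : 4 * κ * (2 / k) ≤ 1 := by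
      rw [mul_div_assoc', div_le_iff₀ hk0]
      nlinarith
    linarith
  have hfin : (1 : ℝ) + 1 ≤ x - 3 - Real.log 2
      - (5 * Real.log (3 + 2 * Real.pi * k) + 4 * κ) * ((Real.exp κ + 1) / k) - 4 * κ * Sg := by
    linarith
  have := mul_le_mul_of_nonneg_left hfin (by linarith : (0:ℝ) ≤ N)
  linarith

/-- **S0172 from the tips.** -/
theorem result_of_tips
    (H : ∃ k₁ : ℝ, ∀ k : ℝ, k₁ ≤ k → ∃ᶠ N : ℕ in atTop, ∀ R : ℕ,
      ∑ l ∈ Ico 1 R, NT k (l * Real.log k) N ≤ 1 / 10) :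
    ∃ k₀ : ℝ, 0 < k₀ ∧ ∀ k : ℝ, k₀ ≤ k →
      0 < MeasureTheory.volume ({p : ℝ × ℝ | ∃ c : ℝ, 0 < c ∧
          ∃ᶠ n : ℕ in Filter.atTop, c * n ≤ Real.log ‖fderiv ℝ (standardMapLift k)^[n] p‖} ∩
        Set.Ico (0 : ℝ) 1 ×ˢ Set.Ico (0 : ℝ) 1) :=
  result_of_torus (torus_of_tips H)

end Crest.Agent.R128.Acc
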