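import Mathlib
import Crest.Agent.R128.Acc

/-!
# Row 128, part A in ROOT form (helper485)

`β n = log ‖A_{0→n}(z)‖` is the contour from one root.  `cross k N z` = number of closed components
`(a, b)` of `{β > l log k}`, `l = 0, 1, 2, ...`, with right end `b ≤ N`.  If the mean of `cross` is at
most `N / 4` for `k` large and frequently many `N`, then S0172 holds.
-/

set_option autoImplicit false
open MeasureTheory Filter Topology Finset
open Crest.AnalysisR.StandardFamily

namespace Crest.Agent.R128.AccRoot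

open Crest.Agent.R128.Acc

/-- excess of the ceiling -/
noncomputable def phi (κ x : ℝ) : ℝ := κ * ⌈x / κ⌉₊ - x

theorem phi_nonneg {κ x : ℝ} (hκ : 0 < κ) : 0 ≤ phi κ x := by
  unfold phi
  have := Nat.le_ceil (x / κ)
  rw [div_le_iff₀ hκ] at this
  linarith

theorem phi_le {κ x : ℝ} (hκ : 0 < κ) (hx : 0 ≤ x) : phi κ x ≤ κ := by
  unfold phi
  have := (Nat.ceil_lt_add_one (div_nonneg hx hκ.le)).le
  have h2 := mul_le_mul_of_nonneg_left this hκ.le
  rw [mul_add, mul_div_cancel₀ _ hκ.ne', mul_one] at h2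
  linarith

/-- a descending run starts at `n` -/
def Rs (β : ℕ → ℝ) (n : ℕ) : Prop := β (n + 1) < β n ∧ (n = 0 ∨ β (n - 1) ≤ β n)

open Classical in
theorem down_le_runs {β : ℕ → ℝ} {κ : ℝ} (hκ : 0 < κ) (hβ : ∀ n, 0 ≤ β n) (N : ℕ) :
    ∑ n ∈ range N, max 0 (β n - β (n + 1)) ≤
      κ * ((∑ n ∈ range N, (⌈β n / κ⌉₊ - ⌈β (n + 1) / κ⌉₊) : ℕ) : ℝ) +
      κ * #{n ∈ range N | Rs β n} := by
  have key : ∀ N, ∑ n ∈ range N, max 0 (β n - β (n + 1)) ≤
      κ * ((∑ n ∈ range N, (⌈β n / κ⌉₊ - ⌈β (n + 1) / κ⌉₊) : ℕ) : ℝ) +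
      κ * #{n ∈ range N | Rs β n} -
      (if 1 ≤ N ∧ β N < β (N - 1) then κ - phi κ (β N) else 0) := by
    intro N
    induction N with
    | zero => simp
    | succ N ih =>
      rw [Finset.sum_range_succ, Finset.sum_range_succ, Finset.range_add_one,
        Finset.filter_insert]
      have hnm : N ∉ (range N).filter (fun n => Rs β n) := by simp
      have hcard : (#(if Rs β N then insert N {n ∈ range N | Rs β n} else {n ∈ range N | Rs β n}) : ℝ)
          = #{n ∈ range N | Rs β n} + (if Rs β N then 1 else 0) := by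
        split_ifs with h
        · rw [Finset.card_insert_of_notMem hnm]
          push_cast
          ring
        · simp
      rw [hcard, Nat.cast_add, Nat.add_sub_cancel]
      have hp0 := phi_nonneg (x := β N) hκ
      have hp1 := phi_nonneg (x := β (N + 1)) hκ
      have hp2 := phi_le hκ (hβ (N + 1))
      have hp3 := phi_le hκ (hβ N)
      by_cases hd : β (N + 1) < β N
      · -- down step
        have hc : ⌈β (N + 1) / κ⌉₊ ≤ ⌈β N / κ⌉₊ :=
          Nat.ceil_mono (div_le_div_of_nonneg_right hd.le hκ.le)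
        have hdrop : β N - β (N + 1) =
            κ * ((⌈β N / κ⌉₊ - ⌈β (N + 1) / κ⌉₊ : ℕ) : ℝ) - phi κ (β N) + phi κ (β (N + 1)) := by
          rw [Nat.cast_sub hc]
          unfold phi
          ring
        rw [if_pos (⟨by omega, hd⟩ : 1 ≤ N + 1 ∧ β (N + 1) < β N), max_eq_right (by linarith)]
        by_cases hp : 1 ≤ N ∧ β N < β (N - 1)
        · rw [if_pos hp] at ih
          have hR : ¬ Rs β N := by
            rintro ⟨_, h | h⟩
            · omega
            · linarith [hp.2]
          rw [if_neg hR]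
          rw [hdrop]
          linarith
        · rw [if_neg hp] at ih
          have hR : Rs β N := by
            refine ⟨hd, ?_⟩
            rcases Nat.eq_zero_or_pos N with h | h
            · exact Or.inl h
            · right
              by_contra hc
              exact hp ⟨h, by linarith⟩
          rw [if_pos hR]
          rw [hdrop]
          linarith
      · have hR : ¬ Rs β N := fun h => hd h.1
        rw [if_neg hR, if_neg (fun h : 1 ≤ N + 1 ∧ β (N + 1) < β N => hd h.2)]
        push Not at hd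
        rw [max_eq_left (by linarith)]
        have hc : ⌈β N / κ⌉₊ ≤ ⌈β (N + 1) / κ⌉₊ :=
          Nat.ceil_mono (div_le_div_of_nonneg_right hd hκ.le)
        rw [Nat.sub_eq_zero_of_le hc]
        have : (0:ℝ) ≤ (if 1 ≤ N ∧ β N < β (N - 1) then κ - phi κ (β N) else 0) := by
          split_ifs
          · linarith
          · exact le_rfl
        push_cast
        push_cast at ih
        linarith
  have h := key N
  have : (0:ℝ) ≤ (if 1 ≤ N ∧ β N < β (N - 1) then κ - phi κ (β N) else 0) := by
    split_ifs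
    · linarith [phi_le hκ (hβ N)]
    · exact le_rfl
  linarith

open Classical in
/-- descending runs start after a near critical digit -/
theorem runs_le {ρ V : ℕ → ℝ} (hρ : ∀ n, 0 < ρ n)
    (h1 : ∀ n, V n * ρ (n + 1) ≤ ρ (n + 2) + ρ n) (N : ℕ) :
    (#{n ∈ range N | Rs (bt ρ) n} : ℝ) ≤ 1 + #{n ∈ range N | V n < 2} := by
  have hsub : #{n ∈ range N | Rs (bt ρ) n} ≤ #({0} ∪ ({n ∈ range N | V n < 2}).image (· + 1)) := by
    apply Finset.card_le_card
    intro n hn
    rw [Finset.mem_filter, Finset.mem_range] at hn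
    obtain ⟨hnN, hd, h0⟩ := hn
    rw [Finset.mem_union, Finset.mem_singleton, Finset.mem_image]
    rcases Nat.eq_zero_or_pos n with hz | hz
    · exact Or.inl hz
    · right
      have h0' : bt ρ (n - 1) ≤ bt ρ n := by
        rcases h0 with h | h
        · omega
        · exact h
      refine ⟨n - 1, ?_, by omega⟩
      rw [Finset.mem_filter, Finset.mem_range]
      refine ⟨by omega, ?_⟩
      have e1 : n - 1 + 1 = n := by omega
      have e2 : n - 1 + 2 = n + 1 := by omega
      have p := hρ (n - 1)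
      have p0 := hρ n
      have p1 := hρ (n + 1)
      have p2 := hρ (n + 2)
      unfold bt at hd h0'
      rw [e1] at h0'
      rw [show n + 1 + 1 = n + 2 from rfl] at hd
      have a1 : max (ρ (n + 1)) (ρ (n + 2)) < max (ρ n) (ρ (n + 1)) :=
        (Real.log_lt_log_iff (lt_max_of_lt_left p1) (lt_max_of_lt_left p0)).mp hd
      have a2 : max (ρ (n - 1)) (ρ n) ≤ max (ρ n) (ρ (n + 1)) :=
        (Real.log_le_log_iff (lt_max_of_lt_left p) (lt_max_of_lt_left p0)).mp h0'
      have a3 : ρ (n + 1) < ρ n := by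
        by_contra hc
        push Not at hc
        rw [max_eq_right hc] at a1
        exact absurd (le_max_left _ _) (not_le.mpr a1)
      rw [max_eq_left a3.le] at a2
      have a4 := (le_max_left _ _).trans a2
      have h := h1 (n - 1)
      rw [e1, e2] at h
      by_contra hc
      push Not at hc
      nlinarith
  have h2 : #({0} ∪ ({n ∈ range N | V n < 2}).image (· + 1)) ≤ 1 + #{n ∈ range N | V n < 2} := by
    refine (Finset.card_union_le _ _).trans ?_
    rw [Finset.card_singleton]
    exact Nat.add_le_add_left Finset.card_image_le _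
  exact_mod_cast hsub.trans h2

open Classical in
/-- **deterministic accounting, root form** -/
theorem accounting_root {ρ V : ℕ → ℝ} {L κ : ℝ} (hV : ∀ n, 0 ≤ V n) (hρ : ∀ n, 0 < ρ n)
    (h1 : ∀ n, V n * ρ (n + 1) ≤ ρ (n + 2) + ρ n)
    (h4 : ∀ n, 1 ≤ ρ n * ρ (n + 1)) (h00 : ρ 0 = 1) (h01 : ρ 1 = 1)
    (hL : ∀ n, Real.log (1 + V n) ≤ L) (hκ : 0 < κ) (N : ℕ) :
    (∑ n ∈ range N, gn (V n)) - (L + 2 * κ) * #{n ∈ range N | V n < 2} - 2 * κ
      - 2 * κ * ((∑ n ∈ range N, (⌈bt ρ n / κ⌉₊ - ⌈bt ρ (n + 1) / κ⌉₊) : ℕ) : ℝ) ≤ bt ρ N := by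
  have hL0 : 0 ≤ L := (Real.log_nonneg (by linarith [hV 0])).trans (hL 0)
  have hb0 : bt ρ 0 = 0 := by
    unfold bt
    rw [zero_add, h00, h01]
    simp
  have hbn := bt_nonneg hρ h4
  have hVal := valleys_le hρ h1 (by rw [h00, h01]) N
  have hdown := down_le_runs hκ hbn N
  have hruns := runs_le hρ h1 N
  have hvar : ∀ n, gn (V n) - L * (if Val ρ n then 1 else 0) ≤ |bt ρ (n + 1) - bt ρ n| := by
    intro n
    unfold gn
    by_cases h5 : V n < 2
    · rw [if_pos h5]
      have : 0 ≤ L * (if Val ρ n then (1 : ℝ) else 0) := by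
        apply mul_nonneg hL0
        split_ifs <;> norm_num
      linarith [abs_nonneg (bt ρ (n + 1) - bt ρ n)]
    · rw [if_neg h5]
      push Not at h5
      by_cases h6 : Val ρ n
      · rw [if_pos h6]
        have : Real.log (V n - 1) ≤ L :=
          (Real.log_le_log (by linarith) (by linarith)).trans (hL n)
        linarith [abs_nonneg (bt ρ (n + 1) - bt ρ n)]
      · rw [if_neg h6]
        linarith [step_abs hρ h1 h5 h6]
  have hvar2 := Finset.sum_le_sum fun n (_ : n ∈ range N) => hvar n
  rw [Finset.sum_sub_distrib, ← Finset.mul_sum, Finset.sum_boole] at hvar2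
  have hid : bt ρ N = ∑ n ∈ range N, |bt ρ (n + 1) - bt ρ n| -
      2 * ∑ n ∈ range N, max 0 (bt ρ n - bt ρ (n + 1)) := by
    have : bt ρ N = ∑ n ∈ range N, (bt ρ (n + 1) - bt ρ n) := by
      rw [Finset.sum_range_sub, hb0, sub_zero]
    rw [this, Finset.mul_sum, ← Finset.sum_sub_distrib]
    refine Finset.sum_congr rfl fun n _ => ?_
    rcases le_total (bt ρ n) (bt ρ (n + 1)) with h | h
    · rw [abs_of_nonneg (by linarith), max_eq_left (by linarith)]
      ring
    · rw [abs_of_nonpos (by linarith), max_eq_right (by linarith)]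
      ring
  have hmul := mul_le_mul_of_nonneg_left hruns hκ.le
  have hmul3 := mul_le_mul_of_nonneg_left hVal hL0
  rw [hid]
  nlinarith

/-- the root contour in units of `log k` is `bt (rr k z) n / log k`; number of closed components of
`{contour > l}`, `l ∈ ℕ`, closed before time `N` -/
noncomputable def cross (k : ℝ) (N : ℕ) (z : Tor) : ℕ :=
  ∑ n ∈ range N, (⌈bt (rr k z) n / Real.log k⌉₊ - ⌈bt (rr k z) (n + 1) / Real.log k⌉₊)

theorem continuous_bt (k : ℝ) (n : ℕ) : Continuous fun z => bt (rr k z) n := by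
  have hr : ∀ m, Continuous fun z => rr k z m := by
    intro m
    unfold rr rn
    exact (((continuous_Mn k m).matrix_elem 0 0).abs).add ((continuous_Mn k m).matrix_elem 0 1).abs
  unfold bt
  exact Continuous.log ((hr n).max (hr (n + 1))) fun z => (lt_max_of_lt_left (rr_pos k z n)).ne'

theorem measurable_cross (k : ℝ) (N : ℕ) : Measurable (cross k N) := by
  unfold cross
  refine Finset.measurable_sum _ fun n _ => ?_
  have h : ∀ m, Measurable fun z : Tor => ⌈bt (rr k z) m / Real.log k⌉₊ := fun m =>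
    Nat.measurable_ceil.comp ((continuous_bt k m).measurable.div_const _)
  exact (measurable_of_countable (fun p : ℕ × ℕ => p.1 - p.2)).comp ((h n).prodMk (h (n + 1)))

theorem bt_le_mul {k : ℝ} (hk : 0 ≤ k) (z : Tor) (n : ℕ) :
    bt (rr k z) n ≤ n * Real.log (3 + 2 * Real.pi * k) := by
  induction n with
  | zero =>
    unfold bt
    rw [zero_add, rr_zero, rr_one]
    simp
  | succ n ih =>
    have := bt_succ_le (ρ := rr k z) (V := dg k z) (L := Real.log (3 + 2 * Real.pi * k))
      (fun n => abs_nonneg _) (rr_pos k z) (rr_h2 k z)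
      (fun n => Real.log_le_log (by have := abs_nonneg (V k ((T k)^[n] z).2); unfold dg; linarith)
        (by linarith [dg_le k hk z n])) n
    push_cast
    linarith

theorem cross_le {k : ℝ} (hk : 1 < k) (N : ℕ) (z : Tor) :
    (cross k N z : ℝ) ≤ N * (N * Real.log (3 + 2 * Real.pi * k) / Real.log k + 1) := by
  have hl : 0 < Real.log k := Real.log_pos hk
  have hL0 : 0 ≤ Real.log (3 + 2 * Real.pi * k) := Real.log_nonneg (by
    have : 0 ≤ 2 * Real.pi * k := by positivity
    linarith)
  unfold cross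
  push_cast
  calc ∑ n ∈ range N, ((⌈bt (rr k z) n / Real.log k⌉₊ - ⌈bt (rr k z) (n + 1) / Real.log k⌉₊ : ℕ) : ℝ)
      ≤ ∑ n ∈ range N, (N * Real.log (3 + 2 * Real.pi * k) / Real.log k + 1) := by
        refine Finset.sum_le_sum fun n hn => ?_
        have h1 : ((⌈bt (rr k z) n / Real.log k⌉₊ - ⌈bt (rr k z) (n + 1) / Real.log k⌉₊ : ℕ) : ℝ) ≤
            ⌈bt (rr k z) n / Real.log k⌉₊ := by exact_mod_cast Nat.sub_le _ _
        have h0 : 0 ≤ bt (rr k z) n := bt_nonneg (rr_pos k z) (rr_h4 k z) n
        have h2 := (Nat.ceil_lt_add_one (div_nonneg h0 hl.le)).le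
        have h3 := bt_le_mul (by linarith : 0 ≤ k) z n
        have h4 : (n : ℝ) ≤ N := by
          have := Finset.mem_range.mp hn
          exact_mod_cast this.le
        have h5 : bt (rr k z) n / Real.log k ≤ N * Real.log (3 + 2 * Real.pi * k) / Real.log k :=
          div_le_div_of_nonneg_right (h3.trans (mul_le_mul_of_nonneg_right h4 hL0)) hl.le
        linarith
    _ = _ := by simp only [Finset.sum_const, Finset.card_range, nsmul_eq_mul]

theorem integrable_cross {k : ℝ} (hk : 1 < k) (N : ℕ) :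
    Integrable (fun z => (cross k N z : ℝ)) (volume : Measure Tor) := by
  refine Integrable.mono' (integrable_const
    (N * (N * Real.log (3 + 2 * Real.pi * k) / Real.log k + 1)))
    ((measurable_from_top (f := fun n : ℕ => (n : ℝ))).comp
      (measurable_cross k N)).aestronglyMeasurable (Eventually.of_forall fun z => ?_)
  rw [Real.norm_of_nonneg (Nat.cast_nonneg _)]
  exact cross_le hk N z

open Classical in
theorem pointwise_root {k : ℝ} (hk : 1 < k) (z : Tor) (N : ℕ) :
    (∑ n ∈ range N, (lm k 1 ((T k)^[n] z) - Real.log 2)) -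
      (Real.log (3 + 2 * Real.pi * k) + 2 * Real.log k) *
        #{n ∈ range N | dg k z n < 2}
      - 2 * Real.log k - 2 * Real.log k * (cross k N z : ℝ)
      ≤ lm k N z + Real.log 2 := by
  have hl : 0 < Real.log k := Real.log_pos hk
  have hk0 : 0 ≤ k := by linarith
  have h := accounting_root (ρ := rr k z) (V := dg k z) (L := Real.log (3 + 2 * Real.pi * k))
    (κ := Real.log k)
    (fun n => abs_nonneg _) (rr_pos k z) (rr_h1 k z) (rr_h4 k z)
    (rr_zero k z) (rr_one k z)
    (fun n => Real.log_le_log (by have := abs_nonneg (V k ((T k)^[n] z).2); unfold dg; linarith)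
      (by linarith [dg_le k hk0 z n])) hl N
  have h1 := bt_le_lm k N z
  have h2 : (∑ n ∈ range N, (lm k 1 ((T k)^[n] z) - Real.log 2)) ≤
      ∑ n ∈ range N, gn (dg k z n) := Finset.sum_le_sum fun n _ => gn_ge k _
  unfold cross
  linarith

/-- integrated accounting, root form -/
theorem integrated_root {k : ℝ} (hk : 1 < k) (N : ℕ) :
    N * (Real.log k - 3 - Real.log 2
      - (Real.log (3 + 2 * Real.pi * k) + 2 * Real.log k) * (2 / k))
      - 2 * Real.log k - 2 * Real.log k * (∫ z : Tor, (cross k N z : ℝ)) - Real.log 2 ≤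
      ∫ z : Tor, lm k N z := by
  classical
  have hl : 0 < Real.log k := Real.log_pos hk
  set c1 := Real.log (3 + 2 * Real.pi * k) + 2 * Real.log k with hc1
  have hc1n : 0 ≤ c1 := by
    have : 0 ≤ Real.log (3 + 2 * Real.pi * k) := Real.log_nonneg (by
      have : 0 ≤ 2 * Real.pi * k := by positivity
      linarith)
    positivity
  set B : Set Tor := {z | |V k z.2| ≤ 2} with hB
  have hBm : MeasurableSet B :=
    (isClosed_le ((continuous_V k).comp continuous_snd).abs continuous_const).measurableSet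
  have hBI : Integrable (B.indicator (fun _ => (1:ℝ))) (volume : Measure Tor) :=
    (integrable_const (1:ℝ)).indicator hBm
  have hlI : Integrable (fun z => lm k 1 z - Real.log 2) (volume : Measure Tor) :=
    (integrable_lm k 1).sub (integrable_const _)
  have hpt : ∀ z : Tor, (∑ n ∈ range N, (lm k 1 ((T k)^[n] z) - Real.log 2)) -
      c1 * (∑ n ∈ range N, B.indicator (fun _ => (1:ℝ)) ((T k)^[n] z))
      - (2 * Real.log k + 2 * Real.log k * (cross k N z : ℝ))
      ≤ lm k N z + Real.log 2 := by
    intro z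
    refine le_trans ?_ (pointwise_root hk z N)
    have e1 : (#{n ∈ range N | dg k z n < 2} : ℝ) ≤
        ∑ n ∈ range N, B.indicator (fun _ => (1:ℝ)) ((T k)^[n] z) := by
      rw [Finset.card_filter]
      push_cast
      refine Finset.sum_le_sum fun n _ => ?_
      rw [Set.indicator_apply]
      split_ifs with h1 h2 h2
      · exact le_rfl
      · exact absurd h1.le h2
      · norm_num
      · exact le_rfl
    have e3 := mul_le_mul_of_nonneg_left e1 hc1n
    linarith
  have i1 : Integrable (fun z : Tor => ∑ n ∈ range N, (lm k 1 ((T k)^[n] z) - Real.log 2)) volume :=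
    integrable_finsetSum _ fun n _ => integrable_comp_iter n hlI
  have i2 : Integrable (fun z : Tor => c1 * ∑ n ∈ range N, B.indicator (fun _ => (1:ℝ))
      ((T k)^[n] z)) volume :=
    (integrable_finsetSum _ fun n _ => integrable_comp_iter n hBI).const_mul _
  have i4 : Integrable (fun z : Tor => 2 * Real.log k * (cross k N z : ℝ)) volume :=
    (integrable_cross hk N).const_mul _
  have i3 : Integrable (fun z : Tor => 2 * Real.log k + 2 * Real.log k * (cross k N z : ℝ)) volume :=
    (integrable_const _).add i4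
  have hI : ∫ z : Tor, ((∑ n ∈ range N, (lm k 1 ((T k)^[n] z) - Real.log 2)) -
      c1 * (∑ n ∈ range N, B.indicator (fun _ => (1:ℝ)) ((T k)^[n] z))
      - (2 * Real.log k + 2 * Real.log k * (cross k N z : ℝ)))
      ≤ ∫ z : Tor, (lm k N z + Real.log 2) :=
    integral_mono ((i1.sub i2).sub i3) ((integrable_lm k N).add (integrable_const _)) hpt
  have j1 : ∫ z : Tor, ∑ n ∈ range N, (lm k 1 ((T k)^[n] z) - Real.log 2) =
      N * ((∫ z : Tor, lm k 1 z) - Real.log 2) := by
    rw [integral_finsetSum _ fun n _ => integrable_comp_iter n hlI]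
    have : ∀ n, ∫ z : Tor, (lm k 1 ((T k)^[n] z) - Real.log 2) =
        (∫ z : Tor, lm k 1 z) - Real.log 2 := by
      intro n
      rw [integral_comp_iter (f := fun z => lm k 1 z - Real.log 2) n hlI.aestronglyMeasurable,
        integral_sub (integrable_lm k 1) (integrable_const _)]
      simp
    rw [Finset.sum_congr rfl fun n _ => this n]
    simp only [Finset.sum_const, Finset.card_range, nsmul_eq_mul]
  have j2 : ∫ z : Tor, c1 * ∑ n ∈ range N, B.indicator (fun _ => (1:ℝ)) ((T k)^[n] z) =
      c1 * (N * (volume : Measure Tor).real B) := by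
    rw [integral_const_mul, integral_finsetSum _ fun n _ => integrable_comp_iter n hBI]
    have : ∀ n, ∫ z : Tor, B.indicator (fun _ => (1:ℝ)) ((T k)^[n] z) =
        (volume : Measure Tor).real B := by
      intro n
      rw [integral_comp_iter (f := B.indicator (fun _ => (1:ℝ))) n hBI.aestronglyMeasurable,
        integral_indicator hBm]
      simp
    rw [Finset.sum_congr rfl fun n _ => this n]
    simp
  have k1 := integral_sub (i1.sub i2) i3
  have k2 := integral_sub i1 i2
  have k3 := integral_add (integrable_const (2 * Real.log k)) i4 (μ := (volume : Measure Tor))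
  simp only [Pi.sub_apply] at k1 k2
  have k4 : ∫ z : Tor, 2 * Real.log k * (cross k N z : ℝ) =
      2 * Real.log k * ∫ z : Tor, (cross k N z : ℝ) := integral_const_mul _ _
  rw [k1, k2, k3, k4, j1, j2,
    integral_add (integrable_lm k N) (integrable_const _)] at hI
  simp only [integral_const, probReal_univ, smul_eq_mul, one_mul] at hI
  have hlo := log_sub_le_integral_lm_one hk.le
  have hBv : (volume : Measure Tor).real B ≤ 2 / k :=
    volumeReal_V_le hk.le (by positivity)
  have hN : (0 : ℝ) ≤ N := Nat.cast_nonneg N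
  have a1 := mul_le_mul_of_nonneg_left hlo hN
  have a2 := mul_le_mul_of_nonneg_left (mul_le_mul_of_nonneg_left hBv hc1n) hN
  nlinarith

/-- **Part A, root form.** It is enough to bound the mean number of closed components of the root
contour at the levels `l log k` by `N / 4`. -/
theorem torus_of_cross
    (H : ∃ k₁ : ℝ, ∀ k : ℝ, k₁ ≤ k → ∃ᶠ N : ℕ in atTop,
      ∫ z : Tor, (cross k N z : ℝ) ≤ N / 4) :
    ∃ k₀ : ℝ, 0 < k₀ ∧ ∀ k : ℝ, k₀ ≤ k → ∃ c : ℝ, 0 < c ∧
      ∃ᶠ n : ℕ in atTop, c * n ≤ ∫ z : Tor, lm k n z := by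
  obtain ⟨k₁, H⟩ := H
  refine ⟨max k₁ (Real.exp 100), lt_max_of_lt_right (Real.exp_pos _), fun k hk => ?_⟩
  have hk1 : k₁ ≤ k := (le_max_left _ _).trans hk
  have hk2 : Real.exp 100 ≤ k := (le_max_right _ _).trans hk
  have hk0 : 0 < k := (Real.exp_pos _).trans_le hk2
  set x := Real.log k with hx
  have hx100 : 100 ≤ x := by
    rw [hx, Real.le_log_iff_exp_le hk0]
    exact hk2
  have hk' : 1 < k := by
    have := Real.add_one_le_exp 100
    linarith
  have hkx : k = Real.exp x := (Real.exp_log hk0).symm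
  obtain ⟨M, hM⟩ := exists_nat_gt (2 * x + 1)
  refine ⟨1, one_pos, ((H k hk1).and_eventually (eventually_ge_atTop M)).mono ?_⟩
  rintro N ⟨hN, hN1⟩
  have h := integrated_root hk' N
  rw [← hx] at h
  have hNr : 2 * x + 1 < N := hM.trans_le (by exact_mod_cast hN1)
  have hlog2 : Real.log 2 ≤ 1 := by
    have := Real.log_le_sub_one_of_pos (by norm_num : (0:ℝ) < 2)
    linarith
  have hpi := Real.pi_lt_d2
  have hpi0 := Real.pi_pos
  have hL : Real.log (3 + 2 * Real.pi * k) ≤ x + 9 := by
    have a : 3 + 2 * Real.pi * k ≤ 10 * k := by nlinarith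
    have b := Real.log_le_log (by positivity) a
    rw [Real.log_mul (by norm_num) hk0.ne'] at b
    have c := Real.log_le_sub_one_of_pos (by norm_num : (0:ℝ) < 10)
    linarith
  have he : x ^ 2 / 2 ≤ k := by
    rw [hkx]
    have := Real.quadratic_le_exp_of_nonneg (by linarith : 0 ≤ x)
    linarith
  have hB2 : (Real.log (3 + 2 * Real.pi * k) + 2 * x) * (2 / k) ≤ 1 := by
    rw [mul_div_assoc', div_le_iff₀ hk0]
    nlinarith
  have hfin : (1 : ℝ) + 1 + x / 2 ≤ x - 3 - Real.log 2
      - (Real.log (3 + 2 * Real.pi * k) + 2 * x) * (2 / k) := by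
    linarith
  have h5 := mul_le_mul_of_nonneg_left hfin (by linarith : (0:ℝ) ≤ N)
  have h6 := mul_le_mul_of_nonneg_left hN (by linarith : (0:ℝ) ≤ 2 * x)
  nlinarith

/-- **S0172 from the closed components of the root contour.** -/
theorem result_of_cross
    (H : ∃ k₁ : ℝ, ∀ k : ℝ, k₁ ≤ k → ∃ᶠ N : ℕ in atTop,
      ∫ z : Tor, (cross k N z : ℝ) ≤ N / 4) :
    ∃ k₀ : ℝ, 0 < k₀ ∧ ∀ k : ℝ, k₀ ≤ k →
      0 < MeasureTheory.volume ({p : ℝ × ℝ | ∃ c : ℝ, 0 < c ∧
          ∃ᶠ n : ℕ in Filter.atTop, c * n ≤ Real.log ‖fderiv ℝ (standardMapLift k)^[n] p‖} ∩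
        Set.Ico (0 : ℝ) 1 ×ˢ Set.Ico (0 : ℝ) 1) :=
  result_of_torus (torus_of_cross H)

end Crest.Agent.R128.AccRoot
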