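import Mathlib
import Crest.Agent.R128.AccRoot

/-!
# Row 128, V0 (helper485): bootstrap form of part A, root contour, all `N` at once

`cn f κ H N` = number of closed components of `{f > l κ}`, `l ∈ ℕ`, with right end `≤ N` and height
at most `H κ` over their level.
-/

set_option autoImplicit false
open MeasureTheory Filter Topology Finset
open Crest.AnalysisR.StandardFamily
open scoped ENNReal

namespace Crest.Agent.R128.AccBoot

open Crest.Agent.R128.Acc Crest.Agent.R128.AccRoot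

/-- the component of `{f > l κ}` whose last point is `n` has height at most `H κ` -/
def Shal (f : ℕ → ℝ) (κ : ℝ) (H n l : ℕ) : Prop :=
  ∀ m, m ≤ n → (∀ m', m ≤ m' → m' ≤ n → l * κ < f m') → f m ≤ (l + H) * κ

open Classical in
/-- crossings `(n, l)` with height at most `H` -/
noncomputable def cset (f : ℕ → ℝ) (κ : ℝ) (H N : ℕ) : Finset (Σ _ : ℕ, ℕ) :=
  ((range N).sigma (fun n => Finset.Ico ⌈f (n + 1) / κ⌉₊ ⌈f n / κ⌉₊)).filter
    (fun p => Shal f κ H p.1 p.2)

noncomputable def cn (f : ℕ → ℝ) (κ : ℝ) (H N : ℕ) : ℕ := #(cset f κ H N)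

open Classical in
theorem mem_cset {f : ℕ → ℝ} {κ : ℝ} (hκ : 0 < κ) {H N : ℕ} {p : Σ _ : ℕ, ℕ} :
    p ∈ cset f κ H N ↔ p.1 < N ∧ f (p.1 + 1) ≤ p.2 * κ ∧ p.2 * κ < f p.1 ∧
      Shal f κ H p.1 p.2 := by
  unfold cset
  rw [Finset.mem_filter, Finset.mem_sigma, Finset.mem_range, Finset.mem_Ico, Nat.ceil_le,
    Nat.lt_ceil, div_le_iff₀ hκ, lt_div_iff₀ hκ]
  tauto

theorem Shal_mono {f : ℕ → ℝ} {κ : ℝ} (hκ : 0 < κ) {H H' n l : ℕ} (hH : H ≤ H')
    (h : Shal f κ H n l) : Shal f κ H' n l := by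
  intro m hm hm'
  refine (h m hm hm').trans ?_
  have : (H : ℝ) ≤ H' := by exact_mod_cast hH
  nlinarith

open Classical in
/-- everything has height at most `H` if `f ≤ H κ` -/
theorem cn_eq {f : ℕ → ℝ} {κ : ℝ} (hκ : 0 < κ) {H N : ℕ} (h : ∀ n, n < N → f n ≤ H * κ) :
    cn f κ H N = ∑ n ∈ range N, (⌈f n / κ⌉₊ - ⌈f (n + 1) / κ⌉₊) := by
  unfold cn cset
  rw [Finset.filter_true_of_mem, Finset.card_sigma]
  · simp
  · intro p hp m hm _
    rw [Finset.mem_sigma, Finset.mem_range] at hp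
    refine (h m (by omega)).trans ?_
    have : (0:ℝ) ≤ (p.2 : ℝ) * κ := by positivity
    nlinarith

/-- growth of the counting function -/
theorem cn_succ_le {f : ℕ → ℝ} {κ : ℝ} (hκ : 0 < κ) {H : ℕ} (hH : 1 ≤ H) (N : ℕ) :
    cn f κ (H + 1) N ≤ 2 * cn f κ H N := by
  classical
  have hsub : cset f κ H N ⊆ cset f κ (H + 1) N := by
    intro p hp
    rw [mem_cset hκ] at hp ⊢
    exact ⟨hp.1, hp.2.1, hp.2.2.1, Shal_mono hκ (Nat.le_succ H) hp.2.2.2⟩
  have key : ∀ p : Σ _ : ℕ, ℕ, ∃ q : Σ _ : ℕ, ℕ, p ∈ cset f κ (H + 1) N \ cset f κ H N →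
      q ∈ cset f κ H N ∧ q.2 = p.2 + 1 ∧ q.1 ≤ p.1 ∧
        (∀ m, q.1 ≤ m → m ≤ p.1 → p.2 * κ < f m) := by
    intro p
    by_cases hp : p ∈ cset f κ (H + 1) N \ cset f κ H N
    · rw [Finset.mem_sdiff] at hp
      obtain ⟨h1, h2⟩ := hp
      have h1' := (mem_cset hκ).mp h1
      obtain ⟨ha, hb, hc, hd⟩ := h1'
      have hn : ¬ Shal f κ H p.1 p.2 := fun hS => h2 ((mem_cset hκ).mpr ⟨ha, hb, hc, hS⟩)
      unfold Shal at hn
      push Not at hn
      obtain ⟨m0, hm0, hm0', hm0''⟩ := hn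
      have hm1 : ((p.2 + 1 : ℕ) : ℝ) * κ < f m0 := by
        refine lt_of_le_of_lt ?_ hm0''
        push_cast
        have : (1:ℝ) ≤ H := by exact_mod_cast hH
        nlinarith
      set n' := Nat.findGreatest (fun a => ((p.2 + 1 : ℕ) : ℝ) * κ < f a) p.1 with hn'
      have hPn' : ((p.2 + 1 : ℕ) : ℝ) * κ < f n' :=
        Nat.findGreatest_spec (P := fun a => ((p.2 + 1 : ℕ) : ℝ) * κ < f a) hm0 hm1
      have hle : n' ≤ p.1 := Nat.findGreatest_le p.1
      have hge : m0 ≤ n' := Nat.le_findGreatest hm0 hm1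
      have hgt : f (n' + 1) ≤ ((p.2 + 1 : ℕ) : ℝ) * κ := by
        rcases hle.lt_or_eq with h | h
        · exact not_lt.mp (Nat.findGreatest_is_greatest
            (P := fun a => ((p.2 + 1 : ℕ) : ℝ) * κ < f a) (Nat.lt_succ_self n') h)
        · rw [h]
          refine hb.trans ?_
          push_cast
          nlinarith
      refine ⟨⟨n', p.2 + 1⟩, fun _ => ⟨(mem_cset hκ).mpr ⟨lt_of_le_of_lt hle ha, hgt, hPn', ?_⟩,
        rfl, hle, ?_⟩⟩
      · intro m hm hm'
        simp only at hm hm' ⊢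
        have := hd m (hm.trans hle) (by
          intro m' h3 h4
          rcases le_total m' n' with h5 | h5
          · refine lt_trans ?_ (hm' m' h3 h5)
            push_cast
            nlinarith
          · exact hm0' m' (hge.trans h5) h4)
        push_cast at this ⊢
        linarith
      · intro m h3 h4
        exact hm0' m (hge.trans h3) h4
    · exact ⟨⟨0, 0⟩, fun h => absurd h hp⟩
  choose q hq using key
  have hcard : #(cset f κ (H + 1) N \ cset f κ H N) ≤ #(cset f κ H N) := by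
    apply Finset.card_le_card_of_injOn q
    · intro p hp
      exact (hq p hp).1
    · intro p hp p' hp' h
      have hp := Finset.mem_coe.mp hp
      have hp' := Finset.mem_coe.mp hp'
      obtain ⟨_, h2, h3, h4⟩ := hq p hp
      obtain ⟨_, h2', h3', h4'⟩ := hq p' hp'
      rw [← h] at h2' h3' h4'
      have el : p.2 = p'.2 := by omega
      have u1 := (mem_cset hκ).mp (Finset.mem_sdiff.mp hp).1
      have u2 := (mem_cset hκ).mp (Finset.mem_sdiff.mp hp').1
      have en : p.1 = p'.1 := by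
        rcases lt_trichotomy p.1 p'.1 with hlt | heq | hlt
        · have := h4' (p.1 + 1) (by omega) (by omega)
          rw [← el] at this
          linarith [u1.2.1]
        · exact heq
        · have := h4 (p'.1 + 1) (by omega) (by omega)
          rw [el] at this
          linarith [u2.2.1]
      exact Sigma.ext en (heq_of_eq el)
  have := Finset.card_sdiff_add_card_eq_card hsub
  unfold cn
  omega

open Classical in
/-- the number of components of height at most `H` is at most `H` times the number of first tops -/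
theorem cn_le_tops {β : ℕ → ℝ} {κ : ℝ} (hκ : 0 < κ) (h0 : β 0 = 0) (H N : ℕ) :
    cn β κ H N ≤ ∑ r ∈ range H, #{t ∈ range N | Top β κ N t r} := by
  have key2 : ∀ p : Σ _ : ℕ, ℕ, ∃ q : ℕ × ℕ, p ∈ cset β κ H N →
      q ∈ ((range H) ×ˢ (range N)).filter (fun q => Top β κ N q.2 q.1) ∧
      q.2 ≤ p.1 ∧ (∀ m, q.2 ≤ m → m ≤ p.1 → p.2 * κ < β m) ∧ p.2 + q.1 + 1 = ⌈β q.2 / κ⌉₊ := by
    intro p
    by_cases hp : p ∈ cset β κ H N
    · obtain ⟨hn, hj1, hj2, hS⟩ := (mem_cset hκ).mp hp
      obtain ⟨a, t, h1, h2, h3, h4, h5, h6⟩ := exists_top hκ h0 hj1 hj2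
      have hjt : (p.2 : ℝ) * κ < β t := h4 t h1 h2
      have hjt' : p.2 < ⌈β t / κ⌉₊ := by
        rw [Nat.lt_ceil, lt_div_iff₀ hκ]
        exact hjt
      have hcl : (⌈β t / κ⌉₊ : ℝ) < β t / κ + 1 := Nat.ceil_lt_add_one (by
        apply div_nonneg _ hκ.le
        have : (0 : ℝ) ≤ (p.2 : ℝ) * κ := by positivity
        linarith)
      have hcR : ⌈β t / κ⌉₊ ≤ p.2 + H := by
        rw [Nat.ceil_le, div_le_iff₀ hκ]
        push_cast
        exact hS t h2 fun m' h7 h8 => h4 m' (by omega) h8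
      have e : ((⌈β t / κ⌉₊ - 1 - p.2 : ℕ) : ℝ) = (⌈β t / κ⌉₊ : ℝ) - 1 - p.2 := by
        rw [Nat.cast_sub (by omega), Nat.cast_sub (by omega)]
        simp
      have h8 : ((⌈β t / κ⌉₊ : ℝ) - 1) * κ < β t := by
        have := (sub_lt_iff_lt_add.mpr hcl)
        rw [lt_div_iff₀ hκ] at this
        exact this
      refine ⟨(⌈β t / κ⌉₊ - 1 - p.2, t), fun _ => ⟨?_, h2, fun m hm1 hm2 => h4 m (by omega) hm2,
        ?_⟩⟩
      · rw [Finset.mem_filter, Finset.mem_product, Finset.mem_range, Finset.mem_range]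
        refine ⟨⟨by simp only; omega, by simp only; omega⟩, a, p.1 + 1, h1, by simp only; omega,
          by omega, ?_, ?_, h5, h6⟩
        · simp only [e]
          nlinarith
        · simp only [e]
          nlinarith
      · simp only
        omega
    · exact ⟨(0, 0), fun h => absurd h hp⟩
  choose q hq using key2
  have h2 : ∑ r ∈ range H, #{t ∈ range N | Top β κ N t r} =
      #(((range H) ×ˢ (range N)).filter (fun q => Top β κ N q.2 q.1)) := by
    rw [Finset.card_filter, Finset.sum_product]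
    refine Finset.sum_congr rfl fun r _ => ?_
    rw [Finset.card_filter]
  rw [h2]
  unfold cn
  apply Finset.card_le_card_of_injOn q
  · intro p hp
    exact (hq p hp).1
  · intro p hp p' hp' h
    have hp := Finset.mem_coe.mp hp
    have hp' := Finset.mem_coe.mp hp'
    obtain ⟨_, h3, h4, h5⟩ := hq p hp
    obtain ⟨_, h3', h4', h5'⟩ := hq p' hp'
    rw [← h] at h3' h4' h5'
    have ej : p.2 = p'.2 := by omega
    have u1 := ((mem_cset hκ).mp hp).2.1
    have u2 := ((mem_cset hκ).mp hp').2.1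
    have en : p.1 = p'.1 := by
      rcases lt_trichotomy p.1 p'.1 with hlt | heq | hlt
      · have := h4' (p.1 + 1) (by omega) (by omega)
        rw [← ej] at this
        linarith
      · exact heq
      · have := h4 (p'.1 + 1) (by omega) (by omega)
        rw [ej] at this
        linarith
    exact Sigma.ext en (heq_of_eq ej)

open Classical in
theorem cn_le_near {k : ℝ} (hk : 1 < k) (z : Tor) (H N : ℕ) :
    cn (bt (rr k z)) (Real.log k) H N ≤ H * #{t ∈ range N | dg k z t < 2} := by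
  have hl : 0 < Real.log k := Real.log_pos hk
  have hb0 : bt (rr k z) 0 = 0 := by
    unfold bt
    rw [zero_add, rr_zero, rr_one]
    simp
  refine (cn_le_tops hl hb0 H N).trans ?_
  calc ∑ r ∈ range H, #{t ∈ range N | Top (bt (rr k z)) (Real.log k) N t r}
      ≤ ∑ _r ∈ range H, #{t ∈ range N | dg k z t < 2} := by
        refine Finset.sum_le_sum fun r _ => Finset.card_le_card ?_
        intro t ht
        rw [Finset.mem_filter] at ht ⊢
        exact ⟨ht.1, top_zero (rr_pos k z) (rr_h1 k z) ht.2⟩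
    _ = _ := by simp

/-- mean number of closed components in `[0, N]` of height at most `H` levels -/
noncomputable def Lc (k : ℝ) (N H : ℕ) : ℝ≥0∞ :=
  ∫⁻ z : Tor, (cn (bt (rr k z)) (Real.log k) H N : ℝ≥0∞)

theorem Lc_succ_le {k : ℝ} (hk : 1 < k) (N : ℕ) {H : ℕ} (hH : 1 ≤ H) :
    Lc k N (H + 1) ≤ 2 * Lc k N H := by
  unfold Lc
  rw [← lintegral_const_mul' _ _ (by norm_num)]
  refine lintegral_mono fun z => ?_
  have h := cn_succ_le (f := bt (rr k z)) (Real.log_pos hk) hH N
  have h2 : ((cn (bt (rr k z)) (Real.log k) (H + 1) N : ℕ) : ℝ≥0∞) ≤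
      ((2 * cn (bt (rr k z)) (Real.log k) H N : ℕ) : ℝ≥0∞) := by exact_mod_cast h
  rw [Nat.cast_mul, Nat.cast_ofNat] at h2
  exact h2

theorem Lc_base {k : ℝ} (hk : 1 < k) (N H : ℕ) :
    Lc k N H ≤ ENNReal.ofReal (2 * H / k * N) := by
  classical
  set B : Set Tor := {z | |V k z.2| ≤ 2} with hB
  have hBm : MeasurableSet B :=
    (isClosed_le ((continuous_V k).comp continuous_snd).abs continuous_const).measurableSet
  have h1 : ∀ z : Tor, (cn (bt (rr k z)) (Real.log k) H N : ℝ≥0∞) ≤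
      H * ∑ n ∈ range N, B.indicator (fun _ => (1:ℝ≥0∞)) ((T k)^[n] z) := by
    intro z
    have h2 : (cn (bt (rr k z)) (Real.log k) H N : ℝ≥0∞) ≤
        (H : ℝ≥0∞) * (#{t ∈ range N | dg k z t < 2} : ℕ) := by
      exact_mod_cast cn_le_near hk z H N
    refine h2.trans (mul_le_mul_right ?_ _)
    rw [Finset.card_filter]
    push_cast
    refine Finset.sum_le_sum fun n _ => ?_
    rw [Set.indicator_apply]
    split_ifs with h1 h2 h2
    · exact le_rfl
    · exact absurd h1.le h2
    · simp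
    · exact le_rfl
  have h3 : ∀ n, ∫⁻ z : Tor, B.indicator (fun _ => (1:ℝ≥0∞)) ((T k)^[n] z) = volume B := by
    intro n
    rw [(mp_iter k n).lintegral_comp (measurable_const.indicator hBm), lintegral_indicator hBm]
    simp
  have hBv : volume B ≤ ENNReal.ofReal (2 / k) := by
    have h := volumeReal_V_le hk.le (by norm_num : (0:ℝ) ≤ 2)
    rw [← ENNReal.ofReal_toReal (measure_ne_top volume B)]
    exact ENNReal.ofReal_le_ofReal h
  unfold Lc
  calc ∫⁻ z : Tor, (cn (bt (rr k z)) (Real.log k) H N : ℝ≥0∞)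
      ≤ ∫⁻ z : Tor, H * ∑ n ∈ range N, B.indicator (fun _ => (1:ℝ≥0∞)) ((T k)^[n] z) :=
        lintegral_mono h1
    _ = H * (N * volume B) := by
        rw [lintegral_const_mul' _ _ (by simp), lintegral_finsetSum]
        · rw [Finset.sum_congr rfl fun n _ => h3 n]
          simp
        · intro n _
          exact (measurable_const.indicator hBm).comp (mp_iter k n).measurable
    _ ≤ H * (N * ENNReal.ofReal (2 / k)) := by gcongr
    _ = ENNReal.ofReal (2 * H / k * N) := by
        rw [← ENNReal.ofReal_natCast N, ← ENNReal.ofReal_natCast H,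
          ← ENNReal.ofReal_mul (Nat.cast_nonneg _), ← ENNReal.ofReal_mul (Nat.cast_nonneg _)]
        congr 1
        ring

theorem Lc_all {k : ℝ} (hk : 1 < k) {d : ℝ} {h0 : ℕ} (hh0 : 1 ≤ h0) (hd : 2 * h0 / k ≤ d)
    (hstep : ∀ H, h0 ≤ H → (∀ N : ℕ, Lc k N H ≤ ENNReal.ofReal (d * N)) →
      ∀ N : ℕ, Lc k N H ≤ ENNReal.ofReal (d / 2 * N)) :
    ∀ H, h0 ≤ H → ∀ N : ℕ, Lc k N H ≤ ENNReal.ofReal (d / 2 * N) := by
  intro H hH
  induction H, hH using Nat.le_induction with
  | base =>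
    apply hstep h0 le_rfl
    intro N
    refine (Lc_base hk N h0).trans (ENNReal.ofReal_le_ofReal ?_)
    exact mul_le_mul_of_nonneg_right hd (Nat.cast_nonneg N)
  | succ H hH ih =>
    apply hstep (H + 1) (by omega)
    intro N
    refine (Lc_succ_le hk N (by omega)).trans ?_
    calc 2 * Lc k N H ≤ 2 * ENNReal.ofReal (d / 2 * N) := by gcongr; exact ih N
      _ = ENNReal.ofReal (d * N) := by
        rw [show (2 : ℝ≥0∞) = ENNReal.ofReal 2 by simp, ← ENNReal.ofReal_mul (by norm_num)]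
        congr 1
        ring

/-- **V0, final form.** -/
theorem result_of_root_all
    (Hyp : ∃ k₁ : ℝ, ∀ k : ℝ, k₁ ≤ k → ∃ (d : ℝ) (h0 : ℕ), 1 ≤ h0 ∧ 0 < d ∧ d ≤ 1 / 4 ∧
      2 * h0 / k ≤ d ∧ ∀ H, h0 ≤ H → (∀ N : ℕ, Lc k N H ≤ ENNReal.ofReal (d * N)) →
        ∀ N : ℕ, Lc k N H ≤ ENNReal.ofReal (d / 2 * N)) :
    ∃ k₀ : ℝ, 0 < k₀ ∧ ∀ k : ℝ, k₀ ≤ k →
      0 < MeasureTheory.volume ({p : ℝ × ℝ | ∃ c : ℝ, 0 < c ∧
          ∃ᶠ n : ℕ in Filter.atTop, c * n ≤ Real.log ‖fderiv ℝ (standardMapLift k)^[n] p‖} ∩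
        Set.Ico (0 : ℝ) 1 ×ˢ Set.Ico (0 : ℝ) 1) := by
  apply result_of_cross
  obtain ⟨k₁, Hyp⟩ := Hyp
  refine ⟨max k₁ 2, fun k hk => ?_⟩
  have hk1 : k₁ ≤ k := (le_max_left _ _).trans hk
  have hk2 : 2 ≤ k := (le_max_right _ _).trans hk
  have hk' : 1 < k := by linarith
  have hl : 0 < Real.log k := Real.log_pos hk'
  obtain ⟨d, h0, hh0, hd0, hd4, hdk, hstep⟩ := Hyp k hk1
  have hall := Lc_all hk' hh0 hdk hstep
  refine Frequently.of_forall fun N => ?_
  obtain ⟨H, hH⟩ := exists_nat_ge (N * Real.log (3 + 2 * Real.pi * k) / Real.log k)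
  have hL0 : 0 ≤ Real.log (3 + 2 * Real.pi * k) := Real.log_nonneg (by
    have : 0 ≤ 2 * Real.pi * k := by positivity
    linarith)
  have hHm : ∀ z : Tor, ∀ n, n < N → bt (rr k z) n ≤ ((max H h0 : ℕ) : ℝ) * Real.log k := by
    intro z n hn
    have h1 := bt_le_mul (by linarith : 0 ≤ k) z n
    have h2 : (n : ℝ) ≤ N := by exact_mod_cast hn.le
    rw [div_le_iff₀ hl] at hH
    have h3 : (H : ℝ) ≤ ((max H h0 : ℕ) : ℝ) := by exact_mod_cast le_max_left H h0
    calc bt (rr k z) n ≤ n * Real.log (3 + 2 * Real.pi * k) := h1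
      _ ≤ N * Real.log (3 + 2 * Real.pi * k) := mul_le_mul_of_nonneg_right h2 hL0
      _ ≤ H * Real.log k := hH
      _ ≤ _ := mul_le_mul_of_nonneg_right h3 hl.le
  have h := hall (max H h0) (le_max_right _ _) N
  have he : Lc k N (max H h0) = ∫⁻ z : Tor, (cross k N z : ℝ≥0∞) := by
    unfold Lc
    refine lintegral_congr fun z => ?_
    rw [cn_eq hl (hHm z)]
    rfl
  rw [he] at h
  have hint : ENNReal.ofReal (∫ z : Tor, (cross k N z : ℝ)) = ∫⁻ z : Tor, (cross k N z : ℝ≥0∞) := by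
    rw [ofReal_integral_eq_lintegral_ofReal (integrable_cross hk' N)
      (Eventually.of_forall fun z => Nat.cast_nonneg _)]
    refine lintegral_congr fun z => ?_
    simp
  rw [← hint, ENNReal.ofReal_le_ofReal_iff (by positivity)] at h
  refine h.trans ?_
  have : (0:ℝ) ≤ N := Nat.cast_nonneg N
  nlinarith

/-! ## Path version: bootstrap in `N`, no height truncation -/

theorem cross_succ_le {k : ℝ} (hk : 1 < k) (N : ℕ) (z : Tor) :
    (cross k (N + 1) z : ℝ) ≤ cross k N z +
      (Real.log (3 + 2 * Real.pi * k) / Real.log k + 1) := by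
  have hl : 0 < Real.log k := Real.log_pos hk
  unfold cross
  rw [Finset.sum_range_succ, Nat.cast_add]
  have h0 : 0 ≤ bt (rr k z) (N + 1) := bt_nonneg (rr_pos k z) (rr_h4 k z) (N + 1)
  have h0' : 0 ≤ bt (rr k z) N := bt_nonneg (rr_pos k z) (rr_h4 k z) N
  have hs : bt (rr k z) N ≤ bt (rr k z) (N + 1) + Real.log (3 + 2 * Real.pi * k) :=
    bt_le_succ (ρ := rr k z) (V := dg k z) (L := Real.log (3 + 2 * Real.pi * k))
      (fun n => abs_nonneg _) (rr_pos k z) (rr_h3 k z)
      (fun n => Real.log_le_log (by have := abs_nonneg (V k ((T k)^[n] z).2); unfold dg; linarith)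
        (by linarith [dg_le k (by linarith : 0 ≤ k) z n])) N
  have hL0 : 0 ≤ Real.log (3 + 2 * Real.pi * k) := Real.log_nonneg (by
    have : 0 ≤ 2 * Real.pi * k := by positivity
    linarith)
  have key : ((⌈bt (rr k z) N / Real.log k⌉₊ - ⌈bt (rr k z) (N + 1) / Real.log k⌉₊ : ℕ) : ℝ) ≤
      Real.log (3 + 2 * Real.pi * k) / Real.log k + 1 := by
    rcases le_total ⌈bt (rr k z) N / Real.log k⌉₊ ⌈bt (rr k z) (N + 1) / Real.log k⌉₊ with h | h
    · rw [Nat.sub_eq_zero_of_le h]
      have : 0 ≤ Real.log (3 + 2 * Real.pi * k) / Real.log k := div_nonneg hL0 hl.le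
      push_cast
      linarith
    · rw [Nat.cast_sub h]
      have h1 := (Nat.ceil_lt_add_one (div_nonneg h0' hl.le)).le
      have h2 := Nat.le_ceil (bt (rr k z) (N + 1) / Real.log k)
      have h3 : bt (rr k z) N / Real.log k ≤ bt (rr k z) (N + 1) / Real.log k +
          Real.log (3 + 2 * Real.pi * k) / Real.log k := by
        rw [← add_div]
        exact div_le_div_of_nonneg_right hs hl.le
      linarith
  linarith

theorem lintegral_cross_eq {k : ℝ} (hk : 1 < k) (N : ℕ) :
    ENNReal.ofReal (∫ z : Tor, (cross k N z : ℝ)) = ∫⁻ z : Tor, (cross k N z : ℝ≥0∞) := by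
  rw [ofReal_integral_eq_lintegral_ofReal (integrable_cross hk N)
    (Eventually.of_forall fun z => Nat.cast_nonneg _)]
  refine lintegral_congr fun z => ?_
  simp

/-- without near critical digit no descent: crude bound for small `N` -/
theorem integral_cross_base {k : ℝ} (hk : 1 < k) (N H : ℕ)
    (hH : N * Real.log (3 + 2 * Real.pi * k) ≤ H * Real.log k) :
    ∫ z : Tor, (cross k N z : ℝ) ≤ 2 * H / k * N := by
  have hl : 0 < Real.log k := Real.log_pos hk
  have hk0 : 0 < k := by linarith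
  have hL0 : 0 ≤ Real.log (3 + 2 * Real.pi * k) := Real.log_nonneg (by
    have : 0 ≤ 2 * Real.pi * k := by positivity
    linarith)
  have h := Lc_base hk N H
  have he : Lc k N H = ∫⁻ z : Tor, (cross k N z : ℝ≥0∞) := by
    unfold Lc
    refine lintegral_congr fun z => ?_
    rw [cn_eq hl]
    · rfl
    · intro n hn
      have h1 := bt_le_mul hk0.le z n
      have h2 : (n : ℝ) ≤ N := by exact_mod_cast hn.le
      calc bt (rr k z) n ≤ n * Real.log (3 + 2 * Real.pi * k) := h1
        _ ≤ N * Real.log (3 + 2 * Real.pi * k) := mul_le_mul_of_nonneg_right h2 hL0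
        _ ≤ H * Real.log k := hH
  rw [he, ← lintegral_cross_eq hk, ENNReal.ofReal_le_ofReal_iff (by positivity)] at h
  exact h

theorem integral_cross_succ_le {k : ℝ} (hk : 1 < k) (N : ℕ) :
    ∫ z : Tor, (cross k (N + 1) z : ℝ) ≤ (∫ z : Tor, (cross k N z : ℝ)) +
      (Real.log (3 + 2 * Real.pi * k) / Real.log k + 1) := by
  have h := integral_mono (integrable_cross hk (N + 1))
    ((integrable_cross hk N).add (integrable_const
      (Real.log (3 + 2 * Real.pi * k) / Real.log k + 1))) (fun z => cross_succ_le hk N z)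
  have h2 := integral_add (integrable_cross hk N) (integrable_const
    (Real.log (3 + 2 * Real.pi * k) / Real.log k + 1)) (μ := (volume : Measure Tor))
  simp only [Pi.add_apply] at h
  rw [h2] at h
  simpa using h

/-- **V0, path version.** Bootstrap in `N`, the constant `d` does not depend on `k`. -/
theorem result_of_cross_step (d : ℝ) (hd0 : 0 < d) (hd4 : d ≤ 1 / 4)
    (Hyp : ∃ k₁ : ℝ, ∀ k : ℝ, k₁ ≤ k → ∀ N : ℕ, 1 ≤ N →
      ∫ z : Tor, (cross k N z : ℝ) ≤ d * N → ∫ z : Tor, (cross k N z : ℝ) ≤ d / 2 * N) :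
    ∃ k₀ : ℝ, 0 < k₀ ∧ ∀ k : ℝ, k₀ ≤ k →
      0 < MeasureTheory.volume ({p : ℝ × ℝ | ∃ c : ℝ, 0 < c ∧
          ∃ᶠ n : ℕ in Filter.atTop, c * n ≤ Real.log ‖fderiv ℝ (standardMapLift k)^[n] p‖} ∩
        Set.Ico (0 : ℝ) 1 ×ˢ Set.Ico (0 : ℝ) 1) := by
  apply result_of_cross
  obtain ⟨k₁, Hyp⟩ := Hyp
  obtain ⟨N1, hN1⟩ := exists_nat_gt (8 / d)
  refine ⟨max k₁ (max (Real.exp 100) (8 * N1 / d)), fun k hk => ?_⟩
  have hk1 : k₁ ≤ k := (le_max_left _ _).trans hk
  have hk2 : Real.exp 100 ≤ k := (le_max_left _ _).trans ((le_max_right _ _).trans hk)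
  have hk3 : 8 * N1 / d ≤ k := (le_max_right _ _).trans ((le_max_right _ _).trans hk)
  have hk' : 1 < k := by
    have := Real.add_one_le_exp 100
    linarith
  have hk0 : 0 < k := by linarith
  set x := Real.log k with hx
  have hx100 : 100 ≤ x := by
    rw [hx, Real.le_log_iff_exp_le hk0]
    exact hk2
  have hpi := Real.pi_lt_d2
  have hpi0 := Real.pi_pos
  have hL : Real.log (3 + 2 * Real.pi * k) ≤ 2 * x := by
    have a : 3 + 2 * Real.pi * k ≤ 10 * k := by nlinarith
    have b := Real.log_le_log (by positivity) a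
    rw [Real.log_mul (by norm_num) hk0.ne'] at b
    have c := Real.log_le_sub_one_of_pos (by norm_num : (0:ℝ) < 10)
    linarith
  have hall : ∀ N : ℕ, ∫ z : Tor, (cross k N z : ℝ) ≤ d / 2 * N := by
    intro N
    induction N with
    | zero =>
      have : ∀ z, cross k 0 z = 0 := fun z => by simp [cross]
      simp [this]
    | succ N ih =>
      apply Hyp k hk1 (N + 1) (by omega)
      rcases le_or_gt (N + 1) N1 with h | h
      · have hb := integral_cross_base hk' (N + 1) (2 * (N + 1)) (by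
          push_cast
          rw [← hx]
          have : (0:ℝ) ≤ (N : ℝ) + 1 := by positivity
          nlinarith)
        refine hb.trans ?_
        apply mul_le_mul_of_nonneg_right _ (Nat.cast_nonneg _)
        have h5 : ((N + 1 : ℕ) : ℝ) ≤ N1 := by exact_mod_cast h
        rw [div_le_iff₀ hd0] at hk3
        rw [div_le_iff₀ hk0]
        push_cast at h5 ⊢
        nlinarith
      · have hs := integral_cross_succ_le hk' N
        have h3 : Real.log (3 + 2 * Real.pi * k) / Real.log k + 1 ≤ 3 := by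
          rw [← hx]
          have : Real.log (3 + 2 * Real.pi * k) / x ≤ 2 := by
            rw [div_le_iff₀ (by linarith)]
            exact hL
          linarith
        have h4 : 8 / d < (N : ℝ) + 1 := by
          refine hN1.trans_le ?_
          exact_mod_cast h.le
        rw [div_lt_iff₀ hd0] at h4
        push_cast
        linarith
  refine Frequently.of_forall fun N => (hall N).trans ?_
  have : (0:ℝ) ≤ N := Nat.cast_nonneg N
  nlinarith

end Crest.Agent.R128.AccBoot
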