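import Mathlib
import Crest.Agent.R128.Acc

/-!
# Row 128: part A for the down-crossings of the root contour, and the closing in the window length
(helper368)

`CR β κ N` is the number of down-crossings of the levels `j κ` by `β` in `[0, N]`, i.e. the number of
closed components of the sets `{β > j κ}`.  No truncation of the heights, no ties.

`close_window`: if the mean number `XX k N` of down-crossings satisfies
`x ≤ A ε + B (ε + x) ^ 2` for all `N`, with `ε = ε k → 0`, then S0172 (bootstrap in `N`).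
-/

set_option autoImplicit false
open MeasureTheory Filter Topology Finset
open Crest.AnalysisR.StandardFamily
open Crest.Agent.R128 Crest.Agent.R128.Acc

namespace Crest.Agent.R128.AccWin

/-- number of down-crossings of the levels `j κ` on `[0, N]` -/
noncomputable def CR (β : ℕ → ℝ) (κ : ℝ) (N : ℕ) : ℕ :=
  ∑ n ∈ range N, (⌈β n / κ⌉₊ - ⌈β (n + 1) / κ⌉₊)

theorem CR_succ (β : ℕ → ℝ) (κ : ℝ) (N : ℕ) :
    CR β κ (N + 1) = CR β κ N + (⌈β N / κ⌉₊ - ⌈β (N + 1) / κ⌉₊) := by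
  unfold CR
  rw [Finset.sum_range_succ]

theorem CR_step {β : ℕ → ℝ} {κ : ℝ} (hκ : 0 < κ) (hβ : ∀ n, 0 ≤ β n) {c : ℕ}
    (hc : ∀ n, β n - β (n + 1) ≤ c * κ) (N : ℕ) : CR β κ (N + 1) ≤ CR β κ N + c := by
  rw [CR_succ]
  have h : ⌈β N / κ⌉₊ ≤ ⌈β (N + 1) / κ⌉₊ + c := by
    rw [← Nat.ceil_add_natCast (div_nonneg (hβ _) hκ.le)]
    apply Nat.ceil_mono
    rw [div_add' _ _ _ hκ.ne']
    exact div_le_div_of_nonneg_right (by linarith [hc N]) hκ.le
  omega

theorem CR_le {β : ℕ → ℝ} {κ : ℝ} (hκ : 0 < κ) (hβ : ∀ n, 0 ≤ β n) {c : ℕ}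
    (hc : ∀ n, β n - β (n + 1) ≤ c * κ) (N : ℕ) : CR β κ N ≤ c * N := by
  induction N with
  | zero => simp [CR]
  | succ N ih =>
    have := CR_step hκ hβ hc N
    rw [Nat.mul_succ]
    omega

theorem CR_zero {β : ℕ → ℝ} {κ : ℝ} (hκ : 0 < κ) {N : ℕ} (h : ∀ n < N, β n ≤ β (n + 1)) :
    CR β κ N = 0 := by
  unfold CR
  apply Finset.sum_eq_zero
  intro n hn
  have := Nat.ceil_mono (div_le_div_of_nonneg_right (h n (Finset.mem_range.mp hn)) hκ.le)
  omega

open Classical in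
/-- total descent -/
theorem down_le {β : ℕ → ℝ} {κ L : ℝ} (hκ : 0 < κ) (hβ : ∀ n, 0 ≤ β n)
    (hL0 : 0 ≤ L) (N : ℕ) (bad : ℕ → Prop)
    (hL : ∀ n, β n - β (n + 1) ≤ L)
    (hgood : ∀ n, ¬ bad n → β (n + 1) < β n → κ ≤ β n - β (n + 1)) :
    ∑ n ∈ range N, max 0 (β n - β (n + 1)) ≤
      2 * κ * (CR β κ N : ℝ) + L * #{n ∈ range N | bad n} := by
  have h2 : ∀ n, max 0 (β n - β (n + 1)) ≤
      2 * κ * ((⌈β n / κ⌉₊ - ⌈β (n + 1) / κ⌉₊ : ℕ) : ℝ) + L * (if bad n then 1 else 0) := by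
    intro n
    have hc0 : (0 : ℝ) ≤ ((⌈β n / κ⌉₊ - ⌈β (n + 1) / κ⌉₊ : ℕ) : ℝ) := Nat.cast_nonneg _
    have hκc : 0 ≤ 2 * κ * ((⌈β n / κ⌉₊ - ⌈β (n + 1) / κ⌉₊ : ℕ) : ℝ) := by positivity
    by_cases hb : bad n
    · simp only [hb, if_true]
      refine max_le (by linarith) ?_
      linarith [hL n]
    · simp only [hb, if_false]
      rcases le_or_gt (β n) (β (n + 1)) with h | h
      · refine max_le (by linarith) (by linarith)
      · have h3 := hgood n hb h
        have hle : ⌈β (n + 1) / κ⌉₊ + 1 ≤ ⌈β n / κ⌉₊ := by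
          rw [← Nat.ceil_add_one (div_nonneg (hβ _) hκ.le)]
          apply Nat.ceil_mono
          rw [← div_self hκ.ne', ← add_div]
          exact div_le_div_of_nonneg_right (by linarith) hκ.le
        have e : (((⌈β n / κ⌉₊ - ⌈β (n + 1) / κ⌉₊ : ℕ)) : ℝ) =
            (⌈β n / κ⌉₊ : ℝ) - ⌈β (n + 1) / κ⌉₊ := by
          rw [Nat.cast_sub (by omega)]
        have c1 : β n / κ ≤ ⌈β n / κ⌉₊ := Nat.le_ceil _
        have c2 : (⌈β (n + 1) / κ⌉₊ : ℝ) < β (n + 1) / κ + 1 :=
          Nat.ceil_lt_add_one (div_nonneg (hβ _) hκ.le)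
        have c3 : (1 : ℝ) ≤ (⌈β n / κ⌉₊ : ℝ) - ⌈β (n + 1) / κ⌉₊ := by
          have : ((⌈β (n + 1) / κ⌉₊ + 1 : ℕ) : ℝ) ≤ ⌈β n / κ⌉₊ := by exact_mod_cast hle
          push_cast at this
          linarith
        have c4 : (β n - β (n + 1)) ≤ κ * ((⌈β n / κ⌉₊ : ℝ) - ⌈β (n + 1) / κ⌉₊ + 1) := by
          have : (β n - β (n + 1)) / κ ≤ (⌈β n / κ⌉₊ : ℝ) - ⌈β (n + 1) / κ⌉₊ + 1 := by
            rw [sub_div]
            linarith
          rw [div_le_iff₀ hκ] at this
          linarith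
        rw [e]
        refine max_le (by nlinarith) ?_
        nlinarith
  calc ∑ n ∈ range N, max 0 (β n - β (n + 1)) ≤
      ∑ n ∈ range N, (2 * κ * ((⌈β n / κ⌉₊ - ⌈β (n + 1) / κ⌉₊ : ℕ) : ℝ) +
        L * (if bad n then 1 else 0)) := Finset.sum_le_sum fun n _ => h2 n
    _ = 2 * κ * (CR β κ N : ℝ) + L * #{n ∈ range N | bad n} := by
      rw [Finset.sum_add_distrib, ← Finset.mul_sum, ← Finset.mul_sum]
      unfold CR
      push_cast
      congr 2
      simp

section Rho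

variable {ρ V : ℕ → ℝ} {L κ : ℝ}

theorem bt_zero (h00 : ρ 0 = 1) (h01 : ρ 1 = 1) : bt ρ 0 = 0 := by
  unfold bt
  rw [zero_add, h00, h01]
  simp

/-- no near critical digit: the contour does not descend -/
theorem bt_mono (h1 : ∀ n, V n * ρ (n + 1) ≤ ρ (n + 2) + ρ n) (hρ : ∀ n, 0 < ρ n)
    (h01 : ρ 0 ≤ ρ 1) {N : ℕ} (hV : ∀ n < N, 2 ≤ V n) :
    ∀ n < N, bt ρ n ≤ bt ρ (n + 1) := by
  have key : ∀ n, n ≤ N → ρ n ≤ ρ (n + 1) := by
    intro n
    induction n with
    | zero => intro _; exact h01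
    | succ n ih =>
      intro hn
      have a := ih (by omega)
      have b := h1 n
      have c := hV n (by omega)
      have d := hρ (n + 1)
      rw [show n + 1 + 1 = n + 2 from rfl]
      nlinarith
  intro n hn
  unfold bt
  apply Real.log_le_log (lt_max_of_lt_left (hρ n))
  have a := key n hn.le
  have b := key (n + 1) (by omega)
  rw [max_eq_right a, max_eq_right b]
  exact b

open Classical in
/-- **deterministic accounting, with down-crossings** -/
theorem accounting (hV : ∀ n, 0 ≤ V n) (hρ : ∀ n, 0 < ρ n)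
    (h1 : ∀ n, V n * ρ (n + 1) ≤ ρ (n + 2) + ρ n)
    (h3 : ∀ n, ρ n ≤ V n * ρ (n + 1) + ρ (n + 2))
    (h4 : ∀ n, 1 ≤ ρ n * ρ (n + 1)) (h00 : ρ 0 = 1) (h01 : ρ 1 = 1)
    (hL : ∀ n, Real.log (1 + V n) ≤ L) (hκ : 0 < κ) (N : ℕ) :
    (∑ n ∈ range N, gn (V n)) - 5 * L * #{n ∈ range N | V n < Real.exp κ + 1}
      - 4 * κ * (CR (bt ρ) κ N : ℝ) ≤ bt ρ N := by
  have hL0 : 0 ≤ L := (Real.log_nonneg (by linarith [hV 0])).trans (hL 0)
  have hb0 : bt ρ 0 = 0 := bt_zero h00 h01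
  have hbn := bt_nonneg hρ h4
  have he2 : (2 : ℝ) ≤ Real.exp κ + 1 := by linarith [Real.add_one_le_exp κ]
  set B : ℝ := (#{n ∈ range N | V n < Real.exp κ + 1} : ℝ) with hB
  have hB2 : (#{n ∈ range N | V n < 2} : ℝ) ≤ B := by
    rw [hB]
    have : #{n ∈ range N | V n < 2} ≤ #{n ∈ range N | V n < Real.exp κ + 1} := by
      apply Finset.card_le_card
      intro n hn
      rw [Finset.mem_filter] at hn ⊢
      exact ⟨hn.1, by linarith [hn.2]⟩
    exact_mod_cast this
  have hVal := (valleys_le hρ h1 (by rw [h00, h01]) N).trans hB2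
  have hbad : ∀ bad : ℕ → Prop, (∀ n, bad n → V n < Real.exp κ + 1 ∨ Val ρ n) →
      (#{n ∈ range N | bad n} : ℝ) ≤ 2 * B := by
    intro bad hb
    have : #{n ∈ range N | bad n} ≤
        #{n ∈ range N | V n < Real.exp κ + 1} + #{n ∈ range N | Val ρ n} := by
      refine le_trans (Finset.card_le_card ?_) (Finset.card_union_le _ _)
      intro n hn
      rw [Finset.mem_filter] at hn
      rw [Finset.mem_union, Finset.mem_filter, Finset.mem_filter]
      rcases hb n hn.2 with h | h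
      · exact Or.inl ⟨hn.1, h⟩
      · exact Or.inr ⟨hn.1, h⟩
    have h' : (#{n ∈ range N | bad n} : ℝ) ≤
        B + #{n ∈ range N | Val ρ n} := by
      rw [hB]
      exact_mod_cast this
    linarith
  have hdown := down_le (β := bt ρ) (L := L) hκ hbn hL0 N
    (fun n => V n < Real.exp κ + 1 ∨ Val ρ n)
    (fun n => by linarith [bt_le_succ hV hρ h3 hL n])
    (by
      intro n hn hlt
      push Not at hn
      have h5 := step_abs hρ h1 (by linarith [hn.1]) hn.2
      have h6 : κ ≤ Real.log (V n - 1) := by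
        rw [Real.le_log_iff_exp_le (by linarith [Real.exp_pos κ, hn.1])]
        linarith [hn.1]
      rw [abs_of_neg (by linarith)] at h5
      linarith)
  have hvar : ∀ n, gn (V n) - L * (if Val ρ n then 1 else 0) ≤ |bt ρ (n + 1) - bt ρ n| := by
    intro n
    unfold gn
    by_cases h5 : V n < 2
    · rw [if_pos h5]
      have : 0 ≤ L * (if Val ρ n then (1 : ℝ) else 0) := by
        apply mul_nonneg hL0
        split_ifs <;> norm_num
      linarith [abs_nonneg (bt ρ (n + 1) - bt ρ n)]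
    · rw [if_neg h5]
      push Not at h5
      by_cases h6 : Val ρ n
      · rw [if_pos h6]
        have : Real.log (V n - 1) ≤ L :=
          (Real.log_le_log (by linarith) (by linarith)).trans (hL n)
        linarith [abs_nonneg (bt ρ (n + 1) - bt ρ n)]
      · rw [if_neg h6]
        linarith [step_abs hρ h1 h5 h6]
  have hvar2 := Finset.sum_le_sum fun n (_ : n ∈ range N) => hvar n
  rw [Finset.sum_sub_distrib, ← Finset.mul_sum, Finset.sum_boole] at hvar2
  have hid : bt ρ N = ∑ n ∈ range N, |bt ρ (n + 1) - bt ρ n| -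
      2 * ∑ n ∈ range N, max 0 (bt ρ n - bt ρ (n + 1)) := by
    have : bt ρ N = ∑ n ∈ range N, (bt ρ (n + 1) - bt ρ n) := by
      rw [Finset.sum_range_sub, hb0, sub_zero]
    rw [this, Finset.mul_sum, ← Finset.sum_sub_distrib]
    refine Finset.sum_congr rfl fun n _ => ?_
    rcases le_total (bt ρ n) (bt ρ (n + 1)) with h | h
    · rw [abs_of_nonneg (by linarith), max_eq_left (by linarith)]
      ring
    · rw [abs_of_nonpos (by linarith), max_eq_right (by linarith)]
      ring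
  have hmul2 := mul_le_mul_of_nonneg_left (hbad (fun n => V n < Real.exp κ + 1 ∨ Val ρ n)
    fun n h => h) hL0
  have hmul3 := mul_le_mul_of_nonneg_left hVal hL0
  rw [hid]
  nlinarith

end Rho

/-! ## The standard map -/

/-- number of down-crossings of the contour of `z` in `[0, N]`, levels `j (log k) / 2` -/
noncomputable def CZ (k : ℝ) (N : ℕ) (z : Tor) : ℕ := CR (bt (rr k z)) (Real.log k / 2) N

/-- mean number of down-crossings per unit time -/
noncomputable def XX (k : ℝ) (N : ℕ) : ℝ := (∫ z : Tor, (CZ k N z : ℝ)) / N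

theorem continuous_rr (k : ℝ) (n : ℕ) : Continuous fun z : Tor => rr k z n := by
  unfold rr rn
  have h := continuous_Mn k n
  exact (h.matrix_elem 0 0).abs.add (h.matrix_elem 0 1).abs

theorem continuous_bt (k : ℝ) (n : ℕ) : Continuous fun z : Tor => bt (rr k z) n := by
  unfold bt
  apply Continuous.log
  · exact (continuous_rr k n).max (continuous_rr k (n + 1))
  · intro z
    exact (lt_max_of_lt_left (rr_pos k z n)).ne'

theorem measurable_CZ (k : ℝ) (N : ℕ) : Measurable (CZ k N) := by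
  unfold CZ CR
  refine Finset.measurable_sum _ fun n _ => ?_
  have h1 : Measurable fun z : Tor => ⌈bt (rr k z) n / (Real.log k / 2)⌉₊ :=
    Nat.measurable_ceil.comp ((continuous_bt k n).measurable.div_const _)
  have h2 : Measurable fun z : Tor => ⌈bt (rr k z) (n + 1) / (Real.log k / 2)⌉₊ :=
    Nat.measurable_ceil.comp ((continuous_bt k (n + 1)).measurable.div_const _)
  exact (Measurable.of_discrete (f := fun p : ℕ × ℕ => p.1 - p.2)).comp (h1.prodMk h2)

theorem log_le_four {k : ℝ} (hk : 10 ≤ k) :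
    Real.log (3 + 2 * Real.pi * k) ≤ (4 : ℕ) * (Real.log k / 2) := by
  have hpi := Real.pi_lt_d2
  have h : 3 + 2 * Real.pi * k ≤ k ^ 2 := by nlinarith
  have := Real.log_le_log (by positivity) h
  rw [Real.log_pow] at this
  push_cast at this ⊢
  linarith

theorem bt_sub_le {k : ℝ} (hk : 10 ≤ k) (z : Tor) (n : ℕ) :
    bt (rr k z) n - bt (rr k z) (n + 1) ≤ (4 : ℕ) * (Real.log k / 2) := by
  have h := bt_le_succ (ρ := rr k z) (V := dg k z) (L := Real.log (3 + 2 * Real.pi * k))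
    (fun n => abs_nonneg _) (rr_pos k z) (rr_h3 k z)
    (fun n => Real.log_le_log (by have := abs_nonneg (V k ((T k)^[n] z).2); unfold dg; linarith)
      (by linarith [dg_le k (by linarith) z n])) n
  have := log_le_four hk
  linarith

theorem log_half_pos {k : ℝ} (hk : 10 ≤ k) : 0 < Real.log k / 2 := by
  have := Real.log_pos (by linarith : 1 < k)
  linarith

theorem CZ_le {k : ℝ} (hk : 10 ≤ k) (N : ℕ) (z : Tor) : CZ k N z ≤ 4 * N :=
  CR_le (log_half_pos hk) (bt_nonneg (rr_pos k z) (rr_h4 k z)) (bt_sub_le hk z) N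

theorem CZ_step {k : ℝ} (hk : 10 ≤ k) (N : ℕ) (z : Tor) : CZ k (N + 1) z ≤ CZ k N z + 4 :=
  CR_step (log_half_pos hk) (bt_nonneg (rr_pos k z) (rr_h4 k z)) (bt_sub_le hk z) N

theorem CZ_zero {k : ℝ} (hk : 10 ≤ k) {N : ℕ} {z : Tor} (h : ∀ n < N, 2 ≤ dg k z n) :
    CZ k N z = 0 :=
  CR_zero (log_half_pos hk) (bt_mono (rr_h1 k z) (rr_pos k z)
    (by rw [rr_zero, rr_one]) h)

theorem integrable_CZ {k : ℝ} (hk : 10 ≤ k) (N : ℕ) :
    Integrable (fun z => (CZ k N z : ℝ)) (volume : Measure Tor) := by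
  refine Integrable.of_bound ((measurable_from_top (f := fun n : ℕ => (n : ℝ))).comp
    (measurable_CZ k N)).aestronglyMeasurable (4 * N) (Eventually.of_forall fun z => ?_)
  rw [Real.norm_of_nonneg (Nat.cast_nonneg _)]
  exact_mod_cast CZ_le hk N z

theorem XX_nonneg (k : ℝ) (N : ℕ) : 0 ≤ XX k N :=
  div_nonneg (integral_nonneg fun _ => Nat.cast_nonneg _) (Nat.cast_nonneg _)

theorem mul_XX (k : ℝ) {N : ℕ} (hN : 1 ≤ N) : N * XX k N = ∫ z : Tor, (CZ k N z : ℝ) := by
  unfold XX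
  have : (N : ℝ) ≠ 0 := by positivity
  field_simp

theorem XX_step {k : ℝ} (hk : 10 ≤ k) {N : ℕ} (hN : 1 ≤ N) :
    ((N : ℝ) + 1) * XX k (N + 1) ≤ N * XX k N + 4 := by
  have h := mul_XX k (N := N + 1) (by omega)
  push_cast at h
  rw [h, mul_XX k hN]
  calc ∫ z : Tor, (CZ k (N + 1) z : ℝ) ≤ ∫ z : Tor, ((CZ k N z : ℝ) + 4) := by
        apply integral_mono (integrable_CZ hk _) ((integrable_CZ hk N).add (integrable_const _))
        intro z
        show (CZ k (N + 1) z : ℝ) ≤ (CZ k N z : ℝ) + 4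
        exact_mod_cast CZ_step hk N z
    _ = _ := by
      rw [integral_add (integrable_CZ hk N) (integrable_const _)]
      simp

theorem XX_base {k : ℝ} (hk : 10 ≤ k) {N : ℕ} (hN : 1 ≤ N) : XX k N ≤ 8 * N / k := by
  classical
  have hk1 : 1 ≤ k := by linarith
  set B : Set Tor := {z | |V k z.2| ≤ 2} with hB
  have hBm : MeasurableSet B :=
    (isClosed_le ((continuous_V k).comp continuous_snd).abs continuous_const).measurableSet
  have hBI : Integrable (B.indicator (fun _ => (1:ℝ))) (volume : Measure Tor) :=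
    (integrable_const (1:ℝ)).indicator hBm
  have hBv : (volume : Measure Tor).real B ≤ 2 / k := volumeReal_V_le hk1 (by norm_num)
  have hpt : ∀ z : Tor, (CZ k N z : ℝ) ≤
      4 * N * ∑ n ∈ range N, B.indicator (fun _ => (1:ℝ)) ((T k)^[n] z) := by
    intro z
    have hs : ∀ n, 0 ≤ B.indicator (fun _ => (1:ℝ)) ((T k)^[n] z) := fun n => by
      rw [Set.indicator_apply]; split_ifs <;> norm_num
    by_cases h : ∀ n < N, 2 ≤ dg k z n
    · rw [CZ_zero hk h]
      have := Finset.sum_nonneg fun n (_ : n ∈ range N) => hs n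
      push_cast
      positivity
    · push Not at h
      obtain ⟨n, hn, hlt⟩ := h
      have h1 : (1 : ℝ) ≤ ∑ n ∈ range N, B.indicator (fun _ => (1:ℝ)) ((T k)^[n] z) := by
        refine le_trans ?_ (Finset.single_le_sum (f := fun n =>
          B.indicator (fun _ => (1:ℝ)) ((T k)^[n] z)) (fun n _ => hs n) (Finset.mem_range.mpr hn))
        rw [Set.indicator_of_mem]
        exact hlt.le
      have h2 : (CZ k N z : ℝ) ≤ 4 * N := by exact_mod_cast CZ_le hk N z
      have : (0:ℝ) ≤ 4 * N := by positivity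
      nlinarith
  have hint : ∫ z : Tor, (CZ k N z : ℝ) ≤ 4 * N * (N * (2 / k)) := by
    calc ∫ z : Tor, (CZ k N z : ℝ) ≤
        ∫ z : Tor, 4 * N * ∑ n ∈ range N, B.indicator (fun _ => (1:ℝ)) ((T k)^[n] z) :=
          integral_mono (integrable_CZ hk N) ((integrable_finsetSum _ fun n _ =>
            integrable_comp_iter n hBI).const_mul _) hpt
      _ = 4 * N * (N * (volume : Measure Tor).real B) := by
          rw [integral_const_mul, integral_finsetSum _ fun n _ => integrable_comp_iter n hBI]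
          have : ∀ n, ∫ z : Tor, B.indicator (fun _ => (1:ℝ)) ((T k)^[n] z) =
              (volume : Measure Tor).real B := by
            intro n
            rw [integral_comp_iter (f := B.indicator (fun _ => (1:ℝ))) n hBI.aestronglyMeasurable,
              integral_indicator hBm]
            simp
          rw [Finset.sum_congr rfl fun n _ => this n]
          simp
      _ ≤ _ := by gcongr
  have hNr : (0 : ℝ) < N := by exact_mod_cast hN
  unfold XX
  rw [div_le_iff₀ hNr]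
  calc _ ≤ _ := hint
    _ = _ := by ring

open Classical in
theorem pointwise {k : ℝ} (hk : 10 ≤ k) (z : Tor) (N : ℕ) :
    (∑ n ∈ range N, (lm k 1 ((T k)^[n] z) - Real.log 2)) -
      5 * Real.log (3 + 2 * Real.pi * k) *
        #{n ∈ range N | dg k z n < Real.exp (Real.log k / 2) + 1}
      - 4 * (Real.log k / 2) * (CZ k N z : ℝ) ≤ lm k N z + Real.log 2 := by
  have h := accounting (ρ := rr k z) (V := dg k z) (L := Real.log (3 + 2 * Real.pi * k))
    (κ := Real.log k / 2)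
    (fun n => abs_nonneg _) (rr_pos k z) (rr_h1 k z) (rr_h3 k z) (rr_h4 k z)
    (rr_zero k z) (rr_one k z)
    (fun n => Real.log_le_log (by have := abs_nonneg (V k ((T k)^[n] z).2); unfold dg; linarith)
      (by linarith [dg_le k (by linarith) z n])) (log_half_pos hk) N
  have h1 := bt_le_lm k N z
  have h2 : (∑ n ∈ range N, (lm k 1 ((T k)^[n] z) - Real.log 2)) ≤
      ∑ n ∈ range N, gn (dg k z n) := Finset.sum_le_sum fun n _ => gn_ge k _
  unfold CZ
  linarith

/-- **integrated accounting, with down-crossings** -/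
theorem integrated {k : ℝ} (hk : 10 ≤ k) (N : ℕ) :
    N * (Real.log k - 3 - Real.log 2
      - 5 * Real.log (3 + 2 * Real.pi * k) * ((Real.exp (Real.log k / 2) + 1) / k))
      - 4 * (Real.log k / 2) * (∫ z : Tor, (CZ k N z : ℝ)) - Real.log 2 ≤ ∫ z : Tor, lm k N z := by
  classical
  have hk1 : 1 ≤ k := by linarith
  have hκ := log_half_pos hk
  set κ := Real.log k / 2 with hκd
  set c1 := 5 * Real.log (3 + 2 * Real.pi * k) with hc1
  have hc1n : 0 ≤ c1 := by
    have : 0 ≤ Real.log (3 + 2 * Real.pi * k) := Real.log_nonneg (by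
      have : 0 ≤ 2 * Real.pi * k := by positivity
      linarith)
    positivity
  set B : Set Tor := {z | |V k z.2| ≤ Real.exp κ + 1} with hB
  have hBm : MeasurableSet B :=
    (isClosed_le ((continuous_V k).comp continuous_snd).abs continuous_const).measurableSet
  have hBI : Integrable (B.indicator (fun _ => (1:ℝ))) (volume : Measure Tor) :=
    (integrable_const (1:ℝ)).indicator hBm
  have hlI : Integrable (fun z => lm k 1 z - Real.log 2) (volume : Measure Tor) :=
    (integrable_lm k 1).sub (integrable_const _)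
  have hpt : ∀ z : Tor, (∑ n ∈ range N, (lm k 1 ((T k)^[n] z) - Real.log 2)) -
      c1 * (∑ n ∈ range N, B.indicator (fun _ => (1:ℝ)) ((T k)^[n] z))
      - 4 * κ * (CZ k N z : ℝ) ≤ lm k N z + Real.log 2 := by
    intro z
    refine le_trans ?_ (pointwise hk z N)
    rw [← hκd, ← hc1]
    have e1 : (#{n ∈ range N | dg k z n < Real.exp κ + 1} : ℝ) ≤
        ∑ n ∈ range N, B.indicator (fun _ => (1:ℝ)) ((T k)^[n] z) := by
      rw [Finset.card_filter]
      push_cast
      refine Finset.sum_le_sum fun n _ => ?_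
      rw [Set.indicator_apply]
      split_ifs with h1 h2 h2
      · exact le_rfl
      · exact absurd h1.le h2
      · norm_num
      · exact le_rfl
    have e3 := mul_le_mul_of_nonneg_left e1 hc1n
    linarith
  have i1 : Integrable (fun z : Tor => ∑ n ∈ range N, (lm k 1 ((T k)^[n] z) - Real.log 2)) volume :=
    integrable_finsetSum _ fun n _ => integrable_comp_iter n hlI
  have i2 : Integrable (fun z : Tor => c1 * ∑ n ∈ range N, B.indicator (fun _ => (1:ℝ))
      ((T k)^[n] z)) volume :=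
    (integrable_finsetSum _ fun n _ => integrable_comp_iter n hBI).const_mul _
  have i3 : Integrable (fun z : Tor => 4 * κ * (CZ k N z : ℝ)) volume :=
    (integrable_CZ hk N).const_mul _
  have hI : ∫ z : Tor, ((∑ n ∈ range N, (lm k 1 ((T k)^[n] z) - Real.log 2)) -
      c1 * (∑ n ∈ range N, B.indicator (fun _ => (1:ℝ)) ((T k)^[n] z))
      - 4 * κ * (CZ k N z : ℝ)) ≤ ∫ z : Tor, (lm k N z + Real.log 2) :=
    integral_mono ((i1.sub i2).sub i3) ((integrable_lm k N).add (integrable_const _)) hpt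
  have j1 : ∫ z : Tor, ∑ n ∈ range N, (lm k 1 ((T k)^[n] z) - Real.log 2) =
      N * ((∫ z : Tor, lm k 1 z) - Real.log 2) := by
    rw [integral_finsetSum _ fun n _ => integrable_comp_iter n hlI]
    have : ∀ n, ∫ z : Tor, (lm k 1 ((T k)^[n] z) - Real.log 2) =
        (∫ z : Tor, lm k 1 z) - Real.log 2 := by
      intro n
      rw [integral_comp_iter (f := fun z => lm k 1 z - Real.log 2) n hlI.aestronglyMeasurable,
        integral_sub (integrable_lm k 1) (integrable_const _)]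
      simp
    rw [Finset.sum_congr rfl fun n _ => this n]
    simp only [Finset.sum_const, Finset.card_range, nsmul_eq_mul]
  have j2 : ∫ z : Tor, c1 * ∑ n ∈ range N, B.indicator (fun _ => (1:ℝ)) ((T k)^[n] z) =
      c1 * (N * (volume : Measure Tor).real B) := by
    rw [integral_const_mul, integral_finsetSum _ fun n _ => integrable_comp_iter n hBI]
    have : ∀ n, ∫ z : Tor, B.indicator (fun _ => (1:ℝ)) ((T k)^[n] z) =
        (volume : Measure Tor).real B := by
      intro n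
      rw [integral_comp_iter (f := B.indicator (fun _ => (1:ℝ))) n hBI.aestronglyMeasurable,
        integral_indicator hBm]
      simp
    rw [Finset.sum_congr rfl fun n _ => this n]
    simp
  have j3 : ∫ z : Tor, 4 * κ * (CZ k N z : ℝ) = 4 * κ * ∫ z : Tor, (CZ k N z : ℝ) :=
    integral_const_mul _ _
  have k1 := integral_sub (i1.sub i2) i3
  have k2 := integral_sub i1 i2
  simp only [Pi.sub_apply] at k1 k2
  rw [k1, k2, j1, j2, j3, integral_add (integrable_lm k N) (integrable_const _)] at hI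
  simp only [integral_const, probReal_univ, smul_eq_mul, one_mul] at hI
  have hl := log_sub_le_integral_lm_one hk1
  have hBv : (volume : Measure Tor).real B ≤ (Real.exp κ + 1) / k :=
    volumeReal_V_le hk1 (by positivity)
  have hN : (0 : ℝ) ≤ N := Nat.cast_nonneg N
  have a1 := mul_le_mul_of_nonneg_left hl hN
  have a2 := mul_le_mul_of_nonneg_left (mul_le_mul_of_nonneg_left hBv hc1n) hN
  nlinarith

/-- **Part A.** It is enough to bound the mean number of down-crossings by `1/5`. -/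
theorem torus_of_cross
    (H : ∃ k₁ : ℝ, ∀ k : ℝ, k₁ ≤ k → ∃ᶠ N : ℕ in atTop, XX k N ≤ 1 / 5) :
    ∃ k₀ : ℝ, 0 < k₀ ∧ ∀ k : ℝ, k₀ ≤ k → ∃ c : ℝ, 0 < c ∧
      ∃ᶠ n : ℕ in atTop, c * n ≤ ∫ z : Tor, lm k n z := by
  obtain ⟨k₁, H⟩ := H
  refine ⟨max k₁ (Real.exp 100), lt_max_of_lt_right (Real.exp_pos _), fun k hk => ?_⟩
  have hk1 : k₁ ≤ k := (le_max_left _ _).trans hk
  have hk2 : Real.exp 100 ≤ k := (le_max_right _ _).trans hk
  have hk0 : 0 < k := (Real.exp_pos _).trans_le hk2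
  set x := Real.log k with hx
  have hx100 : 100 ≤ x := by
    rw [hx, Real.le_log_iff_exp_le hk0]
    exact hk2
  have hk' : 10 ≤ k := by
    have := Real.add_one_le_exp 100
    linarith
  have hkx : k = Real.exp x := (Real.exp_log hk0).symm
  refine ⟨1, one_pos, ((H k hk1).and_eventually (eventually_ge_atTop 1)).mono ?_⟩
  rintro N ⟨hN, hN1⟩
  set κ := x / 2 with hκ
  have hκ0 : 0 < κ := by linarith
  have h := integrated hk' N
  rw [← mul_XX k hN1, ← hx, ← hκ] at h
  have hNr : (1 : ℝ) ≤ N := by exact_mod_cast hN1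
  have hlog2 : Real.log 2 ≤ 1 := by
    have := Real.log_le_sub_one_of_pos (by norm_num : (0:ℝ) < 2)
    linarith
  have hpi := Real.pi_lt_d2
  have hpi0 := Real.pi_pos
  have hL : Real.log (3 + 2 * Real.pi * k) ≤ x + 9 := by
    have a : 3 + 2 * Real.pi * k ≤ 10 * k := by nlinarith
    have b := Real.log_le_log (by positivity) a
    rw [Real.log_mul (by norm_num) hk0.ne'] at b
    have c := Real.log_le_sub_one_of_pos (by norm_num : (0:ℝ) < 10)
    linarith
  have hL0 : 0 ≤ Real.log (3 + 2 * Real.pi * k) := Real.log_nonneg (by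
    have : 0 ≤ 2 * Real.pi * k := by positivity
    linarith)
  have he : x ^ 2 / 8 ≤ Real.exp κ := by
    have := Real.quadratic_le_exp_of_nonneg hκ0.le
    rw [hκ] at this ⊢
    nlinarith
  have hkk : k = Real.exp κ * Real.exp κ := by
    rw [← Real.exp_add, hκ, add_halves]
    exact hkx
  have heκ : 0 < Real.exp κ := Real.exp_pos κ
  have he1 : 1 ≤ Real.exp κ := by nlinarith
  have hB : (Real.exp κ + 1) / k ≤ 16 / x ^ 2 := by
    rw [div_le_div_iff₀ hk0 (by positivity)]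
    nlinarith
  have hB2 : 5 * Real.log (3 + 2 * Real.pi * k) * ((Real.exp κ + 1) / k) ≤ 2 := by
    have a : 5 * Real.log (3 + 2 * Real.pi * k) ≤ 7 * x + 45 := by linarith
    have b : 0 ≤ (Real.exp κ + 1) / k := by positivity
    have c : (7 * x + 45) * (16 / x ^ 2) ≤ 2 := by
      rw [mul_div_assoc', div_le_iff₀ (by positivity)]
      nlinarith
    calc _ ≤ (7 * x + 45) * ((Real.exp κ + 1) / k) := mul_le_mul_of_nonneg_right a b
      _ ≤ (7 * x + 45) * (16 / x ^ 2) := mul_le_mul_of_nonneg_left hB (by linarith)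
      _ ≤ 2 := c
  have hC : 4 * κ * XX k N ≤ 2 * x / 5 := by
    have a : 4 * κ * XX k N ≤ 4 * κ * (1 / 5) := mul_le_mul_of_nonneg_left hN (by positivity)
    linarith
  have hfin : (1 : ℝ) + 1 ≤ x - 3 - Real.log 2
      - 5 * Real.log (3 + 2 * Real.pi * k) * ((Real.exp κ + 1) / k) - 4 * κ * XX k N := by
    linarith
  have := mul_le_mul_of_nonneg_left hfin (by linarith : (0:ℝ) ≤ N)
  nlinarith

/-- **S0172 from the down-crossings.** -/
theorem result_of_cross
    (H : ∃ k₁ : ℝ, ∀ k : ℝ, k₁ ≤ k → ∃ᶠ N : ℕ in atTop, XX k N ≤ 1 / 5) :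
    ∃ k₀ : ℝ, 0 < k₀ ∧ ∀ k : ℝ, k₀ ≤ k →
      0 < MeasureTheory.volume ({p : ℝ × ℝ | ∃ c : ℝ, 0 < c ∧
          ∃ᶠ n : ℕ in Filter.atTop, c * n ≤ Real.log ‖fderiv ℝ (standardMapLift k)^[n] p‖} ∩
        Set.Ico (0 : ℝ) 1 ×ˢ Set.Ico (0 : ℝ) 1) :=
  result_of_torus (torus_of_cross H)

/-! ## Closing in the window length -/

/-- continuity in `N` -/
theorem close_seq {x : ℕ → ℝ} {A B ε δ c b : ℝ} {M : ℕ} (hx : ∀ N, 0 ≤ x N) (hB : 0 ≤ B)
    (hε : 0 ≤ ε) (hstep : ∀ N : ℕ, 1 ≤ N → ((N : ℝ) + 1) * x (N + 1) ≤ N * x N + c)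
    (hbase : ∀ N : ℕ, 1 ≤ N → x N ≤ b * N) (hb : 0 ≤ b) (hM : 1 ≤ M)
    (hq : ∀ N : ℕ, 1 ≤ N → x N ≤ A * ε + B * (ε + x N) ^ 2)
    (h1 : A * ε ≤ δ / 2) (h2 : B * (ε + 2 * δ) ^ 2 ≤ δ / 2) (h3 : b * M ≤ δ) (h4 : c ≤ δ * M)
    (hδ : 0 ≤ δ) :
    ∀ N : ℕ, 1 ≤ N → x N ≤ δ := by
  intro N hN
  induction N, hN using Nat.le_induction with
  | base =>
    have a := hbase 1 le_rfl
    have : (1 : ℝ) ≤ M := by exact_mod_cast hM
    push_cast at a
    nlinarith
  | succ N hN ih =>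
    rcases Nat.lt_or_ge N M with h | h
    · have a := hbase (N + 1) (by omega)
      have : ((N + 1 : ℕ) : ℝ) ≤ M := by exact_mod_cast h
      nlinarith
    · have hNM : (M : ℝ) ≤ N := by exact_mod_cast h
      have hN0 : (1 : ℝ) ≤ N := by exact_mod_cast hN
      have a := hstep N hN
      have b2 : x (N + 1) ≤ 2 * δ := by
        have : ((N : ℝ) + 1) * x (N + 1) ≤ ((N : ℝ) + 1) * (2 * δ) := by nlinarith
        exact le_of_mul_le_mul_left this (by linarith)
      have c2 := hq (N + 1) (by omega)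
      have d : (ε + x (N + 1)) ^ 2 ≤ (ε + 2 * δ) ^ 2 := by
        have := hx (N + 1)
        apply pow_le_pow_left₀ (by linarith)
        linarith
      have e := mul_le_mul_of_nonneg_left d hB
      linarith

/-- **Closing.** -/
theorem close_window (A B : ℝ) (hB : 0 ≤ B) (ε : ℝ → ℝ) (hε0 : ∀ k, 0 ≤ ε k)
    (hε : Tendsto ε atTop (𝓝 0))
    (H : ∃ k₁ : ℝ, ∀ k : ℝ, k₁ ≤ k → ∀ N : ℕ, 1 ≤ N →
      XX k N ≤ A * ε k + B * (ε k + XX k N) ^ 2) :
    ∃ k₀ : ℝ, 0 < k₀ ∧ ∀ k : ℝ, k₀ ≤ k →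
      0 < MeasureTheory.volume ({p : ℝ × ℝ | ∃ c : ℝ, 0 < c ∧
          ∃ᶠ n : ℕ in Filter.atTop, c * n ≤ Real.log ‖fderiv ℝ (standardMapLift k)^[n] p‖} ∩
        Set.Ico (0 : ℝ) 1 ×ˢ Set.Ico (0 : ℝ) 1) := by
  apply result_of_cross
  obtain ⟨k₁, H⟩ := H
  obtain ⟨δ, hδ, hδ5, hδB⟩ : ∃ δ : ℝ, 0 < δ ∧ δ ≤ 1 / 5 ∧ B * (3 * δ) ^ 2 ≤ δ / 2 := by
    refine ⟨min (1 / 5) (1 / (18 * (B + 1))), by positivity, min_le_left _ _, ?_⟩
    set δ := min (1 / 5) (1 / (18 * (B + 1))) with hδ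
    have h1 : 0 < δ := by positivity
    have h2 : δ * (18 * (B + 1)) ≤ 1 := by
      have := min_le_right (1 / 5 : ℝ) (1 / (18 * (B + 1)))
      rw [← hδ, le_div_iff₀ (by positivity)] at this
      exact this
    nlinarith
  obtain ⟨M, hM⟩ := exists_nat_ge (4 / δ)
  have hM1 : 1 ≤ M + 1 := by omega
  have e1 : ∀ᶠ k in atTop, ε k < δ := hε.eventually (gt_mem_nhds hδ)
  have e2 : ∀ᶠ k in atTop, A * ε k < δ / 2 := by
    have := hε.const_mul A
    rw [mul_zero] at this
    exact this.eventually (gt_mem_nhds (by linarith))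
  obtain ⟨k₂, hk₂⟩ := ((e1.and e2).and
    ((eventually_ge_atTop (10 : ℝ)).and (eventually_ge_atTop (8 * (M + 1) / δ)))).exists_forall_of_atTop
  refine ⟨max k₁ k₂, fun k hk => ?_⟩
  have hk1 : k₁ ≤ k := (le_max_left _ _).trans hk
  obtain ⟨⟨f1, f2⟩, f3, f4⟩ := hk₂ k ((le_max_right _ _).trans hk)
  have hk0 : 0 < k := by linarith
  have key := close_seq (x := XX k) (A := A) (B := B) (ε := ε k) (δ := δ) (c := 4) (b := 8 / k)
    (M := M + 1) (XX_nonneg k) hB (hε0 k) (fun N hN => XX_step f3 hN)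
    (fun N hN => (XX_base f3 hN).trans (le_of_eq (by ring))) (by positivity) hM1 (H k hk1)
    f2.le ((mul_le_mul_of_nonneg_left (pow_le_pow_left₀ (by linarith [hε0 k])
      (by linarith) 2) hB).trans hδB)
    (by
      rw [div_le_iff₀ hδ] at f4
      rw [div_mul_eq_mul_div, div_le_iff₀ hk0]
      push_cast
      linarith)
    (by
      rw [div_le_iff₀ hδ] at hM
      push_cast
      nlinarith) hδ.le
  apply Eventually.frequently
  filter_upwards [eventually_ge_atTop 1] with N hN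
  exact (key N hN).trans hδ5

/-- two monotone densities, convolved -/
theorem mono_conv {a b : ℕ → ℝ} (ha : Monotone a) (hb : Monotone b) (ha0 : ∀ n, 0 ≤ a n)
    (hb0 : ∀ n, 0 ≤ b n) (N : ℕ) :
    ((N : ℝ) + 1) * ∑ v ∈ range (N + 1), a (N - v) * b v ≤
      4 * (∑ v ∈ range (N + 1), a v) * ∑ v ∈ range (N + 1), b v := by
  set Sa := ∑ v ∈ range (N + 1), a v with hSa
  set Sb := ∑ v ∈ range (N + 1), b v with hSb
  have hSa' : ∑ v ∈ range (N + 1), a (N - v) = Sa := by
    rw [hSa, ← Finset.sum_range_reflect a (N + 1)]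
    refine Finset.sum_congr rfl fun v _ => ?_
    congr 1
  have hmid : ∀ c : ℕ → ℝ, Monotone c → (∀ n, 0 ≤ c n) → ∀ v, 2 * v ≤ N →
      ((N : ℝ) + 1) * c v ≤ 2 * ∑ v ∈ range (N + 1), c v := by
    intro c hc hc0 v hv
    have h1 : ∑ u ∈ Ico v (N + 1), c v ≤ ∑ u ∈ range (N + 1), c u := by
      calc ∑ u ∈ Ico v (N + 1), c v ≤ ∑ u ∈ Ico v (N + 1), c u :=
            Finset.sum_le_sum fun u hu => hc (Finset.mem_Ico.mp hu).1
        _ ≤ _ := Finset.sum_le_sum_of_subset_of_nonneg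
            (fun u hu => Finset.mem_range.mpr (Finset.mem_Ico.mp hu).2) fun u _ _ => hc0 u
    rw [Finset.sum_const, Nat.card_Ico, nsmul_eq_mul, Nat.cast_sub (by omega)] at h1
    have h2 : (2 : ℝ) * v ≤ N := by exact_mod_cast hv
    push_cast at h1
    nlinarith [hc0 v]
  have hN : (0 : ℝ) < (N : ℝ) + 1 := by positivity
  have hSb0 : 0 ≤ Sb := Finset.sum_nonneg fun v _ => hb0 v
  have hSa0 : 0 ≤ Sa := Finset.sum_nonneg fun v _ => ha0 v
  have key : ∀ v ∈ range (N + 1), ((N : ℝ) + 1) * (a (N - v) * b v) ≤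
      2 * Sb * a (N - v) + 2 * Sa * b v := by
    intro v hv
    rw [Finset.mem_range] at hv
    rcases Nat.lt_or_ge N (2 * v) with h | h
    · have h1 := hmid a ha ha0 (N - v) (by omega)
      have h2 := mul_le_mul_of_nonneg_right h1 (hb0 v)
      have h3 : 0 ≤ 2 * Sb * a (N - v) := mul_nonneg (by positivity) (ha0 _)
      linarith
    · have h1 := hmid b hb hb0 v h
      have h2 := mul_le_mul_of_nonneg_left h1 (ha0 (N - v))
      have h3 : 0 ≤ 2 * Sa * b v := mul_nonneg (by positivity) (hb0 _)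
      linarith
  calc ((N : ℝ) + 1) * ∑ v ∈ range (N + 1), a (N - v) * b v
      = ∑ v ∈ range (N + 1), ((N : ℝ) + 1) * (a (N - v) * b v) := Finset.mul_sum _ _ _
    _ ≤ ∑ v ∈ range (N + 1), (2 * Sb * a (N - v) + 2 * Sa * b v) := Finset.sum_le_sum key
    _ = _ := by
      rw [Finset.sum_add_distrib, ← Finset.mul_sum, ← Finset.mul_sum, hSa']
      ring

/-- **Closing, in terms of the two one-sided densities** `a` (forward violation with lag `≤ m`)
and `b` (backward violation with lag `≤ m`). -/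
theorem close_areas (C : ℝ) (hC : 0 ≤ C) (ε : ℝ → ℝ) (hε0 : ∀ k, 0 ≤ ε k)
    (hε : Tendsto ε atTop (𝓝 0))
    (H : ∃ k₁ : ℝ, ∀ k : ℝ, k₁ ≤ k → ∃ a b : ℕ → ℝ, Monotone a ∧ Monotone b ∧ (∀ n, 0 ≤ a n) ∧
      (∀ n, 0 ≤ b n) ∧ ∀ N : ℕ, 1 ≤ N →
        N * XX k N ≤ C * (ε k * N + ∑ v ∈ range (N + 1), a (N - v) * b v) ∧
        ∑ v ∈ range (N + 1), a v ≤ C * N * (ε k + XX k N) ∧
        ∑ v ∈ range (N + 1), b v ≤ C * N * (ε k + XX k N)) :
    ∃ k₀ : ℝ, 0 < k₀ ∧ ∀ k : ℝ, k₀ ≤ k →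
      0 < MeasureTheory.volume ({p : ℝ × ℝ | ∃ c : ℝ, 0 < c ∧
          ∃ᶠ n : ℕ in Filter.atTop, c * n ≤ Real.log ‖fderiv ℝ (standardMapLift k)^[n] p‖} ∩
        Set.Ico (0 : ℝ) 1 ×ˢ Set.Ico (0 : ℝ) 1) := by
  apply close_window C (4 * C ^ 3) (by positivity) ε hε0 hε
  obtain ⟨k₁, H⟩ := H
  refine ⟨k₁, fun k hk N hN => ?_⟩
  obtain ⟨a, b, ha, hb, ha0, hb0, H⟩ := H k hk
  obtain ⟨h1, h2, h3⟩ := H N hN
  have h4 := mono_conv ha hb ha0 hb0 N
  have hx := XX_nonneg k N
  have he := hε0 k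
  set x := XX k N
  set e := ε k
  set Sa := ∑ v ∈ range (N + 1), a v
  set Sb := ∑ v ∈ range (N + 1), b v
  set S := ∑ v ∈ range (N + 1), a (N - v) * b v with hS
  have hSa0 : 0 ≤ Sa := Finset.sum_nonneg fun v _ => ha0 v
  have hSb0 : 0 ≤ Sb := Finset.sum_nonneg fun v _ => hb0 v
  have hN0 : (1 : ℝ) ≤ N := by exact_mod_cast hN
  have hy : 0 ≤ C * N * (e + x) := by positivity
  have h5 : Sa * Sb ≤ (C * N * (e + x)) ^ 2 := by
    rw [sq]
    exact mul_le_mul h2 h3 hSb0 hy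
  have hS0 : 0 ≤ S := Finset.sum_nonneg fun v _ => mul_nonneg (ha0 _) (hb0 _)
  have h6 : (N : ℝ) * S ≤ N * (4 * C ^ 2 * N * (e + x) ^ 2) := by nlinarith
  have h7 : S ≤ 4 * C ^ 2 * N * (e + x) ^ 2 := le_of_mul_le_mul_left h6 (by linarith)
  have h8 : (N : ℝ) * x ≤ N * (C * e + 4 * C ^ 3 * (e + x) ^ 2) := by
    have := mul_le_mul_of_nonneg_left h7 hC
    nlinarith
  exact le_of_mul_le_mul_left h8 (by linarith)

end Crest.Agent.R128.AccWin
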