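import Mathlib

set_option autoImplicit false

/-!
Row 128, node ALIGN: solutions of `s (n+2) = a (n+1) * s (n+1) - s n`, Wronskian,
`mu n = - P n / Q n`, and the equivalence between small ends of a two-sided solution and
the alignment equation `a 0 = mu⁺ + mu⁻ + O(ε²)`.
-/

namespace Crest.Agent.R128.Align

section algebra

variable {K : Type*} [Field K]

/-- the solution of `s (n+2) = a (n+1) * s (n+1) - s n` with `s 0 = u`, `s 1 = v` -/
def sol (a : ℕ → K) (u v : K) : ℕ → K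
  | 0 => u
  | 1 => v
  | n + 2 => a (n + 1) * sol a u v (n + 1) - sol a u v n

@[simp] theorem sol_zero (a : ℕ → K) (u v : K) : sol a u v 0 = u := rfl
@[simp] theorem sol_one (a : ℕ → K) (u v : K) : sol a u v 1 = v := rfl
theorem sol_add_two (a : ℕ → K) (u v : K) (n : ℕ) :
    sol a u v (n + 2) = a (n + 1) * sol a u v (n + 1) - sol a u v n := by
  rw [sol]

/-- any sequence satisfying the recursion is `sol` of its first two values -/
theorem eq_sol {a s : ℕ → K} {N : ℕ}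
    (h : ∀ n, n + 2 ≤ N → s (n + 2) = a (n + 1) * s (n + 1) - s n) :
    ∀ n, n ≤ N → s n = sol a (s 0) (s 1) n := by
  have key : ∀ n, (n ≤ N → s n = sol a (s 0) (s 1) n) ∧
      (n + 1 ≤ N → s (n + 1) = sol a (s 0) (s 1) (n + 1)) := by
    intro n
    induction n with
    | zero => exact ⟨fun _ => rfl, fun _ => rfl⟩
    | succ n ih =>
      refine ⟨ih.2, fun hn => ?_⟩
      rw [h n hn, sol_add_two, ih.1 (by omega), ih.2 (by omega)]
  exact fun n => (key n).1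

/-- the sequence only depends on the digits strictly between -/
theorem sol_congr {a b : ℕ → K} {N : ℕ} (h : ∀ n, 1 ≤ n → n < N → a n = b n) (u v : K) :
    ∀ n, n ≤ N → sol a u v n = sol b u v n := by
  intro n hn
  refine eq_sol (a := b) (s := sol a u v) (N := N) (fun m hm => ?_) n hn
  rw [sol_add_two, h (m + 1) (by omega) (by omega)]

/-- first fundamental solution, `P 0 = 1`, `P 1 = 0` -/
def P (a : ℕ → K) (n : ℕ) : K := sol a 1 0 n
/-- second fundamental solution, `Q 0 = 0`, `Q 1 = 1` -/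
def Q (a : ℕ → K) (n : ℕ) : K := sol a 0 1 n

@[simp] theorem P_zero (a : ℕ → K) : P a 0 = 1 := rfl
@[simp] theorem P_one (a : ℕ → K) : P a 1 = 0 := rfl
@[simp] theorem Q_zero (a : ℕ → K) : Q a 0 = 0 := rfl
@[simp] theorem Q_one (a : ℕ → K) : Q a 1 = 1 := rfl
theorem P_add_two (a : ℕ → K) (n : ℕ) : P a (n + 2) = a (n + 1) * P a (n + 1) - P a n :=
  sol_add_two a 1 0 n
theorem Q_add_two (a : ℕ → K) (n : ℕ) : Q a (n + 2) = a (n + 1) * Q a (n + 1) - Q a n :=
  sol_add_two a 0 1 n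

/-- linearity -/
theorem sol_eq (a : ℕ → K) (u v : K) (n : ℕ) : sol a u v n = u * P a n + v * Q a n := by
  have key : ∀ n, sol a u v n = u * P a n + v * Q a n ∧
      sol a u v (n + 1) = u * P a (n + 1) + v * Q a (n + 1) := by
    intro n
    induction n with
    | zero => simp
    | succ n ih =>
      refine ⟨ih.2, ?_⟩
      rw [sol_add_two, P_add_two, Q_add_two, ih.1, ih.2]
      ring
  exact (key n).1

/-- Wronskian of the two fundamental solutions -/
theorem wronskian (a : ℕ → K) (n : ℕ) : P a n * Q a (n + 1) - P a (n + 1) * Q a n = 1 := by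
  induction n with
  | zero => simp
  | succ n ih =>
    rw [P_add_two, Q_add_two]
    linear_combination ih

/-- Wronskian of a solution with `Q` -/
theorem wronskian_Q (a : ℕ → K) (u v : K) (n : ℕ) :
    sol a u v n * Q a (n + 1) - sol a u v (n + 1) * Q a n = u := by
  rw [sol_eq, sol_eq]
  linear_combination u * wronskian a n

/-- Wronskian of a solution with `P` -/
theorem wronskian_P (a : ℕ → K) (u v : K) (n : ℕ) :
    P a n * sol a u v (n + 1) - P a (n + 1) * sol a u v n = v := by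
  rw [sol_eq, sol_eq]
  linear_combination v * wronskian a n

/-- Wronskian of two arbitrary solutions -/
theorem wronskian_sol (a : ℕ → K) (u v u' v' : K) (n : ℕ) :
    sol a u v n * sol a u' v' (n + 1) - sol a u v (n + 1) * sol a u' v' n = u * v' - v * u' := by
  rw [sol_eq, sol_eq, sol_eq, sol_eq]
  linear_combination (u * v' - v * u') * wronskian a n

/-- the slope of the solution which vanishes at `n` -/
def mu (a : ℕ → K) (n : ℕ) : K := -(P a n) / Q a n

theorem mu_succ_sub {a : ℕ → K} {n : ℕ} (h0 : Q a n ≠ 0) (h1 : Q a (n + 1) ≠ 0) :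
    mu a (n + 1) - mu a n = 1 / (Q a n * Q a (n + 1)) := by
  unfold mu
  rw [div_sub_div _ _ h1 h0, div_eq_div_iff (mul_ne_zero h1 h0) (mul_ne_zero h0 h1)]
  linear_combination (Q a n * Q a (n + 1)) * wronskian a n

theorem mu_sub {a : ℕ → K} {m : ℕ} : ∀ {n : ℕ}, m ≤ n → (∀ i, m ≤ i → i ≤ n → Q a i ≠ 0) →
    mu a n - mu a m = ∑ i ∈ Finset.Ico m n, 1 / (Q a i * Q a (i + 1)) := by
  intro n hmn
  induction n, hmn using Nat.le_induction with
  | base => intro _; simp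
  | succ n hmn ih =>
    intro h
    rw [Finset.sum_Ico_succ_top hmn, ← ih (fun i hi hi' => h i hi (by omega)),
      ← mu_succ_sub (h n hmn (by omega)) (h (n + 1) (by omega) le_rfl)]
    ring

/-- `v - u * mu n = s n / Q n` -/
theorem sub_mu {a : ℕ → K} (u v : K) {n : ℕ} (h : Q a n ≠ 0) :
    v - u * mu a n = sol a u v n / Q a n := by
  unfold mu
  rw [sol_eq, eq_div_iff h]
  field_simp
  ring

/-- the solution with slope `mu n` vanishes at `n` -/
theorem sol_mu_self {a : ℕ → K} {n : ℕ} (h : Q a n ≠ 0) (u : K) :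
    sol a u (u * mu a n) n = 0 := by
  have := sub_mu (a := a) u (u * mu a n) h
  rw [sub_self] at this
  exact ((div_eq_zero_iff).mp this.symm).resolve_right h

/-- the value just before the zero -/
theorem sol_mu_pred {a : ℕ → K} {n : ℕ} (h : Q a (n + 1) ≠ 0) (u : K) :
    sol a u (u * mu a (n + 1)) n = u / Q a (n + 1) := by
  have h1 := wronskian_Q a u (u * mu a (n + 1)) n
  rw [sol_mu_self h, zero_mul, sub_zero] at h1
  rw [eq_div_iff h]
  exact h1

/-- the value just after the zero -/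
theorem sol_mu_succ {a : ℕ → K} {n : ℕ} (h : Q a n ≠ 0) (u : K) :
    sol a u (u * mu a n) (n + 1) = -(u / Q a n) := by
  have h1 := wronskian_Q a u (u * mu a n) n
  rw [sol_mu_self h, zero_mul, zero_sub] at h1
  rw [← neg_div, eq_div_iff h]
  linear_combination -h1

/-- first return formula: `mu (n+1)` through the backward ratio: with
`q = Q (n) / Q (n+1)`, one has `1 / (Q (n+1) * Q (n+2)) = 1 / (Q (n+1)^2 * (a (n+1) - q))` -/
theorem one_div_Q_mul {a : ℕ → K} {n : ℕ} (h : Q a (n + 1) ≠ 0) :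
    1 / (Q a (n + 1) * Q a (n + 2)) =
      1 / (Q a (n + 1) ^ 2 * (a (n + 1) - Q a n / Q a (n + 1))) := by
  congr 1
  rw [Q_add_two]
  field_simp

end algebra

section norm

variable {K : Type*} [NormedField K]

/-- growth of `Q` from the decay of a solution -/
theorem norm_le_of_small {a : ℕ → K} {u v : K} {n : ℕ} {e : ℝ}
    (h0 : ‖sol a u v n‖ ≤ e) (h1 : ‖sol a u v (n + 1)‖ ≤ e) :
    ‖u‖ ≤ e * (‖Q a n‖ + ‖Q a (n + 1)‖) := by
  have h := wronskian_Q a u v n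
  calc ‖u‖ = ‖sol a u v n * Q a (n + 1) - sol a u v (n + 1) * Q a n‖ := by rw [h]
    _ ≤ ‖sol a u v n * Q a (n + 1)‖ + ‖sol a u v (n + 1) * Q a n‖ := norm_sub_le _ _
    _ ≤ e * ‖Q a (n + 1)‖ + e * ‖Q a n‖ := by
        rw [norm_mul, norm_mul]
        exact add_le_add (mul_le_mul_of_nonneg_right h0 (norm_nonneg _))
          (mul_le_mul_of_nonneg_right h1 (norm_nonneg _))
    _ = _ := by ring

/-- growth of `P` from the decay of a solution -/
theorem norm_le_of_small_P {a : ℕ → K} {u v : K} {n : ℕ} {e : ℝ}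
    (h0 : ‖sol a u v n‖ ≤ e) (h1 : ‖sol a u v (n + 1)‖ ≤ e) :
    ‖v‖ ≤ e * (‖P a n‖ + ‖P a (n + 1)‖) := by
  have h := wronskian_P a u v n
  calc ‖v‖ = ‖P a n * sol a u v (n + 1) - P a (n + 1) * sol a u v n‖ := by rw [h]
    _ ≤ ‖P a n * sol a u v (n + 1)‖ + ‖P a (n + 1) * sol a u v n‖ := norm_sub_le _ _
    _ ≤ ‖P a n‖ * e + ‖P a (n + 1)‖ * e := by
        rw [norm_mul, norm_mul]
        exact add_le_add (mul_le_mul_of_nonneg_left h1 (norm_nonneg _))
          (mul_le_mul_of_nonneg_left h0 (norm_nonneg _))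
    _ = _ := by ring

/-- **one-sided alignment**: if a solution is small (`≤ e`) at `n` and `n+1` then at one of the
two indices `Q` is large and the slope is `mu` up to `2 e² / |u|`. -/
theorem exists_large {a : ℕ → K} {u v : K} {n : ℕ} {e : ℝ} (he : 0 < e) (hu : u ≠ 0)
    (h0 : ‖sol a u v n‖ ≤ e) (h1 : ‖sol a u v (n + 1)‖ ≤ e) :
    ∃ m, (m = n ∨ m = n + 1) ∧ ‖u‖ / (2 * e) ≤ ‖Q a m‖ ∧ Q a m ≠ 0 ∧
      ‖v - u * mu a m‖ ≤ e / ‖Q a m‖ ∧ ‖v - u * mu a m‖ ≤ 2 * e ^ 2 / ‖u‖ := by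
  have hu' : 0 < ‖u‖ := norm_pos_iff.mpr hu
  have h := norm_le_of_small h0 h1
  obtain ⟨m, hm, hs, hQ⟩ : ∃ m, (m = n ∨ m = n + 1) ∧ ‖sol a u v m‖ ≤ e ∧
      ‖u‖ / (2 * e) ≤ ‖Q a m‖ := by
    rcases le_total (‖Q a n‖) (‖Q a (n + 1)‖) with hle | hle
    · refine ⟨n + 1, Or.inr rfl, h1, ?_⟩
      rw [div_le_iff₀ (by positivity)]
      nlinarith
    · refine ⟨n, Or.inl rfl, h0, ?_⟩
      rw [div_le_iff₀ (by positivity)]
      nlinarith
  have hQpos : 0 < ‖Q a m‖ := lt_of_lt_of_le (by positivity) hQ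
  have hQ0 : Q a m ≠ 0 := norm_pos_iff.mp hQpos
  have hb : ‖v - u * mu a m‖ ≤ e / ‖Q a m‖ := by
    rw [sub_mu u v hQ0, norm_div]
    exact div_le_div_of_nonneg_right hs hQpos.le
  refine ⟨m, hm, hQ, hQ0, hb, hb.trans ?_⟩
  rw [div_le_div_iff₀ hQpos hu']
  have := (div_le_iff₀ (by positivity : (0 : ℝ) < 2 * e)).mp hQ
  nlinarith

/-- two-sided solution of `x (n+1) + x (n-1) = a n * x n` cut at the origin -/
theorem right_eq_sol {a x : ℤ → K} {N : ℕ}
    (h : ∀ n : ℤ, 1 ≤ n → n < N → x (n + 1) = a n * x n - x (n - 1)) :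
    ∀ n : ℕ, n ≤ N → x n = sol (fun i : ℕ => a i) (x 0) (x 1) n := by
  intro n hn
  refine eq_sol (a := fun i : ℕ => a i) (s := fun i : ℕ => x i) (N := N) (fun m hm => ?_) n hn
  have := h (m + 1) (by omega) (by omega)
  push_cast
  rw [show ((m : ℤ) + 2) = (m : ℤ) + 1 + 1 by ring, this]
  simp

theorem left_eq_sol {a x : ℤ → K} {N : ℕ}
    (h : ∀ n : ℤ, n ≤ -1 → -(N : ℤ) < n → x (n - 1) = a n * x n - x (n + 1)) :
    ∀ n : ℕ, n ≤ N → x (-(n : ℤ)) = sol (fun i : ℕ => a (-(i : ℤ))) (x 0) (x (-1)) n := by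
  intro n hn
  refine eq_sol (a := fun i : ℕ => a (-(i : ℤ))) (s := fun i : ℕ => x (-(i : ℤ))) (N := N)
    (fun m hm => ?_) n hn
  have := h (-(m + 1 : ℤ)) (by omega) (by omega)
  push_cast
  rw [show (-((m : ℤ) + 2)) = -((m : ℤ) + 1) - 1 by ring, this]
  congr 2
  ring

/-- **two-sided alignment equation.**  If `x 1 + x (-1) = a 0 * x 0`, and both one-sided
solutions are `≤ e` at two consecutive indices `j, j+1` resp. `i, i+1`, then
`|a 0 - mu⁺ - mu⁻| ≤ 4 e² / |x 0|²`, with `|Q±| ≥ |x 0| / (2 e)` at the indices used. -/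
theorem alignment {ap am : ℕ → K} {a0 u v w : K} (hrec : v + w = a0 * u) {i j : ℕ} {e : ℝ}
    (he : 0 < e) (hu : u ≠ 0)
    (hj0 : ‖sol ap u v j‖ ≤ e) (hj1 : ‖sol ap u v (j + 1)‖ ≤ e)
    (hi0 : ‖sol am u w i‖ ≤ e) (hi1 : ‖sol am u w (i + 1)‖ ≤ e) :
    ∃ m m', (m = j ∨ m = j + 1) ∧ (m' = i ∨ m' = i + 1) ∧
      ‖u‖ / (2 * e) ≤ ‖Q ap m‖ ∧ ‖u‖ / (2 * e) ≤ ‖Q am m'‖ ∧
      ‖a0 - mu ap m - mu am m'‖ ≤ 4 * e ^ 2 / ‖u‖ ^ 2 := by
  have hu' : 0 < ‖u‖ := norm_pos_iff.mpr hu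
  obtain ⟨m, hm, hQ, hQ0, -, hb⟩ := exists_large he hu hj0 hj1
  obtain ⟨m', hm', hQ', hQ0', -, hb'⟩ := exists_large he hu hi0 hi1
  refine ⟨m, m', hm, hm', hQ, hQ', ?_⟩
  have heq : u * (a0 - mu ap m - mu am m') = (v - u * mu ap m) + (w - u * mu am m') := by
    linear_combination -hrec
  have h1 : ‖u‖ * ‖a0 - mu ap m - mu am m'‖ ≤ 2 * e ^ 2 / ‖u‖ + 2 * e ^ 2 / ‖u‖ := by
    rw [← norm_mul, heq]
    exact (norm_add_le _ _).trans (add_le_add hb hb')
  rw [le_div_iff₀ (by positivity)]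
  have h2 : 2 * e ^ 2 / ‖u‖ + 2 * e ^ 2 / ‖u‖ = 4 * e ^ 2 / ‖u‖ := by ring
  rw [h2, le_div_iff₀ hu'] at h1
  nlinarith

/-- **converse**: near alignment produces a solution through `x 0 = 1` which vanishes at `m` on
the right and is small at `m'`, `m' - 1` on the left. -/
theorem alignment_converse {ap am : ℕ → K} {a0 : K} {m m' : ℕ} {d : ℝ}
    (hQ : Q ap (m + 1) ≠ 0) (hQ' : Q am (m' + 1) ≠ 0)
    (hd : ‖a0 - mu ap (m + 1) - mu am (m' + 1)‖ ≤ d) :
    ∃ v w : K, v + w = a0 * 1 ∧ v = mu ap (m + 1) ∧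
      sol ap 1 v (m + 1) = 0 ∧ ‖sol ap 1 v m‖ = 1 / ‖Q ap (m + 1)‖ ∧
      ‖sol am 1 w (m' + 1)‖ ≤ d * ‖Q am (m' + 1)‖ ∧
      ‖sol am 1 w m'‖ ≤ d * ‖Q am m'‖ + 1 / ‖Q am (m' + 1)‖ := by
  refine ⟨mu ap (m + 1), a0 - mu ap (m + 1), by ring, rfl, ?_, ?_, ?_, ?_⟩
  · simpa using sol_mu_self hQ (1 : K)
  · have := sol_mu_pred hQ (1 : K)
    rw [one_mul] at this
    rw [this, norm_div, norm_one]
  · have h1 := sub_mu (a := am) (1 : K) (a0 - mu ap (m + 1)) hQ'
    rw [one_mul] at h1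
    have h2 : sol am 1 (a0 - mu ap (m + 1)) (m' + 1)
        = (a0 - mu ap (m + 1) - mu am (m' + 1)) * Q am (m' + 1) := by
      rw [h1]; field_simp
    rw [h2, norm_mul]
    exact mul_le_mul_of_nonneg_right hd (norm_nonneg _)
  · have h3 := sol_mu_pred hQ' (1 : K)
    rw [one_mul, sol_eq] at h3
    have h2 : sol am 1 (a0 - mu ap (m + 1)) m'
        = (a0 - mu ap (m + 1) - mu am (m' + 1)) * Q am m' + 1 / Q am (m' + 1) := by
      rw [sol_eq, ← h3]; ring
    rw [h2]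
    refine (norm_add_le _ _).trans (add_le_add ?_ ?_)
    · rw [norm_mul]
      exact mul_le_mul_of_nonneg_right hd (norm_nonneg _)
    · rw [norm_div, norm_one]

/-- tail bound for `mu` -/
theorem norm_mu_sub_le {a : ℕ → K} {m n : ℕ} (hmn : m ≤ n) (h : ∀ i, m ≤ i → i ≤ n → Q a i ≠ 0) :
    ‖mu a n - mu a m‖ ≤ ∑ i ∈ Finset.Ico m n, 1 / (‖Q a i‖ * ‖Q a (i + 1)‖) := by
  rw [mu_sub hmn h]
  refine (norm_sum_le _ _).trans (Finset.sum_le_sum fun i _ => ?_)
  rw [norm_div, norm_one, norm_mul]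

end norm

section real

/-- near criticality: if the centre value is at least `δ` and the neighbours are at most `1` -/
theorem digit_le {a0 u v w : ℝ} (hrec : v + w = a0 * u) {δ : ℝ} (hδ : 0 < δ) (hu : δ ≤ |u|)
    (hv : |v| ≤ 1) (hw : |w| ≤ 1) : |a0| ≤ 2 / δ := by
  have h1 : |a0| * |u| ≤ 2 := by
    rw [← abs_mul, ← hrec]
    exact (abs_add_le _ _).trans (by linarith)
  rw [le_div_iff₀ hδ]
  exact (mul_le_mul_of_nonneg_left hu (abs_nonneg _)).trans h1

end real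

end Crest.Agent.R128.Align
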