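import Mathlib

/-!
Row 128, node LAM0-DET: the elementary tree inequality for Jacobi fields
`ξ_{n+1} = a_n ξ_n - ξ_{n-1}` (pairs `w_n = (ξ_{n-1}, ξ_n)`, Euclidean norm `nn`).
-/

set_option autoImplicit false

open Finset

namespace Crest.Agent.R128.TreeSum

/-- Euclidean norm of a pair -/
noncomputable def nn (v : ℝ × ℝ) : ℝ := Real.sqrt (v.1 ^ 2 + v.2 ^ 2)

/-- Wronskian -/
def wr (v u : ℝ × ℝ) : ℝ := v.1 * u.2 - v.2 * u.1

/-- inner product -/
def dt (v u : ℝ × ℝ) : ℝ := v.1 * u.1 + v.2 * u.2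

/-- one step -/
def stp (a : ℝ) (v : ℝ × ℝ) : ℝ × ℝ := (v.2, a * v.2 - v.1)

/-- `w` is a Jacobi field of the potential `a` -/
def IsField (a : ℕ → ℝ) (w : ℕ → ℝ × ℝ) : Prop := ∀ n, w (n + 1) = stp (a n) (w n)

theorem nn_nonneg (v : ℝ × ℝ) : 0 ≤ nn v := Real.sqrt_nonneg _

theorem nn_sq (v : ℝ × ℝ) : nn v ^ 2 = v.1 ^ 2 + v.2 ^ 2 :=
  Real.sq_sqrt (by positivity)

theorem abs_fst_le (v : ℝ × ℝ) : |v.1| ≤ nn v :=
  Real.abs_le_sqrt (by nlinarith [sq_nonneg v.2])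

theorem abs_snd_le (v : ℝ × ℝ) : |v.2| ≤ nn v :=
  Real.abs_le_sqrt (by nlinarith [sq_nonneg v.1])

theorem nn_le_add (v : ℝ × ℝ) : nn v ≤ |v.1| + |v.2| := by
  have h : v.1 ^ 2 + v.2 ^ 2 ≤ (|v.1| + |v.2|) ^ 2 := by
    have h1 := sq_abs v.1
    have h2 := sq_abs v.2
    nlinarith [abs_nonneg v.1, abs_nonneg v.2, mul_nonneg (abs_nonneg v.1) (abs_nonneg v.2)]
  unfold nn
  calc Real.sqrt (v.1 ^ 2 + v.2 ^ 2) ≤ Real.sqrt ((|v.1| + |v.2|) ^ 2) := Real.sqrt_le_sqrt h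
    _ = |v.1| + |v.2| := Real.sqrt_sq (by positivity)

theorem dt_sq_add_wr_sq (v u : ℝ × ℝ) : dt v u ^ 2 + wr v u ^ 2 = nn v ^ 2 * nn u ^ 2 := by
  rw [nn_sq, nn_sq]
  unfold dt wr
  ring

theorem abs_dt_le (v u : ℝ × ℝ) : |dt v u| ≤ nn v * nn u := by
  apply abs_le_of_sq_le_sq _ (mul_nonneg (nn_nonneg v) (nn_nonneg u))
  rw [mul_pow, ← dt_sq_add_wr_sq]
  nlinarith [sq_nonneg (wr v u)]

theorem abs_wr_le (v u : ℝ × ℝ) : |wr v u| ≤ nn v * nn u := by
  apply abs_le_of_sq_le_sq _ (mul_nonneg (nn_nonneg v) (nn_nonneg u))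
  rw [mul_pow, ← dt_sq_add_wr_sq]
  nlinarith [sq_nonneg (dt v u)]

theorem wr_stp (a : ℝ) (v u : ℝ × ℝ) : wr (stp a v) (stp a u) = wr v u := by
  unfold wr stp
  ring

theorem nn_stp_le (a : ℝ) (v : ℝ × ℝ) : nn (stp a v) ≤ (|a| + 2) * nn v := by
  have h1 := nn_le_add (stp a v)
  have h2 := abs_fst_le v
  have h3 := abs_snd_le v
  have h4 : |a * v.2 - v.1| ≤ |a| * nn v + nn v := by
    calc |a * v.2 - v.1| ≤ |a * v.2| + |v.1| := abs_sub _ _
      _ = |a| * |v.2| + |v.1| := by rw [abs_mul]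
      _ ≤ _ := by
        have := mul_le_mul_of_nonneg_left h3 (abs_nonneg a)
        linarith
  unfold stp at h1 ⊢
  simp only at h1
  linarith

theorem stp_inv (a : ℝ) (v : ℝ × ℝ) : v = (a * (stp a v).1 - (stp a v).2, (stp a v).1) := by
  unfold stp
  ext <;> simp

theorem nn_le_stp (a : ℝ) (v : ℝ × ℝ) : nn v ≤ (|a| + 2) * nn (stp a v) := by
  have h1 := nn_le_add v
  set u := stp a v with hu
  have hv := stp_inv a v
  rw [← hu] at hv
  have h2 := abs_fst_le u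
  have h3 := abs_snd_le u
  have e1 : v.1 = a * u.1 - u.2 := by rw [hv]
  have e2 : v.2 = u.1 := by rw [hv]
  have h4 : |v.1| ≤ |a| * nn u + nn u := by
    rw [e1]
    calc |a * u.1 - u.2| ≤ |a * u.1| + |u.2| := abs_sub _ _
      _ = |a| * |u.1| + |u.2| := by rw [abs_mul]
      _ ≤ _ := by
        have := mul_le_mul_of_nonneg_left h2 (abs_nonneg a)
        linarith
  rw [e2] at h1
  linarith

theorem IsField.wr_eq {a : ℕ → ℝ} {w z : ℕ → ℝ × ℝ} (hw : IsField a w) (hz : IsField a z)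
    {m n : ℕ} (hmn : m ≤ n) : wr (w n) (z n) = wr (w m) (z m) := by
  induction n, hmn using Nat.le_induction with
  | base => rfl
  | succ n _ ih => rw [hw n, hz n, wr_stp, ih]

theorem IsField.pos {a : ℕ → ℝ} {w : ℕ → ℝ × ℝ} (hw : IsField a w) {m n : ℕ} (hmn : m ≤ n)
    (h : 0 < nn (w m)) : 0 < nn (w n) := by
  induction n, hmn using Nat.le_induction with
  | base => exact h
  | succ n _ ih =>
    rw [hw n]
    by_contra hc
    have h0 : nn (stp (a n) (w n)) = 0 := le_antisymm (not_lt.mp hc) (nn_nonneg _)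
    have := nn_le_stp (a n) (w n)
    rw [h0, mul_zero] at this
    linarith

/-- the component of `z` along `w` -/
noncomputable def lam (w z : ℝ × ℝ) : ℝ := dt z w / nn w ^ 2

theorem lam_step (a : ℝ) (w z : ℝ × ℝ) (hw : 0 < nn w) :
    |lam (stp a w) (stp a z) - lam w z| ≤
      |wr w z| * ((|a| + 2) / (nn w * nn (stp a w))) := by
  have hw' : 0 < nn (stp a w) := by
    by_contra hc
    have h0 : nn (stp a w) = 0 := le_antisymm (not_lt.mp hc) (nn_nonneg _)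
    have := nn_le_stp a w
    rw [h0, mul_zero] at this
    linarith
  set J : ℝ × ℝ := (-w.2, w.1) with hJ
  have hJn : nn J = nn w := by
    unfold nn
    rw [hJ]
    simp only
    congr 1
    ring
  have hsq : nn w ^ 2 = w.1 ^ 2 + w.2 ^ 2 := nn_sq w
  have hsq' : nn (stp a w) ^ 2 = (stp a w).1 ^ 2 + (stp a w).2 ^ 2 := nn_sq _
  have hne : w.1 ^ 2 + w.2 ^ 2 ≠ 0 := by rw [← hsq]; positivity
  have poly : dt (stp a z) (stp a w) * (w.1 ^ 2 + w.2 ^ 2) -
      ((stp a w).1 ^ 2 + (stp a w).2 ^ 2) * dt z w = wr w z * dt (stp a J) (stp a w) := by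
    unfold dt wr stp
    rw [hJ]
    simp only
    ring
  have key : lam (stp a w) (stp a z) - lam w z =
      wr w z * dt (stp a J) (stp a w) / (nn w ^ 2 * nn (stp a w) ^ 2) := by
    have hne' : (stp a w).1 ^ 2 + (stp a w).2 ^ 2 ≠ 0 := by rw [← hsq']; positivity
    unfold lam
    rw [hsq, hsq', div_sub_div _ _ hne' hne, poly, mul_comm ((stp a w).1 ^ 2 + (stp a w).2 ^ 2)]
  rw [key, abs_div, abs_mul, abs_of_pos (by positivity : 0 < nn w ^ 2 * nn (stp a w) ^ 2)]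
  have h1 : |dt (stp a J) (stp a w)| ≤ (|a| + 2) * nn w * nn (stp a w) := by
    calc |dt (stp a J) (stp a w)| ≤ nn (stp a J) * nn (stp a w) := abs_dt_le _ _
      _ ≤ ((|a| + 2) * nn J) * nn (stp a w) :=
        mul_le_mul_of_nonneg_right (nn_stp_le a J) (nn_nonneg _)
      _ = _ := by rw [hJn]
  calc |wr w z| * |dt (stp a J) (stp a w)| / (nn w ^ 2 * nn (stp a w) ^ 2)
      ≤ |wr w z| * ((|a| + 2) * nn w * nn (stp a w)) / (nn w ^ 2 * nn (stp a w) ^ 2) := by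
        gcongr
    _ = |wr w z| * ((|a| + 2) / (nn w * nn (stp a w))) := by
        field_simp

/-- the weight sum of the field `w` on `[m, n)` -/
noncomputable def wt (a : ℕ → ℝ) (w : ℕ → ℝ × ℝ) (m n : ℕ) : ℝ :=
  ∑ j ∈ Ico m n, (|a j| + 2) / (nn (w j) * nn (w (j + 1)))

theorem wt_nonneg (a : ℕ → ℝ) (w : ℕ → ℝ × ℝ) (m n : ℕ) : 0 ≤ wt a w m n := by
  unfold wt
  apply Finset.sum_nonneg
  intro j _
  have := nn_nonneg (w j)
  have := nn_nonneg (w (j + 1))
  positivity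

theorem lam_diff {a : ℕ → ℝ} {w z : ℕ → ℝ × ℝ} (hw : IsField a w) (hz : IsField a z)
    {m n : ℕ} (hmn : m ≤ n) (h0 : 0 < nn (w m)) :
    |lam (w n) (z n) - lam (w m) (z m)| ≤ |wr (w m) (z m)| * wt a w m n := by
  induction n, hmn using Nat.le_induction with
  | base => simp [wt]
  | succ n hmn ih =>
    have hs := lam_step (a n) (w n) (z n) (hw.pos hmn h0)
    rw [← hw n, ← hz n, hw.wr_eq hz hmn] at hs
    have e : wt a w m (n + 1) = wt a w m n + (|a n| + 2) / (nn (w n) * nn (w (n + 1))) := by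
      unfold wt
      rw [Finset.sum_Ico_succ_top hmn]
    rw [e, mul_add]
    calc |lam (w (n + 1)) (z (n + 1)) - lam (w m) (z m)|
        = |(lam (w (n + 1)) (z (n + 1)) - lam (w n) (z n)) +
            (lam (w n) (z n) - lam (w m) (z m))| := by ring_nf
      _ ≤ _ := by
        refine (abs_add_le _ _).trans ?_
        linarith

theorem nn_le_lam (w z : ℝ × ℝ) (hw : 0 < nn w) :
    nn z ≤ |lam w z| * nn w + |wr w z| / nn w := by
  have h : nn z ^ 2 ≤ (|lam w z| * nn w + |wr w z| / nn w) ^ 2 := by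
    have e : nn z ^ 2 = (|lam w z| * nn w) ^ 2 + (|wr w z| / nn w) ^ 2 := by
      have h1 : dt z w ^ 2 + wr z w ^ 2 = nn z ^ 2 * nn w ^ 2 := dt_sq_add_wr_sq z w
      have h2 : wr w z ^ 2 = wr z w ^ 2 := by unfold wr; ring
      rw [mul_pow, div_pow, sq_abs, sq_abs, h2]
      unfold lam
      field_simp
      nlinarith [h1]
    have p1 : 0 ≤ |lam w z| * nn w := by positivity
    have p2 : 0 ≤ |wr w z| / nn w := by positivity
    nlinarith [mul_nonneg p1 p2]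
  exact le_of_sq_le_sq h (by positivity)

/-- **Elementary tree inequality.** -/
theorem tree_ineq {a : ℕ → ℝ} {w z : ℕ → ℝ × ℝ} (hw : IsField a w) (hz : IsField a z)
    {m n : ℕ} (hmn : m ≤ n) (h0 : 0 < nn (w m)) :
    nn (z n) ≤ nn (z m) * (nn (w n) / nn (w m) + nn (w m) / nn (w n) +
      nn (w m) * nn (w n) * wt a w m n) := by
  have hn := hw.pos hmn h0
  have h1 := nn_le_lam (w n) (z n) hn
  have h2 := lam_diff hw hz hmn h0
  have h3 : |lam (w m) (z m)| ≤ nn (z m) / nn (w m) := by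
    unfold lam
    rw [abs_div, abs_of_pos (by positivity : 0 < nn (w m) ^ 2)]
    rw [div_le_div_iff₀ (by positivity) h0]
    have := abs_dt_le (z m) (w m)
    nlinarith [nn_nonneg (z m)]
  have h4 : |wr (w m) (z m)| ≤ nn (w m) * nn (z m) := abs_wr_le _ _
  have h5 : |lam (w n) (z n)| ≤ nn (z m) / nn (w m) + nn (w m) * nn (z m) * wt a w m n := by
    have h6 : |lam (w n) (z n)| ≤ |lam (w m) (z m)| + |lam (w n) (z n) - lam (w m) (z m)| := by
      have := abs_add_le (lam (w m) (z m)) (lam (w n) (z n) - lam (w m) (z m))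
      simpa using this
    have h7 := mul_le_mul_of_nonneg_right h4 (wt_nonneg a w m n)
    linarith
  rw [hw.wr_eq hz hmn] at h1
  calc nn (z n) ≤ |lam (w n) (z n)| * nn (w n) + |wr (w m) (z m)| / nn (w n) := h1
    _ ≤ (nn (z m) / nn (w m) + nn (w m) * nn (z m) * wt a w m n) * nn (w n) +
        nn (w m) * nn (z m) / nn (w n) := by gcongr
    _ = _ := by ring

/-- **One start per level.** If the field `w` (from an earlier start) has size `B` at time `m`,
and `κ ‖z_m‖ (1/B + B/M² + B·wt) ≤ 1` with `M = ‖w_n‖`, then `‖w_n‖ ≥ κ ‖z_n‖`. -/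
theorem count_ineq {a : ℕ → ℝ} {w z : ℕ → ℝ × ℝ} (hw : IsField a w) (hz : IsField a z)
    {m n : ℕ} (hmn : m ≤ n) (h0 : 0 < nn (w m)) {κ : ℝ} (hκ : 0 ≤ κ)
    (h : κ * nn (z m) * (1 / nn (w m) + nn (w m) / nn (w n) ^ 2 + nn (w m) * wt a w m n) ≤ 1) :
    κ * nn (z n) ≤ nn (w n) := by
  have hn := hw.pos hmn h0
  have h1 := mul_le_mul_of_nonneg_left (tree_ineq hw hz hmn h0) hκ
  have e : κ * (nn (z m) * (nn (w n) / nn (w m) + nn (w m) / nn (w n) +
      nn (w m) * nn (w n) * wt a w m n)) =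
      (κ * nn (z m) * (1 / nn (w m) + nn (w m) / nn (w n) ^ 2 + nn (w m) * wt a w m n)) *
        nn (w n) := by
    field_simp
  rw [e] at h1
  calc κ * nn (z n) ≤ _ := h1
    _ ≤ 1 * nn (w n) := mul_le_mul_of_nonneg_right h hn.le
    _ = _ := one_mul _

end Crest.Agent.R128.TreeSum
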