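import Crest.Agent.R128.AlignMn
import Crest.Agent.R128.TreeSum

/-!
# Row 128, node P4-IN (helper220): from a tip to the digit equation of the roughness lemma

`Wq n = (Q n, Q (n+1))`, `Wp n = (P n, P (n+1))` are fields (in the sense of `TreeSum.IsField`) of
the potential `sh a n = a (n+1)`; `nu n = lam (Wq n) (Wp n)`.

* `TIP_nu`: `|V c + nu⁺ j + nu⁻ i| ≤ 4 exp (-2h)` for a tip;
* `nu_diff`: `|nu n - nu j| ≤ wt n j`;
* `nu_add_mu`: `nu n + mu (n+1) = Q n / (Q (n+1) ‖Wq n‖²)`;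
* `TIP_digit`: the digit equation;
* `wt_regular`: `wt` over a stretch of regular digits.
-/

set_option autoImplicit false
open Crest.Agent.R128 Crest.Agent.R128.Two Crest.Agent.R128.Acc Crest.Agent.R128.AlignMn
open Crest.Agent.R128.TreeSum

namespace Crest.Agent.R128.AlignLam

/-- shifted potential -/
def sh (a : ℕ → ℝ) (n : ℕ) : ℝ := a (n + 1)

/-- pair field of a solution -/
noncomputable def W (a : ℕ → ℝ) (u v : ℝ) (n : ℕ) : ℝ × ℝ := (Align.sol a u v n, Align.sol a u v (n + 1))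

/-- pair field of `Q` (the `t`-field) -/
noncomputable def Wq (a : ℕ → ℝ) (n : ℕ) : ℝ × ℝ := (Align.Q a n, Align.Q a (n + 1))

/-- pair field of `P` -/
noncomputable def Wp (a : ℕ → ℝ) (n : ℕ) : ℝ × ℝ := (Align.P a n, Align.P a (n + 1))

theorem isField_W (a : ℕ → ℝ) (u v : ℝ) : IsField (sh a) (W a u v) := by
  intro n
  rfl

theorem isField_Wq (a : ℕ → ℝ) : IsField (sh a) (Wq a) := isField_W a 0 1

theorem isField_Wp (a : ℕ → ℝ) : IsField (sh a) (Wp a) := isField_W a 1 0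

theorem W_eq (a : ℕ → ℝ) (u v : ℝ) (n : ℕ) : W a u v n =
    (u * (Wp a n).1 + v * (Wq a n).1, u * (Wp a n).2 + v * (Wq a n).2) := by
  unfold W Wp Wq
  rw [Align.sol_eq, Align.sol_eq]

theorem wr_Wp_Wq (a : ℕ → ℝ) (n : ℕ) : wr (Wp a n) (Wq a n) = 1 := by
  unfold wr Wp Wq
  have := Align.wronskian a n
  simp only
  linarith

theorem wr_W_Wq (a : ℕ → ℝ) (u v : ℝ) (n : ℕ) : wr (W a u v n) (Wq a n) = u := by
  have h := wr_Wp_Wq a n
  rw [W_eq]
  unfold wr at h ⊢
  simp only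
  linear_combination u * h

theorem nn_Wq_pos (a : ℕ → ℝ) (n : ℕ) : 0 < nn (Wq a n) := by
  have h1 : nn (Wq a 0) = 1 := by
    unfold nn Wq
    simp [Align.Q, Align.sol]
  exact (isField_Wq a).pos (Nat.zero_le n) (by rw [h1]; exact one_pos)

theorem nn_Wq_zero (a : ℕ → ℝ) : nn (Wq a 0) = 1 := by
  unfold nn Wq
  simp [Align.Q, Align.sol]

/-- the (regularised) slope: `nu n ≈ - mu` -/
noncomputable def nu (a : ℕ → ℝ) (n : ℕ) : ℝ := lam (Wq a n) (Wp a n)

theorem lam_W (a : ℕ → ℝ) (u v : ℝ) (n : ℕ) :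
    lam (Wq a n) (W a u v n) = u * nu a n + v := by
  have h := nn_Wq_pos a n
  unfold nu lam
  rw [W_eq]
  have h2 : dt (u * (Wp a n).1 + v * (Wq a n).1, u * (Wp a n).2 + v * (Wq a n).2) (Wq a n)
      = u * dt (Wp a n) (Wq a n) + v * nn (Wq a n) ^ 2 := by
    rw [nn_sq]
    unfold dt
    ring
  rw [h2]
  field_simp

theorem abs_lam_le (w z : ℝ × ℝ) (hw : 0 < nn w) : |lam w z| ≤ nn z / nn w := by
  unfold lam
  rw [abs_div, abs_of_pos (by positivity : 0 < nn w ^ 2), div_le_div_iff₀ (by positivity) hw]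
  have := abs_dt_le z w
  nlinarith [nn_nonneg z]

/-- one side: if the solution has `‖W n‖ ≤ e` then `‖Wq n‖ ≥ |u| / e` and the slope is known up to
`e² / |u|`. -/
theorem slope_of_small {a : ℕ → ℝ} {u v e : ℝ} {n : ℕ} (he : 0 < e) (hu : u ≠ 0)
    (h : nn (W a u v n) ≤ e) :
    |u| / e ≤ nn (Wq a n) ∧ |u * nu a n + v| ≤ e / nn (Wq a n) ∧
      |u * nu a n + v| ≤ e ^ 2 / |u| := by
  have hu' : 0 < |u| := abs_pos.mpr hu
  have hq := nn_Wq_pos a n
  have h1 : |u| ≤ nn (W a u v n) * nn (Wq a n) := by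
    have := abs_wr_le (W a u v n) (Wq a n)
    rwa [wr_W_Wq] at this
  have h2 : |u| ≤ e * nn (Wq a n) := h1.trans (mul_le_mul_of_nonneg_right h hq.le)
  have h3 : |u * nu a n + v| ≤ e / nn (Wq a n) := by
    rw [← lam_W]
    exact (abs_lam_le _ _ hq).trans (div_le_div_of_nonneg_right h hq.le)
  refine ⟨by rw [div_le_iff₀ he]; linarith, h3, h3.trans ?_⟩
  rw [div_le_div_iff₀ hq hu']
  nlinarith

theorem nu_diff (a : ℕ → ℝ) {n j : ℕ} (h : n ≤ j) :
    |nu a j - nu a n| ≤ wt (sh a) (Wq a) n j := by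
  have h1 := lam_diff (isField_Wq a) (isField_Wp a) h (nn_Wq_pos a n)
  have h2 : |wr (Wq a n) (Wp a n)| = 1 := by
    have h3 := wr_Wp_Wq a n
    have : wr (Wq a n) (Wp a n) = -1 := by
      unfold wr at h3 ⊢
      linarith
    rw [this]
    norm_num
  rw [h2, one_mul] at h1
  exact h1

theorem nu_add_mu (a : ℕ → ℝ) {n : ℕ} (h : Align.Q a (n + 1) ≠ 0) :
    nu a n + Align.mu a (n + 1) = Align.Q a n / (Align.Q a (n + 1) * nn (Wq a n) ^ 2) := by
  have hw := Align.wronskian a n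
  have hq : nn (Wq a n) ^ 2 ≠ 0 := (by have := nn_Wq_pos a n; positivity)
  unfold nu lam Align.mu
  rw [div_add_div _ _ hq h, div_eq_div_iff (mul_ne_zero hq h) (mul_ne_zero h hq)]
  have e1 : nn (Wq a n) ^ 2 = Align.Q a n ^ 2 + Align.Q a (n + 1) ^ 2 := by
    rw [nn_sq]; rfl
  have e2 : dt (Wp a n) (Wq a n) = Align.P a n * Align.Q a n
      + Align.P a (n + 1) * Align.Q a (n + 1) := rfl
  rw [e2, e1]
  linear_combination (Align.Q a n * Align.Q a (n + 1) *
    (Align.Q a n ^ 2 + Align.Q a (n + 1) ^ 2)) * hw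

/-- two-sided alignment with the regularised slopes -/
theorem alignment_nu {ap am : ℕ → ℝ} {a0 u v w : ℝ} (hrec : v + w = a0 * u) {i j : ℕ} {e : ℝ}
    (he : 0 < e) (hu : u ≠ 0) (hj : nn (W ap u v j) ≤ e) (hi : nn (W am u w i) ≤ e) :
    |u| / e ≤ nn (Wq ap j) ∧ |u| / e ≤ nn (Wq am i) ∧
      |a0 + nu ap j + nu am i| ≤ 2 * e ^ 2 / |u| ^ 2 := by
  have hu' : 0 < |u| := abs_pos.mpr hu
  obtain ⟨h1, -, h2⟩ := slope_of_small he hu hj
  obtain ⟨h3, -, h4⟩ := slope_of_small he hu hi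
  refine ⟨h1, h3, ?_⟩
  have heq : u * (a0 + nu ap j + nu am i) = (u * nu ap j + v) + (u * nu am i + w) := by
    linear_combination -hrec
  have h5 : |u| * |a0 + nu ap j + nu am i| ≤ e ^ 2 / |u| + e ^ 2 / |u| := by
    rw [← abs_mul, heq]
    exact (abs_add_le _ _).trans (add_le_add h2 h4)
  rw [le_div_iff₀ (by positivity)]
  have h6 : e ^ 2 / |u| + e ^ 2 / |u| = 2 * e ^ 2 / |u| := by ring
  rw [h6, le_div_iff₀ hu'] at h5
  nlinarith

/-- **the regularised alignment inequality of a tip** -/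
theorem TIP_nu {k h : ℝ} {N : ℕ} {z : Tor} (H : TIP k h N z) :
    ∃ i j : ℕ, 0 < i ∧ i ≤ N ∧ j < N ∧ Real.exp h / 2 ≤ nn (Wq (ap k z) j) ∧
      Real.exp h / 2 ≤ nn (Wq (am k z) i) ∧
      |V k z.2 + nu (ap k z) j + nu (am k z) i| ≤ 8 * Real.exp (-(2 * h)) := by
  obtain ⟨x, hx, h0, hm1, hm2, i, j, hi, hiN, hj, hjN, hall, ha, hb, hc, hd⟩ := TIP_iff.mp H
  have hx0 : x 0 ≠ 0 := by
    intro h'
    rw [h', abs_zero] at h0
    exact zero_ne_one h0
  have hrec : x 1 + x (-1) = V k z.2 * x 0 := by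
    have := hx 0
    rw [dz_zero] at this
    norm_num at this
    linarith
  have r1 := right_sol hx (j - 1)
  have r2 := right_sol hx (j - 1 + 1)
  have l1 := left_sol hx i
  have l2 := left_sol hx (i + 1)
  have ej : ((j - 1 : ℕ) : ℤ) = (j : ℤ) - 1 := by
    push_cast [Nat.cast_sub hj]
    ring
  have hj1 : j - 1 + 1 = j := by omega
  have key : ∀ p q : ℝ, |p| ≤ Real.exp (-h) → |q| ≤ Real.exp (-h) → nn (p, q) ≤ 2 * Real.exp (-h) := by
    intro p q hp hq
    have := nn_le_add (p, q)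
    simp only at this
    linarith
  have hS1 : nn (W (ap k z) (x 0) (x 1) (j - 1)) ≤ 2 * Real.exp (-h) := by
    unfold W
    apply key
    · rw [← r1, ej]; exact hc
    · rw [← r2, hj1]; exact hd
  have hS2 : nn (W (am k z) (x 0) (x (-1)) i) ≤ 2 * Real.exp (-h) := by
    unfold W
    apply key
    · rw [← l1]; exact hb
    · rw [← l2]
      have e1 : (-((i + 1 : ℕ) : ℤ)) = -(i : ℤ) - 1 := by push_cast; ring
      rw [e1]
      exact ha
  obtain ⟨h1, h2, h3⟩ := alignment_nu hrec (by positivity) hx0 hS1 hS2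
  have e1 : |x 0| / (2 * Real.exp (-h)) = Real.exp h / 2 := by
    rw [h0, Real.exp_neg]
    field_simp
  have e2 : 2 * (2 * Real.exp (-h)) ^ 2 / |x 0| ^ 2 = 8 * Real.exp (-(2 * h)) := by
    rw [h0, mul_pow, ← Real.exp_nat_mul]
    norm_num
    ring
  rw [e1] at h1 h2
  rw [e2] at h3
  exact ⟨i, j - 1, hi, hiN, by omega, h1, h2, h3⟩

/-- error of cutting one side at `n` -/
noncomputable def err (a : ℕ → ℝ) (n j : ℕ) : ℝ :=
  wt (sh a) (Wq a) n j + |Align.Q a n| / (|Align.Q a (n + 1)| * nn (Wq a n) ^ 2)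

theorem nu_cut {a : ℕ → ℝ} {n j : ℕ} (hnj : n ≤ j) (h0 : Align.Q a n ≠ 0)
    (h1 : Align.Q a (n + 1) ≠ 0) :
    |nu a j + (Align.mu a n + 1 / (Align.Q a n * Align.Q a (n + 1)))| ≤ err a n j := by
  have hd := nu_diff a hnj
  have hm := nu_add_mu a h1
  have hs := Align.mu_succ_sub h0 h1
  have e1 : nu a j + (Align.mu a n + 1 / (Align.Q a n * Align.Q a (n + 1)))
      = (nu a j - nu a n) + Align.Q a n / (Align.Q a (n + 1) * nn (Wq a n) ^ 2) := by
    linear_combination hm - hs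
  rw [e1]
  refine (abs_add_le _ _).trans ?_
  unfold err
  refine add_le_add hd ?_
  rw [abs_div, abs_mul, abs_of_pos (by have := nn_Wq_pos a n; positivity : 0 < nn (Wq a n) ^ 2)]

/-- **digit equation of a tip** (input of the roughness lemma): both sides are cut at
`n ≤ j`, `n' ≤ i`. -/
theorem TIP_digit {k h : ℝ} {N : ℕ} {z : Tor} (H : TIP k h N z) :
    ∃ i j : ℕ, 0 < i ∧ i ≤ N ∧ j < N ∧ Real.exp h / 2 ≤ nn (Wq (ap k z) j) ∧
      Real.exp h / 2 ≤ nn (Wq (am k z) i) ∧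
      ∀ n n' : ℕ, n ≤ j → n' ≤ i → Align.Q (ap k z) n ≠ 0 → Align.Q (ap k z) (n + 1) ≠ 0 →
        Align.Q (am k z) n' ≠ 0 → Align.Q (am k z) (n' + 1) ≠ 0 →
        |V k z.2 - Align.mu (ap k z) n - Align.mu (am k z) n'
          - 1 / (Align.Q (ap k z) n * Align.Q (ap k z) (n + 1))
          - 1 / (Align.Q (am k z) n' * Align.Q (am k z) (n' + 1))|
          ≤ 8 * Real.exp (-(2 * h)) + err (ap k z) n j + err (am k z) n' i := by
  obtain ⟨i, j, hi, hiN, hj, h1, h2, h3⟩ := TIP_nu H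
  refine ⟨i, j, hi, hiN, hj, h1, h2, ?_⟩
  intro n n' hn hn' q0 q1 q2 q3
  have c1 := nu_cut hn q0 q1
  have c2 := nu_cut hn' q2 q3
  have e : V k z.2 - Align.mu (ap k z) n - Align.mu (am k z) n'
          - 1 / (Align.Q (ap k z) n * Align.Q (ap k z) (n + 1))
          - 1 / (Align.Q (am k z) n' * Align.Q (am k z) (n' + 1))
      = (V k z.2 + nu (ap k z) j + nu (am k z) i)
        - (nu (ap k z) j + (Align.mu (ap k z) n +
            1 / (Align.Q (ap k z) n * Align.Q (ap k z) (n + 1))))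
        - (nu (am k z) i + (Align.mu (am k z) n' +
            1 / (Align.Q (am k z) n' * Align.Q (am k z) (n' + 1)))) := by
    ring
  rw [e]
  refine (abs_sub _ _).trans (add_le_add ((abs_sub _ _).trans (add_le_add h3 c1)) c2)

/-- the weight over a stretch of regular digits starting in the cone -/
theorem wt_regular {a : ℕ → ℝ} {n : ℕ} (hc : |Align.Q a n| ≤ |Align.Q a (n + 1)|)
    (h0 : Align.Q a (n + 1) ≠ 0) : ∀ {m : ℕ}, n ≤ m → (∀ i, n ≤ i → i < m → 4 ≤ |sh a i|) →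
    |Align.Q a m| ≤ |Align.Q a (m + 1)| ∧ 3 ^ (m - n) * |Align.Q a (n + 1)| ≤ |Align.Q a (m + 1)| ∧
    wt (sh a) (Wq a) n m ≤ 3 / |Align.Q a (n + 1)| ^ 2 - 3 / |Align.Q a (m + 1)| ^ 2 := by
  intro m hm
  induction m, hm using Nat.le_induction with
  | base =>
    intro _
    refine ⟨hc, by simp, ?_⟩
    have : wt (sh a) (Wq a) n n = 0 := by simp [wt]
    rw [this, sub_self]
  | succ m hm ih =>
    intro hd
    obtain ⟨i1, i2, i3⟩ := ih (fun i hi hi' => hd i hi (by omega))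
    have hd' := hd m hm (by omega)
    have hp0 : 0 < |Align.Q a (n + 1)| := abs_pos.mpr h0
    have hpm : 0 < |Align.Q a (m + 1)| := lt_of_lt_of_le (by positivity) i2
    have hrec : Align.Q a (m + 2) = sh a m * Align.Q a (m + 1) - Align.Q a m :=
      Align.Q_add_two a m
    have hlow : (|sh a m| - 1) * |Align.Q a (m + 1)| ≤ |Align.Q a (m + 2)| := by
      rw [hrec]
      have h5 : |sh a m * Align.Q a (m + 1)| - |Align.Q a m| ≤
          |sh a m * Align.Q a (m + 1) - Align.Q a m| := abs_sub_abs_le_abs_sub _ _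
      rw [abs_mul] at h5
      linarith
    have h3 : 3 * |Align.Q a (m + 1)| ≤ |Align.Q a (m + 2)| := by
      have : 3 * |Align.Q a (m + 1)| ≤ (|sh a m| - 1) * |Align.Q a (m + 1)| :=
        mul_le_mul_of_nonneg_right (by linarith) hpm.le
      linarith
    have hp2 : 0 < |Align.Q a (m + 2)| := by linarith
    refine ⟨by linarith, ?_, ?_⟩
    · have : m + 1 - n = (m - n) + 1 := by omega
      rw [this, pow_succ]
      calc 3 ^ (m - n) * 3 * |Align.Q a (n + 1)| = 3 * (3 ^ (m - n) * |Align.Q a (n + 1)|) := by ring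
        _ ≤ 3 * |Align.Q a (m + 1)| := by linarith
        _ ≤ _ := h3
    · have hw : wt (sh a) (Wq a) n (m + 1) = wt (sh a) (Wq a) n m +
          (|sh a m| + 2) / (nn (Wq a m) * nn (Wq a (m + 1))) := by
        unfold wt
        rw [Finset.sum_Ico_succ_top hm]
      have n1 : |Align.Q a (m + 1)| ≤ nn (Wq a m) := abs_snd_le (Wq a m)
      have n2 : |Align.Q a (m + 2)| ≤ nn (Wq a (m + 1)) := abs_snd_le (Wq a (m + 1))
      have ht : (|sh a m| + 2) / (nn (Wq a m) * nn (Wq a (m + 1))) ≤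
          (|sh a m| + 2) / (|Align.Q a (m + 1)| * ((|sh a m| - 1) * |Align.Q a (m + 1)|)) := by
        apply div_le_div_of_nonneg_left (by positivity)
        · have : 0 < |sh a m| - 1 := by linarith
          positivity
        · have : 0 < |sh a m| - 1 := by linarith
          exact mul_le_mul n1 (hlow.trans n2) (by positivity) (nn_nonneg _)
      have ht2 : (|sh a m| + 2) / (|Align.Q a (m + 1)| * ((|sh a m| - 1) * |Align.Q a (m + 1)|)) ≤
          2 / |Align.Q a (m + 1)| ^ 2 := by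
        have h6 : 0 < |sh a m| - 1 := by linarith
        rw [div_le_div_iff₀ (by positivity) (by positivity)]
        nlinarith [mul_pos hpm hpm]
      have ht3 : 3 / |Align.Q a (m + 2)| ^ 2 ≤ 1 / |Align.Q a (m + 1)| ^ 2 := by
        rw [div_le_div_iff₀ (by positivity) (by positivity)]
        nlinarith [mul_pos hpm hpm]
      have ht4 : 3 / |Align.Q a (m + 1)| ^ 2 = 2 / |Align.Q a (m + 1)| ^ 2
          + 1 / |Align.Q a (m + 1)| ^ 2 := by ring
      rw [hw]
      change _ ≤ 3 / |Align.Q a (n + 1)| ^ 2 - 3 / |Align.Q a (m + 2)| ^ 2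
      linarith

end Crest.Agent.R128.AlignLam
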