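import Mathlib

set_option autoImplicit false

namespace Crest.Agent.R128.Tips

/-- Gromov product `(i|j)_w` -/
noncomputable def gp (d : ℕ → ℕ → ℝ) (i j w : ℕ) : ℝ := (d i w + d j w - d i j) / 2

/-- a `δ`-hyperbolic pseudo-metric on `ℕ` with steps `≤ B` -/
structure IsHyp (d : ℕ → ℕ → ℝ) (δ B : ℝ) : Prop where
  symm : ∀ i j, d i j = d j i
  self : ∀ i, d i i = 0
  nonneg : ∀ i j, 0 ≤ d i j
  tri : ∀ i j l, d i l ≤ d i j + d j l
  hyp : ∀ i j l w, min (gp d i j w) (gp d j l w) - δ ≤ gp d i l w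
  step : ∀ i, d i (i + 1) ≤ B
  δ_nonneg : 0 ≤ δ

variable {d : ℕ → ℕ → ℝ} {δ B : ℝ}

theorem gp_comm (h : IsHyp d δ B) (i j w : ℕ) : gp d i j w = gp d j i w := by
  unfold gp
  rw [h.symm i j]
  ring

theorem gp_le_left (h : IsHyp d δ B) (i j w : ℕ) : gp d i j w ≤ d i w := by
  unfold gp
  have h1 := h.tri j i w
  have h2 := h.symm i j
  linarith

theorem gp_le_right (h : IsHyp d δ B) (i j w : ℕ) : gp d i j w ≤ d j w := by
  unfold gp
  have h1 := h.tri i j w
  linarith

theorem gp_nonneg (h : IsHyp d δ B) (i j w : ℕ) : 0 ≤ gp d i j w := by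
  unfold gp
  have h1 := h.tri i w j
  have h2 := h.symm w j
  linarith

theorem gp_self_left (h : IsHyp d δ B) (i w : ℕ) : gp d i i w = d i w := by
  unfold gp
  rw [h.self i]
  ring

/-- chain lemma -/
theorem chain (h : IsHyp d δ B) (w : ℕ) (y : ℝ) (n : ℕ) :
    ∀ (r : ℕ) (c : ℕ → ℕ), r ≤ 2 ^ n → 1 ≤ r → (∀ i < r, y < gp d (c i) (c (i + 1)) w) →
      y - n * δ < gp d (c 0) (c r) w := by
  induction n with
  | zero =>
    intro r c hr hr1 hc
    have : r = 1 := by simpa using le_antisymm hr hr1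
    subst this
    simpa using hc 0 (by norm_num)
  | succ n ih =>
    intro r c hr hr1 hc
    by_cases hle : r ≤ 2 ^ n
    · have := ih r c hle hr1 hc
      have hδ := h.δ_nonneg
      push_cast
      nlinarith
    · push Not at hle
      have h1 := ih (2 ^ n) c le_rfl Nat.one_le_two_pow (fun i hi => hc i (hi.trans hle))
      have h2 := ih (r - 2 ^ n) (fun i => c (i + 2 ^ n)) (by rw [pow_succ] at hr; omega) (by omega)
        (fun i hi => by
          have := hc (i + 2 ^ n) (by omega)
          simpa [add_right_comm] using this)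
      simp only [zero_add] at h2
      have e : r - 2 ^ n + 2 ^ n = r := by omega
      rw [e] at h2
      have h3 := h.hyp (c 0) (c (2 ^ n)) (c r) w
      have h4 : y - n * δ < min (gp d (c 0) (c (2 ^ n)) w) (gp d (c (2 ^ n)) (c r) w) :=
        lt_min h1 h2
      push_cast
      linarith

/-- the graph of large Gromov products on the window `[0, N]` -/
def G (d : ℕ → ℕ → ℝ) (N : ℕ) (y : ℝ) : SimpleGraph (Fin (N + 1)) where
  Adj a b := a ≠ b ∧ y < gp d a b 0 ∧ y < gp d b a 0
  symm := ⟨fun a b hab => ⟨hab.1.symm, hab.2.2, hab.2.1⟩⟩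
  loopless := ⟨fun a ha => ha.1 rfl⟩

theorem reach_gp (h : IsHyp d δ B) (N n : ℕ) (hN : N ≤ 2 ^ n) (y : ℝ) (a b : Fin (N + 1))
    (hab : (G d N y).Reachable a b) (hne : a ≠ b) :
    y - n * δ < gp d a b 0 := by
  classical
  obtain ⟨p, hp⟩ := hab.exists_isPath
  have hlen : p.length < Fintype.card (Fin (N + 1)) := hp.length_lt
  rw [Fintype.card_fin] at hlen
  have hpos : 1 ≤ p.length := by
    rcases Nat.eq_zero_or_pos p.length with h0 | h0
    · exact absurd (SimpleGraph.Walk.eq_of_length_eq_zero h0) hne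
    · exact h0
  have := chain h 0 y n p.length (fun i => ((p.getVert i : Fin (N + 1)) : ℕ)) (by omega) hpos
    (fun i hi => by
      have hadj : (G d N y).Adj _ _ := p.adj_getVert_succ hi
      have hadj' : p.getVert i ≠ p.getVert (i + 1) ∧
        y < gp d (p.getVert i : Fin (N + 1)) (p.getVert (i + 1) : Fin (N + 1)) 0 ∧
        y < gp d (p.getVert (i + 1) : Fin (N + 1)) (p.getVert i : Fin (N + 1)) 0 := hadj
      exact hadj'.2.1)
  simpa using this

/-- **Tip lemma** (deterministic).  If `(0|2T)_T ≥ s` then some `t` is the tip of a bar `(c,c')` around `T` of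
persistence `≥ s`, up to logarithmic errors. -/
theorem tip_exists (h : IsHyp d δ B) (hB : 0 ≤ B) (n T : ℕ) (hT : 1 ≤ T) (hn : 2 * T ≤ 2 ^ n) (s : ℝ)
    (hs : n * δ < s) (hgp : s ≤ gp d 0 (2 * T) T) :
    ∃ c t c' : ℕ, c < t ∧ t < c' ∧ c < T ∧ T < c' ∧ c' ≤ 2 * T ∧
      s - n * δ - δ ≤ gp d c c' t ∧
      d c c' ≤ 4 * B + 2 * n * δ + 4 * δ ∧
      (∀ m, c ≤ m → m ≤ c' → d c m ≤ d c t + (4 * B + 2 * n * δ + 4 * δ)) ∧
      (∀ m, c ≤ m → m ≤ c' → d c' m ≤ d c' t + (4 * B + 2 * n * δ + 4 * δ)) ∧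
      min (min (d t (t + 1) / 2) (d (t - 1) t / 2)) (s - n * δ) - δ ≤ gp d (t - 1) (t + 1) t := by
  classical
  set e : ℝ := n * δ with he
  have hδ := h.δ_nonneg
  have he0 : 0 ≤ e := by positivity
  set y : ℝ := d 0 T - s with hy
  set y₁ : ℝ := y + e with hy₁
  have hT0 : s ≤ d 0 T := hgp.trans (gp_le_left h _ _ _)
  have hy0 : 0 ≤ y := by linarith
  let N := 2 * T
  let o : Fin (N + 1) := ⟨T, by omega⟩
  let R : ℕ → Prop := fun m => ∃ hm : m < N + 1, (G d N y₁).Reachable o ⟨m, hm⟩
  have hRgp : ∀ m, R m → m ≠ T → y < gp d T m 0 := by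
    rintro m ⟨hm, hr⟩ hmT
    have := reach_gp h N n hn y₁ o ⟨m, hm⟩ hr (by
      intro hh
      apply hmT
      have := congrArg Fin.val hh
      simpa [o] using this.symm)
    have e1 : y₁ - n * δ = y := by rw [hy₁, he]; ring
    rw [e1] at this
    simpa [o] using this
  have hRR : ∀ m m', R m → R m' → m ≠ m' → y < gp d m m' 0 := by
    rintro m m' ⟨hm, hr⟩ ⟨hm', hr'⟩ hne
    have := reach_gp h N n hn y₁ ⟨m, hm⟩ ⟨m', hm'⟩ (hr.symm.trans hr') (by
      intro hh
      exact hne (congrArg Fin.val hh))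
    have e1 : y₁ - n * δ = y := by rw [hy₁, he]; ring
    rw [e1] at this
    simpa using this
  have hNR : ∀ m m', R m → ¬ R m' → m' < N + 1 → gp d m m' 0 ≤ y₁ := by
    rintro m m' ⟨hm, hr⟩ hnr hm'
    by_contra hcon
    push Not at hcon
    apply hnr
    refine ⟨hm', hr.trans ?_⟩
    apply SimpleGraph.Adj.reachable
    show (⟨m, hm⟩ : Fin (N + 1)) ≠ ⟨m', hm'⟩ ∧ y₁ < gp d m m' 0 ∧ y₁ < gp d m' m 0
    refine ⟨?_, hcon, ?_⟩
    · intro hh
      have : m = m' := congrArg Fin.val hh
      subst this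
      exact hnr ⟨hm, hr⟩
    · rw [gp_comm h]
      exact hcon
  have hRT : R T := ⟨by omega, SimpleGraph.Reachable.refl _⟩
  have hR0 : ¬ R 0 := by
    intro hh
    have h1 := hRgp 0 hh (by omega)
    have h2 : gp d T 0 0 ≤ 0 := by
      have := gp_le_right h T 0 0
      rwa [h.self 0] at this
    linarith
  have hRN : ¬ R (2 * T) := by
    intro hh
    have h1 := hRgp (2 * T) hh (by omega)
    have h2 : gp d T (2 * T) 0 = d 0 T - gp d 0 (2 * T) T := by
      unfold gp
      rw [h.symm T 0, h.symm (2 * T) 0, h.symm T (2 * T)]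
      ring
    rw [h2] at h1
    linarith
  -- c and c'
  obtain ⟨c, hcT, hcR, hcmax⟩ : ∃ c, c < T ∧ ¬ R c ∧ ∀ m, c < m → m < T → R m := by
    have hne : ((Finset.range T).filter (fun m => ¬ R m)).Nonempty :=
      ⟨0, by simp only [Finset.mem_filter, Finset.mem_range]; exact ⟨by omega, hR0⟩⟩
    refine ⟨((Finset.range T).filter (fun m => ¬ R m)).max' hne, ?_, ?_, ?_⟩
    · have := Finset.max'_mem _ hne
      simp only [Finset.mem_filter, Finset.mem_range] at this
      exact this.1
    · have := Finset.max'_mem _ hne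
      simp only [Finset.mem_filter, Finset.mem_range] at this
      exact this.2
    · intro m hm hmT
      by_contra hcon
      have := Finset.le_max' ((Finset.range T).filter (fun m => ¬ R m)) m (by
        simp only [Finset.mem_filter, Finset.mem_range]; exact ⟨hmT, hcon⟩)
      omega
  obtain ⟨c', hc'T, hc'N, hc'R, hc'min⟩ : ∃ c', T < c' ∧ c' ≤ 2 * T ∧ ¬ R c' ∧
      ∀ m, T < m → m < c' → R m := by
    have hex : ∃ m, T < m ∧ ¬ R m := ⟨2 * T, by omega, hRN⟩
    refine ⟨Nat.find hex, (Nat.find_spec hex).1, Nat.find_min' hex ⟨by omega, hRN⟩,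
      (Nat.find_spec hex).2, ?_⟩
    intro m hm hm'
    by_contra hcon
    exact Nat.find_min hex hm' ⟨hm, hcon⟩
  have hin : ∀ m, c < m → m < c' → R m := by
    intro m h1 h2
    rcases lt_trichotomy m T with h3 | h3 | h3
    · exact hcmax m h1 h3
    · rw [h3]; exact hRT
    · exact hc'min m h3 h2
  -- the tip
  obtain ⟨t, hct, htc', htmax⟩ : ∃ t, c < t ∧ t < c' ∧ ∀ m, c < m → m < c' → d 0 m ≤ d 0 t := by
    obtain ⟨t, ht, htm⟩ := Finset.exists_max_image (Finset.Ioo c c') (fun m => d 0 m)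
      ⟨T, by simp only [Finset.mem_Ioo]; exact ⟨hcT, hc'T⟩⟩
    simp only [Finset.mem_Ioo] at ht
    refine ⟨t, ht.1, ht.2, fun m h1 h2 => htm m ?_⟩
    simp only [Finset.mem_Ioo]
    exact ⟨h1, h2⟩
  have hRt : R t := hin t hct htc'
  have hht : y + s ≤ d 0 t := by
    have := htmax T hcT hc'T
    linarith
  have hhpos : ∀ m, c < m → m < c' → y < d 0 m := by
    intro m h1 h2
    by_cases hmt : m = T
    · subst hmt; linarith
    · have h3 := hRgp m (hin m h1 h2) hmt
      have h4 := gp_le_right h T m 0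
      rw [h.symm m 0] at h4
      linarith
  have hgin : ∀ m m', c < m → m < c' → c < m' → m' < c' → y < gp d m m' 0 := by
    intro m m' h1 h2 h3 h4
    by_cases hmm : m = m'
    · subst hmm
      rw [gp_self_left h, h.symm]
      exact hhpos m h1 h2
    · exact hRR m m' (hin m h1 h2) (hin m' h3 h4) hmm
  have hgc : ∀ m, c < m → m < c' → gp d m c 0 ≤ y₁ := fun m h1 h2 =>
    hNR m c (hin m h1 h2) hcR (by omega)
  have hgc' : ∀ m, c < m → m < c' → gp d m c' 0 ≤ y₁ := fun m h1 h2 =>
    hNR m c' (hin m h1 h2) hc'R (by omega)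
  -- steps
  have hstep : ∀ i, d 0 (i + 1) - B ≤ gp d i (i + 1) 0 ∧ d 0 i - B ≤ gp d i (i + 1) 0 := by
    intro i
    have h1 := h.step i
    have h2 := h.tri 0 i (i + 1)
    have h3 := h.tri 0 (i + 1) i
    have h4 := h.symm i (i + 1)
    unfold gp
    rw [h.symm i 0, h.symm (i + 1) 0]
    constructor <;> linarith
  have hc1 : c + 1 < c' := by omega
  have hcc1 : y - B < gp d c (c + 1) 0 := by
    have h1 := (hstep c).1
    have h2 := hhpos (c + 1) (by omega) hc1
    linarith
  have hc'1 : y - B < gp d (c' - 1) c' 0 := by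
    have h1 := (hstep (c' - 1)).2
    have e1 : c' - 1 + 1 = c' := by omega
    rw [e1] at h1
    have h2 := hhpos (c' - 1) (by omega) (by omega)
    linarith
  have hcm : ∀ m, c < m → m < c' → y - B - δ ≤ gp d c m 0 := by
    intro m h1 h2
    have h3 := h.hyp c (c + 1) m 0
    have h4 := hgin (c + 1) m (by omega) hc1 h1 h2
    have h5 : y - B ≤ min (gp d c (c + 1) 0) (gp d (c + 1) m 0) := le_min hcc1.le (by linarith)
    linarith
  have hc'm : ∀ m, c < m → m < c' → y - B - δ ≤ gp d m c' 0 := by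
    intro m h1 h2
    have h3 := h.hyp m (c' - 1) c' 0
    have h4 := hgin m (c' - 1) h1 h2 (by omega) (by omega)
    have h5 : y - B ≤ min (gp d m (c' - 1) 0) (gp d (c' - 1) c' 0) := le_min (by linarith) hc'1.le
    linarith
  have hcc' : y - B - 2 * δ ≤ gp d c c' 0 := by
    have h3 := h.hyp c t c' 0
    have h4 := hcm t hct htc'
    have h5 := hc'm t hct htc'
    have h6 : y - B - δ ≤ min (gp d c t 0) (gp d t c' 0) := le_min h4 h5
    linarith
  have hhc : d 0 c ≤ y₁ + B := by
    have h1 := (hstep c).2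
    have h2 := hgc (c + 1) (by omega) hc1
    rw [gp_comm h] at h2
    linarith
  have hhc' : d 0 c' ≤ y₁ + B := by
    have h1 := (hstep (c' - 1)).1
    have e1 : c' - 1 + 1 = c' := by omega
    rw [e1] at h1
    have h2 := hgc' (c' - 1) (by omega) (by omega)
    linarith
  have hdcc' : d c c' ≤ 4 * B + 2 * e + 4 * δ := by
    have : d c c' = d 0 c + d 0 c' - 2 * gp d c c' 0 := by
      unfold gp
      rw [h.symm c 0, h.symm c' 0]
      ring
    rw [this]
    linarith
  have e2 : 4 * B + 2 * n * δ + 4 * δ = 4 * B + 2 * e + 4 * δ := by rw [he]; ring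
  rw [e2]
  have hwc : s - e ≤ gp d 0 c t := by
    have h1 : gp d 0 c t = d 0 t - gp d t c 0 := by
      unfold gp
      rw [h.symm t 0, h.symm c 0, h.symm c t]
      ring
    rw [h1]
    have := hgc t hct htc'
    linarith
  have hwc' : s - e ≤ gp d 0 c' t := by
    have h1 : gp d 0 c' t = d 0 t - gp d t c' 0 := by
      unfold gp
      rw [h.symm t 0, h.symm c' 0, h.symm c' t]
      ring
    rw [h1]
    have := hgc' t hct htc'
    linarith
  refine ⟨c, t, c', hct, htc', hcT, hc'T, hc'N, ?_, hdcc', ?_, ?_, ?_⟩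
  · have h1 := h.hyp c 0 c' t
    have h2 : s - e ≤ min (gp d c 0 t) (gp d 0 c' t) := le_min (by rwa [gp_comm h]) hwc'
    linarith
  · intro m h1 h2
    rcases eq_or_lt_of_le h1 with h3 | h3
    · rw [← h3, h.self]
      have := h.nonneg c t
      linarith
    rcases eq_or_lt_of_le h2 with h4 | h4
    · rw [h4]
      have := h.nonneg c t
      linarith
    have e3 : d c m = d 0 c + d 0 m - 2 * gp d c m 0 := by
      unfold gp
      rw [h.symm c 0, h.symm m 0]
      ring
    have e4 : d c t = d 0 c + d 0 t - 2 * gp d t c 0 := by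
      unfold gp
      rw [h.symm c 0, h.symm t 0, h.symm t c]
      ring
    have h5 := hcm m h3 h4
    have h6 := hgc t hct htc'
    have h7 := htmax m h3 h4
    rw [e3, e4]
    linarith
  · intro m h1 h2
    rcases eq_or_lt_of_le h1 with h3 | h3
    · rw [← h3, h.symm]
      have := h.nonneg c' t
      linarith
    rcases eq_or_lt_of_le h2 with h4 | h4
    · rw [h4, h.self]
      have := h.nonneg c' t
      linarith
    have e3 : d c' m = d 0 c' + d 0 m - 2 * gp d m c' 0 := by
      unfold gp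
      rw [h.symm c' 0, h.symm m 0, h.symm m c']
      ring
    have e4 : d c' t = d 0 c' + d 0 t - 2 * gp d t c' 0 := by
      unfold gp
      rw [h.symm c' 0, h.symm t 0, h.symm t c']
      ring
    have h5 := hc'm m h3 h4
    have h6 := hgc' t hct htc'
    have h7 := htmax m h3 h4
    rw [e3, e4]
    linarith
  · have h1 : min (d t (t + 1) / 2) (s - e) ≤ gp d 0 (t + 1) t := by
      by_cases ht1 : t + 1 < c'
      · refine (min_le_left _ _).trans ?_
        have h2 := htmax (t + 1) (by omega) ht1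
        unfold gp
        rw [h.symm (t + 1) t]
        linarith
      · have : t + 1 = c' := by omega
        rw [this]
        exact (min_le_right _ _).trans hwc'
    have h2 : min (d (t - 1) t / 2) (s - e) ≤ gp d (t - 1) 0 t := by
      rw [gp_comm h]
      by_cases ht1 : c < t - 1
      · refine (min_le_left _ _).trans ?_
        have h2 := htmax (t - 1) ht1 (by omega)
        unfold gp
        linarith
      · have : t - 1 = c := by omega
        rw [this]
        exact (min_le_right _ _).trans hwc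
    have h3 := h.hyp (t - 1) 0 (t + 1) t
    have h4 : min (min (d t (t + 1) / 2) (d (t - 1) t / 2)) (s - e) ≤
        min (gp d (t - 1) 0 t) (gp d 0 (t + 1) t) := by
      apply le_min
      · refine le_trans ?_ h2
        exact le_min ((min_le_left _ _).trans (min_le_right _ _)) (min_le_right _ _)
      · refine le_trans ?_ h1
        exact le_min ((min_le_left _ _).trans (min_le_left _ _)) (min_le_right _ _)
    linarith

end Crest.Agent.R128.Tips
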