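import Mathlib
import Crest.Agent.R128.Tips

set_option autoImplicit false

open scoped Matrix.Norms.L2Operator
open Matrix

namespace Crest.Agent.R128.Hyp

abbrev E2 := EuclideanSpace ℝ (Fin 2)
abbrev M2 := Matrix (Fin 2) (Fin 2) ℝ

/-- the action of a matrix on the Euclidean plane -/
noncomputable def ap (M : M2) (v : E2) : E2 := Matrix.toEuclideanCLM (n := Fin 2) (𝕜 := ℝ) M v

theorem ap_apply (M : M2) (v : E2) (i : Fin 2) : ap M v i = M i 0 * v 0 + M i 1 * v 1 := by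
  unfold ap
  rw [Matrix.ofLp_toEuclideanCLM]
  simp [Matrix.mulVec, dotProduct, Fin.sum_univ_two]

theorem ap_mul (M N : M2) (v : E2) : ap (M * N) v = ap M (ap N v) := by
  ext i
  simp only [ap_apply, Matrix.mul_apply, Fin.sum_univ_two]
  ring

theorem ap_one (v : E2) : ap 1 v = v := by
  unfold ap
  rw [map_one]
  rfl

theorem ap_inv_cancel {M : M2} (h : M.det = 1) (v : E2) : ap M (ap M⁻¹ v) = v := by
  rw [← ap_mul, Matrix.mul_nonsing_inv _ (by rw [h]; exact isUnit_one), ap_one]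

theorem norm_e0 : ‖(!₂[1, 0] : E2)‖ = 1 := by
  rw [EuclideanSpace.norm_eq]
  simp

theorem norm_ap_le (M : M2) (v : E2) : ‖ap M v‖ ≤ ‖M‖ * ‖v‖ := by
  unfold ap
  rw [Matrix.l2_opNorm_def]
  exact ContinuousLinearMap.le_opNorm _ _

theorem norm_le_of_ap {M : M2} {C : ℝ} (hC : 0 ≤ C) (h : ∀ v, ‖ap M v‖ ≤ C * ‖v‖) : ‖M‖ ≤ C := by
  rw [Matrix.l2_opNorm_def]
  exact ContinuousLinearMap.opNorm_le_bound _ hC h

/-- the area form -/
def om (v w : E2) : ℝ := v 0 * w 1 - v 1 * w 0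

theorem norm_sq (v : E2) : ‖v‖ ^ 2 = v 0 ^ 2 + v 1 ^ 2 := by
  rw [EuclideanSpace.norm_eq, Real.sq_sqrt (by positivity)]
  simp [Fin.sum_univ_two]

theorem abs_om_le (v w : E2) : |om v w| ≤ ‖v‖ * ‖w‖ := by
  rw [← Real.sqrt_sq (mul_nonneg (norm_nonneg v) (norm_nonneg w)), ← Real.sqrt_sq_eq_abs]
  apply Real.sqrt_le_sqrt
  rw [mul_pow, norm_sq, norm_sq]
  unfold om
  nlinarith [sq_nonneg (v 0 * w 0 + v 1 * w 1)]

theorem om_ap {M : M2} (h : M.det = 1) (v w : E2) : om (ap M v) (ap M w) = om v w := by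
  unfold om
  simp only [ap_apply]
  rw [Matrix.det_fin_two] at h
  have : (M 0 0 * v 0 + M 0 1 * v 1) * (M 1 0 * w 0 + M 1 1 * w 1) -
      (M 1 0 * v 0 + M 1 1 * v 1) * (M 0 0 * w 0 + M 0 1 * w 1) =
      (M 0 0 * M 1 1 - M 0 1 * M 1 0) * (v 0 * w 1 - v 1 * w 0) := by ring
  rw [this, h, one_mul]

/-- rotation by a quarter turn -/
noncomputable def rot (v : E2) : E2 := !₂[-(v 1), v 0]

theorem norm_rot (v : E2) : ‖rot v‖ = ‖v‖ := by
  have h1 : ‖rot v‖ ^ 2 = ‖v‖ ^ 2 := by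
    rw [norm_sq, norm_sq]
    simp [rot]
    ring
  exact (sq_eq_sq₀ (norm_nonneg _) (norm_nonneg _)).mp h1

theorem decomp (e v : E2) (he : ‖e‖ = 1) : v = om v (rot e) • e + om e v • rot e := by
  have h := norm_sq e
  rw [he] at h
  ext i
  fin_cases i
  · simp only [om, rot]
    simp
    linear_combination (v 0) * h
  · simp only [om, rot]
    simp
    linear_combination (v 1) * h

theorem ninv {M : M2} (h : M.det = 1) : ‖M⁻¹‖ = ‖M‖ := by
  have key : ∀ M : M2, M.det = 1 → ‖M⁻¹‖ ≤ ‖M‖ := by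
    intro M h
    apply norm_le_of_ap (norm_nonneg _)
    intro v
    have hM : ap M (ap M⁻¹ v) = v := ap_inv_cancel h v
    set w := ap M⁻¹ v with hw
    by_cases hw0 : ‖w‖ = 0
    · rw [hw0]; positivity
    have hwpos : 0 < ‖w‖ := lt_of_le_of_ne (norm_nonneg _) (Ne.symm hw0)
    -- |w|² = ω(w, rot w) = ω(M w, M rot w) ≤ |v| ‖M‖ |w|
    have h1 : om w (rot w) = ‖w‖ ^ 2 := by
      rw [norm_sq]
      simp [om, rot]
      ring
    have h2 := om_ap h w (rot w)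
    rw [hM, h1] at h2
    have h3 := abs_om_le v (ap M (rot w))
    rw [h2, abs_of_nonneg (by positivity)] at h3
    have h4 := norm_ap_le M (rot w)
    rw [norm_rot] at h4
    have h5 : ‖w‖ ^ 2 ≤ ‖v‖ * (‖M‖ * ‖w‖) := h3.trans (mul_le_mul_of_nonneg_left h4 (norm_nonneg _))
    have h6 : ‖w‖ * ‖w‖ ≤ (‖M‖ * ‖v‖) * ‖w‖ := by nlinarith
    exact le_of_mul_le_mul_right h6 hwpos
  apply le_antisymm (key M h)
  have hdet : (M⁻¹).det = 1 := by
    rw [Matrix.det_nonsing_inv, h]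
    simp
  have := key M⁻¹ hdet
  rwa [Matrix.nonsing_inv_nonsing_inv _ (by rw [h]; exact isUnit_one)] at this

theorem one_le_norm {M : M2} (h : M.det = 1) : 1 ≤ ‖M‖ := by
  have h1 : M * M⁻¹ = 1 := Matrix.mul_nonsing_inv _ (by rw [h]; exact isUnit_one)
  have h2 : ‖(1 : M2)‖ ≤ ‖M‖ * ‖M⁻¹‖ := by
    rw [← h1]
    exact Matrix.l2_opNorm_mul _ _
  rw [ninv h] at h2
  have h3 : (1 : ℝ) ≤ ‖(1 : M2)‖ := by
    have h4 := norm_ap_le (1 : M2) !₂[1, 0]
    rw [ap_one, norm_e0, mul_one] at h4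
    exact h4
  nlinarith [norm_nonneg M]

theorem norm_one_le : ‖(1 : M2)‖ ≤ 1 := by
  apply norm_le_of_ap zero_le_one
  intro v
  rw [ap_one, one_mul]

/-- existence of a most contracted unit vector -/
theorem exists_contracted {y : M2} (h : y.det = 1) : ∃ e : E2, ‖e‖ = 1 ∧
    ∀ x : M2, ‖y‖ * ‖ap x e‖ ≤ ‖x * y⁻¹‖ := by
  have hdet : (y⁻¹).det = 1 := by
    rw [Matrix.det_nonsing_inv, h]
    simp
  -- the norm of y⁻¹ is attained
  obtain ⟨u, hu, hmax⟩ : ∃ u : E2, ‖u‖ = 1 ∧ ‖ap y⁻¹ u‖ = ‖y⁻¹‖ := by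
    have hcomp : IsCompact (Metric.sphere (0 : E2) 1) := isCompact_sphere _ _
    have hne : (Metric.sphere (0 : E2) 1).Nonempty := by
      refine ⟨!₂[1, 0], ?_⟩
      simp only [mem_sphere_iff_norm, sub_zero]
      exact norm_e0
    obtain ⟨u, hu, hmax⟩ := hcomp.exists_isMaxOn hne
      (f := fun v => ‖ap y⁻¹ v‖) (by
        unfold ap
        exact (ContinuousLinearMap.continuous _).norm.continuousOn)
    have hu1 : ‖u‖ = 1 := by simpa using hu
    refine ⟨u, hu1, le_antisymm ?_ ?_⟩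
    · have := norm_ap_le y⁻¹ u
      rwa [hu1, mul_one] at this
    · apply norm_le_of_ap (norm_nonneg _)
      intro v
      by_cases hv : ‖v‖ = 0
      · have : v = 0 := norm_eq_zero.mp hv
        subst this
        simp [ap]
      have hv' : (‖v‖⁻¹ • v) ∈ Metric.sphere (0 : E2) 1 := by
        simp only [mem_sphere_iff_norm, sub_zero]
        rw [norm_smul, norm_inv, norm_norm]
        exact inv_mul_cancel₀ hv
      have h1 := hmax hv'
      simp only [Set.mem_ofPred_eq] at h1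
      have h2 : ap y⁻¹ (‖v‖⁻¹ • v) = ‖v‖⁻¹ • ap y⁻¹ v := by
        unfold ap
        rw [map_smul]
      rw [h2, norm_smul, norm_inv, norm_norm] at h1
      have hvp : 0 < ‖v‖ := lt_of_le_of_ne (norm_nonneg _) (Ne.symm hv)
      rw [inv_mul_le_iff₀ hvp] at h1
      linarith
  have hyn : 0 < ‖y‖ := lt_of_lt_of_le one_pos (one_le_norm h)
  refine ⟨‖y‖⁻¹ • ap y⁻¹ u, ?_, ?_⟩
  · rw [norm_smul, hmax, Real.norm_of_nonneg (by positivity), ninv h,
      inv_mul_cancel₀ hyn.ne']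
  · intro x
    have h1 : ap x (‖y‖⁻¹ • ap y⁻¹ u) = ‖y‖⁻¹ • ap (x * y⁻¹) u := by
      rw [ap_mul]
      unfold ap
      rw [map_smul]
    rw [h1, norm_smul, Real.norm_of_nonneg (by positivity), ← mul_assoc, mul_inv_cancel₀ hyn.ne',
      one_mul]
    have := norm_ap_le (x * y⁻¹) u
    rwa [hu, mul_one] at this

/-- **Ptolemy inequality** for the operator norm on `SL₂(ℝ)` -/
theorem ptolemy {x y z : M2} (hx : x.det = 1) (hy : y.det = 1) :
    ‖z * x⁻¹‖ * ‖y‖ ≤ ‖z * y⁻¹‖ * ‖x‖ + ‖z‖ * ‖x * y⁻¹‖ := by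
  obtain ⟨e, he, hec⟩ := exists_contracted hy
  have hyn : 0 < ‖y‖ := lt_of_lt_of_le one_pos (one_le_norm hy)
  have h1 : ‖z * x⁻¹‖ ≤ ‖ap z e‖ * ‖x‖ + ‖z‖ * ‖ap x e‖ := by
    apply norm_le_of_ap (by positivity)
    intro w
    rw [ap_mul]
    set v := ap x⁻¹ w with hv
    have hxv : ap x v = w := by
      rw [hv]
      exact ap_inv_cancel hx w
    have hd := decomp e v he
    have h2 : ap z v = om v (rot e) • ap z e + om e v • ap z (rot e) := by
      conv_lhs => rw [hd]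
      unfold ap
      rw [map_add, map_smul, map_smul]
    have h3 : |om v (rot e)| ≤ ‖w‖ * ‖x‖ := by
      have h4 := om_ap hx v (rot e)
      rw [hxv] at h4
      rw [← h4]
      refine (abs_om_le _ _).trans ?_
      have h5 := norm_ap_le x (rot e)
      rw [norm_rot, he, mul_one] at h5
      exact mul_le_mul_of_nonneg_left h5 (norm_nonneg _)
    have h4 : |om e v| ≤ ‖ap x e‖ * ‖w‖ := by
      have h5 := om_ap hx e v
      rw [hxv] at h5
      rw [← h5]
      exact abs_om_le _ _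
    have h5 : ‖ap z (rot e)‖ ≤ ‖z‖ := by
      have := norm_ap_le z (rot e)
      rwa [norm_rot, he, mul_one] at this
    rw [h2]
    calc ‖om v (rot e) • ap z e + om e v • ap z (rot e)‖
        ≤ ‖om v (rot e) • ap z e‖ + ‖om e v • ap z (rot e)‖ := norm_add_le _ _
      _ = |om v (rot e)| * ‖ap z e‖ + |om e v| * ‖ap z (rot e)‖ := by
          rw [norm_smul, norm_smul]; rfl
      _ ≤ (‖w‖ * ‖x‖) * ‖ap z e‖ + (‖ap x e‖ * ‖w‖) * ‖z‖ := by gcongr
      _ = (‖ap z e‖ * ‖x‖ + ‖z‖ * ‖ap x e‖) * ‖w‖ := by ring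
  have h2 := hec z
  have h3 := hec x
  calc ‖z * x⁻¹‖ * ‖y‖ ≤ (‖ap z e‖ * ‖x‖ + ‖z‖ * ‖ap x e‖) * ‖y‖ := by gcongr
    _ = (‖y‖ * ‖ap z e‖) * ‖x‖ + ‖z‖ * (‖y‖ * ‖ap x e‖) := by ring
    _ ≤ ‖z * y⁻¹‖ * ‖x‖ + ‖z‖ * ‖x * y⁻¹‖ := by gcongr

/-- the (half hyperbolic) distance between the times `i` and `j` of a sequence of matrices -/
noncomputable def dist (g : ℕ → M2) (i j : ℕ) : ℝ := Real.log ‖g j * (g i)⁻¹‖

theorem det_mul_inv {a b : M2} (ha : a.det = 1) (hb : b.det = 1) : (a * b⁻¹).det = 1 := by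
  rw [Matrix.det_mul, Matrix.det_nonsing_inv, ha, hb]
  simp

theorem isHyp {g : ℕ → M2} (hg : ∀ i, (g i).det = 1) {B : ℝ}
    (hB : ∀ i, Real.log ‖g (i + 1) * (g i)⁻¹‖ ≤ B) :
    Tips.IsHyp (dist g) (Real.log 2 / 2) B := by
  have hu : ∀ i, IsUnit (g i).det := fun i => by rw [hg i]; exact isUnit_one
  have hpos : ∀ i j, 0 < ‖g j * (g i)⁻¹‖ := fun i j =>
    lt_of_lt_of_le one_pos (one_le_norm (det_mul_inv (hg j) (hg i)))
  have hinv : ∀ i j, (g j * (g i)⁻¹)⁻¹ = g i * (g j)⁻¹ := by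
    intro i j
    rw [Matrix.mul_inv_rev, Matrix.nonsing_inv_nonsing_inv _ (hu i)]
  have hmul : ∀ i j l, (g l * (g j)⁻¹) * (g j * (g i)⁻¹) = g l * (g i)⁻¹ := by
    intro i j l
    rw [Matrix.mul_assoc, ← Matrix.mul_assoc (g j)⁻¹, Matrix.nonsing_inv_mul _ (hu j), Matrix.one_mul]
  have hsymm : ∀ i j, dist g i j = dist g j i := by
    intro i j
    unfold dist
    rw [← hinv i j, ninv (det_mul_inv (hg j) (hg i))]
  have hself : ∀ i, dist g i i = 0 := by
    intro i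
    unfold dist
    rw [Matrix.mul_nonsing_inv _ (hu i)]
    have : ‖(1 : M2)‖ = 1 := le_antisymm norm_one_le (one_le_norm Matrix.det_one)
    rw [this, Real.log_one]
  refine ⟨hsymm, hself, ?_, ?_, ?_, hB, by positivity⟩
  · intro i j
    exact Real.log_nonneg (one_le_norm (det_mul_inv (hg j) (hg i)))
  · intro i j l
    unfold dist
    rw [← Real.log_mul (hpos i j).ne' (hpos j l).ne']
    apply Real.log_le_log (hpos i l)
    rw [← hmul i j l, mul_comm]
    exact Matrix.l2_opNorm_mul _ _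
  · intro i j l w
    have hp := ptolemy (x := g i * (g w)⁻¹) (y := g j * (g w)⁻¹) (z := g l * (g w)⁻¹)
      (det_mul_inv (hg i) (hg w)) (det_mul_inv (hg j) (hg w))
    rw [hinv w i, hinv w j, hmul i w l, hmul j w l, hmul j w i] at hp
    -- hp : ‖l i⁻¹‖ ‖j w⁻¹‖ ≤ ‖l j⁻¹‖ ‖i w⁻¹‖ + ‖l w⁻¹‖ ‖i j⁻¹‖
    have h1 : dist g i l + dist g w j ≤
        max (dist g j l + dist g w i) (dist g w l + dist g j i) + Real.log 2 := by
      unfold dist
      rw [← Real.log_mul (hpos i l).ne' (hpos w j).ne', ← Real.log_mul (hpos j l).ne' (hpos w i).ne',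
        ← Real.log_mul (hpos w l).ne' (hpos j i).ne']
      rcases le_total (‖g l * (g j)⁻¹‖ * ‖g i * (g w)⁻¹‖) (‖g l * (g w)⁻¹‖ * ‖g i * (g j)⁻¹‖) with
        h | h
      · have h2 : ‖g l * (g i)⁻¹‖ * ‖g j * (g w)⁻¹‖ ≤
            (‖g l * (g w)⁻¹‖ * ‖g i * (g j)⁻¹‖) * 2 := by linarith
        have h3 := Real.log_le_log (mul_pos (hpos i l) (hpos w j)) h2
        rw [Real.log_mul (mul_pos (hpos w l) (hpos j i)).ne' two_ne_zero] at h3
        refine h3.trans ?_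
        gcongr
        exact le_max_right _ _
      · have h2 : ‖g l * (g i)⁻¹‖ * ‖g j * (g w)⁻¹‖ ≤
            (‖g l * (g j)⁻¹‖ * ‖g i * (g w)⁻¹‖) * 2 := by linarith
        have h3 := Real.log_le_log (mul_pos (hpos i l) (hpos w j)) h2
        rw [Real.log_mul (mul_pos (hpos j l) (hpos w i)).ne' two_ne_zero] at h3
        refine h3.trans ?_
        gcongr
        exact le_max_left _ _
    unfold Tips.gp
    rw [hsymm i w, hsymm l w, hsymm j w, hsymm i j]
    rcases le_total (dist g j l + dist g w i) (dist g w l + dist g j i) with h | h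
    · rw [max_eq_right h] at h1
      refine le_trans (sub_le_sub_right (min_le_left _ _) _) ?_
      linarith
    · rw [max_eq_left h] at h1
      refine le_trans (sub_le_sub_right (min_le_right _ _) _) ?_
      linarith

end Crest.Agent.R128.Hyp
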