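import Mathlib
import Crest.Agent.R128.Coc
import Crest.Agent.R128.Hyp

set_option autoImplicit false

/-! Row 128: the two-sided (`ℤ`-indexed) cocycle. Written by helper550. Sorry free. -/

open MeasureTheory Filter Topology

namespace Crest.Agent.R128.Two

open Crest.Agent.R128

abbrev SL := Matrix.SpecialLinearGroup (Fin 2) ℝ

/-- one-step matrix in `SL₂(ℝ)` -/
noncomputable def As (k : ℝ) (z : Tor) : SL := ⟨Am k z, det_Am k z⟩

/-- `T` as a permutation -/
noncomputable def TP (k : ℝ) : Equiv.Perm Tor := (TH k).toEquiv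

@[simp] theorem TP_apply (k : ℝ) (z : Tor) : TP k z = T k z := rfl
@[simp] theorem TP_symm_apply (k : ℝ) (z : Tor) : (TP k).symm z = Tinv k z := rfl

/-- the skew product as a permutation of `Tor × SL₂(ℝ)` -/
noncomputable def SP (k : ℝ) : Equiv.Perm (Tor × SL) where
  toFun p := (T k p.1, As k p.1 * p.2)
  invFun p := (Tinv k p.1, (As k (Tinv k p.1))⁻¹ * p.2)
  left_inv p := by
    ext1
    · exact Tinv_T k p.1
    · simp only [Tinv_T]
      group
  right_inv p := by
    ext1
    · exact T_Tinv k p.1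
    · simp only
      group

@[simp] theorem SP_apply (k : ℝ) (p : Tor × SL) : SP k p = (T k p.1, As k p.1 * p.2) := rfl

/-- the `n`-th iterate, `n : ℤ` -/
noncomputable def Tz (k : ℝ) (n : ℤ) (z : Tor) : Tor := (TP k ^ n) z

/-- the cocycle, `n : ℤ`, in `SL₂(ℝ)` -/
noncomputable def Asz (k : ℝ) (n : ℤ) (z : Tor) : SL := ((SP k ^ n) (z, 1)).2

/-- the cocycle, `n : ℤ`, as a matrix -/
noncomputable def Az (k : ℝ) (n : ℤ) (z : Tor) : Matrix (Fin 2) (Fin 2) ℝ := (Asz k n z : _)

theorem Tz_zero (k : ℝ) (z : Tor) : Tz k 0 z = z := by simp [Tz]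

theorem Tz_one (k : ℝ) (z : Tor) : Tz k 1 z = T k z := by simp [Tz]

theorem Tz_add (k : ℝ) (m n : ℤ) (z : Tor) : Tz k (m + n) z = Tz k m (Tz k n z) := by
  simp [Tz, zpow_add]

theorem Tz_natCast (k : ℝ) (n : ℕ) (z : Tor) : Tz k n z = (T k)^[n] z := by
  induction n with
  | zero => simp [Tz]
  | succ n ih =>
    rw [Nat.cast_succ, add_comm, Tz_add, ih, Tz_one, Function.iterate_succ_apply']

theorem Tz_neg_cancel (k : ℝ) (n : ℤ) (z : Tor) : Tz k (-n) (Tz k n z) = z := by
  rw [← Tz_add, neg_add_cancel, Tz_zero]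

theorem Tz_neg_cancel' (k : ℝ) (n : ℤ) (z : Tor) : Tz k n (Tz k (-n) z) = z := by
  rw [← Tz_add, add_neg_cancel, Tz_zero]

theorem Tz_neg_one (k : ℝ) (z : Tor) : Tz k (-1) z = Tinv k z := by
  simp [Tz]

/-- right translation -/
def RP (h : SL) : Equiv.Perm (Tor × SL) where
  toFun p := (p.1, p.2 * h)
  invFun p := (p.1, p.2 * h⁻¹)
  left_inv p := by simp
  right_inv p := by simp

theorem SP_comm (k : ℝ) (h : SL) : Commute (SP k) (RP h) := by
  ext1 p
  simp [RP, Equiv.Perm.mul_apply, mul_assoc]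

theorem SPz (k : ℝ) (n : ℤ) (z : Tor) (g : SL) : (SP k ^ n) (z, g) = (Tz k n z, Asz k n z * g) := by
  have hfst : ∀ p : Tor × SL, ((SP k ^ n) p).1 = Tz k n p.1 := by
    have h1 : ∀ (m : ℕ) (p : Tor × SL), ((SP k ^ m) p).1 = Tz k m p.1 := by
      intro m
      induction m with
      | zero => intro p; simp [Tz]
      | succ m ih =>
        intro p
        rw [pow_succ', Equiv.Perm.mul_apply, SP_apply, ih, Nat.cast_succ, add_comm, Tz_add, Tz_one]
    obtain ⟨m, rfl | rfl⟩ := n.eq_nat_or_neg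
    · intro p
      rw [zpow_natCast]
      exact h1 m p
    · intro p
      have h2 := h1 m ((SP k ^ (-(m : ℤ))) p)
      rw [← zpow_natCast, ← Equiv.Perm.mul_apply, ← zpow_add, add_neg_cancel, zpow_zero,
        Equiv.Perm.one_apply] at h2
      rw [h2, Tz_neg_cancel]
  ext1
  · exact hfst _
  · have hc := (SP_comm k g).zpow_left n
    have h3 := congrArg (fun e : Equiv.Perm (Tor × SL) => e (z, 1)) hc.eq
    simp only [Equiv.Perm.mul_apply] at h3
    have h4 : RP g (z, 1) = (z, g) := by simp [RP]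
    rw [h4] at h3
    rw [h3]
    rfl

/-- cocycle identity -/
theorem Asz_add (k : ℝ) (m n : ℤ) (z : Tor) :
    Asz k (m + n) z = Asz k m (Tz k n z) * Asz k n z := by
  unfold Asz
  rw [zpow_add, Equiv.Perm.mul_apply]
  rw [SPz k n z 1, SPz k m]
  simp [Asz]

theorem Asz_zero (k : ℝ) (z : Tor) : Asz k 0 z = 1 := by simp [Asz]

theorem Asz_one (k : ℝ) (z : Tor) : Asz k 1 z = As k z := by simp [Asz]

theorem Az_zero (k : ℝ) (z : Tor) : Az k 0 z = 1 := by simp [Az, Asz_zero]

theorem Az_one (k : ℝ) (z : Tor) : Az k 1 z = Am k z := by simp [Az, Asz_one, As]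

theorem Az_add (k : ℝ) (m n : ℤ) (z : Tor) : Az k (m + n) z = Az k m (Tz k n z) * Az k n z := by
  simp [Az, Asz_add]

theorem det_Az (k : ℝ) (n : ℤ) (z : Tor) : (Az k n z).det = 1 := (Asz k n z).2

theorem Az_natCast (k : ℝ) (n : ℕ) (z : Tor) : Az k n z = Mn k n z := by
  induction n with
  | zero => simp [Az_zero]
  | succ n ih =>
    rw [Nat.cast_succ, add_comm, Az_add, ih, Az_one, Tz_natCast, ← Mn_succ']

theorem Az_succ (k : ℝ) (n : ℤ) (z : Tor) : Az k (n + 1) z = Am k (Tz k n z) * Az k n z := by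
  rw [add_comm, Az_add, Az_one]

theorem Asz_neg (k : ℝ) (n : ℤ) (z : Tor) : Asz k (-n) z = (Asz k n (Tz k (-n) z))⁻¹ := by
  have h := Asz_add k n (-n) z
  rw [add_neg_cancel, Asz_zero] at h
  exact (inv_eq_of_mul_eq_one_right h.symm).symm

theorem Az_neg (k : ℝ) (n : ℤ) (z : Tor) : Az k (-n) z = (Az k n (Tz k (-n) z))⁻¹ := by
  have hu : IsUnit (Az k n (Tz k (-n) z)).det := by rw [det_Az]; exact isUnit_one
  have h := Az_add k n (-n) z
  rw [add_neg_cancel, Az_zero] at h
  exact (Matrix.inv_eq_right_inv h.symm).symm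

theorem continuous_TP (k : ℝ) : Continuous (TP k) := continuous_T k

theorem continuous_Tz (k : ℝ) (n : ℤ) : Continuous (Tz k n) := by
  obtain ⟨m, rfl | rfl⟩ := n.eq_nat_or_neg
  · have : Tz k m = (T k)^[m] := by ext1 z; exact Tz_natCast k m z
    rw [this]
    exact (continuous_T k).iterate m
  · have : Tz k (-(m : ℤ)) = (Tinv k)^[m] := by
      ext1 z
      induction m generalizing z with
      | zero => simp [Tz_zero]
      | succ m ih =>
        rw [Nat.cast_succ, neg_add, Tz_add, Tz_neg_one, ih, Function.iterate_succ_apply]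
    rw [this]
    exact (continuous_Tinv k).iterate m

theorem mp_Tz (k : ℝ) (n : ℤ) : MeasurePreserving (Tz k n) volume volume := by
  obtain ⟨m, rfl | rfl⟩ := n.eq_nat_or_neg
  · have : Tz k m = (T k)^[m] := by ext1 z; exact Tz_natCast k m z
    rw [this]
    exact (mp_T k).iterate m
  · have : Tz k (-(m : ℤ)) = (Tinv k)^[m] := by
      ext1 z
      induction m generalizing z with
      | zero => simp [Tz_zero]
      | succ m ih =>
        rw [Nat.cast_succ, neg_add, Tz_add, Tz_neg_one, ih, Function.iterate_succ_apply]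
    rw [this]
    exact (mp_Tinv k).iterate m

theorem continuous_Az (k : ℝ) (n : ℤ) : Continuous (Az k n) := by
  have hnat : ∀ m : ℕ, Continuous (Az k m) := by
    intro m
    have : Az k m = Mn k m := by ext1 z; exact Az_natCast k m z
    rw [this]
    exact continuous_Mn k m
  obtain ⟨m, rfl | rfl⟩ := n.eq_nat_or_neg
  · exact hnat m
  · have : Az k (-(m : ℤ)) = fun z => (Az k m (Tz k (-m) z)).adjugate := by
      ext1 z
      rw [Az_neg, Matrix.inv_def, det_Az]
      simp
    rw [this]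
    exact ((hnat m).comp (continuous_Tz k _)).matrix_adjugate

/-- The transfer matrix from time `i` to time `j` along the orbit of `z`. -/
noncomputable def Aij (k : ℝ) (i j : ℤ) (z : Tor) : Matrix (Fin 2) (Fin 2) ℝ :=
  Az k (j - i) (Tz k i z)

theorem Aij_trans (k : ℝ) (i j l : ℤ) (z : Tor) : Aij k j l z * Aij k i j z = Aij k i l z := by
  unfold Aij
  have h := Az_add k (l - j) (j - i) (Tz k i z)
  rw [← Tz_add, show l - j + (j - i) = l - i by ring, show j - i + i = j by ring] at h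
  exact h.symm

theorem Aij_self (k : ℝ) (i : ℤ) (z : Tor) : Aij k i i z = 1 := by simp [Aij, Az_zero]

theorem det_Aij (k : ℝ) (i j : ℤ) (z : Tor) : (Aij k i j z).det = 1 := det_Az _ _ _

theorem Aij_shift (k : ℝ) (i j n : ℤ) (z : Tor) :
    Aij k i j (Tz k n z) = Aij k (i + n) (j + n) z := by
  unfold Aij
  rw [← Tz_add, show j + n - (i + n) = j - i by ring]

theorem Aij_zero (k : ℝ) (j : ℤ) (z : Tor) : Aij k 0 j z = Az k j z := by
  simp [Aij, Tz_zero]

theorem Aij_eq (k : ℝ) (i j : ℤ) (z : Tor) : Aij k i j z = Az k j z * (Az k i z)⁻¹ := by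
  have h := Aij_trans k 0 i j z
  rw [Aij_zero, Aij_zero] at h
  rw [← h, Matrix.mul_assoc, Matrix.mul_nonsing_inv _ (by rw [det_Az]; exact isUnit_one),
    Matrix.mul_one]

theorem Aij_inv (k : ℝ) (i j : ℤ) (z : Tor) : (Aij k i j z)⁻¹ = Aij k j i z := by
  apply Matrix.inv_eq_right_inv
  rw [Aij_trans, Aij_self]

theorem continuous_Aij (k : ℝ) (i j : ℤ) : Continuous (Aij k i j) :=
  (continuous_Az k _).comp (continuous_Tz k _)

end Crest.Agent.R128.Two
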