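import Crest.Agent.R128.Align
import Crest.Agent.R128.Two
import Crest.Agent.R128.Acc

/-!
# Row 128: tips as two-sided Jacobi fields and the alignment inequality (helper220)

`TIP_iff`: the event `Acc.TIP k h N z` in terms of a two-sided Jacobi field `x : ℤ → ℝ`,
`x (n+1) + x (n-1) = dz k z n * x n`, `dz k z n = V k (Tz k n z).2`.
`TIP_align`: the alignment inequality `|V k z.2 - mu⁺ - mu⁻| ≤ 4 exp (-2h)`.
-/

set_option autoImplicit false
open MeasureTheory Filter Topology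
open Crest.Agent.R128 Crest.Agent.R128.Two Crest.Agent.R128.Acc

namespace Crest.Agent.R128.AlignMn

/-- the digit at time `n : ℤ` -/
noncomputable def dz (k : ℝ) (z : Tor) (n : ℤ) : ℝ := V k (Tz k n z).2

/-- the Jacobi field with `(x (-1), x 0) = v` -/
noncomputable def xf (k : ℝ) (z : Tor) (v : ℝ × ℝ) (n : ℤ) : ℝ := (act (Az k n z) v).2

theorem act_one (v : ℝ × ℝ) : act (1 : Matrix (Fin 2) (Fin 2) ℝ) v = v := by
  unfold act
  simp

theorem act_Am (k : ℝ) (z : Tor) (v : ℝ × ℝ) : act (Am k z) v = (v.2, V k z.2 * v.2 - v.1) := by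
  unfold act Am
  ext <;> simp
  ring

theorem act_Az_succ (k : ℝ) (z : Tor) (v : ℝ × ℝ) (n : ℤ) :
    act (Az k (n + 1) z) v = (xf k z v n, dz k z n * xf k z v n - (act (Az k n z) v).1) := by
  rw [Az_succ, act_mul, act_Am]
  rfl

theorem act_Az_fst (k : ℝ) (z : Tor) (v : ℝ × ℝ) (n : ℤ) :
    (act (Az k n z) v).1 = xf k z v (n - 1) := by
  have h := act_Az_succ k z v (n - 1)
  rw [sub_add_cancel] at h
  rw [h]

theorem act_Az (k : ℝ) (z : Tor) (v : ℝ × ℝ) (n : ℤ) :
    act (Az k n z) v = (xf k z v (n - 1), xf k z v n) := by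
  ext
  · exact act_Az_fst k z v n
  · rfl

theorem xf_succ (k : ℝ) (z : Tor) (v : ℝ × ℝ) (n : ℤ) :
    xf k z v (n + 1) = dz k z n * xf k z v n - xf k z v (n - 1) := by
  rw [← act_Az_fst]
  have h := act_Az_succ k z v n
  exact congrArg Prod.snd h

theorem xf_zero (k : ℝ) (z : Tor) (v : ℝ × ℝ) : xf k z v 0 = v.2 := by
  unfold xf
  rw [Az_zero, act_one]

theorem xf_neg_one (k : ℝ) (z : Tor) (v : ℝ × ℝ) : xf k z v (-1) = v.1 := by
  have h := act_Az_fst k z v 0
  rw [Az_zero, act_one] at h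
  simpa using h.symm

theorem norm_act_Az (k : ℝ) (z : Tor) (v : ℝ × ℝ) (n : ℤ) :
    ‖act (Az k n z) v‖ = max |xf k z v (n - 1)| |xf k z v n| := by
  rw [act_Az, Prod.norm_def, Real.norm_eq_abs, Real.norm_eq_abs]

/-- every two-sided solution is a Jacobi field `xf` -/
theorem eq_xf {k : ℝ} {z : Tor} {x : ℤ → ℝ}
    (h : ∀ n, x (n + 1) = dz k z n * x n - x (n - 1)) (n : ℤ) :
    x n = xf k z (x (-1), x 0) n := by
  have key : ∀ n : ℤ, x (n - 1) = xf k z (x (-1), x 0) (n - 1) ∧ x n = xf k z (x (-1), x 0) n := by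
    intro n
    induction n using Int.induction_on with
    | zero =>
      constructor
      · simp [xf_neg_one]
      · simp [xf_zero]
    | succ i ih =>
      refine ⟨by simpa using ih.2, ?_⟩
      rw [h, xf_succ, ← ih.1, ← ih.2]
    | pred i ih =>
      have h1 := h (-(i : ℤ) - 1)
      have h2 := xf_succ k z (x (-1), x 0) (-(i : ℤ) - 1)
      rw [sub_add_cancel] at h1 h2
      refine ⟨?_, ih.1⟩
      linarith [ih.1, ih.2, h1, h2, congrArg (fun y => dz k z (-(i : ℤ) - 1) * y) ih.1]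
  exact (key n).2

/-- uniqueness/shift: fields along the orbit -/
theorem dz_shift (k : ℝ) (z : Tor) (m n : ℤ) : dz k (Tz k m z) n = dz k z (n + m) := by
  unfold dz
  rw [Tz_add]

/-- moving the base point: `Mn k m (Tz k (-i) z)` applied to `Az k (-i) z v` -/
theorem act_Mn_Tz (k : ℝ) (z : Tor) (v : ℝ × ℝ) (i m : ℕ) :
    act (Mn k m (Tz k (-(i : ℤ)) z)) (act (Az k (-(i : ℤ)) z) v)
      = act (Az k ((m : ℤ) - i) z) v := by
  rw [← act_mul, ← Az_natCast, ← Az_add, sub_eq_add_neg]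

/-- the tip event in terms of a Jacobi field -/
theorem TIP_iff {k h : ℝ} {N : ℕ} {z : Tor} : TIP k h N z ↔
    ∃ x : ℤ → ℝ, (∀ n, x (n + 1) = dz k z n * x n - x (n - 1)) ∧ |x 0| = 1 ∧ |x (-1)| < 1 ∧
      |x (-2)| < 1 ∧ ∃ i j : ℕ, 0 < i ∧ i ≤ N ∧ 0 < j ∧ j ≤ N ∧
      (∀ n : ℤ, -(i : ℤ) - 1 ≤ n → n ≤ j → |x n| ≤ 1) ∧
      |x (-(i : ℤ) - 1)| ≤ Real.exp (-h) ∧ |x (-(i : ℤ))| ≤ Real.exp (-h) ∧
      |x ((j : ℤ) - 1)| ≤ Real.exp (-h) ∧ |x j| ≤ Real.exp (-h) := by
  constructor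
  · rintro ⟨i, j, hi, hiN, hj, hjN, z', w, hz, hw, h1, h2, h3, h4⟩
    have hz' : z' = Tz k (-(i : ℤ)) z := by
      rw [← hz, ← Tz_natCast, Tz_neg_cancel]
    subst hz'
    obtain ⟨v, hv⟩ : ∃ v, act (Az k (-(i : ℤ)) z) v = w := by
      refine ⟨act (Mn k i (Tz k (-(i : ℤ)) z)) w, ?_⟩
      rw [← act_mul, ← Az_natCast]
      have : Az k (-(i : ℤ)) z * Az k (i : ℤ) (Tz k (-(i : ℤ)) z) = 1 := by
        have h5 := Az_add k (-(i : ℤ)) (i : ℤ) (Tz k (-(i : ℤ)) z)
        rw [Tz_neg_cancel', neg_add_cancel, Az_zero] at h5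
        exact h5.symm
      rw [this, act_one]
    subst hv
    simp only [act_Mn_Tz, norm_act_Az] at h1 h2 h3 h4
    rw [norm_act_Az] at hw
    rw [max_le_iff] at hw h4
    rw [sub_self] at h1
    have e1 : (((i - 1 : ℕ) : ℤ) - i) = -1 := by
      push_cast [Nat.cast_sub hi]
      ring
    rw [e1, max_lt_iff] at h2
    norm_num at h2 h1
    refine ⟨xf k z v, xf_succ k z v, ?_, h2.2, h2.1, i, j, hi, hiN, hj, hjN, ?_, hw.1, hw.2, ?_, ?_⟩
    · rcases max_choice |xf k z v (-1)| |xf k z v 0| with h6 | h6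
      · rw [h6] at h1
        linarith [h2.2]
      · rw [h6] at h1
        exact h1
    · intro n hn1 hn2
      rcases eq_or_lt_of_le hn1 with h7 | h7
      · have := h3 0 (by omega)
        rw [max_le_iff] at this
        have h8 := this.1
        rw [← h7]
        rwa [show ((0 : ℕ) : ℤ) - i - 1 = -(i : ℤ) - 1 by push_cast; ring] at h8
      · obtain ⟨m, hm⟩ : ∃ m : ℕ, (m : ℤ) = n + i := ⟨(n + i).toNat, by omega⟩
        have := h3 m (by omega)
        rw [max_le_iff] at this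
        have h8 := this.2
        rwa [show (m : ℤ) - i = n by omega] at h8
    · have h8 := h4.1
      rwa [show (((i + j : ℕ) : ℤ) - i) = j by push_cast; ring] at h8
    · have h8 := h4.2
      rwa [show (((i + j : ℕ) : ℤ) - i) = j by push_cast; ring] at h8
  · rintro ⟨x, hx, h0, hm1, hm2, i, j, hi, hiN, hj, hjN, hall, ha, hb, hc, hd⟩
    have hxx : ∀ n, xf k z (x (-1), x 0) n = x n := fun n => (eq_xf hx n).symm
    refine ⟨i, j, hi, hiN, hj, hjN, Tz k (-(i : ℤ)) z, act (Az k (-(i : ℤ)) z) (x (-1), x 0),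
      ?_, ?_, ?_, ?_, ?_, ?_⟩
    · rw [← Tz_natCast, Tz_neg_cancel']
    · rw [norm_act_Az, hxx, hxx]
      exact max_le ha hb
    · rw [act_Mn_Tz, norm_act_Az, hxx, hxx, sub_self, h0]
      norm_num
      exact hm1.le
    · rw [act_Mn_Tz, norm_act_Az, hxx, hxx]
      have e1 : (((i - 1 : ℕ) : ℤ) - i) = -1 := by
        push_cast [Nat.cast_sub hi]
        ring
      rw [e1]
      norm_num
      exact ⟨hm2, hm1⟩
    · intro m hm
      rw [act_Mn_Tz, norm_act_Az, hxx, hxx]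
      exact max_le (hall _ (by omega) (by omega)) (hall _ (by omega) (by omega))
    · rw [act_Mn_Tz, norm_act_Az, hxx, hxx,
        show (((i + j : ℕ) : ℤ) - i) = j by push_cast; ring]
      exact max_le hc hd

/-- forward digits `a 1, a 2, …` (index `0` is not used by `Align.sol`) -/
noncomputable def ap (k : ℝ) (z : Tor) (n : ℕ) : ℝ := dz k z n

/-- backward digits -/
noncomputable def am (k : ℝ) (z : Tor) (n : ℕ) : ℝ := dz k z (-(n : ℤ))

theorem dz_zero (k : ℝ) (z : Tor) : dz k z 0 = V k z.2 := by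
  unfold dz
  rw [Tz_zero]

/-- right half of a Jacobi field -/
theorem right_sol {k : ℝ} {z : Tor} {x : ℤ → ℝ}
    (h : ∀ n, x (n + 1) = dz k z n * x n - x (n - 1)) (n : ℕ) :
    x n = Align.sol (ap k z) (x 0) (x 1) n :=
  Align.right_eq_sol (a := dz k z) (x := x) (N := n) (fun m _ _ => h m) n le_rfl

/-- left half of a Jacobi field -/
theorem left_sol {k : ℝ} {z : Tor} {x : ℤ → ℝ}
    (h : ∀ n, x (n + 1) = dz k z n * x n - x (n - 1)) (n : ℕ) :
    x (-(n : ℤ)) = Align.sol (am k z) (x 0) (x (-1)) n := by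
  refine Align.left_eq_sol (a := dz k z) (x := x) (N := n) (fun m _ _ => ?_) n le_rfl
  have := h m
  linarith

/-- **alignment inequality for tips**, together with the Jacobi field -/
theorem TIP_align {k h : ℝ} {N : ℕ} {z : Tor} (H : TIP k h N z) :
    ∃ i j : ℕ, i ≤ N + 1 ∧ j ≤ N ∧ Real.exp h / 2 ≤ |Align.Q (ap k z) j| ∧
      Real.exp h / 2 ≤ |Align.Q (am k z) i| ∧
      |V k z.2 - Align.mu (ap k z) j - Align.mu (am k z) i| ≤ 4 * Real.exp (-(2 * h)) := by
  obtain ⟨x, hx, h0, hm1, hm2, i, j, hi, hiN, hj, hjN, hall, ha, hb, hc, hd⟩ := TIP_iff.mp H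
  have hx0 : x 0 ≠ 0 := by
    intro h'
    rw [h', abs_zero] at h0
    exact zero_ne_one h0
  have hrec : x 1 + x (-1) = V k z.2 * x 0 := by
    have := hx 0
    rw [dz_zero] at this
    norm_num at this
    linarith
  have r1 := right_sol hx (j - 1)
  have r2 := right_sol hx (j - 1 + 1)
  have l1 := left_sol hx i
  have l2 := left_sol hx (i + 1)
  have ej : ((j - 1 : ℕ) : ℤ) = (j : ℤ) - 1 := by
    push_cast [Nat.cast_sub hj]
    ring
  have hj1 : j - 1 + 1 = j := by omega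
  obtain ⟨m, m', hm, hm', hQ, hQ', hA⟩ := Align.alignment (ap := ap k z) (am := am k z)
    (a0 := V k z.2) (u := x 0) (v := x 1) (w := x (-1)) hrec (i := i) (j := j - 1)
    (e := Real.exp (-h)) (Real.exp_pos _) hx0
    (by rw [← r1, Real.norm_eq_abs, ej]; exact hc)
    (by rw [← r2, Real.norm_eq_abs, hj1]; exact hd)
    (by rw [← l1, Real.norm_eq_abs]; exact hb)
    (by
      rw [← l2, Real.norm_eq_abs]
      convert ha using 3
      push_cast
      ring)
  simp only [Real.norm_eq_abs, h0] at hQ hQ' hA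
  have e1 : 1 / (2 * Real.exp (-h)) = Real.exp h / 2 := by
    rw [Real.exp_neg]
    field_simp
  have e2 : 4 * Real.exp (-h) ^ 2 / 1 ^ 2 = 4 * Real.exp (-(2 * h)) := by
    rw [← Real.exp_nat_mul]
    norm_num
  rw [e1] at hQ hQ'
  rw [e2] at hA
  exact ⟨m', m, by omega, by omega, hQ, hQ', hA⟩

/-- the matrix `Mn k n` at `T z` in terms of `P` and `Q`: the columns are the solutions with
`(s 0, s 1) = (1, 0)`, `(0, 1)` -/
theorem Mn_col (k : ℝ) (z : Tor) (n : ℕ) (u v : ℝ) :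
    act (Mn k n (T k z)) (u, v)
      = (Align.sol (ap k z) u v n, Align.sol (ap k z) u v (n + 1)) := by
  induction n with
  | zero => simp [Mn_zero, act_one, Align.sol]
  | succ n ih =>
    rw [Mn_succ', act_mul, ih, act_Am]
    have : (T k)^[n] (T k z) = Tz k ((n + 1 : ℕ) : ℤ) z := by
      rw [Tz_natCast, Function.iterate_succ_apply]
    rw [this]
    rfl

theorem Mn_eq (k : ℝ) (z : Tor) (n : ℕ) :
    Mn k n (T k z) = !![Align.P (ap k z) n, Align.Q (ap k z) n;
      Align.P (ap k z) (n + 1), Align.Q (ap k z) (n + 1)] := by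
  have h1 := Mn_col k z n 1 0
  have h2 := Mn_col k z n 0 1
  unfold act at h1 h2
  simp only [mul_one, mul_zero, add_zero, zero_add, Prod.mk.injEq] at h1 h2
  ext a b
  fin_cases a <;> fin_cases b
  · exact h1.1
  · exact h2.1
  · exact h1.2
  · exact h2.2

end Crest.Agent.R128.AlignMn
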