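import Mathlib

set_option autoImplicit false

open scoped BigOperators

namespace Crest.Agent.R128.BVP

/-- **Weighted Newton–Kantorovich.** -/
theorem exists_fixed {ι : Type*} [Fintype ι]
    (G : ι → ι → ℝ) (b : ι → ℝ) (R : ι → ℝ → ℝ) (w : ι → ℝ) (M : ℝ)
    (hw : ∀ i, 0 < w i) (_hM : 0 ≤ M)
    (hb : ∀ i, |b i| ≤ w i / 2)
    (hR0 : ∀ i, R i 0 = 0)
    (hR : ∀ i u v, |u| ≤ w i → |v| ≤ w i → |R i u - R i v| ≤ M * w i * |u - v|)
    (hG : ∀ i, ∑ j, |G i j| * M * w j ^ 2 ≤ w i / 4) :
    ∃ u : ι → ℝ, (∀ i, |u i| ≤ 3 / 4 * w i) ∧ (∀ i, u i = b i - ∑ j, G i j * R j (u j)) := by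
  classical
  -- the rescaled map
  let Φ : (ι → ℝ) → (ι → ℝ) := fun s i => (b i - ∑ j, G i j * R j (w j * s j)) / w i
  let B : Set (ι → ℝ) := {s | ∀ i, |s i| ≤ 1}
  have hBc : IsClosed B := by
    have : B = ⋂ i, {s : ι → ℝ | |s i| ≤ 1} := by
      ext s; simp [B]
    rw [this]
    exact isClosed_iInter fun i => isClosed_le ((continuous_apply i).abs) continuous_const
  have key : ∀ s t : ι → ℝ, s ∈ B → t ∈ B → ∀ i, |Φ s i - Φ t i| ≤ 1 / 4 * dist s t := by
    intro s t hs ht i
    have h1 : Φ s i - Φ t i = (∑ j, G i j * (R j (w j * t j) - R j (w j * s j))) / w i := by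
      simp only [Φ]
      rw [← sub_div]
      congr 1
      simp only [mul_sub, Finset.sum_sub_distrib]
      ring
    rw [h1, abs_div, abs_of_pos (hw i), div_le_iff₀ (hw i)]
    calc |∑ j, G i j * (R j (w j * t j) - R j (w j * s j))|
        ≤ ∑ j, |G i j * (R j (w j * t j) - R j (w j * s j))| := Finset.abs_sum_le_sum_abs _ _
      _ ≤ ∑ j, (|G i j| * M * w j ^ 2) * dist s t := by
          apply Finset.sum_le_sum
          intro j _
          rw [abs_mul]
          have hsj : |w j * s j| ≤ w j := by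
            rw [abs_mul, abs_of_pos (hw j)]
            exact mul_le_of_le_one_right (hw j).le (hs j)
          have htj : |w j * t j| ≤ w j := by
            rw [abs_mul, abs_of_pos (hw j)]
            exact mul_le_of_le_one_right (hw j).le (ht j)
          have h2 := hR j (w j * t j) (w j * s j) htj hsj
          have h3 : |w j * t j - w j * s j| ≤ w j * dist s t := by
            rw [← mul_sub, abs_mul, abs_of_pos (hw j), abs_sub_comm]
            apply mul_le_mul_of_nonneg_left _ (hw j).le
            rw [← Real.dist_eq]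
            exact dist_le_pi_dist s t j
          calc |G i j| * |R j (w j * t j) - R j (w j * s j)|
              ≤ |G i j| * (M * w j * |w j * t j - w j * s j|) :=
                mul_le_mul_of_nonneg_left h2 (abs_nonneg _)
            _ ≤ |G i j| * (M * w j * (w j * dist s t)) := by
                apply mul_le_mul_of_nonneg_left _ (abs_nonneg _)
                exact mul_le_mul_of_nonneg_left h3 (mul_nonneg _hM (hw j).le)
            _ = (|G i j| * M * w j ^ 2) * dist s t := by ring
      _ = (∑ j, |G i j| * M * w j ^ 2) * dist s t := by rw [Finset.sum_mul]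
      _ ≤ (w i / 4) * dist s t := mul_le_mul_of_nonneg_right (hG i) dist_nonneg
      _ = 1 / 4 * dist s t * w i := by ring
  have h0 : (fun _ => 0 : ι → ℝ) ∈ B := by
    intro i; simp
  have hΦ0 : ∀ i, |Φ (fun _ => 0) i| ≤ 1 / 2 := by
    intro i
    simp only [Φ, mul_zero, hR0, Finset.sum_const_zero, sub_zero]
    rw [abs_div, abs_of_pos (hw i), div_le_iff₀ (hw i)]
    linarith [hb i]
  have hmaps : ∀ s ∈ B, ∀ i, |Φ s i| ≤ 3 / 4 := by
    intro s hs i
    have h1 := key s (fun _ => 0) hs h0 i
    have h2 : dist s (fun _ => 0) ≤ 1 := by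
      rw [dist_pi_le_iff zero_le_one]
      intro j
      rw [Real.dist_eq, sub_zero]
      exact hs j
    have h3 := hΦ0 i
    have h4 := abs_sub_abs_le_abs_sub (Φ s i) (Φ (fun _ => 0) i)
    linarith
  have hmapsTo : Set.MapsTo Φ B B := fun s hs i => (hmaps s hs i).trans (by norm_num)
  have hcontr : ContractingWith (1/4) (hmapsTo.restrict Φ B B) := by
    refine ⟨by norm_num, LipschitzWith.of_dist_le_mul ?_⟩
    rintro ⟨s, hs⟩ ⟨t, ht⟩
    rw [Subtype.dist_eq, Subtype.dist_eq]
    simp only [Set.MapsTo.val_restrict_apply]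
    rw [dist_pi_le_iff (by positivity)]
    intro i
    rw [Real.dist_eq]
    have := key s t hs ht i
    simpa using this
  obtain ⟨s, hs, hfix, -⟩ := ContractingWith.exists_fixedPoint' (f := Φ) hBc.isComplete hmapsTo hcontr
    h0 (edist_ne_top _ _)
  refine ⟨fun i => w i * s i, fun i => ?_, fun i => ?_⟩
  · rw [abs_mul, abs_of_pos (hw i)]
    have h1 : s i = Φ s i := (congrFun hfix i).symm
    rw [h1]
    nlinarith [hmaps s hs i, hw i, abs_nonneg (Φ s i)]
  · have h1 : s i = Φ s i := (congrFun hfix i).symm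
    have h2 : w i * s i = w i * Φ s i := by rw [← h1]
    show w i * s i = b i - ∑ j, G i j * R j (w j * s j)
    rw [h2]
    simp only [Φ]
    field_simp [(hw i).ne']

end Crest.Agent.R128.BVP
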