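import Mathlib
import Crest.Agent.R128.BVP1

set_option autoImplicit false

open scoped BigOperators
open Finset

namespace Crest.Agent.R128.BVP

/-- Jacobi data on the positions `1..n` (boundary positions `0`, `n+1`): `p` is the left solution, `q` the right
solution of `a_m u_m = u_{m+1} + u_{m-1}`. -/
structure Jac (n : ℕ) (a p q : ℕ → ℝ) : Prop where
  p0 : p 0 = 0
  p1 : p 1 = 1
  hp : ∀ m < n, p (m + 2) = a (m + 1) * p (m + 1) - p m
  qn1 : q (n + 1) = 0
  qn : q n = 1
  hq : ∀ m < n, q m = a (m + 1) * q (m + 1) - q (m + 2)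
  W0 : p (n + 1) ≠ 0

/-- Green kernel -/
noncomputable def K (n : ℕ) (p q : ℕ → ℝ) (m j : ℕ) : ℝ :=
  if j ≤ m then q m * p j / p (n + 1) else p m * q j / p (n + 1)

variable {n : ℕ} {a p q : ℕ → ℝ}

theorem wronski (J : Jac n a p q) : ∀ m ≤ n, p (m + 1) * q m - p m * q (m + 1) = p (n + 1) := by
  intro m hm
  induction hk : n - m generalizing m with
  | zero =>
    have : m = n := by omega
    subst this
    rw [J.qn1, J.qn]; ring
  | succ k ih =>
    have h1 := ih (m + 1) (by omega) (by omega)
    have h2 := J.hp m (by omega)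
    have h3 := J.hq m (by omega)
    rw [h3, ← h1, h2]; ring

theorem q_zero (J : Jac n a p q) : q 0 = p (n + 1) := by
  have := wronski J 0 (Nat.zero_le _)
  rw [J.p0, J.p1] at this
  linarith

theorem K_eq (J : Jac n a p q) (m j : ℕ) (hm : m < n) (_hj : 1 ≤ j) (_hjn : j ≤ n) :
    a (m + 1) * K n p q (m + 1) j - K n p q (m + 2) j - K n p q m j = if j = m + 1 then 1 else 0 := by
  have hW := J.W0
  have h2 := J.hp m hm
  have h3 := J.hq m hm
  have h4 := wronski J m hm.le
  unfold K
  rcases lt_trichotomy j (m + 1) with h | h | h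
  · rw [if_pos (by omega), if_pos (by omega), if_pos (by omega), if_neg (by omega)]
    have e : a (m + 1) * (q (m + 1) * p j / p (n + 1)) - q (m + 2) * p j / p (n + 1) - q m * p j / p (n + 1)
      = (a (m + 1) * q (m + 1) - q (m + 2) - q m) * p j / p (n + 1) := by ring
    rw [e, h3]
    ring
  · subst h
    rw [if_pos le_rfl, if_pos (by omega), if_neg (by omega), if_pos rfl]
    rw [show a (m + 1) * (q (m + 1) * p (m + 1) / p (n + 1)) - q (m + 2) * p (m + 1) / p (n + 1) -
      p m * q (m + 1) / p (n + 1) = ((a (m + 1) * q (m + 1) - q (m + 2)) * p (m + 1) - p m * q (m + 1)) / p (n + 1)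
      by ring, ← h3, mul_comm (q m), h4, div_self hW]
  · rw [if_neg (by omega), if_neg (by omega : ¬ j = m + 1)]
    by_cases h5 : j = m + 2
    · subst h5
      rw [if_pos le_rfl, if_neg (by omega)]
      rw [show a (m + 1) * (p (m + 1) * q (m + 2) / p (n + 1)) - q (m + 2) * p (m + 2) / p (n + 1) -
        p m * q (m + 2) / p (n + 1) = (a (m + 1) * p (m + 1) - p m - p (m + 2)) * q (m + 2) / p (n + 1) by ring,
        h2]
      ring
    · rw [if_neg (by omega), if_neg (by omega)]
      rw [show a (m + 1) * (p (m + 1) * q j / p (n + 1)) - p (m + 2) * q j / p (n + 1) -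
        p m * q j / p (n + 1) = (a (m + 1) * p (m + 1) - p m - p (m + 2)) * q j / p (n + 1) by ring,
        h2]
      ring

/-- the solution with right hand side `r` and boundary values `dl`, `dr` -/
noncomputable def sol (n : ℕ) (p q : ℕ → ℝ) (dl dr : ℝ) (r : ℕ → ℝ) (m : ℕ) : ℝ :=
  (q m * dl + p m * dr) / p (n + 1) + ∑ j ∈ Icc 1 n, K n p q m j * r j

theorem sol_zero (J : Jac n a p q) (dl dr : ℝ) (r : ℕ → ℝ) : sol n p q dl dr r 0 = dl := by
  unfold sol
  rw [q_zero J, J.p0]
  have h : ∑ j ∈ Icc 1 n, K n p q 0 j * r j = 0 := by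
    apply Finset.sum_eq_zero
    intro j hj
    rw [Finset.mem_Icc] at hj
    unfold K
    rw [if_neg (by omega), J.p0]
    ring
  rw [h]
  have := J.W0
  field_simp
  ring

theorem sol_last (J : Jac n a p q) (dl dr : ℝ) (r : ℕ → ℝ) : sol n p q dl dr r (n + 1) = dr := by
  unfold sol
  rw [J.qn1]
  have h : ∑ j ∈ Icc 1 n, K n p q (n + 1) j * r j = 0 := by
    apply Finset.sum_eq_zero
    intro j hj
    rw [Finset.mem_Icc] at hj
    unfold K
    rw [if_pos (by omega), J.qn1]
    ring
  rw [h]
  have := J.W0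
  field_simp
  ring

theorem sol_eq (J : Jac n a p q) (dl dr : ℝ) (r : ℕ → ℝ) (m : ℕ) (hm : m < n) :
    a (m + 1) * sol n p q dl dr r (m + 1) - sol n p q dl dr r (m + 2) - sol n p q dl dr r m = r (m + 1) := by
  unfold sol
  have h2 := J.hp m hm
  have h3 := J.hq m hm
  have e1 : a (m + 1) * ((q (m + 1) * dl + p (m + 1) * dr) / p (n + 1)) -
      (q (m + 2) * dl + p (m + 2) * dr) / p (n + 1) - (q m * dl + p m * dr) / p (n + 1) = 0 := by
    rw [h2, h3]; ring
  have e2 : a (m + 1) * (∑ j ∈ Icc 1 n, K n p q (m + 1) j * r j) -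
      (∑ j ∈ Icc 1 n, K n p q (m + 2) j * r j) - (∑ j ∈ Icc 1 n, K n p q m j * r j) = r (m + 1) := by
    rw [Finset.mul_sum, ← Finset.sum_sub_distrib, ← Finset.sum_sub_distrib]
    have : ∀ j ∈ Icc 1 n, a (m + 1) * (K n p q (m + 1) j * r j) - K n p q (m + 2) j * r j - K n p q m j * r j
        = if j = m + 1 then r j else 0 := by
      intro j hj
      rw [Finset.mem_Icc] at hj
      have := K_eq J m j hm hj.1 hj.2
      rw [show a (m + 1) * (K n p q (m + 1) j * r j) - K n p q (m + 2) j * r j - K n p q m j * r j =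
        (a (m + 1) * K n p q (m + 1) j - K n p q (m + 2) j - K n p q m j) * r j by ring, this]
      split_ifs <;> simp
    rw [Finset.sum_congr rfl this, Finset.sum_ite_eq' (Icc 1 n) (m + 1) (fun j => r j),
      if_pos (by rw [Finset.mem_Icc]; omega)]
  linarith

/-- uniqueness for the homogeneous problem -/
theorem homog (J : Jac n a p q) (h : ℕ → ℝ) (h0 : h 0 = 0) (hn : h (n + 1) = 0)
    (he : ∀ m < n, a (m + 1) * h (m + 1) - h (m + 2) - h m = 0) : ∀ m ≤ n + 1, h m = 0 := by
  have h1 : ∀ m ≤ n, h m = h 1 * p m ∧ h (m + 1) = h 1 * p (m + 1) := by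
    intro m
    induction m with
    | zero =>
      intro _
      rw [J.p0, J.p1, h0]; simp
    | succ m ih =>
      intro hm
      obtain ⟨i1, i2⟩ := ih (by omega)
      refine ⟨i2, ?_⟩
      have e1 := he m (by omega)
      have e2 := J.hp m (by omega)
      rw [e2]
      have e3 : h (m + 1 + 1) = a (m + 1) * h (m + 1) - h m := by
        have : h (m + 1 + 1) = h (m + 2) := rfl
        linarith
      rw [e3, i1, i2]; ring
  have h2 : h 1 = 0 := by
    have := (h1 n le_rfl).2
    rw [hn] at this
    rcases mul_eq_zero.mp this.symm with h | h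
    · exact h
    · exact absurd h J.W0
  intro m hm
  rcases Nat.lt_or_ge n m with h3 | h3
  · have : m = n + 1 := by omega
    rw [this, hn]
  · rw [(h1 m h3).1, h2, zero_mul]

/-- representation of an arbitrary solution of the inhomogeneous problem -/
theorem repr (J : Jac n a p q) (e r : ℕ → ℝ)
    (he : ∀ m < n, a (m + 1) * e (m + 1) - e (m + 2) - e m = r (m + 1)) :
    ∀ m ≤ n + 1, e m = sol n p q (e 0) (e (n + 1)) r m := by
  intro m hm
  have := homog J (fun m => e m - sol n p q (e 0) (e (n + 1)) r m)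
    (by simp only [sol_zero J, sub_self]) (by simp only [sol_last J, sub_self])
    (by
      intro m hm
      have h1 := he m hm
      have h2 := sol_eq J (e 0) (e (n + 1)) r m hm
      linarith) m hm
  simpa [sub_eq_zero] using this

end Crest.Agent.R128.BVP
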