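import Mathlib
import Crest.Agent.R128.BVP2

set_option autoImplicit false

open scoped BigOperators
open Finset

namespace Crest.Agent.R128.BVP

variable {n : ℕ} {a p q : ℕ → ℝ}

theorem sum_Icc_one (F : ℕ → ℝ) (n : ℕ) : ∑ j ∈ Icc 1 n, F j = ∑ i : Fin n, F (i + 1) := by
  rw [Fin.sum_univ_eq_sum_range (fun i => F (i + 1)) n]
  induction n with
  | zero => simp
  | succ n ih => rw [Finset.sum_Icc_succ_top (by omega), ih, Finset.sum_range_succ]

/-- Perturbed linear problem: bounds by the responses of the unperturbed one. -/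
theorem diff_bound (J : Jac n a p q) (w rho lam : ℕ → ℝ) (M ε : ℝ) (hε : ε ≤ 1 / 4)
    (hrho : ∀ m ∈ Icc 1 n, 0 < rho m)
    (hprho : ∀ m ∈ Icc 1 n, |p m / p (n + 1)| ≤ rho m)
    (hqlam : ∀ m ∈ Icc 1 n, |q m / p (n + 1)| ≤ lam m)
    (hsr : ∀ m ∈ Icc 1 n, ∑ j ∈ Icc 1 n, |K n p q m j| * (M * w j) * rho j ≤ ε * rho m)
    (hsl : ∀ m ∈ Icc 1 n, ∑ j ∈ Icc 1 n, |K n p q m j| * (M * w j) * lam j ≤ ε * lam m)
    (d e : ℕ → ℝ) (hd : ∀ m ∈ Icc 1 n, |d m| ≤ M * w m)
    (he : ∀ m < n, (a (m + 1) + d (m + 1)) * e (m + 1) = e (m + 2) + e m) :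
    ∀ m ∈ Icc 1 n, |e m| ≤ 2 * (rho m * |e (n + 1)| + lam m * |e 0|) ∧
      |e m - (q m * e 0 + p m * e (n + 1)) / p (n + 1)| ≤
        2 * ε * (rho m * |e (n + 1)| + lam m * |e 0|) := by
  set s : ℕ → ℝ := fun m => rho m * |e (n + 1)| + lam m * |e 0| with hs
  have hlam : ∀ m ∈ Icc 1 n, 0 ≤ lam m := fun m hm => (abs_nonneg _).trans (hqlam m hm)
  have hs0 : ∀ m ∈ Icc 1 n, 0 ≤ s m := fun m hm =>
    add_nonneg (mul_nonneg (hrho m hm).le (abs_nonneg _)) (mul_nonneg (hlam m hm) (abs_nonneg _))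
  have hMw : ∀ m ∈ Icc 1 n, 0 ≤ M * w m := fun m hm => (abs_nonneg _).trans (hd m hm)
  -- representation
  have hrep := repr J e (fun m => -(d m * e m)) (by
    intro m hm
    have := he m hm
    show a (m + 1) * e (m + 1) - e (m + 2) - e m = -(d (m + 1) * e (m + 1))
    linarith)
  have hlin : ∀ m ∈ Icc 1 n, |(q m * e 0 + p m * e (n + 1)) / p (n + 1)| ≤ s m := by
    intro m hm
    have e1 : (q m * e 0 + p m * e (n + 1)) / p (n + 1) =
      (q m / p (n + 1)) * e 0 + (p m / p (n + 1)) * e (n + 1) := by ring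
    rw [e1]
    refine (abs_add_le _ _).trans ?_
    rw [abs_mul, abs_mul]
    have := mul_le_mul_of_nonneg_right (hqlam m hm) (abs_nonneg (e 0))
    have := mul_le_mul_of_nonneg_right (hprho m hm) (abs_nonneg (e (n + 1)))
    simp only [hs]
    linarith
  have hdiff : ∀ m ∈ Icc 1 n, |e m - (q m * e 0 + p m * e (n + 1)) / p (n + 1)| ≤
      ∑ j ∈ Icc 1 n, |K n p q m j| * (M * w j) * |e j| := by
    intro m hm
    rw [Finset.mem_Icc] at hm
    have h1 := hrep m (by omega)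
    have h2 : e m - (q m * e 0 + p m * e (n + 1)) / p (n + 1) =
        ∑ j ∈ Icc 1 n, K n p q m j * (-(d j * e j)) := by
      conv_lhs => rw [h1]
      unfold sol
      ring
    rw [h2]
    refine (Finset.abs_sum_le_sum_abs _ _).trans (Finset.sum_le_sum fun j hj => ?_)
    rw [abs_mul, abs_neg, abs_mul, ← mul_assoc]
    apply mul_le_mul_of_nonneg_right _ (abs_nonneg _)
    exact mul_le_mul_of_nonneg_left (hd j hj) (abs_nonneg _)
  have hss : ∀ m ∈ Icc 1 n, ∑ j ∈ Icc 1 n, |K n p q m j| * (M * w j) * s j ≤ ε * s m := by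
    intro m hm
    have e1 : ∑ j ∈ Icc 1 n, |K n p q m j| * (M * w j) * s j =
        (∑ j ∈ Icc 1 n, |K n p q m j| * (M * w j) * rho j) * |e (n + 1)| +
        (∑ j ∈ Icc 1 n, |K n p q m j| * (M * w j) * lam j) * |e 0| := by
      rw [Finset.sum_mul, Finset.sum_mul, ← Finset.sum_add_distrib]
      refine Finset.sum_congr rfl fun j _ => ?_
      simp only [hs]
      ring
    rw [e1]
    have h1 := mul_le_mul_of_nonneg_right (hsr m hm) (abs_nonneg (e (n + 1)))
    have h2 := mul_le_mul_of_nonneg_right (hsl m hm) (abs_nonneg (e 0))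
    simp only [hs]
    linarith
  -- first bound
  have hfirst : ∀ m ∈ Icc 1 n, |e m| ≤ 2 * s m := by
    by_contra hcon
    push Not at hcon
    obtain ⟨m0, hm0, hlt⟩ := hcon
    obtain ⟨m1, hm1, hmax⟩ := Finset.exists_max_image (Icc 1 n) (fun m => (|e m| - 2 * s m) / rho m) ⟨m0, hm0⟩
    set Λ := (|e m1| - 2 * s m1) / rho m1 with hΛ
    have hΛpos : 0 < Λ := by
      have h1 := hmax m0 hm0
      have h2 : 0 < (|e m0| - 2 * s m0) / rho m0 := div_pos (by linarith) (hrho m0 hm0)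
      exact lt_of_lt_of_le h2 h1
    have hej : ∀ j ∈ Icc 1 n, |e j| ≤ 2 * s j + Λ * rho j := by
      intro j hj
      have h1 := hmax j hj
      rw [div_le_iff₀ (hrho j hj)] at h1
      linarith
    have h3 : |e m1| ≤ s m1 + (2 * (ε * s m1) + Λ * (ε * rho m1)) := by
      have h4 := hdiff m1 hm1
      have h5 : ∑ j ∈ Icc 1 n, |K n p q m1 j| * (M * w j) * |e j| ≤
          2 * (∑ j ∈ Icc 1 n, |K n p q m1 j| * (M * w j) * s j) +
          Λ * (∑ j ∈ Icc 1 n, |K n p q m1 j| * (M * w j) * rho j) := by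
        rw [Finset.mul_sum, Finset.mul_sum, ← Finset.sum_add_distrib]
        refine Finset.sum_le_sum fun j hj => ?_
        have h6 := mul_le_mul_of_nonneg_left (hej j hj) (mul_nonneg (abs_nonneg (K n p q m1 j)) (hMw j hj))
        linarith
      have h7 := hss m1 hm1
      have h8 := hsr m1 hm1
      have h9 := hlin m1 hm1
      have h10 : |e m1| ≤ |e m1 - (q m1 * e 0 + p m1 * e (n + 1)) / p (n + 1)| +
          |(q m1 * e 0 + p m1 * e (n + 1)) / p (n + 1)| := by
        have := abs_add_le (e m1 - (q m1 * e 0 + p m1 * e (n + 1)) / p (n + 1))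
          ((q m1 * e 0 + p m1 * e (n + 1)) / p (n + 1))
        rwa [sub_add_cancel] at this
      have h11 := mul_le_mul_of_nonneg_left h8 hΛpos.le
      linarith
    have h12 : Λ * rho m1 = |e m1| - 2 * s m1 := by
      rw [hΛ, div_mul_cancel₀ _ (hrho m1 hm1).ne']
    have h13 := hs0 m1 hm1
    have h14 := hrho m1 hm1
    have h15 : Λ * rho m1 ≤ ε * (Λ * rho m1) := by nlinarith
    have h16 : 0 < Λ * rho m1 := mul_pos hΛpos h14
    nlinarith
  intro m hm
  refine ⟨hfirst m hm, ?_⟩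
  refine (hdiff m hm).trans ?_
  calc ∑ j ∈ Icc 1 n, |K n p q m j| * (M * w j) * |e j|
      ≤ ∑ j ∈ Icc 1 n, 2 * (|K n p q m j| * (M * w j) * s j) := by
        refine Finset.sum_le_sum fun j hj => ?_
        have h6 := mul_le_mul_of_nonneg_left (hfirst j hj) (mul_nonneg (abs_nonneg (K n p q m j)) (hMw j hj))
        linarith
    _ = 2 * ∑ j ∈ Icc 1 n, |K n p q m j| * (M * w j) * s j := by rw [Finset.mul_sum]
    _ ≤ 2 * (ε * s m) := by linarith [hss m hm]
    _ = 2 * ε * s m := by ring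

/-- an orbit segment on the positions `0..n+1` -/
def Orb (n : ℕ) (f : ℝ → ℝ) (x : ℕ → ℝ) : Prop := ∀ m < n, x (m + 2) + x m = f (x (m + 1))

/-- control of the nonlinearity -/
def NL (f V : ℝ → ℝ) (M : ℝ) : Prop :=
  ∀ x u v, |f (x + u) - f (x + v) - V x * (u - v)| ≤ M * max |u| |v| * |u - v|

/-- **Existence** of an orbit with new boundary values in the box. -/
theorem orb_exists {f V : ℝ → ℝ} {M : ℝ} (hM : 0 ≤ M) (hNL : NL f V M) (x : ℕ → ℝ) (hx : Orb n f x)
    (J : Jac n (fun m => V (x m)) p q) (w : ℕ → ℝ) (hw : ∀ m ∈ Icc 1 n, 0 < w m)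
    (hG : ∀ m ∈ Icc 1 n, ∑ j ∈ Icc 1 n, |K n p q m j| * M * w j ^ 2 ≤ w m / 4)
    (dl dr : ℝ) (hb : ∀ m ∈ Icc 1 n, |(q m * dl + p m * dr) / p (n + 1)| ≤ w m / 2) :
    ∃ y : ℕ → ℝ, Orb n f y ∧ y 0 = x 0 + dl ∧ y (n + 1) = x (n + 1) + dr ∧
      ∀ m ∈ Icc 1 n, |y m - x m| ≤ 3 / 4 * w m := by
  have hmem : ∀ i : Fin n, (i : ℕ) + 1 ∈ Icc 1 n := fun i => by
    rw [Finset.mem_Icc]; omega
  obtain ⟨u, hu1, hu2⟩ := exists_fixed (ι := Fin n) (fun i j => K n p q (i + 1) (j + 1))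
    (fun i => (q (i + 1) * dl + p (i + 1) * dr) / p (n + 1))
    (fun i t => f (x (i + 1) + t) - f (x (i + 1)) - V (x (i + 1)) * t)
    (fun i => w (i + 1)) M (fun i => hw _ (hmem i)) hM (fun i => hb _ (hmem i))
    (fun i => by simp)
    (by
      intro i u v hu hv
      have h1 := hNL (x (i + 1)) u v
      rw [show f (x (i + 1) + u) - f (x (i + 1)) - V (x (i + 1)) * u -
        (f (x (i + 1) + v) - f (x (i + 1)) - V (x (i + 1)) * v) =
        f (x (i + 1) + u) - f (x (i + 1) + v) - V (x (i + 1)) * (u - v) by ring]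
      refine h1.trans ?_
      apply mul_le_mul_of_nonneg_right _ (abs_nonneg _)
      exact mul_le_mul_of_nonneg_left (max_le hu hv) hM)
    (fun i => by
      have := hG _ (hmem i)
      rw [sum_Icc_one] at this
      exact this)
  set r : ℕ → ℝ := fun m => if h : m - 1 < n then
    -(f (x m + u ⟨m - 1, h⟩) - f (x m) - V (x m) * u ⟨m - 1, h⟩) else 0 with hr
  set U := sol n p q dl dr r with hU
  have hUu : ∀ i : Fin n, U (i + 1) = u i := by
    intro i
    rw [hU]
    unfold sol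
    rw [sum_Icc_one]
    have h2 := hu2 i
    rw [h2, sub_eq_add_neg, ← Finset.sum_neg_distrib]
    congr 1
    refine Finset.sum_congr rfl fun j _ => ?_
    have : r ((j : ℕ) + 1) = -(f (x (j + 1) + u j) - f (x (j + 1)) - V (x (j + 1)) * u j) := by
      rw [hr]
      simp only [Nat.add_sub_cancel, Fin.is_lt, dif_pos, Fin.eta]
    rw [this]
    ring
  refine ⟨fun m => x m + U m, ?_, ?_, ?_, ?_⟩
  · intro m hm
    have h1 := sol_eq J dl dr r m hm
    have h2 := hx m hm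
    have h3 := hUu ⟨m, hm⟩
    simp only at h3
    have h4 : r (m + 1) = -(f (x (m + 1) + U (m + 1)) - f (x (m + 1)) - V (x (m + 1)) * U (m + 1)) := by
      rw [h3, hr]
      simp only [Nat.add_sub_cancel, hm, dif_pos]
    rw [← hU] at h1
    show x (m + 2) + U (m + 2) + (x m + U m) = f (x (m + 1) + U (m + 1))
    rw [h4] at h1
    linarith
  · show x 0 + U 0 = _
    rw [hU, sol_zero J]
  · show x (n + 1) + U (n + 1) = _
    rw [hU, sol_last J]
  · intro m hm
    rw [Finset.mem_Icc] at hm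
    show |x m + U m - x m| ≤ _
    rw [add_sub_cancel_left]
    have h1 := hUu ⟨m - 1, by omega⟩
    simp only at h1
    rw [Nat.sub_add_cancel hm.1] at h1
    rw [h1]
    have h2 := hu1 ⟨m - 1, by omega⟩
    simp only at h2
    rw [Nat.sub_add_cancel hm.1] at h2
    exact h2

/-- difference of two orbits in the box of a reference orbit -/
theorem orb_diff {f V : ℝ → ℝ} {M : ℝ} (hM : 0 ≤ M) (hNL : NL f V M) (x : ℕ → ℝ)
    (J : Jac n (fun m => V (x m)) p q) (w rho lam : ℕ → ℝ) (ε : ℝ) (hε : ε ≤ 1 / 4)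
    (hrho : ∀ m ∈ Icc 1 n, 0 < rho m)
    (hprho : ∀ m ∈ Icc 1 n, |p m / p (n + 1)| ≤ rho m)
    (hqlam : ∀ m ∈ Icc 1 n, |q m / p (n + 1)| ≤ lam m)
    (hsr : ∀ m ∈ Icc 1 n, ∑ j ∈ Icc 1 n, |K n p q m j| * (M * w j) * rho j ≤ ε * rho m)
    (hsl : ∀ m ∈ Icc 1 n, ∑ j ∈ Icc 1 n, |K n p q m j| * (M * w j) * lam j ≤ ε * lam m)
    (y z : ℕ → ℝ) (hy : Orb n f y) (hz : Orb n f z)
    (hyx : ∀ m ∈ Icc 1 n, |y m - x m| ≤ w m) (hzx : ∀ m ∈ Icc 1 n, |z m - x m| ≤ w m) :
    ∀ m ∈ Icc 1 n, |z m - y m| ≤ 2 * (rho m * |z (n + 1) - y (n + 1)| + lam m * |z 0 - y 0|) ∧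
      |(z m - y m) - (q m * (z 0 - y 0) + p m * (z (n + 1) - y (n + 1))) / p (n + 1)| ≤
        2 * ε * (rho m * |z (n + 1) - y (n + 1)| + lam m * |z 0 - y 0|) := by
  classical
  set e : ℕ → ℝ := fun m => z m - y m with he
  set d : ℕ → ℝ := fun m => if e m = 0 then 0 else (f (z m) - f (y m)) / e m - V (x m) with hd
  have hd1 : ∀ m, d m * e m = f (z m) - f (y m) - V (x m) * e m := by
    intro m
    simp only [hd]
    split_ifs with h
    · have : z m = y m := by
        have := h; simp only [he] at this; linarith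
      rw [this]
      simp [he, this]
    · field_simp
  have hmw : ∀ m ∈ Icc 1 n, 0 ≤ w m := fun m hm => (abs_nonneg _).trans (hyx m hm)
  refine diff_bound J w rho lam M ε hε hrho hprho hqlam hsr hsl d e ?_ ?_
  · intro m hm
    simp only [hd]
    split_ifs with h
    · rw [abs_zero]; exact mul_nonneg hM (hmw m hm)
    · have h1 := hNL (x m) (z m - x m) (y m - x m)
      rw [add_sub_cancel, add_sub_cancel, show z m - x m - (y m - x m) = e m by simp [he]] at h1
      have h2 : (f (z m) - f (y m)) / e m - V (x m) = (f (z m) - f (y m) - V (x m) * e m) / e m := by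
        field_simp
      rw [h2, abs_div, div_le_iff₀ (abs_pos.mpr h)]
      refine h1.trans ?_
      apply mul_le_mul_of_nonneg_right _ (abs_nonneg _)
      exact mul_le_mul_of_nonneg_left (max_le (hzx m hm) (hyx m hm)) hM
  · intro m hm
    have h1 := hd1 (m + 1)
    have h2 := hy m hm
    have h3 := hz m hm
    show (V (x (m + 1)) + d (m + 1)) * e (m + 1) = e (m + 2) + e m
    rw [add_mul, h1]
    simp only [he]
    linarith

end Crest.Agent.R128.BVP
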