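import Mathlib

set_option autoImplicit false

open MeasureTheory Set Topology Filter
open scoped ENNReal NNReal

namespace Crest.Agent.R128.BVP

/-- expanding maps on a set do not decrease the length -/
theorem volume_le_of_expand {D : Set ℝ} {h : ℝ → ℝ} {C : ℝ≥0}
    (hexp : ∀ y ∈ D, ∀ z ∈ D, |z - y| ≤ C * |h z - h y|) : volume D ≤ C * volume (h '' D) := by
  classical
  rcases D.eq_empty_or_nonempty with rfl | hne
  · simp
  set g := Function.invFunOn h D with hg
  have hinj : InjOn h D := by
    intro y hy z hz e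
    have := hexp y hy z hz
    rw [e, sub_self, abs_zero, mul_zero] at this
    have h0 : z - y = 0 := abs_eq_zero.mp (le_antisymm this (abs_nonneg _))
    linarith
  have hgl : ∀ y ∈ D, g (h y) = y := fun y hy => hinj.leftInvOn_invFunOn hy
  have hL : LipschitzOnWith C g (h '' D) := by
    rw [lipschitzOnWith_iff_dist_le_mul]
    rintro _ ⟨y, hy, rfl⟩ _ ⟨z, hz, rfl⟩
    rw [hgl y hy, hgl z hz, Real.dist_eq, Real.dist_eq]
    exact hexp z hz y hy
  have him : g '' (h '' D) = D := by
    ext y
    constructor
    · rintro ⟨_, ⟨z, hz, rfl⟩, rfl⟩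
      rw [hgl z hz]; exact hz
    · intro hy
      exact ⟨h y, ⟨y, hy, rfl⟩, hgl y hy⟩
  have h1 := hL.hausdorffMeasure_image_le (d := 1) zero_le_one
  rw [him, hausdorffMeasure_real] at h1
  simpa using h1

/-- locally expanding injective continuous maps on a Borel set do not decrease the length -/
theorem volume_le_of_locally_expand {D : Set ℝ} (hD : MeasurableSet D) {h : ℝ → ℝ} {C : ℝ≥0}
    (hc : ContinuousOn h D) (hi : InjOn h D)
    (hloc : ∀ y ∈ D, ∃ η > 0, ∀ z ∈ D, |z - y| < η → |z - y| ≤ C * |h z - h y|) :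
    volume D ≤ C * volume (h '' D) := by
  classical
  set DN : ℕ → Set ℝ := fun N => {y ∈ D | ∀ z ∈ D, |z - y| < 1 / ((N : ℝ) + 1) → |z - y| ≤ C * |h z - h y|}
    with hDN
  have hpos : ∀ N : ℕ, (0 : ℝ) < 1 / ((N : ℝ) + 1) := fun N => by positivity
  have hsub : ∀ N, DN N ⊆ D := fun N y hy => hy.1
  have hmono : Monotone DN := by
    intro N M hNM y hy
    refine ⟨hy.1, fun z hz hzy => hy.2 z hz (hzy.trans_le ?_)⟩
    apply one_div_le_one_div_of_le (by positivity)
    have : (N : ℝ) ≤ M := by exact_mod_cast hNM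
    linarith
  have hUnion : ⋃ N, DN N = D := by
    ext y
    simp only [mem_iUnion]
    constructor
    · rintro ⟨N, hN⟩; exact hN.1
    · intro hy
      obtain ⟨η, hη, h1⟩ := hloc y hy
      obtain ⟨N, hN⟩ := exists_nat_one_div_lt hη
      exact ⟨N, hy, fun z hz hzy => h1 z hz (hzy.trans hN)⟩
  have hmeas : ∀ N, MeasurableSet (DN N) := by
    intro N
    have : DN N = D ∩ closure (DN N) := by
      apply Subset.antisymm
      · intro y hy; exact ⟨hy.1, subset_closure hy⟩
      · rintro y ⟨hy, hyc⟩
        refine ⟨hy, fun z hz hzy => ?_⟩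
        obtain ⟨u, hu, hlim⟩ := mem_closure_iff_seq_limit.mp hyc
        have hlim2 : Tendsto (fun j => h (u j)) atTop (𝓝 (h y)) := by
          have h1 := hc y hy
          have h2 : Tendsto u atTop (𝓝[D] y) :=
            tendsto_nhdsWithin_iff.mpr ⟨hlim, Eventually.of_forall fun j => (hu j).1⟩
          exact h1.tendsto.comp h2
        have h3 : ∀ᶠ j in atTop, |z - u j| < 1 / ((N : ℝ) + 1) := by
          have : Tendsto (fun j => |z - u j|) atTop (𝓝 |z - y|) := (tendsto_const_nhds.sub hlim).abs
          exact this.eventually_lt_const hzy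
        have h4 : ∀ᶠ j in atTop, |z - u j| ≤ C * |h z - h (u j)| := by
          filter_upwards [h3] with j hj
          exact (hu j).2 z hz hj
        exact le_of_tendsto_of_tendsto ((tendsto_const_nhds.sub hlim).abs)
          (tendsto_const_nhds.mul (tendsto_const_nhds.sub hlim2).abs) h4
    rw [this]
    exact hD.inter isClosed_closure.measurableSet
  -- one N
  have hN : ∀ N, volume (DN N) ≤ C * volume (h '' D) := by
    intro N
    set δ : ℝ := 1 / (2 * ((N : ℝ) + 1)) with hδ
    have hδ0 : 0 < δ := by positivity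
    set P : ℤ → Set ℝ := fun i => DN N ∩ Ico (i * δ) ((i + 1) * δ) with hP
    have hPm : ∀ i, MeasurableSet (P i) := fun i => (hmeas N).inter measurableSet_Ico
    have hPU : DN N ⊆ ⋃ i, P i := by
      intro y hy
      rw [mem_iUnion]
      refine ⟨⌊y / δ⌋, hy, ?_, ?_⟩
      · have := Int.floor_le (y / δ)
        rwa [le_div_iff₀ hδ0] at this
      · have := Int.lt_floor_add_one (y / δ)
        rwa [div_lt_iff₀ hδ0] at this
    have hPD : ∀ i, P i ⊆ D := fun i y hy => hy.1.1
    have hPexp : ∀ i, volume (P i) ≤ C * volume (h '' P i) := by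
      intro i
      apply volume_le_of_expand
      intro y hy z hz
      apply hy.1.2 z hz.1.1
      have h1 := hy.2
      have h2 := hz.2
      rw [mem_Ico] at h1 h2
      have h3 : |z - y| < δ := by
        rw [abs_lt]; constructor <;> nlinarith
      refine h3.trans ?_
      rw [hδ]
      apply one_div_lt_one_div_of_lt (by positivity)
      nlinarith [Nat.cast_nonneg (α := ℝ) N]
    have hPdisj : Pairwise (Function.onFun Disjoint fun i => h '' P i) := by
      intro i j hij
      rw [Function.onFun, Set.disjoint_left]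
      rintro _ ⟨y, hy, rfl⟩ ⟨z, hz, e⟩
      have : z = y := hi (hPD j hz) (hPD i hy) e
      subst this
      have h1 := hy.2
      have h2 := hz.2
      rw [mem_Ico] at h1 h2
      apply hij
      have a1 : (i : ℝ) * δ < (j + 1) * δ := h1.1.trans_lt h2.2
      have a2 : (j : ℝ) * δ < (i + 1) * δ := h2.1.trans_lt h1.2
      have b1 : (i : ℝ) < j + 1 := lt_of_mul_lt_mul_right a1 hδ0.le
      have b2 : (j : ℝ) < i + 1 := lt_of_mul_lt_mul_right a2 hδ0.le
      have c1 : i < j + 1 := by exact_mod_cast b1
      have c2 : j < i + 1 := by exact_mod_cast b2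
      omega
    have hPim : ∀ i, MeasurableSet (h '' P i) := fun i =>
      (hPm i).image_of_continuousOn_injOn (hc.mono (hPD i)) (hi.mono (hPD i))
    calc volume (DN N) ≤ volume (⋃ i, P i) := measure_mono hPU
      _ ≤ ∑' i, volume (P i) := measure_iUnion_le _
      _ ≤ ∑' i, C * volume (h '' P i) := ENNReal.tsum_le_tsum hPexp
      _ = C * ∑' i, volume (h '' P i) := ENNReal.tsum_mul_left
      _ = C * volume (⋃ i, h '' P i) := by rw [measure_iUnion hPdisj hPim]
      _ ≤ C * volume (h '' D) := by
          gcongr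
          apply iUnion_subset
          intro i
          exact image_mono (hPD i)
  rw [← hUnion, hmono.measure_iUnion]
  apply iSup_le
  intro N
  rw [hUnion]
  exact hN N

end Crest.Agent.R128.BVP
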