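import Mathlib
import Crest.Agent.R128.BVP3
import Crest.Agent.R128.BVP4

set_option autoImplicit false

open scoped BigOperators NNReal ENNReal
open Finset MeasureTheory Topology Filter

namespace Crest.Agent.R128.BVP

/-- Numerical hypotheses on a reference orbit segment (positions `0..n+1`), `w` = box (left responses),
`rho` = right responses. -/
structure Good (n : ℕ) (f V : ℝ → ℝ) (M C ε : ℝ) (x p q w rho : ℕ → ℝ) : Prop where
  orb : Orb n f x
  jac : Jac n (fun m => V (x m)) p q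
  wpos : ∀ m ∈ Icc 1 n, 0 < w m
  hqw : ∀ m ∈ Icc 1 n, |q m / p (n + 1)| ≤ w m / 4
  hsw : ∀ m ∈ Icc 1 n, ∑ j ∈ Icc 1 n, |K n p q m j| * M * w j ^ 2 ≤ ε * w m
  rpos : ∀ m ∈ Icc 1 n, 0 < rho m
  hprho : ∀ m ∈ Icc 1 n, |p m / p (n + 1)| ≤ rho m
  hsr : ∀ m ∈ Icc 1 n, ∑ j ∈ Icc 1 n, |K n p q m j| * M * w j * rho j ≤ ε * rho m
  w1 : w 1 ≤ 1 / 2
  rho1 : rho 1 ≤ C * |1 / p (n + 1)|

theorem orb_ext {n : ℕ} {f : ℝ → ℝ} {y z : ℕ → ℝ} (hy : Orb n f y) (hz : Orb n f z)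
    (h0 : y 0 = z 0) (h1 : y 1 = z 1) : ∀ m ≤ n + 1, y m = z m := by
  have : ∀ m ≤ n, y m = z m ∧ y (m + 1) = z (m + 1) := by
    intro m
    induction m with
    | zero => intro _; exact ⟨h0, h1⟩
    | succ m ih =>
      intro hm
      obtain ⟨i1, i2⟩ := ih (by omega)
      refine ⟨i2, ?_⟩
      have a1 := hy m (by omega)
      have a2 := hz m (by omega)
      rw [i1, i2] at a1
      show y (m + 2) = z (m + 2)
      linarith
  intro m hm
  rcases Nat.lt_or_ge m (n + 1) with h | h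
  · exact (this m (by omega)).1
  · have e : m = n + 1 := by omega
    rw [e]; exact (this n le_rfl).2

variable {n : ℕ} {f V : ℝ → ℝ} {M C ε : ℝ}

theorem Good.diff {x p q w rho : ℕ → ℝ} (G : Good n f V M C ε x p q w rho) (hM : 0 ≤ M) (hNL : NL f V M)
    (hε : ε ≤ 1 / 4) (y z : ℕ → ℝ) (hy : Orb n f y) (hz : Orb n f z)
    (hyx : ∀ m ∈ Icc 1 n, |y m - x m| ≤ w m) (hzx : ∀ m ∈ Icc 1 n, |z m - x m| ≤ w m) :
    ∀ m ∈ Icc 1 n, |z m - y m| ≤ 2 * (rho m * |z (n + 1) - y (n + 1)| + w m / 4 * |z 0 - y 0|) ∧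
      |(z m - y m) - (q m * (z 0 - y 0) + p m * (z (n + 1) - y (n + 1))) / p (n + 1)| ≤
        2 * ε * (rho m * |z (n + 1) - y (n + 1)| + w m / 4 * |z 0 - y 0|) := by
  refine orb_diff hM hNL x G.jac w rho (fun m => w m / 4) ε hε G.rpos G.hprho G.hqw ?_ ?_ y z hy hz hyx hzx
  · intro m hm
    refine le_trans (le_of_eq ?_) (G.hsr m hm)
    refine Finset.sum_congr rfl fun j _ => by ring
  · intro m hm
    have := G.hsw m hm
    have e : ∑ j ∈ Icc 1 n, |K n p q m j| * (M * w j) * (w j / 4) =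
      (∑ j ∈ Icc 1 n, |K n p q m j| * M * w j ^ 2) / 4 := by
      rw [Finset.sum_div]
      refine Finset.sum_congr rfl fun j _ => by ring
    rw [e]
    linarith

theorem Good.unique {x p q w rho : ℕ → ℝ} (G : Good n f V M C ε x p q w rho) (hM : 0 ≤ M) (hNL : NL f V M)
    (hε : ε ≤ 1 / 4) (y z : ℕ → ℝ) (hy : Orb n f y) (hz : Orb n f z)
    (hyx : ∀ m ∈ Icc 1 n, |y m - x m| ≤ w m) (hzx : ∀ m ∈ Icc 1 n, |z m - x m| ≤ w m)
    (h0 : y 0 = z 0) (h1 : y (n + 1) = z (n + 1)) : ∀ m ≤ n + 1, y m = z m := by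
  intro m hm
  rcases Nat.eq_zero_or_pos m with h | h
  · rw [h, h0]
  rcases Nat.lt_or_ge m (n + 1) with h2 | h2
  · have := (G.diff hM hNL hε y z hy hz hyx hzx m (by rw [Finset.mem_Icc]; omega)).1
    rw [h0, h1, sub_self, sub_self, abs_zero, mul_zero, mul_zero, add_zero, mul_zero] at this
    have h3 := abs_eq_zero.mp (le_antisymm this (abs_nonneg _))
    linarith
  · have e : m = n + 1 := by omega
    rw [e, h1]

theorem Good.exists {x p q w rho : ℕ → ℝ} (G : Good n f V M C ε x p q w rho) (hM : 0 ≤ M) (hNL : NL f V M)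
    (hε : ε ≤ 1 / 4) (X v : ℝ) (hX : |X - x 0| ≤ 3 / 2)
    (hv : ∀ m ∈ Icc 1 n, |p m / p (n + 1)| * |v - x (n + 1)| ≤ w m / 8) :
    ∃ y : ℕ → ℝ, Orb n f y ∧ y 0 = X ∧ y (n + 1) = v ∧ ∀ m ∈ Icc 1 n, |y m - x m| ≤ 3 / 4 * w m := by
  obtain ⟨y, h1, h2, h3, h4⟩ := orb_exists hM hNL x G.orb G.jac w G.wpos (by
      intro m hm
      have h1 := G.hsw m hm
      have h2 := G.wpos m hm
      nlinarith) (X - x 0) (v - x (n + 1)) (by
      intro m hm
      have h1 := G.hqw m hm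
      have h2 := hv m hm
      have h3 := G.wpos m hm
      have e1 : (q m * (X - x 0) + p m * (v - x (n + 1))) / p (n + 1) =
        (q m / p (n + 1)) * (X - x 0) + (p m / p (n + 1)) * (v - x (n + 1)) := by ring
      rw [e1]
      refine (abs_add_le _ _).trans ?_
      rw [abs_mul, abs_mul]
      have h4 : |q m / p (n + 1)| * |X - x 0| ≤ w m / 4 * (3 / 2) :=
        mul_le_mul h1 hX (abs_nonneg _) (by linarith)
      linarith)
  exact ⟨y, h1, by rw [h2]; ring, by rw [h3]; ring, h4⟩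

/-- **Leaf lemma**: two families of matched orbits which agree at one parameter agree everywhere. -/
theorem leaf {x p q w rho x' p' q' w' rho' : ℕ → ℝ} (hn : 1 ≤ n)
    (G : Good n f V M C ε x p q w rho)
    (G' : Good n f V M C ε x' p' q' w' rho') (hM : 0 ≤ M) (hNL : NL f V M)
    (hε : ε ≤ 1 / 4) (a b v : ℝ) (Z Z' : ℝ → ℕ → ℝ)
    (hZ : ∀ X ∈ Set.Icc a b, Orb n f (Z X) ∧ Z X 0 = X ∧ Z X (n + 1) = v ∧
      ∀ m ∈ Icc 1 n, |Z X m - x m| ≤ 3 / 4 * w m)
    (hZ' : ∀ X ∈ Set.Icc a b, Orb n f (Z' X) ∧ Z' X 0 = X ∧ Z' X (n + 1) = v ∧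
      ∀ m ∈ Icc 1 n, |Z' X m - x' m| ≤ 3 / 4 * w' m)
    (X0 : ℝ) (hX0 : X0 ∈ Set.Icc a b) (h0 : Z X0 1 = Z' X0 1) :
    ∀ X ∈ Set.Icc a b, ∀ m ≤ n + 1, Z X m = Z' X m := by
  have lip : ∀ X ∈ Set.Icc a b, ∀ Y ∈ Set.Icc a b, ∀ m ∈ Icc 1 n, |Z Y m - Z X m| ≤ w m / 2 * |Y - X| := by
    intro X hX Y hY m hm
    obtain ⟨a1, a2, a3, a4⟩ := hZ X hX
    obtain ⟨b1, b2, b3, b4⟩ := hZ Y hY
    have := (G.diff hM hNL hε (Z X) (Z Y) a1 b1
      (fun m hm => (a4 m hm).trans (by linarith [G.wpos m hm]))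
      (fun m hm => (b4 m hm).trans (by linarith [G.wpos m hm])) m hm).1
    rw [a3, b3, a2, b2, sub_self, abs_zero, mul_zero, zero_add] at this
    linarith
  have lip' : ∀ X ∈ Set.Icc a b, ∀ Y ∈ Set.Icc a b, ∀ m ∈ Icc 1 n,
      |Z' Y m - Z' X m| ≤ w' m / 2 * |Y - X| := by
    intro X hX Y hY m hm
    obtain ⟨a1, a2, a3, a4⟩ := hZ' X hX
    obtain ⟨b1, b2, b3, b4⟩ := hZ' Y hY
    have := (G'.diff hM hNL hε (Z' X) (Z' Y) a1 b1
      (fun m hm => (a4 m hm).trans (by linarith [G'.wpos m hm]))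
      (fun m hm => (b4 m hm).trans (by linarith [G'.wpos m hm])) m hm).1
    rw [a3, b3, a2, b2, sub_self, abs_zero, mul_zero, zero_add] at this
    linarith
  have h1n : (1 : ℕ) ∈ Icc 1 n := by rw [Finset.mem_Icc]; omega
  have : PreconnectedSpace (Set.Icc a b) := Subtype.preconnectedSpace isPreconnected_Icc
  set S : Set (Set.Icc a b) := {X | Z X 1 = Z' X 1} with hS
  have hclosed : IsClosed S := by
    apply isClosed_eq
    · have : LipschitzWith (Real.toNNReal (w 1 / 2)) (fun X : Set.Icc a b => Z X 1) := by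
        apply LipschitzWith.of_dist_le_mul
        intro X Y
        rw [Real.dist_eq, Subtype.dist_eq, Real.dist_eq, Real.coe_toNNReal _ (by linarith [G.wpos 1 h1n])]
        exact lip Y.1 Y.2 X.1 X.2 1 h1n
      exact this.continuous
    · have : LipschitzWith (Real.toNNReal (w' 1 / 2)) (fun X : Set.Icc a b => Z' X 1) := by
        apply LipschitzWith.of_dist_le_mul
        intro X Y
        rw [Real.dist_eq, Subtype.dist_eq, Real.dist_eq, Real.coe_toNNReal _ (by linarith [G'.wpos 1 h1n])]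
        exact lip' Y.1 Y.2 X.1 X.2 1 h1n
      exact this.continuous
  have hopen : IsOpen S := by
    rw [Metric.isOpen_iff]
    rintro ⟨X, hX⟩ hXS
    set T : ℝ := ∑ m ∈ Icc 1 n, 2 * w' m / w m with hT
    have hT0 : ∀ m ∈ Icc 1 n, 0 ≤ 2 * w' m / w m := fun m hm =>
      div_nonneg (by linarith [G'.wpos m hm]) (G.wpos m hm).le
    have hTpos : 0 ≤ T := Finset.sum_nonneg hT0
    refine ⟨1 / (1 + T), by positivity, ?_⟩
    rintro ⟨Y, hY⟩ hYb
    rw [Metric.mem_ball, Subtype.dist_eq, Real.dist_eq] at hYb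
    show Z Y 1 = Z' Y 1
    have hXS' : Z X 1 = Z' X 1 := hXS
    obtain ⟨a1, a2, a3, a4⟩ := hZ X hX
    obtain ⟨a1', a2', a3', a4'⟩ := hZ' X hX
    obtain ⟨b1, b2, b3, b4⟩ := hZ Y hY
    obtain ⟨b1', b2', b3', b4'⟩ := hZ' Y hY
    have heq := orb_ext a1 a1' (by rw [a2, a2']) hXS'
    refine G.unique hM hNL hε (Z Y) (Z' Y) b1 b1'
      (fun m hm => (b4 m hm).trans (by linarith [G.wpos m hm])) ?_ (by rw [b2, b2']) (by rw [b3, b3']) 1 (by omega)
    intro m hm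
    have c1 := lip' X hX Y hY m hm
    have c2 := a4 m hm
    have c3 := heq m (by rw [Finset.mem_Icc] at hm; omega)
    rw [c3] at c2
    have c4 : 2 * w' m / w m ≤ T := Finset.single_le_sum hT0 hm
    have c5 := G.wpos m hm
    have c5' := G'.wpos m hm
    have c6 : |Y - X| * (1 + T) < 1 := by rwa [lt_div_iff₀ (by positivity)] at hYb
    have c7 : w' m / 2 * |Y - X| ≤ w m / 4 := by
      have d1 : 2 * w' m / w m * |Y - X| ≤ 1 := by
        have d2 := mul_le_mul_of_nonneg_right c4 (abs_nonneg (Y - X))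
        have d3 := abs_nonneg (Y - X)
        nlinarith
      have d2 : 2 * w' m * |Y - X| ≤ w m := by
        have : 2 * w' m / w m * |Y - X| = (2 * w' m * |Y - X|) / w m := by ring
        rw [this, div_le_one c5] at d1
        exact d1
      linarith
    have c8 : |Z' Y m - x m| ≤ |Z' Y m - Z' X m| + |Z' X m - x m| := by
      have := abs_add_le (Z' Y m - Z' X m) (Z' X m - x m)
      rwa [sub_add_sub_cancel] at this
    linarith
  have huniv : S = Set.univ := IsClopen.eq_univ ⟨hclosed, hopen⟩ ⟨⟨X0, hX0⟩, h0⟩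
  intro X hX
  have h2 : Z X 1 = Z' X 1 := by
    have : (⟨X, hX⟩ : Set.Icc a b) ∈ S := by rw [huniv]; trivial
    exact this
  obtain ⟨a1, a2, -, -⟩ := hZ X hX
  obtain ⟨a1', a2', -, -⟩ := hZ' X hX
  exact orb_ext a1 a1' (by rw [a2, a2']) h2

end Crest.Agent.R128.BVP
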