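import Mathlib
import Crest.Agent.R128.BVP5

set_option autoImplicit false

open scoped BigOperators NNReal ENNReal
open Finset MeasureTheory Topology Filter

namespace Crest.Agent.R128.BVP

variable {n : ℕ} {f V : ℝ → ℝ} {M C ε : ℝ}

theorem continuous_xo (hf : Continuous f) {g : ℝ → ℝ} (hgc : Continuous g) (xo : ℝ → ℕ → ℝ)
    (hx0 : ∀ y, xo y 0 = g y) (hx1 : ∀ y, xo y 1 = y) (hxo : ∀ y, Orb n f (xo y)) :
    ∀ m ≤ n + 1, Continuous fun y => xo y m := by
  have key : ∀ m ≤ n, (Continuous fun y => xo y m) ∧ Continuous fun y => xo y (m + 1) := by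
    intro m
    induction m with
    | zero =>
      intro _
      refine ⟨?_, ?_⟩
      · simp only [hx0]; exact hgc
      · simp only [zero_add, hx1]; exact continuous_id
    | succ m ih =>
      intro hm
      obtain ⟨i1, i2⟩ := ih (by omega)
      refine ⟨i2, ?_⟩
      have e : (fun y => xo y (m + 1 + 1)) = fun y => f (xo y (m + 1)) - xo y m := by
        funext y
        have := hxo y m (by omega)
        show xo y (m + 2) = _
        linarith
      rw [e]
      exact (hf.comp i2).sub i1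
  intro m hm
  rcases Nat.lt_or_ge m (n + 1) with h | h
  · exact (key m (by omega)).1
  · have e : m = n + 1 := by omega
    rw [e]; exact (key n le_rfl).2

open Classical in
/-- the matched orbit (in the 3/4 box of `x`) with boundary values `X`, `v` -/
noncomputable def mo (n : ℕ) (f : ℝ → ℝ) (x w : ℕ → ℝ) (X v : ℝ) : ℕ → ℝ :=
  if h : ∃ z : ℕ → ℝ, Orb n f z ∧ z 0 = X ∧ z (n + 1) = v ∧ ∀ m ∈ Icc 1 n, |z m - x m| ≤ 3 / 4 * w m
  then h.choose else x

theorem mo_spec {x p q w rho : ℕ → ℝ} (G : Good n f V M C ε x p q w rho) (hM : 0 ≤ M) (hNL : NL f V M)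
    (hε : ε ≤ 1 / 4) (X v : ℝ) (hX : |X - x 0| ≤ 3 / 2)
    (hv : ∀ m ∈ Icc 1 n, |p m / p (n + 1)| * |v - x (n + 1)| ≤ w m / 8) :
    Orb n f (mo n f x w X v) ∧ mo n f x w X v 0 = X ∧ mo n f x w X v (n + 1) = v ∧
      ∀ m ∈ Icc 1 n, |mo n f x w X v m - x m| ≤ 3 / 4 * w m := by
  have h := G.exists hM hNL hε X v hX hv
  unfold mo
  rw [dif_pos h]
  exact h.choose_spec

/-- **Matching theorem.** `D` = set of parameters `y` on the curve `{(g y, y)}` whose orbits are good at time `n`.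
For every `X` with `X ∈ [g y, g y + 1]` (`y ∈ D`), the orbits matched to `D` and starting on the vertical line
`{X} × ℝ` fill at least a fraction `1/(5C)` of the length of `D`. -/
theorem matching (hn : 1 ≤ n) (hf : Continuous f) (hM : 0 ≤ M) (hNL : NL f V M)
    (hε : ε ≤ 1 / 4) (hC : 0 ≤ C) (hεC : ε * C ≤ 1 / 4)
    {g : ℝ → ℝ} (hg : ∀ y z, |g y - g z| ≤ 1 / 2 * |y - z|)
    (xo : ℝ → ℕ → ℝ) (hx0 : ∀ y, xo y 0 = g y) (hx1 : ∀ y, xo y 1 = y) (hxo : ∀ y, Orb n f (xo y))
    {D : Set ℝ} (hD : MeasurableSet D) (p q w rho : ℝ → ℕ → ℝ)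
    (hgood : ∀ y ∈ D, Good n f V M C ε (xo y) (p y) (q y) (w y) (rho y))
    (X : ℝ) (hX : ∀ y ∈ D, g y ≤ X ∧ X ≤ g y + 1)
    (P : Set ℝ) (hP : ∀ y ∈ D, ∀ z : ℕ → ℝ, Orb n f z → z 0 = X → z (n + 1) = xo y (n + 1) →
      (∀ m ∈ Icc 1 n, |z m - xo y m| ≤ 3 / 4 * w y m) → z 1 ∈ P) :
    volume D ≤ ENNReal.ofReal (5 * C) * volume P := by
  have hgc : Continuous g := by
    have : LipschitzWith (1 / 2) g := LipschitzWith.of_dist_le_mul fun y z => by
      rw [Real.dist_eq, Real.dist_eq]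
      simpa using hg y z
    exact this.continuous
  have hcx := continuous_xo hf hgc xo hx0 hx1 hxo
  have h1n : (1 : ℕ) ∈ Icc 1 n := by rw [Finset.mem_Icc]; omega
  set Z : ℝ → ℝ → ℝ → ℕ → ℝ := fun y X' v => mo n f (xo y) (w y) X' v with hZdef
  have hZ : ∀ y ∈ D, ∀ X' v, |X' - g y| ≤ 3 / 2 →
      (∀ m ∈ Icc 1 n, |p y m / p y (n + 1)| * |v - xo y (n + 1)| ≤ w y m / 8) →
      Orb n f (Z y X' v) ∧ Z y X' v 0 = X' ∧ Z y X' v (n + 1) = v ∧
      ∀ m ∈ Icc 1 n, |Z y X' v m - xo y m| ≤ 3 / 4 * w y m := by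
    intro y hy X' v hX' hv
    exact mo_spec (hgood y hy) hM hNL hε X' v (by rw [hx0]; exact hX') hv
  have hZ' : ∀ y ∈ D, ∀ X', |X' - g y| ≤ 3 / 2 →
      Orb n f (Z y X' (xo y (n + 1))) ∧ Z y X' (xo y (n + 1)) 0 = X' ∧
      Z y X' (xo y (n + 1)) (n + 1) = xo y (n + 1) ∧
      ∀ m ∈ Icc 1 n, |Z y X' (xo y (n + 1)) m - xo y m| ≤ 3 / 4 * w y m := by
    intro y hy X' hX'
    refine hZ y hy X' _ hX' fun m hm => ?_
    rw [sub_self, abs_zero, mul_zero]
    linarith [(hgood y hy).wpos m hm]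
  have hbox : ∀ y ∈ D, ∀ z : ℕ → ℝ, (∀ m ∈ Icc 1 n, |z m - xo y m| ≤ 3 / 4 * w y m) →
      ∀ m ∈ Icc 1 n, |z m - xo y m| ≤ w y m := fun y hy z h m hm =>
    (h m hm).trans (by linarith [(hgood y hy).wpos m hm])
  have hself : ∀ y ∈ D, ∀ m ∈ Icc 1 n, |xo y m - xo y m| ≤ w y m := fun y hy m hm => by
    rw [sub_self, abs_zero]; exact ((hgood y hy).wpos m hm).le
  -- the matched orbit at its own boundary value is the orbit itself
  have hown : ∀ y ∈ D, Z y (g y) (xo y (n + 1)) 1 = y := by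
    intro y hy
    obtain ⟨a1, a2, a3, a4⟩ := hZ' y hy (g y) (by rw [sub_self, abs_zero]; norm_num)
    have := (hgood y hy).unique hM hNL hε _ (xo y) a1 (hxo y) (hbox y hy _ a4) (hself y hy)
      (by rw [a2, hx0]) a3 1 (by omega)
    rw [this, hx1]
  set h : ℝ → ℝ := fun y => Z y X (xo y (n + 1)) 1 with hh
  have hXabs : ∀ y ∈ D, |X - g y| ≤ 3 / 2 := fun y hy => by
    rw [abs_le]; constructor <;> linarith [(hX y hy).1, (hX y hy).2]
  -- injectivity
  have hinj0 : ∀ y ∈ D, ∀ z ∈ D, g y ≤ g z → h y = h z → y = z := by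
    intro y hy z hz hgyz e
    obtain ⟨a1, a2, a3, a4⟩ := hZ' y hy X (hXabs y hy)
    obtain ⟨b1, b2, b3, b4⟩ := hZ' z hz X (hXabs z hz)
    have hv : xo y (n + 1) = xo z (n + 1) := by
      have := orb_ext a1 b1 (by rw [a2, b2]) e (n + 1) le_rfl
      rwa [a3, b3] at this
    have hXz := hX z hz
    have hXy := hX y hy
    have hleaf := leaf hn (hgood y hy) (hgood z hz) hM hNL hε (g z) X (xo z (n + 1))
      (fun X' => Z y X' (xo z (n + 1))) (fun X' => Z z X' (xo z (n + 1)))
      (by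
        intro X' hX'
        have := hZ' y hy X' (by
          rw [Set.mem_Icc] at hX'
          rw [abs_le]; constructor <;> linarith)
        rw [← hv]
        exact this)
      (by
        intro X' hX'
        exact hZ' z hz X' (by
          rw [Set.mem_Icc] at hX'
          rw [abs_le]; constructor <;> linarith))
      X ⟨hXz.1, le_rfl⟩ (by
        rw [← hv]
        have e2 : Z y X (xo y (n + 1)) 1 = Z z X (xo z (n + 1)) 1 := e
        rw [e2, hv])
      (g z) ⟨le_rfl, hXz.1⟩ 1 (by omega)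
    rw [hown z hz] at hleaf
    have hd := (hgood y hy).diff hM hNL hε (xo y) (Z y (g z) (xo z (n + 1))) (hxo y)
      (by
        rw [← hv]
        exact (hZ' y hy (g z) (by rw [abs_le]; constructor <;> linarith)).1)
      (hself y hy)
      (hbox y hy _ (by
        rw [← hv]
        exact (hZ' y hy (g z) (by rw [abs_le]; constructor <;> linarith)).2.2.2)) 1 h1n
    have e0 : Z y (g z) (xo z (n + 1)) 0 = g z := by
      rw [← hv]; exact (hZ' y hy (g z) (by rw [abs_le]; constructor <;> linarith)).2.1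
    have e1 : Z y (g z) (xo z (n + 1)) (n + 1) = xo y (n + 1) := by
      rw [← hv]; exact (hZ' y hy (g z) (by rw [abs_le]; constructor <;> linarith)).2.2.1
    have hd1 := hd.1
    rw [hleaf, e0, e1, hx0, hx1, sub_self, abs_zero, mul_zero, zero_add] at hd1
    have h3 := (hgood y hy).w1
    have h4 := (hgood y hy).wpos 1 h1n
    have h5 := hg z y
    have h6 : |z - y| ≤ 1 / 8 * |z - y| := by
      have h7 : 2 * (w y 1 / 4 * |g z - g y|) ≤ 2 * (1 / 8 * (1 / 2 * |z - y|)) := by
        have h8 : w y 1 / 4 * |g z - g y| ≤ 1 / 8 * (1 / 2 * |z - y|) :=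
          mul_le_mul (by linarith) h5 (abs_nonneg _) (by norm_num)
        linarith
      linarith
    have h9 : |z - y| = 0 := by
      have := abs_nonneg (z - y)
      linarith
    have := abs_eq_zero.mp h9
    linarith
  have hinj : Set.InjOn h D := by
    intro y hy z hz e
    rcases le_total (g y) (g z) with h1 | h1
    · exact hinj0 y hy z hz h1 e
    · exact (hinj0 z hz y hy h1 e.symm).symm
  -- local estimates
  have hlocal : ∀ y ∈ D, ∀ᶠ z in 𝓝 y, z ∈ D → (|z - y| ≤ 5 * C * |h z - h y| ∧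
      |h z - h y| ≤ 2 * (rho y 1 * |xo z (n + 1) - xo y (n + 1)|)) := by
    intro y hy
    have G := hgood y hy
    have ev1 : ∀ᶠ z in 𝓝 y, ∀ m ∈ Icc 1 n, |xo z m - xo y m| ≤ 3 / 4 * w y m := by
      rw [Filter.eventually_all_finset]
      intro m hm
      have hc := (hcx m (by rw [Finset.mem_Icc] at hm; omega))
      have : Tendsto (fun z => |xo z m - xo y m|) (𝓝 y) (𝓝 0) := by
        have h1 : Tendsto (fun z => |xo z m - xo y m|) (𝓝 y) (𝓝 |xo y m - xo y m|) :=
          ((hc.tendsto y).sub tendsto_const_nhds).abs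
        simpa using h1
      have hpos : 0 < 3 / 4 * w y m := by linarith [G.wpos m hm]
      filter_upwards [this.eventually_lt_const hpos] with z hz using hz.le
    have ev2 : ∀ᶠ z in 𝓝 y, ∀ m ∈ Icc 1 n,
        |p y m / p y (n + 1)| * |xo z (n + 1) - xo y (n + 1)| ≤ w y m / 8 := by
      rw [Filter.eventually_all_finset]
      intro m hm
      have hc := (hcx (n + 1) le_rfl)
      have : Tendsto (fun z => |p y m / p y (n + 1)| * |xo z (n + 1) - xo y (n + 1)|) (𝓝 y) (𝓝 0) := by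
        have h1 : Tendsto (fun z => |p y m / p y (n + 1)| * |xo z (n + 1) - xo y (n + 1)|) (𝓝 y)
            (𝓝 (|p y m / p y (n + 1)| * |xo y (n + 1) - xo y (n + 1)|)) :=
          tendsto_const_nhds.mul ((hc.tendsto y).sub tendsto_const_nhds).abs
        simpa using h1
      have hpos : 0 < w y m / 8 := by linarith [G.wpos m hm]
      filter_upwards [this.eventually_lt_const hpos] with z hz using hz.le
    have ev3 : ∀ᶠ z in 𝓝 y, |z - y| < 1 := by
      have : Tendsto (fun z => |z - y|) (𝓝 y) (𝓝 |y - y|) := (tendsto_id.sub tendsto_const_nhds).abs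
      rw [sub_self, abs_zero] at this
      exact this.eventually_lt_const one_pos
    filter_upwards [ev1, ev2, ev3] with z h1 h2 h3 hz
    have hXz := hX z hz
    have hXy := hX y hy
    have hgzy := hg z y
    have hgzy2 : |g z - g y| ≤ 1 / 2 := by linarith [abs_nonneg (z - y)]
    have hgzy3 := abs_le.mp hgzy2
    have habs : ∀ X' ∈ Set.Icc (g z) X, |X' - g y| ≤ 3 / 2 := by
      intro X' hX'
      rw [Set.mem_Icc] at hX'
      rw [abs_le]; constructor <;> linarith
    have habs' : ∀ X' ∈ Set.Icc (g z) X, |X' - g z| ≤ 3 / 2 := by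
      intro X' hX'
      rw [Set.mem_Icc] at hX'
      rw [abs_le]; constructor <;> linarith
    have hWz : Z y (g z) (xo z (n + 1)) 1 = z := by
      obtain ⟨a1, a2, a3, a4⟩ := hZ y hy (g z) (xo z (n + 1)) (habs (g z) ⟨le_rfl, hXz.1⟩) h2
      have := G.unique hM hNL hε _ (xo z) a1 (hxo z) (hbox y hy _ a4) (hbox y hy _ h1)
        (by rw [a2, hx0]) a3 1 (by omega)
      rw [this, hx1]
    have hleaf := leaf hn G (hgood z hz) hM hNL hε (g z) X (xo z (n + 1))
      (fun X' => Z y X' (xo z (n + 1))) (fun X' => Z z X' (xo z (n + 1)))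
      (fun X' hX' => hZ y hy X' (xo z (n + 1)) (habs X' hX') h2)
      (fun X' hX' => hZ' z hz X' (habs' X' hX'))
      (g z) ⟨le_rfl, hXz.1⟩ (by rw [hWz, hown z hz])
      X ⟨hXz.1, le_rfl⟩ 1 (by omega)
    have hhz : h z = Z y X (xo z (n + 1)) 1 := hleaf.symm
    have hhy : h y = Z y X (xo y (n + 1)) 1 := rfl
    obtain ⟨a1, a2, a3, a4⟩ := hZ y hy X (xo z (n + 1)) (hXabs y hy) h2
    obtain ⟨b1, b2, b3, b4⟩ := hZ' y hy X (hXabs y hy)
    have hd := G.diff hM hNL hε (Z y X (xo y (n + 1))) (Z y X (xo z (n + 1))) b1 a1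
      (hbox y hy _ b4) (hbox y hy _ a4) 1 h1n
    rw [← hhz, ← hhy, a3, b3, a2, b2, sub_self, abs_zero, mul_zero, mul_zero, add_zero, zero_add,
      G.jac.p1, one_mul] at hd
    have hd2 := G.diff hM hNL hε (xo y) (xo z) (hxo y) (hxo z) (hself y hy) (hbox y hy _ h1) 1 h1n
    rw [hx1, hx1, hx0, hx0] at hd2
    have hd2 := hd2.1
    set Δ := xo z (n + 1) - xo y (n + 1) with hΔ
    have hp0 : 0 < |1 / p y (n + 1)| := abs_pos.mpr (one_div_ne_zero G.jac.W0)
    have hr1 := G.rho1
    have hr0 := G.rpos 1 h1n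
    -- lower bound
    have hlow : |Δ| * |1 / p y (n + 1)| ≤ 2 * |h z - h y| := by
      have e1 := hd.2
      have e2 : |Δ / p y (n + 1)| ≤ |h z - h y| + |h z - h y - Δ / p y (n + 1)| := by
        have := abs_sub_abs_le_abs_sub (Δ / p y (n + 1)) (h z - h y)
        rw [abs_sub_comm (Δ / p y (n + 1))] at this
        linarith
      have e3 : |Δ / p y (n + 1)| = |Δ| * |1 / p y (n + 1)| := by
        rw [← abs_mul]; congr 1; ring
      rw [e3] at e2
      have e4 : 2 * ε * (rho y 1 * |Δ|) ≤ 1 / 2 * (|Δ| * |1 / p y (n + 1)|) := by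
        rcases le_or_gt 0 ε with h5 | h5
        · have : 2 * ε * (rho y 1 * |Δ|) ≤ 2 * ε * ((C * |1 / p y (n + 1)|) * |Δ|) := by
            apply mul_le_mul_of_nonneg_left _ (by linarith)
            exact mul_le_mul_of_nonneg_right hr1 (abs_nonneg _)
          have h6 : 2 * ε * ((C * |1 / p y (n + 1)|) * |Δ|) = 2 * (ε * C) * (|Δ| * |1 / p y (n + 1)|) := by
            ring
          have h7 := mul_nonneg (abs_nonneg Δ) hp0.le
          nlinarith
        · have : 2 * ε * (rho y 1 * |Δ|) ≤ 0 := by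
            have := mul_nonneg hr0.le (abs_nonneg Δ)
            nlinarith
          have h7 := mul_nonneg (abs_nonneg Δ) hp0.le
          linarith
      linarith
    refine ⟨?_, hd.1⟩
    have h8 : 2 * (rho y 1 * |Δ| + w y 1 / 4 * |g z - g y|) ≤
        2 * (C * (2 * |h z - h y|)) + 1 / 8 * |z - y| := by
      have h9 : rho y 1 * |Δ| ≤ C * (2 * |h z - h y|) := by
        calc rho y 1 * |Δ| ≤ (C * |1 / p y (n + 1)|) * |Δ| :=
              mul_le_mul_of_nonneg_right hr1 (abs_nonneg _)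
          _ = C * (|Δ| * |1 / p y (n + 1)|) := by ring
          _ ≤ C * (2 * |h z - h y|) := mul_le_mul_of_nonneg_left hlow hC
      have h10 : w y 1 / 4 * |g z - g y| ≤ 1 / 8 * (1 / 2 * |z - y|) := by
        have h3 := G.w1
        exact mul_le_mul (by linarith) hgzy (abs_nonneg _) (by norm_num)
      linarith
    have h11 : 0 ≤ C * |h z - h y| := mul_nonneg hC (abs_nonneg _)
    nlinarith
  have hcont : ContinuousOn h D := by
    intro y hy
    rw [ContinuousWithinAt, tendsto_iff_norm_sub_tendsto_zero]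
    have hc := hcx (n + 1) le_rfl
    have hup : Tendsto (fun z => 2 * (rho y 1 * |xo z (n + 1) - xo y (n + 1)|)) (𝓝[D] y) (𝓝 0) := by
      have h1 : Tendsto (fun z => 2 * (rho y 1 * |xo z (n + 1) - xo y (n + 1)|)) (𝓝 y)
          (𝓝 (2 * (rho y 1 * |xo y (n + 1) - xo y (n + 1)|))) :=
        tendsto_const_nhds.mul (tendsto_const_nhds.mul ((hc.tendsto y).sub tendsto_const_nhds).abs)
      have h2 : 2 * (rho y 1 * |xo y (n + 1) - xo y (n + 1)|) = 0 := by simp
      rw [h2] at h1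
      exact h1.mono_left nhdsWithin_le_nhds
    refine squeeze_zero' (Eventually.of_forall fun z => norm_nonneg _) ?_ hup
    filter_upwards [nhdsWithin_le_nhds (hlocal y hy), self_mem_nhdsWithin] with z hz hzD
    rw [Real.norm_eq_abs]
    exact (hz hzD).2
  have hmain := volume_le_of_locally_expand (C := Real.toNNReal (5 * C)) hD hcont hinj (by
    intro y hy
    obtain ⟨η, hη, h1⟩ := Metric.eventually_nhds_iff.mp (hlocal y hy)
    refine ⟨η, hη, fun z hz hzy => ?_⟩
    have := (h1 (by rw [Real.dist_eq]; exact hzy) hz).1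
    rw [Real.coe_toNNReal _ (by linarith)]
    exact this)
  have hsub : h '' D ⊆ P := by
    rintro _ ⟨y, hy, rfl⟩
    obtain ⟨b1, b2, b3, b4⟩ := hZ' y hy X (hXabs y hy)
    exact hP y hy _ b1 b2 b3 b4
  calc volume D ≤ (Real.toNNReal (5 * C) : ℝ≥0∞) * volume (h '' D) := hmain
    _ = ENNReal.ofReal (5 * C) * volume (h '' D) := rfl
    _ ≤ ENNReal.ofReal (5 * C) * volume P := by gcongr

end Crest.Agent.R128.BVP
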