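import Mathlib
import Crest.Agent.R128.BVP6
import Crest.Agent.R128.Torus

set_option autoImplicit false

open scoped BigOperators NNReal ENNReal
open Finset MeasureTheory Topology Filter

namespace Crest.Agent.R128.BVP

/-- `f(x) = 2x + k sin 2πx` -/
noncomputable def fk (k x : ℝ) : ℝ := 2 * x + k * Real.sin (2 * Real.pi * x)

/-- `V(x) = 2 + 2πk cos 2πx` -/
noncomputable def Vk (k x : ℝ) : ℝ := 2 + 2 * Real.pi * k * Real.cos (2 * Real.pi * x)

theorem hasDerivAt_fk (k x : ℝ) : HasDerivAt (fk k) (Vk k x) x := by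
  unfold fk Vk
  have h1 : HasDerivAt (fun y : ℝ => 2 * Real.pi * y) (2 * Real.pi) x := by
    simpa using (hasDerivAt_id x).const_mul (2 * Real.pi)
  have h2 := (h1.sin).const_mul k
  have h3 : HasDerivAt (fun y : ℝ => 2 * y) 2 x := by simpa using (hasDerivAt_id x).const_mul 2
  refine (h3.add h2).congr_deriv ?_
  ring

theorem continuous_fk (k : ℝ) : Continuous (fk k) := by
  unfold fk; fun_prop

theorem Vk_lip {k : ℝ} (hk : 0 ≤ k) (x y : ℝ) : |Vk k x - Vk k y| ≤ 4 * Real.pi ^ 2 * k * |x - y| := by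
  unfold Vk
  have h1 : |Real.cos (2 * Real.pi * x) - Real.cos (2 * Real.pi * y)| ≤ |2 * Real.pi * x - 2 * Real.pi * y| := by
    have := Real.lipschitzWith_cos.dist_le_mul (2 * Real.pi * x) (2 * Real.pi * y)
    rw [Real.dist_eq, Real.dist_eq] at this
    simpa using this
  have e : 2 + 2 * Real.pi * k * Real.cos (2 * Real.pi * x) - (2 + 2 * Real.pi * k * Real.cos (2 * Real.pi * y))
    = (2 * Real.pi * k) * (Real.cos (2 * Real.pi * x) - Real.cos (2 * Real.pi * y)) := by ring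
  rw [e, abs_mul, abs_of_nonneg (by positivity)]
  have e2 : |2 * Real.pi * x - 2 * Real.pi * y| = 2 * Real.pi * |x - y| := by
    rw [← mul_sub, abs_mul, abs_of_pos (by positivity)]
  rw [e2] at h1
  calc _ ≤ (2 * Real.pi * k) * (2 * Real.pi * |x - y|) := mul_le_mul_of_nonneg_left h1 (by positivity)
    _ = _ := by ring

theorem NL_fk {k : ℝ} (hk : 0 ≤ k) : NL (fk k) (Vk k) (4 * Real.pi ^ 2 * k) := by
  intro x u v
  set φ : ℝ → ℝ := fun t => fk k (x + t) - Vk k x * t with hφ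
  have hd : ∀ t, HasDerivAt φ (Vk k (x + t) - Vk k x) t := by
    intro t
    have h1 : HasDerivAt (fun t => fk k (x + t)) (Vk k (x + t)) t := by
      have := (hasDerivAt_fk k (x + t)).comp_const_add x t
      exact this
    have h2 : HasDerivAt (fun t => Vk k x * t) (Vk k x) t := by
      simpa using (hasDerivAt_id t).const_mul (Vk k x)
    exact h1.sub h2
  have hb : ∀ t ∈ Set.uIcc v u, ‖Vk k (x + t) - Vk k x‖ ≤ 4 * Real.pi ^ 2 * k * max |u| |v| := by
    intro t ht
    rw [Real.norm_eq_abs]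
    refine (Vk_lip hk _ _).trans ?_
    rw [add_sub_cancel_left]
    apply mul_le_mul_of_nonneg_left _ (by positivity)
    rw [Set.mem_uIcc] at ht
    rw [abs_le]
    have h1 := neg_abs_le u
    have h2 := neg_abs_le v
    have h3 := le_abs_self u
    have h4 := le_abs_self v
    have h5 := le_max_left |u| |v|
    have h6 := le_max_right |u| |v|
    rcases ht with ht | ht <;> constructor <;> linarith [ht.1, ht.2]
  have h := (convex_uIcc v u).norm_image_sub_le_of_norm_hasDerivWithin_le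
    (f := φ) (f' := fun t => Vk k (x + t) - Vk k x) (fun t _ => (hd t).hasDerivWithinAt) hb
    Set.left_mem_uIcc Set.right_mem_uIcc
  have e : fk k (x + u) - fk k (x + v) - Vk k x * (u - v) = φ u - φ v := by
    simp only [hφ]; ring
  rw [e]
  simpa [Real.norm_eq_abs] using h

/-- the orbit of `(a, b) = (x_{-1}, x_0)` -/
noncomputable def xorb (k : ℝ) (a b : ℝ) : ℕ → ℝ
  | 0 => a
  | 1 => b
  | n + 2 => fk k (xorb k a b (n + 1)) - xorb k a b n

theorem xorb_orb (k a b : ℝ) (n : ℕ) : Orb n (fk k) (xorb k a b) := by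
  intro m _
  show fk k (xorb k a b (m + 1)) - xorb k a b m + xorb k a b m = _
  ring

/-- the orbit projects to the orbit of `T` -/
theorem xorb_T (k a b : ℝ) (n : ℕ) :
    (T k)^[n] ((a : UnitAddCircle), (b : UnitAddCircle)) =
      ((xorb k a b n : UnitAddCircle), (xorb k a b (n + 1) : UnitAddCircle)) := by
  induction n with
  | zero => rfl
  | succ n ih =>
    rw [Function.iterate_succ_apply', ih]
    unfold T
    simp only
    ext
    · rfl
    · show _ = ((fk k (xorb k a b (n + 1)) - xorb k a b n : ℝ) : UnitAddCircle)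
      rw [sk_coe]
      have e : fk k (xorb k a b (n + 1)) - xorb k a b n = xorb k a b (n + 1) + xorb k a b (n + 1) +
          k * Real.sin (2 * Real.pi * xorb k a b (n + 1)) - xorb k a b n := by
        unfold fk; ring
      rw [e, AddCircle.coe_sub, AddCircle.coe_add, AddCircle.coe_add]

theorem V_eq_Vk (k x : ℝ) : V k (x : UnitAddCircle) = Vk k x := V_coe k x

theorem volume_lift_le (a0 : ℝ) {S : Set UnitAddCircle} (hS : MeasurableSet S) :
    volume {y : ℝ | y ∈ Set.Ioc (a0 - 1) (a0 + 2) ∧ (y : UnitAddCircle) ∈ S} ≤ 3 * volume S := by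
  have key : ∀ t : ℝ, volume {y : ℝ | y ∈ Set.Ioc t (t + 1) ∧ (y : UnitAddCircle) ∈ S} = volume S := by
    intro t
    have h := (UnitAddCircle.measurePreserving_mk t).measure_preimage hS.nullMeasurableSet
    rw [← h, Measure.restrict_apply ((AddCircle.measurable_mk') hS)]
    congr 1
    ext y
    simp [and_comm]
  have hsub : {y : ℝ | y ∈ Set.Ioc (a0 - 1) (a0 + 2) ∧ (y : UnitAddCircle) ∈ S} ⊆
      {y : ℝ | y ∈ Set.Ioc (a0 - 1) (a0 - 1 + 1) ∧ (y : UnitAddCircle) ∈ S} ∪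
      ({y : ℝ | y ∈ Set.Ioc a0 (a0 + 1) ∧ (y : UnitAddCircle) ∈ S} ∪
      {y : ℝ | y ∈ Set.Ioc (a0 + 1) (a0 + 1 + 1) ∧ (y : UnitAddCircle) ∈ S}) := by
    rintro y ⟨⟨h1, h2⟩, h3⟩
    rcases le_or_gt y a0 with h4 | h4
    · exact Or.inl ⟨⟨h1, by linarith⟩, h3⟩
    rcases le_or_gt y (a0 + 1) with h5 | h5
    · exact Or.inr (Or.inl ⟨⟨h4, by linarith⟩, h3⟩)
    · exact Or.inr (Or.inr ⟨⟨h5, by linarith⟩, h3⟩)
  refine (measure_mono hsub).trans ?_
  refine (measure_union_le _ _).trans ?_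
  rw [key]
  refine (add_le_add_right (measure_union_le _ _) _).trans ?_
  rw [key, key]
  apply le_of_eq
  ring

/-- **Matching on the torus** (parameters in an arbitrary unit interval). -/
theorem matching_tor_at (a0 : ℝ) {n : ℕ} (hn : 1 ≤ n) {k : ℝ} (hk : 0 ≤ k) {C ε : ℝ}
    (hε : ε ≤ 1 / 4) (hC : 0 ≤ C) (hεC : ε * C ≤ 1 / 4)
    {g : ℝ → ℝ} (hg : ∀ y z, |g y - g z| ≤ 1 / 2 * |y - z|)
    {D : Set ℝ} (hD : MeasurableSet D) (hD1 : D ⊆ Set.Icc a0 (a0 + 1))
    (γ : ℝ) (hγ : ∀ y ∈ D, |g y - γ| ≤ 1 / 8)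
    (p q w rho : ℝ → ℕ → ℝ)
    (hgood : ∀ y ∈ D, Good n (fk k) (Vk k) (4 * Real.pi ^ 2 * k) C ε (xorb k (g y) y)
      (p y) (q y) (w y) (rho y))
    {Q : Set Tor} (hQ : MeasurableSet Q)
    (hQm : ∀ y ∈ D, ∀ z : ℕ → ℝ, Orb n (fk k) z → g y ≤ z 0 → z 0 ≤ g y + 1 →
      z (n + 1) = xorb k (g y) y (n + 1) →
      (∀ m ∈ Icc 1 n, |z m - xorb k (g y) y m| ≤ 3 / 4 * w y m) →
      ((z 0 : UnitAddCircle), (z 1 : UnitAddCircle)) ∈ Q) :
    volume D ≤ ENNReal.ofReal (20 * C) * volume Q := by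
  have h1n : (1 : ℕ) ∈ Icc 1 n := by rw [Finset.mem_Icc]; omega
  have hM : 0 ≤ 4 * Real.pi ^ 2 * k := by positivity
  -- one vertical line
  have hline : ∀ X ∈ Set.Ioc (γ + 1 / 8) (γ + 7 / 8),
      volume D ≤ ENNReal.ofReal (5 * C) * (3 * volume {b : UnitAddCircle | ((X : UnitAddCircle), b) ∈ Q}) := by
    intro X hX
    have hS : MeasurableSet {b : UnitAddCircle | ((X : UnitAddCircle), b) ∈ Q} := measurable_prodMk_left hQ
    have h := matching hn (continuous_fk k) hM (NL_fk hk) hε hC hεC hg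
      (fun y => xorb k (g y) y) (fun y => rfl) (fun y => rfl) (fun y => xorb_orb k _ _ n) hD p q w rho hgood X
      (by
        intro y hy
        have h1 := abs_le.mp (hγ y hy)
        constructor <;> linarith [hX.1, hX.2])
      {y' : ℝ | y' ∈ Set.Ioc (a0 - 1) (a0 + 2) ∧ (y' : UnitAddCircle) ∈ {b : UnitAddCircle | ((X : UnitAddCircle), b) ∈ Q}}
      (by
        intro y hy z hz hz0 hzn hbox
        have h1 := abs_le.mp (hγ y hy)
        have h2 := hbox 1 h1n
        have h3 := (hgood y hy).w1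
        have h4 : xorb k (g y) y 1 = y := rfl
        rw [h4] at h2
        have h5 := abs_le.mp h2
        have h6 := hD1 hy
        rw [Set.mem_Icc] at h6
        refine ⟨⟨by linarith, by linarith⟩, ?_⟩
        show ((X : UnitAddCircle), (z 1 : UnitAddCircle)) ∈ Q
        have h7 := hQm y hy z hz (by rw [hz0]; linarith [hX.1]) (by rw [hz0]; linarith [hX.2]) hzn hbox
        rwa [hz0] at h7)
    refine h.trans ?_
    gcongr
    exact volume_lift_le a0 hS
  -- integrate over X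
  set F : UnitAddCircle → ℝ≥0∞ := fun a => volume {b : UnitAddCircle | (a, b) ∈ Q} with hF
  have hFm : Measurable F := measurable_measure_prodMk_left hQ
  have hint : ∫⁻ X in Set.Ioc (γ + 1 / 8) (γ + 7 / 8), F (X : UnitAddCircle) ≤ volume Q := by
    calc ∫⁻ X in Set.Ioc (γ + 1 / 8) (γ + 7 / 8), F (X : UnitAddCircle)
        ≤ ∫⁻ X in Set.Ioc γ (γ + 1), F (X : UnitAddCircle) := by
          apply lintegral_mono_set
          intro X hX
          exact ⟨by linarith [hX.1], by linarith [hX.2]⟩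
      _ = ∫⁻ a, F a := UnitAddCircle.lintegral_preimage γ F
      _ = volume Q := by
          rw [Measure.volume_eq_prod, Measure.prod_apply hQ]
          rfl
  have hvol : volume (Set.Ioc (γ + 1 / 8) (γ + 7 / 8)) = ENNReal.ofReal (3 / 4) := by
    rw [Real.volume_Ioc]; congr 1; ring
  have h3 : volume D * ENNReal.ofReal (3 / 4) ≤ ENNReal.ofReal (5 * C) * (3 * volume Q) := by
    calc volume D * ENNReal.ofReal (3 / 4)
        = ∫⁻ _ in Set.Ioc (γ + 1 / 8) (γ + 7 / 8), volume D := by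
          rw [setLIntegral_const, hvol]
      _ ≤ ∫⁻ X in Set.Ioc (γ + 1 / 8) (γ + 7 / 8), ENNReal.ofReal (5 * C) * (3 * F (X : UnitAddCircle)) := by
          apply setLIntegral_mono' measurableSet_Ioc
          intro X hX
          exact hline X hX
      _ = ENNReal.ofReal (5 * C) * (3 * ∫⁻ X in Set.Ioc (γ + 1 / 8) (γ + 7 / 8), F (X : UnitAddCircle)) := by
          have hmF : Measurable fun X : ℝ => F (X : UnitAddCircle) := hFm.comp AddCircle.measurable_mk'
          rw [lintegral_const_mul _ (hmF.const_mul 3), lintegral_const_mul _ hmF]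
      _ ≤ _ := by gcongr
  have h4 : volume D = volume D * ENNReal.ofReal (3 / 4) * ENNReal.ofReal (4 / 3) := by
    rw [mul_assoc, ← ENNReal.ofReal_mul (by norm_num)]
    norm_num
  rw [h4]
  calc volume D * ENNReal.ofReal (3 / 4) * ENNReal.ofReal (4 / 3)
      ≤ (ENNReal.ofReal (5 * C) * (3 * volume Q)) * ENNReal.ofReal (4 / 3) := by gcongr
    _ = ENNReal.ofReal (20 * C) * volume Q := by
        have e3 : (3 : ℝ≥0∞) = ENNReal.ofReal 3 := by norm_num
        rw [e3, ← mul_assoc, ← ENNReal.ofReal_mul (by linarith), mul_right_comm,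
          ← ENNReal.ofReal_mul (by linarith)]
        congr 2
        ring

/-- **Matching on the torus.** -/
theorem matching_tor {n : ℕ} (hn : 1 ≤ n) {k : ℝ} (hk : 0 ≤ k) {C ε : ℝ}
    (hε : ε ≤ 1 / 4) (hC : 0 ≤ C) (hεC : ε * C ≤ 1 / 4)
    {g : ℝ → ℝ} (hg : ∀ y z, |g y - g z| ≤ 1 / 2 * |y - z|)
    {D : Set ℝ} (hD : MeasurableSet D) (hD1 : D ⊆ Set.Icc 0 1)
    (γ : ℝ) (hγ : ∀ y ∈ D, |g y - γ| ≤ 1 / 8)
    (p q w rho : ℝ → ℕ → ℝ)
    (hgood : ∀ y ∈ D, Good n (fk k) (Vk k) (4 * Real.pi ^ 2 * k) C ε (xorb k (g y) y)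
      (p y) (q y) (w y) (rho y))
    {Q : Set Tor} (hQ : MeasurableSet Q)
    (hQm : ∀ y ∈ D, ∀ z : ℕ → ℝ, Orb n (fk k) z → g y ≤ z 0 → z 0 ≤ g y + 1 →
      z (n + 1) = xorb k (g y) y (n + 1) →
      (∀ m ∈ Icc 1 n, |z m - xorb k (g y) y m| ≤ 3 / 4 * w y m) →
      ((z 0 : UnitAddCircle), (z 1 : UnitAddCircle)) ∈ Q) :
    volume D ≤ ENNReal.ofReal (20 * C) * volume Q :=
  matching_tor_at 0 hn hk hε hC hεC hg hD (by simpa using hD1) γ hγ p q w rho hgood hQ hQm

end Crest.Agent.R128.BVP
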