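import Mathlib

/-! Row 128: abstract bootstrap and mass transport. Written by helper415. Sorry free. -/

namespace Crest.Agent.R128.Boot

open MeasureTheory Finset
open scoped ENNReal

/-- Continuity bootstrap: `L H = ∑_{l ≤ H} τ l`, `τ` antitone and nonnegative, `L` small at some
starting level, and `L H ≤ d → L H ≤ d / 2` at every level from there on. -/
theorem bootstrap_from {τ : ℕ → ℝ} (hanti : ∀ ⦃a b⦄, 1 ≤ a → a ≤ b → τ b ≤ τ a)
    (h0 : ∀ l, 1 ≤ l → 0 ≤ τ l) {d : ℝ} {H0 : ℕ} (hH0 : 1 ≤ H0)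
    (h1 : ∑ l ∈ Icc 1 H0, τ l ≤ d)
    (hstep : ∀ H, H0 ≤ H → ∑ l ∈ Icc 1 H, τ l ≤ d → ∑ l ∈ Icc 1 H, τ l ≤ d / 2) :
    ∀ H, ∑ l ∈ Icc 1 H, τ l ≤ d / 2 := by
  have key : ∀ n, ∑ l ∈ Icc 1 (H0 + n), τ l ≤ d / 2 := by
    intro n
    induction n with
    | zero => exact hstep H0 le_rfl h1
    | succ n ih =>
      apply hstep _ (by omega)
      have e : ∑ l ∈ Icc 1 (H0 + (n + 1)), τ l
          = ∑ l ∈ Icc 1 (H0 + n), τ l + τ (H0 + n + 1) := by
        rw [← add_assoc, Finset.sum_Icc_succ_top (by omega)]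
      have hpos : 0 ≤ ∑ l ∈ Icc 1 (H0 + n), τ l :=
        Finset.sum_nonneg fun l hl => h0 l (Finset.mem_Icc.1 hl).1
      have hlast : τ (H0 + n + 1) ≤ ∑ l ∈ Icc 1 (H0 + n), τ l := by
        calc τ (H0 + n + 1) ≤ τ 1 := hanti le_rfl (by omega)
          _ ≤ ∑ l ∈ Icc 1 (H0 + n), τ l := by
            apply Finset.single_le_sum (f := τ)
              (fun l hl => h0 l (Finset.mem_Icc.1 hl).1)
            simp only [Finset.mem_Icc]
            omega
      rw [e]
      linarith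
  intro H
  rcases le_total H0 H with h | h
  · obtain ⟨n, rfl⟩ := Nat.exists_eq_add_of_le h
    exact key n
  · refine le_trans ?_ (key 0)
    apply Finset.sum_le_sum_of_subset_of_nonneg
    · intro l hl
      simp only [Finset.mem_Icc] at hl ⊢
      omega
    · intro l hl _
      exact h0 l (Finset.mem_Icc.1 hl).1

theorem bootstrap {τ : ℕ → ℝ} (hanti : ∀ ⦃a b⦄, 1 ≤ a → a ≤ b → τ b ≤ τ a)
    (h0 : ∀ l, 1 ≤ l → 0 ≤ τ l) {d : ℝ} (h1 : τ 1 ≤ d)
    (hstep : ∀ H, 1 ≤ H → ∑ l ∈ Icc 1 H, τ l ≤ d → ∑ l ∈ Icc 1 H, τ l ≤ d / 2) :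
    ∀ H, ∑ l ∈ Icc 1 H, τ l ≤ d / 2 :=
  bootstrap_from hanti h0 le_rfl (by simpa using h1) hstep

/-- The closing inequality. -/
theorem close {L a b : ℝ} (hb : b ≤ 1 / 2) (hL0 : 0 ≤ L) (h : L ≤ a + b * L) : L ≤ 2 * a := by
  nlinarith

section Transport

variable {Ω : Type*} [MeasurableSpace Ω] {μ : Measure Ω}

/-- Mass transport: total mass sent equals total mass received. `S n` is any countable family of
measure preserving maps (for instance the powers of the standard map). -/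
theorem mass_transport {ι : Type*} [Countable ι] {S : ι → Ω → Ω}
    (hS : ∀ n, MeasurePreserving (S n) μ μ) {f : ι → Ω → ℝ≥0∞} (hf : ∀ n, Measurable (f n)) :
    ∫⁻ z, ∑' n, f n (S n z) ∂μ = ∫⁻ z, ∑' n, f n z ∂μ := by
  have hm : ∀ n, AEMeasurable (fun z => f n (S n z)) μ :=
    fun n => ((hf n).comp (hS n).measurable).aemeasurable
  rw [lintegral_tsum hm, lintegral_tsum fun n => (hf n).aemeasurable]
  congr 1
  ext n
  exact (hS n).lintegral_comp (hf n)

/-- Set version: every point of `U` lies in some `R n`, and each point `w` is hit at most `m w`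
times (`S n w ∈ R n`). -/
theorem transport_le {ι : Type*} [Countable ι] {S : ι → Ω → Ω}
    (hS : ∀ n, MeasurePreserving (S n) μ μ) {R : ι → Set Ω} (hR : ∀ n, MeasurableSet (R n))
    {U : Set Ω} (hU : U ⊆ ⋃ n, R n) {m : Ω → ℝ≥0∞}
    (hm : ∀ w, ∑' n, (R n).indicator (fun _ => (1 : ℝ≥0∞)) (S n w) ≤ m w) :
    μ U ≤ ∫⁻ w, m w ∂μ := by
  calc μ U ≤ μ (⋃ n, R n) := measure_mono hU
    _ ≤ ∑' n, μ (R n) := measure_iUnion_le _
    _ = ∫⁻ z, ∑' n, (R n).indicator (fun _ => (1 : ℝ≥0∞)) z ∂μ := by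
        rw [lintegral_tsum fun n => (measurable_const.indicator (hR n)).aemeasurable]
        congr 1
        ext n
        rw [lintegral_indicator_const (hR n), one_mul]
    _ = ∫⁻ z, ∑' n, (R n).indicator (fun _ => (1 : ℝ≥0∞)) (S n z) ∂μ :=
        (mass_transport hS fun n => measurable_const.indicator (hR n)).symm
    _ ≤ ∫⁻ w, m w ∂μ := lintegral_mono hm

/-- Kac/packing inequality: `J n` (`n < N`) are sets, `e` a measure preserving map; if for every
point the number of `n < N` with `e^n z ∈ B` is at most `b`, then `N * μ B ≤ b * μ univ`. -/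
theorem packing {e : Ω → Ω} (he : MeasurePreserving e μ μ) {B : Set Ω} (hB : MeasurableSet B)
    (N : ℕ) {b : ℝ≥0∞}
    (hb : ∀ z, ∑ n ∈ range N, B.indicator (fun _ => (1 : ℝ≥0∞)) (e^[n] z) ≤ b) :
    N * μ B ≤ b * μ Set.univ := by
  have h1 : ∀ n ∈ range N, ∫⁻ z, B.indicator (fun _ => (1 : ℝ≥0∞)) (e^[n] z) ∂μ = μ B := by
    intro n _
    have := (he.iterate n).lintegral_comp
      (measurable_const.indicator hB : Measurable (B.indicator fun _ => (1 : ℝ≥0∞)))
    rw [this, lintegral_indicator_const hB, one_mul]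
  calc N * μ B = ∑ n ∈ range N, ∫⁻ z, B.indicator (fun _ => (1 : ℝ≥0∞)) (e^[n] z) ∂μ := by
        rw [Finset.sum_congr rfl h1, Finset.sum_const, card_range, nsmul_eq_mul]
    _ = ∫⁻ z, ∑ n ∈ range N, B.indicator (fun _ => (1 : ℝ≥0∞)) (e^[n] z) ∂μ := by
        rw [lintegral_finsetSum]
        intro n _
        exact (measurable_const.indicator hB).comp (he.iterate n).measurable
    _ ≤ ∫⁻ _, b ∂μ := lintegral_mono hb
    _ = b * μ Set.univ := by rw [lintegral_const]

end Transport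

end Crest.Agent.R128.Boot
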