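import Mathlib
import Crest.Agent.R128.TreeSum

/-!
Row 128, node LAM0-DET, part 2: consequences of the elementary tree inequality for VALID fields
(no drop below the power `1 - δ`, durations controlled by `∑ |w_j|^{-δ} ≤ K`).
-/

set_option autoImplicit false

open Finset

namespace Crest.Agent.R128.TreeSum

/-- For a field with `|a_j| + 2 ≤ A` one step changes the norm at most by the factor `A`. -/
theorem inv_succ_le {a : ℕ → ℝ} {w : ℕ → ℝ × ℝ} (hw : IsField a w) {A : ℝ}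
    (hA : ∀ j, |a j| + 2 ≤ A) {j : ℕ} (h0 : 0 < nn (w j)) :
    (|a j| + 2) / (nn (w j) * nn (w (j + 1))) ≤ A ^ 2 / nn (w j) ^ 2 := by
  have h1 : 0 < nn (w (j + 1)) := hw.pos (Nat.le_succ j) h0
  have h2 : nn (w j) ≤ A * nn (w (j + 1)) := by
    have h3 := nn_le_stp (a j) (w j)
    rw [← hw j] at h3
    exact h3.trans (mul_le_mul_of_nonneg_right (hA j) h1.le)
  have hA0 : 0 < A := by
    have := hA j
    have := abs_nonneg (a j)
    linarith
  rw [div_le_div_iff₀ (by positivity) (by positivity)]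
  have h4 : (|a j| + 2) * nn (w j) ≤ A * (A * nn (w (j + 1))) :=
    mul_le_mul (hA j) h2 h0.le hA0.le
  nlinarith [mul_le_mul_of_nonneg_left h4 h0.le]

/-- The weight of a valid piece of a field: if all norms on `[m,n)` are `≥ R ≥ 1` and
`∑ |w_j|^{-δ} ≤ K` there, then `wt ≤ A² K R^{-(2-δ)}`. -/
theorem wt_le_of_valid {a : ℕ → ℝ} {w : ℕ → ℝ × ℝ} (hw : IsField a w) {A δ K R : ℝ}
    (hA : ∀ j, |a j| + 2 ≤ A) {m n : ℕ} (hR : 1 ≤ R) (hδ : δ ≤ 2)
    (h2 : ∀ j ∈ Ico m n, R ≤ nn (w j)) (h3 : ∑ j ∈ Ico m n, (nn (w j)) ^ (-δ) ≤ K) :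
    wt a w m n ≤ A ^ 2 * K * R ^ (-(2 - δ)) := by
  have hR0 : 0 < R := by linarith
  calc wt a w m n ≤ ∑ j ∈ Ico m n, A ^ 2 * (R ^ (-(2 - δ)) * (nn (w j)) ^ (-δ)) := by
        unfold wt
        apply Finset.sum_le_sum
        intro j hj
        have hj0 : 0 < nn (w j) := by linarith [h2 j hj]
        refine (inv_succ_le hw hA hj0).trans ?_
        rw [div_eq_mul_inv]
        refine mul_le_mul_of_nonneg_left ?_ (sq_nonneg A)
        have e : (nn (w j) ^ 2)⁻¹ = (nn (w j)) ^ (-(2 - δ)) * (nn (w j)) ^ (-δ) := by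
          rw [← Real.rpow_add hj0, ← Real.rpow_natCast, ← Real.rpow_neg hj0.le]
          congr 1
          push_cast
          ring
        rw [e]
        refine mul_le_mul_of_nonneg_right ?_ (Real.rpow_nonneg hj0.le _)
        exact Real.rpow_le_rpow_of_nonpos hR0 (h2 j hj) (by linarith)
    _ = A ^ 2 * R ^ (-(2 - δ)) * ∑ j ∈ Ico m n, (nn (w j)) ^ (-δ) := by
        rw [Finset.mul_sum]
        apply Finset.sum_congr rfl
        intro j _
        ring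
    _ ≤ A ^ 2 * R ^ (-(2 - δ)) * K := by
        refine mul_le_mul_of_nonneg_left h3 ?_
        positivity
    _ = _ := by ring

/-- **Growth of every vector along a valid field** (`3 f_j < c_j` in tree language):
`‖A_{m→n} z‖ ≤ ‖z‖ ‖w_n‖ (2 + A² K) ‖w_m‖^{-(1-3δ)}`. -/
theorem growth_le_of_valid {a : ℕ → ℝ} {w z : ℕ → ℝ × ℝ} (hw : IsField a w) (hz : IsField a z)
    {A δ K : ℝ} (hA : ∀ j, |a j| + 2 ≤ A) (hδ0 : 0 ≤ δ) (hδ : δ ≤ 1 / 3) {m n : ℕ} (hmn : m ≤ n)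
    (h1 : 1 ≤ nn (w m)) (h2 : ∀ j ∈ Icc m n, (nn (w m)) ^ (1 - δ) ≤ nn (w j))
    (h3 : ∑ j ∈ Ico m n, (nn (w j)) ^ (-δ) ≤ K) :
    nn (z n) ≤ nn (z m) * nn (w n) * ((2 + A ^ 2 * K) * (nn (w m)) ^ (-(1 - 3 * δ))) := by
  set B := nn (w m) with hB
  have hB0 : 0 < B := by linarith
  have hn0 : 0 < nn (w n) := hw.pos hmn hB0
  have hK : 0 ≤ K := le_trans (Finset.sum_nonneg fun j _ => Real.rpow_nonneg (nn_nonneg _) _) h3
  have t := tree_ineq hw hz hmn hB0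
  rw [← hB] at t
  have hwt : wt a w m n ≤ A ^ 2 * K * (B ^ (1 - δ)) ^ (-(2 - δ)) := by
    refine wt_le_of_valid hw hA (Real.one_le_rpow h1 (by linarith)) (by linarith) ?_ h3
    intro j hj
    rw [Finset.mem_Ico] at hj
    exact h2 j (Finset.mem_Icc.mpr ⟨hj.1, hj.2.le⟩)
  have hM : B ^ (1 - δ) ≤ nn (w n) := h2 n (Finset.mem_Icc.mpr ⟨hmn, le_rfl⟩)
  -- three estimates
  have e1 : nn (w n) / B ≤ nn (w n) * B ^ (-(1 - 3 * δ)) := by
    rw [div_eq_mul_inv]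
    refine mul_le_mul_of_nonneg_left ?_ hn0.le
    rw [← Real.rpow_neg_one]
    exact Real.rpow_le_rpow_of_exponent_le h1 (by linarith)
  have e2 : B / nn (w n) ≤ nn (w n) * B ^ (-(1 - 3 * δ)) := by
    rw [div_le_iff₀ hn0]
    have h5 : B ^ (2 * (1 - δ)) ≤ nn (w n) * nn (w n) := by
      have : B ^ (2 * (1 - δ)) = B ^ (1 - δ) * B ^ (1 - δ) := by
        rw [← Real.rpow_add hB0]; congr 1; ring
      rw [this]
      exact mul_le_mul hM hM (Real.rpow_nonneg hB0.le _) hn0.le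
    have h6 : B ≤ B ^ (2 * (1 - δ)) * B ^ (-(1 - 3 * δ)) := by
      rw [← Real.rpow_add hB0]
      have : 2 * (1 - δ) + -(1 - 3 * δ) = 1 + δ := by ring
      rw [this]
      calc B = B ^ (1 : ℝ) := (Real.rpow_one B).symm
        _ ≤ B ^ (1 + δ) := Real.rpow_le_rpow_of_exponent_le h1 (by linarith)
    calc B ≤ B ^ (2 * (1 - δ)) * B ^ (-(1 - 3 * δ)) := h6
      _ ≤ (nn (w n) * nn (w n)) * B ^ (-(1 - 3 * δ)) :=
        mul_le_mul_of_nonneg_right h5 (Real.rpow_nonneg hB0.le _)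
      _ = _ := by ring
  have e3 : B * nn (w n) * wt a w m n ≤ nn (w n) * (A ^ 2 * K * B ^ (-(1 - 3 * δ))) := by
    have h7 : (B ^ (1 - δ)) ^ (-(2 - δ)) ≤ B ^ (-(2 - 3 * δ)) := by
      rw [← Real.rpow_mul hB0.le]
      apply Real.rpow_le_rpow_of_exponent_le h1
      nlinarith
    have h8 : B * B ^ (-(2 - 3 * δ)) = B ^ (-(1 - 3 * δ)) := by
      conv_lhs => rw [show B * B ^ (-(2 - 3 * δ)) = B ^ (1 : ℝ) * B ^ (-(2 - 3 * δ)) by
        rw [Real.rpow_one]]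
      rw [← Real.rpow_add hB0]
      congr 1
      ring
    calc B * nn (w n) * wt a w m n ≤ B * nn (w n) * (A ^ 2 * K * (B ^ (1 - δ)) ^ (-(2 - δ))) := by
          gcongr
      _ ≤ B * nn (w n) * (A ^ 2 * K * B ^ (-(2 - 3 * δ))) := by gcongr
      _ = nn (w n) * (A ^ 2 * K * (B * B ^ (-(2 - 3 * δ)))) := by ring
      _ = _ := by rw [h8]
  calc nn (z n) ≤ nn (z m) * (nn (w n) / B + B / nn (w n) + B * nn (w n) * wt a w m n) := t
    _ ≤ nn (z m) * (nn (w n) * B ^ (-(1 - 3 * δ)) + nn (w n) * B ^ (-(1 - 3 * δ)) +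
        nn (w n) * (A ^ 2 * K * B ^ (-(1 - 3 * δ)))) := by
        refine mul_le_mul_of_nonneg_left ?_ (nn_nonneg _)
        linarith
    _ = _ := by ring

/-- **One start per level**, final form: two valid starts of the same tip; `w` = field of the
earlier start, `z` = field of the later start (started at time `m`, `‖z_m‖ ≤ Z`). -/
theorem count_valid {a : ℕ → ℝ} {w z : ℕ → ℝ × ℝ} (hw : IsField a w) (hz : IsField a z)
    {A δ K κ : ℝ} (hA : ∀ j, |a j| + 2 ≤ A) (hδ0 : 0 ≤ δ) (hδ : δ ≤ 1 / 3) {m n : ℕ} (hmn : m ≤ n)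
    (h1 : 1 ≤ nn (w m)) (h2 : ∀ j ∈ Icc m n, (nn (w m)) ^ (1 - δ) ≤ nn (w j))
    (h3 : ∑ j ∈ Ico m n, (nn (w j)) ^ (-δ) ≤ K) (hκ : 0 ≤ κ)
    (hB : κ * nn (z m) * (2 + A ^ 2 * K) ≤ (nn (w m)) ^ (1 - 3 * δ)) :
    κ * nn (z n) ≤ nn (w n) := by
  have hB0 : 0 < nn (w m) := by linarith
  have t := growth_le_of_valid hw hz hA hδ0 hδ hmn h1 h2 h3
  have hn0 : 0 < nn (w n) := hw.pos hmn hB0
  have hp : 0 < (nn (w m)) ^ (1 - 3 * δ) := Real.rpow_pos_of_pos hB0 _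
  calc κ * nn (z n) ≤ κ * (nn (z m) * nn (w n) *
        ((2 + A ^ 2 * K) * (nn (w m)) ^ (-(1 - 3 * δ)))) := mul_le_mul_of_nonneg_left t hκ
    _ = (κ * nn (z m) * (2 + A ^ 2 * K)) * (nn (w m)) ^ (-(1 - 3 * δ)) * nn (w n) := by ring
    _ ≤ (nn (w m)) ^ (1 - 3 * δ) * (nn (w m)) ^ (-(1 - 3 * δ)) * nn (w n) := by
        gcongr
    _ = nn (w n) := by
        rw [Real.rpow_neg hB0.le, mul_inv_cancel₀ hp.ne', one_mul]

end Crest.Agent.R128.TreeSum
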