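import Mathlib
import Crest.Agent.R128.BVP7
import Crest.Agent.R128.Lam0U

/-!
Row 128, node LAM0 (P3): the `(0,1)` field of an orbit of real numbers, strict validity, and the exact
statement `CoreStmt` of the shadowing/coherence theorem used in the proof of P3.
-/

set_option autoImplicit false

open Finset MeasureTheory

namespace Crest.Agent.R128.Lam0

open Crest.Agent.R128.BVP

/-- the `(0,1)` field along the orbit of `(a, b)`, positions `0, 1, 2, …` -/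
noncomputable def pk (k a b : ℝ) : ℕ → ℝ
  | 0 => 0
  | 1 => 1
  | m + 2 => Vk k (xorb k a b (m + 1)) * pk k a b (m + 1) - pk k a b m

/-- max norm of the field -/
noncomputable def nf (k a b : ℝ) (m : ℕ) : ℝ := max |pk k a b m| |pk k a b (m + 1)|

theorem fld_pk (k a b : ℝ) (m : ℕ) :
    fld k ((a : UnitAddCircle), (b : UnitAddCircle)) m = (pk k a b m, pk k a b (m + 1)) := by
  induction m with
  | zero => rw [fld_zero]; rfl
  | succ m ih =>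
    rw [fld_succ, ih, xorb_T]
    unfold TreeSum.stp
    simp only
    rw [V_eq_Vk]
    rfl

theorem norm_fld_pk (k a b : ℝ) (m : ℕ) :
    ‖fld k ((a : UnitAddCircle), (b : UnitAddCircle)) m‖ = nf k a b m := by
  rw [fld_pk, Prod.norm_def]
  rfl

/-- strict validity before the time `n'` -/
structure SV (k : ℝ) (L : ℕ) (a b : ℝ) (n' : ℕ) : Prop where
  cl : ∀ m ∈ Icc 1 L, k ^ (2 / 3 : ℝ) ≤ |Vk k (xorb k a b m)|
  v2 : ∀ i j, L ≤ i → i ≤ j → j < n' → nf k a b i ^ 99 ≤ nf k a b j ^ 100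
  v3 : ∀ j, L ≤ j → j < n' → ∃ i, L ≤ i ∧ i ≤ j ∧ (j : ℝ) ^ 400 ≤ nf k a b i

/-- The shadowing/coherence theorem. -/
def CoreStmt : Prop :=
  ∃ K0 : ℝ, ∀ k, K0 ≤ k → ∀ X, k ^ 600 ≤ X → ∃ r, 0 < r ∧ r ≤ 1 ∧
    ∀ g : ℝ → ℝ, (∀ y z, |g y - g z| ≤ 1 / 8 * |y - z|) → ∀ (l : ℝ) (S : Set ℝ) (n' : ℝ → ℕ),
    (∀ x ∈ S, |l - g x| ≤ 1 ∧ SV k 1000 (g x) x (n' x) ∧ (∃ i < n' x, X ≤ nf k (g x) x i) ∧
      ∀ i < n' x, nf k (g x) x i ≤ k * X) →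
    ∃ Y : ℝ → ℝ,
      (∀ x ∈ S, |Y x - x| ≤ 1 ∧ ∀ s, |s - Y x| ≤ r → ∀ m ≤ n' x,
        nf k (g x) x m ≤ 2 * nf k l s m ∧ nf k l s m ≤ 2 * nf k (g x) x m) ∧
      ∀ x ∈ S, ∀ x' ∈ S, |Y x - Y x'| ≤ 2 * r → |x - x'| ≤ 50 * r

end Crest.Agent.R128.Lam0
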