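import Mathlib

/-!
Row 128, node LAM0-VAL, part 1: the three numerical sums along a VALID field
(`W m = b ^ (u m)`, `δ = 1/100`).
-/

set_option autoImplicit false

open Finset

namespace Crest.Agent.R128.Val

/-- geometric sum bound -/
theorem geom_le {b : ℝ} (hb : 16 ≤ b) (s : Finset ℕ) (m : ℕ) :
    ∑ j ∈ s with m ≤ j, (b⁻¹) ^ (j - m) ≤ 16 / 15 := by
  have hb0 : 0 < b := by linarith
  have h1 : b⁻¹ ≤ 1 / 16 := by
    rw [inv_eq_one_div]
    exact one_div_le_one_div_of_le (by norm_num) hb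
  have h0 : 0 ≤ b⁻¹ := by positivity
  have hlt : b⁻¹ < 1 := by linarith
  have hinj : ∑ j ∈ s with m ≤ j, (b⁻¹) ^ (j - m) =
      ∑ i ∈ (s.filter (fun j => m ≤ j)).image (fun j => j - m), (b⁻¹) ^ i := by
    rw [Finset.sum_image]
    intro x hx y hy hxy
    simp only [Finset.coe_filter, Set.mem_ofPred_eq] at hx hy
    simp only at hxy
    omega
  rw [hinj]
  have hs : Summable (fun i : ℕ => (b⁻¹) ^ i) := summable_geometric_of_lt_one h0 hlt
  refine (hs.sum_le_tsum _ (fun i _ => by positivity)).trans ?_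
  rw [tsum_geometric_of_lt_one h0 hlt]
  rw [inv_eq_one_div, div_le_div_iff₀ (by linarith) (by norm_num)]
  linarith

variable {b : ℝ} {n : ℕ} {u lam : ℕ → ℝ}

/-- the hypotheses on the exponents -/
structure Expo (b : ℝ) (n : ℕ) (u : ℕ → ℝ) : Prop where
  hb : 16 ≤ b
  hn : 35 ≤ n
  u0 : u 0 = 0
  up : ∀ m < n, u (m + 1) ≤ u m + 2
  dn : ∀ m < n, u m ≤ u (m + 1) + 2
  cl : ∀ m < 35, u m + 1 ≤ u (m + 1)
  v2 : ∀ i j, i ≤ j → j ≤ n → 99 / 100 * u i - 1 / 10 ≤ u j
  v3 : ∑ j ∈ range (n + 1), b ^ (-(1 / 100 * u j)) ≤ b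

theorem Expo.b0 (E : Expo b n u) : 0 < b := by linarith [E.hb]

theorem Expo.clean (E : Expo b n u) {i j : ℕ} (hij : i ≤ j) (hj : j ≤ 35) :
    u i + ((j - i : ℕ) : ℝ) ≤ u j := by
  induction j, hij using Nat.le_induction with
  | base => simp
  | succ j hij ih =>
    have h1 := ih (by omega)
    have h2 := E.cl j (by omega)
    have h3 : ((j + 1 - i : ℕ) : ℝ) = ((j - i : ℕ) : ℝ) + 1 := by
      rw [Nat.sub_add_comm hij]; push_cast; ring
    rw [h3]; linarith

theorem Expo.ub (E : Expo b n u) {m : ℕ} (hm : m ≤ n) : u m ≤ 2 * m := by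
  induction m with
  | zero => simp [E.u0]
  | succ m ih =>
    have := E.up m (by omega)
    have := ih (by omega)
    push_cast
    linarith

theorem Expo.u30 (E : Expo b n u) : 30 ≤ u 30 := by
  have := E.clean (Nat.zero_le 30) (by norm_num)
  rw [E.u0] at this
  norm_num at this
  exact this

theorem Expo.big (E : Expo b n u) {m : ℕ} (h30 : 30 ≤ m) (hm : m ≤ n) : 296 / 10 ≤ u m := by
  have := E.v2 30 m h30 hm
  have := E.u30
  linarith

theorem Expo.nonneg (E : Expo b n u) {m : ℕ} (hm : m ≤ n) : 0 ≤ u m := by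
  rcases Nat.lt_or_ge m 30 with h | h
  · have := E.clean (Nat.zero_le m) (by omega)
    rw [E.u0] at this
    have : (0 : ℝ) ≤ ((m - 0 : ℕ) : ℝ) := Nat.cast_nonneg _
    linarith
  · have := E.big h hm
    linarith

theorem Expo.sum_le (E : Expo b n u) (s : Finset ℕ) (hs : s ⊆ range (n + 1)) :
    ∑ j ∈ s, b ^ (-(1 / 100 * u j)) ≤ b := by
  refine le_trans ?_ E.v3
  exact Finset.sum_le_sum_of_subset_of_nonneg hs fun j _ _ => Real.rpow_nonneg E.b0.le _

theorem Expo.mono (E : Expo b n u) {x y : ℝ} (h : x ≤ y) : b ^ x ≤ b ^ y :=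
  Real.rpow_le_rpow_of_exponent_le (by linarith [E.hb]) h

/-- the two upper bounds on `lam` -/
structure LamB (b : ℝ) (n : ℕ) (u lam : ℕ → ℝ) : Prop where
  pos : ∀ m ≤ n, 0 ≤ lam m
  c : ∀ m ≤ 30, lam m ≤ 3 * b ^ (-u m)
  g : ∀ m ≤ n, lam m ≤ 2 * b ^ (6 - 97 / 100 * u m)

theorem Expo.pow_inv (E : Expo b n u) (k : ℕ) : (b⁻¹) ^ k = b ^ (-(k : ℝ)) := by
  rw [Real.rpow_neg E.b0.le, Real.rpow_natCast, inv_pow]

theorem Expo.small (E : Expo b n u) {x : ℝ} {k : ℕ} (h : x ≤ -(k : ℝ)) :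
    b ^ x ≤ (1 / 16) ^ k := by
  refine (E.mono h).trans ?_
  rw [← E.pow_inv]
  apply pow_le_pow_left₀ (by have := E.b0; positivity)
  rw [inv_eq_one_div]
  exact one_div_le_one_div_of_le (by norm_num) E.hb

theorem sum2 (E : Expo b n u) (L : LamB b n u lam) :
    ∑ j ∈ Icc 1 n, lam j ^ 2 * b ^ u (j - 1) ≤ 11 * b ^ (-2 : ℝ) := by
  have hb0 := E.b0
  have hpt : ∀ j ∈ Icc 1 n, lam j ^ 2 * b ^ u (j - 1) ≤
      9 * b ^ (-2 : ℝ) * (if 1 ≤ j then (b⁻¹) ^ (j - 1) else 0) +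
        4 * b ^ (-13 : ℝ) * b ^ (-(1 / 100 * u j)) := by
    intro j hj
    rw [Finset.mem_Icc] at hj
    rw [if_pos hj.1]
    have hl := L.pos j hj.2
    rcases Nat.lt_or_ge 30 j with h | h
    · have h1 := L.g j hj.2
      have h2 : lam j ^ 2 ≤ (2 * b ^ (6 - 97 / 100 * u j)) ^ 2 := pow_le_pow_left₀ hl h1 2
      have h3 : b ^ u (j - 1) ≤ b ^ (u j + 2) := by
        apply E.mono
        have := E.dn (j - 1) (by omega)
        rwa [Nat.sub_add_cancel hj.1] at this
      have h4 : (2 * b ^ (6 - 97 / 100 * u j)) ^ 2 * b ^ (u j + 2) =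
          4 * b ^ (14 - 93 / 100 * u j) * b ^ (-(1 / 100 * u j)) := by
        rw [mul_pow, ← Real.rpow_natCast (b ^ _) 2, ← Real.rpow_mul hb0.le, mul_assoc,
          ← Real.rpow_add hb0, mul_assoc, ← Real.rpow_add hb0]
        congr 1
        · norm_num
        · congr 1
          push_cast
          ring
      have h5 : b ^ (14 - 93 / 100 * u j) ≤ b ^ (-13 : ℝ) := by
        apply E.mono
        have := E.big h.le hj.2
        linarith
      calc lam j ^ 2 * b ^ u (j - 1) ≤ (2 * b ^ (6 - 97 / 100 * u j)) ^ 2 * b ^ (u j + 2) := by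
            gcongr
        _ = 4 * b ^ (14 - 93 / 100 * u j) * b ^ (-(1 / 100 * u j)) := h4
        _ ≤ 4 * b ^ (-13 : ℝ) * b ^ (-(1 / 100 * u j)) := by gcongr
        _ ≤ _ := by
          have : 0 ≤ 9 * b ^ (-2 : ℝ) * (b⁻¹) ^ (j - 1) := by positivity
          linarith
    · have h1 := L.c j h
      have h2 : lam j ^ 2 ≤ (3 * b ^ (-u j)) ^ 2 := pow_le_pow_left₀ hl h1 2
      have h4 : (3 * b ^ (-u j)) ^ 2 * b ^ u (j - 1) = 9 * b ^ (u (j - 1) - 2 * u j) := by
        rw [mul_pow, ← Real.rpow_natCast (b ^ _) 2, ← Real.rpow_mul hb0.le, mul_assoc,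
          ← Real.rpow_add hb0]
        congr 1
        · norm_num
        · congr 1
          push_cast
          ring
      have h5 : b ^ (u (j - 1) - 2 * u j) ≤ b ^ (-2 : ℝ) * (b⁻¹) ^ (j - 1) := by
        rw [E.pow_inv, ← Real.rpow_add hb0]
        apply E.mono
        have h6 := E.clean (Nat.zero_le j) (by omega)
        have h7 := E.cl (j - 1) (by omega)
        rw [Nat.sub_add_cancel hj.1] at h7
        rw [E.u0] at h6
        have h8 : ((j - 1 : ℕ) : ℝ) = (j : ℝ) - 1 := by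
          rw [Nat.cast_sub hj.1]; simp
        rw [h8]
        simp only [Nat.sub_zero] at h6
        linarith
      calc lam j ^ 2 * b ^ u (j - 1) ≤ (3 * b ^ (-u j)) ^ 2 * b ^ u (j - 1) := by gcongr
        _ = 9 * b ^ (u (j - 1) - 2 * u j) := h4
        _ ≤ 9 * (b ^ (-2 : ℝ) * (b⁻¹) ^ (j - 1)) := by gcongr
        _ ≤ _ := by
          have : 0 ≤ 4 * b ^ (-13 : ℝ) * b ^ (-(1 / 100 * u j)) := by positivity
          linarith
  refine (Finset.sum_le_sum hpt).trans ?_
  rw [Finset.sum_add_distrib, ← Finset.mul_sum, ← Finset.mul_sum, ← Finset.sum_filter]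
  have g1 := geom_le E.hb (Icc 1 n) 1
  have g2 := E.sum_le (Icc 1 n) (by
    intro j hj
    rw [Finset.mem_Icc] at hj
    rw [Finset.mem_range]
    omega)
  have g3 : b ^ (-13 : ℝ) * b = b ^ (-12 : ℝ) := by
    conv_lhs => rw [← Real.rpow_one b, ← Real.rpow_mul hb0.le, ← Real.rpow_add hb0]
    norm_num
  have g4 : b ^ (-12 : ℝ) ≤ b ^ (-2 : ℝ) * (1 / 16) := by
    have : b ^ (-12 : ℝ) = b ^ (-2 : ℝ) * b ^ (-10 : ℝ) := by
      rw [← Real.rpow_add hb0]; norm_num
    rw [this]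
    have h12 : b ^ (-10 : ℝ) ≤ (1 / 16) ^ 1 := E.small (by norm_num)
    rw [pow_one] at h12
    gcongr
  have p2 : 0 ≤ b ^ (-2 : ℝ) := by positivity
  have p15 : 0 ≤ b ^ (-13 : ℝ) := by positivity
  nlinarith [mul_le_mul_of_nonneg_left g1 p2, mul_le_mul_of_nonneg_left g2 p15]

theorem sum3 (E : Expo b n u) (L : LamB b n u lam) {m : ℕ} (hm : m ∈ Icc 1 n) :
    b ^ u (m - 1) * b ^ u m * ∑ j ∈ Ioc m n, lam j ^ 3 ≤ 30 * b ^ (-3 : ℝ) := by
  have hb0 := E.b0
  rw [Finset.mem_Icc] at hm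
  have hpt : ∀ j ∈ Ioc m n, b ^ u (m - 1) * b ^ u m * lam j ^ 3 ≤
      27 * b ^ (-3 : ℝ) * (if m + 1 ≤ j then (b⁻¹) ^ (j - (m + 1)) else 0) +
        8 * b ^ (-5 : ℝ) * b ^ (-(1 / 100 * u j)) := by
    intro j hj
    rw [Finset.mem_Ioc] at hj
    rw [if_pos (by omega)]
    have hl := L.pos j hj.2
    rcases Nat.lt_or_ge 30 j with h | h
    · have h1 := L.g j hj.2
      have h2 : lam j ^ 3 ≤ (2 * b ^ (6 - 97 / 100 * u j)) ^ 3 := pow_le_pow_left₀ hl h1 3
      have h3 : b ^ u (m - 1) ≤ b ^ (u m + 2) := by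
        apply E.mono
        have := E.dn (m - 1) (by omega)
        rwa [Nat.sub_add_cancel hm.1] at this
      have h4 : b ^ (u m + 2) * b ^ u m * (2 * b ^ (6 - 97 / 100 * u j)) ^ 3 =
          8 * b ^ (20 + 2 * u m - 29 / 10 * u j) * b ^ (-(1 / 100 * u j)) := by
        rw [mul_pow, ← Real.rpow_natCast (b ^ (6 - 97 / 100 * u j)) 3, ← Real.rpow_mul hb0.le,
          ← Real.rpow_add hb0]
        have : b ^ (u m + 2 + u m) * (2 ^ 3 * b ^ ((6 - 97 / 100 * u j) * ((3 : ℕ) : ℝ))) =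
          8 * (b ^ (u m + 2 + u m) * b ^ ((6 - 97 / 100 * u j) * ((3 : ℕ) : ℝ))) := by ring
        rw [this, ← Real.rpow_add hb0, mul_assoc, ← Real.rpow_add hb0]
        congr 2
        push_cast
        ring
      have h5 : b ^ (20 + 2 * u m - 29 / 10 * u j) ≤ b ^ (-5 : ℝ) := by
        apply E.mono
        have h6 := E.big h.le hj.2
        have h7 := E.v2 m j hj.1.le hj.2
        linarith
      calc b ^ u (m - 1) * b ^ u m * lam j ^ 3
          ≤ b ^ (u m + 2) * b ^ u m * (2 * b ^ (6 - 97 / 100 * u j)) ^ 3 := by gcongr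
        _ = 8 * b ^ (20 + 2 * u m - 29 / 10 * u j) * b ^ (-(1 / 100 * u j)) := h4
        _ ≤ 8 * b ^ (-5 : ℝ) * b ^ (-(1 / 100 * u j)) := by gcongr
        _ ≤ _ := by
          have : 0 ≤ 27 * b ^ (-3 : ℝ) * (b⁻¹) ^ (j - (m + 1)) := by positivity
          linarith
    · have h1 := L.c j h
      have h2 : lam j ^ 3 ≤ (3 * b ^ (-u j)) ^ 3 := pow_le_pow_left₀ hl h1 3
      have h4 : b ^ u (m - 1) * b ^ u m * (3 * b ^ (-u j)) ^ 3 =
          27 * b ^ (u (m - 1) + u m - 3 * u j) := by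
        rw [mul_pow, ← Real.rpow_natCast (b ^ (-u j)) 3, ← Real.rpow_mul hb0.le,
          ← Real.rpow_add hb0]
        have : b ^ (u (m - 1) + u m) * (3 ^ 3 * b ^ ((-u j) * ((3 : ℕ) : ℝ))) =
          27 * (b ^ (u (m - 1) + u m) * b ^ ((-u j) * ((3 : ℕ) : ℝ))) := by ring
        rw [this, ← Real.rpow_add hb0]
        congr 2
        push_cast
        ring
      have h5 : b ^ (u (m - 1) + u m - 3 * u j) ≤ b ^ (-3 : ℝ) * (b⁻¹) ^ (j - (m + 1)) := by
        rw [E.pow_inv, ← Real.rpow_add hb0]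
        apply E.mono
        have h6 := E.clean hj.1.le (by omega : j ≤ 35)
        have h7 := E.cl (m - 1) (by omega)
        rw [Nat.sub_add_cancel hm.1] at h7
        have h8 : ((j - (m + 1) : ℕ) : ℝ) = (j : ℝ) - (m : ℝ) - 1 := by
          rw [Nat.cast_sub (by omega)]; push_cast; ring
        have h9 : ((j - m : ℕ) : ℝ) = (j : ℝ) - (m : ℝ) := by
          rw [Nat.cast_sub (by omega)]
        have h10 := E.nonneg hm.2
        have h11 : (m : ℝ) + 1 ≤ (j : ℝ) := by exact_mod_cast hj.1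
        rw [h8]
        rw [h9] at h6
        linarith
      calc b ^ u (m - 1) * b ^ u m * lam j ^ 3
          ≤ b ^ u (m - 1) * b ^ u m * (3 * b ^ (-u j)) ^ 3 := by gcongr
        _ = 27 * b ^ (u (m - 1) + u m - 3 * u j) := h4
        _ ≤ 27 * (b ^ (-3 : ℝ) * (b⁻¹) ^ (j - (m + 1))) := by gcongr
        _ ≤ _ := by
          have : 0 ≤ 8 * b ^ (-5 : ℝ) * b ^ (-(1 / 100 * u j)) := by positivity
          linarith
  rw [Finset.mul_sum]
  refine (Finset.sum_le_sum hpt).trans ?_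
  rw [Finset.sum_add_distrib, ← Finset.mul_sum, ← Finset.mul_sum, ← Finset.sum_filter]
  have g1 := geom_le E.hb (Ioc m n) (m + 1)
  have g2 := E.sum_le (Ioc m n) (by
    intro j hj
    rw [Finset.mem_Ioc] at hj
    rw [Finset.mem_range]
    omega)
  have g3 : b ^ (-5 : ℝ) * b = b ^ (-4 : ℝ) := by
    conv_lhs => rw [← Real.rpow_one b, ← Real.rpow_mul hb0.le, ← Real.rpow_add hb0]
    norm_num
  have g4 : b ^ (-4 : ℝ) ≤ b ^ (-3 : ℝ) * (1 / 16) := by
    have : b ^ (-4 : ℝ) = b ^ (-3 : ℝ) * b ^ (-1 : ℝ) := by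
      rw [← Real.rpow_add hb0]; norm_num
    rw [this]
    have h12 : b ^ (-1 : ℝ) ≤ (1 / 16) ^ 1 := E.small (by norm_num)
    have h13 : b ^ (-1 : ℝ) ≤ 1 / 16 := h12.trans (by norm_num)
    gcongr
  have p3 : 0 ≤ b ^ (-3 : ℝ) := by positivity
  have p8 : 0 ≤ b ^ (-5 : ℝ) := by positivity
  nlinarith [mul_le_mul_of_nonneg_left g1 p3, mul_le_mul_of_nonneg_left g2 p8]

theorem sum1 (E : Expo b n u) (L : LamB b n u lam) {m : ℕ} (hm : m ∈ Icc 1 n) :
    lam m * ∑ j ∈ Icc 1 m, (b ^ u (j - 1)) ^ 2 * lam j ≤ 10 * b ^ (-2 : ℝ) * b ^ u (m - 1) := by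
  have hb0 := E.b0
  rw [Finset.mem_Icc] at hm
  have hlm := L.pos m hm.2
  have hsq : ∀ x : ℝ, (b ^ x) ^ 2 = b ^ (2 * x) := by
    intro x
    rw [← Real.rpow_natCast (b ^ x) 2, ← Real.rpow_mul hb0.le]
    congr 1
    push_cast
    ring
  have hS0 : 0 ≤ ∑ j ∈ Icc 1 m, (b ^ u (j - 1)) ^ 2 * lam j := by
    apply Finset.sum_nonneg
    intro j hj
    rw [Finset.mem_Icc] at hj
    exact mul_nonneg (sq_nonneg _) (L.pos j (by omega))
  rcases Nat.lt_or_ge 30 m with h | h
  · have hpt : ∀ j ∈ Icc 1 m, (b ^ u (j - 1)) ^ 2 * lam j ≤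
        2 * b ^ (1011 / 100 + 10506 / 10000 * u m) * b ^ (-(1 / 100 * u j)) := by
      intro j hj
      rw [Finset.mem_Icc] at hj
      have h1 := L.g j (by omega)
      have h2 : b ^ (2 * u (j - 1)) ≤ b ^ (2 * u j + 4) := by
        apply E.mono
        have := E.dn (j - 1) (by omega)
        rw [Nat.sub_add_cancel hj.1] at this
        linarith
      have h3 := L.pos j (by omega)
      have h4 : b ^ (2 * u j + 4) * (2 * b ^ (6 - 97 / 100 * u j)) =
          2 * b ^ (10 + 104 / 100 * u j) * b ^ (-(1 / 100 * u j)) := by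
        have : b ^ (2 * u j + 4) * (2 * b ^ (6 - 97 / 100 * u j)) =
          2 * (b ^ (2 * u j + 4) * b ^ (6 - 97 / 100 * u j)) := by ring
        rw [this, ← Real.rpow_add hb0, mul_assoc, ← Real.rpow_add hb0]
        congr 2
        ring
      have h5 : b ^ (10 + 104 / 100 * u j) ≤ b ^ (1011 / 100 + 10506 / 10000 * u m) := by
        apply E.mono
        have h6 := E.v2 j m hj.2 hm.2
        have h7 := E.nonneg hm.2
        have h8 := E.nonneg (by omega : j ≤ n)
        linarith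
      rw [hsq]
      calc b ^ (2 * u (j - 1)) * lam j ≤ b ^ (2 * u j + 4) * (2 * b ^ (6 - 97 / 100 * u j)) := by
            gcongr
        _ = 2 * b ^ (10 + 104 / 100 * u j) * b ^ (-(1 / 100 * u j)) := h4
        _ ≤ _ := by gcongr
    have hS : ∑ j ∈ Icc 1 m, (b ^ u (j - 1)) ^ 2 * lam j ≤
        2 * b ^ (1111 / 100 + 10506 / 10000 * u m) := by
      refine (Finset.sum_le_sum hpt).trans ?_
      rw [← Finset.mul_sum]
      have g2 := E.sum_le (Icc 1 m) (by
        intro j hj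
        rw [Finset.mem_Icc] at hj
        rw [Finset.mem_range]
        omega)
      have g3 : b ^ (1011 / 100 + 10506 / 10000 * u m) * b = b ^ (1111 / 100 + 10506 / 10000 * u m) := by
        nth_rewrite 2 [← Real.rpow_one b]
        rw [← Real.rpow_add hb0]
        congr 1
        ring
      calc 2 * b ^ (1011 / 100 + 10506 / 10000 * u m) * ∑ j ∈ Icc 1 m, b ^ (-(1 / 100 * u j))
          ≤ 2 * b ^ (1011 / 100 + 10506 / 10000 * u m) * b := by gcongr
        _ = 2 * b ^ (1111 / 100 + 10506 / 10000 * u m) := by rw [mul_assoc, g3]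
    have h1 := L.g m hm.2
    have h6 : b ^ (1711 / 100 + 806 / 10000 * u m) ≤ b ^ (-2 : ℝ) * b ^ u (m - 1) := by
      rw [← Real.rpow_add hb0]
      apply E.mono
      have h7 := E.big h.le hm.2
      have h8 := E.up (m - 1) (by omega)
      rw [Nat.sub_add_cancel hm.1] at h8
      linarith
    calc lam m * ∑ j ∈ Icc 1 m, (b ^ u (j - 1)) ^ 2 * lam j
        ≤ (2 * b ^ (6 - 97 / 100 * u m)) * (2 * b ^ (1111 / 100 + 10506 / 10000 * u m)) :=
          mul_le_mul h1 hS hS0 (by positivity)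
      _ = 4 * b ^ (1711 / 100 + 806 / 10000 * u m) := by
          have : (2 * b ^ (6 - 97 / 100 * u m)) * (2 * b ^ (1111 / 100 + 10506 / 10000 * u m)) =
            4 * (b ^ (6 - 97 / 100 * u m) * b ^ (1111 / 100 + 10506 / 10000 * u m)) := by ring
          rw [this, ← Real.rpow_add hb0]
          congr 2
          ring
      _ ≤ 4 * (b ^ (-2 : ℝ) * b ^ u (m - 1)) := by gcongr
      _ ≤ 10 * b ^ (-2 : ℝ) * b ^ u (m - 1) := by
          have : 0 ≤ b ^ (-2 : ℝ) * b ^ u (m - 1) := by positivity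
          linarith
  · have hpt : ∀ j ∈ Icc 1 m, (b ^ u (j - 1)) ^ 2 * lam j ≤
        3 * b ^ (u (m - 1) - 1) * (b⁻¹) ^ (m - j) := by
      intro j hj
      rw [Finset.mem_Icc] at hj
      have h1 := L.c j (by omega)
      rw [hsq]
      calc b ^ (2 * u (j - 1)) * lam j ≤ b ^ (2 * u (j - 1)) * (3 * b ^ (-u j)) := by gcongr
        _ = 3 * b ^ (2 * u (j - 1) - u j) := by
          have : b ^ (2 * u (j - 1)) * (3 * b ^ (-u j)) =
            3 * (b ^ (2 * u (j - 1)) * b ^ (-u j)) := by ring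
          rw [this, ← Real.rpow_add hb0]
          congr 1
        _ ≤ 3 * (b ^ (u (m - 1) - 1) * (b⁻¹) ^ (m - j)) := by
          rw [E.pow_inv, ← Real.rpow_add hb0]
          have : b ^ (2 * u (j - 1) - u j) ≤ b ^ (u (m - 1) - 1 + -((m - j : ℕ) : ℝ)) := by
            apply E.mono
            have h7 := E.cl (j - 1) (by omega)
            rw [Nat.sub_add_cancel hj.1] at h7
            have h8 := E.clean (by omega : j - 1 ≤ m - 1) (by omega)
            have h9 : ((m - 1 - (j - 1) : ℕ) : ℝ) = ((m - j : ℕ) : ℝ) := by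
              congr 1
              omega
            rw [h9] at h8
            linarith
          gcongr
        _ = _ := by ring
    have hS : ∑ j ∈ Icc 1 m, (b ^ u (j - 1)) ^ 2 * lam j ≤ 3 * b ^ (u (m - 1) - 1) * (16 / 15) := by
      refine (Finset.sum_le_sum hpt).trans ?_
      rw [← Finset.mul_sum]
      have e : ∑ j ∈ Icc 1 m, (b⁻¹) ^ (m - j) ≤ 16 / 15 := by
        have e1 : ∑ j ∈ Icc 1 m, (b⁻¹) ^ (m - j) =
            ∑ i ∈ (Icc 1 m).image (fun j => m - j), (b⁻¹) ^ i := by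
          rw [Finset.sum_image]
          intro x hx y hy hxy
          simp only [Finset.coe_Icc, Set.mem_Icc] at hx hy
          simp only at hxy
          omega
        rw [e1]
        have := geom_le E.hb ((Icc 1 m).image (fun j => m - j)) 0
        simpa using this
      gcongr
    have h1 := L.c m h
    have h7 := E.cl (m - 1) (by omega)
    rw [Nat.sub_add_cancel hm.1] at h7
    calc lam m * ∑ j ∈ Icc 1 m, (b ^ u (j - 1)) ^ 2 * lam j
        ≤ (3 * b ^ (-u m)) * (3 * b ^ (u (m - 1) - 1) * (16 / 15)) :=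
          mul_le_mul h1 hS hS0 (by positivity)
      _ = 9 * (16 / 15) * b ^ (u (m - 1) - 1 - u m) := by
          have : (3 * b ^ (-u m)) * (3 * b ^ (u (m - 1) - 1) * (16 / 15)) =
            9 * (16 / 15) * (b ^ (-u m) * b ^ (u (m - 1) - 1)) := by ring
          rw [this, ← Real.rpow_add hb0]
          congr 2
          ring
      _ ≤ 9 * (16 / 15) * b ^ (-2 : ℝ) := by
          have : b ^ (u (m - 1) - 1 - u m) ≤ b ^ (-2 : ℝ) := by
            apply E.mono
            linarith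
          gcongr
      _ ≤ 10 * b ^ (-2 : ℝ) * 1 := by
          have : 0 ≤ b ^ (-2 : ℝ) := by positivity
          linarith
      _ ≤ 10 * b ^ (-2 : ℝ) * b ^ u (m - 1) := by
          have : (1 : ℝ) ≤ b ^ u (m - 1) :=
            Real.one_le_rpow (by linarith [E.hb]) (E.nonneg (by omega))
          gcongr

end Crest.Agent.R128.Val
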