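import Mathlib
import Crest.Agent.R128.Val

/-!
Row 128, node LAM0-VAL (NUM), part 3: the numerical hypotheses of `BVP.orb_exists`, `BVP.orb_diff`
for a VALID segment, and their conclusions.
-/

set_option autoImplicit false

open Finset

namespace Crest.Agent.R128.Val

open Crest.Agent.R128.TreeSum Crest.Agent.R128.BVP

variable {n L : ℕ} {a p q : ℕ → ℝ} {b : ℝ}

theorem Valid.rh_pos (V : Valid b L n a p q) {m : ℕ} (hm : m ∈ Icc 1 n) : 0 < rh n p m := by
  rw [Finset.mem_Icc] at hm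
  exact div_pos (W_pos V.J (by omega)) V.Dpos

theorem Valid.lw_pos (V : Valid b L n a p q) {m : ℕ} (hm : m ≤ n) : 0 < lw n p q m :=
  lt_of_lt_of_le (one_div_pos.mpr (W_pos V.J hm)) (V.one_div_le_lw hm)

theorem abs_le_W_pred (p : ℕ → ℝ) {m : ℕ} (hm : 1 ≤ m) : |p m| ≤ W p (m - 1) := by
  have := abs_succ_le_W p (m - 1)
  rwa [Nat.sub_add_cancel hm] at this

theorem Valid.p_le_rh (V : Valid b L n a p q) {m : ℕ} (hm : m ∈ Icc 1 n) :
    |p m / p (n + 1)| ≤ rh n p m := by
  rw [Finset.mem_Icc] at hm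
  rw [abs_div]
  unfold rh
  have := abs_le_W_pred p hm.1
  have := V.Dpos
  gcongr

theorem Valid.q_le_lw (V : Valid b L n a p q) (m : ℕ) :
    |q m / p (n + 1)| ≤ lw n p q m := by
  rw [abs_div]
  unfold lw
  have := abs_le_W q m
  have := V.Dpos
  gcongr

theorem Valid.K_left (V : Valid b L n a p q) {m j : ℕ} (h : j ≤ m) :
    |K n p q m j| ≤ lw n p q m * |p j| := by
  unfold K
  rw [if_pos h, mul_div_right_comm, abs_mul]
  exact mul_le_mul_of_nonneg_right (V.q_le_lw m) (abs_nonneg _)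

theorem Valid.K_right (V : Valid b L n a p q) {m j : ℕ} (h : m < j) :
    |K n p q m j| ≤ |p m| * lw n p q j := by
  unfold K
  rw [if_neg (by omega), mul_div_assoc, abs_mul]
  exact mul_le_mul_of_nonneg_left (V.q_le_lw j) (abs_nonneg _)

/-- the three sums for a valid segment -/
theorem Valid.s2 (V : Valid b L n a p q) :
    ∑ j ∈ Icc 1 n, lw n p q j ^ 2 * W p (j - 1) ≤ 11 / b ^ 2 := by
  have h := sum2 V.expo V.lamB
  have hb0 : 0 < b := V.expo.b0
  have e : b ^ (-2 : ℝ) = 1 / b ^ 2 := by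
    rw [Real.rpow_neg hb0.le, Real.rpow_two, one_div]
  rw [e] at h
  have : ∑ j ∈ Icc 1 n, lw n p q j ^ 2 * W p (j - 1) =
      ∑ j ∈ Icc 1 n, lw n p q j ^ 2 * b ^ ex b p (j - 1) := by
    apply Finset.sum_congr rfl
    intro j hj
    rw [Finset.mem_Icc] at hj
    rw [V.W_eq (by omega)]
  rw [this]
  calc _ ≤ 11 * (1 / b ^ 2) := h
    _ = _ := by ring

theorem Valid.s3 (V : Valid b L n a p q) {m : ℕ} (hm : m ∈ Icc 1 n) :
    W p (m - 1) * W p m * ∑ j ∈ Ioc m n, lw n p q j ^ 3 ≤ 1 / b ^ 2 := by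
  have h := sum3 V.expo V.lamB hm
  have hb := V.hb
  have hb0 : 0 < b := V.expo.b0
  have e : b ^ (-3 : ℝ) = 1 / b ^ 3 := by
    rw [Real.rpow_neg hb0.le, one_div]
    congr 1
    exact_mod_cast Real.rpow_natCast b 3
  rw [e] at h
  rw [Finset.mem_Icc] at hm
  rw [V.W_eq (by omega), V.W_eq hm.2]
  refine h.trans ?_
  rw [mul_one_div, div_le_div_iff₀ (by positivity) (by positivity)]
  have : 0 < b ^ 2 := by positivity
  nlinarith

theorem Valid.s1 (V : Valid b L n a p q) {m : ℕ} (hm : m ∈ Icc 1 n) :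
    lw n p q m * ∑ j ∈ Icc 1 m, W p (j - 1) ^ 2 * lw n p q j ≤ 10 / b ^ 2 * W p (m - 1) := by
  have h := sum1 V.expo V.lamB hm
  have hb0 : 0 < b := V.expo.b0
  rw [Finset.mem_Icc] at hm
  have e : b ^ (-2 : ℝ) = 1 / b ^ 2 := by
    rw [Real.rpow_neg hb0.le, Real.rpow_two, one_div]
  rw [e, ← V.W_eq (by omega)] at h
  have : ∑ j ∈ Icc 1 m, W p (j - 1) ^ 2 * lw n p q j =
      ∑ j ∈ Icc 1 m, (b ^ ex b p (j - 1)) ^ 2 * lw n p q j := by
    apply Finset.sum_congr rfl
    intro j hj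
    rw [Finset.mem_Icc] at hj
    rw [V.W_eq (by omega)]
  rw [this]
  calc _ ≤ 10 * (1 / b ^ 2) * W p (m - 1) := h
    _ = _ := by ring

/-- hypothesis `hsr` -/
theorem Valid.hsr (V : Valid b L n a p q) {M ε : ℝ} (hM0 : 0 ≤ M) (hM : 24 * M ≤ ε * b ^ 2)
    {m : ℕ} (hm : m ∈ Icc 1 n) :
    ∑ j ∈ Icc 1 n, |K n p q m j| * (M * lw n p q j) * rh n p j ≤ ε * rh n p m := by
  have hb0 : 0 < b := V.expo.b0
  have hD := V.Dpos
  have hm' := Finset.mem_Icc.mp hm
  have s1 := V.s1 hm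
  have s2 := V.s2
  have hWm := W_nonneg p (m - 1)
  -- pointwise
  have hpt : ∀ j ∈ Icc 1 n, |K n p q m j| * (M * lw n p q j) * rh n p j ≤
      (if j ≤ m then M / |p (n + 1)| * (lw n p q m * (W p (j - 1) ^ 2 * lw n p q j)) else 0) +
        M * rh n p m * (lw n p q j ^ 2 * W p (j - 1)) := by
    intro j hj
    rw [Finset.mem_Icc] at hj
    have hlj := (V.lw_pos hj.2).le
    have hlm := (V.lw_pos hm'.2).le
    have hrm := (V.rh_pos hm).le
    have hWj := W_nonneg p (j - 1)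
    rcases Nat.lt_or_ge m j with h | h
    · rw [if_neg (by omega), zero_add]
      have h1 := V.K_right h
      have h2 := abs_le_W_pred p hm'.1
      calc |K n p q m j| * (M * lw n p q j) * rh n p j
          ≤ (W p (m - 1) * lw n p q j) * (M * lw n p q j) * rh n p j := by
            have hr : 0 ≤ rh n p j := (V.rh_pos (Finset.mem_Icc.mpr hj)).le
            have : |K n p q m j| ≤ W p (m - 1) * lw n p q j :=
              h1.trans (mul_le_mul_of_nonneg_right h2 hlj)
            gcongr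
        _ = M * rh n p m * (lw n p q j ^ 2 * W p (j - 1)) := by
            unfold rh
            ring
    · rw [if_pos h]
      have h1 := V.K_left h
      have h2 := abs_le_W_pred p hj.1
      have h3 : |K n p q m j| * (M * lw n p q j) * rh n p j ≤
          M / |p (n + 1)| * (lw n p q m * (W p (j - 1) ^ 2 * lw n p q j)) := by
        calc |K n p q m j| * (M * lw n p q j) * rh n p j
            ≤ (lw n p q m * W p (j - 1)) * (M * lw n p q j) * rh n p j := by
              have hr : 0 ≤ rh n p j := (V.rh_pos (Finset.mem_Icc.mpr hj)).le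
              have : |K n p q m j| ≤ lw n p q m * W p (j - 1) :=
                h1.trans (mul_le_mul_of_nonneg_left h2 hlm)
              gcongr
          _ = _ := by
              unfold rh
              ring
      have h4 : 0 ≤ M * rh n p m * (lw n p q j ^ 2 * W p (j - 1)) := by positivity
      linarith
  refine (Finset.sum_le_sum hpt).trans ?_
  rw [Finset.sum_add_distrib, ← Finset.mul_sum, ← Finset.sum_filter]
  have hf : (Icc 1 n).filter (fun j => j ≤ m) = Icc 1 m := by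
    ext j
    simp only [Finset.mem_filter, Finset.mem_Icc]
    omega
  rw [hf, ← Finset.mul_sum, ← Finset.mul_sum]
  have hrm := (V.rh_pos hm).le
  have t1 : M / |p (n + 1)| * (lw n p q m * ∑ j ∈ Icc 1 m, W p (j - 1) ^ 2 * lw n p q j) ≤
      10 * M / b ^ 2 * rh n p m := by
    calc M / |p (n + 1)| * (lw n p q m * ∑ j ∈ Icc 1 m, W p (j - 1) ^ 2 * lw n p q j)
        ≤ M / |p (n + 1)| * (10 / b ^ 2 * W p (m - 1)) := by gcongr
      _ = 10 * M / b ^ 2 * rh n p m := by unfold rh; ring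
  have t2 : M * rh n p m * ∑ j ∈ Icc 1 n, lw n p q j ^ 2 * W p (j - 1) ≤
      11 * M / b ^ 2 * rh n p m := by
    calc M * rh n p m * ∑ j ∈ Icc 1 n, lw n p q j ^ 2 * W p (j - 1)
        ≤ M * rh n p m * (11 / b ^ 2) := by gcongr
      _ = _ := by ring
  have t3 : 21 * M / b ^ 2 ≤ ε := by
    rw [div_le_iff₀ (by positivity)]
    linarith
  have t4 := mul_le_mul_of_nonneg_right t3 hrm
  have t5 : 21 * M / b ^ 2 * rh n p m = 10 * M / b ^ 2 * rh n p m + 11 * M / b ^ 2 * rh n p m := by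
    ring
  linarith

/-- hypothesis `hsl` -/
theorem Valid.hsl (V : Valid b L n a p q) {M ε : ℝ} (hM0 : 0 ≤ M) (hM : 24 * M ≤ ε * b ^ 2)
    {m : ℕ} (hm : m ∈ Icc 1 n) :
    ∑ j ∈ Icc 1 n, |K n p q m j| * (M * lw n p q j) * lw n p q j ≤ ε * lw n p q m := by
  have hb0 : 0 < b := V.expo.b0
  have hD := V.Dpos
  have hm' := Finset.mem_Icc.mp hm
  have s2 := V.s2
  have s3 := V.s3 hm
  have hWm1 := W_nonneg p (m - 1)
  have hWm := W_pos V.J hm'.2
  have hlm := (V.lw_pos hm'.2).le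
  have hpt : ∀ j ∈ Icc 1 n, |K n p q m j| * (M * lw n p q j) * lw n p q j ≤
      M * lw n p q m * (lw n p q j ^ 2 * W p (j - 1)) +
      (if m < j then M * W p (m - 1) * lw n p q j ^ 3 else 0) := by
    intro j hj
    rw [Finset.mem_Icc] at hj
    have hlj := (V.lw_pos hj.2).le
    have hWj := W_nonneg p (j - 1)
    rcases Nat.lt_or_ge m j with h | h
    · rw [if_pos h]
      have h1 := V.K_right h
      have h2 := abs_le_W_pred p hm'.1
      have h3 : |K n p q m j| * (M * lw n p q j) * lw n p q j ≤ M * W p (m - 1) * lw n p q j ^ 3 := by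
        calc |K n p q m j| * (M * lw n p q j) * lw n p q j
            ≤ (W p (m - 1) * lw n p q j) * (M * lw n p q j) * lw n p q j := by
              have : |K n p q m j| ≤ W p (m - 1) * lw n p q j :=
                h1.trans (mul_le_mul_of_nonneg_right h2 hlj)
              gcongr
          _ = _ := by ring
      have h4 : 0 ≤ M * lw n p q m * (lw n p q j ^ 2 * W p (j - 1)) := by positivity
      linarith
    · rw [if_neg (by omega), add_zero]
      have h1 := V.K_left h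
      have h2 := abs_le_W_pred p hj.1
      calc |K n p q m j| * (M * lw n p q j) * lw n p q j
          ≤ (lw n p q m * W p (j - 1)) * (M * lw n p q j) * lw n p q j := by
            have : |K n p q m j| ≤ lw n p q m * W p (j - 1) :=
              h1.trans (mul_le_mul_of_nonneg_left h2 hlm)
            gcongr
        _ = _ := by ring
  refine (Finset.sum_le_sum hpt).trans ?_
  rw [Finset.sum_add_distrib, ← Finset.mul_sum, ← Finset.sum_filter]
  have hf : (Icc 1 n).filter (fun j => m < j) = Ioc m n := by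
    ext j
    simp only [Finset.mem_filter, Finset.mem_Icc, Finset.mem_Ioc]
    omega
  rw [hf, ← Finset.mul_sum]
  have t1 : M * lw n p q m * ∑ j ∈ Icc 1 n, lw n p q j ^ 2 * W p (j - 1) ≤
      11 * M / b ^ 2 * lw n p q m := by
    calc M * lw n p q m * ∑ j ∈ Icc 1 n, lw n p q j ^ 2 * W p (j - 1)
        ≤ M * lw n p q m * (11 / b ^ 2) := by gcongr
      _ = _ := by ring
  have t2 : M * W p (m - 1) * ∑ j ∈ Ioc m n, lw n p q j ^ 3 ≤ M / b ^ 2 * lw n p q m := by
    have h1 : W p (m - 1) * ∑ j ∈ Ioc m n, lw n p q j ^ 3 ≤ 1 / b ^ 2 * (1 / W p m) := by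
      rw [mul_one_div, le_div_iff₀ hWm]
      calc W p (m - 1) * (∑ j ∈ Ioc m n, lw n p q j ^ 3) * W p m
          = W p (m - 1) * W p m * ∑ j ∈ Ioc m n, lw n p q j ^ 3 := by ring
        _ ≤ _ := s3
    have h2 := V.one_div_le_lw hm'.2
    calc M * W p (m - 1) * ∑ j ∈ Ioc m n, lw n p q j ^ 3
        = M * (W p (m - 1) * ∑ j ∈ Ioc m n, lw n p q j ^ 3) := by ring
      _ ≤ M * (1 / b ^ 2 * (1 / W p m)) := by gcongr
      _ ≤ M * (1 / b ^ 2 * lw n p q m) := by gcongr
      _ = _ := by ring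
  have t3 : 12 * M / b ^ 2 ≤ ε := by
    rw [div_le_iff₀ (by positivity)]
    linarith
  have t4 := mul_le_mul_of_nonneg_right t3 hlm
  have t5 : 12 * M / b ^ 2 * lw n p q m = 11 * M / b ^ 2 * lw n p q m + M / b ^ 2 * lw n p q m := by
    ring
  linarith

/-- hypothesis `hG` for the weights `w = c * lw` -/
theorem Valid.hG (V : Valid b L n a p q) {M c : ℝ} (hM0 : 0 ≤ M) (hc : 0 ≤ c)
    (hM : 96 * (c * M) ≤ b ^ 2) {m : ℕ} (hm : m ∈ Icc 1 n) :
    ∑ j ∈ Icc 1 n, |K n p q m j| * M * (c * lw n p q j) ^ 2 ≤ c * lw n p q m / 4 := by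
  have h := V.hsl (M := c * M) (ε := 1 / 4) (by positivity) (by linarith) hm
  have e : ∑ j ∈ Icc 1 n, |K n p q m j| * M * (c * lw n p q j) ^ 2 =
      c * ∑ j ∈ Icc 1 n, |K n p q m j| * (c * M * lw n p q j) * lw n p q j := by
    rw [Finset.mul_sum]
    apply Finset.sum_congr rfl
    intro j _
    ring
  rw [e]
  calc _ ≤ c * (1 / 4 * lw n p q m) := mul_le_mul_of_nonneg_left h hc
    _ = _ := by ring

/-- **Matching, existence**: move the left boundary by `dl`, keep the right boundary. -/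
theorem exists_orb {f Vd : ℝ → ℝ} {M c : ℝ} (hM0 : 0 ≤ M) (hc : 0 < c) (hM : 96 * (c * M) ≤ b ^ 2)
    (hNL : NL f Vd M) (x : ℕ → ℝ) (hx : Orb n f x)
    (V : Valid b L n (fun m => Vd (x m)) p q) (dl : ℝ) (hdl : |dl| ≤ c / 2) :
    ∃ y : ℕ → ℝ, Orb n f y ∧ y 0 = x 0 + dl ∧ y (n + 1) = x (n + 1) ∧
      ∀ m ∈ Icc 1 n, |y m - x m| ≤ 3 / 4 * (c * lw n p q m) := by
  obtain ⟨y, h1, h2, h3, h4⟩ := orb_exists hM0 hNL x hx V.J (fun m => c * lw n p q m)
    (fun m hm => mul_pos hc (V.lw_pos (Finset.mem_Icc.mp hm).2))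
    (fun m hm => V.hG hM0 hc.le hM hm) dl 0 (by
      intro m hm
      rw [mul_zero, add_zero, mul_div_right_comm, abs_mul]
      have h5 := V.q_le_lw m
      have h6 := (V.lw_pos (Finset.mem_Icc.mp hm).2).le
      calc |q m / p (n + 1)| * |dl| ≤ lw n p q m * (c / 2) := by gcongr
        _ = c * lw n p q m / 2 := by ring)
  exact ⟨y, h1, h2, by rw [h3, add_zero], h4⟩

/-- **Matching, comparison** of two orbits in the box `c * lw` around the valid orbit. -/
theorem diff_orb {f Vd : ℝ → ℝ} {M c ε : ℝ} (hM0 : 0 ≤ M) (hc : 0 ≤ c) (hε : ε ≤ 1 / 4)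
    (hM : 24 * (c * M) ≤ ε * b ^ 2)
    (hNL : NL f Vd M) (x : ℕ → ℝ)
    (V : Valid b L n (fun m => Vd (x m)) p q)
    (y z : ℕ → ℝ) (hy : Orb n f y) (hz : Orb n f z)
    (hyx : ∀ m ∈ Icc 1 n, |y m - x m| ≤ c * lw n p q m)
    (hzx : ∀ m ∈ Icc 1 n, |z m - x m| ≤ c * lw n p q m) :
    ∀ m ∈ Icc 1 n,
      |z m - y m| ≤ 2 * (rh n p m * |z (n + 1) - y (n + 1)| + lw n p q m * |z 0 - y 0|) ∧
      |(z m - y m) - (q m * (z 0 - y 0) + p m * (z (n + 1) - y (n + 1))) / p (n + 1)| ≤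
        2 * ε * (rh n p m * |z (n + 1) - y (n + 1)| + lw n p q m * |z 0 - y 0|) := by
  refine orb_diff hM0 hNL x V.J (fun m => c * lw n p q m) (rh n p) (lw n p q) ε hε
    (fun m hm => V.rh_pos hm) (fun m hm => V.p_le_rh hm) (fun m _ => V.q_le_lw m) ?_ ?_ y z hy hz
    hyx hzx
  · intro m hm
    have h := V.hsr (M := c * M) (ε := ε) (by positivity) hM hm
    have e : ∑ j ∈ Icc 1 n, |K n p q m j| * (M * (c * lw n p q j)) * rh n p j =
        ∑ j ∈ Icc 1 n, |K n p q m j| * (c * M * lw n p q j) * rh n p j := by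
      apply Finset.sum_congr rfl
      intro j _
      ring
    rw [e]
    exact h
  · intro m hm
    have h := V.hsl (M := c * M) (ε := ε) (by positivity) hM hm
    have e : ∑ j ∈ Icc 1 n, |K n p q m j| * (M * (c * lw n p q j)) * lw n p q j =
        ∑ j ∈ Icc 1 n, |K n p q m j| * (c * M * lw n p q j) * lw n p q j := by
      apply Finset.sum_congr rfl
      intro j _
      ring
    rw [e]
    exact h

end Crest.Agent.R128.Val
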