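import Mathlib
import Crest.Agent.R128.Lam0D
import Crest.Agent.R128.ValNum
import Crest.Agent.R128.BVP5

/-!
Row 128, node V3-CORE, part 0: strict validity `SV` + first crossing of the level `X` gives a VALID segment
(`Val.Valid`) ending at the crossing, and the matched orbit with left boundary value `l`.
-/

set_option autoImplicit false

open Finset

namespace Crest.Agent.R128.Core

open Crest.Agent.R128.TreeSum Crest.Agent.R128.BVP Crest.Agent.R128.Lam0

/-- right solution by downward recursion, index `i = n + 1 - m` -/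
def qAux (a : ℕ → ℝ) (n : ℕ) : ℕ → ℝ
  | 0 => 0
  | 1 => 1
  | i + 2 => a (n - i) * qAux a n (i + 1) - qAux a n i

/-- right solution -/
def qk (a : ℕ → ℝ) (n m : ℕ) : ℝ := qAux a n (n + 1 - m)

theorem qk_last (a : ℕ → ℝ) (n : ℕ) : qk a n (n + 1) = 0 := by
  unfold qk
  rw [Nat.sub_self]
  rfl

theorem qk_n (a : ℕ → ℝ) (n : ℕ) : qk a n n = 1 := by
  unfold qk
  rw [Nat.add_sub_cancel_left]
  rfl

theorem qk_rec (a : ℕ → ℝ) (n m : ℕ) (hm : m < n) :
    qk a n m = a (m + 1) * qk a n (m + 1) - qk a n (m + 2) := by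
  unfold qk
  obtain ⟨i, rfl⟩ := Nat.exists_eq_add_of_lt hm
  have e1 : m + i + 1 + 1 - m = i + 2 := by omega
  have e2 : m + i + 1 + 1 - (m + 1) = i + 1 := by omega
  have e3 : m + i + 1 + 1 - (m + 2) = i := by omega
  rw [e1, e2, e3]
  show a (m + i + 1 - i) * _ - _ = _
  have e4 : m + i + 1 - i = m + 1 := by omega
  rw [e4]

/-- digits along the orbit -/
noncomputable def dig (k a b : ℝ) (m : ℕ) : ℝ := Vk k (xorb k a b m)

theorem jac_pk (k a b : ℝ) (n : ℕ) (h : pk k a b (n + 1) ≠ 0) :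
    Jac n (dig k a b) (pk k a b) (qk (dig k a b) n) where
  p0 := rfl
  p1 := rfl
  hp := fun _ _ => rfl
  qn1 := qk_last _ _
  qn := qk_n _ _
  hq := fun m hm => qk_rec _ _ m hm
  W0 := h

theorem abs_dig_le {k : ℝ} (hk : 10 ≤ k) (a b : ℝ) (m : ℕ) : |dig k a b m| + 2 ≤ 8 * k := by
  unfold dig Vk
  have h1 : |2 + 2 * Real.pi * k * Real.cos (2 * Real.pi * xorb k a b m)| ≤ 2 + 2 * Real.pi * k := by
    refine (abs_add_le _ _).trans ?_
    rw [abs_mul, abs_of_nonneg (by positivity : 0 ≤ 2 * Real.pi * k)]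
    have := Real.abs_cos_le_one (2 * Real.pi * xorb k a b m)
    have h2 : 0 ≤ 2 * Real.pi * k := by positivity
    have h3 : |(2 : ℝ)| = 2 := by norm_num
    rw [h3]
    nlinarith
  have hpi := Real.pi_lt_d2
  nlinarith

theorem nf_eq (k a b : ℝ) (m : ℕ) : Val.N (pk k a b) m = nf k a b m := rfl

theorem nf_succ_le {k : ℝ} (hk : 10 ≤ k) (a b : ℝ) (m : ℕ) :
    nf k a b (m + 1) ≤ 8 * k * nf k a b m := by
  have h1 : |pk k a b m| ≤ nf k a b m := le_max_left _ _
  have h2 : |pk k a b (m + 1)| ≤ nf k a b m := le_max_right _ _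
  have h0 : 0 ≤ nf k a b m := (abs_nonneg _).trans h1
  have h3 := abs_dig_le hk a b (m + 1)
  have h4 : |pk k a b (m + 2)| ≤ 8 * k * nf k a b m := by
    have e : pk k a b (m + 2) = dig k a b (m + 1) * pk k a b (m + 1) - pk k a b m := rfl
    rw [e]
    refine (abs_sub _ _).trans ?_
    rw [abs_mul]
    have h5 := abs_nonneg (dig k a b (m + 1))
    have h6 : |dig k a b (m + 1)| * |pk k a b (m + 1)| ≤ (8 * k - 2) * nf k a b m := by
      apply mul_le_mul _ h2 (abs_nonneg _) (by linarith)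
      linarith
    nlinarith
  have h5 : |pk k a b (m + 1)| ≤ 8 * k * nf k a b m := by nlinarith
  exact max_le h5 h4

theorem nf_zero (k a b : ℝ) : nf k a b 0 = 1 := by
  unfold nf
  show max |(0 : ℝ)| |(1 : ℝ)| = 1
  norm_num

theorem nf_le_pow {k : ℝ} (hk : 10 ≤ k) (a b : ℝ) (m : ℕ) : nf k a b m ≤ (8 * k) ^ m := by
  induction m with
  | zero => rw [nf_zero, pow_zero]
  | succ m ih =>
    have h1 := nf_succ_le hk a b m
    have h2 : (0 : ℝ) ≤ 8 * k := by linarith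
    calc nf k a b (m + 1) ≤ 8 * k * nf k a b m := h1
      _ ≤ 8 * k * (8 * k) ^ m := mul_le_mul_of_nonneg_left ih h2
      _ = (8 * k) ^ (m + 1) := by ring

/-- facts on the base `b = k^(2/3)/2` for huge `k` -/
theorem base_facts {k : ℝ} (hk : (10 : ℝ) ^ 30 ≤ k) :
    (10 : ℝ) ^ 19 ≤ k ^ (2 / 3 : ℝ) / 2 ∧ 10 ^ 9 * k ≤ (k ^ (2 / 3 : ℝ) / 2) ^ 2 ∧
      (k ^ (2 / 3 : ℝ) / 2) ^ 2 ≤ k ^ 2 := by
  have hk0 : 0 < k := lt_of_lt_of_le (by positivity) hk
  have h1 : (10 : ℝ) ^ 10 ≤ k ^ (1 / 3 : ℝ) := by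
    have h2 : ((10 : ℝ) ^ 30) ^ (1 / 3 : ℝ) ≤ k ^ (1 / 3 : ℝ) :=
      Real.rpow_le_rpow (by positivity) hk (by norm_num)
    have h3 : ((10 : ℝ) ^ 30) ^ (1 / 3 : ℝ) = 10 ^ 10 := by
      rw [← Real.rpow_natCast, ← Real.rpow_natCast, ← Real.rpow_mul (by norm_num)]
      norm_num
    linarith
  have e2 : k ^ (2 / 3 : ℝ) = (k ^ (1 / 3 : ℝ)) ^ 2 := by
    rw [← Real.rpow_natCast, ← Real.rpow_mul hk0.le]
    norm_num
  have e3 : k = (k ^ (1 / 3 : ℝ)) ^ 3 := by
    rw [← Real.rpow_natCast, ← Real.rpow_mul hk0.le]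
    norm_num
  set c := k ^ (1 / 3 : ℝ) with hc
  have hc0 : 0 < c := lt_of_lt_of_le (by positivity) h1
  rw [e2]
  refine ⟨?_, ?_, ?_⟩
  · have : (10 : ℝ) ^ 10 * 10 ^ 10 ≤ c ^ 2 := by nlinarith
    norm_num at this ⊢
    linarith
  · rw [e3]
    have h5 : (4 : ℝ) * 10 ^ 9 ≤ c := by
      norm_num at h1 ⊢
      linarith
    have h6 : 0 < c ^ 3 := by positivity
    have h7 : 4 * 10 ^ 9 * c ^ 3 ≤ c * c ^ 3 := mul_le_mul_of_nonneg_right h5 h6.le
    have h8 : (c ^ 2 / 2) ^ 2 = c * c ^ 3 / 4 := by ring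
    rw [h8]
    linarith
  · rw [e3]
    have h5 : (1 : ℝ) ≤ c := by
      norm_num at h1
      linarith
    have h8 : (c ^ 2 / 2) ^ 2 = c ^ 4 / 4 := by ring
    rw [h8, ← pow_mul]
    have h9 : c ^ 4 ≤ c ^ 6 := pow_le_pow_right₀ h5 (by norm_num)
    have h10 : 0 < c ^ 4 := by positivity
    show c ^ 4 / 4 ≤ c ^ 6
    linarith

/-- **First crossing gives a VALID segment.** -/
theorem cross {k X a c : ℝ} {n' : ℕ} (hk : (10 : ℝ) ^ 30 ≤ k) (hX : k ^ 600 ≤ X)
    (h : SV k 1000 a c n') (hex : ∃ i < n', X ≤ nf k a c i) :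
    ∃ n L : ℕ, n < n' ∧ 35 ≤ L ∧ L ≤ 1000 ∧ L ≤ n ∧ (n < 1000 → L = n) ∧ (1000 ≤ n → L = 1000) ∧
      (∀ i < n, nf k a c i < X) ∧ X ≤ nf k a c n ∧ |pk k a c n| < X ∧ X ≤ |pk k a c (n + 1)| ∧
      Val.Valid (k ^ (2 / 3 : ℝ) / 2) L n (dig k a c) (pk k a c) (qk (dig k a c) n) := by
  classical
  obtain ⟨hb19, hbk, hbk2⟩ := base_facts hk
  have hk30 : (10 : ℝ) ^ 30 ≤ k := hk
  have hk0 : 0 < k := lt_of_lt_of_le (by positivity) hk
  have hk1 : (1 : ℝ) ≤ k := le_trans (by norm_num) hk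
  have hk10 : (10 : ℝ) ≤ k := le_trans (by norm_num) hk
  have hX0 : 0 < X := lt_of_lt_of_le (by positivity) hX
  have hX1 : 1 < X := by
    refine lt_of_lt_of_le ?_ hX
    exact one_lt_pow₀ (lt_of_lt_of_le (by norm_num) hk) (by norm_num)
  have hP : ∃ i, X ≤ nf k a c i := ⟨hex.choose, hex.choose_spec.2⟩
  set n := Nat.find hP with hn
  have hXn : X ≤ nf k a c n := Nat.find_spec hP
  have hmin : ∀ i < n, nf k a c i < X := fun i hi => not_le.mp (Nat.find_min hP hi)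
  have hnn' : n < n' := lt_of_le_of_lt (Nat.find_min' hP hex.choose_spec.2) hex.choose_spec.1
  -- n ≥ 35
  have hn35 : 35 ≤ n := by
    by_contra hlt
    push Not at hlt
    have h1 := nf_le_pow hk10 a c n
    have h2 : (8 * k) ^ n ≤ (k ^ 2) ^ n := pow_le_pow_left₀ (by positivity) (by nlinarith) n
    have h3 : (k ^ 2) ^ n < k ^ 600 := by
      rw [← pow_mul]
      exact pow_lt_pow_right₀ (lt_of_lt_of_le (by norm_num) hk) (by omega)
    linarith
  obtain ⟨m, hm⟩ : ∃ m, n = m + 1 := ⟨n - 1, by omega⟩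
  have hpn : |pk k a c n| < X := by
    have h1 := hmin m (by omega)
    have h2 : |pk k a c (m + 1)| ≤ nf k a c m := le_max_right _ _
    rw [hm]
    linarith
  have hpn1 : X ≤ |pk k a c (n + 1)| := by
    have h1 : nf k a c n = max |pk k a c n| |pk k a c (n + 1)| := rfl
    rw [h1] at hXn
    rcases le_max_iff.mp hXn with h2 | h2
    · linarith
    · exact h2
  have hJ := jac_pk k a c n (by
    intro h0
    rw [h0, abs_zero] at hpn1
    linarith)
  set L := min 1000 n with hL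
  have hL1000 : L ≤ 1000 := min_le_left _ _
  have hLn : L ≤ n := min_le_right _ _
  have hL35 : 35 ≤ L := le_min (by norm_num) hn35
  have hLr : (L : ℝ) ≤ 1000 := by exact_mod_cast hL1000
  refine ⟨n, L, hnn', hL35, hL1000, hLn, fun hh => by rw [hL]; omega, fun hh => by rw [hL]; omega,
    hmin, hXn, hpn, hpn1, ?_⟩
  refine
    { J := hJ
      hb := le_trans (by norm_num) hb19
      hL := hL35
      hLn := hLn
      hLb := ?_
      hA := ?_
      hcl := ?_
      V2 := ?_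
      V3 := ?_
      tip := by linarith }
  · have : (2000 : ℝ) ≤ 10 ^ 19 := by norm_num
    linarith
  · intro j _
    have h1 := abs_dig_le hk10 a c j
    nlinarith
  · intro j hj
    rw [Finset.mem_Icc] at hj
    have h1 := h.cl j (Finset.mem_Icc.mpr ⟨hj.1, by omega⟩)
    have e : 2 * (k ^ (2 / 3 : ℝ) / 2) = k ^ (2 / 3 : ℝ) := by ring
    rw [e]
    exact h1
  · -- V2
    have nf0 : ∀ i, 0 ≤ nf k a c i := fun i => (abs_nonneg _).trans (le_max_left _ _)
    intro i j hi hij hj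
    rw [nf_eq, nf_eq]
    rcases Nat.lt_or_ge n 1000 with hlt | hge
    · have hLe : L = n := by rw [hL]; omega
      have hij' : i = j := by omega
      subst hij'
      have h1 : 1 ≤ nf k a c i := by
        have : i = n := by omega
        rw [this]
        linarith
      calc nf k a c i ^ (99 / 100 : ℝ) ≤ nf k a c i ^ (1 : ℝ) :=
            Real.rpow_le_rpow_of_exponent_le h1 (by norm_num)
        _ = nf k a c i := Real.rpow_one _
    · have hLe : L = 1000 := by rw [hL]; omega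
      rw [hLe] at hi
      have h1 := h.v2 i j hi hij (by omega)
      have h2 : (nf k a c i ^ 99) ^ (1 / 100 : ℝ) ≤ (nf k a c j ^ 100) ^ (1 / 100 : ℝ) :=
        Real.rpow_le_rpow (pow_nonneg (nf0 i) _) h1 (by norm_num)
      rw [← Real.rpow_natCast, ← Real.rpow_natCast, ← Real.rpow_mul (nf0 i),
        ← Real.rpow_mul (nf0 j)] at h2
      norm_num at h2
      exact h2
  · -- V3
    have nf0 : ∀ i, 0 ≤ nf k a c i := fun i => (abs_nonneg _).trans (le_max_left _ _)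
    intro j hj hjn
    rcases Nat.lt_or_ge n 1000 with hlt | hge
    · have hLe : L = n := by rw [hL]; omega
      have hjn' : j = n := by omega
      refine ⟨j, le_rfl, ?_⟩
      rw [nf_eq, hjn']
      have h1 : (n : ℝ) ≤ 1000 := by exact_mod_cast hlt.le
      have h2 : (k ^ 600) ^ (1 / 400 : ℝ) ≤ nf k a c n ^ (1 / 400 : ℝ) :=
        Real.rpow_le_rpow (by positivity) (hX.trans hXn) (by norm_num)
      have h3 : (k ^ 600) ^ (1 / 400 : ℝ) = k ^ (3 / 2 : ℝ) := by
        rw [← Real.rpow_natCast, ← Real.rpow_mul hk0.le]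
        norm_num
      have h4 : k ^ (1 : ℝ) ≤ k ^ (3 / 2 : ℝ) :=
        Real.rpow_le_rpow_of_exponent_le hk1 (by norm_num)
      rw [Real.rpow_one] at h4
      have h5 : (1000 : ℝ) ≤ k := le_trans (by norm_num) hk
      linarith
    · have hLe : L = 1000 := by rw [hL]; omega
      rw [hLe] at hj
      obtain ⟨i, _, hij, hi⟩ := h.v3 j hj (by omega)
      refine ⟨i, hij, ?_⟩
      rw [nf_eq]
      have h2 : ((j : ℝ) ^ 400) ^ (1 / 400 : ℝ) ≤ nf k a c i ^ (1 / 400 : ℝ) :=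
        Real.rpow_le_rpow (by positivity) hi (by norm_num)
      have h3 : ((j : ℝ) ^ 400) ^ (1 / 400 : ℝ) = (j : ℝ) := by
        rw [← Real.rpow_natCast, ← Real.rpow_mul (Nat.cast_nonneg _)]
        norm_num
      linarith

/-- the constant `M` -/
theorem M_le {k : ℝ} (hk : 0 < k) : 4 * Real.pi ^ 2 * k ≤ 40 * k := by
  have hpi := Real.pi_lt_d2
  have hpi0 := Real.pi_pos
  have : Real.pi ^ 2 ≤ 10 := by nlinarith
  nlinarith

/-- **The matched orbit.** -/
theorem matched {k a c l : ℝ} {n L : ℕ} (hk : (10 : ℝ) ^ 30 ≤ k)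
    (V : Val.Valid (k ^ (2 / 3 : ℝ) / 2) L n (dig k a c) (pk k a c) (qk (dig k a c) n))
    (hl : |l - a| ≤ 1) :
    ∃ c' : ℝ, xorb k l c' (n + 1) = xorb k a c (n + 1) ∧
      ∀ m ∈ Icc 1 n, |xorb k l c' m - xorb k a c m| ≤
        3 / 2 * Val.lw n (pk k a c) (qk (dig k a c) n) m := by
  obtain ⟨hb19, hbk, -⟩ := base_facts hk
  have hk0 : 0 < k := lt_of_lt_of_le (by positivity) hk
  have hM := M_le hk0
  have hn : 35 ≤ n := V.hL.trans V.hLn
  obtain ⟨y, hy, hy0, hyn, hybox⟩ := Val.exists_orb (f := fk k) (Vd := Vk k)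
    (M := 4 * Real.pi ^ 2 * k) (c := 2) (by positivity) (by norm_num)
    (by nlinarith) (NL_fk hk0.le) (xorb k a c) (xorb_orb k a c n) V (l - a) (by linarith)
  have hext : ∀ m ≤ n + 1, y m = xorb k l (y 1) m :=
    orb_ext hy (xorb_orb k l (y 1) n) (by rw [hy0]; show a + (l - a) = l; ring) rfl
  refine ⟨y 1, ?_, ?_⟩
  · rw [← hext (n + 1) le_rfl, hyn]
  · intro m hm
    rw [← hext m (by have := Finset.mem_Icc.mp hm; omega)]
    have := hybox m hm
    linarith

end Crest.Agent.R128.Core
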