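import Mathlib
import Crest.Agent.R128.CoreV

/-!
Row 128, node V3-CORE: interface. `CoreStmt2` (2-D form of helper379's `CoreStmt`) and the two halves
`ShadowStmt`, `CohStmt` from which it is assembled in `CoreAsm.lean`.  Scale `r = X ^ (-3/2)`.
-/

set_option autoImplicit false

open Finset

namespace Crest.Agent.R128.Core

open Crest.Agent.R128.TreeSum Crest.Agent.R128.BVP Crest.Agent.R128.Lam0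

/-- output of `cross` -/
structure Seg (k X a b : ℝ) (n' n L : ℕ) : Prop where
  lt : n < n'
  hL35 : 35 ≤ L
  hL : L ≤ 1000
  hLn : L ≤ n
  small : ∀ i < n, nf k a b i < X
  big : X ≤ nf k a b n
  pn : |pk k a b n| < X
  pn1 : X ≤ |pk k a b (n + 1)|
  val : Val.Valid (k ^ (2 / 3 : ℝ) / 2) L n (dig k a b) (pk k a b) (qk (dig k a b) n)

/-- `(l, s)` is the start of a matched orbit of `(a, b)` with the horizon `n + 1` -/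
structure Mt (k a b : ℝ) (n : ℕ) (l s : ℝ) : Prop where
  right : xorb k l s (n + 1) = xorb k a b (n + 1)
  box : ∀ m ∈ Icc 1 n, |xorb k l s m - xorb k a b m| ≤
    3 / 2 * Val.lw n (pk k a b) (qk (dig k a b) n) m

/-- admissible point of class `X` -/
def Adm (k X a b : ℝ) (n' : ℕ) : Prop :=
  SV k 1000 a b n' ∧ (∃ i < n', X ≤ nf k a b i) ∧ ∀ i < n', nf k a b i ≤ k * X

theorem seg_of_adm {k X a b : ℝ} {n' : ℕ} (hk : (10 : ℝ) ^ 30 ≤ k) (hX : k ^ 600 ≤ X)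
    (h : Adm k X a b n') : ∃ n L : ℕ, Seg k X a b n' n L := by
  obtain ⟨n, L, h1, h2, h3, h4, -, -, h5, h6, h7, h8, h9⟩ := cross hk hX h.1 h.2.1
  exact ⟨n, L, h1, h2, h3, h4, h5, h6, h7, h8, h9⟩

/-- **SHADOW** -/
def ShadowStmt : Prop :=
  ∃ K0 : ℝ, ∀ k, K0 ≤ k → ∀ X, k ^ 600 ≤ X → ∀ (a b : ℝ) (n' n L : ℕ),
    Adm k X a b n' → Seg k X a b n' n L → ∀ l s0 : ℝ, |l - a| ≤ 1 → Mt k a b n l s0 →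
    ∀ s, |s - s0| ≤ 2 * X ^ (-(3 / 2) : ℝ) → ∀ m ≤ n',
      nf k a b m ≤ 2 * nf k l s m ∧ nf k l s m ≤ 2 * nf k a b m

/-- **COHERENCE** (the field comparabilities follow from `ShadowStmt`) -/
def CohStmt : Prop :=
  ∃ K0 : ℝ, ∀ k, K0 ≤ k → ∀ X, k ^ 600 ≤ X → ∀ (a1 b1 a2 b2 : ℝ) (n1' n2' n1 n2 L1 L2 : ℕ),
    Adm k X a1 b1 n1' → Adm k X a2 b2 n2' → Seg k X a1 b1 n1' n1 L1 → Seg k X a2 b2 n2' n2 L2 →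
    n1 ≤ n2 → (∀ m ≤ n1, nf k a1 b1 m ≤ 4 * nf k a2 b2 m ∧ nf k a2 b2 m ≤ 4 * nf k a1 b1 m) →
    ∀ l s1 s2 ρ : ℝ, |l - a1| ≤ 1 → |l - a2| ≤ 1 → Mt k a1 b1 n1 l s1 → Mt k a2 b2 n2 l s2 →
    X ^ (-(3 / 2) : ℝ) / 10 ^ 4 ≤ ρ → ρ ≤ 2 * X ^ (-(3 / 2) : ℝ) → |s1 - s2| ≤ ρ →
    (∀ s, |s - s1| ≤ 2 * X ^ (-(3 / 2) : ℝ) → ∀ m ≤ n1, nf k l s m ≤ 2 * nf k a1 b1 m) →
    ∀ l' s1' s2' : ℝ, |l' - a1| ≤ 1 → |l' - a2| ≤ 1 → Mt k a1 b1 n1 l' s1' → Mt k a2 b2 n2 l' s2' →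
      |s1' - s2'| ≤ 20 * ρ

/-- **CORE, 2-D form** (helper279's `CoreStmt2`) -/
def CoreStmt2 : Prop :=
  ∃ K0 : ℝ, ∀ k, K0 ≤ k → ∀ X, k ^ 600 ≤ X → ∃ r, 0 < r ∧ r ≤ 1 ∧ ∃ σ : ℝ → ℝ → ℕ → ℝ → ℝ,
    (∀ a b n', Adm k X a b n' → σ a b n' a = b ∧
      (∀ l l', |l - a| ≤ 1 → |l' - a| ≤ 1 → |σ a b n' l - σ a b n' l'| ≤ 1 / 8 * |l - l'|) ∧
      (∀ l s, |l - a| ≤ 1 → |s - σ a b n' l| ≤ r → ∀ m ≤ n',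
        nf k a b m ≤ 2 * nf k l s m ∧ nf k l s m ≤ 2 * nf k a b m)) ∧
    (∀ a b n' a2 b2 n2', Adm k X a b n' → Adm k X a2 b2 n2' → ∀ l l' ρ,
      |l - a| ≤ 1 → |l - a2| ≤ 1 → |l' - a| ≤ 1 → |l' - a2| ≤ 1 → r / 10 ^ 4 ≤ ρ → ρ ≤ 2 * r →
      |σ a b n' l - σ a2 b2 n2' l| ≤ ρ → |σ a b n' l' - σ a2 b2 n2' l'| ≤ 50 * ρ)

end Crest.Agent.R128.Core
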