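import Mathlib
import Crest.Agent.R128.BVP7
import Crest.Agent.R128.ValNum
import Crest.Agent.R128.Lam0D
import Crest.Agent.R128.CoreI

/-!
Row 128, node V3-CORE, coherence half (COH): two matched orbits which are close for one left boundary value
are close for every left boundary value.
-/

set_option autoImplicit false

open Finset

namespace Crest.Agent.R128.CoreA

open Crest.Agent.R128.TreeSum Crest.Agent.R128.BVP Crest.Agent.R128.Val Crest.Agent.R128.Lam0

/-! ### the derivative of the orbit in the second initial value -/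

theorem hasDerivAt_xorb (k l : ℝ) : ∀ m : ℕ, ∀ s : ℝ,
    HasDerivAt (fun s => xorb k l s m) (pk k l s m) s ∧
      HasDerivAt (fun s => xorb k l s (m + 1)) (pk k l s (m + 1)) s := by
  intro m
  induction m with
  | zero =>
    intro s
    exact ⟨hasDerivAt_const s l, hasDerivAt_id s⟩
  | succ m ih =>
    intro s
    obtain ⟨h1, h2⟩ := ih s
    refine ⟨h2, ?_⟩
    have h3 : HasDerivAt (fk k ∘ fun s => xorb k l s (m + 1))
        (Vk k (xorb k l s (m + 1)) * pk k l s (m + 1)) s :=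
      HasDerivAt.comp (h₂ := fk k) s (hasDerivAt_fk k (xorb k l s (m + 1))) h2
    exact h3.sub h1

/-- mean value form -/
theorem xorb_sub_le {k l s1 s2 C : ℝ} {m : ℕ} (h : ∀ s ∈ Set.uIcc s1 s2, |pk k l s m| ≤ C) :
    |xorb k l s2 m - xorb k l s1 m| ≤ C * |s2 - s1| := by
  have h := (convex_uIcc s1 s2).norm_image_sub_le_of_norm_hasDerivWithin_le
    (f := fun s => xorb k l s m) (f' := fun s => pk k l s m) (C := C)
    (fun s _ => (hasDerivAt_xorb k l m s).1.hasDerivWithinAt)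
    (fun s hs => by rw [Real.norm_eq_abs]; exact h s hs)
    Set.left_mem_uIcc Set.right_mem_uIcc
  simpa [Real.norm_eq_abs] using h

/-! ### the box lemma -/

variable {n L : ℕ} {a p q : ℕ → ℝ} {b : ℝ}

/-- the weighted Green sum for a weight with the bounds `LamB` -/
theorem hsrx (V : Valid b L n a p q) {lx : ℕ → ℝ} (hlx : LamB b n (ex b p) lx)
    (hle : ∀ m ≤ n, lw n p q m ≤ lx m) {M : ℝ} (hM0 : 0 ≤ M) {m : ℕ} (hm : m ∈ Icc 1 n) :
    ∑ j ∈ Icc 1 n, |K n p q m j| * (M * lx j) * rh n p j ≤ 21 * M / b ^ 2 * rh n p m := by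
  have hb0 : 0 < b := V.expo.b0
  have hD := V.Dpos
  have hm' := Finset.mem_Icc.mp hm
  have e2 : b ^ (-2 : ℝ) = 1 / b ^ 2 := by
    rw [Real.rpow_neg hb0.le, Real.rpow_two, one_div]
  have s1 : lx m * ∑ j ∈ Icc 1 m, W p (j - 1) ^ 2 * lx j ≤ 10 / b ^ 2 * W p (m - 1) := by
    have h := sum1 V.expo hlx hm
    rw [e2, ← V.W_eq (by omega)] at h
    have : ∑ j ∈ Icc 1 m, W p (j - 1) ^ 2 * lx j =
        ∑ j ∈ Icc 1 m, (b ^ ex b p (j - 1)) ^ 2 * lx j := by
      apply Finset.sum_congr rfl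
      intro j hj
      rw [Finset.mem_Icc] at hj
      rw [V.W_eq (by omega)]
    rw [this]
    calc _ ≤ 10 * (1 / b ^ 2) * W p (m - 1) := h
      _ = _ := by ring
  have s2 : ∑ j ∈ Icc 1 n, lx j ^ 2 * W p (j - 1) ≤ 11 / b ^ 2 := by
    have h := sum2 V.expo hlx
    rw [e2] at h
    have : ∑ j ∈ Icc 1 n, lx j ^ 2 * W p (j - 1) =
        ∑ j ∈ Icc 1 n, lx j ^ 2 * b ^ ex b p (j - 1) := by
      apply Finset.sum_congr rfl
      intro j hj
      rw [Finset.mem_Icc] at hj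
      rw [V.W_eq (by omega)]
    rw [this]
    calc _ ≤ 11 * (1 / b ^ 2) := h
      _ = _ := by ring
  have hWm := W_nonneg p (m - 1)
  -- pointwise
  have hpt : ∀ j ∈ Icc 1 n, |K n p q m j| * (M * lx j) * rh n p j ≤
      (if j ≤ m then M / |p (n + 1)| * (lx m * (W p (j - 1) ^ 2 * lx j)) else 0) +
        M * rh n p m * (lx j ^ 2 * W p (j - 1)) := by
    intro j hj
    rw [Finset.mem_Icc] at hj
    have hlj := hlx.pos j hj.2
    have hlm := hlx.pos m hm'.2
    have hrm := (V.rh_pos hm).le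
    have hWj := W_nonneg p (j - 1)
    have hr : 0 ≤ rh n p j := (V.rh_pos (Finset.mem_Icc.mpr hj)).le
    rcases Nat.lt_or_ge m j with h | h
    · rw [if_neg (by omega), zero_add]
      have h1 := V.K_right h
      have h2 := abs_le_W_pred p hm'.1
      have h0 := hle j hj.2
      have h3 := (V.lw_pos hj.2).le
      calc |K n p q m j| * (M * lx j) * rh n p j
          ≤ (W p (m - 1) * lx j) * (M * lx j) * rh n p j := by
            have : |K n p q m j| ≤ W p (m - 1) * lx j :=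
              h1.trans (mul_le_mul h2 h0 h3 hWm)
            gcongr
        _ = M * rh n p m * (lx j ^ 2 * W p (j - 1)) := by
            unfold rh
            ring
    · rw [if_pos h]
      have h1 := V.K_left h
      have h2 := abs_le_W_pred p hj.1
      have h0 := hle m hm'.2
      have h3 : |K n p q m j| * (M * lx j) * rh n p j ≤
          M / |p (n + 1)| * (lx m * (W p (j - 1) ^ 2 * lx j)) := by
        calc |K n p q m j| * (M * lx j) * rh n p j
            ≤ (lx m * W p (j - 1)) * (M * lx j) * rh n p j := by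
              have : |K n p q m j| ≤ lx m * W p (j - 1) :=
                h1.trans (mul_le_mul h0 h2 (abs_nonneg _) hlm)
              gcongr
          _ = _ := by
              unfold rh
              ring
      have h4 : 0 ≤ M * rh n p m * (lx j ^ 2 * W p (j - 1)) := by positivity
      linarith
  refine (Finset.sum_le_sum hpt).trans ?_
  rw [Finset.sum_add_distrib, ← Finset.mul_sum, ← Finset.sum_filter]
  have hf : (Icc 1 n).filter (fun j => j ≤ m) = Icc 1 m := by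
    ext j
    simp only [Finset.mem_filter, Finset.mem_Icc]
    omega
  rw [hf, ← Finset.mul_sum, ← Finset.mul_sum]
  have hrm := (V.rh_pos hm).le
  have t1 : M / |p (n + 1)| * (lx m * ∑ j ∈ Icc 1 m, W p (j - 1) ^ 2 * lx j) ≤
      10 * M / b ^ 2 * rh n p m := by
    calc M / |p (n + 1)| * (lx m * ∑ j ∈ Icc 1 m, W p (j - 1) ^ 2 * lx j)
        ≤ M / |p (n + 1)| * (10 / b ^ 2 * W p (m - 1)) := by gcongr
      _ = 10 * M / b ^ 2 * rh n p m := by unfold rh; ring
  have t2 : M * rh n p m * ∑ j ∈ Icc 1 n, lx j ^ 2 * W p (j - 1) ≤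
      11 * M / b ^ 2 * rh n p m := by
    calc M * rh n p m * ∑ j ∈ Icc 1 n, lx j ^ 2 * W p (j - 1)
        ≤ M * rh n p m * (11 / b ^ 2) := by gcongr
      _ = _ := by ring
  have t5 : 21 * M / b ^ 2 * rh n p m = 10 * M / b ^ 2 * rh n p m + 11 * M / b ^ 2 * rh n p m := by
    ring
  linarith

/-- the two pointwise bounds for the linear weight -/
theorem lin_left (V : Valid b L n a p q) {m j : ℕ} (hm : m ∈ Icc 1 n) (hj : 1 ≤ j) (hjm : j ≤ m) :
    lw n p q m * W p (j - 1) ^ 3 ≤ 2 * b ^ (9 : ℝ) * W p (j - 1) ^ (105 / 100 : ℝ) * W p (m - 1) := by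
  have hb0 : 0 < b := V.expo.b0
  rw [Finset.mem_Icc] at hm
  have h1 := V.lamB.g m hm.2
  have hu := V.expo.up (m - 1) (by omega)
  have hd := V.expo.dn (m - 1) (by omega)
  rw [Nat.sub_add_cancel hm.1] at hu hd
  have hv := V.expo.v2 (j - 1) (m - 1) (by omega) (by omega)
  have hn := V.expo.nonneg (m := j - 1) (by omega)
  rw [V.W_eq (m := j - 1) (by omega), V.W_eq (m := m - 1) (by omega)]
  set u := ex b p (m - 1)
  set v := ex b p (j - 1)
  have e3 : (b ^ v) ^ 3 = b ^ (3 * v) := by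
    rw [← Real.rpow_natCast (b ^ v) 3, ← Real.rpow_mul hb0.le]
    congr 1
    push_cast
    ring
  have e4 : (b ^ v) ^ (105 / 100 : ℝ) = b ^ (105 / 100 * v) := by
    rw [← Real.rpow_mul hb0.le]
    congr 1
    ring
  rw [e3, e4]
  calc lw n p q m * b ^ (3 * v) ≤ 2 * b ^ (6 - 97 / 100 * ex b p m) * b ^ (3 * v) := by gcongr
    _ = 2 * b ^ (6 - 97 / 100 * ex b p m + 3 * v) := by
      rw [mul_assoc, ← Real.rpow_add hb0]
    _ ≤ 2 * b ^ (9 + 105 / 100 * v + u) := by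
      have : b ^ (6 - 97 / 100 * ex b p m + 3 * v) ≤ b ^ (9 + 105 / 100 * v + u) := by
        apply V.expo.mono
        linarith
      gcongr
    _ = 2 * b ^ (9 : ℝ) * b ^ (105 / 100 * v) * b ^ u := by
      rw [Real.rpow_add hb0, Real.rpow_add hb0]
      ring

theorem lin_right (V : Valid b L n a p q) {j : ℕ} (hj : j ∈ Icc 1 n) :
    lw n p q j * W p (j - 1) ^ 2 ≤ 2 * b ^ (9 : ℝ) * W p (j - 1) ^ (105 / 100 : ℝ) := by
  have hb0 : 0 < b := V.expo.b0
  rw [Finset.mem_Icc] at hj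
  have h1 := V.lamB.g j hj.2
  have hu := V.expo.up (j - 1) (by omega)
  have hd := V.expo.dn (j - 1) (by omega)
  rw [Nat.sub_add_cancel hj.1] at hu hd
  have hn := V.expo.nonneg (m := j - 1) (by omega)
  rw [V.W_eq (m := j - 1) (by omega)]
  set v := ex b p (j - 1)
  have e3 : (b ^ v) ^ 2 = b ^ (2 * v) := by
    rw [← Real.rpow_natCast (b ^ v) 2, ← Real.rpow_mul hb0.le]
    congr 1
    push_cast
    ring
  have e4 : (b ^ v) ^ (105 / 100 : ℝ) = b ^ (105 / 100 * v) := by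
    rw [← Real.rpow_mul hb0.le]
    congr 1
    ring
  rw [e3, e4]
  calc lw n p q j * b ^ (2 * v) ≤ 2 * b ^ (6 - 97 / 100 * ex b p j) * b ^ (2 * v) := by gcongr
    _ = 2 * b ^ (6 - 97 / 100 * ex b p j + 2 * v) := by
      rw [mul_assoc, ← Real.rpow_add hb0]
    _ ≤ 2 * b ^ (9 + 105 / 100 * v) := by
      have : b ^ (6 - 97 / 100 * ex b p j + 2 * v) ≤ b ^ (9 + 105 / 100 * v) := by
        apply V.expo.mono
        linarith
      gcongr
    _ = 2 * b ^ (9 : ℝ) * b ^ (105 / 100 * v) := by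
      rw [Real.rpow_add hb0]
      ring

/-- the weighted Green sum for the linear weight `R W (j-1)`, crude bound -/
theorem hsr_lin (V : Valid b L n a p q) {M R Λ : ℝ} (hM0 : 0 ≤ M) (hR : 0 ≤ R)
    (hΛ : ∀ j ∈ Icc 1 n, W p (j - 1) ≤ Λ) {m : ℕ} (hm : m ∈ Icc 1 n) :
    ∑ j ∈ Icc 1 n, |K n p q m j| * (M * (R * W p (j - 1))) * rh n p j ≤
      n * (M * R * (2 * b ^ (9 : ℝ) * Λ ^ (105 / 100 : ℝ))) * rh n p m := by
  have hb0 : 0 < b := V.expo.b0
  have hD := V.Dpos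
  have hm' := Finset.mem_Icc.mp hm
  have hrm := (V.rh_pos hm).le
  have hWm := W_nonneg p (m - 1)
  have hpt : ∀ j ∈ Icc 1 n, |K n p q m j| * (M * (R * W p (j - 1))) * rh n p j ≤
      M * R * (2 * b ^ (9 : ℝ) * Λ ^ (105 / 100 : ℝ)) * rh n p m := by
    intro j hj
    have hjΛ := hΛ j hj
    have hj' := Finset.mem_Icc.mp hj
    have hWj := W_nonneg p (j - 1)
    have hr : 0 ≤ rh n p j := (V.rh_pos hj).le
    have hpow : W p (j - 1) ^ (105 / 100 : ℝ) ≤ Λ ^ (105 / 100 : ℝ) :=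
      Real.rpow_le_rpow hWj hjΛ (by norm_num)
    rcases Nat.lt_or_ge m j with h | h
    · have h1 := V.K_right h
      have h2 := abs_le_W_pred p hm'.1
      have h3 := (V.lw_pos hj'.2).le
      have h4 := lin_right V hj
      calc |K n p q m j| * (M * (R * W p (j - 1))) * rh n p j
          ≤ (W p (m - 1) * lw n p q j) * (M * (R * W p (j - 1))) * rh n p j := by
            have : |K n p q m j| ≤ W p (m - 1) * lw n p q j :=
              h1.trans (mul_le_mul_of_nonneg_right h2 h3)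
            gcongr
        _ = M * R * (lw n p q j * W p (j - 1) ^ 2) * rh n p m := by
            unfold rh
            ring
        _ ≤ M * R * (2 * b ^ (9 : ℝ) * W p (j - 1) ^ (105 / 100 : ℝ)) * rh n p m := by
            gcongr
        _ ≤ _ := by gcongr
    · have h1 := V.K_left h
      have h2 := abs_le_W_pred p hj'.1
      have h3 := (V.lw_pos hm'.2).le
      have h4 := lin_left V hm hj'.1 h
      calc |K n p q m j| * (M * (R * W p (j - 1))) * rh n p j
          ≤ (lw n p q m * W p (j - 1)) * (M * (R * W p (j - 1))) * rh n p j := by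
            have : |K n p q m j| ≤ lw n p q m * W p (j - 1) :=
              h1.trans (mul_le_mul_of_nonneg_left h2 h3)
            gcongr
        _ = M * R * (lw n p q m * W p (j - 1) ^ 3) / |p (n + 1)| := by
            unfold rh
            ring
        _ ≤ M * R * (2 * b ^ (9 : ℝ) * W p (j - 1) ^ (105 / 100 : ℝ) * W p (m - 1)) / |p (n + 1)| := by
            gcongr
        _ = M * R * (2 * b ^ (9 : ℝ) * W p (j - 1) ^ (105 / 100 : ℝ)) * rh n p m := by
            unfold rh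
            ring
        _ ≤ _ := by gcongr
  refine (Finset.sum_le_sum hpt).trans ?_
  rw [Finset.sum_const, Nat.card_Icc, nsmul_eq_mul]
  apply le_of_eq
  rw [Nat.add_sub_cancel]
  ring

/-- two orbits in a box around a valid orbit with the same left boundary value -/
theorem box_diff {f Vd : ℝ → ℝ} {M : ℝ} (hM0 : 0 ≤ M) (hNL : NL f Vd M) (x : ℕ → ℝ)
    (V : Valid b L n (fun m => Vd (x m)) p q) (w : ℕ → ℝ)
    (hsr : ∀ m ∈ Icc 1 n, ∑ j ∈ Icc 1 n, |K n p q m j| * (M * w j) * rh n p j ≤ 1 / 4 * rh n p m)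
    (y z : ℕ → ℝ) (hy : Orb n f y) (hz : Orb n f z) (h0 : z 0 = y 0)
    (hyx : ∀ m ∈ Icc 1 n, |y m - x m| ≤ w m) (hzx : ∀ m ∈ Icc 1 n, |z m - x m| ≤ w m) :
    |z 1 - y 1| ≤ 2 * (|z (n + 1) - y (n + 1)| / |p (n + 1)|) := by
  have h1n : 1 ∈ Icc 1 n := by
    have := V.hL
    have := V.hLn
    rw [Finset.mem_Icc]
    omega
  set C0 : ℝ := ∑ i ∈ Icc 1 n, |q i / p (n + 1)| / rh n p i with hC0
  have hC0n : 0 ≤ C0 := Finset.sum_nonneg fun i hi => div_nonneg (abs_nonneg _) (V.rh_pos hi).le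
  have hql : ∀ m ∈ Icc 1 n, |q m / p (n + 1)| ≤ C0 * rh n p m := by
    intro m hm
    have h1 : |q m / p (n + 1)| / rh n p m ≤ C0 :=
      Finset.single_le_sum (f := fun i => |q i / p (n + 1)| / rh n p i)
        (fun i hi => div_nonneg (abs_nonneg _) (V.rh_pos hi).le) hm
    rwa [div_le_iff₀ (V.rh_pos hm)] at h1
  have h := orb_diff hM0 hNL x V.J w (rh n p) (fun m => C0 * rh n p m) (1 / 4) le_rfl
    (fun m hm => V.rh_pos hm) (fun m hm => V.p_le_rh hm) hql hsr (by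
      intro m hm
      have h1 := mul_le_mul_of_nonneg_left (hsr m hm) hC0n
      have e : ∑ j ∈ Icc 1 n, |K n p q m j| * (M * w j) * (C0 * rh n p j) =
          C0 * ∑ j ∈ Icc 1 n, |K n p q m j| * (M * w j) * rh n p j := by
        rw [Finset.mul_sum]
        apply Finset.sum_congr rfl
        intro j _
        ring
      rw [e]
      linarith) y z hy hz hyx hzx 1 h1n
  have h2 := h.1
  rw [h0, sub_self, abs_zero, mul_zero, add_zero] at h2
  have e : rh n p 1 = 1 / |p (n + 1)| := by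
    unfold rh
    rw [Nat.sub_self, W_zero V.J]
  rw [e] at h2
  calc |z 1 - y 1| ≤ 2 * (1 / |p (n + 1)| * |z (n + 1) - y (n + 1)|) := h2
    _ = _ := by ring

/-! ### matched orbits -/

theorem lamB_max {n1 n2 L1 L2 : ℕ} {a1 a2 p1 p2 q1 q2 : ℕ → ℝ} (h12 : n1 ≤ n2)
    (V1 : Valid b L1 n1 a1 p1 q1) (V2 : Valid b L2 n2 a2 p2 q2)
    (hcmp : ∀ m ≤ n1, N p1 m ≤ 4 * N p2 m) :
    LamB b n1 (ex b p1) (fun j => max (lw n1 p1 q1 j) (lw n2 p2 q2 j / 6)) := by
  have hb0 : 0 < b := V1.expo.b0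
  have hn1 := V1.expo.hn
  have hW : ∀ m ≤ n1, b ^ ex b p1 m ≤ 6 * b ^ ex b p2 m := by
    intro m hm
    rw [← V1.W_eq hm, ← V2.W_eq (hm.trans h12)]
    have h1 := W_le_N p1 m
    have h2 := hcmp m hm
    have h3 := N_le_W p2 m
    linarith
  have hinv : ∀ m ≤ n1, b ^ (-ex b p2 m) ≤ 6 * b ^ (-ex b p1 m) := by
    intro m hm
    have h1 := hW m hm
    rw [Real.rpow_neg hb0.le, Real.rpow_neg hb0.le]
    have p1' : 0 < b ^ ex b p1 m := Real.rpow_pos_of_pos hb0 _
    have p2' : 0 < b ^ ex b p2 m := Real.rpow_pos_of_pos hb0 _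
    rw [inv_eq_one_div, inv_eq_one_div, mul_one_div, div_le_div_iff₀ p2' p1']
    linarith
  refine ⟨?_, ?_, ?_⟩
  · intro m hm
    exact le_max_of_le_left (V1.lw_pos hm).le
  · intro m hm
    apply max_le (V1.lamB.c m hm)
    have h1 := V2.lamB.c m hm
    have h2 := hinv m (by omega)
    linarith
  · intro m hm
    apply max_le (V1.lamB.g m hm)
    have h1 := V2.lamB.g m (hm.trans h12)
    have h2 := hinv m hm
    have e1 : ∀ v : ℝ, b ^ (6 - 97 / 100 * v) = b ^ (6 : ℝ) * (b ^ (-v)) ^ (97 / 100 : ℝ) := by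
      intro v
      rw [← Real.rpow_mul hb0.le, ← Real.rpow_add hb0]
      congr 1
      ring
    have h3 : (b ^ (-ex b p2 m)) ^ (97 / 100 : ℝ) ≤ 6 * (b ^ (-ex b p1 m)) ^ (97 / 100 : ℝ) := by
      calc (b ^ (-ex b p2 m)) ^ (97 / 100 : ℝ) ≤ (6 * b ^ (-ex b p1 m)) ^ (97 / 100 : ℝ) :=
            Real.rpow_le_rpow (Real.rpow_nonneg hb0.le _) h2 (by norm_num)
        _ = (6 : ℝ) ^ (97 / 100 : ℝ) * (b ^ (-ex b p1 m)) ^ (97 / 100 : ℝ) :=
            Real.mul_rpow (by norm_num) (Real.rpow_nonneg hb0.le _)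
        _ ≤ (6 : ℝ) ^ (1 : ℝ) * (b ^ (-ex b p1 m)) ^ (97 / 100 : ℝ) := by
            apply mul_le_mul_of_nonneg_right _ (by positivity)
            exact Real.rpow_le_rpow_of_exponent_le (by norm_num) (by norm_num)
        _ = _ := by rw [Real.rpow_one]
    rw [e1] at h1
    rw [e1]
    have h6 : 0 ≤ b ^ (6 : ℝ) := by positivity
    have h7 := mul_le_mul_of_nonneg_left h3 h6
    linarith

/-- value of the second weight one step after the first crossing -/
theorem lw_next {n1 n2 L2 : ℕ} {a2 p2 q2 : ℕ → ℝ} (h12 : n1 < n2)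
    (V2 : Valid b L2 n2 a2 p2 q2) {Y : ℝ} (hY : 0 < Y) (hbig : Y ≤ N p2 n1) :
    lw n2 p2 q2 (n1 + 1) ≤ 2 * b ^ (8 : ℝ) * Y ^ (-(97 / 100) : ℝ) := by
  have hb0 : 0 < b := V2.expo.b0
  have h1 := V2.lamB.g (n1 + 1) (by omega)
  have hd := V2.expo.dn n1 h12
  have hn := V2.expo.nonneg (m := n1) h12.le
  have hW : Y ≤ b ^ ex b p2 n1 := by
    rw [← V2.W_eq h12.le]
    exact hbig.trans (N_le_W p2 n1)
  have e1 : b ^ (8 - 97 / 100 * ex b p2 n1) = b ^ (8 : ℝ) * (b ^ ex b p2 n1) ^ (-(97 / 100) : ℝ) := by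
    rw [← Real.rpow_mul hb0.le, ← Real.rpow_add hb0]
    congr 1
    ring
  have h2 : b ^ (6 - 97 / 100 * ex b p2 (n1 + 1)) ≤ b ^ (8 - 97 / 100 * ex b p2 n1) := by
    apply V2.expo.mono
    linarith
  have h3 : (b ^ ex b p2 n1) ^ (-(97 / 100) : ℝ) ≤ Y ^ (-(97 / 100) : ℝ) :=
    Real.rpow_le_rpow_of_nonpos hY hW (by norm_num)
  calc lw n2 p2 q2 (n1 + 1) ≤ 2 * b ^ (6 - 97 / 100 * ex b p2 (n1 + 1)) := h1
    _ ≤ 2 * b ^ (8 - 97 / 100 * ex b p2 n1) := by linarith
    _ = 2 * b ^ (8 : ℝ) * (b ^ ex b p2 n1) ^ (-(97 / 100) : ℝ) := by rw [e1]; ring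
    _ ≤ _ := by gcongr

/-- **COHERENCE** -/
theorem coh_stmt : Core.CohStmt := by
  refine ⟨(10 : ℝ) ^ 30, ?_⟩
  intro k hk X hX a1 b1 a2 b2 n1' n2' n1 n2 L1 L2 hA1 hA2 hS1 hS2 h12 hcmp l s1 s2 ρ _ _ hM1 hM2
    hρ1 hρ2 hs hfield l' s1' s2' _ _ hM1' hM2'
  obtain ⟨hb19, hbk, hbk2⟩ := Core.base_facts hk
  have hk0 : 0 < k := lt_of_lt_of_le (by positivity) hk
  have hk1 : (1 : ℝ) ≤ k := le_trans (by norm_num) hk
  have hX0 : 0 < X := lt_of_lt_of_le (by positivity) hX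
  have hX1 : 1 ≤ X := le_trans (one_le_pow₀ hk1) hX
  set b : ℝ := k ^ (2 / 3 : ℝ) / 2 with hb
  have hb0 : 0 < b := lt_of_lt_of_le (by positivity) hb19
  have hbk' : b ≤ k := by
    by_contra hc
    push Not at hc
    have : k ^ 2 < b ^ 2 := pow_lt_pow_left₀ hc hk0.le (by norm_num)
    linarith
  have V1 := hS1.val
  have V2 := hS2.val
  set x1 := xorb k a1 b1 with hx1
  set x2 := xorb k a2 b2 with hx2
  set p1 := pk k a1 b1 with hp1
  set p2 := pk k a2 b2 with hp2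
  set q1 := Core.qk (Core.dig k a1 b1) n1 with hq1
  set q2 := Core.qk (Core.dig k a2 b2) n2 with hq2
  have hn35 : 35 ≤ n1 := V1.hL.trans V1.hLn
  set M : ℝ := 4 * Real.pi ^ 2 * k with hM
  have hM0 : 0 ≤ M := by positivity
  have hM40 : M ≤ 40 * k := Core.M_le hk0
  have hρ0 : 0 < ρ := lt_of_lt_of_le (by positivity) hρ1
  have hr0 : 0 < X ^ (-(3 / 2) : ℝ) := by positivity
  -- powers of k in terms of powers of X
  have hkX : k ≤ X ^ (1 / 600 : ℝ) := by
    have h1 : (k ^ 600) ^ (1 / 600 : ℝ) ≤ X ^ (1 / 600 : ℝ) :=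
      Real.rpow_le_rpow (by positivity) hX (by norm_num)
    have h2 : (k ^ 600) ^ (1 / 600 : ℝ) = k := by
      rw [← Real.rpow_natCast, ← Real.rpow_mul hk0.le]
      norm_num
    linarith
  have hkpow : ∀ i : ℕ, k ^ i ≤ X ^ ((i : ℝ) / 600) := by
    intro i
    calc k ^ i ≤ (X ^ (1 / 600 : ℝ)) ^ i := pow_le_pow_left₀ hk0.le hkX i
      _ = X ^ ((i : ℝ) / 600) := by
        rw [← Real.rpow_natCast, ← Real.rpow_mul hX0.le]
        congr 1
        ring
  have hX25 : (10 : ℝ) ^ 30 ≤ X ^ (2 / 5 : ℝ) := by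
    have h1 := hkpow 1
    have h2 : X ^ (((1 : ℕ) : ℝ) / 600) ≤ X ^ (2 / 5 : ℝ) :=
      Real.rpow_le_rpow_of_exponent_le hX1 (by norm_num)
    rw [pow_one] at h1
    linarith
  -- the segment between s1 and s2
  have hseg : ∀ s ∈ Set.uIcc s1 s2, |s - s1| ≤ 2 * X ^ (-(3 / 2) : ℝ) := by
    intro s hs'
    have h1 : |s - s1| ≤ |s2 - s1| := Set.abs_sub_left_of_mem_uIcc hs'
    rw [abs_sub_comm s2 s1] at h1
    linarith
  have hdiv : ∀ m, m ≤ n1 → |xorb k l s2 (m + 1) - xorb k l s1 (m + 1)| ≤ 2 * ρ * N p1 m := by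
    intro m hm
    have hN0 : 0 ≤ N p1 m := N_nonneg p1 m
    have h1 := xorb_sub_le (k := k) (l := l) (s1 := s1) (s2 := s2) (m := m + 1)
      (C := 2 * nf k a1 b1 m) (by
        intro s hs'
        have h2 := hfield s (hseg s hs') m hm
        have h3 : |pk k l s (m + 1)| ≤ nf k l s m := le_max_right _ _
        linarith)
    have h2 : |s2 - s1| ≤ ρ := by rw [abs_sub_comm]; exact hs
    have h3 : 0 ≤ 2 * nf k a1 b1 m := by
      have : 0 ≤ nf k a1 b1 m := hN0
      linarith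
    calc |xorb k l s2 (m + 1) - xorb k l s1 (m + 1)| ≤ 2 * nf k a1 b1 m * |s2 - s1| := h1
      _ ≤ 2 * nf k a1 b1 m * ρ := mul_le_mul_of_nonneg_left h2 h3
      _ = 2 * ρ * N p1 m := by
        show 2 * nf k a1 b1 m * ρ = 2 * ρ * nf k a1 b1 m
        ring
  -- the weights
  have hcmpN : ∀ m ≤ n1, N p1 m ≤ 4 * N p2 m := fun m hm => (hcmp m hm).1
  set lx : ℕ → ℝ := fun j => max (lw n1 p1 q1 j) (lw n2 p2 q2 j / 6) with hlx
  have hLB : LamB b n1 (ex b p1) lx := lamB_max h12 V1 V2 hcmpN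
  set w : ℕ → ℝ := fun j => 20 * lx j + 2 * ρ * W p1 (j - 1) with hw
  have hsr : ∀ m ∈ Icc 1 n1, ∑ j ∈ Icc 1 n1, |K n1 p1 q1 m j| * (M * w j) * rh n1 p1 j ≤
      1 / 4 * rh n1 p1 m := by
    intro m hm
    have hrm := (V1.rh_pos hm).le
    have h1 := hsrx V1 hLB (fun m _ => le_max_left _ _) (M := 20 * M) (by positivity) hm
    have hΛ : ∀ j ∈ Icc 1 n1, W p1 (j - 1) ≤ 3 / 2 * X := by
      intro j hj
      rw [Finset.mem_Icc] at hj
      have h2 := W_le_N p1 (j - 1)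
      have h3 := hS1.small (j - 1) (by omega)
      have h4 : N p1 (j - 1) < X := h3
      linarith
    have h2 := hsr_lin V1 (M := M) (R := 2 * ρ) hM0 (by positivity) hΛ hm
    have e : ∑ j ∈ Icc 1 n1, |K n1 p1 q1 m j| * (M * w j) * rh n1 p1 j =
        ∑ j ∈ Icc 1 n1, |K n1 p1 q1 m j| * (20 * M * lx j) * rh n1 p1 j +
        ∑ j ∈ Icc 1 n1, |K n1 p1 q1 m j| * (M * (2 * ρ * W p1 (j - 1))) * rh n1 p1 j := by
      rw [← Finset.sum_add_distrib]
      apply Finset.sum_congr rfl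
      intro j _
      simp only [hw]
      ring
    rw [e]
    -- first constant
    have c1 : 21 * (20 * M) / b ^ 2 ≤ 1 / 8 := by
      rw [div_le_iff₀ (by positivity)]
      norm_num at hbk ⊢
      linarith
    -- second constant
    have c2 : (n1 : ℝ) * (M * (2 * ρ) * (2 * b ^ (9 : ℝ) * (3 / 2 * X) ^ (105 / 100 : ℝ))) ≤ 1 / 8 := by
      -- the number of steps
      have hn1 : (n1 : ℝ) ≤ X ^ (1 / 200 : ℝ) := by
        obtain ⟨i, hi, hi2⟩ := V1.V3 n1 V1.hLn le_rfl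
        have h3 : N p1 i ≤ k * X := hA1.2.2 i (lt_of_le_of_lt hi hS1.lt)
        have h4 : N p1 i ≤ X ^ 2 := by
          have h5 : k ≤ X := by
            have h6 := hkpow 1
            rw [pow_one] at h6
            have h7 : X ^ (((1 : ℕ) : ℝ) / 600) ≤ X ^ (1 : ℝ) :=
              Real.rpow_le_rpow_of_exponent_le hX1 (by norm_num)
            rw [Real.rpow_one] at h7
            linarith
          nlinarith
        calc (n1 : ℝ) ≤ (N p1 i) ^ (1 / 400 : ℝ) := hi2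
          _ ≤ (X ^ 2) ^ (1 / 400 : ℝ) := Real.rpow_le_rpow (N_nonneg p1 i) h4 (by norm_num)
          _ = X ^ (1 / 200 : ℝ) := by
            rw [← Real.rpow_natCast, ← Real.rpow_mul hX0.le]
            norm_num
      have hb9 : b ^ (9 : ℝ) ≤ k ^ 9 := by
        have h3 : b ^ (9 : ℝ) = b ^ 9 := by exact_mod_cast Real.rpow_natCast b 9
        rw [h3]
        exact pow_le_pow_left₀ hb0.le hbk' 9
      have hX105 : (3 / 2 * X) ^ (105 / 100 : ℝ) ≤ 4 * X ^ (105 / 100 : ℝ) := by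
        rw [Real.mul_rpow (by norm_num) hX0.le]
        have h3 : (3 / 2 : ℝ) ^ (105 / 100 : ℝ) ≤ (3 / 2 : ℝ) ^ (2 : ℝ) :=
          Real.rpow_le_rpow_of_exponent_le (by norm_num) (by norm_num)
        have h4 : (3 / 2 : ℝ) ^ (2 : ℝ) ≤ 4 := by
          rw [Real.rpow_two]
          norm_num
        have h5 : 0 ≤ X ^ (105 / 100 : ℝ) := by positivity
        exact mul_le_mul_of_nonneg_right (h3.trans h4) h5
      have hk10 := hkpow 10
      have hMk : M * (2 * ρ) ≤ 160 * k * X ^ (-(3 / 2) : ℝ) := by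
        calc M * (2 * ρ) ≤ (40 * k) * (2 * (2 * X ^ (-(3 / 2) : ℝ))) := by gcongr
          _ = _ := by ring
      calc (n1 : ℝ) * (M * (2 * ρ) * (2 * b ^ (9 : ℝ) * (3 / 2 * X) ^ (105 / 100 : ℝ)))
          ≤ X ^ (1 / 200 : ℝ) * (160 * k * X ^ (-(3 / 2) : ℝ) *
              (2 * k ^ 9 * (4 * X ^ (105 / 100 : ℝ)))) := by
            gcongr
        _ = 1280 * (k ^ 10 * (X ^ (1 / 200 : ℝ) * X ^ (-(3 / 2) : ℝ) * X ^ (105 / 100 : ℝ))) := by
            ring
        _ ≤ 1280 * (X ^ (((10 : ℕ) : ℝ) / 600) *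
              (X ^ (1 / 200 : ℝ) * X ^ (-(3 / 2) : ℝ) * X ^ (105 / 100 : ℝ))) := by
            gcongr
        _ = 1280 * X ^ ((((10 : ℕ) : ℝ) / 600) + (1 / 200 + (-(3 / 2)) + 105 / 100)) := by
            rw [← Real.rpow_add hX0, ← Real.rpow_add hX0, ← Real.rpow_add hX0]
        _ ≤ 1280 * X ^ (-(2 / 5) : ℝ) := by
            have : X ^ ((((10 : ℕ) : ℝ) / 600) + (1 / 200 + (-(3 / 2)) + 105 / 100)) ≤
                X ^ (-(2 / 5) : ℝ) :=
              Real.rpow_le_rpow_of_exponent_le hX1 (by norm_num)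
            gcongr
        _ ≤ 1 / 8 := by
            rw [Real.rpow_neg hX0.le, ← div_eq_mul_inv, div_le_iff₀ (by positivity)]
            norm_num at hX25 ⊢
            linarith
    have c1' := mul_le_mul_of_nonneg_right c1 hrm
    have c2' := mul_le_mul_of_nonneg_right c2 hrm
    linarith
  -- box of the two orbits at l'
  have hx2x1 : ∀ m ∈ Icc 1 n1, |x2 m - x1 m| ≤
      3 / 2 * lw n2 p2 q2 m + 2 * ρ * W p1 (m - 1) + 3 / 2 * lw n1 p1 q1 m := by
    intro m hm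
    have hm' := Finset.mem_Icc.mp hm
    have h1 := hM1.box m hm
    have h2 := hM2.box m (Finset.mem_Icc.mpr ⟨hm'.1, hm'.2.trans h12⟩)
    have h3 := hdiv (m - 1) (by omega)
    rw [Nat.sub_add_cancel hm'.1] at h3
    have h4 := N_le_W p1 (m - 1)
    have h5 : 2 * ρ * N p1 (m - 1) ≤ 2 * ρ * W p1 (m - 1) :=
      mul_le_mul_of_nonneg_left h4 (by positivity)
    rw [abs_le] at h1 h2 h3 ⊢
    constructor
    · linarith [h1.1, h1.2, h2.1, h2.2, h3.1, h3.2]
    · linarith [h1.1, h1.2, h2.1, h2.2, h3.1, h3.2]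
  have hlx1 : ∀ m, lw n1 p1 q1 m ≤ lx m := fun m => le_max_left _ _
  have hlx2 : ∀ m, lw n2 p2 q2 m ≤ 6 * lx m := fun m => by
    have : lw n2 p2 q2 m / 6 ≤ lx m := le_max_right _ _
    linarith
  have hbox1 : ∀ m ∈ Icc 1 n1, |xorb k l' s1' m - x1 m| ≤ w m := by
    intro m hm
    have hm' := Finset.mem_Icc.mp hm
    have h1 := hM1'.box m hm
    have h2 := hlx1 m
    have h3 : 0 ≤ 2 * ρ * W p1 (m - 1) := mul_nonneg (by positivity) (W_nonneg _ _)
    have h4 := hLB.pos m hm'.2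
    simp only [hw]
    linarith
  have hbox2 : ∀ m ∈ Icc 1 n1, |xorb k l' s2' m - x1 m| ≤ w m := by
    intro m hm
    have hm' := Finset.mem_Icc.mp hm
    have h1 := hM2'.box m (Finset.mem_Icc.mpr ⟨hm'.1, hm'.2.trans h12⟩)
    have h2 := hx2x1 m hm
    have h3 := hlx1 m
    have h4 := hlx2 m
    have h5 := hLB.pos m hm'.2
    simp only [hw]
    rw [abs_le] at h1 h2 ⊢
    constructor
    · linarith [h1.1, h1.2, h2.1, h2.2]
    · linarith [h1.1, h1.2, h2.1, h2.2]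
  have hfin := box_diff hM0 (NL_fk hk0.le) x1 V1 w hsr (xorb k l' s1') (xorb k l' s2')
    (xorb_orb k l' s1' n1) (xorb_orb k l' s2' n1) rfl hbox1 hbox2
  -- the right boundary values
  have hP : X ≤ |p1 (n1 + 1)| := hS1.pn1
  have hP0 : 0 < |p1 (n1 + 1)| := lt_of_lt_of_le hX0 hP
  have hNn : N p1 n1 = |p1 (n1 + 1)| := by
    apply max_eq_right
    have := hS1.pn
    linarith
  have hend1 : |xorb k l s2 (n1 + 1) - xorb k l s1 (n1 + 1)| ≤ 2 * ρ * |p1 (n1 + 1)| := by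
    have := hdiv n1 le_rfl
    rwa [hNn] at this
  have hend2 : |xorb k l' s2' (n1 + 1) - xorb k l s2 (n1 + 1)| ≤ ρ * |p1 (n1 + 1)| := by
    rcases Nat.eq_or_lt_of_le h12 with h | h
    · have e1 := hM2.right
      have e2 := hM2'.right
      rw [← h] at e1 e2
      rw [e1, e2, sub_self, abs_zero]
      positivity
    · have hmem : n1 + 1 ∈ Icc 1 n2 := Finset.mem_Icc.mpr ⟨by omega, h⟩
      have h1 := hM2.box (n1 + 1) hmem
      have h2 := hM2'.box (n1 + 1) hmem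
      have hbig : X / 4 ≤ N p2 n1 := by
        have h3 := hcmpN n1 le_rfl
        rw [hNn] at h3
        linarith
      have h3 := lw_next h V2 (Y := X / 4) (by positivity) hbig
      have h4 : (X / 4) ^ (-(97 / 100) : ℝ) ≤ 4 * X ^ (-(97 / 100) : ℝ) := by
        rw [Real.div_rpow hX0.le (by norm_num)]
        have h5 : (4 : ℝ) ^ (-(97 / 100) : ℝ) = ((4 : ℝ) ^ (97 / 100 : ℝ))⁻¹ :=
          Real.rpow_neg (by norm_num) _
        rw [h5, div_inv_eq_mul]
        have h6 : (4 : ℝ) ^ (97 / 100 : ℝ) ≤ (4 : ℝ) ^ (1 : ℝ) :=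
          Real.rpow_le_rpow_of_exponent_le (by norm_num) (by norm_num)
        rw [Real.rpow_one] at h6
        have h7 : 0 ≤ X ^ (-(97 / 100) : ℝ) := by positivity
        nlinarith
      have hb8 : b ^ (8 : ℝ) ≤ X ^ (((8 : ℕ) : ℝ) / 600) := by
        have h5 : b ^ (8 : ℝ) = b ^ 8 := by exact_mod_cast Real.rpow_natCast b 8
        rw [h5]
        exact (pow_le_pow_left₀ hb0.le hbk' 8).trans (hkpow 8)
      have h5 : lw n2 p2 q2 (n1 + 1) ≤ 8 * X ^ (-(9 / 10) : ℝ) := by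
        calc lw n2 p2 q2 (n1 + 1) ≤ 2 * b ^ (8 : ℝ) * (X / 4) ^ (-(97 / 100) : ℝ) := h3
          _ ≤ 2 * X ^ (((8 : ℕ) : ℝ) / 600) * (4 * X ^ (-(97 / 100) : ℝ)) := by gcongr
          _ = 8 * (X ^ (((8 : ℕ) : ℝ) / 600) * X ^ (-(97 / 100) : ℝ)) := by ring
          _ = 8 * X ^ ((((8 : ℕ) : ℝ) / 600) + -(97 / 100)) := by rw [← Real.rpow_add hX0]
          _ ≤ 8 * X ^ (-(9 / 10) : ℝ) := by
            have : X ^ ((((8 : ℕ) : ℝ) / 600) + -(97 / 100)) ≤ X ^ (-(9 / 10) : ℝ) :=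
              Real.rpow_le_rpow_of_exponent_le hX1 (by norm_num)
            linarith
      have h6 : |xorb k l' s2' (n1 + 1) - xorb k l s2 (n1 + 1)| ≤ 3 * lw n2 p2 q2 (n1 + 1) := by
        rw [abs_le] at h1 h2 ⊢
        constructor
        · linarith [h1.1, h1.2, h2.1, h2.2]
        · linarith [h1.1, h1.2, h2.1, h2.2]
      have h7 : 24 * X ^ (-(9 / 10) : ℝ) ≤ ρ * X := by
        have e1 : X ^ (-(3 / 2) : ℝ) * X = X ^ (-(9 / 10) : ℝ) * X ^ (2 / 5 : ℝ) := by
          conv_lhs => rw [← Real.rpow_one X, ← Real.rpow_mul hX0.le, ← Real.rpow_add hX0]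
          rw [← Real.rpow_add hX0]
          norm_num
        have h8 : X ^ (-(3 / 2) : ℝ) / 10 ^ 4 * X ≤ ρ * X :=
          mul_le_mul_of_nonneg_right hρ1 hX0.le
        have h9 : X ^ (-(3 / 2) : ℝ) / 10 ^ 4 * X = X ^ (-(9 / 10) : ℝ) * X ^ (2 / 5 : ℝ) / 10 ^ 4 := by
          rw [← e1]
          ring
        have h10 : 0 ≤ X ^ (-(9 / 10) : ℝ) := by positivity
        have h11 := mul_le_mul_of_nonneg_left hX25 h10
        norm_num at h11 h9 h8 ⊢
        linarith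
      have h8 : ρ * X ≤ ρ * |p1 (n1 + 1)| := mul_le_mul_of_nonneg_left hP hρ0.le
      linarith
  have hend3 : xorb k l' s1' (n1 + 1) = xorb k l s1 (n1 + 1) := by
    rw [hM1'.right, hM1.right]
  have hend : |xorb k l' s2' (n1 + 1) - xorb k l' s1' (n1 + 1)| ≤ 3 * ρ * |p1 (n1 + 1)| := by
    rw [hend3]
    rw [abs_le] at hend1 hend2 ⊢
    constructor
    · linarith [hend1.1, hend1.2, hend2.1, hend2.2]
    · linarith [hend1.1, hend1.2, hend2.1, hend2.2]
  have hfin2 : |s2' - s1'| ≤ 2 * (3 * ρ) := by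
    have h1 : |xorb k l' s2' (n1 + 1) - xorb k l' s1' (n1 + 1)| / |p1 (n1 + 1)| ≤ 3 * ρ := by
      rw [div_le_iff₀ hP0]
      exact hend
    have h2 : |xorb k l' s2' 1 - xorb k l' s1' 1| = |s2' - s1'| := rfl
    rw [h2] at hfin
    linarith
  rw [abs_sub_comm]
  linarith

end Crest.Agent.R128.CoreA
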