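import Mathlib
import Crest.Agent.R128.CoreI

/-!
Row 128, node V3-CORE: assembly of `CoreStmt2` and `CoreStmt` from `ShadowStmt` and `CohStmt`.
-/

set_option autoImplicit false

open Finset

namespace Crest.Agent.R128.Core

open Crest.Agent.R128.TreeSum Crest.Agent.R128.BVP Crest.Agent.R128.Lam0

/-- the orbit is matched to itself -/
theorem Seg.refl {k X a b : ℝ} {n' n L : ℕ} (S : Seg k X a b n' n L) : Mt k a b n a b where
  right := rfl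
  box := by
    intro m hm
    rw [sub_self, abs_zero]
    have := (S.val.lw_pos (Finset.mem_Icc.mp hm).2).le
    positivity

/-- the matched start is a `1/8`-Lipschitz function of the left boundary value -/
theorem Mt.lip {k X a b : ℝ} {n' n L : ℕ} (hk : (10 : ℝ) ^ 30 ≤ k) (S : Seg k X a b n' n L)
    {l s l' s' : ℝ} (h : Mt k a b n l s) (h' : Mt k a b n l' s') : |s - s'| ≤ 1 / 8 * |l - l'| := by
  obtain ⟨hb19, hbk, -⟩ := base_facts hk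
  have hk0 : 0 < k := lt_of_lt_of_le (by positivity) hk
  have hM := M_le hk0
  have hn : 35 ≤ n := S.hL35.trans S.hLn
  have V := S.val
  have h1 : (1 : ℕ) ∈ Icc 1 n := Finset.mem_Icc.mpr ⟨le_rfl, by omega⟩
  have hbox : ∀ {l s : ℝ}, Mt k a b n l s → ∀ m ∈ Icc 1 n, |xorb k l s m - xorb k a b m| ≤
      2 * Val.lw n (pk k a b) (qk (dig k a b) n) m := by
    intro l s h m hm
    have h2 := h.box m hm
    have := (V.lw_pos (Finset.mem_Icc.mp hm).2).le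
    linarith
  have hd := Val.diff_orb (f := fk k) (Vd := Vk k) (M := 4 * Real.pi ^ 2 * k) (c := 2) (ε := 1 / 4)
    (by positivity) (by norm_num) le_rfl (by nlinarith) (NL_fk hk0.le) (xorb k a b) V
    (xorb k l' s') (xorb k l s) (xorb_orb k l' s' n) (xorb_orb k l s n) (hbox h') (hbox h) 1 h1
  have h2 := hd.1
  rw [h.right, h'.right, sub_self, abs_zero, mul_zero, zero_add] at h2
  have h3 : xorb k l s 1 - xorb k l' s' 1 = s - s' := rfl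
  have h4 : xorb k l s 0 - xorb k l' s' 0 = l - l' := rfl
  rw [h3, h4] at h2
  have h5 := V.lamB.c 1 (by norm_num)
  have h6 := V.clean_ex (by have := S.hL35; omega : 0 < L)
  rw [V.ex_zero, zero_add, zero_add] at h6
  have h7 : (k ^ (2 / 3 : ℝ) / 2) ^ (-Val.ex (k ^ (2 / 3 : ℝ) / 2) (pk k a b) 1) ≤
      (k ^ (2 / 3 : ℝ) / 2) ^ (-1 : ℝ) :=
    Real.rpow_le_rpow_of_exponent_le (le_trans (by norm_num) hb19) (by linarith)
  have h8 : (k ^ (2 / 3 : ℝ) / 2) ^ (-1 : ℝ) ≤ 1 / 1000 := by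
    rw [Real.rpow_neg_one, inv_eq_one_div]
    exact one_div_le_one_div_of_le (by norm_num) (le_trans (by norm_num) hb19)
  have h9 := abs_nonneg (l - l')
  have h10 := (V.lw_pos (by omega : 1 ≤ n)).le
  nlinarith

/-- coherence in the case `n1 ≤ n2` -/
theorem coh_aux {k X : ℝ}
    (hS : ∀ (a b : ℝ) (n' n L : ℕ), Adm k X a b n' → Seg k X a b n' n L → ∀ l s0 : ℝ, |l - a| ≤ 1 →
      Mt k a b n l s0 → ∀ s, |s - s0| ≤ 2 * X ^ (-(3 / 2) : ℝ) → ∀ m ≤ n',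
      nf k a b m ≤ 2 * nf k l s m ∧ nf k l s m ≤ 2 * nf k a b m)
    (hC : ∀ (a1 b1 a2 b2 : ℝ) (n1' n2' n1 n2 L1 L2 : ℕ),
      Adm k X a1 b1 n1' → Adm k X a2 b2 n2' → Seg k X a1 b1 n1' n1 L1 → Seg k X a2 b2 n2' n2 L2 →
      n1 ≤ n2 → (∀ m ≤ n1, nf k a1 b1 m ≤ 4 * nf k a2 b2 m ∧ nf k a2 b2 m ≤ 4 * nf k a1 b1 m) →
      ∀ l s1 s2 ρ : ℝ, |l - a1| ≤ 1 → |l - a2| ≤ 1 → Mt k a1 b1 n1 l s1 → Mt k a2 b2 n2 l s2 →
      X ^ (-(3 / 2) : ℝ) / 10 ^ 4 ≤ ρ → ρ ≤ 2 * X ^ (-(3 / 2) : ℝ) → |s1 - s2| ≤ ρ →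
      (∀ s, |s - s1| ≤ 2 * X ^ (-(3 / 2) : ℝ) → ∀ m ≤ n1, nf k l s m ≤ 2 * nf k a1 b1 m) →
      ∀ l' s1' s2' : ℝ, |l' - a1| ≤ 1 → |l' - a2| ≤ 1 → Mt k a1 b1 n1 l' s1' → Mt k a2 b2 n2 l' s2' →
        |s1' - s2'| ≤ 20 * ρ)
    {a1 b1 a2 b2 : ℝ} {n1' n2' n1 n2 L1 L2 : ℕ}
    (A1 : Adm k X a1 b1 n1') (A2 : Adm k X a2 b2 n2') (S1 : Seg k X a1 b1 n1' n1 L1)
    (S2 : Seg k X a2 b2 n2' n2 L2) (hn : n1 ≤ n2)
    {l s1 s2 ρ : ℝ} (hl1 : |l - a1| ≤ 1) (hl2 : |l - a2| ≤ 1) (M1 : Mt k a1 b1 n1 l s1)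
    (M2 : Mt k a2 b2 n2 l s2) (hρ1 : X ^ (-(3 / 2) : ℝ) / 10 ^ 4 ≤ ρ)
    (hρ2 : ρ ≤ 2 * X ^ (-(3 / 2) : ℝ)) (h12 : |s1 - s2| ≤ ρ)
    {l' s1' s2' : ℝ} (hl1' : |l' - a1| ≤ 1) (hl2' : |l' - a2| ≤ 1) (M1' : Mt k a1 b1 n1 l' s1')
    (M2' : Mt k a2 b2 n2 l' s2') : |s1' - s2'| ≤ 20 * ρ := by
  refine hC a1 b1 a2 b2 n1' n2' n1 n2 L1 L2 A1 A2 S1 S2 hn ?_ l s1 s2 ρ hl1 hl2 M1 M2 hρ1 hρ2 h12 ?_
    l' s1' s2' hl1' hl2' M1' M2'
  · intro m hm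
    have e1 := hS a1 b1 n1' n1 L1 A1 S1 l s1 hl1 M1 s2 (by rw [abs_sub_comm]; linarith) m
      (by have := S1.lt; omega)
    have e2 := hS a2 b2 n2' n2 L2 A2 S2 l s2 hl2 M2 s2 (by
      rw [sub_self, abs_zero]
      have := abs_nonneg (s1 - s2)
      linarith) m (by have := S2.lt; omega)
    constructor
    · linarith [e1.1, e1.2, e2.1, e2.2]
    · linarith [e1.1, e1.2, e2.1, e2.2]
  · intro s hs m hm
    exact (hS a1 b1 n1' n1 L1 A1 S1 l s1 hl1 M1 s hs m (by have := S1.lt; omega)).2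

/-- **Assembly.** -/
theorem core2_of (hS : ShadowStmt) (hC : CohStmt) :
    ∃ K0 : ℝ, ∀ k, K0 ≤ k → ∀ X, k ^ 600 ≤ X → ∃ r, 0 < r ∧ r ≤ 1 ∧ ∃ σ : ℝ → ℝ → ℕ → ℝ → ℝ,
    (∀ a b n', Adm k X a b n' → σ a b n' a = b ∧
      (∀ l l', |l - a| ≤ 1 → |l' - a| ≤ 1 → |σ a b n' l - σ a b n' l'| ≤ 1 / 8 * |l - l'|) ∧
      (∀ l s, |l - a| ≤ 1 → |s - σ a b n' l| ≤ r → ∀ m ≤ n',
        nf k a b m ≤ 2 * nf k l s m ∧ nf k l s m ≤ 2 * nf k a b m)) ∧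
    (∀ a b n' a2 b2 n2', Adm k X a b n' → Adm k X a2 b2 n2' → ∀ l l' ρ,
      |l - a| ≤ 1 → |l - a2| ≤ 1 → |l' - a| ≤ 1 → |l' - a2| ≤ 1 → r / 10 ^ 4 ≤ ρ → ρ ≤ 2 * r →
      |σ a b n' l - σ a2 b2 n2' l| ≤ ρ → |σ a b n' l' - σ a2 b2 n2' l'| ≤ 20 * ρ) := by
  obtain ⟨KS, hS⟩ := hS
  obtain ⟨KC, hC⟩ := hC
  refine ⟨max ((10 : ℝ) ^ 30) (max KS KC), fun k hk X hX => ?_⟩
  have hk30 : (10 : ℝ) ^ 30 ≤ k := (le_max_left _ _).trans hk
  have hkS : KS ≤ k := ((le_max_left _ _).trans (le_max_right _ _)).trans hk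
  have hkC : KC ≤ k := ((le_max_right _ _).trans (le_max_right _ _)).trans hk
  have hk1 : (1 : ℝ) ≤ k := le_trans (by norm_num) hk30
  have hX1 : (1 : ℝ) ≤ X := (one_le_pow₀ hk1).trans hX
  have hX0 : 0 < X := by linarith
  specialize hS k hkS X hX
  specialize hC k hkC X hX
  set r : ℝ := X ^ (-(3 / 2) : ℝ) with hr
  have hr0 : 0 < r := Real.rpow_pos_of_pos hX0 _
  have hr1 : r ≤ 1 := Real.rpow_le_one_of_one_le_of_nonpos hX1 (by norm_num)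
  have hex : ∀ (a b : ℝ) (n' : ℕ), ∃ (n L : ℕ) (τ : ℝ → ℝ), Adm k X a b n' →
      Seg k X a b n' n L ∧ ∀ l, |l - a| ≤ 1 → Mt k a b n l (τ l) := by
    intro a b n'
    by_cases hA : Adm k X a b n'
    · obtain ⟨n, L, hSeg⟩ := seg_of_adm hk30 hX hA
      have h1 : ∀ l, ∃ s, |l - a| ≤ 1 → Mt k a b n l s := by
        intro l
        by_cases hl : |l - a| ≤ 1
        · obtain ⟨c', h2, h3⟩ := matched hk30 hSeg.val hl
          exact ⟨c', fun _ => ⟨h2, h3⟩⟩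
        · exact ⟨0, fun h => absurd h hl⟩
      choose τ hτ using h1
      exact ⟨n, L, τ, fun _ => ⟨hSeg, hτ⟩⟩
    · exact ⟨0, 0, fun _ => 0, fun h => absurd h hA⟩
  choose N Lf σ hσ using hex
  refine ⟨r, hr0, hr1, σ, ?_, ?_⟩
  · intro a b n' hA
    obtain ⟨hSeg, hM⟩ := hσ a b n' hA
    refine ⟨?_, ?_, ?_⟩
    · have h1 := (hM a (by simp)).lip hk30 hSeg hSeg.refl
      rw [sub_self, abs_zero, mul_zero] at h1
      have h2 := abs_nonneg (σ a b n' a - b)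
      have h3 : |σ a b n' a - b| = 0 := le_antisymm h1 h2
      rw [abs_eq_zero] at h3
      linarith
    · intro l l' hl hl'
      exact (hM l hl).lip hk30 hSeg (hM l' hl')
    · intro l s hl hs m hm
      exact hS a b n' (N a b n') (Lf a b n') hA hSeg l (σ a b n' l) hl (hM l hl) s (by linarith) m hm
  · intro a b n' a2 b2 n2' hA hA2 l l' ρ hl1 hl2 hl1' hl2' hρ1 hρ2 h12
    obtain ⟨hSeg, hM⟩ := hσ a b n' hA
    obtain ⟨hSeg2, hM2⟩ := hσ a2 b2 n2' hA2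
    rcases le_total (N a b n') (N a2 b2 n2') with h | h
    · exact coh_aux hS hC hA hA2 hSeg hSeg2 h hl1 hl2 (hM l hl1) (hM2 l hl2) hρ1 hρ2 h12 hl1' hl2'
        (hM l' hl1') (hM2 l' hl2')
    · rw [abs_sub_comm]
      rw [abs_sub_comm] at h12
      exact coh_aux hS hC hA2 hA hSeg2 hSeg h hl2 hl1 (hM2 l hl2) (hM l hl1) hρ1 hρ2 h12 hl2' hl1'
        (hM2 l' hl2') (hM l' hl1')

theorem coreStmt2_of (hS : ShadowStmt) (hC : CohStmt) : CoreStmt2 := by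
  obtain ⟨K0, h⟩ := core2_of hS hC
  refine ⟨K0, fun k hk X hX => ?_⟩
  obtain ⟨r, hr0, hr1, σ, h1, h2⟩ := h k hk X hX
  refine ⟨r, hr0, hr1, σ, h1, ?_⟩
  intro a b n' a2 b2 n2' hA hA2 l l' ρ hl1 hl2 hl1' hl2' hρ1 hρ2 h12
  have h3 := h2 a b n' a2 b2 n2' hA hA2 l l' ρ hl1 hl2 hl1' hl2' hρ1 hρ2 h12
  have h4 : 0 ≤ ρ := (abs_nonneg _).trans h12
  linarith

/-- 379's curve form -/
theorem coreStmt_of (hS : ShadowStmt) (hC : CohStmt) : CoreStmt := by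
  obtain ⟨K0, h⟩ := core2_of hS hC
  refine ⟨K0, fun k hk X hX => ?_⟩
  obtain ⟨r, hr0, hr1, σ, h1, h2⟩ := h k hk X hX
  refine ⟨r, hr0, hr1, ?_⟩
  intro g hg l S n' hSn
  refine ⟨fun x => σ (g x) x (n' x) l, ?_, ?_⟩
  · intro x hx
    obtain ⟨hl, h3, h4, h5⟩ := hSn x hx
    obtain ⟨e1, e2, e3⟩ := h1 (g x) x (n' x) ⟨h3, h4, h5⟩
    refine ⟨?_, fun s hs m hm => e3 l s hl hs m hm⟩
    have h6 := e2 l (g x) hl (by simp)
    rw [e1] at h6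
    show |σ (g x) x (n' x) l - x| ≤ 1
    linarith
  · intro x hx x' hx' hY
    obtain ⟨hl, h3, h4, h5⟩ := hSn x hx
    obtain ⟨hl', h3', h4', h5'⟩ := hSn x' hx'
    obtain ⟨e1, e2, e3⟩ := h1 (g x) x (n' x) ⟨h3, h4, h5⟩
    obtain ⟨e1', e2', e3'⟩ := h1 (g x') x' (n' x') ⟨h3', h4', h5'⟩
    have hY' : |σ (g x) x (n' x) l - σ (g x') x' (n' x') l| ≤ 2 * r := hY
    have d1 : |σ (g x) x (n' x) l - x| ≤ 1 / 8 := by
      have h6 := e2 l (g x) hl (by simp)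
      rw [e1] at h6
      linarith
    have d2 : |σ (g x') x' (n' x') l - x'| ≤ 1 / 8 := by
      have h6 := e2' l (g x') hl' (by simp)
      rw [e1'] at h6
      linarith
    have hxx : |x - x'| ≤ 4 := by
      rw [abs_le] at d1 d2 hY' ⊢
      constructor <;> linarith [d1.1, d1.2, d2.1, d2.2, hY'.1, hY'.2]
    have hgg : |g x - g x'| ≤ 1 := by
      have := hg x x'
      linarith
    have c := h2 (g x) x (n' x) (g x') x' (n' x') ⟨h3, h4, h5⟩ ⟨h3', h4', h5'⟩ l (g x) (2 * r)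
      hl hl' (by simp) hgg (by
        have : r / 10 ^ 4 ≤ r := by
          rw [div_le_iff₀ (by positivity)]
          nlinarith
        linarith) le_rfl hY'
    rw [e1] at c
    have h6 := e2' (g x) (g x') hgg (by simp)
    rw [e1'] at h6
    have h7 := hg x x'
    have h8 : |x - x'| ≤ |x - σ (g x') x' (n' x') (g x)| + |σ (g x') x' (n' x') (g x) - x'| := by
      have := abs_add_le (x - σ (g x') x' (n' x') (g x)) (σ (g x') x' (n' x') (g x) - x')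
      simpa using this
    linarith

end Crest.Agent.R128.Core
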