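import Mathlib
import Crest.Agent.R128.BVP7

set_option autoImplicit false

open scoped BigOperators
open Finset

namespace Crest.Agent.R128.BVP

/-- fundamental solutions: `fund a j m` has `fund a j j = 0`, `fund a j (j+1) = 1`,
`fund a j (m+2) = a (m+1) * fund a j (m+1) - fund a j m` for `m ≥ j`. -/
def fundAux (a : ℕ → ℝ) (j : ℕ) : ℕ → ℝ
  | 0 => 0
  | 1 => 1
  | i + 2 => a (j + i + 1) * fundAux a j (i + 1) - fundAux a j i

def fund (a : ℕ → ℝ) (j m : ℕ) : ℝ := fundAux a j (m - j)

theorem fund_self (a : ℕ → ℝ) (j : ℕ) : fund a j j = 0 := by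
  unfold fund; rw [Nat.sub_self]; rfl

theorem fund_succ (a : ℕ → ℝ) (j : ℕ) : fund a j (j + 1) = 1 := by
  unfold fund; rw [Nat.add_sub_cancel_left]; rfl

theorem fund_rec (a : ℕ → ℝ) (j m : ℕ) (h : j ≤ m) :
    fund a j (m + 2) = a (m + 1) * fund a j (m + 1) - fund a j m := by
  unfold fund
  obtain ⟨i, rfl⟩ := Nat.exists_eq_add_of_le h
  have e1 : j + i + 2 - j = i + 2 := by omega
  have e2 : j + i + 1 - j = i + 1 := by omega
  have e3 : j + i - j = i := by omega
  rw [e1, e2, e3]
  rfl

/-- variation of constants -/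
theorem voc {a a' e : ℕ → ℝ} {s N : ℕ}
    (he : ∀ m, s ≤ m → m < N → e (m + 2) = a (m + 1) * e (m + 1) - e m + (a' (m + 1) - a (m + 1)))
    (hs0 : e s = 0) (hs1 : e (s + 1) = 0) :
    ∀ m, s ≤ m → m ≤ N → e m = ∑ j ∈ Ico (s + 1) m, fund a j m * (a' j - a j) ∧
      e (m + 1) = ∑ j ∈ Ico (s + 1) (m + 1), fund a j (m + 1) * (a' j - a j) := by
  intro m hm
  induction m, hm using Nat.le_induction with
  | base =>
    intro _
    rw [Finset.Ico_eq_empty (by omega), Finset.Ico_eq_empty (by omega)]
    simp [hs0, hs1]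
  | succ m hm ih =>
    intro hmN
    obtain ⟨i1, i2⟩ := ih (by omega)
    refine ⟨i2, ?_⟩
    have h1 := he m hm (by omega)
    show e (m + 2) = ∑ j ∈ Ico (s + 1) (m + 2), fund a j (m + 2) * (a' j - a j)
    rw [h1, Finset.sum_Ico_succ_top (by omega : s + 1 ≤ m + 1), fund_succ, one_mul, i2]
    have h2 : ∑ j ∈ Ico (s + 1) (m + 1), fund a j (m + 2) * (a' j - a j) =
        a (m + 1) * (∑ j ∈ Ico (s + 1) (m + 1), fund a j (m + 1) * (a' j - a j)) -
        ∑ j ∈ Ico (s + 1) (m + 1), fund a j m * (a' j - a j) := by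
      rw [Finset.mul_sum, ← Finset.sum_sub_distrib]
      refine Finset.sum_congr rfl fun j hj => ?_
      rw [Finset.mem_Ico] at hj
      rw [fund_rec a j m (by omega)]
      ring
    have h3 : ∑ j ∈ Ico (s + 1) (m + 1), fund a j m * (a' j - a j) = e m := by
      rcases Nat.eq_or_lt_of_le hm with h4 | h4
      · subst h4
        rw [Finset.Ico_self, Finset.sum_empty, hs0]
      · rw [Finset.sum_Ico_succ_top (by omega), fund_self, zero_mul, add_zero, i1]
    rw [h2, h3]

/-- **(PERT)** comparison of the `(0,1)` fields of two orbits. -/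
theorem field_pert {N : ℕ} {a a' p p' W : ℕ → ℝ} {η : ℝ} (hη : η ≤ 1 / 2)
    (hp0 : p 0 = 0) (hp1 : p 1 = 1) (hp : ∀ m < N, p (m + 2) = a (m + 1) * p (m + 1) - p m)
    (hp0' : p' 0 = 0) (hp1' : p' 1 = 1) (hp' : ∀ m < N, p' (m + 2) = a' (m + 1) * p' (m + 1) - p' m)
    (hW : ∀ m ≤ N + 1, |p m| ≤ W m)
    (hsum : ∀ m ≤ N + 1, ∑ j ∈ Ico 1 m, |fund a j m| * |a' j - a j| * W j ≤ η * W m) :
    ∀ m ≤ N + 1, |p' m - p m| ≤ 2 * η * W m := by
  have hW0 : ∀ m ≤ N + 1, 0 ≤ W m := fun m hm => (abs_nonneg _).trans (hW m hm)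
  set b : ℕ → ℝ := fun j => a j + (a' j - a j) * p' j with hb
  have hv := voc (a := a) (a' := b) (e := fun m => p' m - p m) (s := 0) (N := N) (by
    intro m _ hm
    simp only [hb]
    rw [hp m hm, hp' m hm]
    ring) (by simp [hp0, hp0']) (by simp [hp1, hp1'])
  have hrep : ∀ m ≤ N + 1, p' m - p m = ∑ j ∈ Ico 1 m, fund a j m * ((a' j - a j) * p' j) := by
    intro m hm
    have key : ∀ j, b j - a j = (a' j - a j) * p' j := fun j => by simp only [hb]; ring
    rcases Nat.lt_or_ge N m with h1 | h1
    · have e : m = N + 1 := by omega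
      subst e
      have := (hv N (Nat.zero_le _) le_rfl).2
      simp only [key] at this
      exact this
    · have := (hv m (Nat.zero_le _) h1).1
      simp only [key] at this
      exact this
  have key : ∀ m, m ≤ N + 1 → |p' m| ≤ 2 * W m ∧ |p' m - p m| ≤ 2 * η * W m := by
    intro m
    induction m using Nat.strong_induction_on with
    | _ m ih =>
      intro hm
      have h1 : |p' m - p m| ≤ 2 * η * W m := by
        rw [hrep m hm]
        calc |∑ j ∈ Ico 1 m, fund a j m * ((a' j - a j) * p' j)|
            ≤ ∑ j ∈ Ico 1 m, |fund a j m * ((a' j - a j) * p' j)| := Finset.abs_sum_le_sum_abs _ _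
          _ ≤ ∑ j ∈ Ico 1 m, 2 * (|fund a j m| * |a' j - a j| * W j) := by
              refine Finset.sum_le_sum fun j hj => ?_
              rw [Finset.mem_Ico] at hj
              rw [abs_mul, abs_mul]
              have h2 := (ih j hj.2 (by omega)).1
              have h3 := mul_le_mul_of_nonneg_left h2
                (mul_nonneg (abs_nonneg (fund a j m)) (abs_nonneg (a' j - a j)))
              linarith
          _ = 2 * ∑ j ∈ Ico 1 m, |fund a j m| * |a' j - a j| * W j := by rw [Finset.mul_sum]
          _ ≤ 2 * (η * W m) := by linarith [hsum m hm]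
          _ = 2 * η * W m := by ring
      refine ⟨?_, h1⟩
      have h2 := hW m hm
      have h3 := hW0 m hm
      have h4 : |p' m| ≤ |p' m - p m| + |p m| := by
        have := abs_add_le (p' m - p m) (p m)
        rwa [sub_add_cancel] at this
      nlinarith
  exact fun m hm => (key m hm).2

/-- **(FWD)** after the matched time. -/
theorem fwd {f V : ℝ → ℝ} {M B : ℝ} (hM : 0 ≤ M) (hNL : NL f V M) {s N : ℕ} {x z : ℕ → ℝ}
    (hx : ∀ m, s ≤ m → m < N → x (m + 2) + x m = f (x (m + 1)))
    (hz : ∀ m, s ≤ m → m < N → z (m + 2) + z m = f (z (m + 1)))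
    (hs1 : z (s + 1) = x (s + 1)) (hB1 : 1 ≤ B)
    (hB : ∀ j m, s + 1 ≤ j → j ≤ m → m ≤ N + 1 → |fund (fun i => V (x i)) j m| ≤ B)
    (hsmall : 4 * B ^ 2 * M * ((N : ℝ) - s) * |z s - x s| ≤ 1) :
    ∀ m, s ≤ m → m ≤ N + 1 → |z m - x m| ≤ 2 * B * |z s - x s| := by
  set E := |z s - x s| with hE
  have hE0 : 0 ≤ E := abs_nonneg _
  set a : ℕ → ℝ := fun i => V (x i) with ha
  -- e m = z m - x m + (z s - x s) * fund a (s+1) m  has zero data at s+1, s+2
  set r : ℕ → ℝ := fun m => f (z m) - f (x m) - V (x m) * (z m - x m) with hr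
  have hlin : ∀ m, s + 1 ≤ m → m ≤ N + 1 →
      z m - x m = -(z s - x s) * fund a (s + 1) m + ∑ j ∈ Ico (s + 1) m, fund a j m * r j := by
    rcases Nat.lt_or_ge s N with hsN | hsN
    · have e2 : z (s + 2) - x (s + 2) = -(z s - x s) := by
        have h1 := hx s le_rfl hsN
        have h2 := hz s le_rfl hsN
        rw [hs1] at h2
        linarith
      have hr1 : r (s + 1) = 0 := by simp only [hr]; rw [hs1]; ring
      set b : ℕ → ℝ := fun j => a j + r j with hb
      have hv := voc (a := a) (a' := b) (e := fun m => z m - x m + (z s - x s) * fund a (s + 1) m)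
        (s := s + 1) (N := N) (by
          intro m hm1 hm
          have h1 := hx m (by omega) hm
          have h2 := hz m (by omega) hm
          simp only [hb, hr]
          rw [fund_rec a (s + 1) m hm1]
          have h3 : x (m + 2) = f (x (m + 1)) - x m := by linarith
          have h4 : z (m + 2) = f (z (m + 1)) - z m := by linarith
          rw [h3, h4]
          simp only [ha]
          ring) (by rw [fund_self, hs1]; ring) (by
            show z (s + 2) - x (s + 2) + (z s - x s) * fund a (s + 1) (s + 1 + 1) = 0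
            rw [fund_succ, e2]; ring)
      intro m hm1 hm2
      have key : ∀ j, b j - a j = r j := fun j => by simp only [hb]; ring
      have hsplit : ∑ j ∈ Ico (s + 1) m, fund a j m * r j = ∑ j ∈ Ico (s + 1 + 1) m, fund a j m * r j := by
        rcases Nat.eq_or_lt_of_le hm1 with h4 | h4
        · rw [← h4, Finset.Ico_self, Finset.Ico_eq_empty (by omega)]
        · rw [Finset.sum_eq_sum_Ico_succ_bot h4, hr1, mul_zero, zero_add]
      rw [hsplit]
      rcases Nat.lt_or_ge N m with h1 | h1
      · have e : m = N + 1 := by omega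
        subst e
        have := (hv N (by omega) le_rfl).2
        simp only [key] at this
        linarith
      · have := (hv m hm1 h1).1
        simp only [key] at this
        linarith
    · intro m hm1 hm2
      have e : m = s + 1 := by omega
      subst e
      rw [hs1, fund_self, Finset.Ico_self]
      simp
  have key : ∀ m, s + 1 ≤ m → m ≤ N + 1 → |z m - x m| ≤ 2 * B * E := by
    intro m
    induction m using Nat.strong_induction_on with
    | _ m ih =>
      intro hm1 hm2
      have hrj : ∀ j ∈ Ico (s + 1) m, |fund a j m * r j| ≤ B * (M * (2 * B * E) * (2 * B * E)) := by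
        intro j hj
        rw [Finset.mem_Ico] at hj
        have h1 := ih j hj.2 hj.1 (by omega)
        have h2 := hB j m hj.1 hj.2.le hm2
        have h3 : |r j| ≤ M * (2 * B * E) * (2 * B * E) := by
          have h4 := hNL (x j) (z j - x j) 0
          rw [add_sub_cancel, add_zero, sub_zero, abs_zero, max_eq_left (abs_nonneg _)] at h4
          have h5 : |r j| ≤ M * |z j - x j| * |z j - x j| := h4
          refine h5.trans ?_
          have h6 : 0 ≤ 2 * B * E := by positivity
          have h7 := mul_le_mul h1 h1 (abs_nonneg _) h6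
          have h8 := mul_le_mul_of_nonneg_left h7 hM
          linarith
        rw [abs_mul]
        exact mul_le_mul h2 h3 (abs_nonneg _) (by linarith)
      rw [hlin m hm1 hm2]
      refine (abs_add_le _ _).trans ?_
      have h1 : |-(z s - x s) * fund a (s + 1) m| ≤ B * E := by
        rw [abs_mul, abs_neg, mul_comm]
        exact mul_le_mul_of_nonneg_right (hB (s + 1) m le_rfl hm1 hm2) hE0
      have h2 : |∑ j ∈ Ico (s + 1) m, fund a j m * r j| ≤ B * E := by
        calc |∑ j ∈ Ico (s + 1) m, fund a j m * r j| ≤ ∑ j ∈ Ico (s + 1) m, |fund a j m * r j| :=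
              Finset.abs_sum_le_sum_abs _ _
          _ ≤ ∑ j ∈ Ico (s + 1) m, B * (M * (2 * B * E) * (2 * B * E)) := Finset.sum_le_sum hrj
          _ = ((m : ℝ) - (s + 1)) * (B * (M * (2 * B * E) * (2 * B * E))) := by
              rw [Finset.sum_const, Nat.card_Ico, nsmul_eq_mul, Nat.cast_sub hm1]
              push_cast; ring
          _ ≤ ((N : ℝ) - s) * (B * (M * (2 * B * E) * (2 * B * E))) := by
              apply mul_le_mul_of_nonneg_right _ (by positivity)
              have : (m : ℝ) ≤ N + 1 := by exact_mod_cast hm2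
              linarith
          _ = (4 * B ^ 2 * M * ((N : ℝ) - s) * E) * (B * E) := by ring
          _ ≤ 1 * (B * E) := mul_le_mul_of_nonneg_right hsmall (by positivity)
          _ = B * E := one_mul _
      linarith
  intro m hm1 hm2
  rcases Nat.eq_or_lt_of_le hm1 with h | h
  · rw [← h]
    show E ≤ 2 * B * E
    nlinarith
  · exact key m h hm2

end Crest.Agent.R128.BVP
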