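import Mathlib
import Crest.Agent.R128.BVP8
import Crest.Agent.R128.ValNum

/-!
Row 128, node V3-CORE: forward fundamental solutions along a valid orbit.
`FE` = extended validity data up to the violation time `N`; (F) bound of the fundamental solutions,
(S1)-(S3) the sums, (LIN) perturbed linear recursion.
-/

set_option autoImplicit false

open Finset

namespace Crest.Agent.R128.CoreF

open Crest.Agent.R128.TreeSum Crest.Agent.R128.BVP Crest.Agent.R128.Val

/-- extended validity data: valid up to `N - 1`, any step at time `N`. -/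
structure FE (b : ℝ) (N : ℕ) (a p : ℕ → ℝ) : Prop where
  hb : 100 ≤ b
  hN : 36 < N
  p0 : p 0 = 0
  p1 : p 1 = 1
  hp : ∀ m < N, p (m + 2) = a (m + 1) * p (m + 1) - p m
  hA : ∀ m ∈ Icc 1 N, |a m| + 2 ≤ b ^ 2
  hcl : ∀ m ∈ Icc 1 35, 2 * b ≤ |a m|
  E : Expo b (N - 1) (ex b p)

variable {b : ℝ} {N : ℕ} {a p : ℕ → ℝ}

theorem fld_shift_p (hp : ∀ m < N, p (m + 2) = a (m + 1) * p (m + 1) - p m) (j : ℕ) :
    ∀ i, j + i ≤ N → Val.fld (fun l => a (j + l + 1)) (p j, p (j + 1)) i = (p (j + i), p (j + i + 1)) := by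
  intro i
  induction i with
  | zero => intro _; rfl
  | succ i ih =>
    intro hi
    show stp (a (j + i + 1)) (Val.fld _ _ i) = _
    rw [ih (by omega)]
    unfold stp
    have := hp (j + i) (by omega)
    ext
    · rfl
    · show a (j + i + 1) * p (j + i + 1) - p (j + i) = p (j + (i + 1) + 1)
      rw [show j + (i + 1) + 1 = j + i + 2 by omega, this]

theorem fld_shift_fund (a : ℕ → ℝ) (j : ℕ) :
    ∀ i, Val.fld (fun l => a (j + l + 1)) (0, 1) i = (fundAux a j i, fundAux a j (i + 1)) := by
  intro i
  induction i with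
  | zero => rfl
  | succ i ih =>
    show stp (a (j + i + 1)) (Val.fld _ _ i) = _
    rw [ih]
    rfl

theorem FE.W_zero (F : FE b N a p) : W p 0 = 1 := by
  unfold W nn
  rw [F.p0, F.p1]
  simp

theorem FE.W_pos (F : FE b N a p) {m : ℕ} (hm : m ≤ N) : 0 < W p m := by
  have h := (fld_isField (fun l => a (0 + l + 1)) (p 0, p (0 + 1))).pos (Nat.zero_le m) (by
    have e := fld_shift_p F.hp 0 0 (by omega)
    rw [e]
    have := F.W_zero
    unfold W at this
    simp only [Nat.add_zero]
    rw [this]; norm_num)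
  rw [fld_shift_p F.hp 0 m (by omega)] at h
  simpa [W] using h

theorem FE.W_eq (F : FE b N a p) {m : ℕ} (hm : m ≤ N) : W p m = b ^ ex b p m := by
  have hb := F.hb
  unfold ex
  rw [Real.rpow_logb (by linarith) (by linarith) (F.W_pos hm)]

theorem FE.W_le_succ (F : FE b N a p) {m : ℕ} (hm : m < N) :
    W p m ≤ (|a (m + 1)| + 2) * W p (m + 1) := by
  have := nn_le_stp (a (m + 1)) (p m, p (m + 1))
  have e : stp (a (m + 1)) (p m, p (m + 1)) = (p (m + 1), p (m + 2)) := by
    unfold stp
    simp only [F.hp m hm]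
  rw [e] at this
  exact this

theorem FE.ex_le (F : FE b N a p) {i j : ℕ} {x : ℝ} (hi : i ≤ N) (hj : j ≤ N)
    (h : W p i ≤ b ^ x * W p j) : ex b p i ≤ x + ex b p j := by
  have hb := F.hb
  rw [F.W_eq hi, F.W_eq hj, ← Real.rpow_add (by linarith)] at h
  exact (Real.rpow_le_rpow_left_iff (by linarith)).mp h

/-- the last step -/
theorem FE.last (F : FE b N a p) : ex b p (N - 1) - 2 ≤ ex b p N := by
  have hN := F.hN
  have h1 := F.W_le_succ (m := N - 1) (by omega)
  rw [Nat.sub_add_cancel (by omega)] at h1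
  have h2 := F.hA N (Finset.mem_Icc.mpr ⟨by omega, le_rfl⟩)
  have h3 : W p (N - 1) ≤ b ^ (2 : ℝ) * W p N := by
    rw [Real.rpow_two]
    exact h1.trans (mul_le_mul_of_nonneg_right h2 (W_nonneg p N))
  have := F.ex_le (by omega) le_rfl h3
  linarith

theorem FE.v2' (F : FE b N a p) {i j : ℕ} (hij : i ≤ j) (hj : j ≤ N) (hi : i ≤ N - 1) :
    99 / 100 * ex b p i - 21 / 10 ≤ ex b p j := by
  have hN := F.hN
  rcases Nat.lt_or_ge (N - 1) j with h | h
  · have e : j = N := by omega
    subst e
    have h1 := F.E.v2 i (j - 1) hi le_rfl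
    have h2 := F.last
    linarith
  · have := F.E.v2 i j hij h
    linarith

/-- the bound for the fundamental solutions -/
noncomputable def Fb (b : ℝ) (p : ℕ → ℝ) (j : ℕ) : ℝ :=
  if j ≤ 30 then 3 * b ^ (-ex b p j) else 2 * b ^ (6 - 97 / 100 * ex b p j)

theorem Fb_nonneg (hb : 0 < b) (j : ℕ) : 0 ≤ Fb b p j := by
  unfold Fb
  split_ifs <;> positivity

theorem FE.tree (F : FE b N a p) {j m : ℕ} (hjm : j ≤ m) (hm : m ≤ N) :
    nn (fund a j m, fund a j (m + 1)) ≤ W p m / W p j + W p j / W p m + W p j * W p m * wtt a p j m := by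
  obtain ⟨i, rfl⟩ := Nat.exists_eq_add_of_le hjm
  have hw := fld_isField (fun l => a (j + l + 1)) (p j, p (j + 1))
  have hz := fld_isField (fun l => a (j + l + 1)) ((0 : ℝ), (1 : ℝ))
  have hWj : 0 < nn (Val.fld (fun l => a (j + l + 1)) (p j, p (j + 1)) 0) := F.W_pos (by omega)
  have t := tree_ineq hw hz (Nat.zero_le i) hWj
  rw [fld_shift_fund, fld_shift_fund, fld_shift_p F.hp j i hm, fld_shift_p F.hp j 0 (by omega)] at t
  have e1 : nn (fundAux a j 0, fundAux a j (0 + 1)) = 1 := by
    show nn ((0 : ℝ), (1 : ℝ)) = 1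
    unfold nn; simp
  have e2 : wt (fun l => a (j + l + 1)) (Val.fld (fun l => a (j + l + 1)) (p j, p (j + 1))) 0 i =
      wtt a p j (j + i) := by
    unfold wt wtt
    rw [Finset.sum_Ico_eq_sum_range, Finset.sum_Ico_eq_sum_range, Nat.add_sub_cancel_left, Nat.sub_zero]
    apply Finset.sum_congr rfl
    intro l hl
    rw [Finset.mem_range] at hl
    rw [Nat.zero_add, fld_shift_p F.hp j l (by omega), fld_shift_p F.hp j (l + 1) (by omega)]
    rfl
  rw [e1, e2, one_mul] at t
  have e3 : fund a j (j + i) = fundAux a j i := by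
    unfold fund; rw [Nat.add_sub_cancel_left]
  have e4 : fund a j (j + i + 1) = fundAux a j (i + 1) := by
    unfold fund; rw [Nat.add_assoc, Nat.add_sub_cancel_left]
  rw [e3, e4]
  exact t

theorem FE.term_le (F : FE b N a p) {j : ℕ} (hj : j < N) :
    (|a (j + 1)| + 2) / (W p j * W p (j + 1)) ≤ b ^ (4 - 2 * ex b p j) := by
  have hb := F.hb
  have hb0 : 0 < b := by linarith
  have h1 := F.W_le_succ hj
  have h2 := F.hA (j + 1) (Finset.mem_Icc.mpr ⟨by omega, by omega⟩)
  have hWj := F.W_pos hj.le
  have hWj' := F.W_pos (by omega : j + 1 ≤ N)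
  have h3 : 0 ≤ |a (j + 1)| := abs_nonneg _
  have h4 : W p j ≤ b ^ 2 * W p (j + 1) := h1.trans (mul_le_mul_of_nonneg_right h2 hWj'.le)
  have h5 : b ^ (4 - 2 * ex b p j) = b ^ 4 / W p j ^ 2 := by
    rw [Real.rpow_sub hb0, F.W_eq hj.le]
    congr 1
    · exact_mod_cast Real.rpow_natCast b 4
    · rw [← Real.rpow_natCast (b ^ ex b p j) 2, ← Real.rpow_mul hb0.le]
      congr 1
      push_cast
      ring
  rw [h5, div_le_div_iff₀ (by positivity) (by positivity)]
  calc (|a (j + 1)| + 2) * W p j ^ 2 ≤ b ^ 2 * (W p j * (b ^ 2 * W p (j + 1))) := by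
        rw [sq (W p j)]
        gcongr
    _ = b ^ 4 * (W p j * W p (j + 1)) := by ring

theorem FE.ratio (F : FE b N a p) : ∀ m ≤ 35, b * |p m| ≤ |p (m + 1)| := by
  intro m
  induction m with
  | zero => intro _; rw [F.p0]; simp
  | succ m ih =>
    intro hm
    have h1 := ih (by omega)
    have h2 := F.hp m (by have := F.hN; omega)
    have h3 := F.hcl (m + 1) (Finset.mem_Icc.mpr ⟨by omega, hm⟩)
    have hb := F.hb
    show b * |p (m + 1)| ≤ |p (m + 2)|
    rw [h2]
    have h4 : |a (m + 1)| * |p (m + 1)| - |p m| ≤ |a (m + 1) * p (m + 1) - p m| := by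
      rw [← abs_mul]
      exact abs_sub_abs_le_abs_sub _ _
    have h5 : |p m| ≤ |p (m + 1)| := by
      have := abs_nonneg (p m)
      nlinarith
    have h6 := abs_nonneg (p (m + 1))
    nlinarith

/-- clean step -/
theorem FE.cleanstep (F : FE b N a p) {m : ℕ} (hm : m < 35) :
    (|a (m + 1)| + 2) * W p m ≤ 5 / 4 * W p (m + 1) := by
  have h1 := F.ratio m hm.le
  have h2 := F.hp m (by have := F.hN; omega)
  have h3 := F.hcl (m + 1) (Finset.mem_Icc.mpr ⟨by omega, by omega⟩)
  have hb := F.hb
  have h4 : |a (m + 1)| * |p (m + 1)| - |p m| ≤ |a (m + 1) * p (m + 1) - p m| := by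
    rw [← abs_mul]
    exact abs_sub_abs_le_abs_sub _ _
  rw [← h2] at h4
  have h5 : 100 * |p m| ≤ |p (m + 1)| := by
    have := abs_nonneg (p m)
    nlinarith
  have h6 := abs_nonneg (p (m + 1))
  have h7 := W_le_add p m
  have h8 : |p (m + 2)| ≤ W p (m + 1) := abs_succ_le_W p (m + 1)
  have h9 : 0 ≤ |a (m + 1)| := abs_nonneg _
  have h10 : (|a (m + 1)| + 2) * W p m ≤ (|a (m + 1)| + 2) * (101 / 100 * |p (m + 1)|) := by
    apply mul_le_mul_of_nonneg_left _ (by linarith)
    linarith
  have h11 : 200 * |p (m + 1)| ≤ |a (m + 1)| * |p (m + 1)| := by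
    apply mul_le_mul_of_nonneg_right _ h6
    linarith
  nlinarith

theorem FE.sq_eq (F : FE b N a p) (x : ℝ) : (b ^ x) ^ 2 = b ^ (2 * x) := by
  have hb := F.hb
  rw [← Real.rpow_natCast (b ^ x) 2, ← Real.rpow_mul (by linarith)]
  congr 1
  push_cast
  ring

/-- **(F)** -/
theorem FE.fund_le (F : FE b N a p) {j m : ℕ} (hjm : j ≤ m) (hm : m ≤ N) :
    nn (fund a j m, fund a j (m + 1)) ≤ Fb b p j * W p m := by
  have hb := F.hb
  have hb0 : 0 < b := by linarith
  have E := F.E
  have hN := F.hN
  have hWm := F.W_pos hm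
  have hWj := F.W_pos (hjm.trans hm)
  rcases Nat.eq_or_lt_of_le hjm with he | hlt
  · -- m = j
    subst he
    have e1 : nn (fund a j j, fund a j (j + 1)) = 1 := by
      rw [fund_self, fund_succ]
      unfold nn; simp
    rw [e1]
    unfold Fb
    rw [F.W_eq hm]
    split_ifs with h30
    · rw [mul_assoc, ← Real.rpow_add hb0]
      rw [neg_add_cancel, Real.rpow_zero]
      norm_num
    · rw [mul_assoc, ← Real.rpow_add hb0]
      have h1 : 0 ≤ ex b p j := by
        rcases Nat.lt_or_ge (N - 1) j with h | h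
        · have e : j = N := by omega
          subst e
          have := E.big (m := j - 1) (by omega) le_rfl
          have := F.last
          linarith
        · exact E.nonneg h
      have h2 : (1 : ℝ) ≤ b ^ (6 - 97 / 100 * ex b p j + ex b p j) :=
        Real.one_le_rpow (by linarith) (by linarith)
      linarith
  · have hj1 : j ≤ N - 1 := by omega
    have t := F.tree hjm hm
    have hum := F.v2' hjm hm hj1
    have e0 : W p m / W p j + W p j / W p m + W p j * W p m * wtt a p j m =
        (1 / W p j + W p j / W p m ^ 2 + W p j * wtt a p j m) * W p m := by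
      field_simp
    rw [e0] at t
    refine t.trans (mul_le_mul_of_nonneg_right ?_ hWm.le)
    unfold Fb
    have hju := E.nonneg hj1
    split_ifs with h30
    · -- clean start
      have hum60 : ex b p j ≤ 60 := by
        have := E.ub hj1
        have : (j : ℝ) ≤ 30 := by exact_mod_cast h30
        linarith
      have h35 : ex b p j + 5 ≤ ex b p 35 := by
        have h2 := E.clean (by omega : j ≤ 35) le_rfl
        have h3 : (5 : ℝ) ≤ ((35 - j : ℕ) : ℝ) := by
          have : 5 ≤ 35 - j := by omega
          exact_mod_cast this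
        linarith
      have hum1 : ex b p j + 1 ≤ ex b p m := by
        rcases Nat.lt_or_ge m 35 with h | h
        · have h2 := E.clean hlt.le h.le
          have h3 : (1 : ℝ) ≤ ((m - j : ℕ) : ℝ) := by
            have : 1 ≤ m - j := by omega
            exact_mod_cast this
          linarith
        · have := F.v2' h hm (by omega)
          linarith
      have hw : W p j ^ 2 * wtt a p j m ≤ 5 / 4 * (16 / 15) + 1 / 16 := by
        have hpt : ∀ i ∈ Ico j m, W p j ^ 2 * ((|a (i + 1)| + 2) / (W p i * W p (i + 1))) ≤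
            5 / 4 * (if j ≤ i then (b⁻¹) ^ (i - j) else 0) +
              b ^ (-2 : ℝ) * b ^ (-(1 / 100 * ex b p i)) := by
          intro i hi
          rw [Finset.mem_Ico] at hi
          rw [if_pos hi.1]
          have hWi := F.W_pos (by omega : i ≤ N)
          have hWi' := F.W_pos (by omega : i + 1 ≤ N)
          rcases Nat.lt_or_ge i 35 with h | h
          · have h2 := F.cleanstep h
            have h3 : (|a (i + 1)| + 2) / (W p i * W p (i + 1)) ≤ 5 / 4 / W p i ^ 2 := by
              rw [div_le_div_iff₀ (by positivity) (by positivity)]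
              nlinarith
            have h4 : W p j ^ 2 * (5 / 4 / W p i ^ 2) = 5 / 4 * b ^ (2 * ex b p j - 2 * ex b p i) := by
              rw [Real.rpow_sub hb0, ← F.sq_eq, ← F.sq_eq, ← F.W_eq (by omega), ← F.W_eq (by omega)]
              ring
            have h5 : b ^ (2 * ex b p j - 2 * ex b p i) ≤ (b⁻¹) ^ (i - j) := by
              rw [E.pow_inv]
              apply E.mono
              have h6 := E.clean hi.1 h.le
              have h7 : (0 : ℝ) ≤ ((i - j : ℕ) : ℝ) := Nat.cast_nonneg _
              linarith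
            calc W p j ^ 2 * ((|a (i + 1)| + 2) / (W p i * W p (i + 1)))
                ≤ W p j ^ 2 * (5 / 4 / W p i ^ 2) := by gcongr
              _ = 5 / 4 * b ^ (2 * ex b p j - 2 * ex b p i) := h4
              _ ≤ 5 / 4 * (b⁻¹) ^ (i - j) := by gcongr
              _ ≤ _ := by
                have : 0 ≤ b ^ (-2 : ℝ) * b ^ (-(1 / 100 * ex b p i)) := by positivity
                linarith
          · have h2 := F.term_le (by omega : i < N)
            have h3 := E.v2 35 i h (by omega)
            have h4 : W p j ^ 2 * b ^ (4 - 2 * ex b p i) ≤ b ^ (-2 : ℝ) * b ^ (-(1 / 100 * ex b p i)) := by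
              rw [F.W_eq (by omega), F.sq_eq, ← Real.rpow_add hb0, ← Real.rpow_add hb0]
              apply E.mono
              linarith
            calc W p j ^ 2 * ((|a (i + 1)| + 2) / (W p i * W p (i + 1)))
                ≤ W p j ^ 2 * b ^ (4 - 2 * ex b p i) := by gcongr
              _ ≤ b ^ (-2 : ℝ) * b ^ (-(1 / 100 * ex b p i)) := h4
              _ ≤ _ := by
                have : 0 ≤ 5 / 4 * (b⁻¹) ^ (i - j) := by positivity
                linarith
        unfold wtt
        rw [Finset.mul_sum]
        refine (Finset.sum_le_sum hpt).trans ?_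
        rw [Finset.sum_add_distrib, ← Finset.mul_sum, ← Finset.mul_sum, ← Finset.sum_filter]
        have g1 := geom_le E.hb (Ico j m) j
        have g2 := E.sum_le (Ico j m) (by
          intro i hi
          rw [Finset.mem_Ico] at hi
          rw [Finset.mem_range]
          omega)
        have g3 : b ^ (-2 : ℝ) * b = b ^ (-1 : ℝ) := by
          conv_lhs => rw [← Real.rpow_one b, ← Real.rpow_mul hb0.le, ← Real.rpow_add hb0]
          norm_num
        have g4 : b ^ (-1 : ℝ) ≤ (1 / 16) ^ 1 := E.small (by norm_num)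
        have p2 : 0 ≤ b ^ (-2 : ℝ) := by positivity
        nlinarith [mul_le_mul_of_nonneg_left g2 p2]
      have hn2 : W p j ^ 2 * (1 / W p m ^ 2) ≤ 1 / 16 := by
        have e : W p j ^ 2 * (1 / W p m ^ 2) = b ^ (2 * ex b p j - 2 * ex b p m) := by
          rw [Real.rpow_sub hb0, ← F.sq_eq, ← F.sq_eq, ← F.W_eq (by omega), ← F.W_eq hm]
          ring
        rw [e]
        have h3 : b ^ (2 * ex b p j - 2 * ex b p m) ≤ (1 / 16) ^ 1 := by
          apply E.small
          push_cast
          linarith
        linarith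
      have h6 : b ^ (-ex b p j) = 1 / W p j := by
        rw [Real.rpow_neg hb0.le, ← F.W_eq (by omega), one_div]
      rw [h6]
      calc 1 / W p j + W p j / W p m ^ 2 + W p j * wtt a p j m
          = (1 + (W p j ^ 2 * wtt a p j m + W p j ^ 2 * (1 / W p m ^ 2))) * (1 / W p j) := by
            field_simp
            ring
        _ ≤ 3 * (1 / W p j) := by
            apply mul_le_mul_of_nonneg_right _ (by positivity)
            linarith
    · have hw : wtt a p j m ≤ b ^ (52 / 10 - 19701 / 10000 * ex b p j) := by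
        have hpt : ∀ i ∈ Ico j m, (|a (i + 1)| + 2) / (W p i * W p (i + 1)) ≤
            b ^ (42 / 10 - 19701 / 10000 * ex b p j) * b ^ (-(1 / 100 * ex b p i)) := by
          intro i hi
          rw [Finset.mem_Ico] at hi
          refine (F.term_le (by omega)).trans ?_
          rw [← Real.rpow_add hb0]
          apply E.mono
          have := E.v2 j i hi.1 (by omega)
          linarith
        unfold wtt
        refine (Finset.sum_le_sum hpt).trans ?_
        rw [← Finset.mul_sum]
        have g2 := E.sum_le (Ico j m) (by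
          intro i hi
          rw [Finset.mem_Ico] at hi
          rw [Finset.mem_range]
          omega)
        calc b ^ (42 / 10 - 19701 / 10000 * ex b p j) * ∑ i ∈ Ico j m, b ^ (-(1 / 100 * ex b p i))
            ≤ b ^ (42 / 10 - 19701 / 10000 * ex b p j) * b := by gcongr
          _ = b ^ (42 / 10 - 19701 / 10000 * ex b p j) * b ^ (1 : ℝ) := by rw [Real.rpow_one]
          _ = b ^ (52 / 10 - 19701 / 10000 * ex b p j) := by
            rw [← Real.rpow_add hb0]
            congr 1
            ring
      have t1 : 1 / W p j ≤ 1 / 16 * b ^ (6 - 97 / 100 * ex b p j) := by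
        have e : 1 / W p j = b ^ (-ex b p j) := by
          rw [Real.rpow_neg hb0.le, ← F.W_eq (by omega), one_div]
        have e2 : b ^ (-ex b p j) = b ^ (-1 + (-6 - 3 / 100 * ex b p j + 1)) * b ^ (6 - 97 / 100 * ex b p j) := by
          rw [← Real.rpow_add hb0]
          congr 1
          ring
        rw [e, e2]
        have h3 : b ^ (-1 + (-6 - 3 / 100 * ex b p j + 1)) ≤ (1 / 16) ^ 1 := by
          apply E.small
          push_cast
          linarith
        rw [pow_one] at h3
        gcongr
      have t2 : W p j * wtt a p j m ≤ b ^ (6 - 97 / 100 * ex b p j) := by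
        calc W p j * wtt a p j m ≤ W p j * b ^ (52 / 10 - 19701 / 10000 * ex b p j) := by gcongr
          _ = b ^ (ex b p j + (52 / 10 - 19701 / 10000 * ex b p j)) := by
            rw [Real.rpow_add hb0, ← F.W_eq (by omega)]
          _ ≤ _ := by
            apply E.mono
            linarith
      have t3 : W p j / W p m ^ 2 ≤ 1 / 8 * b ^ (6 - 97 / 100 * ex b p j) := by
        have e : W p j / W p m ^ 2 = b ^ (ex b p j - 2 * ex b p m) := by
          rw [Real.rpow_sub hb0, ← F.W_eq (by omega), ← F.sq_eq, ← F.W_eq hm]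
        have e2 : b ^ (ex b p j - 2 * ex b p m) =
            b ^ (-6 + 197 / 100 * ex b p j - 2 * ex b p m) * b ^ (6 - 97 / 100 * ex b p j) := by
          rw [← Real.rpow_add hb0]
          congr 1
          ring
        have h3 : b ^ (-6 + 197 / 100 * ex b p j - 2 * ex b p m) ≤ (1 / 16) ^ 1 := by
          apply E.small
          push_cast
          linarith
        rw [pow_one] at h3
        rw [e, e2]
        have p1 : 0 ≤ b ^ (6 - 97 / 100 * ex b p j) := by positivity
        nlinarith
      have p1 : 0 ≤ b ^ (6 - 97 / 100 * ex b p j) := by positivity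
      linarith

end Crest.Agent.R128.CoreF
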