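import Mathlib
import Crest.Agent.R128.CoreI
import Crest.Agent.R128.CoreF

/-!
Row 128, node V3-CORE: an admissible point gives the extended validity data `CoreF.FE` (helper162) on the
whole window `[0, n']`.
-/

set_option autoImplicit false

open Finset

namespace Crest.Agent.R128.Core

open Crest.Agent.R128.TreeSum Crest.Agent.R128.BVP Crest.Agent.R128.Lam0

variable {k a c b : ℝ}

theorem stp_pk (k a c : ℝ) (m : ℕ) :
    stp (dig k a c (m + 1)) (pk k a c m, pk k a c (m + 1)) = (pk k a c (m + 1), pk k a c (m + 2)) := rfl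

theorem fld_pk' (k a c : ℝ) : ∀ m, Val.fld (fun m => dig k a c (m + 1)) (0, 1) m =
    (pk k a c m, pk k a c (m + 1)) := by
  intro m
  induction m with
  | zero => rfl
  | succ m ih =>
    show stp (dig k a c (m + 1)) (Val.fld _ _ m) = _
    rw [ih, stp_pk]

theorem Wp_zero (k a c : ℝ) : Val.W (pk k a c) 0 = 1 := by
  unfold Val.W nn
  show Real.sqrt ((0 : ℝ) ^ 2 + (1 : ℝ) ^ 2) = 1
  simp

theorem Wp_pos (k a c : ℝ) (m : ℕ) : 0 < Val.W (pk k a c) m := by
  have h := (Val.fld_isField (fun m => dig k a c (m + 1)) (0, 1)).pos (Nat.zero_le m) (by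
    rw [fld_pk' k a c 0]
    have := Wp_zero k a c
    unfold Val.W at this
    rw [this]; norm_num)
  rw [fld_pk' k a c m] at h
  exact h

theorem Wp_succ_le (k a c : ℝ) (m : ℕ) :
    Val.W (pk k a c) (m + 1) ≤ (|dig k a c (m + 1)| + 2) * Val.W (pk k a c) m := by
  have := nn_stp_le (dig k a c (m + 1)) (pk k a c m, pk k a c (m + 1))
  rw [stp_pk] at this
  exact this

theorem Wp_le_succ (k a c : ℝ) (m : ℕ) :
    Val.W (pk k a c) m ≤ (|dig k a c (m + 1)| + 2) * Val.W (pk k a c) (m + 1) := by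
  have := nn_le_stp (dig k a c (m + 1)) (pk k a c m, pk k a c (m + 1))
  rw [stp_pk] at this
  exact this

theorem ratio_pk (hb : 100 ≤ b) (hcl : ∀ m ∈ Icc 1 1000, 2 * b ≤ |dig k a c m|) :
    ∀ m ≤ 1000, b * |pk k a c m| ≤ |pk k a c (m + 1)| := by
  intro m
  induction m with
  | zero =>
    intro _
    show b * |(0 : ℝ)| ≤ |(1 : ℝ)|
    norm_num
  | succ m ih =>
    intro hm
    have h1 := ih (by omega)
    have h3 := hcl (m + 1) (Finset.mem_Icc.mpr ⟨by omega, hm⟩)
    show b * |pk k a c (m + 1)| ≤ |dig k a c (m + 1) * pk k a c (m + 1) - pk k a c m|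
    have h4 : |dig k a c (m + 1)| * |pk k a c (m + 1)| - |pk k a c m| ≤
        |dig k a c (m + 1) * pk k a c (m + 1) - pk k a c m| := by
      rw [← abs_mul]
      exact abs_sub_abs_le_abs_sub _ _
    have h5 : |pk k a c m| ≤ |pk k a c (m + 1)| := by
      have := abs_nonneg (pk k a c m)
      nlinarith
    have h6 := abs_nonneg (pk k a c (m + 1))
    nlinarith

theorem cleanstep_pk (hb : 100 ≤ b) (hcl : ∀ m ∈ Icc 1 1000, 2 * b ≤ |dig k a c m|) {m : ℕ}
    (hm : m < 1000) :
    (|dig k a c (m + 1)| + 2) * Val.W (pk k a c) m ≤ 5 / 4 * Val.W (pk k a c) (m + 1) := by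
  have h1 := ratio_pk hb hcl m hm.le
  have h3 := hcl (m + 1) (Finset.mem_Icc.mpr ⟨by omega, by omega⟩)
  have h4 : |dig k a c (m + 1)| * |pk k a c (m + 1)| - |pk k a c m| ≤ |pk k a c (m + 2)| := by
    show _ ≤ |dig k a c (m + 1) * pk k a c (m + 1) - pk k a c m|
    rw [← abs_mul]
    exact abs_sub_abs_le_abs_sub _ _
  have h5 : 100 * |pk k a c m| ≤ |pk k a c (m + 1)| := by
    have := abs_nonneg (pk k a c m)
    nlinarith
  have h6 := abs_nonneg (pk k a c (m + 1))
  have h7 := Val.W_le_add (pk k a c) m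
  have h8 : |pk k a c (m + 2)| ≤ Val.W (pk k a c) (m + 1) := Val.abs_succ_le_W (pk k a c) (m + 1)
  have h9 : 0 ≤ |dig k a c (m + 1)| := abs_nonneg _
  have h10 : (|dig k a c (m + 1)| + 2) * Val.W (pk k a c) m ≤
      (|dig k a c (m + 1)| + 2) * (101 / 100 * |pk k a c (m + 1)|) := by
    apply mul_le_mul_of_nonneg_left _ (by linarith)
    linarith
  have h11 : 200 * |pk k a c (m + 1)| ≤ |dig k a c (m + 1)| * |pk k a c (m + 1)| := by
    apply mul_le_mul_of_nonneg_right _ h6
    linarith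
  nlinarith

theorem Wp_eq (hb : 100 ≤ b) (m : ℕ) : Val.W (pk k a c) m = b ^ Val.ex b (pk k a c) m := by
  unfold Val.ex
  rw [Real.rpow_logb (by linarith) (by linarith) (Wp_pos k a c m)]

theorem exp_le (hb : 100 ≤ b) {i j : ℕ} {x : ℝ}
    (h : Val.W (pk k a c) i ≤ b ^ x * Val.W (pk k a c) j) :
    Val.ex b (pk k a c) i ≤ x + Val.ex b (pk k a c) j := by
  rw [Wp_eq hb i, Wp_eq hb j, ← Real.rpow_add (by linarith)] at h
  exact (Real.rpow_le_rpow_left_iff (by linarith)).mp h

theorem exp_zero (b : ℝ) : Val.ex b (pk k a c) 0 = 0 := by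
  unfold Val.ex
  rw [Wp_zero, Real.logb_one]

theorem exp_clean (hb : 100 ≤ b) (hcl : ∀ m ∈ Icc 1 1000, 2 * b ≤ |dig k a c m|) {m : ℕ}
    (hm : m < 1000) : Val.ex b (pk k a c) m + 1 ≤ Val.ex b (pk k a c) (m + 1) := by
  have h1 := cleanstep_pk hb hcl hm
  have h3 := hcl (m + 1) (Finset.mem_Icc.mpr ⟨by omega, by omega⟩)
  have h4 : Val.W (pk k a c) m ≤ b ^ (-1 : ℝ) * Val.W (pk k a c) (m + 1) := by
    have hW := Val.W_nonneg (pk k a c) m
    have h5 : b * Val.W (pk k a c) m ≤ Val.W (pk k a c) (m + 1) := by nlinarith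
    rw [Real.rpow_neg_one, inv_mul_eq_div, le_div_iff₀ (by linarith)]
    linarith
  have := exp_le hb h4
  linarith

theorem exp_mono (hb : 100 ≤ b) (hcl : ∀ m ∈ Icc 1 1000, 2 * b ≤ |dig k a c m|) {i j : ℕ}
    (hij : i ≤ j) (hj : j ≤ 1000) : Val.ex b (pk k a c) i ≤ Val.ex b (pk k a c) j := by
  induction j, hij using Nat.le_induction with
  | base => exact le_rfl
  | succ j hij ih =>
    have := ih (by omega)
    have := exp_clean hb hcl (by omega : j < 1000)
    linarith

/-- exponents along an admissible orbit, on the whole window -/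
theorem expo_of_SV {n' : ℕ} (hk10 : 10 ≤ k) (hb : 2000 ≤ b) (hbk : 8 * k ≤ b ^ 2)
    (hbκ : 2 * b = k ^ (2 / 3 : ℝ)) (h : SV k 1000 a c n') (hn' : 35 ≤ n' - 1) :
    Val.Expo b (n' - 1) (Val.ex b (pk k a c)) := by
  have hb100 : 100 ≤ b := by linarith
  have hb0 : 0 < b := by linarith
  have hcl : ∀ m ∈ Icc 1 1000, 2 * b ≤ |dig k a c m| := by
    intro m hm
    rw [hbκ]
    exact h.cl m hm
  have hup : ∀ m, Val.ex b (pk k a c) (m + 1) ≤ Val.ex b (pk k a c) m + 2 := by
    intro m
    have h1 := Wp_succ_le k a c m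
    have h2 := abs_dig_le hk10 a c (m + 1)
    have h3 : Val.W (pk k a c) (m + 1) ≤ b ^ (2 : ℝ) * Val.W (pk k a c) m := by
      rw [Real.rpow_two]
      exact h1.trans (mul_le_mul_of_nonneg_right (h2.trans hbk) (Val.W_nonneg _ m))
    have := exp_le hb100 h3
    linarith
  have hdn : ∀ m, Val.ex b (pk k a c) m ≤ Val.ex b (pk k a c) (m + 1) + 2 := by
    intro m
    have h1 := Wp_le_succ k a c m
    have h2 := abs_dig_le hk10 a c (m + 1)
    have h3 : Val.W (pk k a c) m ≤ b ^ (2 : ℝ) * Val.W (pk k a c) (m + 1) := by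
      rw [Real.rpow_two]
      exact h1.trans (mul_le_mul_of_nonneg_right (h2.trans hbk) (Val.W_nonneg _ (m + 1)))
    have := exp_le hb100 h3
    linarith
  have hnn : ∀ m ≤ 1000, 0 ≤ Val.ex b (pk k a c) m := by
    intro m hm
    have := exp_mono hb100 hcl (Nat.zero_le m) hm
    rwa [exp_zero] at this
  have nf0 : ∀ i, 0 ≤ nf k a c i := fun i => (abs_nonneg _).trans (le_max_left _ _)
  have key : ∀ i j, 1000 ≤ i → i ≤ j → j < n' →
      99 / 100 * Val.ex b (pk k a c) i - 1 / 10 ≤ Val.ex b (pk k a c) j := by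
    intro i j hi hij hj
    have h0 := h.v2 i j hi hij hj
    have h1 : nf k a c i ^ (99 / 100 : ℝ) ≤ nf k a c j := by
      have h2 : (nf k a c i ^ 99) ^ (1 / 100 : ℝ) ≤ (nf k a c j ^ 100) ^ (1 / 100 : ℝ) :=
        Real.rpow_le_rpow (pow_nonneg (nf0 i) _) h0 (by norm_num)
      rw [← Real.rpow_natCast, ← Real.rpow_natCast, ← Real.rpow_mul (nf0 i),
        ← Real.rpow_mul (nf0 j)] at h2
      norm_num at h2
      exact h2
    have h2 : nf k a c j ≤ Val.W (pk k a c) j := Val.N_le_W (pk k a c) j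
    have h3 : Val.W (pk k a c) i ≤ 3 / 2 * nf k a c i := Val.W_le_N (pk k a c) i
    have h4 : (3 / 2 : ℝ) ≤ b ^ (1 / 10 : ℝ) := by
      have h5 : ((3 / 2 : ℝ) ^ (10 : ℕ)) ^ (1 / 10 : ℝ) ≤ b ^ (1 / 10 : ℝ) := by
        apply Real.rpow_le_rpow (by positivity) _ (by norm_num)
        norm_num
        linarith
      have h6 : ((3 / 2 : ℝ) ^ (10 : ℕ)) ^ (1 / 10 : ℝ) = 3 / 2 := by
        rw [← Real.rpow_natCast, ← Real.rpow_mul (by norm_num)]
        norm_num
      linarith
    have h7 : b ^ (Val.ex b (pk k a c) i - 1 / 10) ≤ nf k a c i := by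
      rw [Real.rpow_sub hb0, ← Wp_eq hb100 i, div_le_iff₀ (Real.rpow_pos_of_pos hb0 _)]
      calc Val.W (pk k a c) i ≤ 3 / 2 * nf k a c i := h3
        _ ≤ b ^ (1 / 10 : ℝ) * nf k a c i := mul_le_mul_of_nonneg_right h4 (nf0 i)
        _ = _ := mul_comm _ _
    have h8 : (b ^ (Val.ex b (pk k a c) i - 1 / 10)) ^ (99 / 100 : ℝ) ≤
        b ^ Val.ex b (pk k a c) j := by
      rw [← Wp_eq hb100 j]
      exact (Real.rpow_le_rpow (Real.rpow_nonneg hb0.le _) h7 (by norm_num)).trans (h1.trans h2)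
    rw [← Real.rpow_mul hb0.le] at h8
    have h9 := (Real.rpow_le_rpow_left_iff (by linarith)).mp h8
    linarith
  have hv2 : ∀ i j, i ≤ j → j < n' →
      99 / 100 * Val.ex b (pk k a c) i - 1 / 10 ≤ Val.ex b (pk k a c) j := by
    intro i j hij hj
    rcases Nat.lt_or_ge i 1000 with hi | hi
    · rcases Nat.lt_or_ge j 1000 with hj' | hj'
      · have := exp_mono hb100 hcl hij hj'.le
        have := hnn i hi.le
        linarith
      · have h1 := key 1000 j le_rfl hj' hj
        have h2 := exp_mono hb100 hcl hi.le le_rfl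
        linarith
    · exact key i j hi hij hj
  refine
    { hb := by linarith
      hn := hn'
      u0 := exp_zero b
      up := fun m _ => hup m
      dn := fun m _ => hdn m
      cl := fun m hm => exp_clean hb100 hcl (by omega)
      v2 := fun i j hij hj => hv2 i j hij (by omega)
      v3 := ?_ }
  -- the duration sum
  have hpt : ∀ j ∈ range (n' - 1 + 1), b ^ (-(1 / 100 * Val.ex b (pk k a c) j)) ≤
      (if j < 1000 then 1 else 0) + b * (if 1000 ≤ j then ((j : ℝ) ^ 2)⁻¹ else 0) := by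
    intro j hj
    rw [Finset.mem_range] at hj
    rcases Nat.lt_or_ge j 1000 with h' | h'
    · rw [if_pos h', if_neg (by omega)]
      have h1 := hnn j h'.le
      have h2 : b ^ (-(1 / 100 * Val.ex b (pk k a c) j)) ≤ 1 :=
        Real.rpow_le_one_of_one_le_of_nonpos (by linarith) (by linarith)
      linarith
    · rw [if_neg (by omega), if_pos h', zero_add]
      obtain ⟨i, hi0, hij, hi⟩ := h.v3 j h' (by omega)
      have h1 := hv2 i j hij (by omega)
      have h2 : (j : ℝ) ^ 400 ≤ b ^ Val.ex b (pk k a c) i := by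
        refine hi.trans ?_
        rw [← Wp_eq hb100 i]
        exact Val.N_le_W (pk k a c) i
      have hj0 : (0 : ℝ) < (j : ℝ) := by
        have : 0 < j := by omega
        exact_mod_cast this
      have h3 : (j : ℝ) ≤ b ^ (1 / 400 * Val.ex b (pk k a c) i) := by
        have h4 : ((j : ℝ) ^ 400) ^ (1 / 400 : ℝ) ≤ (b ^ Val.ex b (pk k a c) i) ^ (1 / 400 : ℝ) :=
          Real.rpow_le_rpow (by positivity) h2 (by norm_num)
        rw [← Real.rpow_natCast, ← Real.rpow_mul hj0.le, ← Real.rpow_mul hb0.le] at h4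
        norm_num at h4
        refine h4.trans ?_
        apply Real.rpow_le_rpow_of_exponent_le (by linarith)
        linarith
      have h4 : (j : ℝ) ^ 2 ≤ b ^ (1 / 200 * Val.ex b (pk k a c) i) := by
        have h5 : (j : ℝ) ^ 2 ≤ (b ^ (1 / 400 * Val.ex b (pk k a c) i)) ^ 2 :=
          pow_le_pow_left₀ hj0.le h3 2
        refine h5.trans ?_
        rw [← Real.rpow_natCast, ← Real.rpow_mul hb0.le]
        apply Real.rpow_le_rpow_of_exponent_le (by linarith)
        push_cast
        linarith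
      have h7 : 0 ≤ Val.ex b (pk k a c) i := by
        have h8 : (1 : ℝ) ≤ b ^ (1 / 400 * Val.ex b (pk k a c) i) := by
          refine le_trans ?_ h3
          have : 1 ≤ j := by omega
          exact_mod_cast this
        have h9 : (b : ℝ) ^ (0 : ℝ) ≤ b ^ (1 / 400 * Val.ex b (pk k a c) i) := by
          rw [Real.rpow_zero]; exact h8
        have := (Real.rpow_le_rpow_left_iff (by linarith)).mp h9
        linarith
      have h6 : b ^ (-(1 / 100 * Val.ex b (pk k a c) j)) * (j : ℝ) ^ 2 ≤ b := by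
        calc b ^ (-(1 / 100 * Val.ex b (pk k a c) j)) * (j : ℝ) ^ 2
            ≤ b ^ (-(1 / 100 * Val.ex b (pk k a c) j)) * b ^ (1 / 200 * Val.ex b (pk k a c) i) := by
              gcongr
          _ = b ^ (-(1 / 100 * Val.ex b (pk k a c) j) + 1 / 200 * Val.ex b (pk k a c) i) := by
              rw [← Real.rpow_add hb0]
          _ ≤ b ^ (1 : ℝ) := by
            apply Real.rpow_le_rpow_of_exponent_le (by linarith)
            linarith
          _ = b := Real.rpow_one b
      rw [← div_eq_mul_inv, le_div_iff₀ (by positivity)]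
      exact h6
  refine (Finset.sum_le_sum hpt).trans ?_
  rw [Finset.sum_add_distrib, ← Finset.mul_sum]
  have s1 : ∑ j ∈ range (n' - 1 + 1), (if j < 1000 then (1 : ℝ) else 0) ≤ 1000 := by
    rw [← Finset.sum_filter, Finset.sum_const, nsmul_eq_mul, mul_one]
    have : ((range (n' - 1 + 1)).filter (fun j => j < 1000)).card ≤ 1000 := by
      calc ((range (n' - 1 + 1)).filter (fun j => j < 1000)).card ≤ (range 1000).card := by
            apply Finset.card_le_card
            intro j hj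
            rw [Finset.mem_filter] at hj
            rw [Finset.mem_range]
            exact hj.2
        _ = 1000 := Finset.card_range _
    exact_mod_cast this
  have s2 : ∑ j ∈ range (n' - 1 + 1), (if 1000 ≤ j then ((j : ℝ) ^ 2)⁻¹ else 0) ≤ 1 / 2 := by
    rw [← Finset.sum_filter]
    have h1 : (range (n' - 1 + 1)).filter (fun j => 1000 ≤ j) = Ioo 999 (n' - 1 + 1) := by
      ext j
      simp only [Finset.mem_filter, Finset.mem_range, Finset.mem_Ioo]
      omega
    rw [h1]
    have h2 := sum_Ioo_inv_sq_le (α := ℝ) 999 (n' - 1 + 1)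
    refine h2.trans ?_
    norm_num
  nlinarith

/-- **Admissible points give helper162's `FE`** on the whole window. -/
theorem fe_of_adm {X : ℝ} {n' n L : ℕ} (hk : (10 : ℝ) ^ 30 ≤ k) (hX : k ^ 600 ≤ X)
    (h : Adm k X a c n')
    (S : Seg k X a c n' n L) :
    CoreF.FE (k ^ (2 / 3 : ℝ) / 2) n' (dig k a c) (pk k a c) := by
  obtain ⟨hb19, hbk, -⟩ := base_facts hk
  have hk10 : (10 : ℝ) ≤ k := le_trans (by norm_num) hk
  have h35 := S.hL35
  have hLn := S.hLn
  have hlt := S.lt
  have hk0 : 0 < k := by linarith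
  have hn36 : 36 ≤ n := by
    by_contra hc
    push Not at hc
    have h1 := nf_le_pow hk10 a c n
    have h2 : (8 * k) ^ n ≤ (k ^ 2) ^ n := pow_le_pow_left₀ (by positivity) (by nlinarith) n
    have h3 : (k ^ 2) ^ n < k ^ 600 := by
      rw [← pow_mul]
      exact pow_lt_pow_right₀ (lt_of_lt_of_le (by norm_num) hk) (by omega)
    have h4 := S.big
    linarith
  refine
    { hb := le_trans (by norm_num) hb19
      hN := by omega
      p0 := rfl
      p1 := rfl
      hp := fun _ _ => rfl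
      hA := ?_
      hcl := ?_
      E := ?_ }
  · intro m _
    have := abs_dig_le hk10 a c m
    nlinarith
  · intro m hm
    rw [Finset.mem_Icc] at hm
    have e : 2 * (k ^ (2 / 3 : ℝ) / 2) = k ^ (2 / 3 : ℝ) := by ring
    rw [e]
    exact h.1.cl m (Finset.mem_Icc.mpr ⟨hm.1, by omega⟩)
  · exact expo_of_SV hk10 (le_trans (by norm_num) hb19) (by nlinarith) (by ring) h.1 (by omega)

end Crest.Agent.R128.Core
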