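import Mathlib
import Crest.Agent.R128.BVP8
import Crest.Agent.R128.ValNum

/-!
Row 128, node V3-CORE (second implementation), part A: the window of a start up to its failure time `H + 1`
(`H` = last index at which (V2), (V3) hold), forward fundamental solutions and the one sum lemma.
-/

set_option autoImplicit false

open Finset

namespace Crest.Agent.R128.Shx

open Crest.Agent.R128.TreeSum Crest.Agent.R128.BVP Crest.Agent.R128.Val

/-- window of a start; `H` = last index at which (V2), (V3) hold. -/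
structure Win (b : ℝ) (H : ℕ) (a p : ℕ → ℝ) : Prop where
  hb : 1000 ≤ b
  hH : 35 ≤ H
  p0 : p 0 = 0
  p1 : p 1 = 1
  hp : ∀ m, p (m + 2) = a (m + 1) * p (m + 1) - p m
  hA : ∀ m, |a (m + 1)| + 2 ≤ b ^ 2
  hcl : ∀ m ∈ Icc 1 35, 2 * b ≤ |a m|
  E : Expo b H (ex b p)

variable {b : ℝ} {H : ℕ} {a p : ℕ → ℝ}

theorem Win.stp (V : Win b H a p) (m : ℕ) :
    TreeSum.stp (a (m + 1)) (p m, p (m + 1)) = (p (m + 1), p (m + 2)) := by
  unfold TreeSum.stp
  simp only [V.hp m]

theorem Win.isField (V : Win b H a p) (s : ℕ) :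
    IsField (fun i => a (s + i + 1)) (fun i => (p (s + i), p (s + i + 1))) := by
  intro i
  show (p (s + (i + 1)), p (s + (i + 1) + 1)) = TreeSum.stp (a (s + i + 1)) (p (s + i), p (s + i + 1))
  rw [V.stp (s + i)]
  rfl

theorem Win.succ_le (V : Win b H a p) (m : ℕ) : W p (m + 1) ≤ (|a (m + 1)| + 2) * W p m := by
  have := nn_stp_le (a (m + 1)) (p m, p (m + 1))
  rw [V.stp m] at this
  exact this

theorem Win.le_succ (V : Win b H a p) (m : ℕ) : W p m ≤ (|a (m + 1)| + 2) * W p (m + 1) := by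
  have := nn_le_stp (a (m + 1)) (p m, p (m + 1))
  rw [V.stp m] at this
  exact this

theorem Win.W0 (V : Win b H a p) : W p 0 = 1 := by
  unfold W nn
  rw [V.p0, V.p1]
  simp

theorem Win.pos (V : Win b H a p) (m : ℕ) : 0 < W p m := by
  have h := (V.isField 0).pos (Nat.zero_le m) (by
    have := V.W0
    unfold W at this
    simp only [Nat.zero_add, Nat.add_zero]
    simp only [Nat.zero_add] at this
    rw [this]; norm_num)
  simp only [Nat.zero_add] at h
  exact h

theorem Win.b0 (V : Win b H a p) : 0 < b := by linarith [V.hb]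

theorem Win.ratio (V : Win b H a p) : ∀ m ≤ 35, b * |p m| ≤ |p (m + 1)| := by
  intro m
  induction m with
  | zero => intro _; rw [V.p0]; simp
  | succ m ih =>
    intro hm
    have h1 := ih (by omega)
    have h2 := V.hp m
    have h3 := V.hcl (m + 1) (Finset.mem_Icc.mpr ⟨by omega, hm⟩)
    have hb := V.hb
    show b * |p (m + 1)| ≤ |p (m + 2)|
    rw [h2]
    have h4 : |a (m + 1)| * |p (m + 1)| - |p m| ≤ |a (m + 1) * p (m + 1) - p m| := by
      rw [← abs_mul]
      exact abs_sub_abs_le_abs_sub _ _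
    have h5 : |p m| ≤ |p (m + 1)| := by
      have := abs_nonneg (p m)
      nlinarith
    have h6 := abs_nonneg (p (m + 1))
    nlinarith

/-- clean step -/
theorem Win.cleanstep (V : Win b H a p) {m : ℕ} (hm : m < 35) :
    (|a (m + 1)| + 2) * W p m ≤ 5 / 4 * W p (m + 1) := by
  have h1 := V.ratio m hm.le
  have h2 := V.hp m
  have h3 := V.hcl (m + 1) (Finset.mem_Icc.mpr ⟨by omega, by omega⟩)
  have hb := V.hb
  have h4 : |a (m + 1)| * |p (m + 1)| - |p m| ≤ |a (m + 1) * p (m + 1) - p m| := by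
    rw [← abs_mul]
    exact abs_sub_abs_le_abs_sub _ _
  rw [← h2] at h4
  have h5 : 100 * |p m| ≤ |p (m + 1)| := by
    have := abs_nonneg (p m)
    nlinarith
  have h6 := abs_nonneg (p (m + 1))
  have h7 := W_le_add p m
  have h8 : |p (m + 2)| ≤ W p (m + 1) := abs_succ_le_W p (m + 1)
  have h9 : 0 ≤ |a (m + 1)| := abs_nonneg _
  have h10 : (|a (m + 1)| + 2) * W p m ≤ (|a (m + 1)| + 2) * (101 / 100 * |p (m + 1)|) := by
    apply mul_le_mul_of_nonneg_left _ (by linarith)
    linarith
  have h11 : 200 * |p (m + 1)| ≤ |a (m + 1)| * |p (m + 1)| := by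
    apply mul_le_mul_of_nonneg_right _ h6
    linarith
  nlinarith

theorem Win.W_eq (V : Win b H a p) (m : ℕ) : W p m = b ^ ex b p m := by
  have hb := V.hb
  unfold ex
  rw [Real.rpow_logb (by linarith) (by linarith) (V.pos m)]

theorem Win.mono (V : Win b H a p) {x y : ℝ} (h : x ≤ y) : b ^ x ≤ b ^ y :=
  Real.rpow_le_rpow_of_exponent_le (by linarith [V.hb]) h

theorem Win.ex_le (V : Win b H a p) {i j : ℕ} {x : ℝ} (h : W p i ≤ b ^ x * W p j) :
    ex b p i ≤ x + ex b p j := by
  have hb := V.hb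
  rw [V.W_eq i, V.W_eq j, ← Real.rpow_add (by linarith)] at h
  exact (Real.rpow_le_rpow_left_iff (by linarith)).mp h

theorem Win.le_ex (V : Win b H a p) {i : ℕ} {x : ℝ} (h : b ^ x ≤ W p i) : x ≤ ex b p i := by
  have hb := V.hb
  rw [V.W_eq i] at h
  exact (Real.rpow_le_rpow_left_iff (by linarith)).mp h

theorem Win.ex_le' (V : Win b H a p) {i : ℕ} {x : ℝ} (h : W p i ≤ b ^ x) : ex b p i ≤ x := by
  have hb := V.hb
  rw [V.W_eq i] at h
  exact (Real.rpow_le_rpow_left_iff (by linarith)).mp h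

theorem Win.clean_ex (V : Win b H a p) {m : ℕ} (hm : m < 35) : ex b p m + 1 ≤ ex b p (m + 1) := by
  have hb := V.hb
  have h1 := V.cleanstep hm
  have h3 := V.hcl (m + 1) (Finset.mem_Icc.mpr ⟨by omega, by omega⟩)
  have h4 : W p m ≤ b ^ (-1 : ℝ) * W p (m + 1) := by
    have hW := W_nonneg p m
    have h5 : b * W p m ≤ W p (m + 1) := by nlinarith
    rw [Real.rpow_neg_one, inv_mul_eq_div, le_div_iff₀ (by linarith)]
    linarith
  have := V.ex_le h4
  linarith

theorem Win.ex_zero (V : Win b H a p) : ex b p 0 = 0 := by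
  unfold ex
  rw [V.W0, Real.logb_one]

theorem Win.up (V : Win b H a p) (m : ℕ) : ex b p (m + 1) ≤ ex b p m + 2 := by
  have h1 := V.succ_le m
  have h2 := V.hA m
  have h3 : W p (m + 1) ≤ b ^ (2 : ℝ) * W p m := by
    rw [Real.rpow_two]
    exact h1.trans (mul_le_mul_of_nonneg_right h2 (W_nonneg p m))
  have := V.ex_le h3
  linarith

theorem Win.dn (V : Win b H a p) (m : ℕ) : ex b p m ≤ ex b p (m + 1) + 2 := by
  have h1 := V.le_succ m
  have h2 := V.hA m
  have h3 : W p m ≤ b ^ (2 : ℝ) * W p (m + 1) := by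
    rw [Real.rpow_two]
    exact h1.trans (mul_le_mul_of_nonneg_right h2 (W_nonneg p (m + 1)))
  have := V.ex_le h3
  linarith

theorem Win.clean_mono (V : Win b H a p) {i j : ℕ} (hij : i ≤ j) (hj : j ≤ 35) :
    ex b p i ≤ ex b p j := by
  induction j, hij using Nat.le_induction with
  | base => exact le_rfl
  | succ j hij ih =>
    have := ih (by omega)
    have := V.clean_ex (by omega : j < 35)
    linarith

theorem Win.ex_nonneg_clean (V : Win b H a p) {m : ℕ} (hm : m ≤ 35) : 0 ≤ ex b p m := by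
  have := V.clean_mono (Nat.zero_le m) hm
  rwa [V.ex_zero] at this

theorem Win.expo (V : Win b H a p) : Expo b H (ex b p) := V.E

end Crest.Agent.R128.Shx
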