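import Mathlib
import Crest.Agent.R128.ShxA

/-!
Row 128, node V3-CORE (second implementation), part B: forward fundamental solutions along a window.
-/

set_option autoImplicit false

open Finset

namespace Crest.Agent.R128.Shx

open Crest.Agent.R128.TreeSum Crest.Agent.R128.BVP Crest.Agent.R128.Val

variable {b : ℝ} {H : ℕ} {a p : ℕ → ℝ}

/-- the weights -/
noncomputable def G (p : ℕ → ℝ) (H m : ℕ) : ℝ :=
  if m ≤ H + 1 then min (W p (m - 1)) (W p m) else W p (m - 1)

theorem abs_le_G (p : ℕ → ℝ) (H : ℕ) {m : ℕ} (hm : 1 ≤ m) : |p m| ≤ G p H m := by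
  unfold G
  split_ifs
  · exact le_min (abs_le_W_pred p hm) (abs_le_W p m)
  · exact abs_le_W_pred p hm

theorem G_le_pred (p : ℕ → ℝ) (H m : ℕ) : G p H m ≤ W p (m - 1) := by
  unfold G
  split_ifs
  · exact min_le_left _ _
  · exact le_rfl

theorem G_le (p : ℕ → ℝ) {H m : ℕ} (hm : m ≤ H + 1) : G p H m ≤ W p m := by
  unfold G
  rw [if_pos hm]
  exact min_le_right _ _

theorem Win.G_pos (V : Win b H a p) (m : ℕ) : 0 < G p H m := by
  unfold G
  split_ifs
  · exact lt_min (V.pos _) (V.pos _)
  · exact V.pos _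

theorem comp_le (w z : ℝ × ℝ) (hw : 0 < nn w) :
    |z.1| ≤ |lam w z| * |w.1| + |wr w z| / nn w ∧ |z.2| ≤ |lam w z| * |w.2| + |wr w z| / nn w := by
  have hsq : nn w ^ 2 = w.1 ^ 2 + w.2 ^ 2 := nn_sq w
  have hne : nn w ≠ 0 := hw.ne'
  have e1 : z.1 = lam w z * w.1 - wr w z * w.2 / nn w ^ 2 := by
    unfold lam
    rw [div_mul_eq_mul_div, ← sub_div, eq_div_iff (by positivity), hsq]
    unfold dt wr
    ring
  have e2 : z.2 = lam w z * w.2 + wr w z * w.1 / nn w ^ 2 := by
    unfold lam
    rw [div_mul_eq_mul_div, ← add_div, eq_div_iff (by positivity), hsq]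
    unfold dt wr
    ring
  have h1 : |wr w z * w.2 / nn w ^ 2| ≤ |wr w z| / nn w := by
    rw [abs_div, abs_mul, abs_of_pos (by positivity : 0 < nn w ^ 2), div_le_div_iff₀ (by positivity) hw]
    have := abs_snd_le w
    have h3 : |w.2| * nn w ≤ nn w ^ 2 := by nlinarith
    nlinarith [mul_le_mul_of_nonneg_left h3 (abs_nonneg (wr w z))]
  have h2 : |wr w z * w.1 / nn w ^ 2| ≤ |wr w z| / nn w := by
    rw [abs_div, abs_mul, abs_of_pos (by positivity : 0 < nn w ^ 2), div_le_div_iff₀ (by positivity) hw]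
    have := abs_fst_le w
    have h3 : |w.1| * nn w ≤ nn w ^ 2 := by nlinarith
    nlinarith [mul_le_mul_of_nonneg_left h3 (abs_nonneg (wr w z))]
  constructor
  · have h3 := abs_sub (lam w z * w.1) (wr w z * w.2 / nn w ^ 2)
    rw [← e1, abs_mul] at h3
    linarith
  · have h3 := abs_add_le (lam w z * w.2) (wr w z * w.1 / nn w ^ 2)
    rw [← e2, abs_mul] at h3
    linarith

/-- forward fundamental solutions -/
theorem Win.fund_raw (V : Win b H a p) {j m : ℕ} (hjm : j ≤ m) (hm : m ≤ H + 1) :
    |fund a j m| ≤ (1 / W p j + W p j * wtt a p j (H + 1)) * |p m| + |p j| / W p m ∧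
    |fund a j (m + 1)| ≤ (1 / W p j + W p j * wtt a p j (H + 1)) * |p (m + 1)| + |p j| / W p m := by
  obtain ⟨i, rfl⟩ := Nat.exists_eq_add_of_le hjm
  set w : ℕ → ℝ × ℝ := fun i => (p (j + i), p (j + i + 1)) with hw
  set z : ℕ → ℝ × ℝ := fun i => (fund a j (j + i), fund a j (j + i + 1)) with hz
  have fw : IsField (fun i => a (j + i + 1)) w := V.isField j
  have fz : IsField (fun i => a (j + i + 1)) z := by
    intro i
    show (fund a j (j + (i + 1)), fund a j (j + (i + 1) + 1)) =
      TreeSum.stp (a (j + i + 1)) (fund a j (j + i), fund a j (j + i + 1))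
    unfold TreeSum.stp
    have := fund_rec a j (j + i) (by omega)
    ext
    · rfl
    · exact this
  have hpos0 : 0 < nn (w 0) := V.pos j
  have hposi : 0 < nn (w i) := V.pos (j + i)
  have hwr0 : wr (w 0) (z 0) = p j := by
    show p (j + 0) * fund a j (j + 0 + 1) - p (j + 0 + 1) * fund a j (j + 0) = p j
    rw [Nat.add_zero, fund_succ, fund_self]
    ring
  have hwri : wr (w i) (z i) = p j := by
    rw [fw.wr_eq fz (Nat.zero_le i), hwr0]
  have hld := lam_diff fw fz (Nat.zero_le i) hpos0
  rw [hwr0] at hld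
  have hwt : wt (fun i => a (j + i + 1)) w 0 i ≤ wtt a p j (H + 1) := by
    have e : wt (fun i => a (j + i + 1)) w 0 i = wtt a p j (j + i) := by
      unfold wt wtt
      rw [Finset.sum_Ico_eq_sum_range, Finset.sum_Ico_eq_sum_range]
      have : j + i - j = i - 0 := by omega
      rw [this]
      apply Finset.sum_congr rfl
      intro x _
      simp only [Nat.zero_add]
      rfl
    rw [e]
    unfold wtt
    apply Finset.sum_le_sum_of_subset_of_nonneg
    · intro x hx
      rw [Finset.mem_Ico] at hx ⊢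
      omega
    · intro x _ _
      have := V.pos x
      have := V.pos (x + 1)
      positivity
  have hl0 : |lam (w 0) (z 0)| ≤ 1 / W p j := by
    unfold lam
    have e : dt (z 0) (w 0) = p (j + 1) := by
      show fund a j (j + 0) * p (j + 0) + fund a j (j + 0 + 1) * p (j + 0 + 1) = p (j + 1)
      rw [Nat.add_zero, fund_succ, fund_self]
      ring
    rw [e, abs_div, abs_of_pos (by positivity : 0 < nn (w 0) ^ 2)]
    have h5 := abs_succ_le_W p j
    have e2 : nn (w 0) = W p j := rfl
    rw [e2, div_le_div_iff₀ (by have := V.pos j; positivity) (V.pos j)]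
    have := V.pos j
    nlinarith
  have hli : |lam (w i) (z i)| ≤ 1 / W p j + W p j * wtt a p j (H + 1) := by
    have h7 := abs_add_le (lam (w i) (z i) - lam (w 0) (z 0)) (lam (w 0) (z 0))
    rw [sub_add_cancel] at h7
    have h8 : |p j| * wt (fun i => a (j + i + 1)) w 0 i ≤ W p j * wtt a p j (H + 1) :=
      mul_le_mul (abs_le_W p j) hwt (wt_nonneg _ _ _ _) (V.pos j).le
    linarith
  obtain ⟨h1, h2⟩ := comp_le (w i) (z i) hposi
  rw [hwri] at h1 h2
  constructor
  · refine h1.trans ?_
    exact add_le_add (mul_le_mul_of_nonneg_right hli (abs_nonneg _)) le_rfl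
  · refine h2.trans ?_
    exact add_le_add (mul_le_mul_of_nonneg_right hli (abs_nonneg _)) le_rfl

theorem Win.term_le (V : Win b H a p) (j : ℕ) :
    (|a (j + 1)| + 2) / (W p j * W p (j + 1)) ≤ b ^ (4 - 2 * ex b p j) := by
  have hb0 := V.b0
  have h1 := V.le_succ j
  have h2 := V.hA j
  have hWj := V.pos j
  have hWj' := V.pos (j + 1)
  have h3 : 0 ≤ |a (j + 1)| := abs_nonneg _
  have h4 : W p j ≤ b ^ 2 * W p (j + 1) := h1.trans (mul_le_mul_of_nonneg_right h2 hWj'.le)
  have h5 : b ^ (4 - 2 * ex b p j) = b ^ 4 / W p j ^ 2 := by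
    rw [Real.rpow_sub hb0, V.W_eq j]
    congr 1
    · exact_mod_cast Real.rpow_natCast b 4
    · rw [← Real.rpow_natCast (b ^ ex b p j) 2, ← Real.rpow_mul hb0.le]
      congr 1
      push_cast
      ring
  rw [h5, div_le_div_iff₀ (by positivity) (by positivity)]
  calc (|a (j + 1)| + 2) * W p j ^ 2 ≤ b ^ 2 * (W p j * (b ^ 2 * W p (j + 1))) := by
        rw [sq (W p j)]
        gcongr
    _ = b ^ 4 * (W p j * W p (j + 1)) := by ring

/-- the explicit bound -/
noncomputable def B (b : ℝ) (u : ℕ → ℝ) (j : ℕ) : ℝ :=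
  if j ≤ 30 then 3 * b ^ (-u j) else 2 * b ^ (6 - 97 / 100 * u j)

theorem B_pos {b : ℝ} (hb : 0 < b) (u : ℕ → ℝ) (j : ℕ) : 0 < B b u j := by
  unfold B
  split_ifs <;> positivity

theorem Win.lamB (V : Win b H a p) : LamB b H (ex b p) (B b (ex b p)) where
  pos := fun m _ => (B_pos V.b0 _ _).le
  c := by
    intro m hm
    unfold B
    rw [if_pos hm]
  g := by
    intro m hm
    unfold B
    split_ifs with h
    · have h1 : b ^ (-ex b p m) ≤ b ^ (-1 + (6 - 97 / 100 * ex b p m) : ℝ) := by
        apply V.mono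
        have := V.expo.nonneg hm
        linarith
      rw [Real.rpow_add V.b0] at h1
      have h2 : b ^ (-1 : ℝ) ≤ (1 / 16) ^ 1 := V.expo.small (by norm_num)
      rw [pow_one] at h2
      have h3 : 0 < b ^ (6 - 97 / 100 * ex b p m) := Real.rpow_pos_of_pos V.b0 _
      nlinarith
    · exact le_rfl

theorem Win.Lam_le (V : Win b H a p) {m : ℕ} (hm : m ≤ H) :
    1 / W p m + W p m * wtt a p m (H + 1) ≤ B b (ex b p) m := by
  have hb := V.hb
  have hb0 := V.b0
  have E := V.expo
  have hH := V.hH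
  have hWm := V.pos m
  have h6 : b ^ (-ex b p m) = 1 / W p m := by
    rw [Real.rpow_neg hb0.le, ← V.W_eq m, one_div]
  have hWsq : ∀ x : ℝ, (b ^ x) ^ 2 = b ^ (2 * x) := by
    intro x
    rw [← Real.rpow_natCast (b ^ x) 2, ← Real.rpow_mul hb0.le]
    congr 1
    push_cast
    ring
  unfold B
  split_ifs with h30
  · have h35 : ex b p m + 5 ≤ ex b p 35 := by
      have h2 := E.clean (by omega : m ≤ 35) le_rfl
      have h3 : (5 : ℝ) ≤ ((35 - m : ℕ) : ℝ) := by
        have : 5 ≤ 35 - m := by omega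
        exact_mod_cast this
      linarith
    have hw : W p m ^ 2 * wtt a p m (H + 1) ≤ 5 / 4 * (16 / 15) + 1 / 16 := by
      have hpt : ∀ j ∈ Ico m (H + 1), W p m ^ 2 * ((|a (j + 1)| + 2) / (W p j * W p (j + 1))) ≤
          5 / 4 * (if m ≤ j then (b⁻¹) ^ (j - m) else 0) +
            b ^ (-2 : ℝ) * b ^ (-(1 / 100 * ex b p j)) := by
        intro j hj
        rw [Finset.mem_Ico] at hj
        rw [if_pos hj.1]
        have hWj := V.pos j
        have hWj' := V.pos (j + 1)
        rcases Nat.lt_or_ge j 35 with h | h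
        · have h2 := V.cleanstep h
          have h3 : (|a (j + 1)| + 2) / (W p j * W p (j + 1)) ≤ 5 / 4 / W p j ^ 2 := by
            rw [div_le_div_iff₀ (by positivity) (by positivity)]
            nlinarith
          have h4 : W p m ^ 2 * (5 / 4 / W p j ^ 2) = 5 / 4 * b ^ (2 * ex b p m - 2 * ex b p j) := by
            rw [Real.rpow_sub hb0, ← hWsq, ← hWsq, ← V.W_eq m, ← V.W_eq j]
            ring
          have h5 : b ^ (2 * ex b p m - 2 * ex b p j) ≤ (b⁻¹) ^ (j - m) := by
            rw [E.pow_inv]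
            apply E.mono
            have h6 := E.clean hj.1 h.le
            have h7 : (0 : ℝ) ≤ ((j - m : ℕ) : ℝ) := Nat.cast_nonneg _
            linarith
          calc W p m ^ 2 * ((|a (j + 1)| + 2) / (W p j * W p (j + 1)))
              ≤ W p m ^ 2 * (5 / 4 / W p j ^ 2) := by gcongr
            _ = 5 / 4 * b ^ (2 * ex b p m - 2 * ex b p j) := h4
            _ ≤ 5 / 4 * (b⁻¹) ^ (j - m) := by gcongr
            _ ≤ _ := by
              have : 0 ≤ b ^ (-2 : ℝ) * b ^ (-(1 / 100 * ex b p j)) := by positivity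
              linarith
        · have h2 := V.term_le j
          have h3 := E.v2 35 j h (by omega)
          have h4 : W p m ^ 2 * b ^ (4 - 2 * ex b p j) ≤ b ^ (-2 : ℝ) * b ^ (-(1 / 100 * ex b p j)) := by
            rw [V.W_eq m, hWsq, ← Real.rpow_add hb0, ← Real.rpow_add hb0]
            apply E.mono
            have hum := E.ub (by omega : m ≤ H)
            have hm30 : (m : ℝ) ≤ 30 := by exact_mod_cast h30
            linarith
          calc W p m ^ 2 * ((|a (j + 1)| + 2) / (W p j * W p (j + 1)))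
              ≤ W p m ^ 2 * b ^ (4 - 2 * ex b p j) := by gcongr
            _ ≤ b ^ (-2 : ℝ) * b ^ (-(1 / 100 * ex b p j)) := h4
            _ ≤ _ := by
              have : 0 ≤ 5 / 4 * (b⁻¹) ^ (j - m) := by positivity
              linarith
      unfold wtt
      rw [Finset.mul_sum]
      refine (Finset.sum_le_sum hpt).trans ?_
      rw [Finset.sum_add_distrib, ← Finset.mul_sum, ← Finset.mul_sum, ← Finset.sum_filter]
      have g1 := geom_le E.hb (Ico m (H + 1)) m
      have g2 := E.sum_le (Ico m (H + 1)) (by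
        intro j hj
        rw [Finset.mem_Ico] at hj
        rw [Finset.mem_range]
        omega)
      have g3 : b ^ (-2 : ℝ) * b = b ^ (-1 : ℝ) := by
        conv_lhs => rw [← Real.rpow_one b, ← Real.rpow_mul hb0.le, ← Real.rpow_add hb0]
        norm_num
      have g4 : b ^ (-1 : ℝ) ≤ (1 / 16) ^ 1 := E.small (by norm_num)
      have p2 : 0 ≤ b ^ (-2 : ℝ) := by positivity
      nlinarith [mul_le_mul_of_nonneg_left g2 p2]
    rw [h6]
    have e1 : W p m * wtt a p m (H + 1) = (W p m ^ 2 * wtt a p m (H + 1)) * (1 / W p m) := by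
      field_simp
    rw [e1]
    have h7 : 0 < 1 / W p m := by positivity
    nlinarith
  · have hw : wtt a p m (H + 1) ≤ b ^ (52 / 10 - 19701 / 10000 * ex b p m) := by
      have hpt : ∀ j ∈ Ico m (H + 1), (|a (j + 1)| + 2) / (W p j * W p (j + 1)) ≤
          b ^ (42 / 10 - 19701 / 10000 * ex b p m) * b ^ (-(1 / 100 * ex b p j)) := by
        intro j hj
        rw [Finset.mem_Ico] at hj
        refine (V.term_le j).trans ?_
        rw [← Real.rpow_add hb0]
        apply E.mono
        have := E.v2 m j hj.1 (by omega)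
        linarith
      unfold wtt
      refine (Finset.sum_le_sum hpt).trans ?_
      rw [← Finset.mul_sum]
      have g2 := E.sum_le (Ico m (H + 1)) (by
        intro j hj
        rw [Finset.mem_Ico] at hj
        rw [Finset.mem_range]
        omega)
      calc b ^ (42 / 10 - 19701 / 10000 * ex b p m) *
            ∑ j ∈ Ico m (H + 1), b ^ (-(1 / 100 * ex b p j))
          ≤ b ^ (42 / 10 - 19701 / 10000 * ex b p m) * b := by gcongr
        _ = b ^ (42 / 10 - 19701 / 10000 * ex b p m) * b ^ (1 : ℝ) := by rw [Real.rpow_one]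
        _ = b ^ (52 / 10 - 19701 / 10000 * ex b p m) := by
          rw [← Real.rpow_add hb0]
          congr 1
          ring
    have hum := E.nonneg hm
    have t1 : 1 / W p m ≤ b ^ (6 - 97 / 100 * ex b p m) := by
      rw [← h6]
      apply E.mono
      linarith
    have t2 : W p m * wtt a p m (H + 1) ≤ b ^ (6 - 97 / 100 * ex b p m) := by
      calc W p m * wtt a p m (H + 1) ≤ W p m * b ^ (52 / 10 - 19701 / 10000 * ex b p m) := by gcongr
        _ = b ^ (ex b p m + (52 / 10 - 19701 / 10000 * ex b p m)) := by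
          rw [Real.rpow_add hb0, ← V.W_eq m]
        _ ≤ _ := by
          apply E.mono
          linarith
    linarith

/-- **fundamental solutions**, bounded by `B` -/
theorem Win.fund_le (V : Win b H a p) {j m : ℕ} (hjm : j ≤ m) (hj : j ≤ H) (hm : m ≤ H + 1) :
    |fund a j m| ≤ B b (ex b p) j * |p m| + |p j| / W p m ∧
    |fund a j (m + 1)| ≤ B b (ex b p) j * |p (m + 1)| + |p j| / W p m := by
  obtain ⟨h1, h2⟩ := V.fund_raw hjm hm
  have h3 := V.Lam_le hj
  constructor
  · refine h1.trans ?_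
    exact add_le_add (mul_le_mul_of_nonneg_right h3 (abs_nonneg _)) le_rfl
  · refine h2.trans ?_
    exact add_le_add (mul_le_mul_of_nonneg_right h3 (abs_nonneg _)) le_rfl

end Crest.Agent.R128.Shx
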