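import Mathlib
import Crest.Agent.R128.ShxB

/-!
Row 128, node V3-CORE (second implementation), part C: the sum lemma.
-/

set_option autoImplicit false

open Finset

namespace Crest.Agent.R128.Shx

open Crest.Agent.R128.TreeSum Crest.Agent.R128.BVP Crest.Agent.R128.Val

variable {b : ℝ} {H : ℕ} {a p : ℕ → ℝ}

theorem Win.two_le (V : Win b H a p) : (2 : ℝ) ≤ b ^ (1 : ℝ) := by
  rw [Real.rpow_one]; linarith [V.hb]

theorem Win.S1 (V : Win b H a p) {c θ ξ : ℝ} (hξ : 800 ≤ ξ)
    (hup : ∀ j ≤ H, ex b p j ≤ ξ + 3) (hθ : θ ≤ b ^ (-(9 / 20 * ξ))) :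
    ∑ j ∈ Icc 1 H, B b (ex b p) j * (c * B b (ex b p) j + θ) * W p (j - 1) ≤
      (11 * c + 1) * b ^ (-2 : ℝ) ∨ c < 0 := by
  rcases lt_or_ge c 0 with hc | hc
  · exact Or.inr hc
  left
  have hb0 := V.b0
  have E := V.expo
  have L := V.lamB
  have hpt : ∀ j ∈ Icc 1 H, B b (ex b p) j * (c * B b (ex b p) j + θ) * W p (j - 1) ≤
      c * (B b (ex b p) j ^ 2 * b ^ ex b p (j - 1)) + b ^ (-3 : ℝ) * b ^ (-(1 / 100 * ex b p j)) := by
    intro j hj
    rw [Finset.mem_Icc] at hj
    have hBp := B_pos hb0 (ex b p) j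
    have h1 := L.g j hj.2
    have h2 : W p (j - 1) ≤ b ^ (ex b p j + 2) := by
      rw [V.W_eq (j - 1)]
      apply E.mono
      have := E.dn (j - 1) (by omega)
      rwa [Nat.sub_add_cancel hj.1] at this
    have h3 : θ * (B b (ex b p) j * W p (j - 1)) ≤ b ^ (-3 : ℝ) * b ^ (-(1 / 100 * ex b p j)) := by
      have hW := (V.pos (j - 1)).le
      calc θ * (B b (ex b p) j * W p (j - 1))
          ≤ b ^ (-(9 / 20 * ξ)) * ((b ^ (1 : ℝ) * b ^ (6 - 97 / 100 * ex b p j)) * b ^ (ex b p j + 2)) := by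
            have h4 : B b (ex b p) j ≤ b ^ (1 : ℝ) * b ^ (6 - 97 / 100 * ex b p j) :=
              h1.trans (mul_le_mul_of_nonneg_right V.two_le (by positivity))
            have h5 : B b (ex b p) j * W p (j - 1) ≤
                (b ^ (1 : ℝ) * b ^ (6 - 97 / 100 * ex b p j)) * b ^ (ex b p j + 2) :=
              mul_le_mul h4 h2 hW (by positivity)
            have h6 : 0 ≤ B b (ex b p) j * W p (j - 1) := mul_nonneg hBp.le hW
            calc θ * (B b (ex b p) j * W p (j - 1)) ≤ b ^ (-(9 / 20 * ξ)) * (B b (ex b p) j * W p (j - 1)) :=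
                  mul_le_mul_of_nonneg_right hθ h6
              _ ≤ _ := mul_le_mul_of_nonneg_left h5 (by positivity)
        _ = b ^ (-(9 / 20 * ξ) + (1 + (6 - 97 / 100 * ex b p j) + (ex b p j + 2))) := by
            rw [← Real.rpow_add hb0, ← Real.rpow_add hb0, ← Real.rpow_add hb0]
        _ ≤ b ^ (-3 + -(1 / 100 * ex b p j) : ℝ) := by
            apply E.mono
            have := hup j hj.2
            linarith
        _ = _ := by rw [Real.rpow_add hb0]
    calc B b (ex b p) j * (c * B b (ex b p) j + θ) * W p (j - 1)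
        = c * (B b (ex b p) j ^ 2 * W p (j - 1)) + θ * (B b (ex b p) j * W p (j - 1)) := by ring
      _ ≤ c * (B b (ex b p) j ^ 2 * W p (j - 1)) + b ^ (-3 : ℝ) * b ^ (-(1 / 100 * ex b p j)) := by
          linarith
      _ = _ := by rw [V.W_eq (j - 1)]
  refine (Finset.sum_le_sum hpt).trans ?_
  rw [Finset.sum_add_distrib, ← Finset.mul_sum, ← Finset.mul_sum]
  have g1 := sum2 E L
  have g2 := E.sum_le (Icc 1 H) (by
    intro j hj
    rw [Finset.mem_Icc] at hj
    rw [Finset.mem_range]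
    omega)
  have g3 : b ^ (-3 : ℝ) * b = b ^ (-2 : ℝ) := by
    conv_lhs => rw [← Real.rpow_one b, ← Real.rpow_mul hb0.le, ← Real.rpow_add hb0]
    norm_num
  have p2 : 0 ≤ b ^ (-3 : ℝ) := by positivity
  have h1 := mul_le_mul_of_nonneg_left g1 hc
  have h2 := mul_le_mul_of_nonneg_left g2 p2
  rw [g3] at h2
  linarith

theorem Win.S2 (V : Win b H a p) {c θ ξ DD : ℝ} (hc : 0 ≤ c) (hξ : 800 ≤ ξ)
    (hup : ∀ j ≤ H, ex b p j ≤ ξ + 3) (hθ : θ ≤ b ^ (-(9 / 20 * ξ))) {m : ℕ} (hm1 : 1 ≤ m) (hmH : m ≤ H)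
    (hD : b ^ (2 * ex b p m - 4) ≤ DD) (hD' : m ≤ 30 → W p (m - 1) * W p m ≤ DD) :
    ∑ j ∈ Icc 1 m, W p (j - 1) ^ 2 * (c * B b (ex b p) j + θ) ≤ (5 * c + 1) * b ^ (-2 : ℝ) * DD := by
  have hb0 := V.b0
  have E := V.expo
  have L := V.lamB
  have hD0 : 0 < DD := lt_of_lt_of_le (by positivity) hD
  -- first part
  have hs := sum1 E L (Finset.mem_Icc.mpr ⟨hm1, hmH⟩)
  set S := ∑ j ∈ Icc 1 m, (b ^ ex b p (j - 1)) ^ 2 * B b (ex b p) j with hS
  have hS0 : 0 ≤ S := Finset.sum_nonneg fun j _ => mul_nonneg (sq_nonneg _) (B_pos hb0 _ _).le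
  have part1 : S ≤ 5 * b ^ (-2 : ℝ) * DD := by
    rcases Nat.lt_or_ge 30 m with h | h
    · have hB : B b (ex b p) m = 2 * b ^ (6 - 97 / 100 * ex b p m) := by
        unfold B; rw [if_neg (by omega)]
      rw [hB] at hs
      have h1 : b ^ ex b p (m - 1) ≤ b ^ (ex b p m + 2) := by
        apply E.mono
        have := E.dn (m - 1) (by omega)
        rwa [Nat.sub_add_cancel hm1] at this
      have h2 : 2 * b ^ (6 - 97 / 100 * ex b p m) * S ≤ 10 * b ^ (-2 : ℝ) * b ^ (ex b p m + 2) :=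
        hs.trans (mul_le_mul_of_nonneg_left h1 (by positivity))
      have hu := E.nonneg hmH
      have h3 : b ^ (ex b p m + 2) ≤ b ^ (6 - 97 / 100 * ex b p m) * DD := by
        calc b ^ (ex b p m + 2) ≤ b ^ ((6 - 97 / 100 * ex b p m) + (2 * ex b p m - 4)) := by
              apply E.mono; linarith
          _ = b ^ (6 - 97 / 100 * ex b p m) * b ^ (2 * ex b p m - 4) := Real.rpow_add hb0 _ _
          _ ≤ _ := mul_le_mul_of_nonneg_left hD (by positivity)
      have h4 : 10 * b ^ (-2 : ℝ) * b ^ (ex b p m + 2) ≤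
          10 * b ^ (-2 : ℝ) * (b ^ (6 - 97 / 100 * ex b p m) * DD) :=
        mul_le_mul_of_nonneg_left h3 (by positivity)
      have h5 : 0 < b ^ (6 - 97 / 100 * ex b p m) := by positivity
      have h6 : (2 * b ^ (6 - 97 / 100 * ex b p m)) * S ≤
          (2 * b ^ (6 - 97 / 100 * ex b p m)) * (5 * b ^ (-2 : ℝ) * DD) := by
        calc _ ≤ _ := h2.trans h4
          _ = _ := by ring
      exact le_of_mul_le_mul_left h6 (by positivity)
    · have hB : B b (ex b p) m = 3 * b ^ (-ex b p m) := by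
        unfold B; rw [if_pos h]
      rw [hB] at hs
      have h1 : b ^ (-ex b p m) = 1 / W p m := by
        rw [Real.rpow_neg hb0.le, ← V.W_eq m, one_div]
      rw [h1, ← V.W_eq (m - 1)] at hs
      have hW := V.pos m
      have h2 : 3 * S ≤ 10 * b ^ (-2 : ℝ) * W p (m - 1) * W p m := by
        have h3 := mul_le_mul_of_nonneg_right hs hW.le
        calc 3 * S = 3 * (1 / W p m) * S * W p m := by field_simp
          _ ≤ _ := h3
      have h4 := hD' h
      have h5 : 0 < b ^ (-2 : ℝ) := by positivity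
      have h6 : b ^ (-2 : ℝ) * (W p (m - 1) * W p m) ≤ b ^ (-2 : ℝ) * DD :=
        mul_le_mul_of_nonneg_left h4 h5.le
      have h7 : 0 < b ^ (-2 : ℝ) * DD := by positivity
      nlinarith
  -- second part
  have part2 : ∑ j ∈ Icc 1 m, W p (j - 1) ^ 2 * θ ≤ b ^ (-2 : ℝ) * DD := by
    have hpt : ∀ j ∈ Icc 1 m, W p (j - 1) ^ 2 * θ ≤
        (b ^ (-3 : ℝ) * DD) * b ^ (-(1 / 100 * ex b p j)) := by
      intro j hj
      rw [Finset.mem_Icc] at hj
      have h2 : W p (j - 1) ^ 2 ≤ b ^ (2 * ex b p j + 4) := by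
        have h3 : W p (j - 1) ≤ b ^ (ex b p j + 2) := by
          rw [V.W_eq (j - 1)]
          apply E.mono
          have := E.dn (j - 1) (by omega)
          rwa [Nat.sub_add_cancel hj.1] at this
        calc W p (j - 1) ^ 2 ≤ (b ^ (ex b p j + 2)) ^ 2 := pow_le_pow_left₀ (V.pos _).le h3 2
          _ = b ^ (2 * ex b p j + 4) := by
            rw [← Real.rpow_natCast (b ^ (ex b p j + 2)) 2, ← Real.rpow_mul hb0.le]
            congr 1; push_cast; ring
      calc W p (j - 1) ^ 2 * θ ≤ W p (j - 1) ^ 2 * b ^ (-(9 / 20 * ξ)) :=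
            mul_le_mul_of_nonneg_left hθ (sq_nonneg _)
        _ ≤ b ^ (2 * ex b p j + 4) * b ^ (-(9 / 20 * ξ)) :=
            mul_le_mul_of_nonneg_right h2 (by positivity)
        _ = b ^ (2 * ex b p j + 4 + -(9 / 20 * ξ)) := (Real.rpow_add hb0 _ _).symm
        _ ≤ b ^ (-3 + (2 * ex b p m - 4) + -(1 / 100 * ex b p j)) := by
            apply E.mono
            have h5 := E.v2 j m hj.2 hmH
            have h6 := hup m hmH
            have h7 := hup j (by omega)
            linarith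
        _ = (b ^ (-3 : ℝ) * b ^ (2 * ex b p m - 4)) * b ^ (-(1 / 100 * ex b p j)) := by
            rw [Real.rpow_add hb0, Real.rpow_add hb0]
        _ ≤ _ := by gcongr
    refine (Finset.sum_le_sum hpt).trans ?_
    rw [← Finset.mul_sum]
    have g2 := E.sum_le (Icc 1 m) (by
      intro j hj
      rw [Finset.mem_Icc] at hj
      rw [Finset.mem_range]
      omega)
    have g3 : b ^ (-3 : ℝ) * b = b ^ (-2 : ℝ) := by
      conv_lhs => rw [← Real.rpow_one b, ← Real.rpow_mul hb0.le, ← Real.rpow_add hb0]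
      norm_num
    calc _ ≤ (b ^ (-3 : ℝ) * DD) * b := mul_le_mul_of_nonneg_left g2 (by positivity)
      _ = b ^ (-3 : ℝ) * b * DD := by ring
      _ = _ := by rw [g3]
  have e : ∑ j ∈ Icc 1 m, W p (j - 1) ^ 2 * (c * B b (ex b p) j + θ) =
      c * S + ∑ j ∈ Icc 1 m, W p (j - 1) ^ 2 * θ := by
    rw [hS, Finset.mul_sum, ← Finset.sum_add_distrib]
    apply Finset.sum_congr rfl
    intro j _
    rw [V.W_eq (j - 1)]
    ring
  rw [e]
  have h1 := mul_le_mul_of_nonneg_left part1 hc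
  linarith

/-- the second weight -/
noncomputable def Wx (p : ℕ → ℝ) (H m : ℕ) : ℝ :=
  if m ≤ H + 1 then max (W p (m - 1)) (W p m) else W p (m - 1)

theorem Win.Wx_pos (V : Win b H a p) (m : ℕ) : 0 < Wx p H m := by
  unfold Wx
  split_ifs
  · exact lt_max_of_lt_left (V.pos _)
  · exact V.pos _

theorem Win.fund_x (V : Win b H a p) {j m : ℕ} (hjm : j < m) (hj : j ≤ H) (hm : m ≤ H + 2) :
    |fund a j m| ≤ B b (ex b p) j * |p m| + |p j| / Wx p H m := by
  obtain ⟨i, rfl⟩ : ∃ i, m = i + 1 := ⟨m - 1, by omega⟩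
  have h2 := (V.fund_le (j := j) (m := i) (by omega) hj (by omega)).2
  unfold Wx
  split_ifs with h
  · have h1 := (V.fund_le (j := j) (m := i + 1) (by omega) hj h).1
    simp only [Nat.add_sub_cancel]
    rcases le_total (W p i) (W p (i + 1)) with h3 | h3
    · rw [max_eq_right h3]; exact h1
    · rw [max_eq_left h3]; exact h2
  · simp only [Nat.add_sub_cancel]
    exact h2

theorem Win.GWx (V : Win b H a p) {m : ℕ} (hm1 : 2 ≤ m) (hm : m ≤ H + 2) :
    b ^ (2 * ex b p (min (m - 1) H) - 4) ≤ G p H m * Wx p H m ∧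
    (min (m - 1) H ≤ 30 → W p (min (m - 1) H - 1) * W p (min (m - 1) H) ≤ G p H m * Wx p H m) := by
  have hb0 := V.b0
  have hH := V.hH
  rcases Nat.lt_or_ge (H + 1) m with h | h
  · have e : m = H + 2 := by omega
    subst e
    have e1 : min (H + 2 - 1) H = H := by omega
    rw [e1]
    have e2 : G p H (H + 2) = W p (H + 1) := by
      unfold G; rw [if_neg (by omega)]; rfl
    have e3 : Wx p H (H + 2) = W p (H + 1) := by
      unfold Wx; rw [if_neg (by omega)]; rfl
    rw [e2, e3]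
    refine ⟨?_, fun h' => absurd h' (by omega)⟩
    rw [V.W_eq (H + 1), ← Real.rpow_add hb0]
    apply V.mono
    have := V.dn H
    linarith
  · have e1 : min (m - 1) H = m - 1 := by omega
    rw [e1]
    have e2 : G p H m * Wx p H m = W p (m - 1) * W p m := by
      unfold G Wx
      rw [if_pos h, if_pos h]
      exact min_mul_max _ _
    rw [e2]
    have hd := V.dn (m - 1)
    rw [Nat.sub_add_cancel (by omega : 1 ≤ m)] at hd
    constructor
    · rw [V.W_eq (m - 1), V.W_eq m, ← Real.rpow_add hb0]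
      apply V.mono
      linarith
    · intro h30
      have h1 := V.clean_mono (i := m - 2) (j := m) (by omega) (by omega)
      have h2 : W p (m - 1 - 1) ≤ W p m := by
        have e4 : m - 1 - 1 = m - 2 := by omega
        rw [e4, V.W_eq (m - 2), V.W_eq m]
        exact V.mono h1
      rw [mul_comm]
      exact mul_le_mul_of_nonneg_left h2 (V.pos _).le

/-- **the sum lemma** -/
theorem Win.sum_main (V : Win b H a p) {M c θ ξ : ℝ} (hM0 : 0 ≤ M) (hM : 10 ^ 6 * M ≤ b ^ 2)
    (hc0 : 0 ≤ c) (hc : c ≤ 30) (hξ : 800 ≤ ξ) (hup : ∀ j ≤ H, ex b p j ≤ ξ + 3)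
    (hθ0 : 0 ≤ θ) (hθ : θ ≤ b ^ (-(9 / 20 * ξ)))
    {d : ℕ → ℝ} (hd : ∀ j, 1 ≤ j → j ≤ H → d j ≤ c * B b (ex b p) j + θ) (hd' : d (H + 1) ≤ θ)
    (hd0 : ∀ j, 0 ≤ d j) {m : ℕ} (hm : m ≤ H + 2) :
    ∑ j ∈ Ico 1 m, |fund a j m| * (M * d j) * G p H j ≤ 1 / 1000 * G p H m := by
  have hb0 := V.b0
  have hb := V.hb
  have hG := V.G_pos m
  rcases Nat.lt_or_ge m 2 with h2 | h2
  · rw [Finset.Ico_eq_empty (by omega), Finset.sum_empty]
    positivity
  set m' := min (m - 1) H with hm'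
  have hm'1 : 1 ≤ m' := by have := V.hH; omega
  have hm'H : m' ≤ H := by omega
  have hX := V.Wx_pos m
  obtain ⟨hD, hD'⟩ := V.GWx h2 hm
  rw [← hm'] at hD hD'
  have hb2 : b ^ (-2 : ℝ) = 1 / b ^ 2 := by
    rw [Real.rpow_neg hb0.le, Real.rpow_two, one_div]
  -- the main part
  have hmain : ∑ j ∈ Icc 1 m', |fund a j m| * (M * d j) * G p H j ≤
      M * ((16 * c + 2) * b ^ (-2 : ℝ)) * G p H m := by
    have hpt : ∀ j ∈ Icc 1 m', |fund a j m| * (M * d j) * G p H j ≤
        (M * |p m|) * (B b (ex b p) j * (c * B b (ex b p) j + θ) * W p (j - 1)) +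
        (M / Wx p H m) * (W p (j - 1) ^ 2 * (c * B b (ex b p) j + θ)) := by
      intro j hj
      rw [Finset.mem_Icc] at hj
      have h3 := V.fund_x (j := j) (m := m) (by omega) (by omega) hm
      have h4 := hd j hj.1 (by omega)
      have h5 := G_le_pred p H j
      have h6 := (V.G_pos j).le
      have h7 := B_pos hb0 (ex b p) j
      have h8 := abs_le_W_pred p hj.1
      have h9 : 0 ≤ c * B b (ex b p) j + θ := (hd0 j).trans h4
      have hW := (V.pos (j - 1)).le
      calc |fund a j m| * (M * d j) * G p H j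
          ≤ (B b (ex b p) j * |p m| + |p j| / Wx p H m) * (M * (c * B b (ex b p) j + θ)) * W p (j - 1) := by
            apply mul_le_mul _ h5 h6 (by positivity)
            apply mul_le_mul h3 _ (mul_nonneg hM0 (hd0 j)) (by positivity)
            exact mul_le_mul_of_nonneg_left h4 hM0
        _ ≤ (B b (ex b p) j * |p m| + W p (j - 1) / Wx p H m) * (M * (c * B b (ex b p) j + θ)) *
              W p (j - 1) := by gcongr
        _ = _ := by ring
    refine (Finset.sum_le_sum hpt).trans ?_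
    rw [Finset.sum_add_distrib, ← Finset.mul_sum, ← Finset.mul_sum]
    have s1 : ∑ j ∈ Icc 1 m', B b (ex b p) j * (c * B b (ex b p) j + θ) * W p (j - 1) ≤
        (11 * c + 1) * b ^ (-2 : ℝ) := by
      rcases V.S1 (c := c) hξ hup hθ with h | h
      · refine le_trans ?_ h
        apply Finset.sum_le_sum_of_subset_of_nonneg
        · exact Finset.Icc_subset_Icc le_rfl hm'H
        · intro j _ _
          have := B_pos hb0 (ex b p) j
          have := (V.pos (j - 1)).le
          positivity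
      · linarith
    have s2 := V.S2 hc0 hξ hup hθ hm'1 hm'H hD hD'
    have hpm := abs_le_G p H (by omega : 1 ≤ m)
    have t1 : (M * |p m|) * ∑ j ∈ Icc 1 m', B b (ex b p) j * (c * B b (ex b p) j + θ) * W p (j - 1) ≤
        (M * G p H m) * ((11 * c + 1) * b ^ (-2 : ℝ)) := by
      apply mul_le_mul (mul_le_mul_of_nonneg_left hpm hM0) s1 _ (by positivity)
      apply Finset.sum_nonneg
      intro j _
      have := B_pos hb0 (ex b p) j
      have := (V.pos (j - 1)).le
      positivity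
    have t2 : (M / Wx p H m) * ∑ j ∈ Icc 1 m', W p (j - 1) ^ 2 * (c * B b (ex b p) j + θ) ≤
        M * G p H m * ((5 * c + 1) * b ^ (-2 : ℝ)) := by
      calc _ ≤ (M / Wx p H m) * ((5 * c + 1) * b ^ (-2 : ℝ) * (G p H m * Wx p H m)) :=
            mul_le_mul_of_nonneg_left s2 (by positivity)
        _ = _ := by field_simp
    calc _ ≤ _ := add_le_add t1 t2
      _ = _ := by ring
  -- the last term
  have hsplit : ∑ j ∈ Ico 1 m, |fund a j m| * (M * d j) * G p H j ≤
      ∑ j ∈ Icc 1 m', |fund a j m| * (M * d j) * G p H j + M * θ * G p H m := by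
    rcases Nat.lt_or_ge (H + 1) m with h | h
    · have e : m = H + 2 := by omega
      have e1 : m' = H := by omega
      have e2 : Ico 1 m = Ico 1 (H + 1 + 1) := by rw [e]
      have e3 : Icc 1 m' = Ico 1 (H + 1) := by
        rw [e1]; ext j; simp only [Finset.mem_Icc, Finset.mem_Ico]; omega
      rw [e2, e3, Finset.sum_Ico_succ_top (by omega)]
      apply add_le_add le_rfl
      have e4 : fund a (H + 1) m = 1 := by rw [e]; exact fund_succ a (H + 1)
      have e5 : G p H m = W p (H + 1) := by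
        unfold G; rw [if_neg (by omega), e]; rfl
      rw [e4, abs_one, one_mul, e5]
      have h6 := G_le p (le_refl (H + 1)) (H := H)
      exact mul_le_mul (mul_le_mul_of_nonneg_left hd' hM0) h6 (V.G_pos _).le (by positivity)
    · have e3 : Icc 1 m' = Ico 1 m := by
        ext j; simp only [Finset.mem_Icc, Finset.mem_Ico]; omega
      rw [e3]
      have : 0 ≤ M * θ * G p H m := by positivity
      linarith
  refine hsplit.trans ?_
  have hθ2 : θ ≤ b ^ (-2 : ℝ) := hθ.trans (V.mono (by linarith))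
  rw [hb2] at hmain hθ2
  have h10 : M * ((16 * c + 2) * (1 / b ^ 2)) + M * (1 / b ^ 2) ≤ 1 / 1000 := by
    have h11 : M * (1 / b ^ 2) ≤ 1 / 10 ^ 6 := by
      rw [mul_one_div, div_le_div_iff₀ (by positivity) (by positivity)]
      linarith
    have h12 : 0 ≤ M * (1 / b ^ 2) := by positivity
    nlinarith
  have h13 : M * θ ≤ M * (1 / b ^ 2) := mul_le_mul_of_nonneg_left hθ2 hM0
  calc _ ≤ M * ((16 * c + 2) * (1 / b ^ 2)) * G p H m + M * (1 / b ^ 2) * G p H m := by
        apply add_le_add hmain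
        exact mul_le_mul_of_nonneg_right h13 hG.le
    _ = (M * ((16 * c + 2) * (1 / b ^ 2)) + M * (1 / b ^ 2)) * G p H m := by ring
    _ ≤ _ := mul_le_mul_of_nonneg_right h10 hG.le

end Crest.Agent.R128.Shx
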