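import Mathlib
import Crest.Agent.R128.ShxC

/-!
Row 128, node V3-CORE (second implementation), part D: linearised comparison of orbits and fields.
-/

set_option autoImplicit false

open Finset

namespace Crest.Agent.R128.Shx

open Crest.Agent.R128.TreeSum Crest.Agent.R128.BVP Crest.Agent.R128.Val

variable {b : ℝ} {H : ℕ} {a p : ℕ → ℝ}

/-- numerical parameters -/
structure Par (b M c θ ξ : ℝ) (H : ℕ) (p : ℕ → ℝ) : Prop where
  hM0 : 0 ≤ M
  hM : 10 ^ 6 * M ≤ b ^ 2
  hc0 : 0 ≤ c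
  hc : c ≤ 30
  hξ : 800 ≤ ξ
  hup : ∀ j ≤ H, ex b p j ≤ ξ + 3
  hθ0 : 0 ≤ θ
  hθ : θ ≤ b ^ (-(9 / 20 * ξ))

/-- box -/
noncomputable def dbox (b c θ : ℝ) (H : ℕ) (p : ℕ → ℝ) (j : ℕ) : ℝ :=
  if j ≤ H then c * B b (ex b p) j + θ else θ

variable {M c θ ξ : ℝ}

theorem dbox_nonneg (hb : 0 < b) (hc : 0 ≤ c) (hθ : 0 ≤ θ) (j : ℕ) : 0 ≤ dbox b c θ H p j := by
  unfold dbox
  have := B_pos hb (ex b p) j
  split_ifs <;> positivity

/-- fields of perturbed coefficients -/
theorem Win.field (V : Win b H a p) (P : Par b M c θ ξ H p) {K : ℕ} (hK : K ≤ H + 2) {a' : ℕ → ℝ}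
    (ha' : ∀ j, 1 ≤ j → j < K → |a' j - a j| ≤ M * dbox b c θ H p j) :
    ∀ m ≤ K, |fund a' 0 m - p m| ≤ 1 / 500 * G p H m := by
  rcases Nat.eq_zero_or_pos K with h0 | h0
  · intro m hm
    have : m = 0 := by omega
    subst this
    rw [fund_self, V.p0, sub_zero, abs_zero]
    have := V.G_pos 0
    positivity
  obtain ⟨N, rfl⟩ : ∃ N, K = N + 1 := ⟨K - 1, by omega⟩
  have hM0 := P.hM0
  have h := field_pert (N := N) (a := a) (a' := a') (p := p) (p' := fund a' 0) (W := G p H)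
    (η := 1 / 1000) (by norm_num) V.p0 V.p1 (fun m _ => V.hp m) (fund_self _ _) (fund_succ _ _)
    (fun m _ => fund_rec a' 0 m (Nat.zero_le _)) (by
      intro m _
      rcases Nat.eq_zero_or_pos m with h | h
      · rw [h, V.p0, abs_zero]; exact (V.G_pos 0).le
      · exact abs_le_G p H h) (by
      intro m hm
      refine le_trans ?_ (V.sum_main P.hM0 P.hM P.hc0 P.hc P.hξ P.hup P.hθ0 P.hθ (d := dbox b c θ H p)
        (fun j _ hj => by unfold dbox; rw [if_pos hj])
        (by unfold dbox; rw [if_neg (by omega)])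
        (fun j => dbox_nonneg V.b0 P.hc0 P.hθ0 j) (m := m) (by omega))
      apply Finset.sum_le_sum
      intro j hj
      rw [Finset.mem_Ico] at hj
      apply mul_le_mul_of_nonneg_right _ (V.G_pos j).le
      exact mul_le_mul_of_nonneg_left (ha' j hj.1 (by omega)) (abs_nonneg _))
  intro m hm
  have := h m hm
  linarith

/-- (LIN) -/
theorem Win.lin (V : Win b H a p) (P : Par b M c θ ξ H p) {K : ℕ} (hK : K ≤ H + 2) {e a' : ℕ → ℝ}
    (he0 : e 0 = 0) (he : ∀ m, m + 2 ≤ K → e (m + 2) = a' (m + 1) * e (m + 1) - e m)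
    (ha' : ∀ j, 1 ≤ j → j < K → |a' j - a j| ≤ M * dbox b c θ H p j) :
    ∀ m ≤ K, |e m - e 1 * p m| ≤ 1 / 500 * |e 1| * G p H m := by
  have hrep : ∀ m ≤ K, e m = e 1 * fund a' 0 m := by
    intro m
    induction m using Nat.strong_induction_on with
    | _ m ih =>
      intro hm
      match m with
      | 0 => rw [he0, fund_self, mul_zero]
      | 1 => rw [fund_succ, mul_one]
      | m + 2 =>
        rw [he m hm, fund_rec a' 0 m (Nat.zero_le _), ih (m + 1) (by omega) (by omega),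
          ih m (by omega) (by omega)]
        ring
  intro m hm
  rw [hrep m hm, ← mul_sub, abs_mul]
  have h := V.field P hK ha' m hm
  have := mul_le_mul_of_nonneg_left h (abs_nonneg (e 1))
  linarith

/-- slope of the difference of two orbits -/
theorem slope {f Vd : ℝ → ℝ} (hM0 : 0 ≤ M) (hNL : NL f Vd M) {x y z D : ℝ}
    (hy : |y - x| ≤ D) (hz : |z - x| ≤ D) :
    ∃ s : ℝ, |s - Vd x| ≤ M * D ∧ f z - f y = s * (z - y) := by
  have hD : 0 ≤ D := (abs_nonneg _).trans hy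
  rcases eq_or_ne z y with h | h
  · refine ⟨Vd x, ?_, ?_⟩
    · rw [sub_self, abs_zero]; positivity
    · rw [h]; ring
  · have hne : z - y ≠ 0 := sub_ne_zero.mpr h
    refine ⟨(f z - f y) / (z - y), ?_, by field_simp⟩
    have h1 := hNL x (z - x) (y - x)
    rw [add_sub_cancel, add_sub_cancel, show z - x - (y - x) = z - y by ring] at h1
    have h2 : (f z - f y) / (z - y) - Vd x = (f z - f y - Vd x * (z - y)) / (z - y) := by
      field_simp
    rw [h2, abs_div, div_le_iff₀ (abs_pos.mpr hne)]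
    refine h1.trans ?_
    apply mul_le_mul_of_nonneg_right _ (abs_nonneg _)
    exact mul_le_mul_of_nonneg_left (max_le hz hy) hM0

theorem abs_fst (P : Par b M c θ ξ H p) (V : Win b H a p) {m : ℕ} (hm1 : 1 ≤ m) (hm : m ≤ H + 1) :
    G p H m ≤ b ^ (ξ + 3) := by
  refine (G_le_pred p H m).trans ?_
  rw [V.W_eq (m - 1)]
  exact V.mono (P.hup (m - 1) (by omega))

/-- difference of two orbits with the same left boundary value, both in the box of `x` -/
theorem Win.diff {f Vd : ℝ → ℝ} {x : ℕ → ℝ} (V : Win b H (fun j => Vd (x j)) p)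
    (P : Par b M c θ ξ H p) (hNL : NL f Vd M) {K : ℕ} (hK : K ≤ H + 2) {y z : ℕ → ℝ}
    (hy : ∀ m, y (m + 2) + y m = f (y (m + 1))) (hz : ∀ m, z (m + 2) + z m = f (z (m + 1)))
    (h0 : z 0 = y 0)
    (hyx : ∀ j, 1 ≤ j → j < K → |y j - x j| ≤ dbox b c θ H p j)
    (hzx : ∀ j, 1 ≤ j → j < K → |z j - x j| ≤ dbox b c θ H p j) :
    ∀ m ≤ K, |(z m - y m) - (z 1 - y 1) * p m| ≤ 1 / 500 * |z 1 - y 1| * G p H m := by
  classical
  have hs : ∀ j, ∃ s : ℝ, (1 ≤ j → j < K → |s - Vd (x j)| ≤ M * dbox b c θ H p j ∧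
      f (z j) - f (y j) = s * (z j - y j)) := by
    intro j
    by_cases h : 1 ≤ j ∧ j < K
    · obtain ⟨s, h1, h2⟩ := slope P.hM0 hNL (hyx j h.1 h.2) (hzx j h.1 h.2)
      exact ⟨s, fun _ _ => ⟨h1, h2⟩⟩
    · exact ⟨0, fun h1 h2 => absurd ⟨h1, h2⟩ h⟩
  choose a' ha' using hs
  have h := V.lin P hK (e := fun m => z m - y m) (a' := a') (by rw [h0, sub_self])
    (by
      intro m hm
      have h1 := (ha' (m + 1) (by omega) (by omega)).2
      have h2 := hy m
      have h3 := hz m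
      show z (m + 2) - y (m + 2) = a' (m + 1) * (z (m + 1) - y (m + 1)) - (z m - y m)
      linarith)
    (fun j h1 h2 => (ha' j h1 h2).1)
  exact h

/-- **SHADOW**, abstract form -/
theorem Win.shadow {f Vd : ℝ → ℝ} {x : ℕ → ℝ} (V : Win b H (fun j => Vd (x j)) p)
    (P : Par b M c θ ξ H p) (hNL : NL f Vd M) {y z : ℕ → ℝ}
    (hy : ∀ m, y (m + 2) + y m = f (y (m + 1))) (hz : ∀ m, z (m + 2) + z m = f (z (m + 1)))
    (h0 : z 0 = y 0) (hr : 2 * |z 1 - y 1| * b ^ (ξ + 3) ≤ θ / 2)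
    (hyx : ∀ j, 1 ≤ j → j ≤ H + 1 → |y j - x j| ≤ dbox b c θ H p j - θ / 2) :
    (∀ m ≤ H + 1, |z m - y m| ≤ 2 * |z 1 - y 1| * G p H m) ∧
    (∀ j, 1 ≤ j → j ≤ H + 1 → |z j - x j| ≤ dbox b c θ H p j) := by
  have hθ0 := P.hθ0
  have key : ∀ m ≤ H + 1, |z m - y m| ≤ 2 * |z 1 - y 1| * G p H m ∧
      (1 ≤ m → |z m - x m| ≤ dbox b c θ H p m) := by
    intro m
    induction m using Nat.strong_induction_on with
    | _ m ih =>
      intro hm
      have h1 := V.diff P hNL (K := m) (by omega) hy hz h0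
        (fun j h1 h2 => (hyx j h1 (by omega)).trans (by linarith))
        (fun j h1 h2 => (ih j h2 (by omega)).2 h1) m le_rfl
      have h2 : |z m - y m| ≤ 2 * |z 1 - y 1| * G p H m := by
        have h3 := abs_add_le ((z m - y m) - (z 1 - y 1) * p m) ((z 1 - y 1) * p m)
        rw [sub_add_cancel, abs_mul] at h3
        have h4 : |p m| ≤ G p H m := by
          rcases Nat.eq_zero_or_pos m with h | h
          · rw [h, V.p0, abs_zero]; exact (V.G_pos 0).le
          · exact abs_le_G p H h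
        have h5 := mul_le_mul_of_nonneg_left h4 (abs_nonneg (z 1 - y 1))
        have h6 : 0 ≤ |z 1 - y 1| * G p H m := mul_nonneg (abs_nonneg _) (V.G_pos m).le
        linarith
      refine ⟨h2, fun hm1 => ?_⟩
      have h7 := abs_fst P V hm1 hm
      have h8 := hyx m hm1 hm
      have h9 : 2 * |z 1 - y 1| * G p H m ≤ 2 * |z 1 - y 1| * b ^ (ξ + 3) :=
        mul_le_mul_of_nonneg_left h7 (by positivity)
      have h10 := abs_add_le (z m - y m) (y m - x m)
      rw [sub_add_sub_cancel] at h10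
      linarith
  exact ⟨fun m hm => (key m hm).1, fun j h1 h2 => (key j h2).2 h1⟩

/-- fields along an orbit in the box -/
theorem Win.field_orb {Vd : ℝ → ℝ} {x : ℕ → ℝ} (V : Win b H (fun j => Vd (x j)) p)
    (P : Par b M c θ ξ H p) (hL : ∀ s t, |Vd s - Vd t| ≤ M * |s - t|) {z : ℕ → ℝ}
    (hzx : ∀ j, 1 ≤ j → j ≤ H + 1 → |z j - x j| ≤ dbox b c θ H p j) :
    ∀ m ≤ H + 1, N p m ≤ 2 * N (fund (fun j => Vd (z j)) 0) m ∧
      N (fund (fun j => Vd (z j)) 0) m ≤ 2 * N p m := by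
  have h := V.field P (K := H + 2) le_rfl (a' := fun j => Vd (z j)) (by
    intro j h1 h2
    refine (hL _ _).trans ?_
    exact mul_le_mul_of_nonneg_left (hzx j h1 (by omega)) P.hM0)
  intro m hm
  have h1 := h m (by omega)
  have h2 := h (m + 1) (by omega)
  have h3 := G_le p hm
  have h4 := G_le_pred p H (m + 1)
  rw [Nat.add_sub_cancel] at h4
  have h5 := W_le_N p m
  have h6 : |p m| ≤ N p m := le_max_left _ _
  have h7 : |p (m + 1)| ≤ N p m := le_max_right _ _
  set F := fund (fun j => Vd (z j)) 0 with hF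
  have h8 : |F m| ≤ N F m := le_max_left _ _
  have h9 : |F (m + 1)| ≤ N F m := le_max_right _ _
  have h10 := abs_abs_sub_abs_le_abs_sub (F m) (p m)
  have h11 := abs_abs_sub_abs_le_abs_sub (F (m + 1)) (p (m + 1))
  have h12 := abs_le.mp h10
  have h13 := abs_le.mp h11
  have hN0 : 0 ≤ N p m := N_nonneg p m
  have h14 : |F m - p m| ≤ 3 / 1000 * N p m := by linarith
  have h15 : |F (m + 1) - p (m + 1)| ≤ 3 / 1000 * N p m := by linarith
  constructor
  · have : N p m ≤ N F m + 3 / 1000 * N p m := by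
      apply max_le
      · linarith [h12.1]
      · linarith [h13.1]
    linarith
  · have : N F m ≤ N p m + 3 / 1000 * N p m := by
      apply max_le
      · linarith [h12.2]
      · linarith [h13.2]
    linarith

end Crest.Agent.R128.Shx
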