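import Mathlib
import Crest.Agent.R128.ShxD
import Crest.Agent.R128.CoreFE

/-!
Row 128, node V3-CORE (second implementation), part E: `Core.ShadowStmt`.
-/

set_option autoImplicit false

open Finset

namespace Crest.Agent.R128.Shx

open Crest.Agent.R128.TreeSum Crest.Agent.R128.BVP Crest.Agent.R128.Val

variable {b : ℝ} {H : ℕ} {a p : ℕ → ℝ} {M c θ ξ : ℝ}

theorem Win.H_le (V : Win b H a p) (P : Par b M c θ ξ H p) : (H : ℝ) ≤ b ^ (2 + 1 / 100 * ξ) := by
  have hb0 := V.b0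
  have h := V.E.v3
  have h1 : ∀ j ∈ range (H + 1), b ^ (-(1 / 100 * (ξ + 3))) ≤ b ^ (-(1 / 100 * ex b p j)) := by
    intro j hj
    rw [Finset.mem_range] at hj
    apply V.mono
    have := P.hup j (by omega)
    linarith
  have h2 := Finset.sum_le_sum h1
  rw [Finset.sum_const, Finset.card_range, nsmul_eq_mul] at h2
  have h3 : ((H + 1 : ℕ) : ℝ) * b ^ (-(1 / 100 * (ξ + 3))) ≤ b := h2.trans h
  have h4 : 0 < b ^ (-(1 / 100 * (ξ + 3))) := by positivity
  have h5 : (H : ℝ) * b ^ (-(1 / 100 * (ξ + 3))) ≤ b := by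
    refine le_trans ?_ h3
    apply mul_le_mul_of_nonneg_right _ h4.le
    push_cast; linarith
  calc (H : ℝ) = (H : ℝ) * b ^ (-(1 / 100 * (ξ + 3))) * b ^ (1 / 100 * (ξ + 3)) := by
        rw [mul_assoc, ← Real.rpow_add hb0]
        simp
    _ ≤ b * b ^ (1 / 100 * (ξ + 3)) := mul_le_mul_of_nonneg_right h5 (by positivity)
    _ = b ^ (1 : ℝ) * b ^ (1 / 100 * (ξ + 3)) := by rw [Real.rpow_one]
    _ = b ^ (1 + 1 / 100 * (ξ + 3)) := by rw [← Real.rpow_add hb0]
    _ ≤ _ := by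
      apply V.mono
      linarith

/-- late times: after the matched index -/
theorem Win.late {f Vd : ℝ → ℝ} {x y : ℕ → ℝ} (V : Win b H (fun j => Vd (x j)) p)
    (P : Par b M c θ ξ H p) (hNL : NL f Vd M)
    (hx : ∀ m, x (m + 2) + x m = f (x (m + 1))) (hy : ∀ m, y (m + 2) + y m = f (y (m + 1)))
    {n : ℕ} (h35 : 35 ≤ n) (hnH : n ≤ H)
    (hlow : ∀ j, n ≤ j → j ≤ H → 99 / 100 * ξ - 1 / 5 ≤ ex b p j)
    (hright : y (n + 1) = x (n + 1)) (hyn : |y n - x n| ≤ 3 / 2 * b ^ (-ξ))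
    (hθ' : b ^ (-(9 / 20 * ξ)) ≤ θ) :
    ∀ j, n ≤ j → j ≤ H + 1 → |y j - x j| ≤ θ / 2 := by
  have hb0 := V.b0
  have hb := V.hb
  have hξ := P.hξ
  have h2b := V.two_le
  have hlow' : ∀ j, n ≤ j → j ≤ H + 1 → 99 / 100 * ξ - 11 / 5 ≤ ex b p j := by
    intro j h1 h2
    rcases Nat.lt_or_ge j (H + 1) with h | h
    · have := hlow j h1 (by omega)
      linarith
    · have e : j = H + 1 := by omega
      rw [e]
      have h3 := V.dn H
      have h4 := hlow H hnH le_rfl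
      linarith
  have hpm : ∀ m, 1 ≤ m → m ≤ H + 1 → |p m| ≤ b ^ (ξ + 3) := by
    intro m h1 h2
    refine (abs_le_W_pred p h1).trans ?_
    rw [V.W_eq (m - 1)]
    exact V.mono (P.hup (m - 1) (by omega))
  have hfund : ∀ j m, n + 1 ≤ j → j ≤ m → m ≤ H + 1 →
      |fund (fun i => Vd (x i)) j m| ≤ b ^ (3 / 50 * ξ) := by
    intro j m h1 h2 h3
    rcases Nat.lt_or_ge H j with h | h
    · have e : j = m := by omega
      rw [e, fund_self, abs_zero]
      positivity
    · have h4 := (V.fund_le h2 h h3).1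
      have hB : B b (ex b p) j ≤ b ^ (7 - 97 / 100 * (99 / 100 * ξ - 1 / 5)) := by
        unfold B
        rw [if_neg (by omega)]
        calc 2 * b ^ (6 - 97 / 100 * ex b p j) ≤ b ^ (1 : ℝ) * b ^ (6 - 97 / 100 * ex b p j) :=
              mul_le_mul_of_nonneg_right h2b (by positivity)
          _ = b ^ (1 + (6 - 97 / 100 * ex b p j)) := by rw [← Real.rpow_add hb0]
          _ ≤ _ := by
            apply V.mono
            have := hlow j (by omega) h
            linarith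
      have h5 : B b (ex b p) j * |p m| ≤ b ^ (-1 + 3 / 50 * ξ) := by
        calc B b (ex b p) j * |p m| ≤ b ^ (7 - 97 / 100 * (99 / 100 * ξ - 1 / 5)) * b ^ (ξ + 3) :=
              mul_le_mul hB (hpm m (by omega) h3) (abs_nonneg _) (by positivity)
          _ = b ^ (7 - 97 / 100 * (99 / 100 * ξ - 1 / 5) + (ξ + 3)) := by rw [← Real.rpow_add hb0]
          _ ≤ _ := by
            apply V.mono
            linarith
      have h6 : |p j| / W p m ≤ b ^ (-1 + 3 / 50 * ξ) := by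
        rw [div_le_iff₀ (V.pos m)]
        calc |p j| ≤ b ^ (ξ + 3) := hpm j (by omega) (by omega)
          _ ≤ b ^ (-1 + 3 / 50 * ξ + ex b p m) := by
            apply V.mono
            have := hlow' m (by omega) h3
            linarith
          _ = b ^ (-1 + 3 / 50 * ξ) * W p m := by rw [Real.rpow_add hb0, ← V.W_eq m]
      have h7 : b ^ (-1 + 3 / 50 * ξ) = b ^ (-1 : ℝ) * b ^ (3 / 50 * ξ) := Real.rpow_add hb0 _ _
      have h8 : b ^ (-1 : ℝ) ≤ 1 / 2 := by
        rw [Real.rpow_neg_one, inv_eq_one_div]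
        exact one_div_le_one_div_of_le (by norm_num) (by linarith)
      have h9 : 0 < b ^ (3 / 50 * ξ) := by positivity
      rw [h7] at h5 h6
      nlinarith
  have hB1 : 1 ≤ b ^ (3 / 50 * ξ) := Real.one_le_rpow (by linarith) (by linarith)
  have hMb : M ≤ b ^ (2 : ℝ) := by
    rw [Real.rpow_two]
    have := P.hM
    have := P.hM0
    linarith
  have hE0 : (0 : ℝ) ≤ |y n - x n| := abs_nonneg _
  have hyn' : |y n - x n| ≤ b ^ (1 - ξ) := by
    refine hyn.trans ?_
    have e : b ^ (1 - ξ) = b ^ (1 : ℝ) * b ^ (-ξ) := by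
      rw [← Real.rpow_add hb0]; ring_nf
    rw [e]
    exact mul_le_mul_of_nonneg_right (le_trans (by norm_num) h2b) (by positivity)
  have hsmall : 4 * (b ^ (3 / 50 * ξ)) ^ 2 * M * ((H : ℝ) - n) * |y n - x n| ≤ 1 := by
    have h1 := V.H_le P
    have h2 : (H : ℝ) - n ≤ b ^ (2 + 1 / 100 * ξ) := by
      have : (0 : ℝ) ≤ n := Nat.cast_nonneg n
      linarith
    have h3 : 0 ≤ (H : ℝ) - n := by
      have : (n : ℝ) ≤ H := by exact_mod_cast hnH
      linarith
    have h4 : (b ^ (3 / 50 * ξ)) ^ 2 = b ^ (6 / 50 * ξ) := by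
      rw [← Real.rpow_natCast (b ^ (3 / 50 * ξ)) 2, ← Real.rpow_mul hb0.le]
      congr 1; push_cast; ring
    rw [h4]
    have h5 : (4 : ℝ) ≤ b ^ (1 : ℝ) := by rw [Real.rpow_one]; linarith
    calc 4 * b ^ (6 / 50 * ξ) * M * ((H : ℝ) - n) * |y n - x n|
        ≤ b ^ (1 : ℝ) * b ^ (6 / 50 * ξ) * b ^ (2 : ℝ) * b ^ (2 + 1 / 100 * ξ) * b ^ (1 - ξ) := by
          have := P.hM0
          gcongr
      _ = b ^ (1 + 6 / 50 * ξ + 2 + (2 + 1 / 100 * ξ) + (1 - ξ)) := by
          rw [← Real.rpow_add hb0, ← Real.rpow_add hb0, ← Real.rpow_add hb0, ← Real.rpow_add hb0]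
      _ ≤ b ^ (0 : ℝ) := by
          apply V.mono
          linarith
      _ = 1 := Real.rpow_zero b
  have h := fwd P.hM0 hNL (s := n) (N := H) (x := x) (z := y) (fun m _ _ => hx m) (fun m _ _ => hy m)
    hright hB1 hfund hsmall
  intro j h1 h2
  refine (h j h1 h2).trans ?_
  have h3 : 2 * b ^ (3 / 50 * ξ) * |y n - x n| ≤ b ^ (1 : ℝ) * b ^ (3 / 50 * ξ) * b ^ (1 - ξ) := by
    gcongr
  have h4 : b ^ (1 : ℝ) * b ^ (3 / 50 * ξ) * b ^ (1 - ξ) = b ^ (1 + 3 / 50 * ξ + (1 - ξ)) := by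
    rw [← Real.rpow_add hb0, ← Real.rpow_add hb0]
  have h5 : b ^ (1 + 3 / 50 * ξ + (1 - ξ)) ≤ b ^ (-1 + -(9 / 20 * ξ)) := by
    apply V.mono
    linarith
  have h6 : b ^ (-1 + -(9 / 20 * ξ)) = b ^ (-1 : ℝ) * b ^ (-(9 / 20 * ξ)) := Real.rpow_add hb0 _ _
  have h8 : b ^ (-1 : ℝ) ≤ 1 / 2 := by
    rw [Real.rpow_neg_one, inv_eq_one_div]
    exact one_div_le_one_div_of_le (by norm_num) (by linarith)
  have h9 : 0 < b ^ (-(9 / 20 * ξ)) := by positivity
  rw [h6] at h5
  have h10 : b ^ (-1 : ℝ) * b ^ (-(9 / 20 * ξ)) ≤ 1 / 2 * θ :=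
    mul_le_mul h8 hθ' h9.le (by norm_num)
  linarith

theorem pk_eq_fund (k l s : ℝ) :
    ∀ m, Lam0.pk k l s m = fund (fun j => Vk k (xorb k l s j)) 0 m := by
  intro m
  induction m using Nat.strong_induction_on with
  | _ m ih =>
    match m with
    | 0 => rw [fund_self]; rfl
    | 1 => rw [fund_succ]; rfl
    | m + 2 =>
      rw [fund_rec _ 0 m (Nat.zero_le _), ← ih (m + 1) (by omega), ← ih m (by omega)]
      rfl

/-- **SHADOW** -/
theorem shadow_stmt : Core.ShadowStmt := by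
  refine ⟨10 ^ 30, fun k hk X hX a b n' n L hA hS l s0 hl hMt s hs => ?_⟩
  obtain ⟨hb19, hbk, hbk2⟩ := Core.base_facts hk
  have FE := Core.fe_of_adm hk hX hA hS
  have hk0 : 0 < k := lt_of_lt_of_le (by positivity) hk
  have hk10 : (10 : ℝ) ≤ k := le_trans (by norm_num) hk
  have hβ3 : (k ^ (2 / 3 : ℝ) / 2) ^ 3 ≤ k ^ 2 := by
    have h1 : (k ^ (2 / 3 : ℝ)) ^ 3 = k ^ 2 := by
      rw [← Real.rpow_natCast, ← Real.rpow_mul hk0.le]
      norm_num
    rw [div_pow, h1]
    have : 0 < k ^ 2 := by positivity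
    linarith
  set β := k ^ (2 / 3 : ℝ) / 2 with hβ
  set p := Lam0.pk k a b with hp
  set x := xorb k a b with hx
  have hβ0 : 0 < β := lt_of_lt_of_le (by positivity) hb19
  have hβ1 : (1000 : ℝ) ≤ β := le_trans (by norm_num) hb19
  have hX0 : 0 < X := lt_of_lt_of_le (by positivity) hX
  have hlt := hS.lt
  have hn35 : 35 ≤ n := hS.hL35.trans hS.hLn
  have V : Win β (n' - 1) (fun j => Vk k (x j)) p :=
    { hb := hβ1
      hH := by omega
      p0 := rfl
      p1 := rfl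
      hp := fun _ => rfl
      hA := fun m => by
        have := Core.abs_dig_le hk10 a b (m + 1)
        unfold Core.dig at this
        nlinarith
      hcl := FE.hcl
      E := FE.E }
  -- the exponent of X
  set ξ := Real.logb β X with hξd
  have hβξ : β ^ ξ = X := Real.rpow_logb hβ0 (by linarith) hX0
  have hξ : 900 ≤ ξ := by
    rw [hξd, Real.le_logb_iff_rpow_le (by linarith) hX0]
    refine le_trans ?_ hX
    have h1 : β ^ (900 : ℝ) = (β ^ 3) ^ 300 := by
      rw [← pow_mul]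
      exact_mod_cast Real.rpow_natCast β 900
    rw [h1]
    calc (β ^ 3) ^ 300 ≤ (k ^ 2) ^ 300 := pow_le_pow_left₀ (by positivity) hβ3 300
      _ = k ^ 600 := by rw [← pow_mul]
  have hM0 : (0 : ℝ) ≤ 4 * Real.pi ^ 2 * k := by positivity
  have hM40 := Core.M_le hk0
  have P : Par β (4 * Real.pi ^ 2 * k) (3 / 2) (β ^ (-(9 / 20 * ξ))) ξ (n' - 1) p :=
    { hM0 := hM0
      hM := by nlinarith
      hc0 := by norm_num
      hc := by norm_num
      hξ := by linarith
      hup := by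
        intro j hj
        apply V.ex_le'
        have h1 := W_le_N p j
        have h2 : N p j ≤ k * X := hA.2.2 j (by omega)
        have h3 : 3 / 2 * (k * X) ≤ β ^ (2 : ℝ) * β ^ ξ := by
          rw [hβξ, Real.rpow_two]
          have : 3 / 2 * k ≤ β ^ 2 := by nlinarith
          nlinarith
        have h4 : β ^ (2 : ℝ) * β ^ ξ ≤ β ^ (ξ + 3) := by
          rw [← Real.rpow_add hβ0]
          exact V.mono (by linarith)
        linarith
      hθ0 := by positivity
      hθ := le_rfl }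
  have hxr : ∀ m, x (m + 2) + x m = fk k (x (m + 1)) := fun m => xorb_orb k a b (m + 1) m (by omega)
  have hyr : ∀ m, xorb k l s0 (m + 2) + xorb k l s0 m = fk k (xorb k l s0 (m + 1)) :=
    fun m => xorb_orb k l s0 (m + 1) m (by omega)
  have hzr : ∀ m, xorb k l s (m + 2) + xorb k l s m = fk k (xorb k l s (m + 1)) :=
    fun m => xorb_orb k l s (m + 1) m (by omega)
  have hNL := NL_fk hk0.le
  -- lower bound of the exponents after `n`
  have hun : ξ ≤ ex β p n := by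
    apply V.le_ex
    rw [hβξ]
    exact hS.big.trans (N_le_W p n)
  have hlow : ∀ j, n ≤ j → j ≤ n' - 1 → 99 / 100 * ξ - 1 / 5 ≤ ex β p j := by
    intro j h1 h2
    have := V.E.v2 n j h1 h2
    linarith
  have hyn : |xorb k l s0 n - x n| ≤ 3 / 2 * β ^ (-ξ) := by
    have h1 := hMt.box n (Finset.mem_Icc.mpr ⟨by omega, le_rfl⟩)
    refine h1.trans ?_
    apply mul_le_mul_of_nonneg_left _ (by norm_num)
    unfold lw
    have h2 : W (Core.qk (Core.dig k a b) n) n = 1 := by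
      unfold W nn
      rw [Core.qk_n, Core.qk_last]
      simp
    rw [h2, Real.rpow_neg hβ0.le, hβξ, ← one_div]
    exact one_div_le_one_div_of_le hX0 hS.pn1
  have hlate := V.late P hNL hxr hyr hn35 (by omega) hlow hMt.right hyn le_rfl
  have hyx : ∀ j, 1 ≤ j → j ≤ n' - 1 + 1 →
      |xorb k l s0 j - x j| ≤ dbox β (3 / 2) (β ^ (-(9 / 20 * ξ))) (n' - 1) p j - β ^ (-(9 / 20 * ξ)) / 2 := by
    intro j h1 h2
    have hθ0 : 0 < β ^ (-(9 / 20 * ξ)) := by positivity
    have hBj := B_pos hβ0 (ex β p) j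
    rcases Nat.lt_or_ge n j with h | h
    · have h3 := hlate j h.le h2
      unfold dbox
      split_ifs <;> linarith
    · have h3 := hMt.box j (Finset.mem_Icc.mpr ⟨h1, h⟩)
      have h4 : lw n p (Core.qk (Core.dig k a b) n) j ≤ B β (ex β p) j := by
        unfold B
        split_ifs with h5
        · exact hS.val.lamB.c j h5
        · exact hS.val.lamB.g j h
      unfold dbox
      rw [if_pos (by omega)]
      linarith
  -- the radius
  have hr : 2 * |xorb k l s 1 - xorb k l s0 1| * β ^ (ξ + 3) ≤ β ^ (-(9 / 20 * ξ)) / 2 := by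
    have e1 : xorb k l s 1 - xorb k l s0 1 = s - s0 := rfl
    rw [e1]
    have e2 : X ^ (-(3 / 2) : ℝ) = β ^ (-(3 / 2 * ξ)) := by
      rw [← hβξ, ← Real.rpow_mul hβ0.le]
      congr 1; ring
    rw [e2] at hs
    have h8 : (8 : ℝ) ≤ β ^ (1 : ℝ) := by rw [Real.rpow_one]; linarith
    have h1 : 2 * |s - s0| * β ^ (ξ + 3) ≤ 2 * (2 * β ^ (-(3 / 2 * ξ))) * β ^ (ξ + 3) := by gcongr
    have h2 : 8 * (β ^ (-(3 / 2 * ξ)) * β ^ (ξ + 3)) ≤ β ^ (-(9 / 20 * ξ)) := by
      calc 8 * (β ^ (-(3 / 2 * ξ)) * β ^ (ξ + 3))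
          ≤ β ^ (1 : ℝ) * (β ^ (-(3 / 2 * ξ)) * β ^ (ξ + 3)) :=
            mul_le_mul_of_nonneg_right h8 (by positivity)
        _ = β ^ (1 + (-(3 / 2 * ξ) + (ξ + 3))) := by
            rw [← Real.rpow_add hβ0, ← Real.rpow_add hβ0]
        _ ≤ _ := by
            apply V.mono
            linarith
    linarith
  obtain ⟨-, hzx⟩ := V.shadow P hNL hyr hzr (z := xorb k l s) rfl hr hyx
  have hfin := V.field_orb P (Vk_lip hk0.le) hzx
  intro m hm
  have hfm := hfin m (by omega)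
  have e : N (fund (fun j => Vk k (xorb k l s j)) 0) m = Lam0.nf k l s m := by
    unfold N Lam0.nf
    rw [pk_eq_fund, pk_eq_fund]
  rw [e] at hfm
  exact hfm

end Crest.Agent.R128.Shx
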