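import Crest.Agent.R128.AccRoot

/-!
# Row 128: closing without truncation height (helper909, note 15873)

Bootstrap in the length `N` of the root orbit and Chebyshev's sum inequality.
-/

set_option autoImplicit false
open MeasureTheory Filter Topology Finset
open Crest.AnalysisR.StandardFamily

namespace Crest.Agent.R128.BootN

open Crest.Agent.R128.Acc Crest.Agent.R128.AccRoot

/-- Chebyshev: `Σ (ρ (N - v) + e) (ρ v + e) ≤ (Σ (ρ v + e))² / (N + 1)` -/
theorem cheb {ρ : ℕ → ℝ} (hρ : Monotone ρ) (e : ℝ) (N : ℕ) :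
    ((N : ℝ) + 1) * ∑ v ∈ range (N + 1), (ρ (N - v) + e) * (ρ v + e) ≤
      (∑ v ∈ range (N + 1), (ρ v + e)) ^ 2 := by
  have h1 : AntivaryOn (fun v : ℕ => ρ (N - v) + e) (fun v : ℕ => ρ v + e) (range (N + 1)) := by
    intro i hi j hj hij
    simp only at hij ⊢
    have h2 : ρ i < ρ j := by linarith
    have h3 : i < j := by
      by_contra hc
      exact absurd (hρ (not_lt.mp hc)) (not_le.mpr h2)
    have h4 : ρ (N - j) ≤ ρ (N - i) := hρ (by omega)
    linarith
  have h2 := h1.card_mul_sum_le_sum_mul_sum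
  rw [card_range] at h2
  have h3 : ∑ v ∈ range (N + 1), (ρ (N - v) + e) = ∑ v ∈ range (N + 1), (ρ v + e) := by
    have := Finset.sum_range_reflect (fun v => ρ v + e) (N + 1)
    rw [← this]
    refine Finset.sum_congr rfl fun v hv => ?_
    rw [show N + 1 - 1 - v = N - v by omega]
  rw [h3] at h2
  push_cast at h2
  rw [sq]
  exact h2

/-- abstract closing -/
theorem closing {I : ℕ → ℝ} {C e k : ℝ} (hC : 1 ≤ C) (he : 0 < e) (hk : 0 < k)
    (hI3 : ∀ N, I (N + 1) ≤ I N + 3)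
    (hIs : ∀ N, I N ≤ (2 * N + 1) * N * (2 / k))
    (h1 : 13 ≤ C ^ 2 * e ^ 2 * k) (h2 : 72 * C ^ 4 * e ≤ 1)
    {ρ : ℕ → ℕ → ℝ} (hρ : ∀ N, Monotone (ρ N)) (hρ0 : ∀ N n, 0 ≤ ρ N n)
    (H1 : ∀ N, I N ≤ C * (N + 1) * e +
      C * ∑ v ∈ range (N + 1), (ρ N (N - v) + e) * (ρ N v + e))
    (H2 : ∀ N, ∑ v ∈ range (N + 1), ρ N v ≤ C * (I N + (N + 1) * e)) (N : ℕ) :
    I N ≤ 2 * C * e * (N + 1) := by
  have hC0 : 0 < C := by linarith
  -- the closing inequality at one `N`
  have key : ∀ N, I N ≤ 2 * C * e * (N + 1) → I N ≤ 3 / 2 * C * e * (N + 1) := by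
    intro N hN
    have hN1 : (0 : ℝ) < (N : ℝ) + 1 := by positivity
    set S := ∑ v ∈ range (N + 1), (ρ N v + e) with hS
    have hS0 : 0 ≤ S := Finset.sum_nonneg fun v _ => add_nonneg (hρ0 N v) he.le
    have hS1 : S ≤ 6 * C ^ 2 * e * (N + 1) := by
      have h3 : S = ∑ v ∈ range (N + 1), ρ N v + (N + 1) * e := by
        rw [hS, Finset.sum_add_distrib]
        simp
      rw [h3]
      have h4 := H2 N
      have h5 : C * (I N + (N + 1) * e) ≤ C * (2 * C * e * (N + 1) + (N + 1) * e) := by gcongr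
      have h6 : C * (2 * C * e * (N + 1) + (N + 1) * e) + (N + 1) * e =
          (2 * C ^ 2 + C + 1) * (e * (N + 1)) := by ring
      have h7 : (2 * C ^ 2 + C + 1) * (e * (N + 1)) ≤ (6 * C ^ 2) * (e * (N + 1)) := by
        apply mul_le_mul_of_nonneg_right _ (by positivity)
        nlinarith
      calc _ ≤ (2 * C ^ 2 + C + 1) * (e * (N + 1)) := by linarith
        _ ≤ (6 * C ^ 2) * (e * (N + 1)) := h7
        _ = _ := by ring
    have h3 := cheb (hρ N) e N
    have h4 : ∑ v ∈ range (N + 1), (ρ N (N - v) + e) * (ρ N v + e) ≤ 36 * C ^ 4 * e ^ 2 * (N + 1) := by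
      have h5 : S ^ 2 ≤ (6 * C ^ 2 * e * (N + 1)) ^ 2 := by gcongr
      have h6 : ((N : ℝ) + 1) * ∑ v ∈ range (N + 1), (ρ N (N - v) + e) * (ρ N v + e) ≤
          (N + 1) * (36 * C ^ 4 * e ^ 2 * (N + 1)) := by
        calc _ ≤ S ^ 2 := h3
          _ ≤ (6 * C ^ 2 * e * (N + 1)) ^ 2 := h5
          _ = _ := by ring
      exact le_of_mul_le_mul_left h6 hN1
    have h5 := H1 N
    have h6 : C * ∑ v ∈ range (N + 1), (ρ N (N - v) + e) * (ρ N v + e) ≤
        C * (36 * C ^ 4 * e ^ 2 * (N + 1)) := by gcongr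
    have h7 : C * (36 * C ^ 4 * e ^ 2 * (N + 1)) = (1 / 2) * (72 * C ^ 4 * e) * (C * e * (N + 1)) := by
      ring
    have h8 : (1 / 2) * (72 * C ^ 4 * e) * (C * e * (N + 1)) ≤ (1 / 2) * 1 * (C * e * (N + 1)) := by
      gcongr
    linarith
  induction N with
  | zero =>
    have h := hIs 0
    simp only [Nat.cast_zero, mul_zero, zero_mul, zero_add] at h
    have : 0 ≤ 2 * C * e * ((0 : ℕ) + 1 : ℝ) := by positivity
    linarith
  | succ N ih =>
    rcases le_or_gt (6 : ℝ) (C * e * (N + 2)) with h | h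
    · have h3 := key N ih
      have h4 := hI3 N
      push_cast
      nlinarith [h3, h4, h]
    · -- small lengths
      have h3 := hIs (N + 1)
      push_cast at h3 ⊢
      have hN0 : (0 : ℝ) ≤ N := Nat.cast_nonneg N
      -- (2 (N+1) + 1) (N+1) (2/k) ≤ 2 C e (N+2)
      have h4 : (2 * ((N : ℝ) + 1) + 1) * (N + 1) * (2 / k) ≤ 2 * (N + 2) * (N + 2) * (2 / k) := by
        have : (2 * ((N : ℝ) + 1) + 1) * (N + 1) ≤ 2 * (N + 2) * (N + 2) := by nlinarith
        exact mul_le_mul_of_nonneg_right this (by positivity)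
      have h5 : (2 * ((N : ℝ) + 2) * (N + 2) * (2 / k)) ≤ 2 * C * e * (N + 2) := by
        rw [show 2 * ((N : ℝ) + 2) * (N + 2) * (2 / k) = (4 * (N + 2) / k) * (N + 2) by ring]
        apply mul_le_mul_of_nonneg_right _ (by positivity)
        rw [div_le_iff₀ hk]
        -- 4 (N+2) ≤ 2 C e k
        have h6 : C * e * (4 * (N + 2)) ≤ C * e * (2 * C * e * k) := by nlinarith
        exact le_of_mul_le_mul_left h6 (by positivity)
      have h6 : (2 : ℝ) * C * e * (N + 2) = 2 * C * e * (N + 1 + 1) := by ring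
      linarith

open Classical in
/-- without a near critical digit there is no descent -/
theorem cross_le_card {k : ℝ} (hk : 1 < k) (hk2 : Real.log (3 + 2 * Real.pi * k) ≤ 2 * Real.log k)
    (N : ℕ) (z : Tor) :
    (cross k N z : ℝ) ≤ (2 * N + 1) * #{t ∈ range N | |V k ((T k)^[t] z).2| ≤ 2} := by
  have hl : 0 < Real.log k := Real.log_pos hk
  have hR : ∀ t, t < N → bt (rr k z) t ≤ (2 * N + 1 : ℕ) * Real.log k := by
    intro t ht
    have h1 := bt_le_mul (by linarith : 0 ≤ k) z t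
    have h2 : (t : ℝ) ≤ N := by exact_mod_cast ht.le
    have h3 : (t : ℝ) * Real.log (3 + 2 * Real.pi * k) ≤ N * (2 * Real.log k) :=
      mul_le_mul h2 hk2 (by
        apply Real.log_nonneg
        have : 0 ≤ 2 * Real.pi * k := by positivity
        linarith) (Nat.cast_nonneg _)
    push_cast
    nlinarith
  have h1 := crossings_le hl (by
    unfold bt
    rw [rr_zero, rr_one]
    simp) N (2 * N + 1) hR
  have h2 : ∀ r ∈ range (2 * N + 1), #{t ∈ range N | Top (bt (rr k z)) (Real.log k) N t r} ≤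
      #{t ∈ range N | |V k ((T k)^[t] z).2| ≤ 2} := by
    intro r _
    apply Finset.card_le_card
    intro t ht
    rw [Finset.mem_filter] at ht ⊢
    refine ⟨ht.1, ?_⟩
    have := top_zero (V := dg k z) (rr_pos k z) (rr_h1 k z) ht.2
    exact this.le
  have h3 := Finset.sum_le_sum h2
  rw [Finset.sum_const, card_range, smul_eq_mul] at h3
  have h4 : cross k N z ≤ (2 * N + 1) * #{t ∈ range N | |V k ((T k)^[t] z).2| ≤ 2} := by
    unfold cross
    exact h1.trans h3
  exact_mod_cast h4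

theorem cross_succ_le {k : ℝ} (hk : 1 < k) (hk2 : Real.log (3 + 2 * Real.pi * k) ≤ 2 * Real.log k)
    (N : ℕ) (z : Tor) : (cross k (N + 1) z : ℝ) ≤ cross k N z + 3 := by
  have hl : 0 < Real.log k := Real.log_pos hk
  have h1 : cross k (N + 1) z = cross k N z +
      (⌈bt (rr k z) N / Real.log k⌉₊ - ⌈bt (rr k z) (N + 1) / Real.log k⌉₊) := by
    unfold cross
    rw [Finset.sum_range_succ]
  have h2 : bt (rr k z) N - bt (rr k z) (N + 1) ≤ Real.log (3 + 2 * Real.pi * k) := by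
    have := bt_le_succ (ρ := rr k z) (V := dg k z) (L := Real.log (3 + 2 * Real.pi * k))
      (fun n => abs_nonneg _) (rr_pos k z) (rr_h3 k z)
      (fun n => Real.log_le_log (by have := abs_nonneg (V k ((T k)^[n] z).2); unfold dg; linarith)
        (by linarith [dg_le k (by linarith) z n])) N
    linarith
  have h3 : ⌈bt (rr k z) N / Real.log k⌉₊ ≤ ⌈bt (rr k z) (N + 1) / Real.log k⌉₊ + 2 := by
    rw [Nat.ceil_le]
    push_cast
    have h4 := Nat.le_ceil (bt (rr k z) (N + 1) / Real.log k)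
    have h5 : bt (rr k z) N / Real.log k ≤ bt (rr k z) (N + 1) / Real.log k + 2 := by
      rw [div_add' _ _ _ hl.ne']
      apply div_le_div_of_nonneg_right _ hl.le
      linarith
    linarith
  rw [h1]
  push_cast
  have h4 : (⌈bt (rr k z) N / Real.log k⌉₊ - ⌈bt (rr k z) (N + 1) / Real.log k⌉₊) ≤ 3 := by omega
  have h5 : ((⌈bt (rr k z) N / Real.log k⌉₊ - ⌈bt (rr k z) (N + 1) / Real.log k⌉₊ : ℕ) : ℝ) ≤ 3 := by
    exact_mod_cast h4
  linarith

/-- `I N = ∫ cross` -/
noncomputable def I (k : ℝ) (N : ℕ) : ℝ := ∫ z : Tor, (cross k N z : ℝ)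

theorem I_nonneg (k : ℝ) (N : ℕ) : 0 ≤ I k N := integral_nonneg fun _ => Nat.cast_nonneg _

theorem I_succ_le {k : ℝ} (hk : 1 < k) (hk2 : Real.log (3 + 2 * Real.pi * k) ≤ 2 * Real.log k)
    (N : ℕ) : I k (N + 1) ≤ I k N + 3 := by
  unfold I
  calc ∫ z : Tor, (cross k (N + 1) z : ℝ) ≤ ∫ z : Tor, ((cross k N z : ℝ) + 3) := by
        apply integral_mono (integrable_cross hk _) ((integrable_cross hk _).add (integrable_const _))
        intro z
        exact cross_succ_le hk hk2 N z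
    _ = _ := by
        rw [integral_add (integrable_cross hk _) (integrable_const _)]
        simp

open Classical in
theorem I_small {k : ℝ} (hk : 1 < k) (hk2 : Real.log (3 + 2 * Real.pi * k) ≤ 2 * Real.log k)
    (N : ℕ) : I k N ≤ (2 * N + 1) * N * (2 / k) := by
  have hS : MeasurableSet {z : Tor | |V k z.2| ≤ 2} :=
    measurableSet_le (((continuous_V k).comp continuous_snd).abs.measurable) measurable_const
  have hint : Integrable (fun z : Tor => {z : Tor | |V k z.2| ≤ 2}.indicator (fun _ => (1 : ℝ)) z)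
      volume := (integrable_const 1).indicator hS
  have h1 : ∀ z : Tor, (cross k N z : ℝ) ≤
      (2 * N + 1) * ∑ t ∈ range N, {z : Tor | |V k z.2| ≤ 2}.indicator (fun _ => (1 : ℝ)) ((T k)^[t] z) := by
    intro z
    refine (cross_le_card hk hk2 N z).trans (le_of_eq ?_)
    congr 1
    rw [Finset.card_filter]
    push_cast
    refine Finset.sum_congr rfl fun t _ => ?_
    simp [Set.indicator_apply]
  unfold I
  calc ∫ z : Tor, (cross k N z : ℝ) ≤ ∫ z : Tor, (2 * N + 1) *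
        ∑ t ∈ range N, {z : Tor | |V k z.2| ≤ 2}.indicator (fun _ => (1 : ℝ)) ((T k)^[t] z) := by
        apply integral_mono (integrable_cross hk _)
        · exact (integrable_finsetSum _ fun t _ => integrable_comp_iter t hint).const_mul _
        · exact h1
    _ = (2 * N + 1) * ∑ t ∈ range N, ∫ z : Tor,
        {z : Tor | |V k z.2| ≤ 2}.indicator (fun _ => (1 : ℝ)) ((T k)^[t] z) := by
        rw [integral_const_mul, integral_finsetSum]
        exact fun t _ => integrable_comp_iter t hint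
    _ = (2 * N + 1) * ∑ t ∈ range N, (volume : Measure Tor).real {z | |V k z.2| ≤ 2} := by
        congr 1
        refine Finset.sum_congr rfl fun t _ => ?_
        rw [integral_comp_iter t hint.aestronglyMeasurable, integral_indicator_const _ hS]
        simp
    _ ≤ (2 * N + 1) * ∑ t ∈ range N, (2 / k) := by
        gcongr
        exact volumeReal_V_le hk.le (by norm_num)
    _ = _ := by
        rw [Finset.sum_const, card_range, nsmul_eq_mul]
        ring

/-- **Closing** (V6): the two inequalities at every length `N` imply the statement. -/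
theorem result_of_closing
    (H : ∃ C : ℝ, 1 ≤ C ∧ ∃ k₁ : ℝ, ∀ k : ℝ, k₁ ≤ k → ∃ e : ℝ, 0 < e ∧ 13 ≤ e ^ 2 * k ∧
      72 * C ^ 4 * e ≤ 1 ∧ ∃ ρ : ℕ → ℕ → ℝ, (∀ N, Monotone (ρ N)) ∧ (∀ N n, 0 ≤ ρ N n) ∧
      (∀ N : ℕ, (∫ z : Tor, (cross k N z : ℝ)) ≤ C * (N + 1) * e +
        C * ∑ v ∈ range (N + 1), (ρ N (N - v) + e) * (ρ N v + e)) ∧
      (∀ N : ℕ, ∑ v ∈ range (N + 1), ρ N v ≤
        C * ((∫ z : Tor, (cross k N z : ℝ)) + (N + 1) * e))) :
    ∃ k₀ : ℝ, 0 < k₀ ∧ ∀ k : ℝ, k₀ ≤ k →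
      0 < MeasureTheory.volume ({p : ℝ × ℝ | ∃ c : ℝ, 0 < c ∧
          ∃ᶠ n : ℕ in Filter.atTop, c * n ≤ Real.log ‖fderiv ℝ (standardMapLift k)^[n] p‖} ∩
        Set.Ico (0 : ℝ) 1 ×ˢ Set.Ico (0 : ℝ) 1) := by
  apply result_of_cross
  obtain ⟨C, hC, k₁, H⟩ := H
  refine ⟨max k₁ 10, fun k hk => ?_⟩
  have hk1 : k₁ ≤ k := (le_max_left _ _).trans hk
  have hk10 : (10 : ℝ) ≤ k := (le_max_right _ _).trans hk
  have hk' : 1 < k := by linarith
  obtain ⟨e, he, h1, h2, ρ, hρ, hρ0, H1, H2⟩ := H k hk1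
  have hk2 : Real.log (3 + 2 * Real.pi * k) ≤ 2 * Real.log k := by
    rw [← Real.log_rpow (by linarith)]
    apply Real.log_le_log (by positivity)
    rw [show (k : ℝ) ^ (2 : ℝ) = k ^ 2 by norm_cast]
    have := Real.pi_lt_d2
    nlinarith
  have hC2 : 1 ≤ C ^ 2 := by nlinarith
  have hC4 : C ≤ C ^ 4 := by
    have : 1 ≤ C ^ 3 := one_le_pow₀ hC
    nlinarith
  apply Filter.Eventually.frequently
  filter_upwards [eventually_ge_atTop 1] with N hN
  have h3 := closing (I := I k) hC he (by linarith : 0 < k) (I_succ_le hk' hk2)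
    (I_small hk' hk2) (by nlinarith [mul_nonneg (sq_nonneg e) (by linarith : (0:ℝ) ≤ k)]) h2
    hρ hρ0 H1 H2 N
  have hN1 : (1 : ℝ) ≤ N := by exact_mod_cast hN
  have h4 : 2 * C * e * (N + 1) ≤ N / 4 := by
    have h5 : 72 * C * e ≤ 1 := by nlinarith
    nlinarith
  exact h3.trans h4

end Crest.Agent.R128.BootN
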