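import Mathlib
import Crest.Agent.R128.AccSeq

/-!
# Row 128, V6 (helper744): closed integer components of a contour, sequence part
-/

set_option autoImplicit false
open Finset

namespace Crest.Agent.R128.Close

open Crest.Agent.R128.Acc

/-- `(i, j)` is a closed component of `{β > l κ}`, `t` is its first top -/
structure Cmp (β : ℕ → ℝ) (κ : ℝ) (N i t j l : ℕ) : Prop where
  it : i < t
  tj : t < j
  jN : j ≤ N
  left : β i ≤ l * κ
  right : β j ≤ l * κ
  above : ∀ m, i < m → m < j → l * κ < β m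
  top : ∀ m, i < m → m < j → β m ≤ β t
  first : ∀ m, i < m → m < t → β m < β t

/-- `t` is the first top of a closed component of `{β > l κ}` -/
def Comp (β : ℕ → ℝ) (κ : ℝ) (N t l : ℕ) : Prop := ∃ i j, Cmp β κ N i t j l

variable {β : ℕ → ℝ} {κ : ℝ} {N i t j l : ℕ}

theorem Cmp.lt_top (h : Cmp β κ N i t j l) : l * κ < β t := h.above t h.it h.tj

theorem Cmp.unique (h : Cmp β κ N i t j l) {i' j' : ℕ} (h' : Cmp β κ N i' t j' l) :
    i = i' ∧ j = j' := by
  constructor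
  · by_contra hc
    rcases Nat.lt_or_gt_of_ne hc with h1 | h1
    · exact absurd (h.above i' h1 (h'.it.trans h.tj)) (not_lt.mpr h'.left)
    · exact absurd (h'.above i h1 (h.it.trans h'.tj)) (not_lt.mpr h.left)
  · by_contra hc
    rcases Nat.lt_or_gt_of_ne hc with h1 | h1
    · exact absurd (h'.above j (h'.it.trans h.tj) h1) (not_lt.mpr h.right)
    · exact absurd (h.above j' (h.it.trans h'.tj) h1) (not_lt.mpr h'.right)

/-- higher levels of the same top -/
theorem Cmp.up (h : Cmp β κ N i t j l) (hκ : 0 ≤ κ) {l' : ℕ} (hl : l ≤ l') (ht : l' * κ < β t) :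
    ∃ i' j', i ≤ i' ∧ j' ≤ j ∧ Cmp β κ N i' t j' l' := by
  classical
  have hll : (l : ℝ) * κ ≤ l' * κ := mul_le_mul_of_nonneg_right (by exact_mod_cast hl) hκ
  obtain ⟨t', rfl⟩ : ∃ t', t = t' + 1 := ⟨t - 1, by have := h.it; omega⟩
  set i' := Nat.findGreatest (fun a => β a ≤ l' * κ) t' with hi'
  have hPi : β i ≤ l' * κ := h.left.trans hll
  have hit : i ≤ t' := by have := h.it; omega
  have h1 : β i' ≤ l' * κ := Nat.findGreatest_spec (P := fun a => β a ≤ l' * κ) hit hPi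
  have h2 : i ≤ i' := Nat.le_findGreatest hit hPi
  have h3 : i' ≤ t' := Nat.findGreatest_le t'
  have h4 : ∀ m, i' < m → m ≤ t' → l' * κ < β m := fun m hm hmn =>
    not_le.mp (Nat.findGreatest_is_greatest (P := fun a => β a ≤ l' * κ) hm hmn)
  have hex : ∃ b, t' + 1 < b ∧ β b ≤ l' * κ := ⟨j, h.tj, h.right.trans hll⟩
  set j' := Nat.find hex with hj'
  obtain ⟨h5, h6⟩ := Nat.find_spec hex
  have h7 : j' ≤ j := Nat.find_min' hex ⟨h.tj, h.right.trans hll⟩
  refine ⟨i', j', h2, h7, by omega, h5, h7.trans h.jN, h1, h6, ?_, ?_, ?_⟩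
  · intro m hm1 hm2
    rcases Nat.lt_trichotomy m (t' + 1) with h8 | h8 | h8
    · exact h4 m hm1 (by omega)
    · rw [h8]; exact ht
    · by_contra hc
      push Not at hc
      exact Nat.find_min hex hm2 ⟨h8, hc⟩
  · exact fun m hm1 hm2 => h.top m (by omega) (by omega)
  · exact fun m hm1 hm2 => h.first m (by omega) hm2

theorem Comp.up (h : Comp β κ N t l) (hκ : 0 ≤ κ) {l' : ℕ} (hl : l ≤ l') (ht : l' * κ < β t) :
    Comp β κ N t l' := by
  obtain ⟨i, j, h⟩ := h
  obtain ⟨i', j', -, -, h'⟩ := h.up hκ hl ht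
  exact ⟨i', j', h'⟩

theorem Comp.lt_ceil (h : Comp β κ N t l) (hκ : 0 < κ) : l < ⌈β t / κ⌉₊ := by
  obtain ⟨i, j, h⟩ := h
  rw [Nat.lt_ceil, lt_div_iff₀ hκ]
  exact h.lt_top

theorem Comp.lt_N (h : Comp β κ N t l) : t < N := by
  obtain ⟨i, j, h⟩ := h
  exact h.tj.trans_le h.jN

open Classical in
/-- number of the levels of the top `t` -/
noncomputable def mt (β : ℕ → ℝ) (κ : ℝ) (N t : ℕ) : ℕ :=
  #{l ∈ range ⌈β t / κ⌉₊ | Comp β κ N t l}

theorem mt_le : mt β κ N t ≤ ⌈β t / κ⌉₊ := by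
  classical
  unfold mt
  exact (card_filter_le _ _).trans (by rw [card_range])

/-- the levels of `t` are the `mt` highest integers below `β t / κ` -/
theorem comp_iff (hκ : 0 < κ) (hl : l < ⌈β t / κ⌉₊) :
    Comp β κ N t l ↔ ⌈β t / κ⌉₊ - l ≤ mt β κ N t := by
  classical
  set c := ⌈β t / κ⌉₊ with hc
  have hup : ∀ l l', l ≤ l' → l' < c → Comp β κ N t l → Comp β κ N t l' := by
    intro l l' h1 h2 h3
    refine h3.up hκ.le h1 ?_
    rw [← lt_div_iff₀ hκ]
    exact Nat.lt_ceil.mp h2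
  constructor
  · intro h
    have hsub : Ico l c ⊆ {l ∈ range c | Comp β κ N t l} := by
      intro x hx
      rw [mem_Ico] at hx
      rw [mem_filter, mem_range]
      exact ⟨hx.2, hup l x hx.1 hx.2 h⟩
    have := card_le_card hsub
    rw [Nat.card_Ico] at this
    exact this
  · intro h
    by_contra hn
    have hsub : {l ∈ range c | Comp β κ N t l} ⊆ Ico (l + 1) c := by
      intro x hx
      rw [mem_filter, mem_range] at hx
      rw [mem_Ico]
      refine ⟨?_, hx.1⟩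
      by_contra hc'
      exact hn (hup x l (by omega) hl hx.2)
    have h5 := card_le_card hsub
    rw [Nat.card_Ico] at h5
    have h6 : mt β κ N t ≤ c - (l + 1) := by
      unfold mt
      convert h5
    omega

theorem comp_sub (hκ : 0 < κ) {r : ℕ} (h1 : 1 ≤ r) (h2 : r ≤ mt β κ N t) :
    Comp β κ N t (⌈β t / κ⌉₊ - r) := by
  have h3 : mt β κ N t ≤ ⌈β t / κ⌉₊ := mt_le
  rw [comp_iff hκ (by omega)]
  omega

theorem comp_of_mt_pos (h : mt β κ N t ≠ 0) : ∃ l, Comp β κ N t l := by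
  classical
  unfold mt at h
  obtain ⟨l, hl⟩ := card_ne_zero.mp h
  exact ⟨l, (mem_filter.mp hl).2⟩

theorem Comp.Top (h : Comp β κ N t l) : Top β κ N t 0 := by
  obtain ⟨i, j, h⟩ := h
  refine ⟨i, j, h.it, h.tj, h.jN, ?_, ?_, ?_, ?_⟩
  · simp only [Nat.cast_zero, zero_mul, sub_zero]
    exact h.left.trans h.lt_top.le
  · simp only [Nat.cast_zero, zero_mul, sub_zero]
    exact h.right.trans h.lt_top.le
  · intro m h1 h2
    rcases h1.eq_or_lt with h3 | h3
    · rw [← h3]; exact h.left.trans h.lt_top.le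
    · rcases h2.eq_or_lt with h4 | h4
      · rw [h4]; exact h.right.trans h.lt_top.le
      · exact h.top m h3 h4
  · have := h.it
    rcases Nat.lt_or_ge i (t - 1) with h3 | h3
    · exact h.first _ h3 (by omega)
    · have : t - 1 = i := by omega
      rw [this]
      exact h.left.trans_lt h.lt_top

open Classical in
/-- every down-crossing of an integer level closes a component -/
theorem cross_le_sum_mt (hκ : 0 < κ) (h0 : β 0 = 0) (N : ℕ) :
    ∑ n ∈ range N, (⌈β n / κ⌉₊ - ⌈β (n + 1) / κ⌉₊) ≤ ∑ t ∈ range N, mt β κ N t := by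
  have key : ∀ p : Σ _ : ℕ, ℕ, p ∈ (range N).sigma
      (fun n => Finset.Ico ⌈β (n + 1) / κ⌉₊ ⌈β n / κ⌉₊) →
      ∃ a t, Cmp β κ N a t (p.1 + 1) p.2 := by
    rintro ⟨n, l⟩ hp
    rw [mem_sigma, mem_range, mem_Ico] at hp
    obtain ⟨hn, h1, h2⟩ := hp
    simp only at hn h1 h2 ⊢
    have h1' : β (n + 1) ≤ l * κ := by
      rw [← div_le_iff₀ hκ]
      exact Nat.ceil_le.mp h1
    have h2' : l * κ < β n := by
      rw [← lt_div_iff₀ hκ]
      exact Nat.lt_ceil.mp h2
    obtain ⟨a, t, h3, h4, h5, h6, h7, h8⟩ := exists_top hκ h0 h1' h2'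
    -- the first top
    have hex : ∃ s, a < s ∧ s ≤ n ∧ ∀ m, a < m → m ≤ n → β m ≤ β s :=
      ⟨t, h3, h4, fun m hm1 hm2 => h7 m hm1.le (by omega)⟩
    obtain ⟨g1, g2, g3⟩ := Nat.find_spec hex
    refine ⟨a, Nat.find hex, ⟨g1, by omega, by omega, h5, h1', fun m hm1 hm2 => h6 m hm1 (by omega),
      fun m hm1 hm2 => g3 m hm1 (by omega), fun m hm1 hm2 => ?_⟩⟩
    by_contra hc
    push Not at hc
    exact Nat.find_min hex hm2 ⟨hm1, by omega, fun m' hm3 hm4 => (g3 m' hm3 hm4).trans hc⟩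
  choose! a t hC using key
  have hcard : ∑ n ∈ range N, (⌈β n / κ⌉₊ - ⌈β (n + 1) / κ⌉₊) =
      #((range N).sigma (fun n => Finset.Ico ⌈β (n + 1) / κ⌉₊ ⌈β n / κ⌉₊)) := by
    rw [card_sigma]
    refine Finset.sum_congr rfl fun n _ => ?_
    rw [Nat.card_Ico]
  have hcard2 : ∑ t ∈ range N, mt β κ N t =
      #((range N).sigma (fun t => {l ∈ range ⌈β t / κ⌉₊ | Comp β κ N t l})) := by
    rw [card_sigma]
    rfl
  rw [hcard, hcard2]
  refine card_le_card_of_injOn (fun p => ⟨t p, p.2⟩) ?_ ?_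
  · intro p hp
    have h := hC p hp
    rw [Finset.mem_coe, mem_sigma, mem_range, mem_filter, mem_range]
    exact ⟨Comp.lt_N ⟨_, _, h⟩, Comp.lt_ceil ⟨_, _, h⟩ hκ, ⟨_, _, h⟩⟩
  · intro p hp q hq he
    have h1 := hC p hp
    have h2 := hC q hq
    simp only [Sigma.mk.injEq, heq_eq_eq] at he
    obtain ⟨e1, e2⟩ := he
    rw [e1, e2] at h1
    obtain ⟨-, e3⟩ := h1.unique h2
    obtain ⟨p1, p2⟩ := p
    obtain ⟨q1, q2⟩ := q
    simp only at e2 e3
    have : p1 = q1 := by omega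
    rw [this, e2]

end Crest.Agent.R128.Close
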