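import Mathlib

set_option autoImplicit false

/-!
Row 128, MASTER v2, node V6 (closing).  Written by helper430.  Mathlib only.

* `block_le` : pointwise block decomposition of `min h H` (blocks `[Q, 16 Q)`, `Q = 16 ^ i * Q0`).
* `close_pt`, `close_int` : the sum over the tops of one orbit, and its integral.
* `boot2`, `boot2_all` : the dyadic bootstrap `x (2 H) ≤ 2 x H`, `x H ≤ a + b (a + x (2 ^ m H)) ^ 2`.
-/

open MeasureTheory Finset
open scoped ENNReal BigOperators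

namespace Crest.Agent.R128.CloseV2

open Classical in
/-- the block `[Q, 16 Q)`, `Q = 16 ^ i * Q0`, has fewer than `Q` non-fresh depths -/
def FB (nf : ℕ → Prop) (Q0 i : ℕ) : Prop :=
  ((Ico (16 ^ i * Q0) (16 ^ (i + 1) * Q0)).filter nf).card < 16 ^ i * Q0

open Classical in
/-- pointwise block decomposition -/
theorem block_le {h Q0 : ℕ} (hQ0 : 1 ≤ Q0) (nf : ℕ → Prop) (I : ℕ) (hI : h < 16 ^ (I + 1) * Q0) :
    h ≤ 16 * Q0 + 256 * (∑ i ∈ range I,
        if 16 ^ (i + 1) * Q0 ≤ h ∧ FB nf Q0 i then 16 ^ i * Q0 else 0) +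
      256 * ((Ico Q0 h).filter nf).card := by
  induction I with
  | zero =>
    simp only [zero_add, pow_one] at hI
    omega
  | succ I ih =>
    rw [Finset.sum_range_succ]
    rcases lt_or_ge h (16 ^ (I + 1) * Q0) with h1 | h1
    · have := ih h1
      nlinarith [Nat.zero_le (if 16 ^ (I + 1) * Q0 ≤ h ∧ FB nf Q0 I then 16 ^ I * Q0 else 0)]
    · have e : 16 ^ (I + 1 + 1) * Q0 = 256 * (16 ^ I * Q0) := by ring
      rw [e] at hI
      by_cases hf : FB nf Q0 I
      · rw [if_pos ⟨h1, hf⟩]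
        have := Nat.zero_le (∑ i ∈ range I,
          if 16 ^ (i + 1) * Q0 ≤ h ∧ FB nf Q0 i then 16 ^ i * Q0 else 0)
        nlinarith [Nat.zero_le ((Ico Q0 h).filter nf).card]
      · unfold FB at hf
        push Not at hf
        have hsub : (Ico (16 ^ I * Q0) (16 ^ (I + 1) * Q0)).filter nf ⊆ (Ico Q0 h).filter nf := by
          apply Finset.filter_subset_filter
          apply Finset.Ico_subset_Ico
          · have : 1 ≤ 16 ^ I := Nat.one_le_pow _ _ (by norm_num)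
            nlinarith
          · exact h1
        have hc := hf.trans (Finset.card_le_card hsub)
        have := Nat.zero_le (∑ i ∈ range (I + 1),
          if 16 ^ (i + 1) * Q0 ≤ h ∧ FB nf Q0 i then 16 ^ i * Q0 else 0)
        have h3 := Nat.zero_le (∑ i ∈ range I,
          if 16 ^ (i + 1) * Q0 ≤ h ∧ FB nf Q0 i then 16 ^ i * Q0 else 0)
        nlinarith [Nat.zero_le (if 16 ^ (I + 1) * Q0 ≤ h ∧ FB nf Q0 I then 16 ^ I * Q0 else 0)]

variable {Ω : Type*} [MeasurableSpace Ω] {μ : Measure Ω}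

/-- visits of `R` during `[0, N)` -/
noncomputable def vis (e : Ω → Ω) (R : Set Ω) (N : ℕ) (z : Ω) : ℝ≥0∞ :=
  ∑ n ∈ range N, R.indicator (fun _ => (1 : ℝ≥0∞)) (e^[n] z)

theorem lintegral_vis {e : Ω → Ω} (he : MeasurePreserving e μ μ) {R : Set Ω} (hR : MeasurableSet R)
    (N : ℕ) : ∫⁻ z, vis e R N z ∂μ = N * μ R := by
  unfold vis
  rw [lintegral_finsetSum]
  · have : ∀ n ∈ range N, ∫⁻ z, R.indicator (fun _ => (1 : ℝ≥0∞)) (e^[n] z) ∂μ = μ R := by
      intro n _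
      have h1 := (he.iterate n).lintegral_comp (f := R.indicator (fun _ => (1 : ℝ≥0∞)))
        (measurable_const.indicator hR)
      rw [h1, lintegral_indicator_const hR, one_mul]
    rw [Finset.sum_congr rfl this, Finset.sum_const, card_range, nsmul_eq_mul]
  · intro n _
    exact (measurable_const.indicator hR).comp (he.iterate n).measurable

theorem measurable_vis {e : Ω → Ω} (he : Measurable e) {R : Set Ω} (hR : MeasurableSet R)
    (N : ℕ) : Measurable (vis e R N) := by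
  unfold vis
  refine Finset.measurable_sum _ fun n _ => ?_
  exact (measurable_const.indicator hR).comp (he.iterate n)

omit [MeasurableSpace Ω] in
/-- number of elements of a subset of `range N` all of which visit `R` -/
theorem card_le_vis {e : Ω → Ω} {R : Set Ω} {N : ℕ} {z : Ω} {S : Finset ℕ} (hS : S ⊆ range N)
    (hv : ∀ t ∈ S, e^[t] z ∈ R) : (S.card : ℝ≥0∞) ≤ vis e R N z := by
  unfold vis
  calc (S.card : ℝ≥0∞) = ∑ t ∈ S, (1 : ℝ≥0∞) := by simp
    _ = ∑ t ∈ S, R.indicator (fun _ => (1 : ℝ≥0∞)) (e^[t] z) := by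
        refine Finset.sum_congr rfl fun t ht => ?_
        rw [Set.indicator_of_mem (hv t ht)]
    _ ≤ _ := Finset.sum_le_sum_of_subset hS

omit [MeasurableSpace Ω] in
open Classical in
/-- **Closing, pointwise.**  `tops` = tops of one orbit, `h t` = number of closed depths of the top `t`
(already truncated at `H` if wanted), `nf t r` = the depth `r` of the top `t` is not fresh. -/
theorem close_pt {e : Ω → Ω} {z : Ω} {N Q0 I : ℕ} (hQ0 : 1 ≤ Q0) {tops : Finset ℕ} {h : ℕ → ℕ}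
    {nf : ℕ → ℕ → Prop} {crit bad : Set Ω} {A : ℕ → Set Ω} {C1 : ℝ≥0∞} {N' : ℕ}
    (hI : ∀ t ∈ tops, h t < 16 ^ (I + 1) * Q0)
    (htops : tops ⊆ range N) (hcrit : ∀ t ∈ tops, e^[t] z ∈ crit)
    (hA : ∀ t ∈ tops, ∀ i < I, 16 ^ (i + 1) * Q0 ≤ h t → FB (nf t) Q0 i → e^[t] z ∈ A i)
    (hbad : ((∑ t ∈ tops, ((Ico Q0 (h t)).filter (nf t)).card : ℕ) : ℝ≥0∞) ≤ C1 * vis e bad N' z) :
    ((∑ t ∈ tops, h t : ℕ) : ℝ≥0∞) ≤ 16 * Q0 * vis e crit N z +
      256 * (∑ i ∈ range I, (16 ^ i * Q0) * vis e (A i) N z) + 256 * (C1 * vis e bad N' z) := by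
  have h1 : (∑ t ∈ tops, h t) ≤ 16 * Q0 * tops.card +
      256 * (∑ i ∈ range I, (16 ^ i * Q0) *
        (tops.filter (fun t => 16 ^ (i + 1) * Q0 ≤ h t ∧ FB (nf t) Q0 i)).card) +
      256 * (∑ t ∈ tops, ((Ico Q0 (h t)).filter (nf t)).card) := by
    calc (∑ t ∈ tops, h t) ≤ ∑ t ∈ tops, (16 * Q0 + 256 * (∑ i ∈ range I,
          if 16 ^ (i + 1) * Q0 ≤ h t ∧ FB (nf t) Q0 i then 16 ^ i * Q0 else 0) +
            256 * ((Ico Q0 (h t)).filter (nf t)).card) :=
          Finset.sum_le_sum fun t ht => block_le hQ0 (nf t) I (hI t ht)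
      _ = _ := by
          rw [Finset.sum_add_distrib, Finset.sum_add_distrib, Finset.sum_const, smul_eq_mul,
            ← Finset.mul_sum, ← Finset.mul_sum, Finset.sum_comm]
          have : ∀ i ∈ range I, (∑ t ∈ tops,
              if 16 ^ (i + 1) * Q0 ≤ h t ∧ FB (nf t) Q0 i then 16 ^ i * Q0 else 0) =
              (16 ^ i * Q0) * (tops.filter (fun t => 16 ^ (i + 1) * Q0 ≤ h t ∧ FB (nf t) Q0 i)).card := by
            intro i _
            rw [← Finset.sum_filter, Finset.sum_const, smul_eq_mul, mul_comm]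
          rw [Finset.sum_congr rfl this]
          ring
  have h2 : ((∑ t ∈ tops, h t : ℕ) : ℝ≥0∞) ≤ ((16 * Q0 * tops.card +
      256 * (∑ i ∈ range I, (16 ^ i * Q0) *
        (tops.filter (fun t => 16 ^ (i + 1) * Q0 ≤ h t ∧ FB (nf t) Q0 i)).card) +
      256 * (∑ t ∈ tops, ((Ico Q0 (h t)).filter (nf t)).card) : ℕ) : ℝ≥0∞) := by
    exact_mod_cast h1
  refine h2.trans ?_
  push_cast
  gcongr ?_ + ?_ + ?_
  · gcongr
    exact card_le_vis htops hcrit
  · gcongr with i hi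
    exact card_le_vis ((Finset.filter_subset _ _).trans htops) (fun t ht => by
      rw [Finset.mem_filter] at ht
      exact hA t ht.1 i (Finset.mem_range.mp hi) ht.2.1 ht.2.2)
  · have := hbad
    push_cast at this
    gcongr

/-- **Closing, integrated.**  `F` = the counting function of the tops (no measurability needed). -/
theorem close_int {e : Ω → Ω} (he : MeasurePreserving e μ μ) {N N' Q0 I : ℕ} {F : Ω → ℝ≥0∞}
    {crit bad : Set Ω} (hcrit : MeasurableSet crit) (hbad : MeasurableSet bad)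
    {A : ℕ → Set Ω} (hA : ∀ i, MeasurableSet (A i)) {C1 : ℝ≥0∞}
    (hF : ∀ z, F z ≤ 16 * Q0 * vis e crit N z +
      256 * (∑ i ∈ range I, (16 ^ i * Q0) * vis e (A i) N z) + 256 * (C1 * vis e bad N' z)) :
    ∫⁻ z, F z ∂μ ≤ 16 * Q0 * (N * μ crit) +
      256 * (∑ i ∈ range I, (16 ^ i * Q0) * (N * μ (A i))) + 256 * (C1 * (N' * μ bad)) := by
  have hm1 := measurable_vis he.measurable hcrit N
  have hm2 : ∀ i, Measurable (vis e (A i) N) := fun i => measurable_vis he.measurable (hA i) N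
  have hm3 := measurable_vis he.measurable hbad N'
  calc ∫⁻ z, F z ∂μ ≤ ∫⁻ z, (16 * Q0 * vis e crit N z +
      256 * (∑ i ∈ range I, (16 ^ i * Q0) * vis e (A i) N z) + 256 * (C1 * vis e bad N' z)) ∂μ :=
        lintegral_mono hF
    _ = _ := by
        rw [lintegral_add_right _ ((hm3.const_mul _).const_mul _), lintegral_add_left (hm1.const_mul _),
          lintegral_const_mul _ hm1, lintegral_vis he hcrit,
          lintegral_const_mul _ (Finset.measurable_sum _ fun i _ => (hm2 i).const_mul _),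
          lintegral_finsetSum _ (fun i _ => (hm2 i).const_mul _),
          lintegral_const_mul _ (hm3.const_mul _), lintegral_const_mul _ hm3, lintegral_vis he hbad]
        congr 3
        refine Finset.sum_congr rfl fun i _ => ?_
        rw [lintegral_const_mul _ (hm2 i), lintegral_vis he (hA i)]

/-- distinct terms of `∑ n θ ^ n` -/
theorem sum_blocks_le {θ : ℝ} (h0 : 0 ≤ θ) (h1 : θ < 1) {Q0 : ℕ} (hQ0 : 1 ≤ Q0) (I : ℕ) :
    ∑ i ∈ range I, ((16 ^ i * Q0 : ℕ) : ℝ) * θ ^ (16 ^ i * Q0) ≤ θ / (1 - θ) ^ 2 := by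
  have hinj : Function.Injective (fun i : ℕ => 16 ^ i * Q0) := by
    intro i j hij
    simp only at hij
    have := Nat.eq_of_mul_eq_mul_right (by omega : 0 < Q0) hij
    exact Nat.pow_right_injective (by norm_num : 2 ≤ 16) this
  have hs : HasSum (fun n : ℕ => (n : ℝ) * θ ^ n) (θ / (1 - θ) ^ 2) := by
    apply hasSum_coe_mul_geometric_of_norm_lt_one
    rw [Real.norm_of_nonneg h0]
    exact h1
  have h2 : ∑ i ∈ range I, ((16 ^ i * Q0 : ℕ) : ℝ) * θ ^ (16 ^ i * Q0) =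
      ∑ n ∈ (range I).map ⟨fun i : ℕ => 16 ^ i * Q0, hinj⟩, (n : ℝ) * θ ^ n := by
    rw [Finset.sum_map]
    rfl
  rw [h2, ← hs.tsum_eq]
  exact hs.summable.sum_le_tsum _ fun n _ => by positivity

/-- the average form of `close_int` -/
theorem close_avg {e : Ω → Ω} (he : MeasurePreserving e μ μ) {N Q0 I : ℕ} (hN : 1 ≤ N)
    {F : Ω → ℝ≥0∞} {crit bad : Set Ω} (hcrit : MeasurableSet crit) (hbad : MeasurableSet bad)
    {A : ℕ → Set Ω} (hA : ∀ i, MeasurableSet (A i)) {C1 s : ℝ≥0∞}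
    (hs : ∑ i ∈ range I, ((16 : ℝ≥0∞) ^ i * Q0) * μ (A i) ≤ s)
    (hF : ∀ z, F z ≤ 16 * Q0 * vis e crit N z +
      256 * (∑ i ∈ range I, (16 ^ i * Q0) * vis e (A i) N z) + 256 * (C1 * vis e bad (N + 1) z)) :
    ∫⁻ z, F z ∂μ ≤ N * (16 * Q0 * μ crit + 256 * s + 512 * C1 * μ bad) := by
  refine (close_int he hcrit hbad hA hF).trans ?_
  have e1 : ∑ i ∈ range I, ((16 : ℝ≥0∞) ^ i * Q0) * (N * μ (A i)) =
      N * ∑ i ∈ range I, ((16 : ℝ≥0∞) ^ i * Q0) * μ (A i) := by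
    rw [Finset.mul_sum]
    refine Finset.sum_congr rfl fun i _ => ?_
    ring
  have hN2 : ((N + 1 : ℕ) : ℝ≥0∞) ≤ 2 * N := by
    have : N + 1 ≤ 2 * N := by omega
    exact_mod_cast this
  rw [e1]
  calc 16 * Q0 * (N * μ crit) + 256 * (N * ∑ i ∈ range I, ((16 : ℝ≥0∞) ^ i * Q0) * μ (A i)) +
      256 * (C1 * (((N + 1 : ℕ) : ℝ≥0∞) * μ bad))
      ≤ 16 * Q0 * (N * μ crit) + 256 * (N * s) + 256 * (C1 * ((2 * N) * μ bad)) := by
        gcongr
    _ = N * (16 * Q0 * μ crit + 256 * s + 512 * C1 * μ bad) := by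
        ring

/-- **Dyadic bootstrap.** -/
theorem boot2 {x : ℕ → ℝ≥0∞} {a b : ℝ≥0∞} {m : ℕ} (h1 : x 1 ≤ 2 * a)
    (h2 : ∀ H, 1 ≤ H → x (2 * H) ≤ 2 * x H)
    (h3 : ∀ H, 1 ≤ H → x H ≤ a + b * (a + x (2 ^ m * H)) ^ 2)
    (hab : b * (a + 2 ^ m * (4 * a)) ^ 2 ≤ a) : ∀ j, x (2 ^ j) ≤ 2 * a := by
  have hpow : ∀ (i H : ℕ), 1 ≤ H → x (2 ^ i * H) ≤ 2 ^ i * x H := by
    intro i
    induction i with
    | zero => intro H _; simp
    | succ i ih =>
      intro H hH
      have e : 2 ^ (i + 1) * H = 2 * (2 ^ i * H) := by ring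
      rw [e]
      have hH' : 1 ≤ 2 ^ i * H := Nat.one_le_iff_ne_zero.mpr (by positivity)
      calc x (2 * (2 ^ i * H)) ≤ 2 * x (2 ^ i * H) := h2 _ hH'
        _ ≤ 2 * (2 ^ i * x H) := by gcongr; exact ih H hH
        _ = 2 ^ (i + 1) * x H := by rw [← mul_assoc, pow_succ']
  intro j
  induction j with
  | zero => simpa using h1
  | succ j ih =>
    have hj : 1 ≤ 2 ^ j := Nat.one_le_pow _ _ (by norm_num)
    have hj1 : 1 ≤ 2 ^ (j + 1) := Nat.one_le_pow _ _ (by norm_num)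
    have h4 : x (2 ^ (j + 1)) ≤ 4 * a := by
      rw [pow_succ']
      calc x (2 * 2 ^ j) ≤ 2 * x (2 ^ j) := h2 _ hj
        _ ≤ 2 * (2 * a) := by gcongr
        _ = 4 * a := by rw [← mul_assoc]; norm_num
    calc x (2 ^ (j + 1)) ≤ a + b * (a + x (2 ^ m * 2 ^ (j + 1))) ^ 2 := h3 _ hj1
      _ ≤ a + b * (a + 2 ^ m * (4 * a)) ^ 2 := by
          gcongr
          exact (hpow m _ hj1).trans (by gcongr)
      _ ≤ a + a := by gcongr
      _ = 2 * a := by rw [two_mul]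

theorem boot2_all {x : ℕ → ℝ≥0∞} {a b : ℝ≥0∞} {m : ℕ} (hmono : Monotone x) (h1 : x 1 ≤ 2 * a)
    (h2 : ∀ H, 1 ≤ H → x (2 * H) ≤ 2 * x H)
    (h3 : ∀ H, 1 ≤ H → x H ≤ a + b * (a + x (2 ^ m * H)) ^ 2)
    (hab : b * (a + 2 ^ m * (4 * a)) ^ 2 ≤ a) (H : ℕ) : x H ≤ 2 * a :=
  (hmono (Nat.lt_two_pow_self (n := H)).le).trans (boot2 h1 h2 h3 hab H)

end Crest.Agent.R128.CloseV2
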