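import Mathlib
import Crest.Agent.R128.AccRoot
import Crest.Agent.R128.CloseSeq
import Crest.Agent.R128.CloseV2

/-!
# Row 128, V6 (helper744): closing in the fixed window `[0, N]` (path version)

`lint_cross_le`: the mean number of closed components of the root contour is bounded by the fresh
blocks (`A i`, V5), the near critical times and the doubly covered times (V1).
-/

set_option autoImplicit false
open MeasureTheory Filter Topology Finset
open scoped ENNReal
open Crest.AnalysisR.StandardFamily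

namespace Crest.Agent.R128.Close

open Crest.Agent.R128.Acc Crest.Agent.R128.AccRoot Crest.Agent.R128.CloseV2

/-- root contour -/
noncomputable def bz (k : ℝ) (z : Tor) (n : ℕ) : ℝ := bt (rr k z) n

theorem bz_zero (k : ℝ) (z : Tor) : bz k z 0 = 0 := by
  unfold bz bt
  rw [zero_add, rr_zero, rr_one]
  simp

/-- level of depth `r` below the top `t` -/
noncomputable def lv (k : ℝ) (z : Tor) (t r : ℕ) : ℕ := ⌈bz k z t / Real.log k⌉₊ - r

theorem crit_of_comp {k : ℝ} {z : Tor} {N t l : ℕ} (h : Comp (bz k z) (Real.log k) N t l) :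
    |V k ((T k)^[t] z).2| ≤ 2 :=
  (top_zero (V := dg k z) (rr_pos k z) (rr_h1 k z) h.Top).le

open Classical in
theorem cross_pt {k : ℝ} (hk : 1 < k) {N Q0 : ℕ} (hQ0 : 1 ≤ Q0) (z : Tor) (nf : ℕ → ℕ → Prop)
    (A : ℕ → Set Tor)
    (hfresh : ∀ t i, 16 ^ (i + 1) * Q0 ≤ mt (bz k z) (Real.log k) N t →
      FB (fun r => nf t (lv k z t r)) Q0 i → (T k)^[t] z ∈ A i) (Y : ℝ≥0∞)
    (hY : ∀ S : Finset (ℕ × ℕ), (∀ p ∈ S, Comp (bz k z) (Real.log k) N p.1 p.2 ∧
      p.2 + Q0 ≤ ⌈bz k z p.1 / Real.log k⌉₊ ∧ nf p.1 p.2) → (S.card : ℝ≥0∞) ≤ Y) (I : ℕ)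
    (hI : ∀ t ∈ range N, mt (bz k z) (Real.log k) N t < 16 ^ (I + 1) * Q0) :
    (cross k N z : ℝ≥0∞) ≤ 16 * Q0 * vis (T k) {z | |V k z.2| ≤ 2} N z +
      256 * (∑ i ∈ range I, (16 ^ i * Q0) * vis (T k) (A i) N z) + 256 * Y := by
  have hl : 0 < Real.log k := Real.log_pos hk
  set β := bz k z with hβ
  set κ := Real.log k with hκ
  set tops : Finset ℕ := {t ∈ range N | mt β κ N t ≠ 0} with htops
  have h1 : cross k N z ≤ ∑ t ∈ tops, mt β κ N t := by
    refine (cross_le_sum_mt hl (bz_zero k z) N).trans (le_of_eq ?_)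
    rw [htops, Finset.sum_filter]
    refine Finset.sum_congr rfl fun t _ => ?_
    split_ifs with h
    · rfl
    · push Not at h; exact h
  have h2 := close_pt (e := T k) (z := z) (N := N) (Q0 := Q0) (I := I) hQ0 (tops := tops)
    (h := mt β κ N) (nf := fun t r => nf t (lv k z t r)) (crit := {z | |V k z.2| ≤ 2})
    (bad := Set.univ) (A := A) (C1 := Y) (N' := 1)
    (fun t ht => hI t (mem_filter.mp ht).1) (filter_subset _ _)
    (fun t ht => by
      obtain ⟨l, hl'⟩ := comp_of_mt_pos (mem_filter.mp ht).2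
      exact crit_of_comp hl')
    (fun t _ i _ h3 h4 => hfresh t i h3 h4) ?_
  · have hv : vis (T k) Set.univ 1 z = 1 := by
      unfold vis
      simp
    rw [hv, mul_one] at h2
    refine le_trans ?_ h2
    exact_mod_cast h1
  · have hv : vis (T k) Set.univ 1 z = 1 := by
      unfold vis
      simp
    rw [hv, mul_one]
    -- the pairs (top, level)
    set S : Finset (ℕ × ℕ) := tops.biUnion fun t =>
      ((Ico Q0 (mt β κ N t)).filter (fun r => nf t (lv k z t r))).image (fun r => (t, lv k z t r))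
      with hS
    have hcard : S.card = ∑ t ∈ tops, ((Ico Q0 (mt β κ N t)).filter
        (fun r => nf t (lv k z t r))).card := by
      rw [hS, card_biUnion]
      · refine Finset.sum_congr rfl fun t _ => ?_
        refine card_image_of_injOn ?_
        intro r hr r' hr' he
        rw [Finset.mem_coe, mem_filter, mem_Ico] at hr hr'
        have h3 : mt β κ N t ≤ ⌈β t / κ⌉₊ := mt_le
        simp only [Prod.mk.injEq, true_and] at he
        unfold lv at he
        rw [← hβ, ← hκ] at he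
        omega
      · intro t _ t' _ hne
        rw [Function.onFun, Finset.disjoint_left]
        intro p hp hp'
        rw [mem_image] at hp hp'
        obtain ⟨r, -, h5⟩ := hp
        obtain ⟨r', -, h6⟩ := hp'
        rw [← h5] at h6
        exact hne (congrArg Prod.fst h6).symm
    rw [← hcard]
    refine hY S fun p hp => ?_
    rw [hS, mem_biUnion] at hp
    obtain ⟨t, ht, hp⟩ := hp
    rw [mem_image] at hp
    obtain ⟨r, hr, rfl⟩ := hp
    rw [mem_filter, mem_Ico] at hr
    have h3 : mt β κ N t ≤ ⌈β t / κ⌉₊ := mt_le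
    have hc : Comp β κ N t (⌈β t / κ⌉₊ - r) := comp_sub hl (by omega) (by omega)
    refine ⟨hc, ?_, hr.2⟩
    show lv k z t r + Q0 ≤ ⌈β t / κ⌉₊
    unfold lv
    rw [← hβ, ← hκ]
    omega

theorem measurable_ind {S : Set Tor} (hS : MeasurableSet S) (k : ℝ) (v : ℕ) :
    Measurable fun z => S.indicator (fun _ => (1 : ℝ≥0∞)) ((T k)^[v] z) :=
  (measurable_const.indicator hS).comp (mp_iter k v).measurable

theorem lintegral_ind {S : Set Tor} (hS : MeasurableSet S) (k : ℝ) (v : ℕ) :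
    ∫⁻ z : Tor, S.indicator (fun _ => (1 : ℝ≥0∞)) ((T k)^[v] z) = volume S := by
  rw [(mp_iter k v).lintegral_comp (f := S.indicator (fun _ => (1 : ℝ≥0∞)))
    (measurable_const.indicator hS), lintegral_indicator_const hS, one_mul]

/-- **closing in the window `[0, N]`** -/
theorem lint_cross_le {k : ℝ} (hk : 1 < k) {N Q0 : ℕ} (hQ0 : 1 ≤ Q0) (nf : Tor → ℕ → ℕ → Prop)
    {A : ℕ → Set Tor} (hA : ∀ i, MeasurableSet (A i))
    (hfresh : ∀ z t i, 16 ^ (i + 1) * Q0 ≤ mt (bz k z) (Real.log k) N t →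
      FB (fun r => nf z t (lv k z t r)) Q0 i → (T k)^[t] z ∈ A i)
    {Rp Rm : ℕ → Set Tor} (hRp : ∀ M, MeasurableSet (Rp M)) (hRm : ∀ M, MeasurableSet (Rm M))
    {bad : Set Tor} (hbad : MeasurableSet bad) {C1 s : ℝ≥0∞}
    (hV1 : ∀ z, ∀ S : Finset (ℕ × ℕ), (∀ p ∈ S, Comp (bz k z) (Real.log k) N p.1 p.2 ∧
      p.2 + Q0 ≤ ⌈bz k z p.1 / Real.log k⌉₊ ∧ nf z p.1 p.2) → (S.card : ℝ≥0∞) ≤
      C1 * (∑ v ∈ range (N + 1), (Rp (N - v) ∩ Rm v).indicator (fun _ => (1 : ℝ≥0∞)) ((T k)^[v] z) +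
        vis (T k) bad (N + 1) z))
    (hs : ∀ I, ∑ i ∈ range I, ((16 : ℝ≥0∞) ^ i * Q0) * volume (A i) ≤ s) :
    ∫⁻ z : Tor, (cross k N z : ℝ≥0∞) ≤
      N * (16 * Q0 * volume {z : Tor | |V k z.2| ≤ 2} + 256 * s) +
      256 * (C1 * (∑ v ∈ range (N + 1), volume (Rp (N - v) ∩ Rm v) + (N + 1) * volume bad)) := by
  have hl : 0 < Real.log k := Real.log_pos hk
  set B : Set Tor := {z | |V k z.2| ≤ 2} with hB
  have hBm : MeasurableSet B :=
    (isClosed_le ((continuous_V k).comp continuous_snd).abs continuous_const).measurableSet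
  set Y : Tor → ℝ≥0∞ := fun z => C1 * (∑ v ∈ range (N + 1),
    (Rp (N - v) ∩ Rm v).indicator (fun _ => (1 : ℝ≥0∞)) ((T k)^[v] z) +
      vis (T k) bad (N + 1) z) with hY
  have hYm1 : Measurable fun z : Tor => ∑ v ∈ range (N + 1),
      (Rp (N - v) ∩ Rm v).indicator (fun _ => (1 : ℝ≥0∞)) ((T k)^[v] z) :=
    Finset.measurable_sum _ fun v _ => measurable_ind ((hRp _).inter (hRm _)) k v
  have hYm2 : Measurable fun z : Tor => vis (T k) bad (N + 1) z :=
    measurable_vis (mp_T k).measurable hbad (N + 1)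
  -- a bound for the heights
  obtain ⟨I, hI⟩ : ∃ I : ℕ, ∀ z : Tor, ∀ t ∈ range N,
      mt (bz k z) (Real.log k) N t < 16 ^ (I + 1) * Q0 := by
    set L := Real.log (3 + 2 * Real.pi * k) with hL
    have hL0 : 0 ≤ L := Real.log_nonneg (by
      have : 0 ≤ 2 * Real.pi * k := by positivity
      linarith)
    refine ⟨⌈N * L / Real.log k⌉₊, fun z t ht => ?_⟩
    have h1 : mt (bz k z) (Real.log k) N t ≤ ⌈bz k z t / Real.log k⌉₊ := mt_le
    have h2 : bz k z t / Real.log k ≤ N * L / Real.log k := by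
      refine div_le_div_of_nonneg_right ((bt_le_mul (by linarith) z t).trans ?_) hl.le
      refine mul_le_mul_of_nonneg_right ?_ hL0
      exact_mod_cast (mem_range.mp ht).le
    have h3 : ⌈bz k z t / Real.log k⌉₊ ≤ ⌈N * L / Real.log k⌉₊ := Nat.ceil_mono h2
    set M := ⌈N * L / Real.log k⌉₊ with hM
    have h4 : M < 16 ^ (M + 1) := by
      calc M < 2 ^ M := Nat.lt_two_pow_self
        _ ≤ 16 ^ M := Nat.pow_le_pow_left (by norm_num) M
        _ ≤ 16 ^ (M + 1) := Nat.pow_le_pow_right (by norm_num) (by omega)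
    have h5 : 16 ^ (M + 1) ≤ 16 ^ (M + 1) * Q0 := Nat.le_mul_of_pos_right _ hQ0
    omega
  have hpt : ∀ z : Tor, (cross k N z : ℝ≥0∞) ≤ 16 * Q0 * vis (T k) B N z +
      256 * (∑ i ∈ range I, (16 ^ i * Q0) * vis (T k) (A i) N z) + 256 * Y z := fun z =>
    cross_pt hk hQ0 z (nf z) A (hfresh z) (Y z) (hV1 z) I (hI z)
  have hm1 : Measurable fun z : Tor => 16 * (Q0 : ℝ≥0∞) * vis (T k) B N z :=
    (measurable_vis (mp_T k).measurable hBm N).const_mul _
  have hm2 : ∀ i, Measurable fun z : Tor => ((16 : ℝ≥0∞) ^ i * Q0) * vis (T k) (A i) N z := fun i =>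
    (measurable_vis (mp_T k).measurable (hA i) N).const_mul _
  have hm3 : Measurable fun z : Tor =>
      256 * (∑ i ∈ range I, ((16 : ℝ≥0∞) ^ i * Q0) * vis (T k) (A i) N z) :=
    (Finset.measurable_sum _ fun i _ => hm2 i).const_mul _
  have hYm12 : Measurable fun z : Tor => ∑ v ∈ range (N + 1),
      (Rp (N - v) ∩ Rm v).indicator (fun _ => (1 : ℝ≥0∞)) ((T k)^[v] z) +
      vis (T k) bad (N + 1) z := hYm1.add hYm2
  have hY0 : Measurable Y := hYm12.const_mul _
  have hm13 : Measurable fun z : Tor => 16 * (Q0 : ℝ≥0∞) * vis (T k) B N z +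
      256 * (∑ i ∈ range I, ((16 : ℝ≥0∞) ^ i * Q0) * vis (T k) (A i) N z) := hm1.add hm3
  have hYI : ∫⁻ z, Y z = C1 * (∑ v ∈ range (N + 1), volume (Rp (N - v) ∩ Rm v) +
      (N + 1) * volume bad) := by
    simp only [hY]
    rw [lintegral_const_mul _ hYm12, lintegral_add_left hYm1,
      lintegral_finsetSum _ fun v _ => measurable_ind ((hRp _).inter (hRm _)) k v,
      lintegral_vis (mp_T k) hbad]
    rw [Finset.sum_congr rfl fun v _ => lintegral_ind ((hRp _).inter (hRm _)) k v]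
    push_cast
    rfl
  have e0 : ∀ i, ∫⁻ z : Tor, ((16 : ℝ≥0∞) ^ i * Q0) * vis (T k) (A i) N z =
      (16 ^ i * Q0) * (N * volume (A i)) := fun i => by
    rw [lintegral_const_mul _ (measurable_vis (mp_T k).measurable (hA i) N),
      lintegral_vis (mp_T k) (hA i)]
  calc ∫⁻ z : Tor, (cross k N z : ℝ≥0∞)
      ≤ ∫⁻ z : Tor, (16 * Q0 * vis (T k) B N z +
        256 * (∑ i ∈ range I, (16 ^ i * Q0) * vis (T k) (A i) N z) + 256 * Y z) :=
        lintegral_mono hpt
    _ = 16 * Q0 * (N * volume B) + 256 * (∑ i ∈ range I, (16 ^ i * Q0) * (N * volume (A i))) +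
        256 * (C1 * (∑ v ∈ range (N + 1), volume (Rp (N - v) ∩ Rm v) + (N + 1) * volume bad)) := by
        rw [lintegral_add_left hm13, lintegral_add_left hm1,
          lintegral_const_mul _ (measurable_vis (mp_T k).measurable hBm N),
          lintegral_const_mul _ (Finset.measurable_sum _ fun i _ => hm2 i),
          lintegral_finsetSum _ fun i _ => hm2 i, lintegral_const_mul _ hY0, hYI,
          lintegral_vis (mp_T k) hBm]
        simp only [e0]
    _ ≤ _ := by
        gcongr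
        have e1 : ∑ i ∈ range I, ((16 : ℝ≥0∞) ^ i * Q0) * (N * volume (A i)) =
            N * ∑ i ∈ range I, ((16 : ℝ≥0∞) ^ i * Q0) * volume (A i) := by
          rw [Finset.mul_sum]
          refine Finset.sum_congr rfl fun i _ => ?_
          ring
        rw [e1]
        have e2 : 16 * (Q0 : ℝ≥0∞) * (N * volume B) +
            256 * (N * ∑ i ∈ range I, ((16 : ℝ≥0∞) ^ i * Q0) * volume (A i)) =
            N * (16 * Q0 * volume B +
              256 * ∑ i ∈ range I, ((16 : ℝ≥0∞) ^ i * Q0) * volume (A i)) := by ring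
        rw [e2]
        gcongr
        exact hs I

end Crest.Agent.R128.Close
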