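import Mathlib
import Crest.Agent.R128.Close
import Crest.Agent.R128.BootN

/-!
# Row 128, V6 (helper744), final version: fraction `1 / R` of non-fresh levels, additive `e` in V4

`InputsR` = V1, V2, V4, V5 in the window `[0, N]`; `result_of_inputsR` = S0172.
-/

set_option autoImplicit false
open MeasureTheory Filter Topology Finset
open scoped ENNReal
open Crest.AnalysisR.StandardFamily

namespace Crest.Agent.R128.Close

open Crest.Agent.R128.Acc Crest.Agent.R128.AccRoot Crest.Agent.R128.CloseV2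

open Classical in
/-- the block `[Q, 16 Q)`, `Q = 16 ^ i * Q0`, has fewer than `Q / R` non-fresh depths -/
def FBR (R : ℕ) (nf : ℕ → Prop) (Q0 i : ℕ) : Prop :=
  R * ((Ico (16 ^ i * Q0) (16 ^ (i + 1) * Q0)).filter nf).card < 16 ^ i * Q0

open Classical in
/-- pointwise block decomposition -/
theorem block_le_R {R h Q0 : ℕ} (hQ0 : 1 ≤ Q0) (nf : ℕ → Prop) (I : ℕ)
    (hI : h < 16 ^ (I + 1) * Q0) :
    h ≤ 16 * Q0 + 256 * (∑ i ∈ range I,
        if 16 ^ (i + 1) * Q0 ≤ h ∧ FBR R nf Q0 i then 16 ^ i * Q0 else 0) +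
      256 * (R * ((Ico Q0 h).filter nf).card) := by
  induction I with
  | zero =>
    simp only [zero_add, pow_one] at hI
    omega
  | succ I ih =>
    rw [Finset.sum_range_succ]
    rcases lt_or_ge h (16 ^ (I + 1) * Q0) with h1 | h1
    · have := ih h1
      nlinarith [Nat.zero_le (if 16 ^ (I + 1) * Q0 ≤ h ∧ FBR R nf Q0 I then 16 ^ I * Q0 else 0)]
    · have e : 16 ^ (I + 1 + 1) * Q0 = 256 * (16 ^ I * Q0) := by ring
      rw [e] at hI
      by_cases hf : FBR R nf Q0 I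
      · rw [if_pos ⟨h1, hf⟩]
        have := Nat.zero_le (∑ i ∈ range I,
          if 16 ^ (i + 1) * Q0 ≤ h ∧ FBR R nf Q0 i then 16 ^ i * Q0 else 0)
        nlinarith [Nat.zero_le (R * ((Ico Q0 h).filter nf).card)]
      · unfold FBR at hf
        push Not at hf
        have hsub : (Ico (16 ^ I * Q0) (16 ^ (I + 1) * Q0)).filter nf ⊆ (Ico Q0 h).filter nf := by
          apply Finset.filter_subset_filter
          apply Finset.Ico_subset_Ico
          · have : 1 ≤ 16 ^ I := Nat.one_le_pow _ _ (by norm_num)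
            nlinarith
          · exact h1
        have hc := hf.trans (Nat.mul_le_mul_left R (Finset.card_le_card hsub))
        have := Nat.zero_le (∑ i ∈ range (I + 1),
          if 16 ^ (i + 1) * Q0 ≤ h ∧ FBR R nf Q0 i then 16 ^ i * Q0 else 0)
        have h3 := Nat.zero_le (∑ i ∈ range I,
          if 16 ^ (i + 1) * Q0 ≤ h ∧ FBR R nf Q0 i then 16 ^ i * Q0 else 0)
        nlinarith [Nat.zero_le (if 16 ^ (I + 1) * Q0 ≤ h ∧ FBR R nf Q0 I then 16 ^ I * Q0 else 0)]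

open Classical in
/-- **Closing, pointwise.**  `tops` = tops of one orbit, `h t` = number of closed depths of the top `t`
(already truncated at `H` if wanted), `nf t r` = the depth `r` of the top `t` is not fresh. -/
theorem close_pt_R {Ω : Type*} {e : Ω → Ω} {z : Ω} {R N Q0 I : ℕ} (hQ0 : 1 ≤ Q0) {tops : Finset ℕ} {h : ℕ → ℕ}
    {nf : ℕ → ℕ → Prop} {crit : Set Ω} {A : ℕ → Set Ω} {Y : ℝ≥0∞}
    (hI : ∀ t ∈ tops, h t < 16 ^ (I + 1) * Q0)
    (htops : tops ⊆ range N) (hcrit : ∀ t ∈ tops, e^[t] z ∈ crit)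
    (hA : ∀ t ∈ tops, ∀ i < I, 16 ^ (i + 1) * Q0 ≤ h t → FBR R (nf t) Q0 i → e^[t] z ∈ A i)
    (hbad : ((∑ t ∈ tops, ((Ico Q0 (h t)).filter (nf t)).card : ℕ) : ℝ≥0∞) ≤ Y) :
    ((∑ t ∈ tops, h t : ℕ) : ℝ≥0∞) ≤ 16 * Q0 * vis e crit N z +
      256 * (∑ i ∈ range I, (16 ^ i * Q0) * vis e (A i) N z) + 256 * (R * Y) := by
  have h1 : (∑ t ∈ tops, h t) ≤ 16 * Q0 * tops.card +
      256 * (∑ i ∈ range I, (16 ^ i * Q0) *
        (tops.filter (fun t => 16 ^ (i + 1) * Q0 ≤ h t ∧ FBR R (nf t) Q0 i)).card) +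
      256 * (R * ∑ t ∈ tops, ((Ico Q0 (h t)).filter (nf t)).card) := by
    calc (∑ t ∈ tops, h t) ≤ ∑ t ∈ tops, (16 * Q0 + 256 * (∑ i ∈ range I,
          if 16 ^ (i + 1) * Q0 ≤ h t ∧ FBR R (nf t) Q0 i then 16 ^ i * Q0 else 0) +
            256 * (R * ((Ico Q0 (h t)).filter (nf t)).card)) :=
          Finset.sum_le_sum fun t ht => block_le_R hQ0 (nf t) I (hI t ht)
      _ = _ := by
          rw [Finset.sum_add_distrib, Finset.sum_add_distrib, Finset.sum_const, smul_eq_mul,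
            ← Finset.mul_sum, ← Finset.mul_sum, ← Finset.mul_sum, Finset.sum_comm]
          have : ∀ i ∈ range I, (∑ t ∈ tops,
              if 16 ^ (i + 1) * Q0 ≤ h t ∧ FBR R (nf t) Q0 i then 16 ^ i * Q0 else 0) =
              (16 ^ i * Q0) * (tops.filter (fun t => 16 ^ (i + 1) * Q0 ≤ h t ∧ FBR R (nf t) Q0 i)).card := by
            intro i _
            rw [← Finset.sum_filter, Finset.sum_const, smul_eq_mul, mul_comm]
          rw [Finset.sum_congr rfl this]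
          ring
  have h2 : ((∑ t ∈ tops, h t : ℕ) : ℝ≥0∞) ≤ ((16 * Q0 * tops.card +
      256 * (∑ i ∈ range I, (16 ^ i * Q0) *
        (tops.filter (fun t => 16 ^ (i + 1) * Q0 ≤ h t ∧ FBR R (nf t) Q0 i)).card) +
      256 * (R * ∑ t ∈ tops, ((Ico Q0 (h t)).filter (nf t)).card) : ℕ) : ℝ≥0∞) := by
    exact_mod_cast h1
  refine h2.trans ?_
  push_cast
  gcongr ?_ + ?_ + ?_
  · gcongr
    exact card_le_vis htops hcrit
  · gcongr with i hi
    exact card_le_vis ((Finset.filter_subset _ _).trans htops) (fun t ht => by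
      rw [Finset.mem_filter] at ht
      exact hA t ht.1 i (Finset.mem_range.mp hi) ht.2.1 ht.2.2)
  · have := hbad
    push_cast at this
    gcongr

open Classical in
theorem cross_pt_R {k : ℝ} (hk : 1 < k) {R N Q0 : ℕ} (hQ0 : 1 ≤ Q0) (z : Tor) (nf : ℕ → ℕ → Prop)
    (A : ℕ → Set Tor)
    (hfresh : ∀ t i, 16 ^ (i + 1) * Q0 ≤ mt (bz k z) (Real.log k) N t →
      FBR R (fun r => nf t (lv k z t r)) Q0 i → (T k)^[t] z ∈ A i) (Y : ℝ≥0∞)
    (hY : ∀ S : Finset (ℕ × ℕ), (∀ p ∈ S, Comp (bz k z) (Real.log k) N p.1 p.2 ∧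
      p.2 + Q0 ≤ ⌈bz k z p.1 / Real.log k⌉₊ ∧ nf p.1 p.2) → (S.card : ℝ≥0∞) ≤ Y) (I : ℕ)
    (hI : ∀ t ∈ range N, mt (bz k z) (Real.log k) N t < 16 ^ (I + 1) * Q0) :
    (cross k N z : ℝ≥0∞) ≤ 16 * Q0 * vis (T k) {z | |V k z.2| ≤ 2} N z +
      256 * (∑ i ∈ range I, (16 ^ i * Q0) * vis (T k) (A i) N z) + 256 * (R * Y) := by
  have hl : 0 < Real.log k := Real.log_pos hk
  set β := bz k z with hβ
  set κ := Real.log k with hκ
  set tops : Finset ℕ := {t ∈ range N | mt β κ N t ≠ 0} with htops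
  have h1 : cross k N z ≤ ∑ t ∈ tops, mt β κ N t := by
    refine (cross_le_sum_mt hl (bz_zero k z) N).trans (le_of_eq ?_)
    rw [htops, Finset.sum_filter]
    refine Finset.sum_congr rfl fun t _ => ?_
    split_ifs with h
    · rfl
    · push Not at h; exact h
  have h2 := close_pt_R (e := T k) (z := z) (R := R) (N := N) (Q0 := Q0) (I := I) hQ0 (tops := tops)
    (h := mt β κ N) (nf := fun t r => nf t (lv k z t r)) (crit := {z | |V k z.2| ≤ 2})
    (A := A) (Y := Y)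
    (fun t ht => hI t (mem_filter.mp ht).1) (filter_subset _ _)
    (fun t ht => by
      obtain ⟨l, hl'⟩ := comp_of_mt_pos (mem_filter.mp ht).2
      exact crit_of_comp hl')
    (fun t _ i _ h3 h4 => hfresh t i h3 h4) ?_
  · refine le_trans ?_ h2
    exact_mod_cast h1
  · -- the pairs (top, level)
    set S : Finset (ℕ × ℕ) := tops.biUnion fun t =>
      ((Ico Q0 (mt β κ N t)).filter (fun r => nf t (lv k z t r))).image (fun r => (t, lv k z t r))
      with hS
    have hcard : S.card = ∑ t ∈ tops, ((Ico Q0 (mt β κ N t)).filter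
        (fun r => nf t (lv k z t r))).card := by
      rw [hS, card_biUnion]
      · refine Finset.sum_congr rfl fun t _ => ?_
        refine card_image_of_injOn ?_
        intro r hr r' hr' he
        rw [Finset.mem_coe, mem_filter, mem_Ico] at hr hr'
        have h3 : mt β κ N t ≤ ⌈β t / κ⌉₊ := mt_le
        simp only [Prod.mk.injEq, true_and] at he
        unfold lv at he
        rw [← hβ, ← hκ] at he
        omega
      · intro t _ t' _ hne
        rw [Function.onFun, Finset.disjoint_left]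
        intro p hp hp'
        rw [mem_image] at hp hp'
        obtain ⟨r, -, h5⟩ := hp
        obtain ⟨r', -, h6⟩ := hp'
        rw [← h5] at h6
        exact hne (congrArg Prod.fst h6).symm
    rw [← hcard]
    refine hY S fun p hp => ?_
    rw [hS, mem_biUnion] at hp
    obtain ⟨t, ht, hp⟩ := hp
    rw [mem_image] at hp
    obtain ⟨r, hr, rfl⟩ := hp
    rw [mem_filter, mem_Ico] at hr
    have h3 : mt β κ N t ≤ ⌈β t / κ⌉₊ := mt_le
    have hc : Comp β κ N t (⌈β t / κ⌉₊ - r) := comp_sub hl (by omega) (by omega)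
    refine ⟨hc, ?_, hr.2⟩
    show lv k z t r + Q0 ≤ ⌈β t / κ⌉₊
    unfold lv
    rw [← hβ, ← hκ]
    omega

/-- **closing in the window `[0, N]`** -/
theorem lint_cross_le_R {k : ℝ} (hk : 1 < k) {R N Q0 : ℕ} (hQ0 : 1 ≤ Q0) (nf : Tor → ℕ → ℕ → Prop)
    {A : ℕ → Set Tor} (hA : ∀ i, MeasurableSet (A i))
    (hfresh : ∀ z t i, 16 ^ (i + 1) * Q0 ≤ mt (bz k z) (Real.log k) N t →
      FBR R (fun r => nf z t (lv k z t r)) Q0 i → (T k)^[t] z ∈ A i)
    {Rp Rm : ℕ → Set Tor} (hRp : ∀ M, MeasurableSet (Rp M)) (hRm : ∀ M, MeasurableSet (Rm M))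
    {bad : Set Tor} (hbad : MeasurableSet bad) {C1 s : ℝ≥0∞}
    (hV1 : ∀ z, ∀ S : Finset (ℕ × ℕ), (∀ p ∈ S, Comp (bz k z) (Real.log k) N p.1 p.2 ∧
      p.2 + Q0 ≤ ⌈bz k z p.1 / Real.log k⌉₊ ∧ nf z p.1 p.2) → (S.card : ℝ≥0∞) ≤
      C1 * (∑ v ∈ range (N + 1), (Rp (N - v) ∩ Rm v).indicator (fun _ => (1 : ℝ≥0∞)) ((T k)^[v] z) +
        vis (T k) bad (N + 1) z))
    (hs : ∀ I, ∑ i ∈ range I, ((16 : ℝ≥0∞) ^ i * Q0) * volume (A i) ≤ s) :
    ∫⁻ z : Tor, (cross k N z : ℝ≥0∞) ≤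
      N * (16 * Q0 * volume {z : Tor | |V k z.2| ≤ 2} + 256 * s) +
      256 * (R * (C1 * (∑ v ∈ range (N + 1), volume (Rp (N - v) ∩ Rm v) + (N + 1) * volume bad))) := by
  have hl : 0 < Real.log k := Real.log_pos hk
  set B : Set Tor := {z | |V k z.2| ≤ 2} with hB
  have hBm : MeasurableSet B :=
    (isClosed_le ((continuous_V k).comp continuous_snd).abs continuous_const).measurableSet
  set Y : Tor → ℝ≥0∞ := fun z => C1 * (∑ v ∈ range (N + 1),
    (Rp (N - v) ∩ Rm v).indicator (fun _ => (1 : ℝ≥0∞)) ((T k)^[v] z) +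
      vis (T k) bad (N + 1) z) with hY
  have hYm1 : Measurable fun z : Tor => ∑ v ∈ range (N + 1),
      (Rp (N - v) ∩ Rm v).indicator (fun _ => (1 : ℝ≥0∞)) ((T k)^[v] z) :=
    Finset.measurable_sum _ fun v _ => measurable_ind ((hRp _).inter (hRm _)) k v
  have hYm2 : Measurable fun z : Tor => vis (T k) bad (N + 1) z :=
    measurable_vis (mp_T k).measurable hbad (N + 1)
  -- a bound for the heights
  obtain ⟨I, hI⟩ : ∃ I : ℕ, ∀ z : Tor, ∀ t ∈ range N,
      mt (bz k z) (Real.log k) N t < 16 ^ (I + 1) * Q0 := by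
    set L := Real.log (3 + 2 * Real.pi * k) with hL
    have hL0 : 0 ≤ L := Real.log_nonneg (by
      have : 0 ≤ 2 * Real.pi * k := by positivity
      linarith)
    refine ⟨⌈N * L / Real.log k⌉₊, fun z t ht => ?_⟩
    have h1 : mt (bz k z) (Real.log k) N t ≤ ⌈bz k z t / Real.log k⌉₊ := mt_le
    have h2 : bz k z t / Real.log k ≤ N * L / Real.log k := by
      refine div_le_div_of_nonneg_right ((bt_le_mul (by linarith) z t).trans ?_) hl.le
      refine mul_le_mul_of_nonneg_right ?_ hL0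
      exact_mod_cast (mem_range.mp ht).le
    have h3 : ⌈bz k z t / Real.log k⌉₊ ≤ ⌈N * L / Real.log k⌉₊ := Nat.ceil_mono h2
    set M := ⌈N * L / Real.log k⌉₊ with hM
    have h4 : M < 16 ^ (M + 1) := by
      calc M < 2 ^ M := Nat.lt_two_pow_self
        _ ≤ 16 ^ M := Nat.pow_le_pow_left (by norm_num) M
        _ ≤ 16 ^ (M + 1) := Nat.pow_le_pow_right (by norm_num) (by omega)
    have h5 : 16 ^ (M + 1) ≤ 16 ^ (M + 1) * Q0 := Nat.le_mul_of_pos_right _ hQ0
    omega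
  have hpt : ∀ z : Tor, (cross k N z : ℝ≥0∞) ≤ 16 * Q0 * vis (T k) B N z +
      256 * (∑ i ∈ range I, (16 ^ i * Q0) * vis (T k) (A i) N z) + 256 * (R * Y z) := fun z =>
    cross_pt_R hk hQ0 z (nf z) A (hfresh z) (Y z) (hV1 z) I (hI z)
  have hm1 : Measurable fun z : Tor => 16 * (Q0 : ℝ≥0∞) * vis (T k) B N z :=
    (measurable_vis (mp_T k).measurable hBm N).const_mul _
  have hm2 : ∀ i, Measurable fun z : Tor => ((16 : ℝ≥0∞) ^ i * Q0) * vis (T k) (A i) N z := fun i =>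
    (measurable_vis (mp_T k).measurable (hA i) N).const_mul _
  have hm3 : Measurable fun z : Tor =>
      256 * (∑ i ∈ range I, ((16 : ℝ≥0∞) ^ i * Q0) * vis (T k) (A i) N z) :=
    (Finset.measurable_sum _ fun i _ => hm2 i).const_mul _
  have hYm12 : Measurable fun z : Tor => ∑ v ∈ range (N + 1),
      (Rp (N - v) ∩ Rm v).indicator (fun _ => (1 : ℝ≥0∞)) ((T k)^[v] z) +
      vis (T k) bad (N + 1) z := hYm1.add hYm2
  have hY0 : Measurable Y := hYm12.const_mul _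
  have hm13 : Measurable fun z : Tor => 16 * (Q0 : ℝ≥0∞) * vis (T k) B N z +
      256 * (∑ i ∈ range I, ((16 : ℝ≥0∞) ^ i * Q0) * vis (T k) (A i) N z) := hm1.add hm3
  have hYI : ∫⁻ z, Y z = C1 * (∑ v ∈ range (N + 1), volume (Rp (N - v) ∩ Rm v) +
      (N + 1) * volume bad) := by
    simp only [hY]
    rw [lintegral_const_mul _ hYm12, lintegral_add_left hYm1,
      lintegral_finsetSum _ fun v _ => measurable_ind ((hRp _).inter (hRm _)) k v,
      lintegral_vis (mp_T k) hbad]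
    rw [Finset.sum_congr rfl fun v _ => lintegral_ind ((hRp _).inter (hRm _)) k v]
    push_cast
    rfl
  have e0 : ∀ i, ∫⁻ z : Tor, ((16 : ℝ≥0∞) ^ i * Q0) * vis (T k) (A i) N z =
      (16 ^ i * Q0) * (N * volume (A i)) := fun i => by
    rw [lintegral_const_mul _ (measurable_vis (mp_T k).measurable (hA i) N),
      lintegral_vis (mp_T k) (hA i)]
  calc ∫⁻ z : Tor, (cross k N z : ℝ≥0∞)
      ≤ ∫⁻ z : Tor, (16 * Q0 * vis (T k) B N z +
        256 * (∑ i ∈ range I, (16 ^ i * Q0) * vis (T k) (A i) N z) + 256 * (R * Y z)) :=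
        lintegral_mono hpt
    _ = 16 * Q0 * (N * volume B) + 256 * (∑ i ∈ range I, (16 ^ i * Q0) * (N * volume (A i))) +
        256 * (R * (C1 * (∑ v ∈ range (N + 1), volume (Rp (N - v) ∩ Rm v) + (N + 1) * volume bad))) := by
        rw [lintegral_add_left hm13, lintegral_add_left hm1,
          lintegral_const_mul _ (measurable_vis (mp_T k).measurable hBm N),
          lintegral_const_mul _ (Finset.measurable_sum _ fun i _ => hm2 i),
          lintegral_finsetSum _ fun i _ => hm2 i, lintegral_const_mul _ (hY0.const_mul _), lintegral_const_mul _ hY0, hYI,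
          lintegral_vis (mp_T k) hBm]
        simp only [e0]
    _ ≤ _ := by
        gcongr
        have e1 : ∑ i ∈ range I, ((16 : ℝ≥0∞) ^ i * Q0) * (N * volume (A i)) =
            N * ∑ i ∈ range I, ((16 : ℝ≥0∞) ^ i * Q0) * volume (A i) := by
          rw [Finset.mul_sum]
          refine Finset.sum_congr rfl fun i _ => ?_
          ring
        rw [e1]
        have e2 : 16 * (Q0 : ℝ≥0∞) * (N * volume B) +
            256 * (N * ∑ i ∈ range I, ((16 : ℝ≥0∞) ^ i * Q0) * volume (A i)) =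
            N * (16 * Q0 * volume B +
              256 * ∑ i ∈ range I, ((16 : ℝ≥0∞) ^ i * Q0) * volume (A i)) := by ring
        rw [e2]
        gcongr
        exact hs I

/-- All inputs of the closing at the parameter `k` (constants `C`, `R`, `Q0` independent of `k`,
`e = e(k) → 0`).  `Rp M` (`Rm M`): forward (backward) violation completed within `M` steps; `A i`:
aligned tips with a fresh block of scale `16 ^ i * Q0`; `bad`: near critical / long durations;
`ρ N`: lag sums. -/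
structure InputsR (k C e : ℝ) (R Q0 : ℕ) (Rp Rm A : ℕ → Set Tor) (bad : Set Tor)
    (nf : ℕ → Tor → ℕ → ℕ → Prop) (ρ : ℕ → ℕ → ℝ) : Prop where
  mRp : ∀ M, MeasurableSet (Rp M)
  mRm : ∀ M, MeasurableSet (Rm M)
  mA : ∀ i, MeasurableSet (A i)
  mbad : MeasurableSet bad
  /-- V5, deterministic part -/
  fresh : ∀ (N : ℕ) (z : Tor) (t i : ℕ), 16 ^ (i + 1) * Q0 ≤ mt (bz k z) (Real.log k) N t →
    FBR R (fun r => nf N z t (lv k z t r)) Q0 i → (T k)^[t] z ∈ A i
  /-- V5, area -/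
  area : ∀ I, ∑ i ∈ range I, ((16 : ℝ≥0∞) ^ i * Q0) * volume (A i) ≤ ENNReal.ofReal (C * e)
  /-- V1 -/
  charge : ∀ (N : ℕ) (z : Tor) (S : Finset (ℕ × ℕ)),
    (∀ p ∈ S, Comp (bz k z) (Real.log k) N p.1 p.2 ∧ p.2 + Q0 ≤ ⌈bz k z p.1 / Real.log k⌉₊ ∧
      nf N z p.1 p.2) → (S.card : ℝ≥0∞) ≤ ENNReal.ofReal C *
      (∑ v ∈ range (N + 1), (Rp (N - v) ∩ Rm v).indicator (fun _ => (1 : ℝ≥0∞)) ((T k)^[v] z) +
        vis (T k) bad (N + 1) z)
  vbad : volume bad ≤ ENNReal.ofReal (C * e)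
  mono : ∀ N, Monotone (ρ N)
  nonneg : ∀ N n, 0 ≤ ρ N n
  /-- V3 + V4 -/
  double : ∀ N v, v ≤ N → volume (Rp (N - v) ∩ Rm v) ≤
    ENNReal.ofReal (C * ((ρ N (N - v) + e) * (ρ N v + e) + e))
  /-- V2 -/
  single : ∀ N, ∑ v ∈ range (N + 1), ρ N v ≤ C * ((∫ z : Tor, (cross k N z : ℝ)) + (N + 1) * e)

theorem InputsR.int_le {k C e : ℝ} {R Q0 : ℕ} {Rp Rm A : ℕ → Set Tor} {bad : Set Tor}
    {nf : ℕ → Tor → ℕ → ℕ → Prop} {ρ : ℕ → ℕ → ℝ} (h : InputsR k C e R Q0 Rp Rm A bad nf ρ)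
    (hk : 1 < k) (hC : 1 ≤ C) (he : 0 < e) (hQ0 : 1 ≤ Q0) (hR : 1 ≤ R) (hek : 1 ≤ e * k) (N : ℕ) :
    (∫ z : Tor, (cross k N z : ℝ)) ≤ (800 * C ^ 2 * Q0 * R) * (N + 1) * e +
      (800 * C ^ 2 * Q0 * R) * ∑ v ∈ range (N + 1), (ρ N (N - v) + e) * (ρ N v + e) := by
  have hC0 : 0 < C := by linarith
  have hk0 : 0 < k := by linarith
  have hQ : (1 : ℝ) ≤ Q0 := by exact_mod_cast hQ0
  have hR1 : (1 : ℝ) ≤ R := by exact_mod_cast hR
  set X : ℝ := ∑ v ∈ range (N + 1), (ρ N (N - v) + e) * (ρ N v + e) with hX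
  have hX0 : 0 ≤ X := Finset.sum_nonneg fun v _ =>
    mul_nonneg (add_nonneg (h.nonneg _ _) he.le) (add_nonneg (h.nonneg _ _) he.le)
  have h1 := lint_cross_le_R hk hQ0 (nf N) h.mA (h.fresh N) h.mRp h.mRm h.mbad (h.charge N) h.area
  have h2 : ∫⁻ z : Tor, (cross k N z : ℝ≥0∞) = ENNReal.ofReal (∫ z : Tor, (cross k N z : ℝ)) := by
    rw [ofReal_integral_eq_lintegral_ofReal (integrable_cross hk N)
      (Eventually.of_forall fun z => Nat.cast_nonneg _)]
    refine lintegral_congr fun z => ?_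
    rw [ENNReal.ofReal_natCast]
  have hV : volume {z : Tor | |V k z.2| ≤ 2} ≤ ENNReal.ofReal (2 / k) := by
    have h3 : (volume : Measure Tor).real {z : Tor | |V k z.2| ≤ 2} ≤ 2 / k :=
      volumeReal_V_le hk.le (by positivity)
    rw [measureReal_def] at h3
    rw [ENNReal.le_ofReal_iff_toReal_le (measure_ne_top _ _) (by positivity)]
    exact h3
  have hS : ∑ v ∈ range (N + 1), volume (Rp (N - v) ∩ Rm v) ≤
      ENNReal.ofReal (C * X + (N + 1) * (C * e)) := by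
    calc ∑ v ∈ range (N + 1), volume (Rp (N - v) ∩ Rm v)
        ≤ ∑ v ∈ range (N + 1), ENNReal.ofReal (C * ((ρ N (N - v) + e) * (ρ N v + e) + e)) :=
          Finset.sum_le_sum fun v hv => h.double N v (by rw [mem_range] at hv; omega)
      _ = ENNReal.ofReal (C * X + (N + 1) * (C * e)) := by
          rw [← ENNReal.ofReal_sum_of_nonneg]
          · congr 1
            simp only [mul_add C]
            rw [Finset.sum_add_distrib, hX, Finset.mul_sum, Finset.sum_const, card_range,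
              nsmul_eq_mul]
            push_cast
            ring
          · intro v _
            have := mul_nonneg (add_nonneg (h.nonneg N (N - v)) he.le)
              (add_nonneg (h.nonneg N v) he.le)
            positivity
  have hN : (N : ℝ≥0∞) = ENNReal.ofReal N := (ENNReal.ofReal_natCast N).symm
  have hQ' : (Q0 : ℝ≥0∞) = ENNReal.ofReal Q0 := (ENNReal.ofReal_natCast Q0).symm
  have hR' : (R : ℝ≥0∞) = ENNReal.ofReal R := (ENNReal.ofReal_natCast R).symm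
  have h4 : ∫⁻ z : Tor, (cross k N z : ℝ≥0∞) ≤ ENNReal.ofReal
      (N * (16 * Q0 * (2 / k) + 256 * (C * e)) +
        256 * (R * (C * ((C * X + (N + 1) * (C * e)) + (N + 1) * (C * e))))) := by
    refine h1.trans ?_
    have e1 : (N : ℝ≥0∞) * (16 * Q0 * volume {z : Tor | |V k z.2| ≤ 2} +
        256 * ENNReal.ofReal (C * e)) ≤
        ENNReal.ofReal (N * (16 * Q0 * (2 / k) + 256 * (C * e))) := by
      rw [ENNReal.ofReal_mul (Nat.cast_nonneg _), ENNReal.ofReal_add (by positivity) (by positivity),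
        ENNReal.ofReal_mul (by positivity : (0:ℝ) ≤ 16 * Q0),
        ENNReal.ofReal_mul (by norm_num : (0:ℝ) ≤ 16), ENNReal.ofReal_mul (by norm_num : (0:ℝ) ≤ 256),
        hN, hQ']
      have : ENNReal.ofReal 16 = 16 := by simp
      have h256 : ENNReal.ofReal 256 = 256 := by simp
      rw [this, h256]
      gcongr
    have e2 : (256 : ℝ≥0∞) * (R * (ENNReal.ofReal C * (∑ v ∈ range (N + 1),
        volume (Rp (N - v) ∩ Rm v) + (N + 1) * volume bad))) ≤
        ENNReal.ofReal (256 * (R * (C * ((C * X + (N + 1) * (C * e)) + (N + 1) * (C * e))))) := by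
      rw [ENNReal.ofReal_mul (by norm_num : (0:ℝ) ≤ 256), ENNReal.ofReal_mul (Nat.cast_nonneg R),
        ENNReal.ofReal_mul hC0.le,
        ENNReal.ofReal_add (p := C * X + (N + 1) * (C * e)) (q := (N + 1) * (C * e))
          (by positivity) (by positivity),
        ENNReal.ofReal_mul (by positivity : (0:ℝ) ≤ (N:ℝ) + 1)]
      have h256 : ENNReal.ofReal 256 = 256 := by simp
      have hN1 : ENNReal.ofReal ((N:ℝ) + 1) = (N : ℝ≥0∞) + 1 := by
        rw [ENNReal.ofReal_add (Nat.cast_nonneg _) (by norm_num), ENNReal.ofReal_natCast]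
        simp
      rw [h256, hN1, ENNReal.ofReal_natCast]
      gcongr
      exact h.vbad
    rw [ENNReal.ofReal_add (by positivity) (by positivity)]
    exact add_le_add e1 e2
  rw [h2] at h4
  have h5 := (ENNReal.ofReal_le_ofReal_iff (by positivity)).mp h4
  refine h5.trans ?_
  have hN0 : (0 : ℝ) ≤ N := Nat.cast_nonneg N
  have hk2 : 2 / k ≤ 2 * e := by
    rw [div_le_iff₀ hk0]
    nlinarith
  have hC1 : (1:ℝ) ≤ C ^ 2 := one_le_pow₀ hC
  have hCC : C ≤ C ^ 2 := by nlinarith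
  set E : ℝ := ((N:ℝ) + 1) * e with hE
  have hE0 : 0 ≤ E := by positivity
  have hNE : N * e ≤ E := by rw [hE]; nlinarith
  set G : ℝ := C ^ 2 * Q0 * R with hG
  have g1 : (Q0 : ℝ) ≤ G := by
    calc (Q0 : ℝ) = 1 * Q0 * 1 := by ring
      _ ≤ C ^ 2 * Q0 * R := by gcongr
  have g2 : C ≤ G := by
    calc C = C * 1 * 1 := by ring
      _ ≤ C ^ 2 * Q0 * R := by gcongr
  have g3 : R * C ^ 2 ≤ G := by
    calc R * C ^ 2 = C ^ 2 * 1 * R := by ring
      _ ≤ C ^ 2 * Q0 * R := by gcongr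
  have a1 : N * (16 * Q0 * (2 / k)) ≤ 32 * (G * E) := by
    calc N * (16 * Q0 * (2 / k)) ≤ N * (16 * Q0 * (2 * e)) := by gcongr
      _ = 32 * (Q0 * (N * e)) := by ring
      _ ≤ 32 * (G * E) := by gcongr
  have a2 : (N:ℝ) * (256 * (C * e)) ≤ 256 * (G * E) := by
    calc (N:ℝ) * (256 * (C * e)) = 256 * (C * (N * e)) := by ring
      _ ≤ 256 * (G * E) := by gcongr
  have a3 : 256 * (R * (C * (C * X))) ≤ 256 * (G * X) := by
    calc 256 * (R * (C * (C * X))) = 256 * ((R * C ^ 2) * X) := by ring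
      _ ≤ 256 * (G * X) := by gcongr
  have a4 : 256 * (R * (C * (C * E))) ≤ 256 * (G * E) := by
    calc 256 * (R * (C * (C * E))) = 256 * ((R * C ^ 2) * E) := by ring
      _ ≤ 256 * (G * E) := by gcongr
  have hGX : 0 ≤ G * X := mul_nonneg (by positivity) hX0
  have hGE : 0 ≤ G * E := mul_nonneg (by positivity) hE0
  have lhs : N * (16 * Q0 * (2 / k) + 256 * (C * e)) +
      256 * (R * (C * ((C * X + (N + 1) * (C * e)) + (N + 1) * (C * e)))) =
      N * (16 * Q0 * (2 / k)) + (N:ℝ) * (256 * (C * e)) + 256 * (R * (C * (C * X))) +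
        256 * (R * (C * (C * E))) + 256 * (R * (C * (C * E))) := by rw [hE]; ring
  have rhs : (800 * C ^ 2 * Q0 * R) * (N + 1) * e + (800 * C ^ 2 * Q0 * R) * X =
      800 * (G * E) + 800 * (G * X) := by rw [hE, hG]; ring
  rw [lhs, rhs]
  linarith

/-- **V1, V2, V4, V5 give S0172** -/
theorem result_of_inputsR
    (H : ∃ (C : ℝ) (R Q0 : ℕ), 1 ≤ C ∧ 1 ≤ R ∧ 1 ≤ Q0 ∧ ∃ k₁ : ℝ, ∀ k : ℝ, k₁ ≤ k →
      ∃ e : ℝ, 0 < e ∧ 13 ≤ e ^ 2 * k ∧ 72 * (800 * C ^ 2 * Q0 * R) ^ 4 * e ≤ 1 ∧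
      ∃ Rp Rm A bad nf ρ, InputsR k C e R Q0 Rp Rm A bad nf ρ) :
    ∃ k₀ : ℝ, 0 < k₀ ∧ ∀ k : ℝ, k₀ ≤ k →
      0 < MeasureTheory.volume ({p : ℝ × ℝ | ∃ c : ℝ, 0 < c ∧
          ∃ᶠ n : ℕ in Filter.atTop, c * n ≤ Real.log ‖fderiv ℝ (standardMapLift k)^[n] p‖} ∩
        Set.Ico (0 : ℝ) 1 ×ˢ Set.Ico (0 : ℝ) 1) := by
  obtain ⟨C, R, Q0, hC, hR, hQ0, k₁, H⟩ := H
  have hQ : (1 : ℝ) ≤ Q0 := by exact_mod_cast hQ0
  have hR1 : (1 : ℝ) ≤ R := by exact_mod_cast hR
  have hC2 : (1:ℝ) ≤ C ^ 2 := one_le_pow₀ hC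
  have hCC : C ≤ C ^ 2 := by nlinarith
  have hCb : C ≤ 800 * C ^ 2 * Q0 * R := by
    calc C = 1 * C * 1 * 1 := by ring
      _ ≤ 800 * C ^ 2 * Q0 * R := by gcongr; norm_num
  have hbig : 1 ≤ 800 * C ^ 2 * Q0 * R := hC.trans hCb
  apply BootN.result_of_closing
  refine ⟨800 * C ^ 2 * Q0 * R, hbig, max k₁ 2, fun k hk => ?_⟩
  obtain ⟨e, he, h13, h72, Rp, Rm, A, bad, nf, ρ, h⟩ := H k ((le_max_left _ _).trans hk)
  have hk2 : 2 ≤ k := (le_max_right _ _).trans hk
  have he1 : e ≤ 1 := by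
    have : 1 ≤ 72 * (800 * C ^ 2 * Q0 * R) ^ 4 := by
      have := one_le_pow₀ hbig (n := 4)
      linarith
    nlinarith
  have hek : 1 ≤ e * k := by
    have : e ^ 2 * k ≤ e * k := by
      have : e ^ 2 ≤ e := by nlinarith
      exact mul_le_mul_of_nonneg_right this (by linarith)
    linarith
  refine ⟨e, he, h13, h72, ρ, h.mono, h.nonneg,
    fun N => h.int_le (by linarith) hC he hQ0 hR hek N, fun N => (h.single N).trans ?_⟩
  have h0 : 0 ≤ (∫ z : Tor, (cross k N z : ℝ)) + (N + 1) * e :=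
    add_nonneg (integral_nonneg fun _ => Nat.cast_nonneg _) (by positivity)
  exact mul_le_mul_of_nonneg_right hCb h0

end Crest.Agent.R128.Close
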