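import Mathlib
import Crest.Agent.R128.Acc
import Crest.Agent.R128.Boot

/-! Row 128: final glue (helper415): measurability of the tips, truncated heights, the bootstrap and
the fibre form. Sorry free. -/

set_option autoImplicit false
open MeasureTheory Filter Topology Finset
open scoped ENNReal
open Crest.AnalysisR.StandardFamily

namespace Crest.Agent.R128.Fin

open Crest.Agent.R128 Crest.Agent.R128.Acc

theorem continuous_act_Mn (k : ℝ) (m : ℕ) :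
    Continuous fun q : Tor × (ℝ × ℝ) => act (Mn k m q.1) q.2 := by
  have h : ∀ i j, Continuous fun q : Tor × (ℝ × ℝ) => Mn k m q.1 i j := fun i j =>
    ((continuous_Mn k m).comp continuous_fst).matrix_elem i j
  unfold act
  fun_prop (disch := assumption)

/-- base points of a window -/
def PB (k h : ℝ) (i j : ℕ) (z' : Tor) : Prop :=
  ∃ w : ℝ × ℝ, ‖w‖ ≤ Real.exp (-h) ∧ ‖act (Mn k i z') w‖ = 1 ∧
    ‖act (Mn k (i - 1) z') w‖ < 1 ∧
    (∀ m, m ≤ i + j → ‖act (Mn k m z') w‖ ≤ 1) ∧ ‖act (Mn k (i + j) z') w‖ ≤ Real.exp (-h)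

theorem measurableSet_PB (k h : ℝ) (i j : ℕ) : MeasurableSet {z | PB k h i j z} := by
  have e : {z | PB k h i j z} = ⋃ n : ℕ, Prod.fst '' {q : Tor × (ℝ × ℝ) |
      ‖q.2‖ ≤ Real.exp (-h) ∧ ‖act (Mn k i q.1) q.2‖ = 1 ∧
      ‖act (Mn k (i - 1) q.1) q.2‖ ≤ 1 - 1 / ((n : ℝ) + 1) ∧
      (∀ m, m ≤ i + j → ‖act (Mn k m q.1) q.2‖ ≤ 1) ∧
      ‖act (Mn k (i + j) q.1) q.2‖ ≤ Real.exp (-h)} := by
    ext z
    constructor
    · rintro ⟨w, h1, h2, h3, h4, h5⟩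
      obtain ⟨n, hn⟩ := exists_nat_one_div_lt (sub_pos.2 h3)
      exact Set.mem_iUnion.2 ⟨n, (z, w), ⟨h1, h2, by linarith, h4, h5⟩, rfl⟩
    · intro hz
      obtain ⟨n, ⟨z', w⟩, ⟨h1, h2, h3, h4, h5⟩, rfl⟩ := Set.mem_iUnion.1 hz
      refine ⟨w, h1, h2, ?_, h4, h5⟩
      have : (0:ℝ) < 1 / ((n : ℝ) + 1) := by positivity
      simp only at h3
      linarith
  rw [e]
  refine MeasurableSet.iUnion fun n => ?_
  have hc : ∀ m, Continuous fun q : Tor × (ℝ × ℝ) => ‖act (Mn k m q.1) q.2‖ :=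
    fun m => (continuous_act_Mn k m).norm
  have hcl : IsClosed {q : Tor × (ℝ × ℝ) |
      ‖q.2‖ ≤ Real.exp (-h) ∧ ‖act (Mn k i q.1) q.2‖ = 1 ∧
      ‖act (Mn k (i - 1) q.1) q.2‖ ≤ 1 - 1 / ((n : ℝ) + 1) ∧
      (∀ m, m ≤ i + j → ‖act (Mn k m q.1) q.2‖ ≤ 1) ∧
      ‖act (Mn k (i + j) q.1) q.2‖ ≤ Real.exp (-h)} := by
    have h5 : IsClosed {q : Tor × (ℝ × ℝ) | ∀ m, m ≤ i + j → ‖act (Mn k m q.1) q.2‖ ≤ 1} := by
      have : {q : Tor × (ℝ × ℝ) | ∀ m, m ≤ i + j → ‖act (Mn k m q.1) q.2‖ ≤ 1} =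
          ⋂ m : ℕ, ⋂ _ : m ≤ i + j, {q : Tor × (ℝ × ℝ) | ‖act (Mn k m q.1) q.2‖ ≤ 1} := by
        ext q
        simp
      rw [this]
      exact isClosed_iInter fun m => isClosed_iInter fun _ =>
        isClosed_le (hc m) continuous_const
    exact (isClosed_le continuous_snd.norm continuous_const).inter
      ((isClosed_eq (hc i) continuous_const).inter
        ((isClosed_le (hc (i - 1)) continuous_const).inter (h5.inter
          (isClosed_le (hc (i + j)) continuous_const))))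
  have hcomp : IsCompact {q : Tor × (ℝ × ℝ) |
      ‖q.2‖ ≤ Real.exp (-h) ∧ ‖act (Mn k i q.1) q.2‖ = 1 ∧
      ‖act (Mn k (i - 1) q.1) q.2‖ ≤ 1 - 1 / ((n : ℝ) + 1) ∧
      (∀ m, m ≤ i + j → ‖act (Mn k m q.1) q.2‖ ≤ 1) ∧
      ‖act (Mn k (i + j) q.1) q.2‖ ≤ Real.exp (-h)} := by
    refine IsCompact.of_isClosed_subset
      (isCompact_univ.prod (isCompact_closedBall (0 : ℝ × ℝ) (Real.exp (-h)))) hcl ?_
    rintro q ⟨h1, -⟩
    exact ⟨Set.mem_univ _, by simpa [dist_zero_right] using h1⟩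
  exact (hcomp.image continuous_fst).isClosed.measurableSet

theorem TIP_iff (k h : ℝ) (N : ℕ) (z : Tor) : TIP k h N z ↔
    ∃ i j : ℕ, 0 < i ∧ i ≤ N ∧ 0 < j ∧ j ≤ N ∧ PB k h i j ((Tinv k)^[i] z) := by
  have hL : ∀ i, Function.LeftInverse (Tinv k)^[i] (T k)^[i] := fun i =>
    Function.LeftInverse.iterate (Tinv_T k) i
  have hR : ∀ i, Function.LeftInverse (T k)^[i] (Tinv k)^[i] := fun i =>
    Function.LeftInverse.iterate (T_Tinv k) i
  unfold TIP PB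
  constructor
  · rintro ⟨i, j, h1, h2, h3, h4, z', w, h5, h6⟩
    refine ⟨i, j, h1, h2, h3, h4, w, ?_⟩
    rw [← h5, hL i z']
    exact h6
  · rintro ⟨i, j, h1, h2, h3, h4, w, h6⟩
    exact ⟨i, j, h1, h2, h3, h4, (Tinv k)^[i] z, w, hR i z, h6⟩

theorem measurableSet_TIP (k h : ℝ) (N : ℕ) : MeasurableSet {z | TIP k h N z} := by
  have e : {z | TIP k h N z} = ⋃ i : ℕ, ⋃ j : ℕ, ⋃ _ : 0 < i ∧ i ≤ N ∧ 0 < j ∧ j ≤ N,
      (Tinv k)^[i] ⁻¹' {z | PB k h i j z} := by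
    ext z
    constructor
    · intro hz
      obtain ⟨i, j, h1, h2, h3, h4, h5⟩ := (TIP_iff k h N z).1 hz
      exact Set.mem_iUnion.2 ⟨i, Set.mem_iUnion.2 ⟨j, Set.mem_iUnion.2 ⟨⟨h1, h2, h3, h4⟩, h5⟩⟩⟩
    · intro hz
      obtain ⟨i, hz⟩ := Set.mem_iUnion.1 hz
      obtain ⟨j, hz⟩ := Set.mem_iUnion.1 hz
      obtain ⟨⟨h1, h2, h3, h4⟩, h5⟩ := Set.mem_iUnion.1 hz
      exact (TIP_iff k h N z).2 ⟨i, j, h1, h2, h3, h4, h5⟩
  rw [e]
  refine MeasurableSet.iUnion fun i => MeasurableSet.iUnion fun j => MeasurableSet.iUnion fun _ =>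
    (measurableSet_PB k h i j).preimage ?_
  exact ((continuous_Tinv k).iterate i).measurable

/-- `L_H` -/
noncomputable def L (k : ℝ) (N H : ℕ) : ℝ := ∑ l ∈ Icc 1 H, NT k (l * Real.log k) N

/-- truncated height of the tip at `z` in levels (zero if `z` is not a tip of height `1`) -/
noncomputable def ht (k : ℝ) (N H : ℕ) (z : Tor) : ℝ≥0∞ :=
  ∑ l ∈ Icc 1 H, {z | TIP k (l * Real.log k) N z}.indicator (fun _ => (1 : ℝ≥0∞)) z

theorem measurable_ht (k : ℝ) (N H : ℕ) : Measurable (ht k N H) := by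
  unfold ht
  exact Finset.measurable_fun_sum _ fun l _ => measurable_const.indicator (measurableSet_TIP k _ N)

theorem lintegral_ht (k : ℝ) (N H : ℕ) :
    ∫⁻ z, ht k N H z ∂(volume : Measure Tor) = ENNReal.ofReal (L k N H) := by
  unfold ht L
  rw [lintegral_finsetSum _ fun l _ => measurable_const.indicator (measurableSet_TIP k _ N),
    ENNReal.ofReal_sum_of_nonneg fun _ _ => NT_nonneg _ _ _]
  refine Finset.sum_congr rfl fun l _ => ?_
  rw [lintegral_indicator_const (measurableSet_TIP k _ N), one_mul, NT, ofReal_measureReal]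

theorem L_nonneg (k : ℝ) (N H : ℕ) : 0 ≤ L k N H :=
  Finset.sum_nonneg fun l _ => NT_nonneg _ _ _

theorem L_le {k : ℝ} (hk : 1 ≤ k) (N H : ℕ) : L k N H ≤ 2 * H / k := by
  unfold L
  calc ∑ l ∈ Icc 1 H, NT k (l * Real.log k) N ≤ ∑ _l ∈ Icc 1 H, 2 / k :=
        Finset.sum_le_sum fun l _ => NT_le hk _ N
    _ = 2 * H / k := by
        rw [Finset.sum_const, Nat.card_Icc, nsmul_eq_mul]
        simp
        ring

/-- Final glue: the bootstrap step gives the result. -/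
theorem result_of_step
    (HS : ∃ k₁ : ℝ, ∀ k : ℝ, k₁ ≤ k → ∃ d : ℝ, ∃ h0 : ℕ, d ≤ 1 / 5 ∧ 1 ≤ h0 ∧ 2 * (h0 : ℝ) / k ≤ d ∧
      ∃ᶠ N : ℕ in atTop, ∀ H : ℕ, h0 ≤ H → L k N H ≤ d → L k N H ≤ d / 2) :
    ∃ k₀ : ℝ, 0 < k₀ ∧ ∀ k : ℝ, k₀ ≤ k →
      0 < MeasureTheory.volume ({p : ℝ × ℝ | ∃ c : ℝ, 0 < c ∧
          ∃ᶠ n : ℕ in Filter.atTop, c * n ≤ Real.log ‖fderiv ℝ (standardMapLift k)^[n] p‖} ∩
        Set.Ico (0 : ℝ) 1 ×ˢ Set.Ico (0 : ℝ) 1) := by
  apply result_of_tips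
  obtain ⟨k₁, hk₁⟩ := HS
  refine ⟨max k₁ 1, fun k hk => ?_⟩
  have hk1 : k₁ ≤ k := le_trans (le_max_left _ _) hk
  have hk2 : 1 ≤ k := le_trans (le_max_right _ _) hk
  obtain ⟨d, h0, hd, hh0, hb, hN⟩ := hk₁ k hk1
  refine hN.mono fun N hstep R => ?_
  have key := Boot.bootstrap_from (τ := fun l : ℕ => NT k (l * Real.log k) N) (d := d) (H0 := h0)
    (fun a b _ hab => NT_anti (by
      have : (a : ℝ) ≤ b := by exact_mod_cast hab
      exact mul_le_mul_of_nonneg_right this (Real.log_nonneg hk2)) N)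
    (fun l _ => NT_nonneg _ _ _) hh0 (le_trans (L_le hk2 N h0) hb) hstep
  rcases Nat.eq_zero_or_pos R with rfl | hR
  · simp
  · have := key (R - 1)
    have e : Ico 1 R = Icc 1 (R - 1) := by
      ext l
      simp only [mem_Ico, mem_Icc]
      omega
    rw [e]
    linarith

/-- Variant with a closing inequality. -/
theorem result_of_closing
    (HS : ∃ k₁ : ℝ, ∀ k : ℝ, k₁ ≤ k → ∃ d a : ℝ, ∃ h0 : ℕ, d ≤ 1 / 5 ∧ 4 * a ≤ d ∧ 1 ≤ h0 ∧
      2 * (h0 : ℝ) / k ≤ d ∧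
      ∃ᶠ N : ℕ in atTop, ∀ H : ℕ, h0 ≤ H → L k N H ≤ d → L k N H ≤ a + L k N H / 2) :
    ∃ k₀ : ℝ, 0 < k₀ ∧ ∀ k : ℝ, k₀ ≤ k →
      0 < MeasureTheory.volume ({p : ℝ × ℝ | ∃ c : ℝ, 0 < c ∧
          ∃ᶠ n : ℕ in Filter.atTop, c * n ≤ Real.log ‖fderiv ℝ (standardMapLift k)^[n] p‖} ∩
        Set.Ico (0 : ℝ) 1 ×ˢ Set.Ico (0 : ℝ) 1) := by
  apply result_of_step
  obtain ⟨k₁, hk₁⟩ := HS
  refine ⟨k₁, fun k hk => ?_⟩
  obtain ⟨d, a, h0, hd, ha, hh0, hb, hN⟩ := hk₁ k hk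
  refine ⟨d, h0, hd, hh0, hb, hN.mono fun N hstep H hH hL => ?_⟩
  have := hstep H hH hL
  linarith

/-- Tonelli on the torus: fibres `z.2 = c` constant. -/
theorem lintegral_fibre {f : Tor → ℝ≥0∞} (hf : Measurable f) :
    ∫⁻ z, f z ∂(volume : Measure Tor) = ∫⁻ c : UnitAddCircle, ∫⁻ x : UnitAddCircle, f (x, c) := by
  exact lintegral_prod_symm' f hf

/-- Fibre form of the closing inequality: `f` vanishes off the near critical fibres, on each near
critical fibre `∫ f ≤ C0 + ∫ Σ_n g n`, and the charges `g n` moved by the measure preserving maps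
`S n` sum up to at most `W`. -/
theorem lintegral_le_of_charge {f W : Tor → ℝ≥0∞} {ι : Type*} [Countable ι]
    {g : ι → Tor → ℝ≥0∞} {S : ι → Tor → Tor} {C0 : ℝ≥0∞} {B : Set UnitAddCircle}
    (hf : Measurable f) (hg : ∀ n, Measurable (g n)) (hB : MeasurableSet B)
    (hS : ∀ n, MeasurePreserving (S n) (volume : Measure Tor) volume)
    (hfB : ∀ z : Tor, z.2 ∉ B → f z = 0)
    (hfib : ∀ c ∈ B, ∫⁻ x : UnitAddCircle, f (x, c) ≤ C0 + ∫⁻ x : UnitAddCircle, ∑' n, g n (x, c))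
    (hW : ∀ z, ∑' n, g n (S n z) ≤ W z) :
    ∫⁻ z, f z ∂(volume : Measure Tor) ≤ C0 * volume B + ∫⁻ z, W z ∂(volume : Measure Tor) := by
  have hgs : Measurable fun z => ∑' n, g n z := Measurable.tsum hg
  calc ∫⁻ z, f z ∂(volume : Measure Tor)
      = ∫⁻ c : UnitAddCircle, ∫⁻ x : UnitAddCircle, f (x, c) := lintegral_fibre hf
    _ ≤ ∫⁻ c : UnitAddCircle, (B.indicator (fun _ => C0) c +
          ∫⁻ x : UnitAddCircle, ∑' n, g n (x, c)) := by
        refine lintegral_mono fun c => ?_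
        by_cases hc : c ∈ B
        · simp only [Set.indicator_of_mem hc]
          exact hfib c hc
        · have : (fun x : UnitAddCircle => f (x, c)) = fun _ => 0 := by
            ext x
            exact hfB (x, c) hc
          simp only [this, lintegral_zero]
          exact bot_le
    _ = C0 * volume B + ∫⁻ z, ∑' n, g n z ∂(volume : Measure Tor) := by
        rw [lintegral_add_left (measurable_const.indicator hB), lintegral_indicator_const hB,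
          lintegral_fibre hgs]
    _ = C0 * volume B + ∫⁻ z, ∑' n, g n (S n z) ∂(volume : Measure Tor) := by
        rw [Boot.mass_transport hS hg]
    _ ≤ C0 * volume B + ∫⁻ z, W z ∂(volume : Measure Tor) := by
        gcongr with z
        exact hW z

/-- the heights vanish off the near critical fibres -/
theorem ht_eq_zero {k : ℝ} {N H : ℕ} {z : Tor} (hz : z.2 ∉ {c : UnitAddCircle | |V k c| ≤ 2}) :
    ht k N H z = 0 := by
  unfold ht
  refine Finset.sum_eq_zero fun l _ => Set.indicator_of_notMem ?_ _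
  intro hT
  exact hz (TIP_V hT).le

end Crest.Agent.R128.Fin
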