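import Mathlib
import Crest.Agent.R128.Fin
import Crest.Agent.R128.TreeSum

/-!
Row 128, node V-MEAS (helper862): measurability layer of MASTER v2.  Small lemmas only:
continuity/measurability of the cocycle objects, closure of measurable predicates, first violations,
counting functions with `z`-dependent finite index sets, the reversor `Prod.swap`.
-/

set_option autoImplicit false

open MeasureTheory Filter Topology Finset
open scoped ENNReal
open Crest.Agent.R128 Crest.Agent.R128.Acc Crest.Agent.R128.TreeSum

namespace Crest.Agent.R128.Meas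

/-! ### continuity of the basic objects -/

theorem continuous_act_Mn (k : ℝ) (m : ℕ) (v : ℝ × ℝ) :
    Continuous fun z : Tor => act (Mn k m z) v :=
  (Crest.Agent.R128.Fin.continuous_act_Mn k m).comp (continuous_id.prodMk continuous_const)

theorem continuous_nn : Continuous nn := by
  unfold nn
  fun_prop

/-- `W_m(z) = nn (act (Mn k m z) v)` -/
theorem continuous_W (k : ℝ) (m : ℕ) (v : ℝ × ℝ) :
    Continuous fun z : Tor => nn (act (Mn k m z) v) :=
  continuous_nn.comp (continuous_act_Mn k m v)

theorem continuous_norm_W (k : ℝ) (m : ℕ) (v : ℝ × ℝ) :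
    Continuous fun z : Tor => ‖act (Mn k m z) v‖ :=
  (continuous_act_Mn k m v).norm

theorem continuous_T_iter (k : ℝ) (m : ℕ) : Continuous (T k)^[m] := (continuous_T k).iterate m

theorem continuous_Tinv_iter (k : ℝ) (m : ℕ) : Continuous (Tinv k)^[m] :=
  (continuous_Tinv k).iterate m

theorem continuous_V_iter (k : ℝ) (m : ℕ) : Continuous fun z : Tor => V k ((T k)^[m] z).2 :=
  (continuous_V k).comp (continuous_snd.comp (continuous_T_iter k m))

theorem continuous_V_iter_inv (k : ℝ) (m : ℕ) : Continuous fun z : Tor => V k ((Tinv k)^[m] z).2 :=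
  (continuous_V k).comp (continuous_snd.comp (continuous_Tinv_iter k m))

theorem continuous_dg (k : ℝ) (n : ℕ) : Continuous fun z : Tor => dg k z n := by
  unfold dg
  exact (continuous_V_iter k n).abs

theorem continuous_rr (k : ℝ) (n : ℕ) : Continuous fun z : Tor => rr k z n := by
  unfold rr rn
  exact (((continuous_Mn k n).matrix_elem 0 0).abs).add (((continuous_Mn k n).matrix_elem 0 1).abs)

theorem continuous_nm (k : ℝ) (n : ℕ) : Continuous fun z : Tor => nm k n z := by
  unfold nm
  exact (continuous_rr k n).max (continuous_rr k (n + 1))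

theorem continuous_bt (k : ℝ) (n : ℕ) : Continuous fun z : Tor => bt (rr k z) n := by
  unfold bt
  refine Continuous.log ((continuous_rr k n).max (continuous_rr k (n + 1))) fun z => ?_
  exact (lt_max_of_lt_left (rr_pos k z n)).ne'

/-! ### measurable predicates -/

section Pred

variable {α : Type*} [MeasurableSpace α]

theorem ms_forall {ι : Sort*} [Countable ι] {p : ι → α → Prop}
    (h : ∀ i, MeasurableSet {z | p i z}) : MeasurableSet {z | ∀ i, p i z} := by
  rw [Set.ofPred_forall]
  exact MeasurableSet.iInter h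

theorem ms_exists {ι : Sort*} [Countable ι] {p : ι → α → Prop}
    (h : ∀ i, MeasurableSet {z | p i z}) : MeasurableSet {z | ∃ i, p i z} := by
  rw [Set.ofPred_exists]
  exact MeasurableSet.iUnion h

theorem ms_and {p q : α → Prop} (hp : MeasurableSet {z | p z}) (hq : MeasurableSet {z | q z}) :
    MeasurableSet {z | p z ∧ q z} := hp.inter hq

theorem ms_or {p q : α → Prop} (hp : MeasurableSet {z | p z}) (hq : MeasurableSet {z | q z}) :
    MeasurableSet {z | p z ∨ q z} := hp.union hq

theorem ms_not {p : α → Prop} (hp : MeasurableSet {z | p z}) : MeasurableSet {z | ¬ p z} := hp.compl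

theorem ms_imp {p q : α → Prop} (hp : MeasurableSet {z | p z}) (hq : MeasurableSet {z | q z}) :
    MeasurableSet {z | p z → q z} := by
  have : {z | p z → q z} = {z | p z}ᶜ ∪ {z | q z} := by
    ext z
    simp [imp_iff_not_or]
  rw [this]
  exact hp.compl.union hq

theorem ms_const (p : Prop) : MeasurableSet {_z : α | p} := MeasurableSet.const p

theorem ms_const_imp {r : Prop} {q : α → Prop} (hq : r → MeasurableSet {z | q z}) :
    MeasurableSet {z | r → q z} := by
  by_cases h : r
  · simpa [h] using hq h
  · simp [h]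

theorem ms_const_and {r : Prop} {q : α → Prop} (hq : r → MeasurableSet {z | q z}) :
    MeasurableSet {z | r ∧ q z} := by
  by_cases h : r
  · simpa [h] using hq h
  · simp [h]

theorem ms_le {f g : α → ℝ} (hf : Measurable f) (hg : Measurable g) :
    MeasurableSet {z | f z ≤ g z} := measurableSet_le hf hg

theorem ms_lt {f g : α → ℝ} (hf : Measurable f) (hg : Measurable g) :
    MeasurableSet {z | f z < g z} := measurableSet_lt hf hg

/-- first violation at `n` -/
theorem ms_first {P : ℕ → α → Prop} (hP : ∀ n, MeasurableSet {z | P n z}) (n : ℕ) :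
    MeasurableSet {z | (∀ m < n, P m z) ∧ ¬ P n z} :=
  ms_and (ms_forall fun m => ms_const_imp fun _ => hP m) (ms_not (hP n))

/-- first violation with a side condition before it -/
theorem ms_first' {P Q : ℕ → α → Prop} (hP : ∀ n, MeasurableSet {z | P n z})
    (hQ : ∀ n, MeasurableSet {z | Q n z}) (n : ℕ) :
    MeasurableSet {z | (∀ m < n, P m z ∧ Q m z) ∧ ¬ P n z} :=
  ms_and (ms_forall fun m => ms_const_imp fun _ => ms_and (hP m) (hQ m)) (ms_not (hP n))

/-- a violation up to time `M` -/
theorem ms_viol {P Q : ℕ → α → Prop} (hP : ∀ n, MeasurableSet {z | P n z})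
    (hQ : ∀ n, MeasurableSet {z | Q n z}) (M : ℕ) :
    MeasurableSet {z | ∃ n ≤ M, (∀ m < n, P m z ∧ Q m z) ∧ ¬ P n z} :=
  ms_exists fun n => ms_const_and fun _ => ms_first' hP hQ n

omit [MeasurableSpace α] in
/-- the sets of first violations at different times are disjoint -/
theorem disjoint_first {P : ℕ → α → Prop} {m n : ℕ} (h : m ≠ n) :
    Disjoint {z | (∀ i < m, P i z) ∧ ¬ P m z} {z | (∀ i < n, P i z) ∧ ¬ P n z} := by
  rw [Set.disjoint_left]
  rintro z ⟨h1, h2⟩ ⟨h3, h4⟩
  rcases lt_or_gt_of_ne h with h5 | h5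
  · exact h2 (h3 m h5)
  · exact h4 (h1 n h5)

/-- existence of the first violation -/
theorem exists_first {P : ℕ → Prop} (h : ∃ n, ¬ P n) : ∃ n, (∀ m < n, P m) ∧ ¬ P n := by
  classical
  refine ⟨Nat.find h, fun m hm => ?_, Nat.find_spec h⟩
  by_contra hc
  exact Nat.find_min h hm hc

theorem exists_first_le {P : ℕ → Prop} {N : ℕ} (h : ∃ n ≤ N, ¬ P n) :
    ∃ n ≤ N, (∀ m < n, P m) ∧ ¬ P n := by
  classical
  obtain ⟨n0, h0, h1⟩ := h
  obtain ⟨n, h2, h3⟩ := exists_first ⟨n0, h1⟩
  refine ⟨n, ?_, h2, h3⟩
  by_contra hc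
  exact h1 (h2 n0 (by omega))

/-! ### counting functions -/

open Classical in
/-- number of times `n < N` at which a measurable predicate holds -/
theorem measurable_card_filter (s : Finset ℕ) {P : ℕ → α → Prop}
    (hP : ∀ n ∈ s, MeasurableSet {z | P n z}) :
    Measurable fun z => #{n ∈ s | P n z} := by
  have e : (fun z => #{n ∈ s | P n z}) = fun z => ∑ n ∈ s, if P n z then 1 else 0 := by
    funext z
    rw [Finset.card_filter]
  rw [e]
  refine Finset.measurable_sum s fun n hn => ?_
  exact Measurable.ite (hP n hn) measurable_const measurable_const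

open Classical in
/-- any finite index type -/
theorem measurable_card_filter' {ι : Type*} (s : Finset ι) {P : ι → α → Prop}
    (hP : ∀ n ∈ s, MeasurableSet {z | P n z}) :
    Measurable fun z => #{n ∈ s | P n z} := by
  have e : (fun z => #{n ∈ s | P n z}) = fun z => ∑ n ∈ s, if P n z then 1 else 0 := by
    funext z
    rw [Finset.card_filter]
  rw [e]
  refine Finset.measurable_sum s fun n hn => ?_
  exact Measurable.ite (hP n hn) measurable_const measurable_const

/-- an `ℕ`-valued function is measurable iff its level sets are -/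
theorem measurable_nat {f : α → ℕ} (h : ∀ n, MeasurableSet {z | f z = n}) : Measurable f :=
  measurable_to_countable' fun n => h n

/-- from the `ENNReal` cast to the `ℕ`-valued function -/
theorem measurable_nat_of_ennreal {f : α → ℕ} (h : Measurable fun z => (f z : ℝ≥0∞)) :
    Measurable f := by
  refine measurable_nat fun n => ?_
  have e : {z | f z = n} = (fun z => (f z : ℝ≥0∞)) ⁻¹' {(n : ℝ≥0∞)} := by
    ext z
    simp
  rw [e]
  exact h (measurableSet_singleton _)

open Classical in
/-- card of a `z`-dependent finite set with measurable membership -/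
theorem measurable_card {ι : Type*} [Countable ι] {S : α → Finset ι}
    (hS : ∀ l, MeasurableSet {z | l ∈ S z}) : Measurable fun z => #(S z) := by
  apply measurable_nat_of_ennreal
  have e : (fun z => ((#(S z) : ℕ) : ℝ≥0∞)) =
      fun z => ∑' l, if l ∈ S z then (1 : ℝ≥0∞) else 0 := by
    funext z
    rw [tsum_eq_sum (s := S z) (fun l hl => by simp [hl])]
    rw [Finset.sum_congr rfl (fun l hl => if_pos hl)]
    simp
  rw [e]
  exact Measurable.ennreal_tsum fun l => Measurable.ite (hS l) measurable_const measurable_const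

open Classical in
/-- sum of such cards over a fixed finite set -/
theorem measurable_sum_card {ι κ : Type*} [Countable ι] (s : Finset κ) {S : κ → α → Finset ι}
    (hS : ∀ n ∈ s, ∀ l, MeasurableSet {z | l ∈ S n z}) : Measurable fun z => ∑ n ∈ s, #(S n z) :=
  Finset.measurable_sum s fun n hn => measurable_card (hS n hn)

/-- `l ∈ Ico ⌈a z⌉₊ ⌈b z⌉₊` is measurable -/
theorem ms_mem_Ico_ceil {a b : α → ℝ} (ha : Measurable a) (hb : Measurable b) (l : ℕ) :
    MeasurableSet {z | l ∈ Finset.Ico ⌈a z⌉₊ ⌈b z⌉₊} := by
  have e : {z | l ∈ Finset.Ico ⌈a z⌉₊ ⌈b z⌉₊} = {z | a z ≤ l} ∩ {z | (l : ℝ) < b z} := by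
    ext z
    simp only [Finset.mem_Ico, Set.mem_ofPred_eq, Set.mem_inter_iff, Nat.ceil_le, Nat.lt_ceil]
  rw [e]
  exact (measurableSet_le ha measurable_const).inter (measurableSet_lt measurable_const hb)

end Pred

/-! ### the reversor -/

theorem T_swap (k : ℝ) (z : Tor) : T k z.swap = (Tinv k z).swap := by
  unfold T Tinv
  rfl

theorem Tinv_swap (k : ℝ) (z : Tor) : Tinv k z.swap = (T k z).swap := by
  unfold T Tinv
  rfl

theorem T_iter_swap (k : ℝ) (n : ℕ) (z : Tor) : (T k)^[n] z.swap = ((Tinv k)^[n] z).swap := by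
  induction n generalizing z with
  | zero => rfl
  | succ n ih => rw [Function.iterate_succ_apply, Function.iterate_succ_apply, T_swap, ih]

theorem Tinv_iter_swap (k : ℝ) (n : ℕ) (z : Tor) : (Tinv k)^[n] z.swap = ((T k)^[n] z).swap := by
  induction n generalizing z with
  | zero => rfl
  | succ n ih => rw [Function.iterate_succ_apply, Function.iterate_succ_apply, Tinv_swap, ih]

theorem measurableSet_swap {A : Set Tor} (hA : MeasurableSet A) : MeasurableSet (Prod.swap ⁻¹' A) :=
  hA.preimage measurable_swap

theorem volume_swap {A : Set Tor} (hA : MeasurableSet A) :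
    (volume : Measure Tor) (Prod.swap ⁻¹' A) = volume A :=
  mp_swap.measure_preimage hA.nullMeasurableSet

theorem volume_T_iter (k : ℝ) (n : ℕ) {A : Set Tor} (hA : MeasurableSet A) :
    (volume : Measure Tor) ((T k)^[n] ⁻¹' A) = volume A :=
  ((mp_T k).iterate n).measure_preimage hA.nullMeasurableSet

theorem volume_Tinv_iter (k : ℝ) (n : ℕ) {A : Set Tor} (hA : MeasurableSet A) :
    (volume : Measure Tor) ((Tinv k)^[n] ⁻¹' A) = volume A :=
  ((mp_Tinv k).iterate n).measure_preimage hA.nullMeasurableSet

open Classical in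
/-- orbit counts: the mean of `#{n < N : T^n z ∈ A}` is `N * area A` -/
theorem lintegral_card (k : ℝ) (N : ℕ) {A : Set Tor} (hA : MeasurableSet A) :
    ∫⁻ z : Tor, ((#{n ∈ range N | (T k)^[n] z ∈ A} : ℕ) : ℝ≥0∞) = N * volume A := by
  have e : ∀ z : Tor, ((#{n ∈ range N | (T k)^[n] z ∈ A} : ℕ) : ℝ≥0∞) =
      ∑ n ∈ range N, ((T k)^[n] ⁻¹' A).indicator 1 z := by
    intro z
    rw [Finset.card_filter]
    push_cast
    refine Finset.sum_congr rfl fun n _ => ?_
    by_cases h : (T k)^[n] z ∈ A
    · rw [if_pos h, Set.indicator_of_mem (by exact h)]; rfl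
    · rw [if_neg h, Set.indicator_of_notMem (by exact h)]
  simp_rw [e]
  rw [lintegral_finsetSum _ fun n _ => measurable_one.indicator
    (hA.preimage (continuous_T_iter k n).measurable)]
  rw [Finset.sum_congr rfl (fun n _ => by
    rw [lintegral_indicator_one (hA.preimage (continuous_T_iter k n).measurable),
      volume_T_iter k n hA])]
  simp

/-! ### lines and curves -/

theorem measurable_curve {g : ℝ → ℝ} (hg : Measurable g) :
    Measurable fun x : ℝ => ((g x : UnitAddCircle), (x : UnitAddCircle)) := by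
  exact ((AddCircle.measurable_mk').comp hg).prodMk (AddCircle.measurable_mk')

theorem measurableSet_curve {g : ℝ → ℝ} (hg : Measurable g) {A : Set Tor} (hA : MeasurableSet A) :
    MeasurableSet {x : ℝ | ((g x : UnitAddCircle), (x : UnitAddCircle)) ∈ A} :=
  hA.preimage (measurable_curve hg)

theorem measurableSet_line (c : UnitAddCircle) {A : Set Tor} (hA : MeasurableSet A) :
    MeasurableSet {t : UnitAddCircle | (t, c) ∈ A} :=
  hA.preimage (measurable_id.prodMk measurable_const)

theorem measurableSet_line' (c : UnitAddCircle) {A : Set Tor} (hA : MeasurableSet A) :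
    MeasurableSet {t : UnitAddCircle | (c, t) ∈ A} :=
  hA.preimage (measurable_const.prodMk measurable_id)

/-! ### comparisons of the growth functions -/

theorem ms_W_lt (k : ℝ) (m : ℕ) (v : ℝ × ℝ) (c : ℝ) :
    MeasurableSet {z : Tor | nn (act (Mn k m z) v) < c} :=
  measurableSet_lt (continuous_W k m v).measurable measurable_const

theorem ms_W_le (k : ℝ) (m : ℕ) (v : ℝ × ℝ) (c : ℝ) :
    MeasurableSet {z : Tor | nn (act (Mn k m z) v) ≤ c} :=
  measurableSet_le (continuous_W k m v).measurable measurable_const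

theorem ms_le_W (k : ℝ) (m : ℕ) (v : ℝ × ℝ) (c : ℝ) :
    MeasurableSet {z : Tor | c ≤ nn (act (Mn k m z) v)} :=
  measurableSet_le measurable_const (continuous_W k m v).measurable

theorem ms_Wpow_le (k : ℝ) (i j : ℕ) (v : ℝ × ℝ) (s : ℝ) :
    MeasurableSet {z : Tor | nn (act (Mn k i z) v) ^ s ≤ nn (act (Mn k j z) v)} :=
  measurableSet_le ((continuous_W k i v).measurable.pow_const s) (continuous_W k j v).measurable

theorem ms_nat_le_Wpow (k : ℝ) (i j : ℕ) (v : ℝ × ℝ) (s : ℝ) :
    MeasurableSet {z : Tor | (j : ℝ) ≤ nn (act (Mn k i z) v) ^ s} :=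
  measurableSet_le measurable_const ((continuous_W k i v).measurable.pow_const s)

theorem ms_digit_ge (k : ℝ) (m : ℕ) (c : ℝ) :
    MeasurableSet {z : Tor | c ≤ |V k ((T k)^[m] z).2|} :=
  measurableSet_le measurable_const (continuous_V_iter k m).abs.measurable

theorem ms_digit_lt (k : ℝ) (m : ℕ) (c : ℝ) :
    MeasurableSet {z : Tor | |V k ((T k)^[m] z).2| < c} :=
  measurableSet_lt (continuous_V_iter k m).abs.measurable measurable_const

end Crest.Agent.R128.Meas
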