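import Mathlib
import Crest.Agent.R128.Lam0U

/-!
# Row 128: finiteness and monotonicity of the total area `rho` of the relaxed drawdown classes
(helper150; asked by helper461, 16198)

`‖fld k z m‖ ≤ (8 k) ^ m`, so inside a window of length `M` only the classes `X ≤ (8 k) ^ M` are
non-empty.
-/

set_option autoImplicit false
open MeasureTheory Filter Topology Finset
open scoped ENNReal

namespace Crest.Agent.R128.RhoFin

open Crest.Agent.R128.TreeSum Crest.Agent.R128.Acc Crest.Agent.R128.Lam0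

theorem norm_stp_le (a : ℝ) (v : ℝ × ℝ) : ‖stp a v‖ ≤ (|a| + 1) * ‖v‖ := by
  have h1 : |v.1| ≤ ‖v‖ := by simpa using norm_fst_le v
  have h2 : |v.2| ≤ ‖v‖ := by simpa using norm_snd_le v
  have h0 : 0 ≤ ‖v‖ := norm_nonneg v
  have ha : 0 ≤ |a| := abs_nonneg a
  unfold stp
  rw [Prod.norm_def]
  apply max_le
  · rw [Real.norm_eq_abs]
    nlinarith
  · rw [Real.norm_eq_abs]
    calc |a * v.2 - v.1| ≤ |a * v.2| + |v.1| := abs_sub _ _
      _ = |a| * |v.2| + |v.1| := by rw [abs_mul]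
      _ ≤ |a| * ‖v‖ + ‖v‖ := add_le_add (mul_le_mul_of_nonneg_left h2 ha) h1
      _ = (|a| + 1) * ‖v‖ := by ring

/-- growth of the field of the vertical vector -/
theorem norm_fld_le {k : ℝ} (hk : 4 ≤ k) (z : Tor) (m : ℕ) : ‖fld k z m‖ ≤ (8 * k) ^ m := by
  induction m with
  | zero =>
    rw [fld_zero, Prod.norm_def]
    simp
  | succ m ih =>
    rw [fld_succ]
    have h1 := norm_stp_le (V k ((T k)^[m] z).2) (fld k z m)
    have h2 := abs_V_le hk ((T k)^[m] z)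
    have h3 : 0 ≤ ‖fld k z m‖ := norm_nonneg _
    calc ‖stp (V k ((T k)^[m] z).2) (fld k z m)‖
        ≤ (|V k ((T k)^[m] z).2| + 1) * ‖fld k z m‖ := h1
      _ ≤ (8 * k) * ‖fld k z m‖ := mul_le_mul_of_nonneg_right (by linarith) h3
      _ ≤ (8 * k) * (8 * k) ^ m := mul_le_mul_of_nonneg_left ih (by linarith)
      _ = (8 * k) ^ (m + 1) := by ring

/-- classes above the maximal growth are empty -/
theorem not_DDn {k : ℝ} (hk : 4 ≤ k) {L M : ℕ} {X : ℝ} (hX : (8 * k) ^ M < X) (z : Tor)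
    (n n' : ℕ) : ¬ DDn k L M X z n n' := by
  intro h
  have h1 := norm_fld_le hk z n
  have h2 : (8 * k) ^ n ≤ (8 * k) ^ M :=
    pow_le_pow_right₀ (by linarith) (le_trans h.lt.le h.le)
  linarith [h.lo]

theorem DDn_empty {k : ℝ} (hk : 4 ≤ k) {L M : ℕ} {X : ℝ} (hX : (8 * k) ^ M < X) :
    {z : Tor | ∃ n n', DDn k L M X z n n'} = ∅ := by
  ext z
  constructor
  · rintro ⟨n, n', h⟩
    exact absurd h (not_DDn hk hX z n n')
  · intro h
    exact absurd h (Set.notMem_empty z)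

theorem pow_lt_class {k : ℝ} (hk : 8 ≤ k) {M a D : ℕ} (hD : 2 * M + 1 ≤ D) :
    (8 * k) ^ M < k ^ (a + D) := by
  have h1 : (8 * k) ^ M ≤ (k * k) ^ M :=
    pow_le_pow_left₀ (by linarith) (by nlinarith) M
  have h2 : (k * k) ^ M = k ^ (2 * M) := by rw [← pow_two, ← pow_mul]
  have h3 : k ^ (2 * M) < k ^ (a + D) := pow_lt_pow_right₀ (by linarith) (by omega)
  linarith

/-- all classes `D ≥ 2 M + 1` are empty -/
theorem subset_empty {k : ℝ} (hk : 8 ≤ k) {L M a D : ℕ} (hD : 2 * M + 1 ≤ D) {S : Set Tor}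
    (hS : S ⊆ {z : Tor | ∃ n n', DDn k L M (k ^ (a + D)) z n n'}) : S = ∅ := by
  rw [DDn_empty (by linarith) (pow_lt_class hk hD)] at hS
  exact Set.subset_empty_iff.mp hS

/-- the sum over the classes is finite -/
theorem tsum_eq_range {k : ℝ} (hk : 8 ≤ k) {L M a : ℕ} (S : ℕ → Set Tor)
    (hS : ∀ D, S D ⊆ {z : Tor | ∃ n n', DDn k L M (k ^ (a + D)) z n n'}) {J : ℕ}
    (hJ : 2 * M + 1 ≤ J) :
    ∑' D, volume (S D) = ∑ D ∈ range J, volume (S D) := by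
  apply tsum_eq_sum
  intro D hD
  have hD' : 2 * M + 1 ≤ D := by
    have := mt mem_range.mpr hD
    omega
  rw [subset_empty hk hD' (hS D)]
  exact measure_empty

theorem tsum_lt_top {k : ℝ} (hk : 8 ≤ k) {L M a : ℕ} (S : ℕ → Set Tor)
    (hS : ∀ D, S D ⊆ {z : Tor | ∃ n n', DDn k L M (k ^ (a + D)) z n n'}) :
    ∑' D, volume (S D) < ⊤ := by
  rw [tsum_eq_range hk S hS le_rfl]
  exact ENNReal.sum_lt_top.mpr fun D _ => measure_lt_top _ _

/-- crude size: `≤ 2 M + 1` -/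
theorem tsum_le {k : ℝ} (hk : 8 ≤ k) {L M a : ℕ} (S : ℕ → Set Tor)
    (hS : ∀ D, S D ⊆ {z : Tor | ∃ n n', DDn k L M (k ^ (a + D)) z n n'}) :
    ∑' D, volume (S D) ≤ (2 * M + 1 : ℕ) := by
  rw [tsum_eq_range hk S hS le_rfl]
  calc ∑ D ∈ range (2 * M + 1), volume (S D) ≤ ∑ _D ∈ range (2 * M + 1), (1 : ℝ≥0∞) :=
        Finset.sum_le_sum fun D _ => prob_le_one
    _ = (2 * M + 1 : ℕ) := by simp

/-- monotonicity in the window of the relaxed drawdown event -/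
theorem DDn_mono {k : ℝ} {L M M' : ℕ} (h : M ≤ M') {X : ℝ} {z : Tor} {n n' : ℕ}
    (hd : DDn k L M X z n n') : DDn k L M' X z n n' :=
  ⟨hd.hLn, hd.lt, hd.le.trans h, hd.first, hd.max, hd.drop, hd.lo, hd.hi, hd.val⟩

theorem tsum_mono {S S' : ℕ → Set Tor} (h : ∀ D, S D ⊆ S' D) :
    ∑' D, volume (S D) ≤ ∑' D, volume (S' D) :=
  ENNReal.tsum_le_tsum fun D => measure_mono (h D)

/-! ### the literal definitions of the skeleton (draft 20:36 of helper291) -/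

/-- literal copy of `Skel.RD` -/
def RDc (k : ℝ) (L D M : ℕ) : Set Tor :=
  {z | ∃ n n', DDn k L M (k ^ D) z n n' ∧ ((n' : ℝ) - 1) ^ 400 ≤ 2 * ‖fld k z n‖}

/-- literal copy of `Skel.rho` -/
noncomputable def rhoc (k : ℝ) (L M : ℕ) : ℝ≥0∞ := ∑' D : ℕ, volume (RDc k L (L / 2 + D) M)

theorem RDc_subset (k : ℝ) (L D M : ℕ) :
    RDc k L D M ⊆ {z : Tor | ∃ n n', DDn k L M (k ^ D) z n n'} :=
  fun _ ⟨n, n', h, _⟩ => ⟨n, n', h⟩

theorem RDc_mono (k : ℝ) (L D : ℕ) {M M' : ℕ} (h : M ≤ M') : RDc k L D M ⊆ RDc k L D M' :=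
  fun _ ⟨n, n', h1, h2⟩ => ⟨n, n', DDn_mono h h1, h2⟩

theorem rhoc_eq {k : ℝ} (hk : 8 ≤ k) (L : ℕ) {M J : ℕ} (hJ : 2 * M + 1 ≤ J) :
    rhoc k L M = ∑ D ∈ range J, volume (RDc k L (L / 2 + D) M) :=
  tsum_eq_range hk (fun D => RDc k L (L / 2 + D) M) (fun D => RDc_subset k L (L / 2 + D) M) hJ

theorem rhoc_lt_top {k : ℝ} (hk : 8 ≤ k) (L M : ℕ) : rhoc k L M < ⊤ :=
  tsum_lt_top hk (fun D => RDc k L (L / 2 + D) M) (fun D => RDc_subset k L (L / 2 + D) M)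

theorem rhoc_ne_top {k : ℝ} (hk : 8 ≤ k) (L M : ℕ) : rhoc k L M ≠ ⊤ := (rhoc_lt_top hk L M).ne

theorem rhoc_mono (k : ℝ) (L : ℕ) {M M' : ℕ} (h : M ≤ M') : rhoc k L M ≤ rhoc k L M' :=
  tsum_mono fun D => RDc_mono k L (L / 2 + D) h

theorem rhoc_toReal_mono {k : ℝ} (hk : 8 ≤ k) (L : ℕ) {M M' : ℕ} (h : M ≤ M') :
    (rhoc k L M).toReal ≤ (rhoc k L M').toReal :=
  ENNReal.toReal_mono (rhoc_ne_top hk L M') (rhoc_mono k L h)

/-! ### the definitions of DECISIONS 3 (helper279, 16177) -/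

/-- literal copy of `Skel.RD` after DECISIONS 3 -/
def RDd (k : ℝ) (D M : ℕ) : Set Tor :=
  {z | ∃ n n', DDn k 1000 M (k ^ D) z n n' ∧ RV k 1000 z (n' - 1)}

/-- literal copy of `Skel.rho` after DECISIONS 3 -/
noncomputable def rhod (k : ℝ) (M : ℕ) : ℝ≥0∞ := ∑' D : ℕ, volume (RDd k (2000 + D) M)

theorem RDd_subset (k : ℝ) (D M : ℕ) :
    RDd k D M ⊆ {z : Tor | ∃ n n', DDn k 1000 M (k ^ D) z n n'} :=
  fun _ ⟨n, n', h, _⟩ => ⟨n, n', h⟩

theorem RDd_mono (k : ℝ) (D : ℕ) {M M' : ℕ} (h : M ≤ M') : RDd k D M ⊆ RDd k D M' :=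
  fun _ ⟨n, n', h1, h2⟩ => ⟨n, n', DDn_mono h h1, h2⟩

theorem rhod_eq {k : ℝ} (hk : 8 ≤ k) {M J : ℕ} (hJ : 2 * M + 1 ≤ J) :
    rhod k M = ∑ D ∈ range J, volume (RDd k (2000 + D) M) :=
  tsum_eq_range hk (fun D => RDd k (2000 + D) M) (fun D => RDd_subset k (2000 + D) M) hJ

theorem rhod_lt_top {k : ℝ} (hk : 8 ≤ k) (M : ℕ) : rhod k M < ⊤ :=
  tsum_lt_top hk (fun D => RDd k (2000 + D) M) (fun D => RDd_subset k (2000 + D) M)

theorem rhod_ne_top {k : ℝ} (hk : 8 ≤ k) (M : ℕ) : rhod k M ≠ ⊤ := (rhod_lt_top hk M).ne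

theorem rhod_mono (k : ℝ) {M M' : ℕ} (h : M ≤ M') : rhod k M ≤ rhod k M' :=
  tsum_mono fun D => RDd_mono k (2000 + D) h

theorem rhod_toReal_mono {k : ℝ} (hk : 8 ≤ k) {M M' : ℕ} (h : M ≤ M') :
    (rhod k M).toReal ≤ (rhod k M').toReal :=
  ENNReal.toReal_mono (rhod_ne_top hk M') (rhod_mono k h)

end Crest.Agent.R128.RhoFin
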