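import Mathlib
import Crest.Agent.R128.Close
import Crest.Agent.R128.Lam0U

/-!
# Row 128 (S0172), SKELETON of MASTER v2.1 (path version, window `[0,N]`, bootstrap in `N`)

Mathematics: helper279 (double cover, FINAL v2.1 = note 15985), 250/368/535/909/191 (path version),
434/548/550/58/732/802/953/815/136/379 (precisions).  Glue: helper744 (`Close`, `CloseFin.Inputs`).
Typed by helper291.

* root contour `bz k z n`, closed components `Close.Cmp β κ N i t j l` (`t` = first top), `Comp`, `mt`, `lv`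
  (744's `Close.lean`, `CloseSeq.lean`);
* `fld k z m` : Jacobi field of the vertical vector (379);
* backward objects = forward objects of `z.swap` (reversor: `T k z.swap = (Tinv k z).swap`).
* `L0` = number of regular digits (k-independent parameter, large).
-/

set_option autoImplicit false
open MeasureTheory Filter Topology Finset
open scoped ENNReal NNReal
open Crest.AnalysisR.StandardFamily

namespace Crest.Agent.R128.Skel

open Crest.Agent.R128.Acc Crest.Agent.R128.AccRoot Crest.Agent.R128.Lam0 Crest.Agent.R128.Close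

/-- `z` is a clean start up to time `n` (forward); `P = 100` : 379's `SV`; `P = 1000` : fresh.
Only times `≤ n` are tested, so `Val` is antitone in `n`. -/
structure Val (k : ℝ) (P L0 : ℕ) (z : Tor) (n : ℕ) : Prop where
  cl : ∀ m, m < L0 → m < n → k ^ ((2 : ℝ) / 3) ≤ |V k ((T k)^[m] z).2|
  v2 : ∀ i j, 1000 ≤ i → i ≤ j → j ≤ n → ‖fld k z i‖ ^ (P - 1) ≤ ‖fld k z j‖ ^ P
  v3 : ∀ j, 1000 ≤ j → j ≤ n → ∃ i, 1000 ≤ i ∧ i ≤ j ∧ (j : ℝ) ^ (4 * P) ≤ ‖fld k z i‖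

/-- one of the first `L0` digits is near critical -/
def C1 (k : ℝ) (L0 : ℕ) : Set Tor := {z | ∃ m, m < L0 ∧ |V k ((T k)^[m] z).2| < k ^ ((2 : ℝ) / 3)}

/-- long duration violation (exponent `4000`), after `L0` regular digits -/
def LG (k : ℝ) (L0 : ℕ) : Set Tor := {z | z ∉ C1 k L0 ∧ ∃ m, L0 < m ∧ RV k 1000 z (m - 1) ∧
  ∀ i, 1000 ≤ i → i < m → ‖fld k z i‖ ≤ 2 * (m : ℝ) ^ 4000}

/-- first violation is a drawdown, completed at a lag `≤ M` -/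
def Rc (k : ℝ) (L0 M : ℕ) : Set Tor := {z | z ∉ C1 k L0 ∧ z ∉ LG k L0 ∧ ¬ Val k 100 L0 z M}

/-- backward set of `S` -/
def bw (S : Set Tor) : Set Tor := {z | z.swap ∈ S}

/-- negligible set -/
def Ng (k : ℝ) (L0 : ℕ) : Set Tor := (C1 k L0 ∪ bw (C1 k L0)) ∪ (LG k L0 ∪ bw (LG k L0))

/-- relaxed drawdown violation of class `D`, completed at a lag `≤ M` (136's `DDr`, `L = 1000`) -/
def RD (k : ℝ) (D M : ℕ) : Set Tor :=
  {z | ∃ n n', DDn k 1000 M (k ^ D) z n n' ∧ RV k 1000 z (n' - 1)}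

/-- total area of the relaxed drawdown violations of classes `≥ D0`, completed at a lag `≤ M` -/
noncomputable def rho (k : ℝ) (D0 M : ℕ) : ℝ≥0∞ := ∑' D : ℕ, volume (RD k (D0 + D) M)

/-- the small error `k ^ (-1/4)` -/
noncomputable def e (k : ℝ) : ℝ := k ^ (-(1 : ℝ) / 4)

/-- both feet are clean towards the top `t` -/
def Fresh (k : ℝ) (L0 : ℕ) (z : Tor) (i j t : ℕ) : Prop :=
  Val k 1000 L0 ((T k)^[i] z) (t - i) ∧ Val k 1000 L0 ((T k)^[j] z).swap (j - t)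

/-- the component of level `l` with first top `t` is not fresh (744's `nf`) -/
def nf (k : ℝ) (L0 N : ℕ) (z : Tor) (t l : ℕ) : Prop :=
  ∀ i j, Cmp (bz k z) (Real.log k) N i t j l → ¬ Fresh k L0 z i j t

open Classical in
/-- number of times `v ≤ N` with `T^v z ∈ S v` -/
noncomputable def vs (k : ℝ) (N : ℕ) (z : Tor) (S : ℕ → Set Tor) : ℕ :=
  #{v ∈ range (N + 1) | (T k)^[v] z ∈ S v}

/-- **V1 (CHARGE)**, pointwise: components at least `Q1` levels high which are not fresh -/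
def V1 : Prop := ∃ L1 : ℕ, ∀ L0, L1 ≤ L0 → ∃ Q1 C : ℕ, ∃ k₁ : ℝ, ∀ k, k₁ ≤ k → ∀ (N : ℕ) (z : Tor)
  (S : Finset (ℕ × ℕ)), (∀ p ∈ S, Comp (bz k z) (Real.log k) N p.1 p.2 ∧
    p.2 + Q1 ≤ ⌈bz k z p.1 / Real.log k⌉₊ ∧ nf k L0 N z p.1 p.2) →
  #S ≤ C * (vs k N z (fun v => Rc k L0 (N - v) ∩ bw (Rc k L0 v)) + vs k N z (fun _ => Ng k L0))

open Classical in
/-- **V2 (SINGLE COVER)**, pointwise, all classes, windows inside `[0,N]` (136's (P)) -/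
def V2 : Prop := ∃ D0 C : ℕ, ∃ k₁ : ℝ, ∀ k, k₁ ≤ k → ∀ (N J : ℕ) (z : Tor),
  ∑ D ∈ range J, #{v ∈ range N | (T k)^[v] z ∈ RD k (D0 + D) (N - v)} ≤ C * cross k N z

/-- **V2L (LONG)** -/
def V2L : Prop := ∃ L1 : ℕ, ∀ L0, L1 ≤ L0 → ∃ C : ℝ, ∃ k₁ : ℝ, ∀ k, k₁ ≤ k →
  volume (LG k L0) ≤ ENNReal.ofReal (C * e k)

/-- **V3 (LAM0)** on every unit curve `{(σ X, X)}` (NOT needed if V4 is proved by 815's product of strips) -/
def V3 : Prop := ∀ D0 : ℕ, ∃ L1 : ℕ, ∀ L0, L1 ≤ L0 → ∃ C : ℝ≥0, ∃ k₁ : ℝ, ∀ k, k₁ ≤ k → ∀ (M : ℕ)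
  (σ : ℝ → ℝ) (a : ℝ), LipschitzWith (1 / 8) σ →
  volume {X : ℝ | X ∈ Set.Icc a (a + 1) ∧ pr (σ X, X) ∈ Rc k L0 M} ≤
    C * (ENNReal.ofReal (e k) + rho k D0 M)

/-- **V4 (DOUBLE COVER)** -/
def V4 : Prop := ∀ D0 : ℕ, ∃ L1 : ℕ, ∀ L0, L1 ≤ L0 → ∃ C : ℝ≥0, ∃ k₁ : ℝ, ∀ k, k₁ ≤ k → ∀ M M' : ℕ,
  volume (Rc k L0 M ∩ bw (Rc k L0 M')) ≤
    C * ((ENNReal.ofReal (e k) + rho k D0 M) * (ENNReal.ofReal (e k) + rho k D0 M'))

open Classical in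
/-- fresh block `[Q, 16 Q)` below the top `t` (fraction parameter `R`) -/
def FBR (k : ℝ) (L0 R N : ℕ) (z : Tor) (t Q : ℕ) : Prop :=
  16 * Q ≤ mt (bz k z) (Real.log k) N t ∧
    R * #{r ∈ Ico Q (16 * Q) | nf k L0 N z t (lv k z t r)} < Q

/-- **V5 (FRESH TIPS)**: absolute bound of the area of the tops with a fresh block -/
def V5 : Prop := ∃ L1 : ℕ, ∀ L0, L1 ≤ L0 → ∃ R Q1 : ℕ, ∃ C θ : ℝ, 0 < C ∧ 0 < θ ∧ θ < 1 ∧ ∃ k₁ : ℝ,
  ∀ k, k₁ ≤ k → ∀ Q : ℕ, Q1 ≤ Q →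
  volume {y : Tor | ∃ z t N, (T k)^[t] z = y ∧ FBR k L0 R N z t Q} ≤ ENNReal.ofReal (C / k * θ ^ Q)

/-- **VM** (measurability) -/
def VM : Prop := ∀ (k : ℝ) (L0 M : ℕ), MeasurableSet (C1 k L0) ∧ MeasurableSet (LG k L0) ∧
  MeasurableSet (Rc k L0 M) ∧ MeasurableSet (RD k L0 M)

/-- the statement of S0172 -/
def Res : Prop := ∃ k₀ : ℝ, 0 < k₀ ∧ ∀ k : ℝ, k₀ ≤ k →
      0 < MeasureTheory.volume ({p : ℝ × ℝ | ∃ c : ℝ, 0 < c ∧
          ∃ᶠ n : ℕ in Filter.atTop, c * n ≤ Real.log ‖fderiv ℝ (standardMapLift k)^[n] p‖} ∩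
        Set.Ico (0 : ℝ) 1 ×ˢ Set.Ico (0 : ℝ) 1)

/-- **V6 (GLUE)**, via 744's `CloseFin` / 909's `BootN` / 485's `result_of_cross` -/
def V6 : Prop := V1 → V2 → V2L → V4 → V5 → VM → Res

end Crest.Agent.R128.Skel
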