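import Mathlib
import Crest.Agent.R128.Skel
import Crest.Agent.R128.CloseM
import Crest.Agent.R128.RhoFin
import Crest.Agent.R128.Meas

/-!
# Row 128, V6 (helper310): the measure half of the glue

`rho` is finite, monotone; the integrated forms of `V2` (`single`), `V4` (`double`), the area of the
negligible set (`vbad`), the area of the fresh blocks (`area`), and the assembly `v6 : Skel.V6`.
-/

set_option autoImplicit false
open MeasureTheory Filter Topology Finset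
open scoped ENNReal NNReal
open Crest.AnalysisR.StandardFamily

namespace Crest.Agent.R128.SkelMeas

open Crest.Agent.R128.Acc Crest.Agent.R128.AccRoot Crest.Agent.R128.Lam0 Crest.Agent.R128.Close
open Crest.Agent.R128.CloseV2 Crest.Agent.R128.RhoFin Crest.Agent.R128.Meas
open Crest.Agent.R128

/-! ### finiteness and monotonicity of `rho` -/

theorem RD_subset (k : ℝ) (D M : ℕ) :
    Skel.RD k D M ⊆ {z : Tor | ∃ n n', DDn k 1000 M (k ^ D) z n n'} :=
  fun _ ⟨n, n', h, _⟩ => ⟨n, n', h⟩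

theorem RD_mono (k : ℝ) (D : ℕ) {M M' : ℕ} (h : M ≤ M') : Skel.RD k D M ⊆ Skel.RD k D M' :=
  fun _ ⟨n, n', h1, h2⟩ => ⟨n, n', DDn_mono h h1, h2⟩

theorem rho_eq {k : ℝ} (hk : 8 ≤ k) (D0 : ℕ) {M J : ℕ} (hJ : 2 * M + 1 ≤ J) :
    Skel.rho k D0 M = ∑ D ∈ range J, volume (Skel.RD k (D0 + D) M) :=
  tsum_eq_range hk (fun D => Skel.RD k (D0 + D) M) (fun D => RD_subset k (D0 + D) M) hJ

theorem rho_lt_top {k : ℝ} (hk : 8 ≤ k) (D0 M : ℕ) : Skel.rho k D0 M < ⊤ :=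
  tsum_lt_top hk (fun D => Skel.RD k (D0 + D) M) (fun D => RD_subset k (D0 + D) M)

theorem rho_ne_top {k : ℝ} (hk : 8 ≤ k) (D0 M : ℕ) : Skel.rho k D0 M ≠ ⊤ := (rho_lt_top hk D0 M).ne

theorem rho_mono (k : ℝ) (D0 : ℕ) {M M' : ℕ} (h : M ≤ M') : Skel.rho k D0 M ≤ Skel.rho k D0 M' :=
  tsum_mono fun D => RD_mono k (D0 + D) h

theorem rho_toReal_mono {k : ℝ} (hk : 8 ≤ k) (D0 : ℕ) : Monotone fun M => (Skel.rho k D0 M).toReal :=
  fun _ _ h => ENNReal.toReal_mono (rho_ne_top hk D0 _) (rho_mono k D0 h)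

theorem RD_zero (k : ℝ) (D : ℕ) : Skel.RD k D 0 = ∅ := by
  ext z
  constructor
  · rintro ⟨n, n', h, _⟩
    have h1 := h.lt
    have h2 := h.le
    omega
  · intro h
    exact absurd h (Set.notMem_empty z)

theorem rho_zero {k : ℝ} (hk : 8 ≤ k) (D0 : ℕ) : Skel.rho k D0 0 = 0 := by
  rw [rho_eq hk D0 (J := 1) (by norm_num)]
  simp [RD_zero]

/-! ### V2 integrated -/

open Classical in
theorem single_lint {k : ℝ} (hk : 8 ≤ k) {D0 C : ℕ} (hm : Skel.VM)
    (h2 : ∀ (N J : ℕ) (z : Tor),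
      ∑ D ∈ range J, #{v ∈ range N | (T k)^[v] z ∈ Skel.RD k (D0 + D) (N - v)} ≤ C * cross k N z)
    (N : ℕ) :
    ∑ v ∈ range (N + 1), Skel.rho k D0 v ≤ C * ∫⁻ z : Tor, (cross k N z : ℝ≥0∞) := by
  have e1 : ∑ v ∈ range (N + 1), Skel.rho k D0 v = ∑ v ∈ range N, Skel.rho k D0 (N - v) := by
    rw [Finset.sum_range_succ', rho_zero hk, add_zero, ← Finset.sum_range_reflect]
    refine Finset.sum_congr rfl fun v hv => ?_
    rw [mem_range] at hv
    congr 1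
    omega
  rw [e1]
  have e2 : ∀ v ∈ range N, Skel.rho k D0 (N - v) =
      ∑ D ∈ range (2 * N + 1), volume (Skel.RD k (D0 + D) (N - v)) := fun v _ =>
    rho_eq hk D0 (by omega)
  rw [Finset.sum_congr rfl e2, Finset.sum_comm]
  have e3 : ∀ D ∈ range (2 * N + 1), ∀ v ∈ range N, volume (Skel.RD k (D0 + D) (N - v)) =
      ∫⁻ z : Tor, (Skel.RD k (D0 + D) (N - v)).indicator (fun _ => (1 : ℝ≥0∞)) ((T k)^[v] z) :=
    fun D _ v _ => (lintegral_ind (hm k (D0 + D) (N - v)).2.2.2 k v).symm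
  rw [Finset.sum_congr rfl fun D hD => Finset.sum_congr rfl (e3 D hD)]
  have m1 : ∀ D v, Measurable fun z : Tor =>
      (Skel.RD k (D0 + D) (N - v)).indicator (fun _ => (1 : ℝ≥0∞)) ((T k)^[v] z) := fun D v =>
    measurable_ind (hm k (D0 + D) (N - v)).2.2.2 k v
  rw [Finset.sum_congr rfl fun D _ => (lintegral_finsetSum (range N) fun v _ => m1 D v).symm,
    ← lintegral_finsetSum _ fun D _ => Finset.measurable_sum _ fun v _ => m1 D v]
  have m2 : Measurable fun z : Tor => (cross k N z : ℝ≥0∞) :=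
    measurable_from_nat.comp (measurable_cross k N)
  rw [← lintegral_const_mul _ m2]
  refine lintegral_mono fun z => ?_
  have h3 := h2 N (2 * N + 1) z
  have h4 : ((∑ D ∈ range (2 * N + 1),
      #{v ∈ range N | (T k)^[v] z ∈ Skel.RD k (D0 + D) (N - v)} : ℕ) : ℝ≥0∞) ≤
      ((C * cross k N z : ℕ) : ℝ≥0∞) := by exact_mod_cast h3
  push_cast at h4
  refine le_trans (le_of_eq ?_) h4
  refine Finset.sum_congr rfl fun D _ => ?_
  rw [Finset.card_filter]
  push_cast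
  refine Finset.sum_congr rfl fun v _ => ?_
  rw [Set.indicator_apply]

theorem lint_cross {k : ℝ} (hk : 1 < k) (N : ℕ) :
    ∫⁻ z : Tor, (cross k N z : ℝ≥0∞) = ENNReal.ofReal (∫ z : Tor, (cross k N z : ℝ)) := by
  rw [ofReal_integral_eq_lintegral_ofReal (integrable_cross hk N)
    (Eventually.of_forall fun z => Nat.cast_nonneg _)]
  refine lintegral_congr fun z => ?_
  rw [ENNReal.ofReal_natCast]

open Classical in
theorem single {k : ℝ} (hk : 8 ≤ k) {D0 C : ℕ} (hm : Skel.VM)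
    (h2 : ∀ (N J : ℕ) (z : Tor),
      ∑ D ∈ range J, #{v ∈ range N | (T k)^[v] z ∈ Skel.RD k (D0 + D) (N - v)} ≤ C * cross k N z)
    (N : ℕ) :
    ∑ v ∈ range (N + 1), (Skel.rho k D0 v).toReal ≤ C * ∫ z : Tor, (cross k N z : ℝ) := by
  have h := single_lint hk hm h2 N
  rw [lint_cross (by linarith) N, ← ENNReal.ofReal_natCast C,
    ← ENNReal.ofReal_mul (Nat.cast_nonneg C)] at h
  rw [← ENNReal.toReal_sum fun v _ => rho_ne_top hk D0 v]
  refine ENNReal.toReal_le_of_le_ofReal ?_ h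
  exact mul_nonneg (Nat.cast_nonneg C) (integral_nonneg fun _ => Nat.cast_nonneg _)

/-! ### V4 in real form -/

theorem e_pos {k : ℝ} (hk : 0 < k) : 0 < Skel.e k := Real.rpow_pos_of_pos hk _

theorem double {k : ℝ} (hk : 8 ≤ k) {D0 L0 : ℕ} {C : ℝ≥0}
    (h4 : ∀ M M' : ℕ, volume (Skel.Rc k L0 M ∩ Skel.bw (Skel.Rc k L0 M')) ≤
      C * ((ENNReal.ofReal (Skel.e k) + Skel.rho k D0 M) *
        (ENNReal.ofReal (Skel.e k) + Skel.rho k D0 M'))) {C' : ℝ} (hC : (C : ℝ) ≤ C') (M M' : ℕ) :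
    volume (Skel.Rc k L0 M ∩ Skel.bw (Skel.Rc k L0 M')) ≤
      ENNReal.ofReal (C' * (((Skel.rho k D0 M).toReal + Skel.e k) *
        ((Skel.rho k D0 M').toReal + Skel.e k) + Skel.e k)) := by
  have he : 0 < Skel.e k := e_pos (by linarith)
  refine (h4 M M').trans ?_
  have e1 : ∀ M, ENNReal.ofReal (Skel.e k) + Skel.rho k D0 M =
      ENNReal.ofReal ((Skel.rho k D0 M).toReal + Skel.e k) := fun M => by
    rw [ENNReal.ofReal_add ENNReal.toReal_nonneg he.le, ENNReal.ofReal_toReal (rho_ne_top hk D0 M),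
      add_comm]
  have hn : ∀ M, 0 ≤ (Skel.rho k D0 M).toReal + Skel.e k := fun M =>
    add_nonneg ENNReal.toReal_nonneg he.le
  rw [e1, e1, ← ENNReal.ofReal_mul (hn M), ← ENNReal.ofReal_coe_nnreal,
    ← ENNReal.ofReal_mul C.coe_nonneg]
  apply ENNReal.ofReal_le_ofReal
  have hC0 : (0:ℝ) ≤ C := C.coe_nonneg
  have h5 := mul_nonneg (hn M) (hn M')
  nlinarith [mul_le_mul_of_nonneg_right hC h5, mul_nonneg (hC0.trans hC) he.le]

/-! ### the negligible set -/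

theorem measurableSet_bw {S : Set Tor} (hS : MeasurableSet S) : MeasurableSet (Skel.bw S) :=
  mp_swap.measurable hS

theorem volume_bw {S : Set Tor} (hS : MeasurableSet S) : volume (Skel.bw S) = volume S :=
  volume_swap hS

theorem measurableSet_Ng (hm : Skel.VM) (k : ℝ) (L0 : ℕ) : MeasurableSet (Skel.Ng k L0) :=
  ((hm k L0 0).1.union (measurableSet_bw (hm k L0 0).1)).union
    ((hm k L0 0).2.1.union (measurableSet_bw (hm k L0 0).2.1))

theorem volume_C1 {k : ℝ} (hk : 1 ≤ k) (L0 : ℕ) :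
    volume (Skel.C1 k L0) ≤ ENNReal.ofReal (L0 * Skel.e k) := by
  have hk0 : 0 < k := by linarith
  have hs : Skel.C1 k L0 ⊆ ⋃ m ∈ range L0, (T k)^[m] ⁻¹' {z : Tor | |V k z.2| ≤ k ^ ((2:ℝ) / 3)} := by
    rintro z ⟨m, hm, h⟩
    simp only [Set.mem_iUnion, exists_prop]
    exact ⟨m, mem_range.mpr hm, h.le⟩
  have hB : MeasurableSet {z : Tor | |V k z.2| ≤ k ^ ((2:ℝ) / 3)} :=
    (isClosed_le ((continuous_V k).comp continuous_snd).abs continuous_const).measurableSet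
  have hV : volume {z : Tor | |V k z.2| ≤ k ^ ((2:ℝ) / 3)} ≤ ENNReal.ofReal (Skel.e k) := by
    have h3 : (volume : Measure Tor).real {z : Tor | |V k z.2| ≤ k ^ ((2:ℝ) / 3)} ≤
        k ^ ((2:ℝ) / 3) / k := volumeReal_V_le hk (Real.rpow_nonneg hk0.le _)
    have h4 : k ^ ((2:ℝ) / 3) / k ≤ Skel.e k := by
      rw [Skel.e, ← Real.rpow_sub_one hk0.ne']
      exact Real.rpow_le_rpow_of_exponent_le hk (by norm_num)
    rw [measureReal_def] at h3
    rw [ENNReal.le_ofReal_iff_toReal_le (measure_ne_top _ _) (e_pos hk0).le]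
    exact h3.trans h4
  calc volume (Skel.C1 k L0)
      ≤ volume (⋃ m ∈ range L0, (T k)^[m] ⁻¹' {z : Tor | |V k z.2| ≤ k ^ ((2:ℝ) / 3)}) :=
        measure_mono hs
    _ ≤ ∑ m ∈ range L0, volume ((T k)^[m] ⁻¹' {z : Tor | |V k z.2| ≤ k ^ ((2:ℝ) / 3)}) :=
        measure_biUnion_finset_le _ _
    _ ≤ ∑ m ∈ range L0, ENNReal.ofReal (Skel.e k) := by
        refine Finset.sum_le_sum fun m _ => ?_
        rw [(mp_iter k m).measure_preimage hB.nullMeasurableSet]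
        exact hV
    _ = ENNReal.ofReal (L0 * Skel.e k) := by
        rw [Finset.sum_const, card_range, nsmul_eq_mul, ENNReal.ofReal_mul (Nat.cast_nonneg _),
          ENNReal.ofReal_natCast]

theorem vbad {k : ℝ} (hk : 1 ≤ k) {L0 : ℕ} (hm : Skel.VM) {C C' : ℝ}
    (hL : volume (Skel.LG k L0) ≤ ENNReal.ofReal (C * Skel.e k))
    (hC : 2 * L0 + 2 * max C 0 ≤ C') :
    volume (Skel.Ng k L0) ≤ ENNReal.ofReal (C' * Skel.e k) := by
  have he : 0 < Skel.e k := e_pos (by linarith)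
  have hL' : volume (Skel.LG k L0) ≤ ENNReal.ofReal (max C 0 * Skel.e k) :=
    hL.trans (ENNReal.ofReal_le_ofReal (mul_le_mul_of_nonneg_right (le_max_left _ _) he.le))
  have h1 := volume_C1 hk L0
  have hm1 := (hm k L0 0).1
  have hm2 := (hm k L0 0).2.1
  have hc : (0:ℝ) ≤ max C 0 := le_max_right _ _
  calc volume (Skel.Ng k L0)
      ≤ (volume (Skel.C1 k L0) + volume (Skel.bw (Skel.C1 k L0))) +
        (volume (Skel.LG k L0) + volume (Skel.bw (Skel.LG k L0))) :=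
        (measure_union_le _ _).trans (add_le_add (measure_union_le _ _) (measure_union_le _ _))
    _ ≤ (ENNReal.ofReal (L0 * Skel.e k) + ENNReal.ofReal (L0 * Skel.e k)) +
        (ENNReal.ofReal (max C 0 * Skel.e k) + ENNReal.ofReal (max C 0 * Skel.e k)) := by
        rw [volume_bw hm1, volume_bw hm2]
        gcongr
    _ = ENNReal.ofReal ((L0 * Skel.e k + L0 * Skel.e k) +
        (max C 0 * Skel.e k + max C 0 * Skel.e k)) := by
        rw [ENNReal.ofReal_add, ENNReal.ofReal_add, ENNReal.ofReal_add] <;> positivity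
    _ ≤ _ := by
        apply ENNReal.ofReal_le_ofReal
        nlinarith

/-! ### the area of the fresh blocks -/

theorem area {k : ℝ} (hk : 1 ≤ k) {C θ : ℝ} (hC : 0 < C) (h0 : 0 < θ) (h1 : θ < 1) {Q0 : ℕ}
    (hQ0 : 1 ≤ Q0) {A : ℕ → Set Tor}
    (hA : ∀ i, volume (A i) ≤ ENNReal.ofReal (C / k * θ ^ (16 ^ i * Q0))) {C' : ℝ}
    (hC' : C * (θ / (1 - θ) ^ 2) ≤ C') (I : ℕ) :
    ∑ i ∈ range I, ((16 : ℝ≥0∞) ^ i * Q0) * volume (A i) ≤ ENNReal.ofReal (C' * Skel.e k) := by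
  have hk0 : 0 < k := by linarith
  have he : 0 < Skel.e k := e_pos hk0
  have hke : 1 / k ≤ Skel.e k := by
    rw [Skel.e, one_div, ← Real.rpow_neg_one]
    exact Real.rpow_le_rpow_of_exponent_le hk (by norm_num)
  have e1 : ∀ i : ℕ, ((16 : ℝ≥0∞) ^ i * Q0) = ENNReal.ofReal ((16 ^ i * Q0 : ℕ) : ℝ) := fun i => by
    rw [ENNReal.ofReal_natCast]
    push_cast
    rfl
  have hθ : 0 < 1 - θ := by linarith
  calc ∑ i ∈ range I, ((16 : ℝ≥0∞) ^ i * Q0) * volume (A i)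
      ≤ ∑ i ∈ range I, ENNReal.ofReal (((16 ^ i * Q0 : ℕ) : ℝ) * (C / k * θ ^ (16 ^ i * Q0))) := by
        refine Finset.sum_le_sum fun i _ => ?_
        rw [e1, ENNReal.ofReal_mul (Nat.cast_nonneg _)]
        gcongr
        exact hA i
    _ = ENNReal.ofReal (∑ i ∈ range I, ((16 ^ i * Q0 : ℕ) : ℝ) * (C / k * θ ^ (16 ^ i * Q0))) := by
        rw [ENNReal.ofReal_sum_of_nonneg]
        intro i _
        positivity
    _ ≤ _ := by
        apply ENNReal.ofReal_le_ofReal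
        have e2 : ∑ i ∈ range I, ((16 ^ i * Q0 : ℕ) : ℝ) * (C / k * θ ^ (16 ^ i * Q0)) =
            C * (1 / k) * ∑ i ∈ range I, ((16 ^ i * Q0 : ℕ) : ℝ) * θ ^ (16 ^ i * Q0) := by
          rw [Finset.mul_sum]
          refine Finset.sum_congr rfl fun i _ => ?_
          ring
        rw [e2]
        have h3 := sum_blocks_le h0.le h1 hQ0 I
        have h4 : 0 ≤ ∑ i ∈ range I, ((16 ^ i * Q0 : ℕ) : ℝ) * θ ^ (16 ^ i * Q0) :=
          Finset.sum_nonneg fun i _ => by positivity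
        calc C * (1 / k) * ∑ i ∈ range I, ((16 ^ i * Q0 : ℕ) : ℝ) * θ ^ (16 ^ i * Q0)
            ≤ C * Skel.e k * (θ / (1 - θ) ^ 2) := by gcongr
          _ = (C * (θ / (1 - θ) ^ 2)) * Skel.e k := by ring
          _ ≤ C' * Skel.e k := mul_le_mul_of_nonneg_right hC' he.le

/-! ### charge -/

open Classical in
theorem vs_cast (k : ℝ) (N : ℕ) (z : Tor) (S : ℕ → Set Tor) :
    (Skel.vs k N z S : ℝ≥0∞) =
      ∑ v ∈ range (N + 1), (S v).indicator (fun _ => (1 : ℝ≥0∞)) ((T k)^[v] z) := by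
  unfold Skel.vs
  rw [Finset.card_filter]
  push_cast
  refine Finset.sum_congr rfl fun v _ => ?_
  rw [Set.indicator_apply]

/-! ### the parameter `e` -/

theorem e_sq {k : ℝ} (hk : 0 < k) : Skel.e k ^ 2 * k = k ^ ((1:ℝ) / 2) := by
  have h1 : Skel.e k ^ 2 = k ^ (-(1:ℝ) / 2) := by
    rw [Skel.e, ← Real.rpow_natCast, ← Real.rpow_mul hk.le]
    norm_num
  rw [h1]
  nth_rewrite 2 [← Real.rpow_one k]
  rw [← Real.rpow_add hk]
  norm_num

theorem e_tendsto : Tendsto Skel.e atTop (𝓝 0) := by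
  have h := tendsto_rpow_neg_atTop (show (0:ℝ) < 1 / 4 by norm_num)
  have h2 : Skel.e = fun k : ℝ => k ^ (-(1 / 4) : ℝ) := by
    funext k
    unfold Skel.e
    norm_num
  rw [h2]
  exact h

theorem exists_k {B : ℝ} (hB : 0 < B) : ∃ k₁ : ℝ, 8 ≤ k₁ ∧ ∀ k, k₁ ≤ k →
    13 ≤ Skel.e k ^ 2 * k ∧ B * Skel.e k ≤ 1 := by
  have h1 : ∀ᶠ k : ℝ in atTop, 13 ≤ k ^ ((1:ℝ) / 2) :=
    (tendsto_rpow_atTop (by norm_num : (0:ℝ) < 1 / 2)).eventually_ge_atTop 13
  have h2 : ∀ᶠ k : ℝ in atTop, Skel.e k ≤ 1 / B :=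
    (e_tendsto.eventually_lt_const (by positivity : (0:ℝ) < 1 / B)).mono fun k hk => hk.le
  obtain ⟨a, ha⟩ := eventually_atTop.mp (h1.and h2)
  refine ⟨max a 8, le_max_right _ _, fun k hk => ?_⟩
  have hk8 : 8 ≤ k := (le_max_right _ _).trans hk
  obtain ⟨h3, h4⟩ := ha k ((le_max_left _ _).trans hk)
  refine ⟨by rw [e_sq (by linarith)]; exact h3, ?_⟩
  rw [le_div_iff₀ hB] at h4
  linarith

/-! ### the glue -/

open Classical in
/-- **V6**: the skeleton Props give S0172 -/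
theorem v6 : Skel.V6 := by
  rintro ⟨L1, h1⟩ ⟨D0, C2, k2, h2⟩ ⟨L2, hL⟩ h4 ⟨L5, h5⟩ hm
  obtain ⟨L4, h4⟩ := h4 D0
  set L0 : ℕ := L1 + L2 + L4 + L5 with hL0
  obtain ⟨Q1, C1, k1, h1⟩ := h1 L0 (by omega)
  obtain ⟨CL, kL, hL⟩ := hL L0 (by omega)
  obtain ⟨C4, k4, h4⟩ := h4 L0 (by omega)
  obtain ⟨R, Q5, C5, θ, hC5, hθ0, hθ1, k5, h5⟩ := h5 L0 (by omega)
  set Q0 : ℕ := Q1 + Q5 + 1 with hQ0
  have hθ : 0 < 1 - θ := by linarith
  have hA0 : 0 ≤ C5 * (θ / (1 - θ) ^ 2) := by positivity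
  have hm0 : (0:ℝ) ≤ max CL 0 := le_max_right _ _
  have hC40 : (0:ℝ) ≤ C4 := C4.coe_nonneg
  have hC10 : (0:ℝ) ≤ C1 := Nat.cast_nonneg _
  have hC20 : (0:ℝ) ≤ C2 := Nat.cast_nonneg _
  have hL00 : (0:ℝ) ≤ (L0 : ℝ) := Nat.cast_nonneg _
  set C : ℝ := 1 + C1 + C2 + C4 + (2 * L0 + 2 * max CL 0) + C5 * (θ / (1 - θ) ^ 2) with hC
  have hC1 : 1 ≤ C := by rw [hC]; linarith
  have hQ1 : (1:ℝ) ≤ Q0 := by
    have : 1 ≤ Q0 := by omega
    exact_mod_cast this
  obtain ⟨k6, hk6, h6⟩ := exists_k (B := 72 * (800 * C ^ 2 * Q0 * ((R + 1 : ℕ) : ℝ)) ^ 4)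
    (by have : (0:ℝ) < ((R + 1 : ℕ) : ℝ) := by exact_mod_cast Nat.succ_pos R
        positivity)
  apply result_of_inputsR
  refine ⟨C, R + 1, Q0, hC1, by omega, by omega,
    max (max (max k1 k2) (max kL k4)) (max k5 k6), fun k hk => ?_⟩
  have hk1 : k1 ≤ k := le_trans (by simp) hk
  have hk2 : k2 ≤ k := le_trans (by simp) hk
  have hkL : kL ≤ k := le_trans (by simp) hk
  have hk4 : k4 ≤ k := le_trans (by simp) hk
  have hk5 : k5 ≤ k := le_trans (by simp) hk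
  have hk6' : k6 ≤ k := le_trans (by simp) hk
  have hk8 : 8 ≤ k := hk6.trans hk6'
  refine ⟨Skel.e k, e_pos (by linarith), (h6 k hk6').1, (h6 k hk6').2,
    fun M => Skel.Rc k L0 M, fun M => Skel.bw (Skel.Rc k L0 M),
    fun i => toMeasurable volume
      {y : Tor | ∃ z t N, (T k)^[t] z = y ∧ Skel.FBR k L0 R N z t (16 ^ i * Q0)},
    Skel.Ng k L0, fun N z t l => Skel.nf k L0 N z t l, fun _ v => (Skel.rho k D0 v).toReal, ?_⟩
  constructor
  · exact fun M => (hm k L0 M).2.2.1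
  · exact fun M => measurableSet_bw (hm k L0 M).2.2.1
  · exact fun i => measurableSet_toMeasurable _ _
  · exact measurableSet_Ng hm k L0
  · intro N z t i hi hf
    apply subset_toMeasurable
    refine ⟨z, t, N, rfl, ?_, ?_⟩
    · rw [pow_succ] at hi
      linarith
    · have e1 : 16 * (16 ^ i * Q0) = 16 ^ (i + 1) * Q0 := by ring
      rw [e1]
      unfold FBR at hf
      exact lt_of_le_of_lt (Nat.mul_le_mul_right _ (Nat.le_succ R)) hf
  · intro I
    refine area (by linarith) hC5 hθ0 hθ1 (by omega) (fun i => ?_) (by rw [hC]; linarith) I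
    rw [measure_toMeasurable]
    refine h5 k hk5 _ ?_
    have : 1 ≤ 16 ^ i := Nat.one_le_pow _ _ (by norm_num)
    nlinarith
  · intro N z S hS
    have h := h1 k hk1 N z S fun p hp => ⟨(hS p hp).1, by have := (hS p hp).2.1; omega,
      (hS p hp).2.2⟩
    have h' : (#S : ℝ≥0∞) ≤ ((C1 * (Skel.vs k N z
        (fun v => Skel.Rc k L0 (N - v) ∩ Skel.bw (Skel.Rc k L0 v)) +
        Skel.vs k N z (fun _ => Skel.Ng k L0)) : ℕ) : ℝ≥0∞) := by exact_mod_cast h
    refine h'.trans ?_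
    push_cast
    rw [vs_cast, vs_cast]
    refine mul_le_mul' ?_ le_rfl
    rw [← ENNReal.ofReal_natCast]
    apply ENNReal.ofReal_le_ofReal
    rw [hC]
    linarith
  · exact vbad (by linarith) hm (hL k hkL) (by rw [hC]; linarith)
  · exact fun _ => rho_toReal_mono hk8 D0
  · exact fun _ _ => ENNReal.toReal_nonneg
  · intro N v _
    exact double hk8 (h4 k hk4) (by rw [hC]; linarith) (N - v) v
  · intro N
    refine (single hk8 hm (h2 k hk2) N).trans ?_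
    have h7 : 0 ≤ ∫ z : Tor, (cross k N z : ℝ) := integral_nonneg fun _ => Nat.cast_nonneg _
    have h8 : 0 ≤ ((N:ℝ) + 1) * Skel.e k :=
      mul_nonneg (by positivity) (e_pos (by linarith)).le
    have h9 : (C2:ℝ) ≤ C := by rw [hC]; linarith
    nlinarith

end Crest.Agent.R128.SkelMeas
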