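import Mathlib

/-!
Row 128, node N2-COUNT (helper434): the one-dimensional counting part of "nested bars are
doubly covered".  `f : ℕ → ℝ` is the root contour, `κ > 0` the spacing of the levels,
`J` a bound for its steps, `Cmp f κ N i j l` says that `(i,j)` is a component of `{f > l κ}`
with left foot `i` and right foot `j ≤ N`.
-/

namespace Crest.Agent.R128.Charge

open Finset

/-- `(i, j)` is a component of `{f > l κ}` in the window `[0, N]`. -/
structure Cmp (f : ℕ → ℝ) (κ : ℝ) (N i j : ℕ) (l : ℤ) : Prop where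
  lt : i + 1 < j
  le : j ≤ N
  fi : f i ≤ l * κ
  mid : ∀ m, i < m → m < j → (l : ℝ) * κ < f m
  fj : f j ≤ l * κ

/-- component nested in a component with a maximum to its left -/
def NestL (f : ℕ → ℝ) (κ : ℝ) (N : ℕ) (H : ℝ) (i j : ℕ) (l : ℤ) : Prop :=
  Cmp f κ N i j l ∧ ∃ (i' j' : ℕ) (l' : ℤ) (T : ℕ), Cmp f κ N i' j' l' ∧ i' < T ∧ T < i ∧ j ≤ j' ∧
    (∀ m, i' < m → m < j' → f m ≤ f T) ∧ f T - l' * κ ≤ H

/-- component nested in a component with a maximum to its right -/
def NestR (f : ℕ → ℝ) (κ : ℝ) (N : ℕ) (H : ℝ) (i j : ℕ) (l : ℤ) : Prop :=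
  Cmp f κ N i j l ∧ ∃ (i' j' : ℕ) (l' : ℤ) (T : ℕ), Cmp f κ N i' j' l' ∧ i' ≤ i ∧ j < T ∧ T < j' ∧
    (∀ m, i' < m → m < j' → f m ≤ f T) ∧ f T - l' * κ ≤ H

/-- a valley of relative depth `b` on `(T, j)`, seen from the right foot `j` -/
def ValR (f : ℕ → ℝ) (κ b D : ℝ) (T j : ℕ) (l : ℤ) : Prop :=
  ∃ v a, T < v ∧ v ≤ a ∧ a < j ∧ (∀ m, v ≤ m → m < j → f m ≤ f a) ∧ D ≤ f a - l * κ ∧
    f v ≤ f a - b * (f a - l * κ)

/-- a valley of relative depth `b` on `(i, T)`, seen from the left foot `i` -/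
def ValL (f : ℕ → ℝ) (κ b D : ℝ) (T i : ℕ) (l : ℤ) : Prop :=
  ∃ v a, v < T ∧ a ≤ v ∧ i < a ∧ (∀ m, i < m → m ≤ v → f m ≤ f a) ∧ D ≤ f a - l * κ ∧
    f v ≤ f a - b * (f a - l * κ)

variable {f : ℕ → ℝ} {κ J b D H : ℝ} {N : ℕ}

theorem Cmp.det_right {i j j' : ℕ} {l : ℤ} (h : Cmp f κ N i j l) (h' : Cmp f κ N i j' l) :
    j = j' := by
  rcases lt_trichotomy j j' with hlt | he | hlt
  · exact absurd h.fj (not_le.mpr (h'.mid j (by have := h.lt; omega) hlt))
  · exact he
  · exact absurd h'.fj (not_le.mpr (h.mid j' (by have := h'.lt; omega) hlt))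

theorem Cmp.det_left {i i' j : ℕ} {l : ℤ} (h : Cmp f κ N i j l) (h' : Cmp f κ N i' j l) :
    i = i' := by
  rcases lt_trichotomy i i' with hlt | he | hlt
  · exact absurd h'.fi (not_le.mpr (h.mid i' hlt (by have := h'.lt; omega)))
  · exact he
  · exact absurd h.fi (not_le.mpr (h'.mid i hlt (by have := h.lt; omega)))

/-- a component is determined by its level and one interior point -/
theorem Cmp.det_mid {i i' j j' a : ℕ} {l : ℤ} (h : Cmp f κ N i j l) (h' : Cmp f κ N i' j' l)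
    (ha : i < a) (ha' : a < j) (hb : i' < a) (hb' : a < j') : i = i' ∧ j = j' := by
  have h1 : i = i' := by
    rcases lt_trichotomy i i' with hlt | he | hlt
    · exact absurd h'.fi (not_le.mpr (h.mid i' hlt (by omega)))
    · exact he
    · exact absurd h.fi (not_le.mpr (h'.mid i hlt (by omega)))
  subst h1
  exact ⟨rfl, h.det_right h'⟩

theorem card_int_le (s : Finset ℤ) {x y : ℝ} (hxy : x ≤ y) (h : ∀ l ∈ s, x ≤ (l : ℝ) ∧ (l : ℝ) ≤ y) :
    (s.card : ℝ) ≤ y - x + 1 := by
  have hsub : s ⊆ Finset.Icc ⌈x⌉ ⌊y⌋ := by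
    intro l hl
    rw [Finset.mem_Icc]
    exact ⟨Int.ceil_le.mpr (h l hl).1, Int.le_floor.mpr (h l hl).2⟩
  have h1 : s.card ≤ (⌊y⌋ + 1 - ⌈x⌉).toNat := by
    have := Finset.card_le_card hsub
    rwa [Int.card_Icc] at this
  have h2 : ((⌊y⌋ + 1 - ⌈x⌉).toNat : ℝ) ≤ y - x + 1 := by
    rcases le_or_gt 0 (⌊y⌋ + 1 - ⌈x⌉) with h0 | h0
    · have h3 : (((⌊y⌋ + 1 - ⌈x⌉).toNat : ℤ) : ℝ) = ((⌊y⌋ + 1 - ⌈x⌉ : ℤ) : ℝ) := by
        rw [Int.toNat_of_nonneg h0]
      have h4 : ((⌊y⌋ + 1 - ⌈x⌉).toNat : ℝ) = ((⌊y⌋ + 1 - ⌈x⌉ : ℤ) : ℝ) := by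
        rw [← h3]; push_cast; rfl
      rw [h4]
      push_cast
      have := Int.floor_le y
      have := Int.le_ceil x
      linarith
    · rw [Int.toNat_of_nonpos h0.le]
      push_cast
      linarith
  calc (s.card : ℝ) ≤ ((⌊y⌋ + 1 - ⌈x⌉).toNat : ℝ) := by exact_mod_cast h1
    _ ≤ _ := h2

theorem card_fiber_le {α β : Type*} [DecidableEq β] (s : Finset α) (t : Finset β) (g : α → β)
    (hg : ∀ x ∈ s, g x ∈ t) {c : ℝ} (h : ∀ y ∈ t, (((s.filter (fun x => g x = y)).card : ℕ) : ℝ) ≤ c) :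
    (s.card : ℝ) ≤ c * t.card := by
  rw [Finset.card_eq_sum_card_fiberwise (f := g) (t := t) (fun x hx => hg x hx)]
  push_cast
  calc ∑ y ∈ t, (((s.filter (fun x => g x = y)).card : ℕ) : ℝ) ≤ ∑ _y ∈ t, c :=
        Finset.sum_le_sum h
    _ = c * t.card := by rw [Finset.sum_const, nsmul_eq_mul, mul_comm]

/-- the integer levels of the components with a given left foot -/
theorem Cmp.level_left {i j : ℕ} {l : ℤ} (hκ : 0 < κ) (h : Cmp f κ N i j l) :
    f i / κ ≤ (l : ℝ) ∧ (l : ℝ) ≤ f (i + 1) / κ := by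
  constructor
  · rw [div_le_iff₀ hκ]; exact h.fi
  · rw [le_div_iff₀ hκ]; exact (h.mid (i + 1) (by omega) h.lt).le

theorem Cmp.level_right {i j : ℕ} {l : ℤ} (hκ : 0 < κ) (h : Cmp f κ N i j l) :
    f j / κ ≤ (l : ℝ) ∧ (l : ℝ) ≤ f (j - 1) / κ := by
  constructor
  · rw [div_le_iff₀ hκ]; exact h.fj
  · rw [le_div_iff₀ hκ]
    have := h.lt
    exact (h.mid (j - 1) (by omega) (by omega)).le

/-- a family of components, counted by left feet -/
theorem count_left (hκ : 0 < κ) (hJ : ∀ n, |f (n + 1) - f n| ≤ J) (P : ℕ → Prop) [DecidablePred P]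
    (S : Finset (ℕ × ℕ × ℤ)) (hS : ∀ c ∈ S, Cmp f κ N c.1 c.2.1 c.2.2) (hP : ∀ c ∈ S, P c.1) :
    (S.card : ℝ) ≤ (J / κ + 1) * ((range (N + 1)).filter P).card := by
  classical
  have hJ0 : 0 ≤ J := (abs_nonneg _).trans (hJ 0)
  refine card_fiber_le S _ (fun c => c.1) ?_ ?_
  · intro c hc
    rw [mem_filter, mem_range]
    have h1 := hS c hc
    have := h1.lt
    have := h1.le
    exact ⟨by omega, hP c hc⟩
  · intro y _
    rcases (S.filter (fun c => c.1 = y)).eq_empty_or_nonempty with he | ⟨c0, hc0⟩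
    · rw [he, card_empty]; push_cast; positivity
    have hinj : Set.InjOn (fun c : ℕ × ℕ × ℤ => c.2.2) (S.filter (fun c => c.1 = y)) := by
      rintro ⟨i, j, l⟩ h1 ⟨i', j', l'⟩ h2 h3
      rw [Finset.mem_coe, mem_filter] at h1 h2
      simp only at h1 h2 h3
      obtain ⟨h1, e1⟩ := h1
      obtain ⟨h2, e2⟩ := h2
      have e3 : i' = i := e2.trans e1.symm
      subst h3
      subst e3
      have h9 := hS _ h1
      have h10 := hS _ h2
      simp only at h9 h10
      rw [h9.det_right h10]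
    rw [← Finset.card_image_of_injOn hinj]
    have hup : f (y + 1) ≤ f y + J := by
      have := (abs_le.mp (hJ y)).2; linarith
    have hc0' := mem_filter.mp hc0
    have hlv0 := (hS _ hc0'.1).level_left hκ
    rw [hc0'.2] at hlv0
    have hle : f y / κ ≤ f (y + 1) / κ := hlv0.1.trans hlv0.2
    have := card_int_le ((S.filter (fun c => c.1 = y)).image (fun c : ℕ × ℕ × ℤ => c.2.2)) hle (by
      intro l hl
      rw [mem_image] at hl
      obtain ⟨c, hc, rfl⟩ := hl
      rw [mem_filter] at hc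
      have h5 := (hS _ hc.1).level_left hκ
      rw [hc.2] at h5
      exact h5)
    refine this.trans ?_
    have : f (y + 1) / κ - f y / κ ≤ J / κ := by
      rw [← sub_div]
      exact div_le_div_of_nonneg_right (by linarith) hκ.le
    linarith

/-- a family of components, counted by right feet -/
theorem count_right (hκ : 0 < κ) (hJ : ∀ n, |f (n + 1) - f n| ≤ J) (P : ℕ → Prop) [DecidablePred P]
    (S : Finset (ℕ × ℕ × ℤ)) (hS : ∀ c ∈ S, Cmp f κ N c.1 c.2.1 c.2.2) (hP : ∀ c ∈ S, P c.2.1) :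
    (S.card : ℝ) ≤ (J / κ + 1) * ((range (N + 1)).filter P).card := by
  classical
  have hJ0 : 0 ≤ J := (abs_nonneg _).trans (hJ 0)
  refine card_fiber_le S _ (fun c => c.2.1) ?_ ?_
  · intro c hc
    rw [mem_filter, mem_range]
    have h1 := hS c hc
    have := h1.lt
    have := h1.le
    exact ⟨by omega, hP c hc⟩
  · intro y _
    rcases (S.filter (fun c => c.2.1 = y)).eq_empty_or_nonempty with he | ⟨c0, hc0⟩
    · rw [he, card_empty]; push_cast; positivity
    have hinj : Set.InjOn (fun c : ℕ × ℕ × ℤ => c.2.2) (S.filter (fun c => c.2.1 = y)) := by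
      rintro ⟨i, j, l⟩ h1 ⟨i', j', l'⟩ h2 h3
      rw [Finset.mem_coe, mem_filter] at h1 h2
      simp only at h1 h2 h3
      obtain ⟨h1, e1⟩ := h1
      obtain ⟨h2, e2⟩ := h2
      have e3 : j' = j := e2.trans e1.symm
      subst h3
      subst e3
      have h9 := hS _ h1
      have h10 := hS _ h2
      simp only at h9 h10
      rw [h9.det_left h10]
    rw [← Finset.card_image_of_injOn hinj]
    have hc0' := mem_filter.mp hc0
    have hlt := (hS _ hc0'.1).lt
    rw [hc0'.2] at hlt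
    have hup : f (y - 1) ≤ f y + J := by
      have h6 := (abs_le.mp (hJ (y - 1))).1
      rw [show y - 1 + 1 = y by omega] at h6
      linarith
    have hlv0 := (hS _ hc0'.1).level_right hκ
    rw [hc0'.2] at hlv0
    have hle : f y / κ ≤ f (y - 1) / κ := hlv0.1.trans hlv0.2
    have := card_int_le ((S.filter (fun c => c.2.1 = y)).image (fun c : ℕ × ℕ × ℤ => c.2.2)) hle (by
      intro l hl
      rw [mem_image] at hl
      obtain ⟨c, hc, rfl⟩ := hl
      rw [mem_filter] at hc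
      have h5 := (hS _ hc.1).level_right hκ
      rw [hc.2] at h5
      exact h5)
    refine this.trans ?_
    have : f (y - 1) / κ - f y / κ ≤ J / κ := by
      rw [← sub_div]
      exact div_le_div_of_nonneg_right (by linarith) hκ.le
    linarith

/-- (A): nested components are counted by their doubly covered feet. -/
theorem nested_count (hκ : 0 < κ) (hJ : ∀ n, |f (n + 1) - f n| ≤ J) (P : ℕ → Prop) [DecidablePred P]
    (h4L : ∀ i j l, NestL f κ N H i j l → P i) (h4R : ∀ i j l, NestR f κ N H i j l → P j)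
    (S : Finset (ℕ × ℕ × ℤ))
    (hS : ∀ c ∈ S, NestL f κ N H c.1 c.2.1 c.2.2 ∨ NestR f κ N H c.1 c.2.1 c.2.2) :
    (S.card : ℝ) ≤ 2 * (J / κ + 1) * ((range (N + 1)).filter P).card := by
  classical
  have h1 := count_left (N := N) hκ hJ P (S.filter (fun c => NestL f κ N H c.1 c.2.1 c.2.2))
    (fun c hc => (mem_filter.mp hc).2.1) (fun c hc => h4L _ _ _ (mem_filter.mp hc).2)
  have h2 := count_right (N := N) hκ hJ P (S.filter (fun c => ¬ NestL f κ N H c.1 c.2.1 c.2.2))
    (fun c hc => by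
      rw [mem_filter] at hc
      rcases hS c hc.1 with h | h
      · exact absurd h hc.2
      · exact h.1)
    (fun c hc => by
      rw [mem_filter] at hc
      rcases hS c hc.1 with h | h
      · exact absurd h hc.2
      · exact h4R _ _ _ h)
  have h3 : (S.filter (fun c => NestL f κ N H c.1 c.2.1 c.2.2)).card +
      (S.filter (fun c => ¬ NestL f κ N H c.1 c.2.1 c.2.2)).card = S.card :=
    Finset.card_filter_add_card_filter_not _
  have h4 : (S.card : ℝ) = ((S.filter (fun c => NestL f κ N H c.1 c.2.1 c.2.2)).card : ℝ) +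
      ((S.filter (fun c => ¬ NestL f κ N H c.1 c.2.1 c.2.2)).card : ℝ) := by
    rw [← h3]; push_cast; ring
  rw [h4]
  linarith

/-- first maximum on `[v, j)` -/
theorem exists_first_max {v a j : ℕ} (hva : v ≤ a) (haj : a < j) (hmax : ∀ m, v ≤ m → m < j → f m ≤ f a) :
    ∃ a', v ≤ a' ∧ a' < j ∧ f a' = f a ∧ (∀ m, v ≤ m → m < j → f m ≤ f a') ∧
      ∀ m, v ≤ m → m < a' → f m < f a' := by
  classical
  have hex : ∃ m, v ≤ m ∧ m < j ∧ f m = f a := ⟨a, hva, haj, rfl⟩
  refine ⟨Nat.find hex, (Nat.find_spec hex).1, (Nat.find_spec hex).2.1, (Nat.find_spec hex).2.2, ?_, ?_⟩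
  · intro m h1 h2
    rw [(Nat.find_spec hex).2.2]
    exact hmax m h1 h2
  · intro m h1 h2
    have h3 := Nat.find_min hex h2
    have h4 : m < j := h2.trans (Nat.find_spec hex).2.1
    rw [(Nat.find_spec hex).2.2]
    refine lt_of_le_of_ne (hmax m h1 h4) ?_
    intro he
    exact h3 ⟨h1, h4, he⟩

/-- last maximum on `(i, v]` -/
theorem exists_last_max {v a i : ℕ} (hva : a ≤ v) (hia : i < a) (hmax : ∀ m, i < m → m ≤ v → f m ≤ f a) :
    ∃ a', a' ≤ v ∧ i < a' ∧ f a' = f a ∧ (∀ m, i < m → m ≤ v → f m ≤ f a') ∧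
      ∀ m, a' < m → m ≤ v → f m < f a' := by
  classical
  set s : Finset ℕ := (Finset.Icc (i + 1) v).filter (fun m => f m = f a) with hs
  have hne : s.Nonempty := ⟨a, by rw [hs, mem_filter, Finset.mem_Icc]; exact ⟨⟨hia, hva⟩, rfl⟩⟩
  have hmem' : s.max' hne ∈ (Finset.Icc (i + 1) v).filter (fun m => f m = f a) := s.max'_mem hne
  have hmem := mem_filter.mp hmem'
  rw [Finset.mem_Icc] at hmem
  refine ⟨s.max' hne, hmem.1.2, hmem.1.1, hmem.2, ?_, ?_⟩
  · intro m h1 h2
    have := hmax m h1 h2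
    rw [← hmem.2] at this
    exact this
  · intro m h1 h2
    have h3 : i < m := lt_of_lt_of_le (Nat.lt_of_succ_le hmem.1.1) h1.le
    have h4 := hmax m h3 h2
    rw [← hmem.2] at h4
    refine lt_of_le_of_ne h4 ?_
    intro he
    have h5 : m ∈ s := by
      rw [hs, mem_filter, Finset.mem_Icc]
      exact ⟨⟨h3, h2⟩, he.trans hmem.2⟩
    exact absurd (s.le_max' m h5) (not_le.mpr h1)

/-- left foot of the component of `{f > y}` containing `a`, not before `v` -/
theorem exists_left_foot {v a : ℕ} {y : ℝ} (hva : v < a) (hv : f v ≤ y) (ha : y < f a) :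
    ∃ i, v ≤ i ∧ i < a ∧ f i ≤ y ∧ ∀ m, i < m → m ≤ a → y < f m := by
  classical
  set s : Finset ℕ := (Finset.Ico v a).filter (fun m => f m ≤ y) with hs
  have hne : s.Nonempty := ⟨v, by rw [hs, mem_filter, Finset.mem_Ico]; exact ⟨⟨le_refl _, hva⟩, hv⟩⟩
  have hmem' : s.max' hne ∈ (Finset.Ico v a).filter (fun m => f m ≤ y) := s.max'_mem hne
  have hmem := mem_filter.mp hmem'
  rw [Finset.mem_Ico] at hmem
  refine ⟨s.max' hne, hmem.1.1, hmem.1.2, hmem.2, ?_⟩
  intro m h1 h2
  rcases eq_or_lt_of_le h2 with rfl | h2'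
  · exact ha
  by_contra hcon
  have h5 : m ∈ s := by
    rw [hs, mem_filter, Finset.mem_Ico]
    exact ⟨⟨hmem.1.1.trans h1.le, h2'⟩, not_lt.mp hcon⟩
  exact absurd (s.le_max' m h5) (not_le.mpr h1)

/-- right foot of the component of `{f > y}` containing `a`, not after `j` -/
theorem exists_right_foot {a j : ℕ} {y : ℝ} (haj : a < j) (hj : f j ≤ y) (ha : y < f a) :
    ∃ j', a < j' ∧ j' ≤ j ∧ f j' ≤ y ∧ ∀ m, a ≤ m → m < j' → y < f m := by
  classical
  have hex : ∃ m, a < m ∧ f m ≤ y := ⟨j, haj, hj⟩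
  refine ⟨Nat.find hex, (Nat.find_spec hex).1, Nat.find_min' hex ⟨haj, hj⟩, (Nat.find_spec hex).2, ?_⟩
  intro m h1 h2
  rcases eq_or_lt_of_le h1 with rfl | h1'
  · exact ha
  by_contra hcon
  exact Nat.find_min hex h2 ⟨h1', not_lt.mp hcon⟩

/-- arithmetic core: levels of the nonfresh pairs against the levels of the valley -/
theorem arith_levels {b κ Dm Λ : ℝ} (hκ : 0 < κ) (hb : 0 < b) (hD : 4 * κ ≤ b * Dm)
    (hΛ : b * Dm / κ - 1 ≤ Λ) : Dm / κ + 1 ≤ (4 / b + 2) * Λ := by
  have h1 : 4 ≤ b * Dm / κ := by rw [le_div_iff₀ hκ]; exact hD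
  have h2 : b * Dm / κ * (3 / 4) ≤ Λ := by linarith
  have h3 : 3 ≤ Λ := by linarith
  have h4 : Dm / κ = (1 / b) * (b * Dm / κ) := by field_simp
  have h5 : Dm / κ ≤ (4 / (3 * b)) * Λ := by
    rw [h4]
    have h6 : b * Dm / κ ≤ 4 / 3 * Λ := by linarith
    calc 1 / b * (b * Dm / κ) ≤ 1 / b * (4 / 3 * Λ) := by
          exact mul_le_mul_of_nonneg_left h6 (by positivity)
      _ = (4 / (3 * b)) * Λ := by field_simp
  have h7 : (4 / (3 * b)) * Λ ≤ (4 / b) * Λ := by
    refine mul_le_mul_of_nonneg_right ?_ (by linarith)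
    exact div_le_div_of_nonneg_left (by norm_num) (by positivity) (by linarith)
  have h8 : (4 / b + 2) * Λ = (4 / b) * Λ + 2 * Λ := by ring
  rw [h8]
  linarith

/-- (B), pure valley part, right feet. -/
theorem valley_count_right (hκ : 0 < κ) (hJ : ∀ n, |f (n + 1) - f n| ≤ J) (hb : 0 < b)
    (hD : 4 * κ ≤ b * D) (P : ℕ → Prop) [DecidablePred P]
    (h4L : ∀ i j l, NestL f κ N H i j l → P i)
    (S : Finset (ℕ × ℕ × ℤ))
    (hS : ∀ c ∈ S, Cmp f κ N c.1 c.2.1 c.2.2 ∧ ∃ T, c.1 < T ∧ T < c.2.1 ∧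
      (∀ m, c.1 < m → m < c.2.1 → f m ≤ f T) ∧ f T - c.2.2 * κ ≤ H ∧ ValR f κ b D T c.2.1 c.2.2) :
    (S.card : ℝ) ≤ (4 / b + 2) * ((J / κ + 1) * ((range (N + 1)).filter P).card) := by
  classical
  have hD0 : 0 < D := by
    by_contra hcon
    have : b * D ≤ 0 := mul_nonpos_of_nonneg_of_nonpos hb.le (not_lt.mp hcon)
    linarith
  -- choose, for every component, the valley `v` and the first maximum `a`
  have hch : ∀ c ∈ S, ∃ va : ℕ × ℕ, ∃ T, c.1 < T ∧ T < va.1 ∧ va.1 < va.2 ∧ va.2 < c.2.1 ∧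
      (∀ m, c.1 < m → m < c.2.1 → f m ≤ f T) ∧ f T - c.2.2 * κ ≤ H ∧
      (∀ m, va.1 ≤ m → m < c.2.1 → f m ≤ f va.2) ∧ (∀ m, va.1 ≤ m → m < va.2 → f m < f va.2) ∧
      D ≤ f va.2 - c.2.2 * κ ∧ f va.1 ≤ f va.2 - b * (f va.2 - c.2.2 * κ) := by
    intro c hc
    obtain ⟨hC, T, hT1, hT2, hT3, hT4, v, a, hTv, hva, haj, hmax, hDa, hfv⟩ := hS c hc
    obtain ⟨a', h1, h2, h3, h4, h5⟩ := exists_first_max hva haj hmax
    have hlt : v < a' := by
      rcases eq_or_lt_of_le h1 with he | h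
      · exfalso
        rw [← he] at h3
        rw [h3] at hfv
        have : 0 < b * (f a - c.2.2 * κ) := mul_pos hb (by linarith)
        linarith
      · exact h
    exact ⟨(v, a'), T, hT1, hTv, hlt, h2, hT3, hT4, h4, h5, by rw [h3]; exact hDa, by rw [h3]; exact hfv⟩
  choose! va hva using hch
  set A : Finset ℕ := S.image (fun c => (va c).2) with hA
  -- the deepest component charging `a`
  have hdeep : ∀ a ∈ A, ∃ c ∈ S, (va c).2 = a ∧ ∀ c' ∈ S, (va c').2 = a → c.2.2 ≤ c'.2.2 := by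
    intro a ha
    have hne : (S.filter (fun c => (va c).2 = a)).Nonempty := by
      rw [hA, mem_image] at ha
      obtain ⟨c, hc, hca⟩ := ha
      exact ⟨c, mem_filter.mpr ⟨hc, hca⟩⟩
    obtain ⟨c, hc, hmin⟩ := Finset.exists_min_image (S.filter (fun c => (va c).2 = a))
      (fun c => c.2.2) hne
    rw [mem_filter] at hc
    exact ⟨c, hc.1, hc.2, fun c' hc' h => hmin c' (mem_filter.mpr ⟨hc', h⟩)⟩
  choose! cd hcd using hdeep
  set lev : ℕ → Finset ℤ := fun a => Finset.Ico ⌈f (va (cd a)).1 / κ⌉ ⌈f a / κ⌉ with hlev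
  -- feet of the nested components with top `a`
  have hfoot : ∀ x ∈ A.sigma lev, ∃ i, P i ∧ i ≤ N ∧ ∃ j, Cmp f κ N i j x.2 ∧ i < x.1 ∧ x.1 < j ∧
      (∀ m, i < m → m < j → f m ≤ f x.1) ∧ (∀ m, i < m → m < x.1 → f m < f x.1) := by
    rintro ⟨a, l''⟩ hx
    rw [Finset.mem_sigma] at hx
    obtain ⟨ha, hl⟩ := hx
    simp only at ha hl ⊢
    obtain ⟨hcS, hca, hcmin⟩ := hcd a ha
    obtain ⟨T, hT1, hTv, hva', haj, hTmax, hTH, hamax, hafirst, hDa, hfv⟩ := hva (cd a) hcS
    have hC := (hS (cd a) hcS).1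
    rw [hca] at hva' haj hamax hafirst hDa hfv
    set c := cd a with hc
    set v := (va c).1 with hv
    rw [hlev, Finset.mem_Ico] at hl
    have hl1 : f v ≤ l'' * κ := by
      have := Int.ceil_le.mp hl.1
      rwa [div_le_iff₀ hκ] at this
    have hl2 : (l'' : ℝ) * κ < f a := by
      have := Int.lt_ceil.mp hl.2
      rwa [lt_div_iff₀ hκ] at this
    have hvl : (c.2.2 : ℝ) * κ < f v := hC.mid v (by omega) (by omega)
    have hjl : f c.2.1 ≤ l'' * κ := hC.fj.trans (by linarith)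
    obtain ⟨i, hi1, hi2, hi3, hi4⟩ := exists_left_foot hva' hl1 hl2
    obtain ⟨j, hj1, hj2, hj3, hj4⟩ := exists_right_foot haj hjl hl2
    have hcmp : Cmp f κ N i j l'' := by
      refine ⟨by omega, hj2.trans hC.le, hi3, ?_, hj3⟩
      intro m h1 h2
      rcases le_or_gt m a with h | h
      · exact hi4 m h1 h
      · exact hj4 m h.le h2
    refine ⟨i, h4L i j l'' ⟨hcmp, c.1, c.2.1, c.2.2, T, hC, hT1, by omega, hj2, hTmax, hTH⟩,
      by have := hC.le; omega, j, hcmp, hi2, hj1, ?_, ?_⟩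
    · intro m h1 h2
      exact hamax m (by omega) (by omega)
    · intro m h1 h2
      exact hafirst m (by omega) h2
  choose! ft hft using hfoot
  -- count the pairs (a, l'') by their left feet
  have hU : (((A.sigma lev).card : ℕ) : ℝ) ≤ (J / κ + 1) * ((range (N + 1)).filter P).card := by
    have hJ0 : 0 ≤ J := (abs_nonneg _).trans (hJ 0)
    refine card_fiber_le (A.sigma lev) _ ft ?_ ?_
    · intro x hx
      rw [mem_filter, mem_range]
      exact ⟨by have := (hft x hx).2.1; omega, (hft x hx).1⟩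
    · intro y _
      rcases ((A.sigma lev).filter (fun x => ft x = y)).eq_empty_or_nonempty with he | ⟨x0, hx0⟩
      · rw [he, card_empty]; push_cast; positivity
      have hinj : Set.InjOn (fun x : (_ : ℕ) × ℤ => x.2) ((A.sigma lev).filter (fun x => ft x = y)) := by
        rintro ⟨a, l⟩ h1 ⟨a', l'⟩ h2 h3
        rw [Finset.mem_coe, mem_filter] at h1 h2
        simp only at h3
        subst h3
        obtain ⟨-, -, j1, g1, g2, g3, g4, g5⟩ := hft _ h1.1
        obtain ⟨-, -, j2, k1, k2, k3, k4, k5⟩ := hft _ h2.1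
        rw [h1.2] at g1 g2 g4 g5
        rw [h2.2] at k1 k2 k4 k5
        have hj : j1 = j2 := g1.det_right k1
        subst hj
        simp only at g2 g3 g4 g5 k2 k3 k4 k5
        have haa : a = a' := by
          rcases lt_trichotomy a a' with hlt | he | hlt
          · have := k5 a g2 hlt
            have := g4 a' k2 k3
            linarith
          · exact he
          · have := g5 a' k2 hlt
            have := k4 a g2 g3
            linarith
        rw [haa]
      rw [← Finset.card_image_of_injOn hinj]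
      have hlv : ∀ x ∈ (A.sigma lev).filter (fun x => ft x = y), f y / κ ≤ (x.2 : ℝ) ∧
          (x.2 : ℝ) ≤ f (y + 1) / κ := by
        intro x hx
        rw [mem_filter] at hx
        obtain ⟨-, -, j1, g1, -⟩ := hft _ hx.1
        rw [hx.2] at g1
        exact g1.level_left hκ
      have hle : f y / κ ≤ f (y + 1) / κ := (hlv x0 hx0).1.trans (hlv x0 hx0).2
      have h7 := card_int_le (((A.sigma lev).filter (fun x => ft x = y)).image
        (fun x : (_ : ℕ) × ℤ => x.2)) hle (by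
          intro l hl
          rw [mem_image] at hl
          obtain ⟨x, hx, rfl⟩ := hl
          exact hlv x hx)
      refine h7.trans ?_
      have hup : f (y + 1) ≤ f y + J := by
        have := (abs_le.mp (hJ y)).2; linarith
      have : f (y + 1) / κ - f y / κ ≤ J / κ := by
        rw [← sub_div]
        exact div_le_div_of_nonneg_right (by linarith) hκ.le
      linarith
  -- the components charging one `a`
  have hfib : ∀ a ∈ A, (((S.filter (fun c => (va c).2 = a)).card : ℕ) : ℝ) ≤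
      (4 / b + 2) * ((lev a).card : ℝ) := by
    intro a ha
    obtain ⟨hcS, hca, hcmin⟩ := hcd a ha
    obtain ⟨T, hT1, hTv, hva', haj, hTmax, hTH, hamax, hafirst, hDa, hfv⟩ := hva (cd a) hcS
    rw [hca] at hva' haj hamax hafirst hDa hfv
    have hinj : Set.InjOn (fun c : ℕ × ℕ × ℤ => c.2.2) (S.filter (fun c => (va c).2 = a)) := by
      rintro ⟨i, j, l⟩ h1 ⟨i', j', l'⟩ h2 h3
      rw [Finset.mem_coe, mem_filter] at h1 h2
      simp only at h3
      subst h3
      obtain ⟨T1, p1, p2, p3, p4, -⟩ := hva _ h1.1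
      obtain ⟨T2, q1, q2, q3, q4, -⟩ := hva _ h2.1
      rw [h1.2] at p3 p4
      rw [h2.2] at q3 q4
      simp only at p1 p4 q1 q4
      have := (hS _ h1.1).1.det_mid (hS _ h2.1).1 (a := a) (by simp only; omega) (by simp only; omega)
        (by simp only; omega) (by simp only; omega)
      simp only at this
      rw [this.1, this.2]
    rw [← Finset.card_image_of_injOn hinj]
    have hDpos : 0 < f a - (cd a).2.2 * κ := by linarith
    have h7 := card_int_le ((S.filter (fun c => (va c).2 = a)).image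
        (fun c : ℕ × ℕ × ℤ => c.2.2)) (x := ((cd a).2.2 : ℝ)) (y := f a / κ) (by
          rw [le_div_iff₀ hκ]; linarith) (by
          intro l hl
          rw [mem_image] at hl
          obtain ⟨c, hc, rfl⟩ := hl
          rw [mem_filter] at hc
          constructor
          · exact_mod_cast hcmin c hc.1 hc.2
          · obtain ⟨T1, p1, p2, p3, p4, p5, p6, p7, p8, p9, -⟩ := hva _ hc.1
            rw [hc.2] at p9
            rw [le_div_iff₀ hκ]
            linarith)
    refine h7.trans ?_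
    have h8 : f a / κ - ((cd a).2.2 : ℝ) + 1 = (f a - (cd a).2.2 * κ) / κ + 1 := by
      rw [sub_div, mul_div_assoc, div_self hκ.ne', mul_one]
    rw [h8]
    refine arith_levels hκ hb (Dm := f a - (cd a).2.2 * κ) ?_ ?_
    · calc 4 * κ ≤ b * D := hD
        _ ≤ _ := mul_le_mul_of_nonneg_left hDa hb.le
    · rw [hlev]
      simp only
      rw [Int.card_Ico]
      have h9 : ((⌈f a / κ⌉ - ⌈f (va (cd a)).1 / κ⌉ : ℤ) : ℝ) ≤
          (((⌈f a / κ⌉ - ⌈f (va (cd a)).1 / κ⌉).toNat : ℕ) : ℝ) := by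
        have := Int.self_le_toNat (⌈f a / κ⌉ - ⌈f (va (cd a)).1 / κ⌉)
        exact_mod_cast this
      refine le_trans ?_ h9
      push_cast
      have h10 := Int.le_ceil (f a / κ)
      have h11 := (Int.ceil_lt_add_one (f (va (cd a)).1 / κ)).le
      have h12 : b * (f a - (cd a).2.2 * κ) / κ ≤ f a / κ - f (va (cd a)).1 / κ := by
        rw [← sub_div]
        exact div_le_div_of_nonneg_right (by linarith) hκ.le
      linarith
  calc (S.card : ℝ) = ∑ a ∈ A, (((S.filter (fun c => (va c).2 = a)).card : ℕ) : ℝ) := by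
        rw [Finset.card_eq_sum_card_fiberwise (f := fun c => (va c).2) (t := A)
          (fun c hc => Finset.mem_coe.mpr (mem_image_of_mem _ hc))]
        push_cast
        rfl
    _ ≤ ∑ a ∈ A, (4 / b + 2) * ((lev a).card : ℝ) := Finset.sum_le_sum hfib
    _ = (4 / b + 2) * (((A.sigma lev).card : ℕ) : ℝ) := by
        rw [Finset.card_sigma]
        push_cast
        rw [Finset.mul_sum]
    _ ≤ _ := mul_le_mul_of_nonneg_left hU (by positivity)

/-- (B), pure valley part, left feet. -/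
theorem valley_count_left (hκ : 0 < κ) (hJ : ∀ n, |f (n + 1) - f n| ≤ J) (hb : 0 < b)
    (hD : 4 * κ ≤ b * D) (P : ℕ → Prop) [DecidablePred P]
    (h4R : ∀ i j l, NestR f κ N H i j l → P j)
    (S : Finset (ℕ × ℕ × ℤ))
    (hS : ∀ c ∈ S, Cmp f κ N c.1 c.2.1 c.2.2 ∧ ∃ T, c.1 < T ∧ T < c.2.1 ∧
      (∀ m, c.1 < m → m < c.2.1 → f m ≤ f T) ∧ f T - c.2.2 * κ ≤ H ∧ ValL f κ b D T c.1 c.2.2) :
    (S.card : ℝ) ≤ (4 / b + 2) * ((J / κ + 1) * ((range (N + 1)).filter P).card) := by
  classical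
  have hD0 : 0 < D := by
    by_contra hcon
    have : b * D ≤ 0 := mul_nonpos_of_nonneg_of_nonpos hb.le (not_lt.mp hcon)
    linarith
  -- choose, for every component, the valley `v` and the last maximum `a`
  have hch : ∀ c ∈ S, ∃ va : ℕ × ℕ, ∃ T, T < c.2.1 ∧ va.1 < T ∧ va.2 < va.1 ∧ c.1 < va.2 ∧
      (∀ m, c.1 < m → m < c.2.1 → f m ≤ f T) ∧ f T - c.2.2 * κ ≤ H ∧
      (∀ m, c.1 < m → m ≤ va.1 → f m ≤ f va.2) ∧ (∀ m, va.2 < m → m ≤ va.1 → f m < f va.2) ∧
      D ≤ f va.2 - c.2.2 * κ ∧ f va.1 ≤ f va.2 - b * (f va.2 - c.2.2 * κ) := by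
    intro c hc
    obtain ⟨hC, T, hT1, hT2, hT3, hT4, v, a, hTv, hva, haj, hmax, hDa, hfv⟩ := hS c hc
    obtain ⟨a', h1, h2, h3, h4, h5⟩ := exists_last_max hva haj hmax
    have hlt : a' < v := by
      rcases eq_or_lt_of_le h1 with he | h
      · exfalso
        rw [he] at h3
        rw [h3] at hfv
        have : 0 < b * (f a - c.2.2 * κ) := mul_pos hb (by linarith)
        linarith
      · exact h
    exact ⟨(v, a'), T, hT2, hTv, hlt, h2, hT3, hT4, h4, h5, by rw [h3]; exact hDa, by rw [h3]; exact hfv⟩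
  choose! va hva using hch
  set A : Finset ℕ := S.image (fun c => (va c).2) with hA
  -- the deepest component charging `a`
  have hdeep : ∀ a ∈ A, ∃ c ∈ S, (va c).2 = a ∧ ∀ c' ∈ S, (va c').2 = a → c.2.2 ≤ c'.2.2 := by
    intro a ha
    have hne : (S.filter (fun c => (va c).2 = a)).Nonempty := by
      rw [hA, mem_image] at ha
      obtain ⟨c, hc, hca⟩ := ha
      exact ⟨c, mem_filter.mpr ⟨hc, hca⟩⟩
    obtain ⟨c, hc, hmin⟩ := Finset.exists_min_image (S.filter (fun c => (va c).2 = a))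
      (fun c => c.2.2) hne
    rw [mem_filter] at hc
    exact ⟨c, hc.1, hc.2, fun c' hc' h => hmin c' (mem_filter.mpr ⟨hc', h⟩)⟩
  choose! cd hcd using hdeep
  set lev : ℕ → Finset ℤ := fun a => Finset.Ico ⌈f (va (cd a)).1 / κ⌉ ⌈f a / κ⌉ with hlev
  -- feet of the nested components with top `a`
  have hfoot : ∀ x ∈ A.sigma lev, ∃ j, P j ∧ j ≤ N ∧ ∃ i, Cmp f κ N i j x.2 ∧ i < x.1 ∧ x.1 < j ∧
      (∀ m, i < m → m < j → f m ≤ f x.1) ∧ (∀ m, x.1 < m → m < j → f m < f x.1) := by
    rintro ⟨a, l''⟩ hx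
    rw [Finset.mem_sigma] at hx
    obtain ⟨ha, hl⟩ := hx
    simp only at ha hl ⊢
    obtain ⟨hcS, hca, hcmin⟩ := hcd a ha
    obtain ⟨T, hT1, hTv, hva', haj, hTmax, hTH, hamax, hafirst, hDa, hfv⟩ := hva (cd a) hcS
    have hC := (hS (cd a) hcS).1
    rw [hca] at hva' haj hamax hafirst hDa hfv
    set c := cd a with hc
    set v := (va c).1 with hv
    rw [hlev, Finset.mem_Ico] at hl
    have hl1 : f v ≤ l'' * κ := by
      have := Int.ceil_le.mp hl.1
      rwa [div_le_iff₀ hκ] at this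
    have hl2 : (l'' : ℝ) * κ < f a := by
      have := Int.lt_ceil.mp hl.2
      rwa [lt_div_iff₀ hκ] at this
    have hvl : (c.2.2 : ℝ) * κ < f v := hC.mid v (by omega) (by omega)
    have hil : f c.1 ≤ l'' * κ := hC.fi.trans (by linarith)
    obtain ⟨i, hi1, hi2, hi3, hi4⟩ := exists_left_foot haj hil hl2
    obtain ⟨j, hj1, hj2, hj3, hj4⟩ := exists_right_foot hva' hl1 hl2
    have hcmp : Cmp f κ N i j l'' := by
      refine ⟨by omega, by have := hC.le; omega, hi3, ?_, hj3⟩
      intro m h1 h2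
      rcases le_or_gt m a with h | h
      · exact hi4 m h1 h
      · exact hj4 m h.le h2
    refine ⟨j, h4R i j l'' ⟨hcmp, c.1, c.2.1, c.2.2, T, hC, hi1, by omega, hT1, hTmax, hTH⟩,
      by have := hC.le; omega, i, hcmp, hi2, hj1, ?_, ?_⟩
    · intro m h1 h2
      exact hamax m (by omega) (by omega)
    · intro m h1 h2
      exact hafirst m h1 (by omega)
  choose! ft hft using hfoot
  -- count the pairs (a, l'') by their right feet
  have hU : (((A.sigma lev).card : ℕ) : ℝ) ≤ (J / κ + 1) * ((range (N + 1)).filter P).card := by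
    have hJ0 : 0 ≤ J := (abs_nonneg _).trans (hJ 0)
    refine card_fiber_le (A.sigma lev) _ ft ?_ ?_
    · intro x hx
      rw [mem_filter, mem_range]
      exact ⟨by have := (hft x hx).2.1; omega, (hft x hx).1⟩
    · intro y _
      rcases ((A.sigma lev).filter (fun x => ft x = y)).eq_empty_or_nonempty with he | ⟨x0, hx0⟩
      · rw [he, card_empty]; push_cast; positivity
      have hinj : Set.InjOn (fun x : (_ : ℕ) × ℤ => x.2) ((A.sigma lev).filter (fun x => ft x = y)) := by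
        rintro ⟨a, l⟩ h1 ⟨a', l'⟩ h2 h3
        rw [Finset.mem_coe, mem_filter] at h1 h2
        simp only at h3
        subst h3
        obtain ⟨-, -, i1, g1, g2, g3, g4, g5⟩ := hft _ h1.1
        obtain ⟨-, -, i2, k1, k2, k3, k4, k5⟩ := hft _ h2.1
        rw [h1.2] at g1 g3 g4 g5
        rw [h2.2] at k1 k3 k4 k5
        have hi : i1 = i2 := g1.det_left k1
        subst hi
        simp only at g2 g3 g4 g5 k2 k3 k4 k5
        have haa : a = a' := by
          rcases lt_trichotomy a a' with hlt | he | hlt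
          · have := g5 a' hlt k3
            have := k4 a g2 g3
            linarith
          · exact he
          · have := k5 a hlt g3
            have := g4 a' k2 k3
            linarith
        rw [haa]
      rw [← Finset.card_image_of_injOn hinj]
      have hlv : ∀ x ∈ (A.sigma lev).filter (fun x => ft x = y), 1 ≤ y ∧ f y / κ ≤ (x.2 : ℝ) ∧
          (x.2 : ℝ) ≤ f (y - 1) / κ := by
        intro x hx
        rw [mem_filter] at hx
        obtain ⟨-, -, j1, g1, -⟩ := hft _ hx.1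
        rw [hx.2] at g1
        exact ⟨by have := g1.lt; omega, g1.level_right hκ⟩
      have hle : f y / κ ≤ f (y - 1) / κ := (hlv x0 hx0).2.1.trans (hlv x0 hx0).2.2
      have hy1 := (hlv x0 hx0).1
      have h7 := card_int_le (((A.sigma lev).filter (fun x => ft x = y)).image
        (fun x : (_ : ℕ) × ℤ => x.2)) hle (by
          intro l hl
          rw [mem_image] at hl
          obtain ⟨x, hx, rfl⟩ := hl
          exact (hlv x hx).2)
      refine h7.trans ?_
      have hup : f (y - 1) ≤ f y + J := by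
        have h6 := (abs_le.mp (hJ (y - 1))).1
        rw [show y - 1 + 1 = y by omega] at h6
        linarith
      have : f (y - 1) / κ - f y / κ ≤ J / κ := by
        rw [← sub_div]
        exact div_le_div_of_nonneg_right (by linarith) hκ.le
      linarith
  -- the components charging one `a`
  have hfib : ∀ a ∈ A, (((S.filter (fun c => (va c).2 = a)).card : ℕ) : ℝ) ≤
      (4 / b + 2) * ((lev a).card : ℝ) := by
    intro a ha
    obtain ⟨hcS, hca, hcmin⟩ := hcd a ha
    obtain ⟨T, hT1, hTv, hva', haj, hTmax, hTH, hamax, hafirst, hDa, hfv⟩ := hva (cd a) hcS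
    rw [hca] at hva' haj hamax hafirst hDa hfv
    have hinj : Set.InjOn (fun c : ℕ × ℕ × ℤ => c.2.2) (S.filter (fun c => (va c).2 = a)) := by
      rintro ⟨i, j, l⟩ h1 ⟨i', j', l'⟩ h2 h3
      rw [Finset.mem_coe, mem_filter] at h1 h2
      simp only at h3
      subst h3
      obtain ⟨T1, p1, p2, p3, p4, -⟩ := hva _ h1.1
      obtain ⟨T2, q1, q2, q3, q4, -⟩ := hva _ h2.1
      rw [h1.2] at p3 p4
      rw [h2.2] at q3 q4
      simp only at p1 p4 q1 q4
      have := (hS _ h1.1).1.det_mid (hS _ h2.1).1 (a := a) (by simp only; omega) (by simp only; omega)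
        (by simp only; omega) (by simp only; omega)
      simp only at this
      rw [this.1, this.2]
    rw [← Finset.card_image_of_injOn hinj]
    have hDpos : 0 < f a - (cd a).2.2 * κ := by linarith
    have h7 := card_int_le ((S.filter (fun c => (va c).2 = a)).image
        (fun c : ℕ × ℕ × ℤ => c.2.2)) (x := ((cd a).2.2 : ℝ)) (y := f a / κ) (by
          rw [le_div_iff₀ hκ]; linarith) (by
          intro l hl
          rw [mem_image] at hl
          obtain ⟨c, hc, rfl⟩ := hl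
          rw [mem_filter] at hc
          constructor
          · exact_mod_cast hcmin c hc.1 hc.2
          · obtain ⟨T1, p1, p2, p3, p4, p5, p6, p7, p8, p9, -⟩ := hva _ hc.1
            rw [hc.2] at p9
            rw [le_div_iff₀ hκ]
            linarith)
    refine h7.trans ?_
    have h8 : f a / κ - ((cd a).2.2 : ℝ) + 1 = (f a - (cd a).2.2 * κ) / κ + 1 := by
      rw [sub_div, mul_div_assoc, div_self hκ.ne', mul_one]
    rw [h8]
    refine arith_levels hκ hb (Dm := f a - (cd a).2.2 * κ) ?_ ?_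
    · calc 4 * κ ≤ b * D := hD
        _ ≤ _ := mul_le_mul_of_nonneg_left hDa hb.le
    · rw [hlev]
      simp only
      rw [Int.card_Ico]
      have h9 : ((⌈f a / κ⌉ - ⌈f (va (cd a)).1 / κ⌉ : ℤ) : ℝ) ≤
          (((⌈f a / κ⌉ - ⌈f (va (cd a)).1 / κ⌉).toNat : ℕ) : ℝ) := by
        have := Int.self_le_toNat (⌈f a / κ⌉ - ⌈f (va (cd a)).1 / κ⌉)
        exact_mod_cast this
      refine le_trans ?_ h9
      push_cast
      have h10 := Int.le_ceil (f a / κ)
      have h11 := (Int.ceil_lt_add_one (f (va (cd a)).1 / κ)).le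
      have h12 : b * (f a - (cd a).2.2 * κ) / κ ≤ f a / κ - f (va (cd a)).1 / κ := by
        rw [← sub_div]
        exact div_le_div_of_nonneg_right (by linarith) hκ.le
      linarith
  calc (S.card : ℝ) = ∑ a ∈ A, (((S.filter (fun c => (va c).2 = a)).card : ℕ) : ℝ) := by
        rw [Finset.card_eq_sum_card_fiberwise (f := fun c => (va c).2) (t := A)
          (fun c hc => Finset.mem_coe.mpr (mem_image_of_mem _ hc))]
        push_cast
        rfl
    _ ≤ ∑ a ∈ A, (4 / b + 2) * ((lev a).card : ℝ) := Finset.sum_le_sum hfib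
    _ = (4 / b + 2) * (((A.sigma lev).card : ℕ) : ℝ) := by
        rw [Finset.card_sigma]
        push_cast
        rw [Finset.mul_sum]
    _ ≤ _ := mul_le_mul_of_nonneg_left hU (by positivity)

/-- **charge**: the number of components which are not fresh (base violation `B` at a foot, or a
valley of relative depth `b` seen from a foot on its own side of a top) is bounded by the number
of base violations and the number of doubly covered times. -/
theorem charge (hκ : 0 < κ) (hJ : ∀ n, |f (n + 1) - f n| ≤ J) (hb : 0 < b)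
    (hD : 4 * κ ≤ b * D) (P B : ℕ → Prop) [DecidablePred P] [DecidablePred B]
    (h4L : ∀ i j l, NestL f κ N H i j l → P i) (h4R : ∀ i j l, NestR f κ N H i j l → P j)
    (S : Finset (ℕ × ℕ × ℤ))
    (hS : ∀ c ∈ S, Cmp f κ N c.1 c.2.1 c.2.2 ∧ (B c.1 ∨ B c.2.1 ∨ ∃ T, c.1 < T ∧ T < c.2.1 ∧
      (∀ m, c.1 < m → m < c.2.1 → f m ≤ f T) ∧ f T - c.2.2 * κ ≤ H ∧
      (ValL f κ b D T c.1 c.2.2 ∨ ValR f κ b D T c.2.1 c.2.2))) :
    (S.card : ℝ) ≤ 2 * (J / κ + 1) * ((range (N + 1)).filter B).card +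
      2 * (4 / b + 2) * (J / κ + 1) * ((range (N + 1)).filter P).card := by
  classical
  have hsub : S ⊆ (S.filter (fun c => B c.1)) ∪ ((S.filter (fun c => B c.2.1)) ∪
      ((S.filter (fun c => ∃ T, c.1 < T ∧ T < c.2.1 ∧
        (∀ m, c.1 < m → m < c.2.1 → f m ≤ f T) ∧ f T - c.2.2 * κ ≤ H ∧ ValL f κ b D T c.1 c.2.2)) ∪
      (S.filter (fun c => ∃ T, c.1 < T ∧ T < c.2.1 ∧
        (∀ m, c.1 < m → m < c.2.1 → f m ≤ f T) ∧ f T - c.2.2 * κ ≤ H ∧
          ValR f κ b D T c.2.1 c.2.2)))) := by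
    intro c hc
    rw [mem_union, mem_union, mem_union, mem_filter, mem_filter, mem_filter, mem_filter]
    rcases (hS c hc).2 with h | h | ⟨T, h1, h2, h3, h4, h | h⟩
    · exact Or.inl ⟨hc, h⟩
    · exact Or.inr (Or.inl ⟨hc, h⟩)
    · exact Or.inr (Or.inr (Or.inl ⟨hc, T, h1, h2, h3, h4, h⟩))
    · exact Or.inr (Or.inr (Or.inr ⟨hc, T, h1, h2, h3, h4, h⟩))
  have h0 : (S.card : ℝ) ≤ ((S.filter (fun c => B c.1)).card : ℝ) +
      (((S.filter (fun c => B c.2.1)).card : ℝ) +
      (((S.filter (fun c => ∃ T, c.1 < T ∧ T < c.2.1 ∧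
        (∀ m, c.1 < m → m < c.2.1 → f m ≤ f T) ∧ f T - c.2.2 * κ ≤ H ∧
          ValL f κ b D T c.1 c.2.2)).card : ℝ) +
      ((S.filter (fun c => ∃ T, c.1 < T ∧ T < c.2.1 ∧
        (∀ m, c.1 < m → m < c.2.1 → f m ≤ f T) ∧ f T - c.2.2 * κ ≤ H ∧
          ValR f κ b D T c.2.1 c.2.2)).card : ℝ))) := by
    have h1 := (Finset.card_le_card hsub).trans ((Finset.card_union_le _ _).trans
      (Nat.add_le_add_left ((Finset.card_union_le _ _).trans
        (Nat.add_le_add_left (Finset.card_union_le _ _) _)) _))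
    exact_mod_cast h1
  have h1 := count_left (N := N) hκ hJ B (S.filter (fun c => B c.1))
    (fun c hc => (hS c (mem_filter.mp hc).1).1) (fun c hc => (mem_filter.mp hc).2)
  have h2 := count_right (N := N) hκ hJ B (S.filter (fun c => B c.2.1))
    (fun c hc => (hS c (mem_filter.mp hc).1).1) (fun c hc => (mem_filter.mp hc).2)
  have h3 := valley_count_left (N := N) hκ hJ hb hD P h4R (S.filter (fun c => ∃ T, c.1 < T ∧ T < c.2.1 ∧
        (∀ m, c.1 < m → m < c.2.1 → f m ≤ f T) ∧ f T - c.2.2 * κ ≤ H ∧ ValL f κ b D T c.1 c.2.2))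
    (fun c hc => ⟨(hS c (mem_filter.mp hc).1).1, (mem_filter.mp hc).2⟩)
  have h4 := valley_count_right (N := N) hκ hJ hb hD P h4L (S.filter (fun c => ∃ T, c.1 < T ∧ T < c.2.1 ∧
        (∀ m, c.1 < m → m < c.2.1 → f m ≤ f T) ∧ f T - c.2.2 * κ ≤ H ∧
          ValR f κ b D T c.2.1 c.2.2))
    (fun c hc => ⟨(hS c (mem_filter.mp hc).1).1, (mem_filter.mp hc).2⟩)
  refine h0.trans ?_
  have h5 : 2 * (J / κ + 1) * (((range (N + 1)).filter B).card : ℝ) +
      2 * (4 / b + 2) * (J / κ + 1) * (((range (N + 1)).filter P).card : ℝ) =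
      ((J / κ + 1) * (((range (N + 1)).filter B).card : ℝ)) +
      (((J / κ + 1) * (((range (N + 1)).filter B).card : ℝ)) +
      ((4 / b + 2) * ((J / κ + 1) * (((range (N + 1)).filter P).card : ℝ)) +
      (4 / b + 2) * ((J / κ + 1) * (((range (N + 1)).filter P).card : ℝ)))) := by ring
  rw [h5]
  exact add_le_add h1 (add_le_add h2 (add_le_add h3 h4))

end Crest.Agent.R128.Charge
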