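import Mathlib
import Crest.Agent.R128.Hyp
import Crest.Agent.R128.Two

set_option autoImplicit false
set_option linter.unusedVariables false

/-! Row 128: contour combinatorics for a `δ`-hyperbolic `d` on `ℤ` (279's note 15512 (4)).
Written by helper550. Sorry free. -/

namespace Crest.Agent.R128.Contour

/-- Gromov product `(i|j)_w` -/
noncomputable def gp {ι : Type*} (d : ι → ι → ℝ) (i j w : ι) : ℝ := (d i w + d j w - d i j) / 2

/-- a `δ`-hyperbolic pseudo-metric on any index type -/
structure HypG {ι : Type*} (d : ι → ι → ℝ) (δ : ℝ) : Prop where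
  symm : ∀ i j, d i j = d j i
  self : ∀ i, d i i = 0
  nonneg : ∀ i j, 0 ≤ d i j
  tri : ∀ i j l, d i l ≤ d i j + d j l
  hyp : ∀ i j l w, min (gp d i j w) (gp d j l w) - δ ≤ gp d i l w
  δ_nonneg : 0 ≤ δ

section gen

variable {ι : Type*} {d : ι → ι → ℝ} {δ : ℝ}

theorem gp_comm (h : HypG d δ) (i j w : ι) : gp d i j w = gp d j i w := by
  unfold gp
  rw [h.symm i j]
  ring

theorem d_eq (h : HypG d δ) (r i j : ι) : d i j = d r i + d r j - 2 * gp d i j r := by
  unfold gp
  rw [h.symm i r, h.symm j r]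
  ring

theorem chain (h : HypG d δ) (w : ι) (y : ℝ) (n : ℕ) :
    ∀ (r : ℕ) (c : ℕ → ι), r ≤ 2 ^ n → 1 ≤ r → (∀ i < r, y ≤ gp d (c i) (c (i + 1)) w) →
      y - n * δ ≤ gp d (c 0) (c r) w := by
  induction n with
  | zero =>
    intro r c hr hr1 hc
    have : r = 1 := by simpa using le_antisymm hr hr1
    subst this
    simpa using hc 0 (by norm_num)
  | succ n ih =>
    intro r c hr hr1 hc
    by_cases hle : r ≤ 2 ^ n
    · have := ih r c hle hr1 hc
      have hδ := h.δ_nonneg
      push_cast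
      nlinarith
    · push Not at hle
      have h1 := ih (2 ^ n) c le_rfl Nat.one_le_two_pow (fun i hi => hc i (hi.trans hle))
      have h2 := ih (r - 2 ^ n) (fun i => c (i + 2 ^ n)) (by rw [pow_succ] at hr; omega) (by omega)
        (fun i hi => by
          have := hc (i + 2 ^ n) (by omega)
          simpa [add_right_comm] using this)
      simp only [zero_add] at h2
      have e : r - 2 ^ n + 2 ^ n = r := by omega
      rw [e] at h2
      have h3 := h.hyp (c 0) (c (2 ^ n)) (c r) w
      have h4 : y - n * δ ≤ min (gp d (c 0) (c (2 ^ n)) w) (gp d (c (2 ^ n)) (c r) w) :=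
        le_min h1 h2
      push_cast
      linarith

end gen

variable {d : ℤ → ℤ → ℝ} {δ B : ℝ}

/-- one step -/
theorem gp_step (h : HypG d δ) (hB : ∀ m, d m (m + 1) ≤ B) (r m : ℤ) :
    d r m - B ≤ gp d m (m + 1) r ∧ d r (m + 1) - B ≤ gp d m (m + 1) r := by
  have h1 := hB m
  have h2 := h.tri r m (m + 1)
  have h3 := h.tri r (m + 1) m
  have h4 := h.symm m (m + 1)
  unfold gp
  rw [h.symm m r, h.symm (m + 1) r]
  constructor <;> linarith

/-- If `f = d r ·` is `≥ y` on `[p+1, q]` (or on `[p, q-1]`) then `(p|q)_r ≥ y - B - n δ`, `q - p ≤ 2^n`. -/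
theorem gp_of_path (h : HypG d δ) (hB : ∀ m, d m (m + 1) ≤ B) (r p q : ℤ) (n : ℕ) (hpq : p < q)
    (hn : q - p ≤ 2 ^ n) (y : ℝ) (hy : ∀ m, p ≤ m → m < q → y ≤ d r m ∨ y ≤ d r (m + 1)) :
    y - B - n * δ ≤ gp d p q r := by
  have hlen : ((q - p).toNat : ℤ) = q - p := Int.toNat_of_nonneg (by omega)
  have h1 := chain h r (y - B) n (q - p).toNat (fun i => p + i) (by
      have : ((q - p).toNat : ℤ) ≤ ((2 ^ n : ℕ) : ℤ) := by rw [hlen]; exact_mod_cast hn
      exact_mod_cast this) (by omega) (by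
      intro i hi
      have hi' : (i : ℤ) < q - p := by rw [← hlen]; exact_mod_cast hi
      have h2 := gp_step h hB r (p + i)
      have e : p + ((i + 1 : ℕ) : ℤ) = p + i + 1 := by push_cast; ring
      simp only [e]
      rcases hy (p + i) (by omega) (by omega) with h3 | h3
      · linarith [h2.1]
      · linarith [h2.2])
  simp only [Nat.cast_zero, add_zero] at h1
  rw [hlen] at h1
  have e : p + (q - p) = q := by ring
  rw [e] at h1
  exact h1

/-- **Forward return.** If `f > l` strictly inside `(v, j)`, then `d v j` is bounded by the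
levels of the end points and the logarithm of the duration. -/
theorem forward_return (h : HypG d δ) (hB : ∀ m, d m (m + 1) ≤ B) (r v j : ℤ) (n : ℕ)
    (hvj : v + 1 < j) (hn : j - v ≤ 2 ^ n) (l : ℝ)
    (hin : ∀ m, v < m → m < j → l < d r m) (hv : d r v ≤ l) (hj : d r j ≤ l) :
    d v j ≤ 2 * B + 2 * n * δ := by
  have h1 := gp_of_path h hB r v j n (by omega) hn l (by
    intro m hm1 hm2
    by_cases hm : m = v
    · right; exact (hin (m + 1) (by omega) (by omega)).le
    · left; exact (hin m (by omega) hm2).le)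
  have h2 := d_eq h r v j
  rw [h2]
  linarith

/-- **Backward return (nested bar).** `T < v`, `f ≥ β` on `[T, v]`, some time before `T` has `f ≤ β`
and `f v ≤ f T`.  Then there is a time `i < T` with `d v i ≤ d v T / 2 + E`. -/
theorem backward_return (h : HypG d δ) (hB : ∀ m, d m (m + 1) ≤ B) (hB0 : 0 ≤ B) (r s T v : ℤ)
    (n n' : ℕ) (hsT : s < T) (hTv : T < v) (hn : T - s ≤ 2 ^ n) (hn' : v - T ≤ 2 ^ n')
    (β : ℝ) (hs : d r s ≤ β) (hβ : ∀ m, T ≤ m → m ≤ v → β ≤ d r m) (hfT : d r v ≤ d r T) :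
    ∃ i, s ≤ i ∧ i < T ∧ (∀ m, i < m → m < T → max (gp d v T r) β < d r m) ∧
      d r i ≤ max (gp d v T r) β ∧
      d v i ≤ d v T / 2 + (3 * B + (2 * n + n' + 2) * δ) := by
  classical
  set g := gp d v T r with hg
  set g' := max g β with hg'
  have hδ := h.δ_nonneg
  -- T itself is above g'
  have hgT : g ≤ d r T := by
    rw [hg]
    unfold gp
    have := h.tri v T r
    have e1 := h.symm v T
    have e2 := h.symm T r
    have e3 := h.tri v T r
    linarith
  -- the last time before T with f ≤ g'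
  obtain ⟨i, his, hiT, hfi, himax⟩ : ∃ i, s ≤ i ∧ i < T ∧ d r i ≤ g' ∧
      ∀ m, i < m → m < T → g' < d r m := by
    have hne : ((Finset.Ico s T).filter (fun m => d r m ≤ g')).Nonempty :=
      ⟨s, by
        simp only [Finset.mem_filter, Finset.mem_Ico]
        exact ⟨⟨le_rfl, hsT⟩, hs.trans (le_max_right _ _)⟩⟩
    have hmem := Finset.max'_mem _ hne
    simp only [Finset.mem_filter, Finset.mem_Ico] at hmem
    refine ⟨_, hmem.1.1, hmem.1.2, hmem.2, ?_⟩
    intro m hm hmT
    by_contra hcon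
    push Not at hcon
    have := Finset.le_max' ((Finset.Ico s T).filter (fun m => d r m ≤ g')) m (by
      simp only [Finset.mem_filter, Finset.mem_Ico]
      exact ⟨⟨by omega, hmT⟩, hcon⟩)
    omega
  have hg'T : g' ≤ d r T := max_le hgT (hβ T le_rfl hTv.le)
  -- chain from i to T
  have hnT : T - i ≤ 2 ^ n := by omega
  have h1 : g' - B - n * δ ≤ gp d i T r := by
    apply gp_of_path h hB r i T n hiT hnT g'
    intro m hm1 hm2
    by_cases hm : m + 1 = T
    · right; rw [hm]; exact hg'T
    · right; exact (himax (m + 1) (by omega) (by omega)).le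
  -- chain from T to v
  have h2 : β - B - n' * δ ≤ gp d T v r := by
    apply gp_of_path h hB r T v n' hTv hn' β
    intro m hm1 hm2
    left
    exact hβ m hm1 hm2.le
  rw [gp_comm h] at h2
  have h3 := h.hyp v T i r
  rw [gp_comm h T i] at h3
  have hnn : (0:ℝ) ≤ n * δ := by positivity
  have hnn' : (0:ℝ) ≤ n' * δ := by positivity
  have h4 : g - B - n * δ ≤ min (gp d v T r) (gp d i T r) := by
    apply le_min
    · linarith
    · have := le_max_left g β
      linarith
  have h5 : g' - g ≤ B + n' * δ := by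
    rw [hg']
    rcases le_total g β with h6 | h6
    · rw [max_eq_right h6]; linarith
    · rw [max_eq_left h6]; linarith
  have h6 := d_eq h r v i
  have h7 := d_eq h r v T
  refine ⟨i, his, hiT, himax, hfi, ?_⟩
  rw [h6]
  rw [← hg] at h7
  nlinarith

/-- reversal of time -/
theorem HypG.neg (h : HypG d δ) : HypG (fun i j => d (-i) (-j)) δ where
  symm i j := h.symm _ _
  self i := h.self _
  nonneg i j := h.nonneg _ _
  tri i j l := h.tri _ _ _
  hyp i j l w := h.hyp (-i) (-j) (-l) (-w)
  δ_nonneg := h.δ_nonneg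

theorem step_neg (h : HypG d δ) (hB : ∀ m, d m (m + 1) ≤ B) (m : ℤ) :
    (fun i j => d (-i) (-j)) m (m + 1) ≤ B := by
  have h1 := hB (-(m + 1))
  have e : -(m + 1) + 1 = -m := by ring
  rw [e, h.symm] at h1
  exact h1

/-- Mirror image of `backward_return`: `v < T < s`. -/
theorem forward_return' (h : HypG d δ) (hB : ∀ m, d m (m + 1) ≤ B) (hB0 : 0 ≤ B) (r v T s : ℤ)
    (n n' : ℕ) (hvT : v < T) (hTs : T < s) (hn : s - T ≤ 2 ^ n) (hn' : T - v ≤ 2 ^ n')
    (β : ℝ) (hs : d r s ≤ β) (hβ : ∀ m, v ≤ m → m ≤ T → β ≤ d r m) (hfT : d r v ≤ d r T) :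
    ∃ i, T < i ∧ i ≤ s ∧ (∀ m, T < m → m < i → max (gp d v T r) β < d r m) ∧
      d r i ≤ max (gp d v T r) β ∧
      d v i ≤ d v T / 2 + (3 * B + (2 * n + n' + 2) * δ) := by
  obtain ⟨i, h1, h2, h3, h4, h5⟩ := backward_return (h.neg) (step_neg h hB) hB0 (-r) (-s) (-T) (-v)
    n n' (by omega) (by omega) (by omega) (by omega) β (by simpa using hs)
    (by
      intro m hm1 hm2
      have := hβ (-m) (by omega) (by omega)
      simpa using this)
    (by simpa using hfT)
  refine ⟨-i, by omega, by omega, ?_, ?_, ?_⟩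
  · intro m hm1 hm2
    have := h3 (-m) (by omega) (by omega)
    simpa [gp] using this
  · simpa [gp] using h4
  · simpa using h5

end Crest.Agent.R128.Contour
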