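import Mathlib
import Crest.Agent.R128.Contour

set_option autoImplicit false
set_option linter.unusedVariables false

/-! Row 128, MASTER v2 (279's note 15512 (4)), deterministic part: the feet of a nested component
of the root contour are neither forward nor backward clean.  Written by helper550. Sorry free. -/

namespace Crest.Agent.R128.Nested

open Crest.Agent.R128.Contour

/-- one-sided cleanness of a distance profile `D` (`D m` = distance to the starting point after `m`
steps, `irr m` = the digit of the step number `m` is irregular) up to step `n` -/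
def Clean (D : ℕ → ℝ) (irr : ℕ → Prop) (h0 : ℕ) (b b' : ℝ) (n : ℕ) : Prop :=
  (∀ m, m < 2 * h0 → m < n → ¬ irr m) ∧
  (∀ m, m ≤ n → ∀ m', m' ≤ m → (1 - b) * D m' ≤ D m) ∧
  (∀ m, m ≤ n → (m : ℝ) ≤ Real.exp (b' * D m))

theorem Clean.mono {D : ℕ → ℝ} {irr : ℕ → Prop} {h0 : ℕ} {b b' : ℝ} {n n' : ℕ} (hn : n' ≤ n)
    (h : Clean D irr h0 b b' n) : Clean D irr h0 b b' n' :=
  ⟨fun m h1 h2 => h.1 m h1 (by omega), fun m h1 => h.2.1 m (by omega),
    fun m h1 => h.2.2 m (by omega)⟩

/-- a power of two just above -/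
theorem exists_pow (x : ℕ) (hx : 1 ≤ x) : ∃ n : ℕ, x ≤ 2 ^ n ∧ (n : ℝ) * Real.log 2 ≤
    Real.log x + Real.log 2 := by
  refine ⟨Nat.clog 2 x, Nat.le_pow_clog one_lt_two x, ?_⟩
  rcases Nat.eq_zero_or_pos (Nat.clog 2 x) with h | h
  · rw [h]
    simp only [Nat.cast_zero, zero_mul]
    have h1 : 0 ≤ Real.log x := Real.log_natCast_nonneg x
    have h2 : 0 ≤ Real.log 2 := Real.log_nonneg one_le_two
    linarith
  · have h1 : 2 ^ (Nat.clog 2 x - 1) < x := by
      by_contra hcon
      push Not at hcon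
      have h3 := (Nat.clog_le_iff_le_pow one_lt_two).mpr hcon
      omega
    have h2 : ((2:ℝ) ^ (Nat.clog 2 x - 1)) ≤ x := by exact_mod_cast h1.le
    have h3 := Real.log_le_log (by positivity) h2
    rw [Real.log_pow] at h3
    have h4 : ((Nat.clog 2 x - 1 : ℕ) : ℝ) = (Nat.clog 2 x : ℝ) - 1 := by
      rw [Nat.cast_sub h]; simp
    rw [h4] at h3
    linarith

variable {d : ℤ → ℤ → ℝ} {δ B c0 : ℝ}

/-- the standing data: `d` hyperbolic on `ℤ`, bounded steps, contour `f` at bounded distance of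
`d r ·` on the window `[lo, hi]` -/
structure Dat (d : ℤ → ℤ → ℝ) (f : ℤ → ℝ) (r lo hi : ℤ) (irr : ℤ → Prop) (B c0 κ : ℝ) (h0 : ℕ) :
    Prop where
  hyp : HypG d (Real.log 2 / 2)
  step : ∀ m, d m (m + 1) ≤ B
  f_near : ∀ m, lo ≤ m → m ≤ hi → |f m - d r m| ≤ c0
  B_pos : 1 ≤ B
  c0_nonneg : 0 ≤ c0
  c0_le : c0 ≤ B
  grow : ∀ (v : ℤ) (n : ℕ), n ≤ 2 * h0 → lo ≤ v → v + n ≤ hi →
    (∀ m : ℕ, m < n → ¬ irr (v + m)) → (n : ℝ) * κ / 2 - B ≤ d v (v + n)
  big : 50 * B ≤ h0 * κ

variable {f : ℤ → ℝ} {r lo hi : ℤ} {irr : ℤ → Prop} {κ : ℝ} {h0 : ℕ}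

/-- generic forward return with different inner and outer levels -/
theorem fwd (h : HypG d δ) (hB : ∀ m, d m (m + 1) ≤ B) (r v j : ℤ) (n : ℕ)
    (hvj : v + 1 < j) (hn : j - v ≤ 2 ^ n) (l l1 : ℝ)
    (hin : ∀ m, v < m → m < j → l ≤ d r m) (hv : d r v ≤ l1) (hj : d r j ≤ l1) :
    d v j ≤ 2 * (l1 - l) + 2 * B + 2 * n * δ := by
  have h1 := gp_of_path h hB r v j n (by omega) hn l (by
    intro m hm1 hm2
    by_cases hm : m = v
    · right; exact (hin (m + 1) (by omega) (by omega))
    · left; exact (hin m (by omega) hm2))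
  have h2 := d_eq h r v j
  rw [h2]
  linarith

/-- **(4), forward half.** The left foot `v` of a component `(v, j; l)` of the contour which contains an
irregular time `a` (its top) is not forward clean up to `j`. -/
theorem not_clean_forward (D : Dat d f r lo hi irr B c0 κ h0) {b b' : ℝ} (hb0 : 0 ≤ b) (hb : b ≤ 1 / 20)
    (hb'0 : 0 ≤ b') (hb' : b' ≤ 1 / 50) {v j a : ℤ} {l : ℝ} (hlo : lo ≤ v) (hhi : j ≤ hi)
    (hva : v ≤ a) (haj : a < j) (hfv : f v ≤ l) (hfj : f j ≤ l)
    (hin : ∀ m, v < m → m < j → l < f m) (ha : irr a) :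
    ¬ Clean (fun m => d v (v + m)) (fun m => irr (v + m)) h0 b b' (j - v).toNat := by
  rintro ⟨c1, c2, c3⟩
  have hh0 : 1 ≤ h0 := by
    rcases Nat.eq_zero_or_pos h0 with h | h
    · have h1 := D.big
      have h2 := D.B_pos
      rw [h] at h1
      simp only [Nat.cast_zero, zero_mul] at h1
      linarith
    · exact h
  have hlen : ((j - v).toNat : ℤ) = j - v := Int.toNat_of_nonneg (by omega)
  -- a is far
  have ha1 : 2 * h0 ≤ (a - v).toNat := by
    by_contra hcon
    push Not at hcon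
    apply c1 (a - v).toNat hcon (by omega)
    have : v + ((a - v).toNat : ℤ) = a := by omega
    rw [this]
    exact ha
  -- growth
  have hg := D.grow v (2 * h0) le_rfl hlo (by push_cast; omega) (by
    intro m hm
    exact c1 m hm (by omega))
  have c2' := c2 (j - v).toNat le_rfl (2 * h0) (by omega)
  simp only [hlen] at c2'
  have e1 : v + (j - v) = j := by ring
  rw [e1] at c2'
  obtain ⟨n, hn1, hn2⟩ := exists_pow (j - v).toNat (by omega)
  have hn1' : j - v ≤ 2 ^ n := by
    have : ((j - v).toNat : ℤ) ≤ ((2 ^ n : ℕ) : ℤ) := by exact_mod_cast hn1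
    rw [hlen] at this
    exact_mod_cast this
  have hr := fwd D.hyp D.step r v j n (by omega) hn1' (l - c0) (l + c0)
    (by
      intro m h1 h2
      have h3 := (abs_le.mp (D.f_near m (by omega) (by omega))).2
      have h4 := hin m h1 h2
      linarith)
    (by
      have h3 := (abs_le.mp (D.f_near v (by omega) (by omega))).1
      linarith)
    (by
      have h3 := (abs_le.mp (D.f_near j (by omega) (by omega))).1
      linarith)
  have c3' := c3 (j - v).toNat le_rfl
  simp only [hlen] at c3'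
  rw [e1] at c3'
  have hpos : (0:ℝ) < ((j - v).toNat : ℝ) := by
    have : 0 < (j - v).toNat := by omega
    exact_mod_cast this
  have h5 := Real.log_le_log hpos c3'
  rw [Real.log_exp] at h5
  -- d v j ≤ 4 c0 + 2 B + log 2 + b' d v j
  have hdn := D.hyp.nonneg v j
  have hB := D.B_pos
  have hc := D.c0_nonneg
  have hc' := D.c0_le
  have hbig := D.big
  have hlog2 : Real.log 2 ≤ 1 := by
    have := Real.log_two_lt_d9
    linarith
  have h6 : d v j ≤ 6 * B + 1 + b' * d v j := by
    have e2 : 2 * (n:ℝ) * (Real.log 2 / 2) = n * Real.log 2 := by ring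
    rw [e2] at hr
    linarith
  have h7 : b' * d v j ≤ (1/50) * d v j := mul_le_mul_of_nonneg_right hb' hdn
  have h8 : d v j ≤ 8 * B := by nlinarith
  have e3 : v + ((2 * h0 : ℕ) : ℤ) = v + 2 * (h0 : ℤ) := by push_cast; ring
  have hg' : (h0:ℝ) * κ - B ≤ d v (v + ((2 * h0 : ℕ) : ℤ)) := by
    have : (((2 * h0 : ℕ) : ℝ)) * κ / 2 = h0 * κ := by push_cast; ring
    rw [this] at hg
    exact hg
  have h9 : (1 - b) * (h0 * κ - B) ≤ d v j := by
    refine le_trans ?_ c2'
    apply mul_le_mul_of_nonneg_left hg' (by linarith)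
  have h10 : 49 * B ≤ h0 * κ - B := by linarith
  nlinarith

/-- generic backward return -/
theorem bwd (h : HypG d δ) (hB : ∀ m, d m (m + 1) ≤ B) (r s T v : ℤ) (c0 : ℝ) (hc0 : 0 ≤ c0)
    (hB0 : 0 ≤ B) (hsT : s < T) (hTv : T < v)
    (β : ℝ) (hs : d r s ≤ β + 2 * c0) (hβ : ∀ m, T ≤ m → m ≤ v → β ≤ d r m)
    (hfT : d r v - 2 * c0 ≤ d r T) :
    ∃ i, s ≤ i ∧ i < T ∧ ∀ n n' : ℕ, T - i ≤ 2 ^ n → v - T ≤ 2 ^ n' →
      d v i ≤ d v T / 2 + (3 * B + 3 * c0 + (2 * n + n' + 2) * δ) := by
  classical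
  set g := gp d v T r with hg
  have hδ := h.δ_nonneg
  have hgT : g ≤ d r T := by
    rw [hg]
    unfold gp
    have e1 := h.symm v T
    have e2 := h.symm T r
    have e3 := h.tri v T r
    linarith
  set g' := max g (β + 2 * c0) with hg'
  set y0 := max g β with hy0
  have hy0T : y0 ≤ d r T := max_le hgT (hβ T le_rfl hTv.le)
  have hy0g' : y0 ≤ g' := max_le_max le_rfl (by linarith)
  have hg'y0 : g' ≤ y0 + 2 * c0 := by
    apply max_le
    · have := le_max_left g β
      linarith
    · have := le_max_right g β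
      linarith
  obtain ⟨i, his, hiT, hfi, himax⟩ : ∃ i, s ≤ i ∧ i < T ∧ d r i ≤ g' ∧
      ∀ m, i < m → m < T → g' < d r m := by
    have hne : ((Finset.Ico s T).filter (fun m => d r m ≤ g')).Nonempty :=
      ⟨s, by
        simp only [Finset.mem_filter, Finset.mem_Ico]
        exact ⟨⟨le_rfl, hsT⟩, hs.trans (le_max_right _ _)⟩⟩
    have hmem := Finset.max'_mem _ hne
    simp only [Finset.mem_filter, Finset.mem_Ico] at hmem
    refine ⟨_, hmem.1.1, hmem.1.2, hmem.2, ?_⟩
    intro m hm hmT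
    by_contra hcon
    push Not at hcon
    have := Finset.le_max' ((Finset.Ico s T).filter (fun m => d r m ≤ g')) m (by
      simp only [Finset.mem_filter, Finset.mem_Ico]
      exact ⟨⟨by omega, hmT⟩, hcon⟩)
    omega
  refine ⟨i, his, hiT, ?_⟩
  intro n n' hnT hn'
  have h1 : y0 - B - n * δ ≤ gp d i T r := by
    apply gp_of_path h hB r i T n hiT hnT y0
    intro m hm1 hm2
    by_cases hm : m + 1 = T
    · right; rw [hm]; exact hy0T
    · right; exact hy0g'.trans (himax (m + 1) (by omega) (by omega)).le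
  have h2 : β - B - n' * δ ≤ gp d T v r := by
    apply gp_of_path h hB r T v n' hTv hn' β
    intro m hm1 hm2
    left
    exact hβ m hm1 hm2.le
  rw [gp_comm h] at h2
  have h3 := h.hyp v T i r
  rw [gp_comm h T i] at h3
  have hnn : (0:ℝ) ≤ n * δ := by positivity
  have hnn' : (0:ℝ) ≤ n' * δ := by positivity
  have hgy : g ≤ y0 := le_max_left g β
  have h4 : g - B - n * δ ≤ min (gp d v T r) (gp d i T r) := by
    apply le_min
    · linarith
    · linarith
  have h5 : y0 - g ≤ B + n' * δ := by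
    rw [hy0]
    rcases le_total g β with h6 | h6
    · rw [max_eq_right h6]; linarith
    · rw [max_eq_left h6]; linarith
  have h6 := d_eq h r v i
  have h7 := d_eq h r v T
  rw [h6]
  rw [← hg] at h7
  nlinarith

/-- **(4), backward half.** `s < T < v`, `f s ≤ β < f` on `(s, v]`, `f v ≤ f T`, `T` irregular
(the top of the father component).  Then `v` is not backward clean up to some time `i ∈ [s, T)`. -/
theorem not_clean_backward (D : Dat d f r lo hi irr B c0 κ h0) {b b' : ℝ} (hb0 : 0 ≤ b)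
    (hb : b ≤ 1 / 20) (hb'0 : 0 ≤ b') (hb' : b' ≤ 1 / 50) {s T v : ℤ} {β : ℝ} (hlo : lo ≤ s)
    (hhi : v ≤ hi) (hsT : s < T) (hTv : T < v) (hfs : f s ≤ β) (hin : ∀ m, T ≤ m → m ≤ v → β ≤ f m)
    (hfT : f v ≤ f T) (hT : irr T ∨ irr (T - 1)) :
    ∃ i, s ≤ i ∧ i < T ∧
      ¬ Clean (fun m => d v (v - m)) (fun m => irr (v - m - 1)) h0 b b' (v - i).toNat := by
  have hB := D.B_pos
  have hc := D.c0_nonneg
  have hc' := D.c0_le
  have hbig := D.big
  obtain ⟨i, hsi, hiT, hmain⟩ := bwd D.hyp D.step r s T v c0 hc (by linarith) hsT hTv (β - c0)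
    (by
      have h3 := (abs_le.mp (D.f_near s (by omega) (by omega))).1
      linarith)
    (by
      intro m h1 h2
      have h3 := (abs_le.mp (D.f_near m (by omega) (by omega))).2
      have h4 := hin m h1 h2
      linarith)
    (by
      have h3 := (abs_le.mp (D.f_near v (by omega) (by omega))).1
      have h4 := (abs_le.mp (D.f_near T (by omega) (by omega))).2
      linarith)
  refine ⟨i, hsi, hiT, ?_⟩
  rintro ⟨c1, c2, c3⟩
  have hlen : ((v - i).toNat : ℤ) = v - i := Int.toNat_of_nonneg (by omega)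
  have hT1 : 2 * h0 ≤ (v - T).toNat := by
    by_contra hcon
    push Not at hcon
    rcases hT with hT | hT
    · apply c1 (v - T - 1).toNat (by omega) (by omega)
      have : v - ((v - T - 1).toNat : ℤ) - 1 = T := by omega
      rw [this]
      exact hT
    · apply c1 (v - T).toNat (by omega) (by omega)
      have : v - ((v - T).toNat : ℤ) - 1 = T - 1 := by omega
      rw [this]
      exact hT
  have hg := D.grow (v - (2 * h0 : ℕ)) (2 * h0) le_rfl (by push_cast; omega) (by push_cast; omega)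
    (by
      intro m hm
      have h1 : ¬ irr (v - ((2 * h0 - 1 - m : ℕ) : ℤ) - 1) :=
        c1 (2 * h0 - 1 - m) (by omega) (by omega)
      have e : v - ((2 * h0 - 1 - m : ℕ) : ℤ) - 1 = v - ((2 * h0 : ℕ) : ℤ) + m := by
        rw [Nat.cast_sub (by omega), Nat.cast_sub (by omega)]
        push_cast
        ring
      rw [e] at h1
      exact h1)
  have e0 : v - ((2 * h0 : ℕ) : ℤ) + ((2 * h0 : ℕ) : ℤ) = v := by ring
  rw [e0, D.hyp.symm] at hg
  have c2T := c2 (v - T).toNat (by omega) (2 * h0) (by omega)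
  have hlenT : ((v - T).toNat : ℤ) = v - T := Int.toNat_of_nonneg (by omega)
  simp only [hlenT] at c2T
  have e1 : v - (v - T) = T := by ring
  rw [e1] at c2T
  have c2i := c2 (v - i).toNat le_rfl (v - T).toNat (by omega)
  simp only [hlenT, hlen] at c2i
  have e2 : v - (v - i) = i := by ring
  rw [e1, e2] at c2i
  have c3i := c3 (v - i).toNat le_rfl
  simp only [hlen] at c3i
  rw [e2] at c3i
  obtain ⟨n, hn1, hn2⟩ := exists_pow (v - i).toNat (by omega)
  have hn1' : v - i ≤ 2 ^ n := by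
    have : ((v - i).toNat : ℤ) ≤ ((2 ^ n : ℕ) : ℤ) := by exact_mod_cast hn1
    rw [hlen] at this
    exact_mod_cast this
  have hm := hmain n n (by omega) (by omega)
  have hpos : (0:ℝ) < ((v - i).toNat : ℝ) := by
    have : 0 < (v - i).toNat := by omega
    exact_mod_cast this
  have h5 := Real.log_le_log hpos c3i
  rw [Real.log_exp] at h5
  have hdn := D.hyp.nonneg v i
  have hdT := D.hyp.nonneg v T
  have hlog2 : Real.log 2 ≤ 1 := by
    have := Real.log_two_lt_d9
    linarith
  have hlog0 : 0 ≤ Real.log 2 := Real.log_nonneg one_le_two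
  have e3 : (2 * (n:ℝ) + n + 2) * (Real.log 2 / 2) = (3 / 2) * (n * Real.log 2) + Real.log 2 := by ring
  rw [e3] at hm
  have h6 : d v i ≤ d v T / 2 + (6 * B + 3 + (3 / 2) * (b' * d v i)) := by nlinarith
  have h7 : b' * d v i ≤ (1/50) * d v i := mul_le_mul_of_nonneg_right hb' hdn
  have h8 : (1 - b) * d v T ≤ d v i := c2i
  have h8' : (19/20) * d v T ≤ d v i := by nlinarith
  have h9 : d v T ≤ 22 * B := by nlinarith
  have hg' : (h0:ℝ) * κ - B ≤ d v (v - ((2 * h0 : ℕ) : ℤ)) := by
    have : (((2 * h0 : ℕ) : ℝ)) * κ / 2 = h0 * κ := by push_cast; ring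
    rw [this] at hg
    exact hg
  have h10 : (1 - b) * (h0 * κ - B) ≤ d v T := by
    refine le_trans ?_ c2T
    apply mul_le_mul_of_nonneg_left hg' (by linarith)
  have h11 : 49 * B ≤ h0 * κ - B := by linarith
  nlinarith

/-- time reversal of the standing data -/
theorem Dat.neg (D : Dat d f r lo hi irr B c0 κ h0) :
    Dat (fun i j => d (-i) (-j)) (fun m => f (-m)) (-r) (-hi) (-lo) (fun x => irr (-x - 1)) B c0 κ h0
    where
  hyp := D.hyp.neg
  step m := step_neg D.hyp D.step m
  f_near m h1 h2 := by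
    have h := D.f_near (-m) (by omega) (by omega)
    show |f (-m) - d (- -r) (-m)| ≤ c0
    rw [neg_neg]
    exact h
  B_pos := D.B_pos
  c0_nonneg := D.c0_nonneg
  c0_le := D.c0_le
  grow v n hn h1 h2 h3 := by
    have h4 := D.grow (-v - n) n hn (by omega) (by omega) (by
      intro m hm
      have h5 := h3 (n - 1 - m) (by omega)
      have e : -(v + ((n - 1 - m : ℕ) : ℤ)) - 1 = -v - n + m := by
        rw [Nat.cast_sub (by omega), Nat.cast_sub (by omega)]
        push_cast
        ring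
      rw [e] at h5
      exact h5)
    have e1 : -v - (n:ℤ) + n = -v := by ring
    rw [e1, D.hyp.symm] at h4
    have e2 : -(v + (n:ℤ)) = -v - n := by ring
    show (n:ℝ) * κ / 2 - B ≤ d (-v) (-(v + (n:ℤ)))
    rw [e2]
    exact h4
  big := D.big

/-- not forward clean, the violation being visible within distance `H` and before time `hi` -/
def NF (d : ℤ → ℤ → ℝ) (irr : ℤ → Prop) (h0 : ℕ) (b b' H : ℝ) (hi v : ℤ) : Prop :=
  ∃ n : ℕ, v + n ≤ hi ∧ ¬ Clean (fun m => d v (v + m)) (fun m => irr (v + m)) h0 b b' n ∧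
    ∀ m : ℕ, m ≤ n → d v (v + m) ≤ H

/-- not backward clean, the violation being visible within distance `H` and after time `lo` -/
def NB (d : ℤ → ℤ → ℝ) (irr : ℤ → Prop) (h0 : ℕ) (b b' H : ℝ) (lo v : ℤ) : Prop :=
  ∃ n : ℕ, lo ≤ v - n ∧ ¬ Clean (fun m => d v (v - m)) (fun m => irr (v - m - 1)) h0 b b' n ∧
    ∀ m : ℕ, m ≤ n → d v (v - m) ≤ H

theorem NF_of_neg {b b' H : ℝ} {v : ℤ}
    (h : NB (fun i j => d (-i) (-j)) (fun x => irr (-x - 1)) h0 b b' H (-hi) (-v)) :
    NF d irr h0 b b' H hi v := by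
  obtain ⟨n, h1, h2, h3⟩ := h
  refine ⟨n, by omega, ?_, ?_⟩
  · intro hc
    apply h2
    have e1 : (fun m : ℕ => d (- -v) (-(-v - (m:ℤ)))) = fun m : ℕ => d v (v + m) := by
      ext m
      have e2 : -(-v - (m:ℤ)) = v + m := by ring
      rw [neg_neg, e2]
    have e3 : (fun m : ℕ => irr (-(-v - (m:ℤ) - 1) - 1)) = fun m : ℕ => irr (v + m) := by
      ext m
      have e2 : -(-v - (m:ℤ) - 1) - 1 = v + m := by ring
      rw [e2]
    show Clean (fun m : ℕ => d (- -v) (-(-v - (m:ℤ)))) (fun m : ℕ => irr (-(-v - (m:ℤ) - 1) - 1))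
      h0 b b' n
    rw [e1, e3]
    exact hc
  · intro m hm
    have h4 := h3 m hm
    have e2 : -(-v - (m:ℤ)) = v + m := by ring
    simp only [neg_neg, e2] at h4
    exact h4

theorem NB_of_neg {b b' H : ℝ} {v : ℤ}
    (h : NF (fun i j => d (-i) (-j)) (fun x => irr (-x - 1)) h0 b b' H (-lo) (-v)) :
    NB d irr h0 b b' H lo v := by
  obtain ⟨n, h1, h2, h3⟩ := h
  refine ⟨n, by omega, ?_, ?_⟩
  · intro hc
    apply h2
    have e1 : (fun m : ℕ => d (- -v) (-(-v + (m:ℤ)))) = fun m : ℕ => d v (v - m) := by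
      ext m
      have e2 : -(-v + (m:ℤ)) = v - m := by ring
      rw [neg_neg, e2]
    have e3 : (fun m : ℕ => irr (-(-v + (m:ℤ)) - 1)) = fun m : ℕ => irr (v - m - 1) := by
      ext m
      have e2 : -(-v + (m:ℤ)) - 1 = v - m - 1 := by ring
      rw [e2]
    show Clean (fun m : ℕ => d (- -v) (-(-v + (m:ℤ)))) (fun m : ℕ => irr (-(-v + (m:ℤ)) - 1))
      h0 b b' n
    rw [e1, e3]
    exact hc
  · intro m hm
    have h4 := h3 m hm
    have e2 : -(-v + (m:ℤ)) = v - m := by ring
    simp only [neg_neg, e2] at h4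
    exact h4

/-- distance bound from (c3): `β ≤ f` on the path from `p` to `q`, `f ≤ β + W` at both ends -/
theorem dist_bound (D : Dat d f r lo hi irr B c0 κ h0) {b' : ℝ} (hb'0 : 0 ≤ b') (hb' : b' ≤ 1 / 50)
    {p q : ℤ} {β W : ℝ} (hlo : lo ≤ p) (hhi : q ≤ hi) (hpq : p < q)
    (hin : ∀ m, p < m → m < q → β ≤ f m) (hend : β ≤ f p ∨ β ≤ f q)
    (hp : f p ≤ β + W) (hq : f q ≤ β + W)
    (hc3 : ((q - p : ℤ) : ℝ) ≤ Real.exp (b' * d p q)) : d p q ≤ (21/10) * W + 9 * B := by
  obtain ⟨n, hn1, hn2⟩ := exists_pow (q - p).toNat (by omega)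
  have hlen : ((q - p).toNat : ℤ) = q - p := Int.toNat_of_nonneg (by omega)
  have hlenR : ((q - p).toNat : ℝ) = ((q - p : ℤ) : ℝ) := by exact_mod_cast congrArg (Int.cast (R := ℝ)) hlen
  have hn1' : q - p ≤ 2 ^ n := by
    have : ((q - p).toNat : ℤ) ≤ ((2 ^ n : ℕ) : ℤ) := by exact_mod_cast hn1
    rw [hlen] at this
    exact_mod_cast this
  have hB := D.B_pos
  have hc := D.c0_nonneg
  have hc' := D.c0_le
  have h1 := gp_of_path D.hyp D.step r p q n hpq hn1' (β - c0) (by
    intro m hm1 hm2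
    have hnear : ∀ x, lo ≤ x → x ≤ hi → β ≤ f x → β - c0 ≤ d r x := by
      intro x hx1 hx2 hx3
      have h3 := (abs_le.mp (D.f_near x hx1 hx2)).2
      linarith
    by_cases hmp : m = p
    · by_cases hmq : m + 1 = q
      · rcases hend with h2 | h2
        · left; rw [hmp]; exact hnear p (by omega) (by omega) h2
        · right; rw [hmq]; exact hnear q (by omega) (by omega) h2
      · right; exact hnear _ (by omega) (by omega) (hin (m + 1) (by omega) (by omega))
    · left; exact hnear _ (by omega) (by omega) (hin m (by omega) (by omega)))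
  have h2 := d_eq D.hyp r p q
  have h3 := (abs_le.mp (D.f_near p (by omega) (by omega))).1
  have h4 := (abs_le.mp (D.f_near q (by omega) (by omega))).1
  have hpos : (0:ℝ) < ((q - p : ℤ) : ℝ) := by
    have : 0 < q - p := by omega
    exact_mod_cast this
  have h5 := Real.log_le_log hpos hc3
  rw [Real.log_exp] at h5
  rw [hlenR] at hn2
  have hdn := D.hyp.nonneg p q
  have h7 : b' * d p q ≤ (1/50) * d p q := mul_le_mul_of_nonneg_right hb' hdn
  have hlog2 : Real.log 2 ≤ 1 := by
    have := Real.log_two_lt_d9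
    linarith
  have hlog0 : 0 ≤ Real.log 2 := Real.log_nonneg one_le_two
  have h8 : d p q ≤ 2 * W + 6 * B + 1 + (1/50) * d p q := by
    rw [h2] at h7 ⊢
    have e2 : 2 * ((n:ℝ) * (Real.log 2 / 2)) = n * Real.log 2 := by ring
    nlinarith
  have hW : 0 ≤ W ∨ W < 0 := le_or_gt 0 W
  rcases hW with hW | hW
  · nlinarith
  · exfalso
    rcases hend with h9 | h9 <;> linarith

theorem Clean.zero {D : ℕ → ℝ} {irr : ℕ → Prop} {h0 : ℕ} {b b' : ℝ} (hD : 0 ≤ D 0) (hb : 0 ≤ b) :
    Clean D irr h0 b b' 0 := by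
  refine ⟨fun m _ h => absurd h (by omega), ?_, ?_⟩
  · intro m hm m' hm'
    have h1 : m = 0 := by omega
    have h2 : m' = 0 := by omega
    subst h1 h2
    nlinarith
  · intro m hm
    have h1 : m = 0 := by omega
    subst h1
    simp only [Nat.cast_zero]
    exact (Real.exp_pos _).le

/-- first violation -/
theorem first_violation {D : ℕ → ℝ} {irr : ℕ → Prop} {h0 : ℕ} {b b' : ℝ} (hD : 0 ≤ D 0)
    (hb : 0 ≤ b) {N : ℕ} (h : ¬ Clean D irr h0 b b' N) :
    ∃ n, n + 1 ≤ N ∧ Clean D irr h0 b b' n ∧ ¬ Clean D irr h0 b b' (n + 1) := by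
  classical
  have hex : ∃ n, ¬ Clean D irr h0 b b' n := ⟨N, h⟩
  have h1 := Nat.find_spec hex
  have h2 : Nat.find hex ≠ 0 := by
    intro h0'
    rw [h0'] at h1
    exact h1 (Clean.zero hD hb)
  obtain ⟨n, hn⟩ := Nat.exists_eq_succ_of_ne_zero h2
  refine ⟨n, ?_, ?_, ?_⟩
  · rw [← Nat.succ_eq_add_one, ← hn]
    exact Nat.find_min' hex h
  · by_contra hc
    have := Nat.find_min' hex hc
    omega
  · rw [← Nat.succ_eq_add_one, ← hn]
    exact h1

/-- **(4h L).** Left foot `v` of a component `(v, j; l)`; father component with left foot `s`, level `β`,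
containing `[T, j)`, top `T < v`, height `W`. -/
theorem nested_left (D : Dat d f r lo hi irr B c0 κ h0) {b b' : ℝ} (hb0 : 0 ≤ b) (hb : b ≤ 1 / 20)
    (hb'0 : 0 ≤ b') (hb' : b' ≤ 1 / 50) {s T v a j : ℤ} {l β W H : ℝ} (hlo : lo ≤ s) (hhi : j ≤ hi)
    (hsT : s < T) (hTv : T < v) (hva : v ≤ a) (haj : a < j) (hfv : f v ≤ l) (hfj : f j ≤ l)
    (hin : ∀ m, v < m → m < j → l < f m) (ha : irr a) (hT : irr T ∨ irr (T - 1)) (hfs : f s ≤ β)
    (hfather : ∀ m, s < m → m < j → β ≤ f m) (hW : ∀ m, s ≤ m → m ≤ j → f m ≤ β + W)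
    (hfT : f v ≤ f T) (hH : (21/10) * W + 10 * B ≤ H) :
    NF d irr h0 b b' H hi v ∧ NB d irr h0 b b' H lo v := by
  have hB := D.B_pos
  constructor
  · have h1 := not_clean_forward D hb0 hb hb'0 hb' (by omega) hhi hva haj hfv hfj hin ha
    obtain ⟨n, h2, h3, h4⟩ := first_violation (by simpa using (D.hyp.nonneg v v)) hb0 h1
    refine ⟨n + 1, by push_cast; omega, h4, ?_⟩
    have key : ∀ m : ℕ, m ≤ n → d v (v + m) ≤ (21/10) * W + 9 * B := by
      intro m hm
      rcases Nat.eq_zero_or_pos m with h5 | h5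
      · subst h5
        simp only [Nat.cast_zero, add_zero, D.hyp.self]
        have h6 := hW v (by omega) (by omega)
        have h7 := hfather v (by omega) (by omega)
        have : 0 ≤ W := by linarith
        nlinarith
      · have h6 := h3.2.2 m hm
        apply dist_bound D hb'0 hb' (p := v) (q := v + m) (β := β) (W := W) (by omega) (by omega)
          (by omega) (fun x hx1 hx2 => hfather x (by omega) (by omega))
          (Or.inl (hfather v (by omega) (by omega))) (hW v (by omega) (by omega))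
          (hW _ (by omega) (by omega))
        have e : v + (m:ℤ) - v = m := by ring
        rw [e]
        exact_mod_cast h6
    intro m hm
    rcases Nat.lt_or_ge n m with h5 | h5
    · have h6 : m = n + 1 := by omega
      subst h6
      have h7 := D.hyp.tri v (v + n) (v + ((n + 1 : ℕ) : ℤ))
      have h8 := D.step (v + n)
      have e : v + ((n + 1 : ℕ) : ℤ) = v + n + 1 := by push_cast; ring
      rw [e] at h7 ⊢
      have h9 := key n le_rfl
      linarith
    · have := key m h5
      linarith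
  · obtain ⟨i, hsi, hiT, h1⟩ := not_clean_backward D hb0 hb hb'0 hb' hlo (by omega) hsT hTv hfs
      (fun m h1 h2 => hfather m (by omega) (by omega)) hfT hT
    obtain ⟨n, h2, h3, h4⟩ := first_violation (by simpa using (D.hyp.nonneg v v)) hb0 h1
    refine ⟨n + 1, by push_cast; omega, h4, ?_⟩
    have key : ∀ m : ℕ, m ≤ n → d v (v - m) ≤ (21/10) * W + 9 * B := by
      intro m hm
      rcases Nat.eq_zero_or_pos m with h5 | h5
      · subst h5
        simp only [Nat.cast_zero, sub_zero, D.hyp.self]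
        have h6 := hW v (by omega) (by omega)
        have h7 := hfather v (by omega) (by omega)
        have : 0 ≤ W := by linarith
        nlinarith
      · have h6 := h3.2.2 m hm
        rw [D.hyp.symm]
        apply dist_bound D hb'0 hb' (p := v - m) (q := v) (β := β) (W := W) (by omega) (by omega)
          (by omega) (fun x hx1 hx2 => hfather x (by omega) (by omega))
          (Or.inr (hfather v (by omega) (by omega))) (hW _ (by omega) (by omega))
          (hW v (by omega) (by omega))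
        have e : v - (v - (m:ℤ)) = m := by ring
        rw [e, D.hyp.symm]
        exact_mod_cast h6
    intro m hm
    rcases Nat.lt_or_ge n m with h5 | h5
    · have h6 : m = n + 1 := by omega
      subst h6
      have h7 := D.hyp.tri v (v - n) (v - ((n + 1 : ℕ) : ℤ))
      have h8 := D.step (v - n - 1)
      have e : v - ((n + 1 : ℕ) : ℤ) = v - n - 1 := by push_cast; ring
      have e' : v - (n:ℤ) - 1 + 1 = v - n := by ring
      rw [e'] at h8
      rw [D.hyp.symm] at h8
      rw [e] at h7 ⊢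
      have h9 := key n le_rfl
      linarith
    · have := key m h5
      linarith

/-- **(4h R).** Right foot `v` of a component `(i, v; l)`; father component with right foot `s`, level
`β`, containing `(i, T]`, top `T > v`, height `W`. -/
theorem nested_right (D : Dat d f r lo hi irr B c0 κ h0) {b b' : ℝ} (hb0 : 0 ≤ b) (hb : b ≤ 1 / 20)
    (hb'0 : 0 ≤ b') (hb' : b' ≤ 1 / 50) {s T v a i : ℤ} {l β W H : ℝ} (hlo : lo ≤ i) (hhi : s ≤ hi)
    (hsT : T < s) (hTv : v < T) (hva : i < a) (haj : a < v) (hfv : f v ≤ l) (hfi : f i ≤ l)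
    (hin : ∀ m, i < m → m < v → l < f m) (ha : irr a) (hT : irr T) (hfs : f s ≤ β)
    (hfather : ∀ m, i < m → m < s → β ≤ f m) (hW : ∀ m, i ≤ m → m ≤ s → f m ≤ β + W)
    (hfT : f v ≤ f T) (hH : (21/10) * W + 10 * B ≤ H) :
    NF d irr h0 b b' H hi v ∧ NB d irr h0 b b' H lo v := by
  obtain ⟨h1, h2⟩ := nested_left D.neg hb0 hb hb'0 hb' (s := -s) (T := -T) (v := -v) (a := -a - 1)
    (j := -i) (l := l) (β := β) (W := W) (H := H) (by omega) (by omega) (by omega) (by omega)
    (by omega) (by omega) (by simpa using hfv) (by simpa using hfi)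
    (by
      intro m h1 h2
      exact hin (-m) (by omega) (by omega))
    (by
      have e : -(-a - 1) - 1 = a := by ring
      rw [e]
      exact ha)
    (by
      right
      have e : -(-T - 1) - 1 = T := by ring
      rw [e]
      exact hT)
    (by simpa using hfs)
    (by
      intro m h1 h2
      exact hfather (-m) (by omega) (by omega))
    (by
      intro m h1 h2
      exact hW (-m) (by omega) (by omega))
    (by simpa using hfT) hH
  exact ⟨NF_of_neg h2, NB_of_neg h1⟩

/-- **(4), path version (no height `H`), left feet.** -/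
theorem nested_left_path (D : Dat d f r lo hi irr B c0 κ h0) {b b' : ℝ} (hb0 : 0 ≤ b)
    (hb : b ≤ 1 / 20) (hb'0 : 0 ≤ b') (hb' : b' ≤ 1 / 50) {s T v a j : ℤ} {l β : ℝ} (hlo : lo ≤ s)
    (hhi : j ≤ hi) (hsT : s < T) (hTv : T < v) (hva : v ≤ a) (haj : a < j) (hfv : f v ≤ l)
    (hfj : f j ≤ l) (hin : ∀ m, v < m → m < j → l < f m) (ha : irr a) (hT : irr T ∨ irr (T - 1))
    (hfs : f s ≤ β) (hfather : ∀ m, T ≤ m → m ≤ v → β ≤ f m) (hfT : f v ≤ f T) :
    ¬ Clean (fun m => d v (v + m)) (fun m => irr (v + m)) h0 b b' (hi - v).toNat ∧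
    ¬ Clean (fun m => d v (v - m)) (fun m => irr (v - m - 1)) h0 b b' (v - lo).toNat := by
  constructor
  · intro hc
    exact not_clean_forward D hb0 hb hb'0 hb' (by omega) hhi hva haj hfv hfj hin ha
      (hc.mono (by omega))
  · intro hc
    obtain ⟨i, hsi, hiT, h1⟩ := not_clean_backward D hb0 hb hb'0 hb' hlo (by omega) hsT hTv hfs
      hfather hfT hT
    exact h1 (hc.mono (by omega))

/-- time reversal of forward cleanness -/
theorem clean_neg_iff {b b' : ℝ} {v : ℤ} {n : ℕ} :
    Clean (fun m : ℕ => d (-(-v)) (-(-v + m))) (fun m : ℕ => irr (-(-v + m) - 1)) h0 b b' n ↔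
      Clean (fun m : ℕ => d v (v - m)) (fun m : ℕ => irr (v - m - 1)) h0 b b' n := by
  have e1 : ∀ m : ℕ, -(-v + (m:ℤ)) = v - m := fun m => by ring
  simp only [e1, neg_neg]

/-- time reversal of backward cleanness -/
theorem clean_neg_iff' {b b' : ℝ} {v : ℤ} {n : ℕ} :
    Clean (fun m : ℕ => d (-(-v)) (-(-v - m))) (fun m : ℕ => irr (-(-v - m - 1) - 1)) h0 b b' n ↔
      Clean (fun m : ℕ => d v (v + m)) (fun m : ℕ => irr (v + m)) h0 b b' n := by
  have e1 : ∀ m : ℕ, -(-v - (m:ℤ)) = v + m := fun m => by ring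
  have e2 : ∀ m : ℕ, -(-v - (m:ℤ) - 1) - 1 = v + m := fun m => by ring
  simp only [e1, e2, neg_neg]

/-- **(4), path version (no height `H`), right feet.** -/
theorem nested_right_path (D : Dat d f r lo hi irr B c0 κ h0) {b b' : ℝ} (hb0 : 0 ≤ b)
    (hb : b ≤ 1 / 20) (hb'0 : 0 ≤ b') (hb' : b' ≤ 1 / 50) {s T v a i : ℤ} {l β : ℝ} (hlo : lo ≤ i)
    (hhi : s ≤ hi) (hsT : T < s) (hTv : v < T) (hva : i ≤ a) (haj : a < v) (hfv : f v ≤ l)
    (hfi : f i ≤ l) (hin : ∀ m, i < m → m < v → l < f m) (ha : irr a) (hT : irr T ∨ irr (T - 1))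
    (hfs : f s ≤ β) (hfather : ∀ m, v ≤ m → m ≤ T → β ≤ f m) (hfT : f v ≤ f T) :
    ¬ Clean (fun m => d v (v + m)) (fun m => irr (v + m)) h0 b b' (hi - v).toNat ∧
    ¬ Clean (fun m => d v (v - m)) (fun m => irr (v - m - 1)) h0 b b' (v - lo).toNat := by
  obtain ⟨h1, h2⟩ := nested_left_path D.neg hb0 hb hb'0 hb' (s := -s) (T := -T) (v := -v)
    (a := -a - 1) (j := -i) (l := l) (β := β) (by omega) (by omega) (by omega) (by omega)
    (by omega) (by omega) (by simpa using hfv) (by simpa using hfi)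
    (by
      intro m h1 h2
      exact hin (-m) (by omega) (by omega))
    (by
      have e : -(-a - 1) - 1 = a := by ring
      rw [e]
      exact ha)
    (by
      rcases hT with hT | hT
      · right
        have e : -(-T - 1) - 1 = T := by ring
        rw [e]
        exact hT
      · left
        have e : -(-T) - 1 = T - 1 := by ring
        rw [e]
        exact hT)
    (by simpa using hfs)
    (by
      intro m h1 h2
      exact hfather (-m) (by omega) (by omega))
    (by simpa using hfT)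
  have e1 : (-lo - -v).toNat = (v - lo).toNat := by congr 1; ring
  have e2 : (-v - -hi).toNat = (hi - v).toNat := by congr 1; ring
  rw [e1] at h1
  rw [e2] at h2
  exact ⟨fun h => h2 (clean_neg_iff'.mpr h), fun h => h1 (clean_neg_iff.mpr h)⟩

end Crest.Agent.R128.Nested
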