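import Mathlib
import Crest.Agent.R128.Nested
import Crest.Agent.R128.Hyp
import Crest.Agent.R128.Two
import Crest.Agent.R128.Acc
import Crest.Agent.R128.Charge

set_option autoImplicit false
set_option linter.unusedVariables false

/-! Row 128, MASTER v2, V1-4: the concrete instance of `Nested.Dat` for the standard map, and the
hypotheses `h4L`, `h4R` of `Charge.charge`.  Written by helper550. Sorry free. -/

open Crest.AnalysisR.StandardFamily
open scoped Matrix.Norms.L2Operator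

namespace Crest.Agent.R128.NestedInst

open Crest.Agent.R128.Contour Crest.Agent.R128.Hyp Crest.Agent.R128.Acc Crest.Agent.R128.Nested
  Crest.Agent.R128.Two Crest.Agent.R128.Charge

/-- distance of two times of a sequence of matrices, any index type -/
noncomputable def dist {ι : Type*} (g : ι → M2) (i j : ι) : ℝ := Real.log ‖g j * (g i)⁻¹‖

theorem hypG {ι : Type*} {g : ι → M2} (hg : ∀ i, (g i).det = 1) : HypG (dist g) (Real.log 2 / 2) := by
  have hu : ∀ i, IsUnit (g i).det := fun i => by rw [hg i]; exact isUnit_one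
  have hpos : ∀ i j, 0 < ‖g j * (g i)⁻¹‖ := fun i j =>
    lt_of_lt_of_le one_pos (one_le_norm (det_mul_inv (hg j) (hg i)))
  have hinv : ∀ i j, (g j * (g i)⁻¹)⁻¹ = g i * (g j)⁻¹ := by
    intro i j
    rw [Matrix.mul_inv_rev, Matrix.nonsing_inv_nonsing_inv _ (hu i)]
  have hmul : ∀ i j l, (g l * (g j)⁻¹) * (g j * (g i)⁻¹) = g l * (g i)⁻¹ := by
    intro i j l
    rw [Matrix.mul_assoc, ← Matrix.mul_assoc (g j)⁻¹, Matrix.nonsing_inv_mul _ (hu j), Matrix.one_mul]
  have hsymm : ∀ i j, dist g i j = dist g j i := by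
    intro i j
    unfold dist
    rw [← hinv i j, ninv (det_mul_inv (hg j) (hg i))]
  have hself : ∀ i, dist g i i = 0 := by
    intro i
    unfold dist
    rw [Matrix.mul_nonsing_inv _ (hu i)]
    have : ‖(1 : M2)‖ = 1 := le_antisymm norm_one_le (one_le_norm Matrix.det_one)
    rw [this, Real.log_one]
  refine ⟨hsymm, hself, ?_, ?_, ?_, by positivity⟩
  · intro i j
    exact Real.log_nonneg (one_le_norm (det_mul_inv (hg j) (hg i)))
  · intro i j l
    unfold dist
    rw [← Real.log_mul (hpos i j).ne' (hpos j l).ne']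
    apply Real.log_le_log (hpos i l)
    rw [← hmul i j l, mul_comm]
    exact Matrix.l2_opNorm_mul _ _
  · intro i j l w
    have hp := ptolemy (x := g i * (g w)⁻¹) (y := g j * (g w)⁻¹) (z := g l * (g w)⁻¹)
      (det_mul_inv (hg i) (hg w)) (det_mul_inv (hg j) (hg w))
    rw [hinv w i, hinv w j, hmul i w l, hmul j w l, hmul j w i] at hp
    have h1 : dist g i l + dist g w j ≤
        max (dist g j l + dist g w i) (dist g w l + dist g j i) + Real.log 2 := by
      unfold dist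
      rw [← Real.log_mul (hpos i l).ne' (hpos w j).ne', ← Real.log_mul (hpos j l).ne' (hpos w i).ne',
        ← Real.log_mul (hpos w l).ne' (hpos j i).ne']
      rcases le_total (‖g l * (g j)⁻¹‖ * ‖g i * (g w)⁻¹‖) (‖g l * (g w)⁻¹‖ * ‖g i * (g j)⁻¹‖) with
        h | h
      · have h2 : ‖g l * (g i)⁻¹‖ * ‖g j * (g w)⁻¹‖ ≤
            (‖g l * (g w)⁻¹‖ * ‖g i * (g j)⁻¹‖) * 2 := by linarith
        have h3 := Real.log_le_log (mul_pos (hpos i l) (hpos w j)) h2
        rw [Real.log_mul (mul_pos (hpos w l) (hpos j i)).ne' two_ne_zero] at h3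
        refine h3.trans ?_
        gcongr
        exact le_max_right _ _
      · have h2 : ‖g l * (g i)⁻¹‖ * ‖g j * (g w)⁻¹‖ ≤
            (‖g l * (g j)⁻¹‖ * ‖g i * (g w)⁻¹‖) * 2 := by linarith
        have h3 := Real.log_le_log (mul_pos (hpos i l) (hpos w j)) h2
        rw [Real.log_mul (mul_pos (hpos j l) (hpos w i)).ne' two_ne_zero] at h3
        refine h3.trans ?_
        gcongr
        exact le_max_left _ _
    unfold gp
    rw [hsymm i w, hsymm l w, hsymm j w, hsymm i j]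
    rcases le_total (dist g j l + dist g w i) (dist g w l + dist g j i) with h | h
    · rw [max_eq_right h] at h1
      refine le_trans (sub_le_sub_right (min_le_left _ _) _) ?_
      linarith
    · rw [max_eq_left h] at h1
      refine le_trans (sub_le_sub_right (min_le_right _ _) _) ?_
      linarith

/-! ### l2 norm versus rows -/

theorem norm_le_rn (M : M2) : ‖M‖ ≤ 2 * max (rn M 0) (rn M 1) := by
  set X := max (rn M 0) (rn M 1) with hX
  have h0 : rn M 0 ≤ X := le_max_left _ _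
  have h1 : rn M 1 ≤ X := le_max_right _ _
  have hX0 : 0 ≤ X := by
    refine le_trans ?_ h0
    unfold rn
    positivity
  apply norm_le_of_ap (by positivity)
  intro v
  have hv0 : |v 0| ≤ ‖v‖ := by
    apply abs_le_of_sq_le_sq _ (norm_nonneg _)
    rw [norm_sq]
    nlinarith [sq_nonneg (v 1)]
  have hv1 : |v 1| ≤ ‖v‖ := by
    apply abs_le_of_sq_le_sq _ (norm_nonneg _)
    rw [norm_sq]
    nlinarith [sq_nonneg (v 0)]
  have key : ∀ i, |ap M v i| ≤ rn M i * ‖v‖ := by
    intro i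
    rw [ap_apply]
    unfold rn
    calc |M i 0 * v 0 + M i 1 * v 1| ≤ |M i 0| * |v 0| + |M i 1| * |v 1| := by
          refine (abs_add_le _ _).trans ?_
          rw [abs_mul, abs_mul]
      _ ≤ |M i 0| * ‖v‖ + |M i 1| * ‖v‖ := by gcongr
      _ = (|M i 0| + |M i 1|) * ‖v‖ := by ring
  have k0 := (key 0).trans (mul_le_mul_of_nonneg_right h0 (norm_nonneg v))
  have k1 := (key 1).trans (mul_le_mul_of_nonneg_right h1 (norm_nonneg v))
  have hn := norm_nonneg v
  have hsq : ‖ap M v‖ ^ 2 ≤ (2 * X * ‖v‖) ^ 2 := by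
    rw [norm_sq]
    have a0 : (ap M v 0) ^ 2 ≤ (X * ‖v‖) ^ 2 := sq_le_sq' (by linarith [neg_abs_le (ap M v 0)]) (by linarith [le_abs_self (ap M v 0)])
    have a1 : (ap M v 1) ^ 2 ≤ (X * ‖v‖) ^ 2 := sq_le_sq' (by linarith [neg_abs_le (ap M v 1)]) (by linarith [le_abs_self (ap M v 1)])
    nlinarith [sq_nonneg (X * ‖v‖)]
  exact abs_le_of_sq_le_sq' hsq (by positivity) |>.2

theorem entry_le (M : M2) (i j : Fin 2) : |M i j| ≤ ‖M‖ := by
  have h0 : ∀ v : E2, ∀ i, |v i| ≤ ‖v‖ := by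
    intro v i
    apply abs_le_of_sq_le_sq _ (norm_nonneg _)
    rw [norm_sq]
    fin_cases i
    · simp only [Fin.zero_eta]; nlinarith [sq_nonneg (v 1)]
    · simp only [Fin.mk_one]; nlinarith [sq_nonneg (v 0)]
  fin_cases j
  · have h1 := h0 (ap M !₂[1, 0]) i
    have h2 := norm_ap_le M !₂[1, 0]
    rw [norm_e0, mul_one] at h2
    rw [ap_apply] at h1
    simp at h1
    exact h1.trans h2
  · have h1 := h0 (ap M !₂[0, 1]) i
    have h2 := norm_ap_le M !₂[0, 1]
    have h3 : ‖(!₂[0, 1] : E2)‖ = 1 := by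
      have := norm_sq (!₂[0, 1] : E2)
      simp at this
      have h4 := norm_nonneg (!₂[0, 1] : E2)
      rcases this with h5 | h5
      · exact h5
      · linarith
    rw [h3, mul_one] at h2
    rw [ap_apply] at h1
    simp at h1
    exact h1.trans h2

theorem rn_le_norm (M : M2) (i : Fin 2) : rn M i ≤ 2 * ‖M‖ := by
  unfold rn
  have h0 := entry_le M i 0
  have h1 := entry_le M i 1
  linarith

/-! ### the standard map -/

/-- the distance of the times `i`, `j` of the orbit of `z` -/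
noncomputable def dd (k : ℝ) (z : Tor) (i j : ℤ) : ℝ := Real.log ‖Aij k i j z‖

theorem dd_eq (k : ℝ) (z : Tor) : dd k z = dist (fun i => Az k i z) := by
  funext i j
  unfold dd dist
  rw [Aij_eq]

theorem dd_hyp (k : ℝ) (z : Tor) : HypG (dd k z) (Real.log 2 / 2) := by
  rw [dd_eq]
  exact hypG (fun i => det_Az k i z)

theorem dd_nat (k : ℝ) (z : Tor) (n : ℕ) : dd k z 0 n = Real.log ‖Mn k n z‖ := by
  unfold dd
  rw [Aij_zero, Az_natCast]

theorem one_le_norm_Mn (k : ℝ) (n : ℕ) (z : Tor) : 1 ≤ ‖Mn k n z‖ := by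
  have := one_le_norm (det_Az k n z)
  rwa [Az_natCast] at this

theorem exp_bt' (k : ℝ) (n : ℕ) (z : Tor) : Real.exp (bt (rr k z) n) =
    max (rn (Mn k n z) 0) (rn (Mn k n z) 1) := by
  rw [exp_bt]
  unfold nm
  rw [rr_succ]
  rfl

theorem near_bt (k : ℝ) (n : ℕ) (z : Tor) : |bt (rr k z) n - Real.log ‖Mn k n z‖| ≤ Real.log 2 := by
  have h1 := norm_le_rn (Mn k n z)
  have h2 : max (rn (Mn k n z) 0) (rn (Mn k n z) 1) ≤ 2 * ‖Mn k n z‖ :=
    max_le (rn_le_norm _ _) (rn_le_norm _ _)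
  rw [← exp_bt'] at h1 h2
  have hp := one_le_norm_Mn k n z
  have h3 := Real.log_le_log (by linarith) h1
  have h4 := Real.log_le_log (Real.exp_pos _) h2
  rw [Real.log_mul two_ne_zero (Real.exp_pos _).ne', Real.log_exp] at h3
  rw [Real.log_mul two_ne_zero (by linarith), Real.log_exp] at h4
  rw [abs_le]
  constructor <;> linarith

/-- growth along regular digits -/
theorem rr_grow {k X : ℝ} (hX : 2 ≤ X) (y : Tor) (n : ℕ)
    (h : ∀ m < n, X ≤ |V k ((T k)^[m] y).2|) :
    rr k y n ≤ rr k y (n + 1) ∧ (X - 1) ^ n ≤ rr k y (n + 1) := by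
  induction n with
  | zero => rw [rr_zero, zero_add, rr_one]; simp
  | succ n ih =>
    obtain ⟨h1, h2⟩ := ih (fun m hm => h m (by omega))
    have h3 := rr_h1 k y n
    have h4 := h n (by omega)
    have hp := rr_pos k y (n + 1)
    have h5 : (X - 1) * rr k y (n + 1) ≤ rr k y (n + 1 + 1) := by
      unfold dg at h3
      rw [show n + 1 + 1 = n + 2 from rfl]
      nlinarith
    refine ⟨by nlinarith, ?_⟩
    rw [pow_succ]
    calc (X - 1) ^ n * (X - 1) ≤ rr k y (n + 1) * (X - 1) := by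
          apply mul_le_mul_of_nonneg_right h2 (by linarith)
      _ ≤ _ := by rw [mul_comm]; exact h5

theorem norm_grow {k X : ℝ} (hX : 2 ≤ X) (y : Tor) (n : ℕ)
    (h : ∀ m < n, X ≤ |V k ((T k)^[m] y).2|) :
    n * Real.log (X - 1) - Real.log 2 ≤ Real.log ‖Mn k n y‖ := by
  rcases Nat.eq_zero_or_pos n with h0 | h0
  · subst h0
    have h1 := Real.log_nonneg (one_le_norm_Mn k 0 y)
    have h2 := Real.log_nonneg (one_le_two (α := ℝ))
    simp only [Nat.cast_zero, zero_mul]
    linarith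
  · have h1 := (rr_grow hX y n h).2
    have hX1 : (1:ℝ) ≤ X - 1 := by linarith
    have h2 : rr k y (n + 1) ≤ 2 * ‖Mn k n y‖ := by
      rw [rr_succ]
      exact rn_le_norm _ _
    have hp := one_le_norm_Mn k n y
    have h3 := Real.log_le_log (by positivity) (h1.trans h2)
    rw [Real.log_pow, Real.log_mul two_ne_zero (by linarith)] at h3
    linarith

/-- the bound for one step -/
noncomputable def Bk (k : ℝ) : ℝ := Real.log (2 * (3 + 2 * Real.pi * k))

theorem norm_Am_le {k : ℝ} (hk : 0 ≤ k) (y : Tor) : ‖Am k y‖ ≤ 2 * (3 + 2 * Real.pi * k) := by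
  refine (norm_le_rn _).trans ?_
  have h1 := dg_le k hk y 0
  unfold dg at h1
  simp only [Function.iterate_zero, id_eq] at h1
  have hp : 0 ≤ 2 * Real.pi * k := by positivity
  have : max (rn (Am k y) 0) (rn (Am k y) 1) ≤ 3 + 2 * Real.pi * k := by
    unfold rn Am
    simp
    linarith
  linarith

theorem dd_step {k : ℝ} (hk : 0 ≤ k) (z : Tor) (m : ℤ) : dd k z m (m + 1) ≤ Bk k := by
  unfold dd Bk Aij
  rw [show m + 1 - m = 1 by ring, Az_one]
  have h1 := norm_Am_le hk (Tz k m z)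
  have h2 := one_le_norm (det_Am k (Tz k m z))
  exact Real.log_le_log (by linarith) h1

theorem dd_fwd (k : ℝ) (z : Tor) (v : ℤ) (n : ℕ) :
    dd k z v (v + n) = Real.log ‖Mn k n (Tz k v z)‖ := by
  unfold dd Aij
  rw [show v + (n:ℤ) - v = n by ring, Az_natCast]

theorem dd_bwd (k : ℝ) (z : Tor) (v : ℤ) (n : ℕ) :
    dd k z v (v - n) = Real.log ‖Mn k n (Tz k (v - n) z)‖ := by
  rw [(dd_hyp k z).symm]
  have := dd_fwd k z (v - n) n
  rwa [show v - (n:ℤ) + n = v by ring] at this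

/-- the digit number `m` is irregular -/
def irr (k X : ℝ) (z : Tor) (m : ℤ) : Prop := |V k (Tz k m z).2| < X

theorem log_two_le_Bk {k : ℝ} (hk : 0 ≤ k) : 1 ≤ Bk k ∧ Real.log 2 ≤ Bk k := by
  have hp : 0 ≤ 2 * Real.pi * k := by positivity
  have h2 : Real.log 2 ≤ Bk k := Real.log_le_log (by norm_num) (by linarith)
  refine ⟨?_, h2⟩
  unfold Bk
  rw [Real.le_log_iff_exp_le (by positivity)]
  have := Real.exp_one_lt_d9
  linarith

/-- the standing data for the standard map, window `[0, N]` -/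
theorem dat {k X : ℝ} (hk : 0 ≤ k) (hX : 2 ≤ X) (h0 : ℕ)
    (hbig : 50 * Bk k ≤ h0 * (2 * Real.log (X - 1))) (z : Tor) (N : ℕ) :
    Dat (dd k z) (fun m => bt (rr k z) m.toNat) 0 0 N (irr k X z) (Bk k) (Real.log 2)
      (2 * Real.log (X - 1)) h0 where
  hyp := dd_hyp k z
  step := dd_step hk z
  f_near m h1 h2 := by
    have h3 := near_bt k m.toNat z
    rw [← dd_nat, Int.toNat_of_nonneg h1] at h3
    exact h3
  B_pos := (log_two_le_Bk hk).1
  c0_nonneg := Real.log_nonneg one_le_two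
  c0_le := (log_two_le_Bk hk).2
  grow v n hn h1 h2 h3 := by
    rw [dd_fwd]
    have h4 := norm_grow (k := k) hX (Tz k v z) n (by
      intro m hm
      have h5 := h3 m hm
      unfold irr at h5
      push Not at h5
      rwa [add_comm, Tz_add, Tz_natCast] at h5)
    have h6 := (log_two_le_Bk hk).2
    linarith
  big := hbig

/-- the top of the contour is irregular -/
theorem irr_top {k X : ℝ} (hX : 2 < X) (z : Tor) {T' : ℕ} (hT : 1 ≤ T')
    (h1 : bt (rr k z) (T' + 1) ≤ bt (rr k z) T') (h2 : bt (rr k z) (T' - 1) ≤ bt (rr k z) T') :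
    irr k X z T' ∨ irr k X z ((T' : ℤ) - 1) := by
  obtain ⟨t, rfl⟩ : ∃ t, T' = t + 1 := ⟨T' - 1, by omega⟩
  simp only [Nat.add_sub_cancel] at h2
  unfold bt at h1 h2
  have p0 := rr_pos k z t
  have p1 := rr_pos k z (t + 1)
  have p2 := rr_pos k z (t + 1 + 1)
  have p3 := rr_pos k z (t + 1 + 1 + 1)
  have a1 := (Real.log_le_log_iff (lt_max_of_lt_left p2) (lt_max_of_lt_left p1)).mp h1
  have a2 := (Real.log_le_log_iff (lt_max_of_lt_left p0) (lt_max_of_lt_left p1)).mp h2
  have d0 := rr_h1 k z t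
  have d1 := rr_h1 k z (t + 1)
  unfold dg at d0 d1
  rw [show t + 2 = t + 1 + 1 from rfl] at d0
  rw [show t + 1 + 2 = t + 1 + 1 + 1 from rfl] at d1
  rcases le_total (rr k z (t + 1)) (rr k z (t + 1 + 1)) with h | h
  · left
    rw [max_eq_right h] at a1
    have a3 := (le_max_right _ _).trans a1
    unfold irr
    rw [Tz_natCast]
    by_contra hc
    push Not at hc
    nlinarith
  · right
    rw [max_eq_left h] at a2
    have a3 := (le_max_left _ _).trans a2
    unfold irr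
    rw [show (((t + 1 : ℕ) : ℤ) - 1) = t by push_cast; ring, Tz_natCast]
    by_contra hc
    push Not at hc
    nlinarith

/-- forward clean up to time `n` (for the operator norm) -/
def FClean (k X : ℝ) (h0 : ℕ) (b b' : ℝ) (y : Tor) (n : ℕ) : Prop :=
  Clean (fun m => Real.log ‖Mn k m y‖) (fun m => |V k ((T k)^[m] y).2| < X) h0 b b' n

/-- backward clean up to time `n` (for the operator norm) -/
def BClean (k X : ℝ) (h0 : ℕ) (b b' : ℝ) (y : Tor) (n : ℕ) : Prop :=
  Clean (fun m => Real.log ‖Mn k m (Tz k (-m) y)‖) (fun m => |V k (Tz k (-m - 1) y).2| < X)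
    h0 b b' n

theorem fclean_iff {k X : ℝ} {h0 : ℕ} {b b' : ℝ} {z : Tor} {v n : ℕ} :
    FClean k X h0 b b' ((T k)^[v] z) n ↔
      Clean (fun m => dd k z v (v + m)) (fun m => irr k X z (v + m)) h0 b b' n := by
  unfold FClean irr
  have e1 : ∀ m : ℕ, dd k z v (v + m) = Real.log ‖Mn k m ((T k)^[v] z)‖ := by
    intro m
    rw [dd_fwd, Tz_natCast]
  have e2 : ∀ m : ℕ, Tz k ((v:ℤ) + m) z = (T k)^[m] ((T k)^[v] z) := by
    intro m
    rw [add_comm, Tz_add, Tz_natCast, Tz_natCast]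
  simp only [e1, e2]

theorem bclean_iff {k X : ℝ} {h0 : ℕ} {b b' : ℝ} {z : Tor} {v n : ℕ} :
    BClean k X h0 b b' ((T k)^[v] z) n ↔
      Clean (fun m => dd k z v (v - m)) (fun m => irr k X z (v - m - 1)) h0 b b' n := by
  unfold BClean irr
  have e1 : ∀ m : ℕ, dd k z v (v - m) = Real.log ‖Mn k m (Tz k (-m) ((T k)^[v] z))‖ := by
    intro m
    rw [dd_bwd, ← Tz_natCast, ← Tz_add, show -(m:ℤ) + v = v - m by ring]
  have e2 : ∀ m : ℕ, Tz k ((v:ℤ) - m - 1) z = Tz k (-m - 1) ((T k)^[v] z) := by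
    intro m
    rw [← Tz_natCast, ← Tz_add, show -(m:ℤ) - 1 + v = v - m - 1 by ring]
  simp only [e1, e2]

variable {k X : ℝ} {h0 : ℕ} {b b' κ H : ℝ} {z : Tor} {N : ℕ}

/-- an interior maximum of a component -/
theorem cmp_top {f : ℕ → ℝ} {κ : ℝ} {N i j : ℕ} {l : ℤ} (h : Cmp f κ N i j l) :
    ∃ a, i < a ∧ a < j ∧ f (a + 1) ≤ f a ∧ f (a - 1) ≤ f a := by
  have hne : (Finset.Ioo i j).Nonempty := ⟨i + 1, by
    rw [Finset.mem_Ioo]
    exact ⟨by omega, h.lt⟩⟩
  obtain ⟨a, ha, hmax⟩ := Finset.exists_max_image _ f hne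
  rw [Finset.mem_Ioo] at ha
  refine ⟨a, ha.1, ha.2, ?_, ?_⟩
  · by_cases h1 : a + 1 < j
    · exact hmax _ (Finset.mem_Ioo.mpr ⟨by omega, h1⟩)
    · have : a + 1 = j := by omega
      rw [this]
      exact h.fj.trans (h.mid a ha.1 ha.2).le
  · by_cases h1 : i < a - 1
    · exact hmax _ (Finset.mem_Ioo.mpr ⟨h1, by omega⟩)
    · have : a - 1 = i := by omega
      rw [this]
      exact h.fi.trans (h.mid a ha.1 ha.2).le

theorem max_local {f : ℕ → ℝ} {κ : ℝ} {N i j : ℕ} {l : ℤ} {T' : ℕ} (h : Cmp f κ N i j l)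
    (h1 : i < T') (h2 : T' < j) (hmax : ∀ m, i < m → m < j → f m ≤ f T') :
    f (T' + 1) ≤ f T' ∧ f (T' - 1) ≤ f T' := by
  constructor
  · by_cases h3 : T' + 1 < j
    · exact hmax _ (by omega) h3
    · have : T' + 1 = j := by omega
      rw [this]
      exact h.fj.trans (h.mid T' h1 h2).le
  · by_cases h3 : i < T' - 1
    · exact hmax _ h3 (by omega)
    · have : T' - 1 = i := by omega
      rw [this]
      exact h.fi.trans (h.mid T' h1 h2).le

/-- **h4L** of `Charge.charge` for the standard map -/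
theorem h4L (hk : 0 ≤ k) (hX : 2 < X) (hbig : 50 * Bk k ≤ h0 * (2 * Real.log (X - 1)))
    (hb0 : 0 ≤ b) (hb : b ≤ 1 / 20) (hb'0 : 0 ≤ b') (hb' : b' ≤ 1 / 50) {i j : ℕ} {l : ℤ}
    (h : NestL (bt (rr k z)) κ N H i j l) :
    ¬ FClean k X h0 b b' ((T k)^[i] z) (N - i) ∧ ¬ BClean k X h0 b b' ((T k)^[i] z) i := by
  obtain ⟨hc, i', j', l', T', hc', hi'T, hTi, hjj', hmax, -⟩ := h
  obtain ⟨a, hia, haj, ha1, ha2⟩ := cmp_top hc
  have hD := dat (X := X) hk hX.le h0 hbig z N
  obtain ⟨a', ha'1, ha'2, ha'⟩ : ∃ a' : ℤ, (i:ℤ) ≤ a' ∧ a' < j ∧ irr k X z a' := by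
    rcases irr_top hX z (by omega) ha1 ha2 with h1 | h1
    · exact ⟨a, by omega, by omega, h1⟩
    · exact ⟨(a:ℤ) - 1, by omega, by omega, h1⟩
  obtain ⟨hm1, hm2⟩ := max_local hc' hi'T (by have := hc.lt; omega) hmax
  have hT := irr_top hX z (by omega) hm1 hm2
  have hlt := hc.lt
  have hle := hc.le
  have hmain := nested_left_path hD hb0 hb hb'0 hb' (s := i') (T := T') (v := i) (a := a') (j := j)
    (l := l * κ) (β := l' * κ) (by omega) (by omega) (by omega) (by omega) ha'1 ha'2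
    (by simpa using hc.fi) (by simpa using hc.fj)
    (by
      intro m h1 h2
      have := hc.mid m.toNat (by omega) (by omega)
      exact this) ha' hT (by simpa using hc'.fi)
    (by
      intro m h1 h2
      exact (hc'.mid m.toNat (by omega) (by omega)).le)
    (by
      show bt (rr k z) ((i:ℤ)).toNat ≤ bt (rr k z) ((T':ℤ)).toNat
      rw [Int.toNat_natCast, Int.toNat_natCast]
      exact hmax i (by omega) (by omega))
  rw [fclean_iff, bclean_iff]
  have e1 : ((N:ℤ) - i).toNat = N - i := by omega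
  have e2 : ((i:ℤ) - 0).toNat = i := by omega
  rw [e1, e2] at hmain
  exact hmain

/-- **h4R** of `Charge.charge` for the standard map -/
theorem h4R (hk : 0 ≤ k) (hX : 2 < X) (hbig : 50 * Bk k ≤ h0 * (2 * Real.log (X - 1)))
    (hb0 : 0 ≤ b) (hb : b ≤ 1 / 20) (hb'0 : 0 ≤ b') (hb' : b' ≤ 1 / 50) {i j : ℕ} {l : ℤ}
    (h : NestR (bt (rr k z)) κ N H i j l) :
    ¬ FClean k X h0 b b' ((T k)^[j] z) (N - j) ∧ ¬ BClean k X h0 b b' ((T k)^[j] z) j := by
  obtain ⟨hc, i', j', l', T', hc', hi'i, hjT, hTj', hmax, -⟩ := h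
  obtain ⟨a, hia, haj, ha1, ha2⟩ := cmp_top hc
  have hD := dat (X := X) hk hX.le h0 hbig z N
  obtain ⟨a', ha'1, ha'2, ha'⟩ : ∃ a' : ℤ, (i:ℤ) ≤ a' ∧ a' < j ∧ irr k X z a' := by
    rcases irr_top hX z (by omega) ha1 ha2 with h1 | h1
    · exact ⟨a, by omega, by omega, h1⟩
    · exact ⟨(a:ℤ) - 1, by omega, by omega, h1⟩
  have hlt := hc.lt
  have hle := hc'.le
  obtain ⟨hm1, hm2⟩ := max_local hc' (by omega) hTj' hmax
  have hT := irr_top hX z (by omega) hm1 hm2
  have hmain := nested_right_path hD hb0 hb hb'0 hb' (s := j') (T := T') (v := j) (a := a') (i := i)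
    (l := l * κ) (β := l' * κ) (by omega) (by omega) (by omega) (by omega) ha'1 ha'2
    (by simpa using hc.fj) (by simpa using hc.fi)
    (by
      intro m h1 h2
      have := hc.mid m.toNat (by omega) (by omega)
      exact this) ha' hT (by simpa using hc'.fj)
    (by
      intro m h1 h2
      exact (hc'.mid m.toNat (by omega) (by omega)).le)
    (by
      show bt (rr k z) ((j:ℤ)).toNat ≤ bt (rr k z) ((T':ℤ)).toNat
      rw [Int.toNat_natCast, Int.toNat_natCast]
      exact hmax j (by omega) (by omega))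
  rw [fclean_iff, bclean_iff]
  have e1 : ((N:ℤ) - j).toNat = N - j := by omega
  have e2 : ((j:ℤ) - 0).toNat = j := by omega
  rw [e1, e2] at hmain
  exact hmain

end Crest.Agent.R128.NestedInst
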