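import Mathlib
import Crest.Agent.R128.Hyp
import Crest.Agent.R128.Two
import Crest.Agent.R128.TreeSum

/-!
# Reversibility of the standard map and of its cocycle (row 128; helper425)

`z.swap = (x_0, x_{-1})` conjugates `T` with `Tinv`; `J = !![0,1;1,0]` conjugates the cocycle with
its inverse.
-/

set_option autoImplicit false

open MeasureTheory
open Crest.Agent.R128

namespace Crest.Agent.R128.Rev

theorem swap_T (k : ℝ) (z : Tor) : (T k z).swap = Tinv k z.swap := by
  unfold T Tinv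
  ext <;> simp

theorem T_swap (k : ℝ) (z : Tor) : T k z.swap = (Tinv k z).swap := by
  unfold T Tinv
  ext <;> simp

theorem T_swap_T (k : ℝ) (z : Tor) : T k ((T k z).swap) = z.swap := by
  rw [T_swap, Tinv_T]

theorem iter_swap_iter (k : ℝ) (n : ℕ) (z : Tor) :
    (T k)^[n] (((T k)^[n] z).swap) = z.swap := by
  induction n generalizing z with
  | zero => rfl
  | succ n ih =>
    rw [Function.iterate_succ_apply' (T k) n z, Function.iterate_succ_apply, T_swap_T, ih]

theorem swap_iter (k : ℝ) (n : ℕ) (z : Tor) :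
    ((T k)^[n] z).swap = (Tinv k)^[n] z.swap := by
  induction n with
  | zero => rfl
  | succ n ih => rw [Function.iterate_succ_apply', swap_T, ih, Function.iterate_succ_apply']

theorem iter_swap (k : ℝ) (n : ℕ) (z : Tor) :
    (T k)^[n] z.swap = ((Tinv k)^[n] z).swap := by
  induction n with
  | zero => rfl
  | succ n ih => rw [Function.iterate_succ_apply', ih, T_swap, Function.iterate_succ_apply']

/-- the swap matrix -/
def J : Matrix (Fin 2) (Fin 2) ℝ := !![0, 1; 1, 0]

theorem J_mul_J : J * J = 1 := by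
  ext i j
  fin_cases i <;> fin_cases j <;> simp [J]

theorem JJ_mul (M : Matrix (Fin 2) (Fin 2) ℝ) : J * (J * M) = M := by
  rw [← Matrix.mul_assoc, J_mul_J, Matrix.one_mul]

theorem conj_mul (M N : Matrix (Fin 2) (Fin 2) ℝ) : J * M * J * (J * N * J) = J * (M * N) * J := by
  simp only [Matrix.mul_assoc, JJ_mul]

theorem conj_conj (M : Matrix (Fin 2) (Fin 2) ℝ) : J * (J * M * J) * J = M := by
  simp only [Matrix.mul_assoc, JJ_mul, J_mul_J, Matrix.mul_one]

/-- entries of `J M J` -/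
theorem conj_apply (M : Matrix (Fin 2) (Fin 2) ℝ) :
    J * M * J = !![M 1 1, M 1 0; M 0 1, M 0 0] := by
  rw [Matrix.eta_fin_two M]
  unfold J
  simp

/-- entries of `J M⁻¹ J` for determinant one -/
theorem conj_inv_apply {M : Matrix (Fin 2) (Fin 2) ℝ} (h : M.det = 1) :
    J * M⁻¹ * J = !![M 0 0, -M 1 0; -M 0 1, M 1 1] := by
  rw [Matrix.inv_def, h, Ring.inverse_one, one_smul, Matrix.adjugate_fin_two, conj_apply]
  simp

theorem Am_rev (k : ℝ) (z : Tor) : Am k ((T k z).swap) = J * (Am k z)⁻¹ * J := by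
  rw [conj_inv_apply (det_Am k z)]
  simp [Am, T]

theorem det_Mn' (k : ℝ) (n : ℕ) (z : Tor) : (Mn k n z).det = 1 := by
  induction n generalizing z with
  | zero => simp
  | succ n ih => rw [Mn_succ, Matrix.det_mul, ih, det_Am, one_mul]

/-- **reversed cocycle** -/
theorem Mn_rev (k : ℝ) (n : ℕ) (z : Tor) :
    Mn k n (((T k)^[n] z).swap) = J * (Mn k n z)⁻¹ * J := by
  induction n generalizing z with
  | zero => simp [J_mul_J]
  | succ n ih =>
    rw [Mn_succ, Function.iterate_succ_apply', T_swap_T, Am_rev, ih, conj_mul,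
      ← Matrix.mul_inv_rev, ← Mn_succ']

/-- entries of the reversed cocycle -/
theorem Mn_rev_apply (k : ℝ) (n : ℕ) (z : Tor) :
    Mn k n (((T k)^[n] z).swap) = !![Mn k n z 0 0, -Mn k n z 1 0; -Mn k n z 0 1, Mn k n z 1 1] := by
  rw [Mn_rev, conj_inv_apply (det_Mn' k n z)]

theorem Tz_neg_nat (k : ℝ) (n : ℕ) (z : Tor) :
    Two.Tz k (-(n : ℤ)) z = ((T k)^[n] z.swap).swap := by
  have h1 : Two.Tz k n (Two.Tz k (-(n : ℤ)) z) = z := Two.Tz_neg_cancel' k n z
  have h2 : Two.Tz k n (((T k)^[n] z.swap).swap) = z := by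
    rw [Two.Tz_natCast, iter_swap_iter, Prod.swap_swap]
  rw [← Two.Tz_neg_cancel k n (Two.Tz k (-(n : ℤ)) z), h1, ← h2, Two.Tz_neg_cancel, h2]

/-- the cocycle at negative times -/
theorem Az_neg_nat (k : ℝ) (n : ℕ) (z : Tor) :
    Two.Az k (-(n : ℤ)) z = J * Mn k n z.swap * J := by
  rw [Two.Az_neg, Two.Az_natCast]
  set u := Two.Tz k (-(n : ℤ)) z with hu
  have h : (T k)^[n] u = z := by
    rw [← Two.Tz_natCast]
    exact Two.Tz_neg_cancel' k n z
  have h2 := Mn_rev k n u
  rw [h] at h2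
  rw [h2, conj_conj]

/-! ### norms -/

open Hyp in
open scoped Matrix.Norms.L2Operator in
theorem norm_conj (M : Matrix (Fin 2) (Fin 2) ℝ) : ‖J * M * J‖ = ‖M‖ := by
  have hJ : ‖(J : Hyp.M2)‖ ≤ 1 := by
    apply norm_le_of_ap zero_le_one
    intro v
    rw [one_mul]
    have h1 : ‖ap J v‖ ^ 2 = ‖v‖ ^ 2 := by
      rw [norm_sq, norm_sq, ap_apply, ap_apply]
      simp [J]
      ring
    exact le_of_eq ((sq_eq_sq₀ (norm_nonneg _) (norm_nonneg _)).mp h1)
  have key : ∀ M : Hyp.M2, ‖J * M * J‖ ≤ ‖M‖ := by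
    intro M
    calc ‖J * M * J‖ ≤ ‖J * M‖ * ‖(J : Hyp.M2)‖ := Matrix.l2_opNorm_mul _ _
      _ ≤ (‖(J : Hyp.M2)‖ * ‖M‖) * ‖(J : Hyp.M2)‖ := by
          gcongr
          exact Matrix.l2_opNorm_mul _ _
      _ ≤ (1 * ‖M‖) * 1 := by gcongr
      _ = ‖M‖ := by ring
  refine le_antisymm (key M) ?_
  have := key (J * M * J)
  rwa [conj_conj] at this

open Hyp in
open scoped Matrix.Norms.L2Operator in
/-- the distance seen backwards from `T^n z` equals the distance seen forwards from `z` -/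
theorem norm_Mn_rev (k : ℝ) (n : ℕ) (z : Tor) :
    ‖Mn k n (((T k)^[n] z).swap)‖ = ‖Mn k n z‖ := by
  rw [Mn_rev, norm_conj, ninv (det_Mn' k n z)]

open Hyp in
open scoped Matrix.Norms.L2Operator in
/-- distance between two times `m ≤ n`, seen from `n` backwards -/
theorem norm_Mn_rev' (k : ℝ) (a b : ℕ) (z : Tor) :
    ‖Mn k b (((T k)^[a + b] z).swap)‖ = ‖Mn k b ((T k)^[a] z)‖ := by
  rw [show a + b = b + a by ring, Function.iterate_add_apply, norm_Mn_rev]

/-! ### action on vectors -/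

theorem act_conj (M : Matrix (Fin 2) (Fin 2) ℝ) (v : ℝ × ℝ) :
    act (J * M * J) v = (act M v.swap).swap := by
  rw [conj_apply]
  unfold act
  ext
  · simp
    ring
  · simp
    ring

theorem nn_swap (v : ℝ × ℝ) : TreeSum.nn v.swap = TreeSum.nn v := by
  unfold TreeSum.nn
  congr 1
  simp
  ring

theorem nn_act_conj (M : Matrix (Fin 2) (Fin 2) ℝ) (v : ℝ × ℝ) :
    TreeSum.nn (act (J * M * J) v) = TreeSum.nn (act M v.swap) := by
  rw [act_conj, nn_swap]

/-- backward field: `W⁻_m(T^m z) = |A_{m→0} (1,0)|` -/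
theorem nn_act_Mn_rev (k : ℝ) (m : ℕ) (z : Tor) (v : ℝ × ℝ) :
    TreeSum.nn (act (Mn k m (((T k)^[m] z).swap)) v) = TreeSum.nn (act (Mn k m z)⁻¹ v.swap) := by
  rw [Mn_rev, nn_act_conj]

/-- backward field at the time `a + b` of the orbit of `z` -/
theorem nn_act_Mn_rev' (k : ℝ) (a b : ℕ) (z : Tor) (v : ℝ × ℝ) :
    TreeSum.nn (act (Mn k b (((T k)^[a + b] z).swap)) v) =
      TreeSum.nn (act (Mn k b ((T k)^[a] z))⁻¹ v.swap) := by
  rw [show a + b = b + a by ring, Function.iterate_add_apply, nn_act_Mn_rev]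

/-- swapped sets: `volume (swap ⁻¹' B) = volume B` for every set -/
theorem volume_preimage_swap (B : Set Tor) : volume (Prod.swap ⁻¹' B : Set Tor) = volume B := by
  have h : MeasurePreserving (MeasurableEquiv.prodComm : Tor ≃ᵐ Tor) volume volume := mp_swap
  exact h.measure_preimage_equiv B

/-- the digit seen backwards: the `j`-th digit of the reversed orbit of `T^n z` -/
theorem iter_swap_sub (k : ℝ) {j n : ℕ} (h : j ≤ n) (z : Tor) :
    (T k)^[j] (((T k)^[n] z).swap) = ((T k)^[n - j] z).swap := by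
  obtain ⟨d, rfl⟩ := Nat.exists_eq_add_of_le h
  rw [show j + d - j = d by omega, show j + d = j + d from rfl, Function.iterate_add_apply (T k) j d,
    iter_swap_iter]

theorem digit_rev (k : ℝ) {j n : ℕ} (h : j ≤ n) (z : Tor) :
    V k ((T k)^[j] (((T k)^[n] z).swap)).2 = V k ((T k)^[n - j] z).1 := by
  rw [iter_swap_sub k h]
  rfl

/-- `(T^(n+1) z).1 = (T^n z).2` -/
theorem fst_iter_succ (k : ℝ) (n : ℕ) (z : Tor) : ((T k)^[n + 1] z).1 = ((T k)^[n] z).2 := by
  rw [Function.iterate_succ_apply']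
  rfl

end Crest.Agent.R128.Rev
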