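import Crest.Agent.R128.Acc
import Crest.Agent.R128.Charge

/-!
Row 128, V1 leaf TOPCRIT (helper434): a maximum of a component of the root contour is near
critical.
-/

set_option autoImplicit false

namespace Crest.Agent.R128.TopCrit

open Crest.Agent.R128.Acc Crest.Agent.R128.Charge

/-- real-sequence form -/
theorem topcrit_seq {ρ D : ℕ → ℝ} (hρ : ∀ n, 0 < ρ n)
    (h1 : ∀ n, D n * ρ (n + 1) ≤ ρ (n + 2) + ρ n) {t : ℕ} (ht : 1 ≤ t)
    (ha : bt ρ (t - 1) ≤ bt ρ t) (hb : bt ρ (t + 1) ≤ bt ρ t) :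
    D t ≤ 2 ∨ (bt ρ (t - 1) = bt ρ t ∧ D (t - 1) ≤ 2) := by
  have e1 : t - 1 + 1 = t := by omega
  have e2 : t - 1 + 2 = t + 1 := by omega
  have p := hρ (t - 1)
  have p0 := hρ t
  have p1 := hρ (t + 1)
  have p2 := hρ (t + 2)
  unfold bt at ha hb ⊢
  rw [e1] at ha ⊢
  rw [show t + 1 + 1 = t + 2 from rfl] at hb
  have a1 : max (ρ (t + 1)) (ρ (t + 2)) ≤ max (ρ t) (ρ (t + 1)) :=
    (Real.log_le_log_iff (lt_max_of_lt_left p1) (lt_max_of_lt_left p0)).mp hb
  have a2 : max (ρ (t - 1)) (ρ t) ≤ max (ρ t) (ρ (t + 1)) :=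
    (Real.log_le_log_iff (lt_max_of_lt_left p) (lt_max_of_lt_left p0)).mp ha
  rcases lt_or_ge (ρ t) (ρ (t + 1)) with hc | hc
  · left
    rw [max_eq_right hc.le] at a1
    have a3 := (le_max_right _ _).trans a1
    have h := h1 t
    by_contra hcon
    push Not at hcon
    nlinarith
  · right
    rw [max_eq_left hc] at a2
    have a3 := (le_max_left _ _).trans a2
    refine ⟨?_, ?_⟩
    · rw [max_eq_left hc, max_eq_right a3]
    · have h := h1 (t - 1)
      rw [e1, e2] at h
      by_contra hcon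
      push Not at hcon
      nlinarith

/-- **TOPCRIT**: a maximum of a component of the root contour is near critical. -/
theorem topcrit {k κ : ℝ} {z : Tor} {N i j t : ℕ} {l : ℤ} (h : Cmp (bt (rr k z)) κ N i j l)
    (h1 : i < t) (h2 : t < j) (hmax : ∀ m, i < m → m < j → bt (rr k z) m ≤ bt (rr k z) t) :
    |V k ((T k)^[t] z).2| ≤ 2 ∨ (i < t - 1 ∧ |V k ((T k)^[t - 1] z).2| ≤ 2) := by
  have ha := h.mid t h1 h2
  have hA : bt (rr k z) (t - 1) ≤ bt (rr k z) t := by
    rcases Nat.lt_or_ge i (t - 1) with h3 | h3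
    · exact hmax _ h3 (by omega)
    · have : t - 1 = i := by omega
      rw [this]
      exact h.fi.trans ha.le
  have hB : bt (rr k z) (t + 1) ≤ bt (rr k z) t := by
    rcases Nat.lt_or_ge (t + 1) j with h3 | h3
    · exact hmax _ (by omega) h3
    · have : t + 1 = j := by omega
      rw [this]
      exact h.fj.trans ha.le
  rcases topcrit_seq (D := dg k z) (rr_pos k z) (rr_h1 k z) (by omega) hA hB with h3 | ⟨h3, h4⟩
  · exact Or.inl h3
  · right
    refine ⟨?_, h4⟩
    by_contra hcon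
    have : t - 1 = i := by omega
    rw [this] at h3
    have := h.fi
    linarith

/-- the first maximum of a component is near critical -/
theorem topcrit_first {k κ : ℝ} {z : Tor} {N i j t : ℕ} {l : ℤ} (h : Cmp (bt (rr k z)) κ N i j l)
    (h1 : i < t) (h2 : t < j) (hmax : ∀ m, i < m → m < j → bt (rr k z) m ≤ bt (rr k z) t)
    (hfirst : ∀ m, i < m → m < t → bt (rr k z) m < bt (rr k z) t) :
    |V k ((T k)^[t] z).2| ≤ 2 := by
  have ha := h.mid t h1 h2
  have hA : bt (rr k z) (t - 1) < bt (rr k z) t := by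
    rcases Nat.lt_or_ge i (t - 1) with h3 | h3
    · exact hfirst _ h3 (by omega)
    · have : t - 1 = i := by omega
      rw [this]
      exact lt_of_le_of_lt h.fi ha
  have hB : bt (rr k z) (t + 1) ≤ bt (rr k z) t := by
    rcases Nat.lt_or_ge (t + 1) j with h3 | h3
    · exact hmax _ (by omega) h3
    · have : t + 1 = j := by omega
      rw [this]
      exact h.fj.trans ha.le
  rcases topcrit_seq (D := dg k z) (rr_pos k z) (rr_h1 k z) (by omega) hA.le hB with h3 | ⟨h3, h4⟩
  · exact h3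
  · linarith

end Crest.Agent.R128.TopCrit
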