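import Mathlib
import Crest.Agent.R128.Tips

set_option autoImplicit false

/-!
Row 128, MASTER v2, node V1 (helper337): abstract, deterministic part.

`d` is a `δ`-hyperbolic distance on times (`δ = log 2 / 2`), `f` is the root contour, `f ≈ d r ·`.
`CleanF d b b' c G L v e`: the profile `m ↦ d v m` is clean on `[v, e]`.
* `no_return`: a clean foot cannot return to its own level;
* `no_over`: a clean foot cannot go over a higher top and come back to the level of the valley;
* `valley`: the first violation of the profile seen from a foot is a relative valley of `f`.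
-/

namespace Crest.Agent.R128.V1

open Crest.Agent.R128.Tips

variable {d : ℕ → ℕ → ℝ} {f : ℕ → ℝ} {B b b' c c0 G lam : ℝ} {L v e r : ℕ}

/-- logarithm of a duration -/
def ld (m : ℕ) : ℕ := Nat.clog 2 m

theorem le_pow_ld (m : ℕ) : m ≤ 2 ^ ld m := Nat.le_pow_clog one_lt_two m

theorem ld_mul_le {m : ℕ} (hm : 1 ≤ m) {x : ℝ} (h : (m : ℝ) ≤ Real.exp x) :
    (ld m : ℝ) * (Real.log 2 / 2) ≤ (x + Real.log 2) / 2 := by
  have hl2 : 0 < Real.log 2 := Real.log_pos one_lt_two
  have hm0 : (0:ℝ) < m := by exact_mod_cast hm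
  have hx : 0 ≤ x := by
    have h1 : (1:ℝ) ≤ Real.exp x := le_trans (by exact_mod_cast hm) h
    exact Real.one_le_exp_iff.mp h1
  rcases Nat.lt_or_ge m 2 with h1 | h1
  · have h2 : m = 1 := by omega
    subst h2
    unfold ld
    rw [Nat.clog_one_right]
    simp only [Nat.cast_zero, zero_mul]
    linarith
  · have h2 : 2 ^ (ld m - 1) < m := by
      unfold ld
      have := Nat.pow_pred_clog_lt_self one_lt_two h1
      simpa using this
    have h3 : ((2:ℝ) ^ (ld m - 1)) ≤ Real.exp x := by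
      refine le_trans ?_ h
      exact_mod_cast h2.le
    have h4 : ((ld m - 1 : ℕ) : ℝ) * Real.log 2 ≤ x := by
      rw [← Real.log_pow]
      have := Real.log_le_log (by positivity) h3
      rwa [Real.log_exp] at this
    have h5 : (ld m : ℝ) ≤ ((ld m - 1 : ℕ) : ℝ) + 1 := by
      have : ld m ≤ (ld m - 1) + 1 := by omega
      exact_mod_cast this
    nlinarith

/-- if `d r ·` is `≥ y` along `[p, q]` then `(p|q)_r ≥ y - B - n δ`, `q - p ≤ 2 ^ n` -/
theorem gp_of_path (h : IsHyp d (Real.log 2 / 2) B) {p q : ℕ} (n : ℕ) (hpq : p < q)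
    (hn : q - p ≤ 2 ^ n) {y : ℝ}
    (hy : ∀ m, p ≤ m → m < q → y ≤ d r m ∨ y ≤ d r (m + 1)) :
    y - B - n * (Real.log 2 / 2) ≤ gp d p q r := by
  by_contra hcon
  push Not at hcon
  obtain ⟨y', h1, h2⟩ := exists_between (show gp d p q r + n * (Real.log 2 / 2) < y - B by linarith)
  have h3 := chain h r y' n (q - p) (fun i => p + i) hn (by omega) (by
    intro i hi
    have e : p + (i + 1) = p + i + 1 := by ring
    simp only [e]
    have s1 := h.step (p + i)
    have s2 := h.tri r (p + i) (p + i + 1)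
    have s3 := h.tri r (p + i + 1) (p + i)
    have s4 := h.symm (p + i) (p + i + 1)
    have s5 := h.symm r (p + i)
    have s6 := h.symm r (p + i + 1)
    unfold gp
    rcases hy (p + i) (by omega) (by omega) with h4 | h4
    · linarith
    · linarith)
  simp only [Nat.add_zero] at h3
  have e : p + (q - p) = q := by omega
  rw [e] at h3
  linarith

/-- the profile seen from `v` is clean on `[v, e]` -/
structure CleanF (d : ℕ → ℕ → ℝ) (b b' c G : ℝ) (L v e : ℕ) : Prop where
  grow : v + L ≤ e → G ≤ d v (v + L)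
  c2 : ∀ i j, v ≤ i → i ≤ j → v + L ≤ j → j ≤ e → (1 - b) * d v i ≤ d v j + c
  c3 : ∀ j, v + L ≤ j → j ≤ e → ∃ i, v ≤ i ∧ i ≤ j ∧ ((j - v : ℕ) : ℝ) ≤ Real.exp (b' * d v i + c)

theorem CleanF.dur (h : IsHyp d (Real.log 2 / 2) B) (C : CleanF d b b' c G L v e)
    (_hb0 : 0 ≤ b) (hb : b ≤ 1 / 50) (hb'0 : 0 ≤ b') (hb' : b' ≤ 1 / 200) (hc : 0 ≤ c)
    {m : ℕ} (hm : v + L ≤ m) (hme : m ≤ e) (hvm : v < m) :
    (ld (m - v) : ℝ) * (Real.log 2 / 2) ≤ 3 / 5 * b' * d v m + c + 1 := by
  obtain ⟨i, h1, h2, h3⟩ := C.c3 m hm hme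
  have h4 := ld_mul_le (by omega) h3
  have h5 := C.c2 i m h1 h2 hm hme
  have h6 := h.nonneg v i
  have h7 := h.nonneg v m
  have hl : Real.log 2 < 0.6931471808 := Real.log_two_lt_d9
  have h8 : d v i ≤ 50 / 49 * (d v m + c) := by nlinarith
  have h9 : b' * d v i ≤ b' * (50 / 49 * (d v m + c)) := mul_le_mul_of_nonneg_left h8 hb'0
  nlinarith [mul_nonneg hb'0 h7, mul_nonneg hb'0 hc]

/-- upper bound for the distance from a foot in terms of the height over its level -/
theorem height_le (h : IsHyp d (Real.log 2 / 2) B) (hf : ∀ m, |f m - d r m| ≤ c0) {v m : ℕ}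
    (hvm : v + 1 < m) (hv : f v ≤ lam) (hin : ∀ j, v < j → j < m → lam < f j) (n : ℕ)
    (hn : m - v ≤ 2 ^ n) :
    d v m ≤ f m - lam + 4 * c0 + 2 * B + 2 * (n * (Real.log 2 / 2)) := by
  have h1 := gp_of_path (r := r) h n (show v < m by omega) hn (y := lam - c0) (by
    intro j hj1 hj2
    by_cases hj : j = v
    · right
      have h2 := hin (j + 1) (by omega) (by omega)
      have h3 := abs_le.mp (hf (j + 1))
      linarith
    · left
      have h2 := hin j (by omega) hj2
      have h3 := abs_le.mp (hf j)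
      linarith)
  have h2 := abs_le.mp (hf v)
  have h3 := abs_le.mp (hf m)
  have h4 := h.symm v r
  have h5 := h.symm m r
  unfold gp at h1
  linarith

theorem height_ge (h : IsHyp d (Real.log 2 / 2) B) (hf : ∀ m, |f m - d r m| ≤ c0) {v m : ℕ}
    (hv : f v ≤ lam) : f m - lam - 2 * c0 ≤ d v m := by
  have h2 := abs_le.mp (hf v)
  have h3 := abs_le.mp (hf m)
  have h4 := h.tri r v m
  linarith

/-- (4), forward: a clean foot does not return to its level. -/
theorem no_return (h : IsHyp d (Real.log 2 / 2) B) (hf : ∀ m, |f m - d r m| ≤ c0)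
    (hB : 0 ≤ B) (hc0 : 0 ≤ c0)
    (hb0 : 0 ≤ b) (hb : b ≤ 1 / 50) (hb'0 : 0 ≤ b') (hb' : b' ≤ 1 / 200) (hc : 0 ≤ c)
    (hG : 20 * (c0 + B + c + 1) ≤ G) {v j : ℕ} (hvj : v + 1 < j) (hL : v + L ≤ j)
    (hv : f v ≤ lam) (hin : ∀ m, v < m → m < j → lam < f m) (hj : f j ≤ lam)
    (C : CleanF d b b' c G L v j) : False := by
  have h1 := C.dur h hb0 hb hb'0 hb' hc hL le_rfl (by omega)
  have h2 := height_le h hf hvj hv hin (ld (j - v)) (le_pow_ld _)
  have h3 := C.grow hL
  have h4 := C.c2 (v + L) j (by omega) hL hL le_rfl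
  have h5 := h.nonneg v j
  have h6 := h.nonneg v (v + L)
  have h7 : b' * d v j ≤ 1 / 200 * d v j := mul_le_mul_of_nonneg_right hb' h5
  have h8 : b * d v (v + L) ≤ 1 / 50 * d v (v + L) := mul_le_mul_of_nonneg_right hb h6
  nlinarith

/-- (4), over a higher top: a clean foot `v` does not go over `T`, `f v ≤ f T`, and come back to
a level below everything in between. -/
theorem no_over (h : IsHyp d (Real.log 2 / 2) B) (hf : ∀ m, |f m - d r m| ≤ c0)
    (hB : 0 ≤ B) (hc0 : 0 ≤ c0)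
    (hb0 : 0 ≤ b) (hb : b ≤ 1 / 50) (hb'0 : 0 ≤ b') (hb' : b' ≤ 1 / 200) (hc : 0 ≤ c)
    (hG : 20 * (c0 + B + c + 1) ≤ G) {v T s : ℕ} (hvT : v < T) (hTs : T < s) (hL : v + L ≤ T)
    (hs : f s ≤ lam) (hin : ∀ m, v ≤ m → m ≤ T → lam ≤ f m) (hfT : f v ≤ f T)
    (C : CleanF d b b' c G L v s) : False := by
  classical
  set g := gp d v T r with hg
  set g' := max g (lam - c0) with hg'
  have hgT : g ≤ d T r := gp_le_right h v T r
  have hTr := h.symm T r
  have hex : ∃ i, T < i ∧ i ≤ s ∧ d r i ≤ g' + 2 * c0 := by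
    refine ⟨s, hTs, le_rfl, ?_⟩
    have h1 := abs_le.mp (hf s)
    have h2 := le_max_right g (lam - c0)
    linarith
  obtain ⟨hi1, hi2, hi3⟩ := Nat.find_spec hex
  have hmin := fun m (hm : m < Nat.find hex) => Nat.find_min hex hm
  set i := Nat.find hex with hi
  have hn : i - T ≤ 2 ^ ld (i - v) := le_trans (by omega) (le_pow_ld (i - v))
  have hn' : T - v ≤ 2 ^ ld (i - v) := le_trans (by omega) (le_pow_ld (i - v))
  have hT1 := hin T hvT.le le_rfl
  have hT2 := abs_le.mp (hf T)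
  have h1 := gp_of_path (r := r) h (ld (i - v)) hi1 hn (y := g') (by
    intro m hm1 hm2
    left
    rcases eq_or_lt_of_le hm1 with hm | hm
    · rw [← hm]
      exact max_le (by linarith) (by linarith)
    · by_contra hcon
      push Not at hcon
      exact hmin m hm2 ⟨hm, by omega, by linarith⟩)
  have h2 := gp_of_path (r := r) h (ld (i - v)) hvT hn' (y := lam - c0) (by
    intro m hm1 hm2
    left
    have h3 := hin m hm1 hm2.le
    have h4 := abs_le.mp (hf m)
    linarith)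
  rw [← hg] at h2
  have h3 := h.hyp v T i r
  rw [← hg] at h3
  have hnd : (0:ℝ) ≤ (ld (i - v) : ℝ) * (Real.log 2 / 2) := by
    have := Real.log_nonneg (x := 2) (by norm_num)
    positivity
  have hgg : g ≤ g' := le_max_left _ _
  have hg'g : g' ≤ g + B + (ld (i - v) : ℝ) * (Real.log 2 / 2) := max_le (by linarith) (by linarith)
  have h4 : g - B - (ld (i - v) : ℝ) * (Real.log 2 / 2) ≤ min g (gp d T i r) := le_min (by linarith) (by linarith)
  have h5 := C.dur h hb0 hb hb'0 hb' hc (m := i) (by omega) hi2 (by omega)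
  have h6 := C.c2 T i hvT.le hi1.le (by omega) hi2
  have h7 := C.grow (by omega)
  have h8 := C.c2 (v + L) i (by omega) (by omega) (by omega) hi2
  have e1 : gp d v i r = (d v r + d i r - d v i) / 2 := rfl
  have e2 : g = (d v r + d T r - d v T) / 2 := rfl
  have e3 := h.symm i r
  have e4 := h.symm v r
  have h9 := abs_le.mp (hf v)
  have hl : Real.log 2 < 0.6931471808 := Real.log_two_lt_d9
  have h10 := h.nonneg v i
  have h11 := h.nonneg v T
  have h12 := h.nonneg v (v + L)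
  have h13 : b' * d v i ≤ 1 / 200 * d v i := mul_le_mul_of_nonneg_right hb' h10
  have h14 : b * d v (v + L) ≤ 1 / 50 * d v (v + L) := mul_le_mul_of_nonneg_right hb h12
  have h15 : b * d v T ≤ 1 / 50 * d v T := mul_le_mul_of_nonneg_right hb h11
  have h16 : d v i ≤ d v T / 2 + 3 * B + 3 * c0 + 3 * ((ld (i - v) : ℝ) * (Real.log 2 / 2)) + 1 := by
    linarith
  linarith


/-- (5): the first violation of the profile of a foot is a relative valley of the contour. -/
theorem valley (h : IsHyp d (Real.log 2 / 2) B) (hf : ∀ m, |f m - d r m| ≤ c0)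
    (hB : 0 ≤ B) (hc0 : 0 ≤ c0)
    (hb0 : 0 < b) (hb : b ≤ 1 / 50) (hb'0 : 0 ≤ b') (hb' : b' ≤ b / 4) (hc : 0 ≤ c)
    (hG : 60 * (c0 + B + c + 1) ≤ b * G) {v e i : ℕ} (hvi : v + 1 < i) (hLi : v + L ≤ i) (hie : i ≤ e)
    (hv : f v ≤ lam) (hin : ∀ m, v < m → m ≤ e → lam < f m)
    (C : CleanF d b b' c G L v e) (hdrop : d v (e + 1) ≤ (1 - b) * d v i + c) :
    ∃ a, v < a ∧ a ≤ e + 1 ∧ (∀ m, v < m → m ≤ e + 1 → f m ≤ f a) ∧ G / 2 ≤ f a - lam ∧
      f (e + 1) ≤ f a - b / 2 * (f a - lam) := by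
  classical
  obtain ⟨a, ha, hmax⟩ := Finset.exists_max_image (Finset.Ioc v (e + 1)) f
    ⟨e + 1, Finset.mem_Ioc.mpr ⟨by omega, le_rfl⟩⟩
  rw [Finset.mem_Ioc] at ha
  refine ⟨a, ha.1, ha.2, fun m h1 h2 => hmax m (Finset.mem_Ioc.mpr ⟨h1, h2⟩), ?_⟩
  have hmi : f i ≤ f a := hmax i (Finset.mem_Ioc.mpr ⟨by omega, by omega⟩)
  have h1 := height_le h hf hvi hv (fun j hj1 hj2 => hin j hj1 (by omega)) (ld (i - v)) (le_pow_ld _)
  have h2 := C.dur h hb0.le hb hb'0 (by linarith) hc hLi hie (by omega)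
  have h3 := C.grow (by omega)
  have h4 := C.c2 (v + L) i (by omega) hLi hLi hie
  have h5 := height_ge (r := r) (m := e + 1) h hf hv
  have hy := h.nonneg v i
  have hG0 := h.nonneg v (v + L)
  have hy1 : b' * d v i ≤ b / 4 * d v i := mul_le_mul_of_nonneg_right hb' hy
  have hbG : b * d v (v + L) ≤ 1 / 50 * d v (v + L) := mul_le_mul_of_nonneg_right hb hG0
  set x := f a - lam with hx
  set y := d v i with hyd
  -- the upper bound for y
  have h6 : (1 - 3 / 10 * b) * y ≤ x + (4 * c0 + 2 * B + 2 * c + 2) := by nlinarith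
  have hGpos : 60 * (c0 + B + c + 1) ≤ 1 / 50 * G := by
    have hG' : 0 ≤ G := by
      by_contra hcon
      push Not at hcon
      have : b * G < 0 := mul_neg_of_pos_of_neg hb0 hcon
      linarith
    have := mul_le_mul_of_nonneg_right hb hG'
    linarith
  have h7 : 49 / 50 * G ≤ y + c := by linarith
  have hby : b * y ≤ 1 / 50 * y := mul_le_mul_of_nonneg_right hb hy
  have hx1 : G / 2 ≤ x := by linarith
  refine ⟨hx1, ?_⟩
  have h8 : (1 - b) * y ≤ (1 - 7 / 10 * b) * (x + (4 * c0 + 2 * B + 2 * c + 2)) := by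
    have h9 : (1 - 7 / 10 * b) * ((1 - 3 / 10 * b) * y) ≤
        (1 - 7 / 10 * b) * (x + (4 * c0 + 2 * B + 2 * c + 2)) :=
      mul_le_mul_of_nonneg_left h6 (by linarith)
    have h10 : (1 - 7 / 10 * b) * ((1 - 3 / 10 * b) * y) = (1 - b) * y + 21 / 100 * b ^ 2 * y := by ring
    have h11 : 0 ≤ 21 / 100 * b ^ 2 * y := by positivity
    linarith
  have h12 : b * (G / 2) ≤ b * x := mul_le_mul_of_nonneg_left hx1 hb0.le
  have h13 : 0 ≤ b * (4 * c0 + 2 * B + 2 * c + 2) := by positivity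
  nlinarith

end Crest.Agent.R128.V1
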