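import Mathlib
import Crest.Agent.R128.V1Abs
import Crest.Agent.R128.Charge

set_option autoImplicit false

/-!
Row 128, MASTER v2, node V1 (helper337): the pointwise charging inequality for abstract validity
predicates `Vf v n` (forward start at time `v`, valid up to lag `n`), `Vb v n` (backward).
-/

namespace Crest.Agent.R128.V1

open Crest.Agent.R128.Tips Crest.Agent.R128.Charge Finset

variable {d : ℕ → ℕ → ℝ} {f : ℕ → ℝ} {B b b' c c0 G lam κ J H : ℝ} {L v e r N : ℕ}

/-- reversed time -/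
def rv (N : ℕ) (d : ℕ → ℕ → ℝ) (i j : ℕ) : ℝ := d (N - i) (N - j)

theorem isHyp_rv (h : IsHyp d (Real.log 2 / 2) B) (hB : 0 ≤ B) (N : ℕ) :
    IsHyp (rv N d) (Real.log 2 / 2) B where
  symm i j := h.symm _ _
  self i := h.self _
  nonneg i j := h.nonneg _ _
  tri i j l := h.tri _ _ _
  hyp i j l w := h.hyp (N - i) (N - j) (N - l) (N - w)
  step i := by
    unfold rv
    rcases Nat.lt_or_ge i N with hi | hi
    · have e : N - i = N - (i + 1) + 1 := by omega
      rw [h.symm, e]
      exact h.step _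
    · have e : N - i = 0 := by omega
      have e' : N - (i + 1) = 0 := by omega
      rw [e, e', h.self]
      exact hB
  δ_nonneg := h.δ_nonneg

/-- the data of the charging inequality -/
structure Data (d : ℕ → ℕ → ℝ) (f : ℕ → ℝ) (N L : ℕ) (B b b' c c0 G κ J : ℝ) (crit base : ℕ → Prop)
    (Vf Vb : ℕ → ℕ → Prop) : Prop where
  hyp : IsHyp d (Real.log 2 / 2) B
  near : ∀ m, |f m - d 0 m| ≤ c0
  f0 : ∀ m, 0 ≤ f m
  step : ∀ n, |f (n + 1) - f n| ≤ J
  hκ : 0 < κ
  hB : 0 ≤ B
  hc0 : 0 ≤ c0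
  hb0 : 0 < b
  hb : b ≤ 1 / 50
  hb'0 : 0 ≤ b'
  hb' : b' ≤ b / 4
  hc : 0 ≤ c
  hG : 60 * (c0 + B + c + 1) ≤ b * G
  hGκ : 16 * κ ≤ b * G
  hL : 2 ≤ L
  top : ∀ i j l T, Cmp f κ N i j l → i < T → T < j → (∀ m, i < m → m < j → f m ≤ f T) →
    crit T ∨ (i + 1 < T ∧ crit (T - 1))
  f1 : ∀ v n, v + n ≤ N → Vf v n → CleanF d b b' c G L v (v + n)
  f2 : ∀ v n, v + n ≤ N → Vf v n → ∀ m, v ≤ m → m < v + L → m < v + n → ¬ crit m
  fm : ∀ v n m, m ≤ n → Vf v n → Vf v m
  f3 : ∀ v n, v + n ≤ N → ¬ Vf v n → base v ∨ ∃ n1, n1 < n ∧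
    CleanF d b b' c G L v (v + n1) ∧ ∃ i, L ≤ i ∧ i ≤ n1 ∧
      d v (v + n1 + 1) ≤ (1 - b) * d v (v + i) + c
  b1 : ∀ v n, n ≤ v → v ≤ N → Vb v n → CleanF (rv N d) b b' c G L (N - v) (N - v + n)
  b2 : ∀ v n, n ≤ v → v ≤ N → Vb v n → ∀ m, m < v → v ≤ m + L → v ≤ m + n → ¬ crit m
  bm : ∀ v n m, m ≤ n → Vb v n → Vb v m
  b3 : ∀ v n, n ≤ v → v ≤ N → ¬ Vb v n → base v ∨ ∃ n1, n1 < n ∧
    CleanF (rv N d) b b' c G L (N - v) (N - v + n1) ∧ ∃ i, L ≤ i ∧ i ≤ n1 ∧
      rv N d (N - v) (N - v + n1 + 1) ≤ (1 - b) * rv N d (N - v) (N - v + i) + c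

variable {crit base : ℕ → Prop} {Vf Vb : ℕ → ℕ → Prop}

theorem Data.near_rv (X : Data d f N L B b b' c c0 G κ J crit base Vf Vb) (m : ℕ) :
    |f (N - m) - rv N d N m| ≤ c0 := by
  unfold rv
  rw [Nat.sub_self]
  exact X.near _

theorem Data.hG' (X : Data d f N L B b b' c c0 G κ J crit base Vf Vb) :
    20 * (c0 + B + c + 1) ≤ G := by
  have h1 := X.hG
  have h2 := X.hb
  have h3 := X.hb0
  have h4 := X.hB
  have h5 := X.hc0
  have h6 := X.hc
  have hG0 : 0 < G := by
    by_contra hcon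
    push Not at hcon
    have := mul_nonpos_of_nonneg_of_nonpos h3.le hcon
    linarith
  have h7 : b * G ≤ 1 / 50 * G := mul_le_mul_of_nonneg_right h2 hG0.le
  linarith

theorem Data.Gpos (X : Data d f N L B b b' c c0 G κ J crit base Vf Vb) : 0 < G := by
  have := X.hG'
  have h4 := X.hB
  have h5 := X.hc0
  have h6 := X.hc
  linarith

theorem Data.hb'2 (X : Data d f N L B b b' c c0 G κ J crit base Vf Vb) : b' ≤ 1 / 200 := by
  have := X.hb'
  have := X.hb
  linarith

/-- a component contains a critical time -/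
theorem Data.exists_crit (X : Data d f N L B b b' c c0 G κ J crit base Vf Vb) {i j : ℕ} {l : ℤ}
    (hC : Cmp f κ N i j l) : ∃ a, i < a ∧ a < j ∧ crit a := by
  obtain ⟨a, ha, hmax⟩ := Finset.exists_max_image (Finset.Ioo i j) f
    ⟨i + 1, Finset.mem_Ioo.mpr ⟨by omega, hC.lt⟩⟩
  rw [Finset.mem_Ioo] at ha
  rcases X.top i j l a hC ha.1 ha.2 (fun m h1 h2 => hmax m (Finset.mem_Ioo.mpr ⟨h1, h2⟩)) with h | h
  · exact ⟨a, ha.1, ha.2, h⟩
  · exact ⟨a - 1, by omega, by omega, h.2⟩

theorem Data.h4L (X : Data d f N L B b b' c c0 G κ J crit base Vf Vb) {i j : ℕ} {l : ℤ}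
    (h : NestL f κ N H i j l) : ¬ Vf i (N - i) ∧ ¬ Vb i i := by
  obtain ⟨hC, i', j', l', T, hC', hi'T, hTi, hjj', hmax, -⟩ := h
  have hj := hC.le
  have hij := hC.lt
  have hj' := hC'.le
  constructor
  · intro V
    obtain ⟨a, ha1, ha2, ha3⟩ := X.exists_crit hC
    by_cases haL : a < i + L
    · exact X.f2 i (N - i) (by omega) V a ha1.le haL (by omega) ha3
    · have V' := X.f1 i (j - i) (by omega) (X.fm i (N - i) (j - i) (by omega) V)
      have e : i + (j - i) = j := by omega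
      rw [e] at V'
      exact no_return (r := 0) (f := f) (lam := l * κ) X.hyp X.near X.hB X.hc0 X.hb0.le X.hb X.hb'0 X.hb'2
        X.hc X.hG' hij (by omega) hC.fi hC.mid hC.fj V'
  · intro V
    have hcr : ∃ T', i' < T' ∧ T' ≤ T ∧ T ≤ T' + 1 ∧ crit T' := by
      rcases X.top i' j' l' T hC' hi'T (by omega) hmax with h | h
      · exact ⟨T, hi'T, le_rfl, by omega, h⟩
      · exact ⟨T - 1, by omega, by omega, by omega, h.2⟩
    obtain ⟨T', h1, h2, h3, h4⟩ := hcr
    by_cases hL' : i ≤ T' + L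
    · exact X.b2 i i le_rfl (by omega) V T' (by omega) hL' (by omega) h4
    · have V' := X.b1 i (i - i') (by omega) (by omega) (X.bm i i (i - i') (by omega) V)
      have e : N - i + (i - i') = N - i' := by omega
      rw [e] at V'
      refine no_over (d := rv N d) (f := fun m => f (N - m)) (r := N) (lam := l' * κ)
        (isHyp_rv X.hyp X.hB N) X.near_rv X.hB X.hc0 X.hb0.le X.hb X.hb'0 X.hb'2 X.hc X.hG'
        (v := N - i) (T := N - T) (s := N - i') (by omega) (by omega) (by omega) ?_ ?_ ?_ V'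
      · have e1 : N - (N - i') = i' := by omega
        simp only [e1]
        exact hC'.fi
      · intro m hm1 hm2
        exact (hC'.mid (N - m) (by omega) (by omega)).le
      · have e1 : N - (N - i) = i := by omega
        have e2 : N - (N - T) = T := by omega
        simp only [e1, e2]
        exact hmax i (by omega) (by omega)

theorem Data.h4R (X : Data d f N L B b b' c c0 G κ J crit base Vf Vb) {i j : ℕ} {l : ℤ}
    (h : NestR f κ N H i j l) : ¬ Vf j (N - j) ∧ ¬ Vb j j := by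
  obtain ⟨hC, i', j', l', T, hC', hi'i, hjT, hTj', hmax, -⟩ := h
  have hj := hC.le
  have hij := hC.lt
  have hj' := hC'.le
  constructor
  · intro V
    have hcr : ∃ T', j ≤ T' ∧ T' ≤ T ∧ T ≤ T' + 1 ∧ crit T' := by
      rcases X.top i' j' l' T hC' (by omega) hTj' hmax with h | h
      · exact ⟨T, by omega, le_rfl, by omega, h⟩
      · exact ⟨T - 1, by omega, by omega, by omega, h.2⟩
    obtain ⟨T', h1, h2, h3, h4⟩ := hcr
    by_cases hL' : T' < j + L
    · exact X.f2 j (N - j) (by omega) V T' h1 hL' (by omega) h4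
    · have V' := X.f1 j (j' - j) (by omega) (X.fm j (N - j) (j' - j) (by omega) V)
      have e : j + (j' - j) = j' := by omega
      rw [e] at V'
      exact no_over (r := 0) (f := f) (lam := l' * κ) X.hyp X.near X.hB X.hc0 X.hb0.le X.hb X.hb'0
        X.hb'2 X.hc X.hG' hjT hTj' (by omega) hC'.fj (fun m hm1 hm2 => (hC'.mid m (by omega) (by omega)).le)
        (hmax j (by omega) (by omega)) V'
  · intro V
    obtain ⟨a, ha1, ha2, ha3⟩ := X.exists_crit hC
    by_cases haL : j ≤ a + L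
    · exact X.b2 j j le_rfl hj V a ha2 haL (by omega) ha3
    · have V' := X.b1 j (j - i) (by omega) hj (X.bm j j (j - i) (by omega) V)
      have e : N - j + (j - i) = N - i := by omega
      rw [e] at V'
      refine no_return (d := rv N d) (f := fun m => f (N - m)) (r := N) (lam := l * κ)
        (isHyp_rv X.hyp X.hB N) X.near_rv X.hB X.hc0 X.hb0.le X.hb X.hb'0 X.hb'2 X.hc X.hG'
        (v := N - j) (j := N - i) (by omega) (by omega) ?_ ?_ ?_ V'
      · have e1 : N - (N - j) = j := by omega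
        simp only [e1]
        exact hC.fj
      · intro m hm1 hm2
        exact hC.mid (N - m) (by omega) (by omega)
      · have e1 : N - (N - i) = i := by omega
        simp only [e1]
        exact hC.fi

theorem Data.h5L (X : Data d f N L B b b' c c0 G κ J crit base Vf Vb) {i j t : ℕ} {l : ℤ}
    (hC : Cmp f κ N i j l) (hit : i < t) (htj : t < j) (hmax : ∀ m, i < m → m < j → f m ≤ f t)
    (h : ¬ Vf i (t - i)) : base i ∨ ValL f κ (b / 2) (G / 2) t i l := by
  have hj := hC.le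
  rcases X.f3 i (t - i) (by omega) h with h | ⟨n1, hn1, C, i1, hi1, hi2, hdrop⟩
  · exact Or.inl h
  · right
    have hL := X.hL
    obtain ⟨a, ha1, ha2, ha3, ha4, ha5⟩ := valley (r := 0) (f := f) (lam := l * κ) (v := i)
      (e := i + n1) (i := i + i1) X.hyp X.near X.hB X.hc0 X.hb0 X.hb X.hb'0 X.hb' X.hc X.hG
      (by omega) (by omega) (by omega) hC.fi (fun m h1 h2 => hC.mid m h1 (by omega)) C hdrop
    have hG := X.Gpos
    have hb := X.hb0
    have hpos : 0 < b / 2 * (f a - l * κ) := by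
      apply mul_pos (by linarith) (by linarith)
    have hlt : i + n1 + 1 < t := by
      rcases Nat.lt_or_ge (i + n1 + 1) t with h1 | h1
      · exact h1
      · exfalso
        have e : i + n1 + 1 = t := by omega
        rw [e] at ha5
        have := hmax a ha1 (by omega)
        linarith
    exact ⟨i + n1 + 1, a, hlt, ha2, ha1, ha3, ha4, ha5⟩

theorem Data.h5R (X : Data d f N L B b b' c c0 G κ J crit base Vf Vb) {i j t : ℕ} {l : ℤ}
    (hC : Cmp f κ N i j l) (hit : i < t) (htj : t < j) (hmax : ∀ m, i < m → m < j → f m ≤ f t)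
    (h : ¬ Vb j (j - t)) : base j ∨ ValR f κ (b / 2) (G / 2) t j l := by
  have hj := hC.le
  rcases X.b3 j (j - t) (by omega) hj h with h | ⟨n1, hn1, C, i1, hi1, hi2, hdrop⟩
  · exact Or.inl h
  · right
    have hL := X.hL
    obtain ⟨a, ha1, ha2, ha3, ha4, ha5⟩ := valley (d := rv N d) (f := fun m => f (N - m)) (r := N)
      (lam := l * κ) (v := N - j)
      (e := N - j + n1) (i := N - j + i1) (isHyp_rv X.hyp X.hB N) X.near_rv X.hB X.hc0 X.hb0 X.hb
      X.hb'0 X.hb' X.hc X.hG
      (by omega) (by omega) (by omega) (by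
        have e1 : N - (N - j) = j := by omega
        simp only [e1]
        exact hC.fj) (fun m h1 h2 => hC.mid (N - m) (by omega) (by omega)) C hdrop
    have hG := X.Gpos
    have hb := X.hb0
    have hpos : 0 < b / 2 * (f (N - a) - l * κ) := by
      apply mul_pos (by linarith) (by linarith)
    have e2 : N - (N - j + n1 + 1) = j - (n1 + 1) := by omega
    rw [e2] at ha5
    have hlt : t < j - (n1 + 1) := by
      rcases Nat.lt_or_ge t (j - (n1 + 1)) with h1 | h1
      · exact h1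
      · exfalso
        have e : j - (n1 + 1) = t := by omega
        rw [e] at ha5
        have := hmax (N - a) (by omega) (by omega)
        linarith
    refine ⟨j - (n1 + 1), N - a, hlt, by omega, by omega, ?_, ha4, ha5⟩
    intro m hm1 hm2
    have := ha3 (N - m) (by omega) (by omega)
    have e3 : N - (N - m) = m := by omega
    rwa [e3] at this

open Classical in
/-- **V1, core form**: the number of non fresh components (validity `Vf, Vb`, drop `b`) is bounded by
the base times and the doubly covered times (validity `Vf2, Vb2`, drop `b2`). -/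
theorem Data.count {b2 b2' c2 G2 : ℝ} {L2 : ℕ} {base2 : ℕ → Prop} {Vf2 Vb2 : ℕ → ℕ → Prop}
    (X : Data d f N L B b b' c c0 G κ J crit base Vf Vb)
    (X2 : Data d f N L2 B b2 b2' c2 c0 G2 κ J crit base2 Vf2 Vb2) (S : Finset (ℕ × ℕ × ℤ))
    (hS : ∀ c ∈ S, Cmp f κ N c.1 c.2.1 c.2.2 ∧ ∃ t, c.1 < t ∧ t < c.2.1 ∧
      (∀ m, c.1 < m → m < c.2.1 → f m ≤ f t) ∧ (¬ Vf c.1 (t - c.1) ∨ ¬ Vb c.2.1 (c.2.1 - t))) :
    (S.card : ℝ) ≤ 2 * (J / κ + 1) * ((range (N + 1)).filter base).card +
      2 * (8 / b + 2) * (J / κ + 1) *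
        ((range (N + 1)).filter (fun v => ¬ Vf2 v (N - v) ∧ ¬ Vb2 v v)).card := by
  have h := charge (f := f) (κ := κ) (J := J) (b := b / 2) (D := G / 2)
    (H := ∑ m ∈ range (N + 1), f m) (N := N) X.hκ X.step (by have := X.hb0; linarith)
    (by have := X.hGκ; linarith) (fun v => ¬ Vf2 v (N - v) ∧ ¬ Vb2 v v) base
    (fun i j l h => X2.h4L h) (fun i j l h => X2.h4R h) S (by
      intro c hc
      obtain ⟨hC, t, h1, h2, h3, h4⟩ := hS c hc
      refine ⟨hC, ?_⟩
      have hH : f t - c.2.2 * κ ≤ ∑ m ∈ range (N + 1), f m := by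
        have h5 : f t ≤ ∑ m ∈ range (N + 1), f m :=
          Finset.single_le_sum (f := f) (fun m _ => X.f0 m) (mem_range.mpr (by have := hC.le; omega))
        have h6 : 0 ≤ c.2.2 * κ := (X.f0 _).trans hC.fi
        linarith
      rcases h4 with h4 | h4
      · rcases X.h5L hC h1 h2 h3 h4 with h5 | h5
        · exact Or.inl h5
        · exact Or.inr (Or.inr ⟨t, h1, h2, h3, hH, Or.inl h5⟩)
      · rcases X.h5R hC h1 h2 h3 h4 with h5 | h5
        · exact Or.inr (Or.inl h5)
        · exact Or.inr (Or.inr ⟨t, h1, h2, h3, hH, Or.inr h5⟩))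
  have e : (4:ℝ) / (b / 2) = 8 / b := by
    have := X.hb0
    field_simp
    norm_num
  rw [e] at h
  exact h

end Crest.Agent.R128.V1
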