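import Mathlib
import Crest.Agent.R128.Lam0U

/-!
# Row 128 (helper340): seam between the field of `(0,1)` and the operator norm; time reversal

`W k z m = ‖act (Mn k m z) (0,1)‖`; `ValD` = validity of a start in the sense of MASTER v2.
`ValD.nm_le` : on a valid piece the operator norm is at most `16 W`.
`clean_of_val` : the profile `m ↦ log (nm k m z)` is clean.
`nm_swap_le` : time reversal changes the norms at most by a factor two.
-/

set_option autoImplicit false
open MeasureTheory Filter Topology Finset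
open Crest.AnalysisR.StandardFamily

namespace Crest.Agent.R128.ValNorm

open Crest.Agent.R128 Crest.Agent.R128.TreeSum Crest.Agent.R128.Acc Crest.Agent.R128.Lam0

/-- maximum norm of the field of `(0,1)` -/
noncomputable def W (k : ℝ) (z : Tor) (m : ℕ) : ℝ := ‖fld k z m‖

/-- validity of the start `z` up to time `n` -/
structure ValD (k d : ℝ) (L n : ℕ) (z : Tor) : Prop where
  c1 : ∀ m, m < L → k ^ (2/3 : ℝ) ≤ |V k ((T k)^[m] z).2|
  c2 : ∀ i j, L ≤ i → i ≤ j → j ≤ n → W k z i ^ (1 - d) ≤ W k z j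
  c3 : ∀ j, L ≤ j → j ≤ n → ∃ i ≤ j, (j : ℝ) ≤ W k z i ^ (d / 4)

theorem W_zero (k : ℝ) (z : Tor) : W k z 0 = 1 := by
  unfold W
  rw [fld_zero]
  simp [Prod.norm_def]

theorem W_nonneg (k : ℝ) (z : Tor) (m : ℕ) : 0 ≤ W k z m := norm_nonneg _

theorem W_le_nm (k : ℝ) (z : Tor) (m : ℕ) : W k z m ≤ nm k m z := by
  have h := norm_act_Mn_le k m z (0, 1)
  have e : ‖((0:ℝ), (1:ℝ))‖ = 1 := by simp [Prod.norm_def]
  rw [e, mul_one] at h
  exact h

theorem nm_zero (k : ℝ) (z : Tor) : nm k 0 z = 1 := by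
  unfold nm
  rw [rr_zero]
  have : rr k z (0 + 1) = 1 := rr_one k z
  rw [this, max_self]

theorem nm_le_add (k : ℝ) (z : Tor) (n : ℕ) :
    nm k n z ≤ ‖act (Mn k n z) (1, 0)‖ + W k z n := by
  have hnm : nm k n z = max (rn (Mn k n z) 0) (rn (Mn k n z) 1) := by
    unfold nm
    rw [rr_succ]
    rfl
  rw [hnm]
  have a1 : |Mn k n z 0 0| ≤ ‖act (Mn k n z) (1, 0)‖ := by
    have h := norm_fst_le (act (Mn k n z) (1, 0))
    have e : (act (Mn k n z) (1, 0)).1 = Mn k n z 0 0 := by simp [act]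
    rw [e, Real.norm_eq_abs] at h
    exact h
  have a2 : |Mn k n z 1 0| ≤ ‖act (Mn k n z) (1, 0)‖ := by
    have h := norm_snd_le (act (Mn k n z) (1, 0))
    have e : (act (Mn k n z) (1, 0)).2 = Mn k n z 1 0 := by simp [act]
    rw [e, Real.norm_eq_abs] at h
    exact h
  have b1 : |Mn k n z 0 1| ≤ W k z n := by
    have h := norm_fst_le (act (Mn k n z) (0, 1))
    have e : (act (Mn k n z) (0, 1)).1 = Mn k n z 0 1 := by simp [act]
    rw [e, Real.norm_eq_abs] at h
    exact h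
  have b2 : |Mn k n z 1 1| ≤ W k z n := by
    have h := norm_snd_le (act (Mn k n z) (0, 1))
    have e : (act (Mn k n z) (0, 1)).2 = Mn k n z 1 1 := by simp [act]
    rw [e, Real.norm_eq_abs] at h
    exact h
  unfold rn
  exact max_le (by linarith) (by linarith)

/-! ### clean steps -/

theorem clean_cone {k β : ℝ} {L : ℕ} {z : Tor} (hβ : 3 ≤ β)
    (c1 : ∀ m, m < L → β ≤ |V k ((T k)^[m] z).2|) :
    ∀ m ≤ L, |(fld k z m).1| ≤ |(fld k z m).2| / 2 := by
  intro m
  induction m with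
  | zero =>
    intro _
    rw [fld_zero]
    norm_num
  | succ m ih =>
    intro hm
    have h := ih (by omega)
    have hb := c1 m (by omega)
    rw [fld_succ]
    unfold stp
    simp only
    have h1 := abs_sub_abs_le_abs_sub (V k ((T k)^[m] z).2 * (fld k z m).2) ((fld k z m).1)
    rw [abs_mul] at h1
    have h2 := mul_le_mul_of_nonneg_right (hβ.trans hb) (abs_nonneg (fld k z m).2)
    linarith [abs_nonneg (fld k z m).2]

theorem W_eq_snd {k β : ℝ} {L : ℕ} {z : Tor} (hβ : 3 ≤ β)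
    (c1 : ∀ m, m < L → β ≤ |V k ((T k)^[m] z).2|) {m : ℕ} (hm : m ≤ L) :
    W k z m = |(fld k z m).2| := by
  have h := clean_cone hβ c1 m hm
  unfold W
  rw [Prod.norm_def]
  simp only [Real.norm_eq_abs]
  exact max_eq_right (by linarith [abs_nonneg (fld k z m).2])

theorem W_growth {k β : ℝ} {L : ℕ} {z : Tor} (hβ : 3 ≤ β)
    (c1 : ∀ m, m < L → β ≤ |V k ((T k)^[m] z).2|) {m : ℕ} (hm : m < L) :
    (|V k ((T k)^[m] z).2| - 1 / 2) * W k z m ≤ W k z (m + 1) := by
  rw [W_eq_snd hβ c1 hm.le, W_eq_snd hβ c1 (Nat.succ_le_of_lt hm), fld_succ]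
  unfold stp
  simp only
  have h := clean_cone hβ c1 m hm.le
  have h1 := abs_sub_abs_le_abs_sub (V k ((T k)^[m] z).2 * (fld k z m).2) ((fld k z m).1)
  rw [abs_mul] at h1
  linarith

theorem W_mono {k β : ℝ} {L : ℕ} {z : Tor} (hβ : 3 ≤ β)
    (c1 : ∀ m, m < L → β ≤ |V k ((T k)^[m] z).2|) {i j : ℕ} (hij : i ≤ j) (hj : j ≤ L) :
    (β - 1 / 2) ^ (j - i) * W k z i ≤ W k z j := by
  induction j, hij using Nat.le_induction with
  | base => simp
  | succ j hij ih =>
    have h1 := ih (by omega)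
    have h2 := W_growth hβ c1 (m := j) (by omega)
    have h3 := c1 j (by omega)
    rw [Nat.succ_sub hij, pow_succ]
    calc (β - 1 / 2) ^ (j - i) * (β - 1 / 2) * W k z i
        = (β - 1 / 2) * ((β - 1 / 2) ^ (j - i) * W k z i) := by ring
      _ ≤ (β - 1 / 2) * W k z j := mul_le_mul_of_nonneg_left h1 (by linarith)
      _ ≤ (|V k ((T k)^[j] z).2| - 1 / 2) * W k z j :=
          mul_le_mul_of_nonneg_right (by linarith) (W_nonneg _ _ _)
      _ ≤ _ := h2

theorem W_pow {k β : ℝ} {L : ℕ} {z : Tor} (hβ : 3 ≤ β)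
    (c1 : ∀ m, m < L → β ≤ |V k ((T k)^[m] z).2|) {m : ℕ} (hm : m ≤ L) :
    (β - 1 / 2) ^ m ≤ W k z m := by
  have := W_mono hβ c1 (Nat.zero_le m) hm
  rw [W_zero, mul_one, Nat.sub_zero] at this
  exact this

/-- numerical facts on `k ^ (2/3)` -/
theorem beta_ge {k : ℝ} (hk : 100 ≤ k) : k ^ (1/2 : ℝ) + 1 / 2 ≤ k ^ (2/3 : ℝ) := by
  have hk0 : 0 < k := by linarith
  have h1 : (10:ℝ) ≤ k ^ (1/2 : ℝ) := by
    have : ((10:ℝ) ^ (2:ℝ)) ^ (1/2 : ℝ) = 10 := by
      rw [← Real.rpow_mul (by norm_num)]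
      norm_num
    rw [← this]
    exact Real.rpow_le_rpow (by positivity) (by norm_num; linarith) (by norm_num)
  have h2 : (2:ℝ) ≤ k ^ (1/6 : ℝ) := by
    have : ((2:ℝ) ^ (6:ℝ)) ^ (1/6 : ℝ) = 2 := by
      rw [← Real.rpow_mul (by norm_num)]
      norm_num
    rw [← this]
    exact Real.rpow_le_rpow (by positivity) (by norm_num; linarith) (by norm_num)
  have h3 : k ^ (2/3 : ℝ) = k ^ (1/2 : ℝ) * k ^ (1/6 : ℝ) := by
    rw [← Real.rpow_add hk0]
    norm_num
  rw [h3]
  nlinarith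

theorem ten_le {k : ℝ} (hk : 100 ≤ k) : (10:ℝ) ≤ k ^ (1/2 : ℝ) := by
  have : ((10:ℝ) ^ (2:ℝ)) ^ (1/2 : ℝ) = 10 := by
    rw [← Real.rpow_mul (by norm_num)]
    norm_num
  rw [← this]
  exact Real.rpow_le_rpow (by positivity) (by norm_num; linarith) (by norm_num)

section val

variable {k d : ℝ} {L n : ℕ} {z : Tor}

theorem ValD.mono (h : ValD k d L n z) {m : ℕ} (hm : m ≤ n) : ValD k d L m z where
  c1 := h.c1
  c2 := fun i j hi hij hj => h.c2 i j hi hij (hj.trans hm)
  c3 := fun j hL hj => h.c3 j hL (hj.trans hm)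

theorem ValD.three (hk : 100 ≤ k) : (3:ℝ) ≤ k ^ (2/3 : ℝ) := by
  have := beta_ge hk
  have := ten_le hk
  linarith

/-- growth on the clean part -/
theorem ValD.W_clean (h : ValD k d L n z) (hk : 100 ≤ k) {m : ℕ} (hm : m ≤ L) :
    (k ^ (1/2 : ℝ)) ^ m ≤ W k z m := by
  have h1 := W_pow (ValD.three hk) h.c1 hm
  refine le_trans ?_ h1
  have h2 := beta_ge hk
  have h3 := ten_le hk
  exact pow_le_pow_left₀ (by linarith) (by linarith) m

theorem ValD.W_clean_mono (h : ValD k d L n z) (hk : 100 ≤ k) {i j : ℕ} (hij : i ≤ j)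
    (hj : j ≤ L) : W k z i ≤ W k z j := by
  have h1 := W_mono (ValD.three hk) h.c1 hij hj
  have h2 := beta_ge hk
  have h3 := ten_le hk
  have h4 : (1:ℝ) ≤ (k ^ (2/3 : ℝ) - 1 / 2) ^ (j - i) := one_le_pow₀ (by linarith)
  nlinarith [W_nonneg k z i]

theorem ValD.W_L (h : ValD k d L n z) (hk : 100 ≤ k) : (k ^ (1/2 : ℝ)) ^ L ≤ W k z L :=
  h.W_clean hk le_rfl

/-- all values are at least one -/
theorem ValD.one_le (h : ValD k d L n z) (hk : 100 ≤ k) (hd : d ≤ 1 / 4) {m : ℕ} (hm : m ≤ n) :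
    1 ≤ W k z m := by
  have h3 := ten_le hk
  rcases le_total m L with hmL | hmL
  · exact (one_le_pow₀ (by linarith)).trans (h.W_clean hk hmL)
  · have h1 : 1 ≤ W k z L := (one_le_pow₀ (by linarith)).trans (h.W_L hk)
    exact (Real.one_le_rpow h1 (by linarith)).trans (h.c2 L m le_rfl hmL hm)

/-- monotonicity for all pairs -/
theorem ValD.all (h : ValD k d L n z) (hk : 100 ≤ k) (hd0 : 0 ≤ d) (hd : d ≤ 1 / 4) {i j : ℕ}
    (hij : i ≤ j) (hj : j ≤ n) : W k z i ^ (1 - d) ≤ W k z j := by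
  have one : ∀ m ≤ n, 1 ≤ W k z m := fun m hm => h.one_le hk hd hm
  rcases le_total L i with hi | hi
  · exact h.c2 i j hi hij hj
  · have hi1 := one i (hij.trans hj)
    rcases le_total L j with hjL | hjL
    · have h1 : W k z i ≤ W k z L := h.W_clean_mono hk hi le_rfl
      exact (Real.rpow_le_rpow (by linarith) h1 (by linarith)).trans (h.c2 L j le_rfl hjL hj)
    · calc W k z i ^ (1 - d) ≤ W k z i ^ (1:ℝ) :=
            Real.rpow_le_rpow_of_exponent_le hi1 (by linarith)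
        _ = W k z i := Real.rpow_one _
        _ ≤ _ := h.W_clean_mono hk hij hjL

/-- beyond `L` the field is large: larger than `64 k²` and than `j²` -/
theorem ValD.late (h : ValD k d L n z) (hk : 100 ≤ k) (hL : 10 ≤ L) (hd0 : 0 < d)
    (hd : d ≤ 1 / 4) {j : ℕ} (hjL : L ≤ j) (hj : j ≤ n) :
    64 * k ^ 2 ≤ W k z j ∧ (j : ℝ) ^ 2 ≤ W k z j := by
  have hk0 : 0 < k := by linarith
  have h3 := ten_le hk
  constructor
  · have h1 := h.c2 L j le_rfl hjL hj
    have h2 : (k ^ (1/2 : ℝ)) ^ 10 ≤ W k z L :=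
      (pow_le_pow_right₀ (by linarith) hL).trans (h.W_L hk)
    have h4 : (k ^ (1/2 : ℝ)) ^ 10 = k ^ (5:ℝ) := by
      rw [← Real.rpow_natCast, ← Real.rpow_mul hk0.le]
      norm_num
    rw [h4] at h2
    have h5 : (k ^ (5:ℝ)) ^ (3/4 : ℝ) ≤ W k z L ^ (1 - d) :=
      calc (k ^ (5:ℝ)) ^ (3/4 : ℝ) ≤ W k z L ^ (3/4 : ℝ) :=
            Real.rpow_le_rpow (by positivity) h2 (by norm_num)
        _ ≤ _ := Real.rpow_le_rpow_of_exponent_le
            ((Real.one_le_rpow (by linarith) (by norm_num)).trans h2) (by linarith)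
    have h6 : (k ^ (5:ℝ)) ^ (3/4 : ℝ) = k ^ (2:ℝ) * k ^ (7/4 : ℝ) := by
      rw [← Real.rpow_mul hk0.le, ← Real.rpow_add hk0]
      norm_num
    have h7 : (64:ℝ) ≤ k ^ (7/4 : ℝ) := by
      calc (64:ℝ) ≤ k := by linarith
        _ = k ^ (1:ℝ) := (Real.rpow_one k).symm
        _ ≤ _ := Real.rpow_le_rpow_of_exponent_le (by linarith) (by norm_num)
    have h8 : k ^ (2:ℝ) = k ^ 2 := by norm_cast
    rw [h6, h8] at h5
    nlinarith [sq_nonneg k]
  · obtain ⟨i, hij, hi⟩ := h.c3 j hjL hj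
    have h1 := h.all hk hd0.le hd hij hj
    have hi1 := h.one_le hk hd (hij.trans hj)
    calc (j : ℝ) ^ 2 ≤ (W k z i ^ (d / 4)) ^ 2 := pow_le_pow_left₀ (Nat.cast_nonneg j) hi 2
      _ = W k z i ^ (d / 2) := by
          rw [← Real.rpow_natCast, ← Real.rpow_mul (by linarith)]
          congr 1
          push_cast
          ring
      _ ≤ W k z i ^ (1 - d) := Real.rpow_le_rpow_of_exponent_le hi1 (by linarith)
      _ ≤ _ := h1

theorem sum_geom_quarter (n : ℕ) : ∑ j ∈ range n, 2 * (1 / 4 : ℝ) ^ j ≤ 3 := by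
  have h : ∑ j ∈ range n, 2 * (1 / 4 : ℝ) ^ j = 8 / 3 * (1 - (1 / 4 : ℝ) ^ n) := by
    induction n with
    | zero => simp
    | succ n ih =>
      rw [Finset.sum_range_succ, ih, pow_succ]
      ring
  rw [h]
  have : (0:ℝ) < (1 / 4 : ℝ) ^ n := by positivity
  linarith

theorem wt_early {k β : ℝ} {L : ℕ} {z : Tor} (hβ : 3 ≤ β)
    (c1 : ∀ m, m < L → β ≤ |V k ((T k)^[m] z).2|) {m : ℕ} (hm : m ≤ L) :
    wt (fun m => V k ((T k)^[m] z).2) (fld k z) 0 m ≤ 3 := by
  unfold wt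
  rw [Nat.Ico_zero_eq_range]
  refine le_trans (Finset.sum_le_sum fun j hj => ?_) (sum_geom_quarter m)
  rw [Finset.mem_range] at hj
  have hjL : j < L := by omega
  have g := W_growth hβ c1 hjL
  have a1 : W k z j ≤ nn (fld k z j) := norm_le_nn _
  have a2 : W k z (j + 1) ≤ nn (fld k z (j + 1)) := norm_le_nn _
  have hv : 3 ≤ |V k ((T k)^[j] z).2| := hβ.trans (c1 j hjL)
  have c : (2:ℝ) ^ j ≤ W k z j := by
    refine le_trans ?_ (W_pow hβ c1 hjL.le)
    exact pow_le_pow_left₀ (by norm_num) (by linarith) j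
  have hW0 : 0 < W k z j := lt_of_lt_of_le (by positivity) c
  have c' : (2:ℝ) ^ (j + 1) ≤ W k z (j + 1) := by
    refine le_trans ?_ (W_pow hβ c1 (Nat.succ_le_of_lt hjL))
    exact pow_le_pow_left₀ (by norm_num) (by linarith) (j + 1)
  have hW0' : 0 < W k z (j + 1) := lt_of_lt_of_le (by positivity) c'
  have c4 : (4:ℝ) ^ j ≤ W k z j * W k z j := by
    calc (4:ℝ) ^ j = 2 ^ j * 2 ^ j := by
          rw [← mul_pow]
          norm_num
      _ ≤ _ := mul_le_mul c c (by positivity) (by linarith)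
  have hp : (0:ℝ) < 4 ^ j := by positivity
  show (|V k ((T k)^[j] z).2| + 2) / (nn (fld k z j) * nn (fld k z (j + 1))) ≤ _
  rw [div_le_iff₀ (mul_pos (hW0.trans_le a1) (hW0'.trans_le a2))]
  have e : (2:ℝ) * (1 / 4 : ℝ) ^ j * (nn (fld k z j) * nn (fld k z (j + 1))) =
      2 * (nn (fld k z j) * nn (fld k z (j + 1))) / 4 ^ j := by
    rw [one_div, inv_pow]
    field_simp
  rw [e, le_div_iff₀ hp]
  calc (|V k ((T k)^[j] z).2| + 2) * 4 ^ j
      ≤ (|V k ((T k)^[j] z).2| + 2) * (W k z j * W k z j) :=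
        mul_le_mul_of_nonneg_left c4 (by positivity)
    _ ≤ 2 * (W k z j * ((|V k ((T k)^[j] z).2| - 1 / 2) * W k z j)) := by
        have : (|V k ((T k)^[j] z).2| + 2) ≤ 2 * (|V k ((T k)^[j] z).2| - 1 / 2) := by linarith
        nlinarith [mul_nonneg (W_nonneg k z j) (W_nonneg k z j)]
    _ ≤ 2 * (nn (fld k z j) * nn (fld k z (j + 1))) := by
        have : W k z j * ((|V k ((T k)^[j] z).2| - 1 / 2) * W k z j) ≤
            nn (fld k z j) * nn (fld k z (j + 1)) :=
          mul_le_mul a1 (g.trans a2) (mul_nonneg (by linarith) (W_nonneg _ _ _)) (nn_nonneg _)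
        linarith

theorem ValD.wt_le (h : ValD k d L n z) (hk : 100 ≤ k) (hL : 10 ≤ L) (hd0 : 0 < d)
    (hd : d ≤ 1 / 4) :
    wt (fun m => V k ((T k)^[m] z).2) (fld k z) 0 n ≤ 4 := by
  have hk0 : 0 < k := by linarith
  have h3 := ten_le hk
  have hA : ∀ j, |(fun m => V k ((T k)^[m] z).2) j| + 2 ≤ 8 * k :=
    fun j => abs_V_le (by linarith) _
  have hpos : ∀ j ≤ n, 0 < nn (fld k z j) := fun j hj =>
    lt_of_lt_of_le (lt_of_lt_of_le one_pos (h.one_le hk hd hj)) (norm_le_nn (fld k z j))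
  have late : ∀ j, L ≤ j → j < n →
      (|V k ((T k)^[j] z).2| + 2) / (nn (fld k z j) * nn (fld k z (j + 1))) ≤
        1 / (j : ℝ) ^ 2 := by
    intro j hjL hjn
    obtain ⟨b1, b2⟩ := h.late hk hL hd0 hd hjL hjn.le
    have g := inv_succ_le (isField_fld k z) (A := 8 * k) hA (hpos j hjn.le)
    refine g.trans ?_
    have a1 : W k z j ≤ nn (fld k z j) := norm_le_nn _
    have hj0 : (0:ℝ) < j := by
      have : 0 < j := by omega
      exact_mod_cast this
    have hW0 : 0 < W k z j := by linarith [h.one_le hk hd hjn.le]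
    rw [div_le_div_iff₀ (by have := hpos j hjn.le; positivity) (by positivity)]
    calc (8 * k) ^ 2 * (j : ℝ) ^ 2 = (64 * k ^ 2) * (j : ℝ) ^ 2 := by ring
      _ ≤ W k z j * W k z j := mul_le_mul b1 b2 (by positivity) hW0.le
      _ ≤ nn (fld k z j) * nn (fld k z j) := mul_le_mul a1 a1 hW0.le (nn_nonneg _)
      _ = 1 * nn (fld k z j) ^ 2 := by ring
  rcases le_total n L with hnL | hnL
  · have := wt_early (ValD.three hk) h.c1 hnL
    linarith
  · have h1 := wt_early (ValD.three hk) h.c1 (le_refl L)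
    have h2 : ∑ j ∈ Ico L n, (|V k ((T k)^[j] z).2| + 2) /
        (nn (fld k z j) * nn (fld k z (j + 1))) ≤ 1 := by
      calc _ ≤ ∑ j ∈ Ico L n, 1 / (j : ℝ) ^ 2 := by
            refine Finset.sum_le_sum fun j hj => ?_
            rw [Finset.mem_Ico] at hj
            exact late j hj.1 (by omega)
        _ = ∑ j ∈ Ico 0 (n - L), 1 / ((L + j : ℕ) : ℝ) ^ 2 := by
            rw [Finset.sum_Ico_eq_sum_range, Nat.Ico_zero_eq_range]
        _ ≤ 1 / ((L:ℝ) - 1) := sum_inv_sq L (n - L) (by omega)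
        _ ≤ 1 := by
            have : (10:ℝ) ≤ L := by exact_mod_cast hL
            rw [div_le_one (by linarith)]
            linarith
    unfold wt at h1 ⊢
    rw [← Finset.sum_Ico_consecutive _ (Nat.zero_le L) hnL]
    linarith

/-- one step beyond the valid piece -/
theorem ValD.wt_succ (h : ValD k d L n z) (hk : 100 ≤ k) (hL : 10 ≤ L) (hd0 : 0 < d)
    (hd : d ≤ 1 / 4) {m : ℕ} (hm : m ≤ n + 1) :
    wt (fun m => V k ((T k)^[m] z).2) (fld k z) 0 m ≤ 5 ∧ 1 ≤ W k z m := by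
  rcases Nat.lt_or_ge n m with hlt | hge
  · obtain rfl : m = n + 1 := by omega
    rcases Nat.lt_or_ge n L with hnL | hnL
    · have h1 := wt_early (ValD.three hk) h.c1 (Nat.succ_le_of_lt hnL)
      have h2 := h.W_clean hk (Nat.succ_le_of_lt hnL)
      have h3 := ten_le hk
      exact ⟨by linarith, (one_le_pow₀ (by linarith)).trans h2⟩
    · have h1 := h.wt_le hk hL hd0 hd
      obtain ⟨b1, -⟩ := h.late hk hL hd0 hd hnL le_rfl
      have hk0 : 0 < k := by linarith
      have a1 : W k z n ≤ nn (fld k z n) := norm_le_nn _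
      have hA : |V k ((T k)^[n] z).2| + 2 ≤ 8 * k := abs_V_le (by linarith) _
      have h2 : nn (fld k z n) ≤ (8 * k) * nn (fld k z (n + 1)) := by
        have h3 := nn_le_stp (V k ((T k)^[n] z).2) (fld k z n)
        rw [← fld_succ] at h3
        exact h3.trans (mul_le_mul_of_nonneg_right hA (nn_nonneg _))
      have h4 : 8 * k ≤ nn (fld k z (n + 1)) := by
        by_contra hc
        push Not at hc
        nlinarith
      have h5 : nn (fld k z (n + 1)) ≤ 2 * W k z (n + 1) := nn_le_norm _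
      refine ⟨?_, by linarith⟩
      have e : wt (fun m => V k ((T k)^[m] z).2) (fld k z) 0 (n + 1) =
          wt (fun m => V k ((T k)^[m] z).2) (fld k z) 0 n +
          (|V k ((T k)^[n] z).2| + 2) / (nn (fld k z n) * nn (fld k z (n + 1))) := by
        unfold wt
        rw [Finset.sum_Ico_succ_top (Nat.zero_le _)]
      rw [e]
      have h6 : (|V k ((T k)^[n] z).2| + 2) / (nn (fld k z n) * nn (fld k z (n + 1))) ≤ 1 := by
        have hp1 : 1 ≤ nn (fld k z n) := by nlinarith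
        rw [div_le_one (by nlinarith)]
        nlinarith
      linarith
  · have hv := h.mono hge
    have := hv.wt_le hk hL hd0 hd
    exact ⟨by linarith, hv.one_le hk hd le_rfl⟩

theorem field_e1 (k : ℝ) (z : Tor) :
    IsField (fun m => V k ((T k)^[m] z).2) (fun m => act (Mn k m z) (1, 0)) := by
  intro j
  show act (Mn k (j + 1) z) (1, 0) = stp (V k ((T k)^[j] z).2) (act (Mn k j z) (1, 0))
  rw [Mn_succ', act_mul, act_Am]

/-- the other column is at most `6 nn + 1` -/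
theorem ValD.col_le (h : ValD k d L n z) (hk : 100 ≤ k) (hL : 10 ≤ L) (hd0 : 0 < d)
    (hd : d ≤ 1 / 4) {m : ℕ} (hm : m ≤ n + 1) :
    nn (act (Mn k m z) (1, 0)) ≤ 6 * nn (fld k z m) + 1 := by
  obtain ⟨w5, hW1⟩ := h.wt_succ hk hL hd0 hd hm
  have n0 : nn (fld k z 0) = 1 := by
    rw [fld_zero]
    unfold nn
    norm_num
  have u0 : nn (act (Mn k 0 z) (1, 0)) = 1 := by
    have : act (Mn k 0 z) (1, 0) = (1, 0) := by simp [act]
    rw [this]
    unfold nn
    norm_num
  have t := tree_ineq (isField_fld k z) (field_e1 k z) (Nat.zero_le m) (by rw [n0]; norm_num)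
  simp only [n0, u0] at t
  have a1 : W k z m ≤ nn (fld k z m) := norm_le_nn _
  have a3 : 1 / nn (fld k z m) ≤ 1 := by
    rw [div_le_one (by linarith)]
    linarith
  have a6 : 1 * nn (fld k z m) * wt (fun m => V k ((T k)^[m] z).2) (fld k z) 0 m ≤
      nn (fld k z m) * 5 := by
    rw [one_mul]
    exact mul_le_mul_of_nonneg_left w5 (nn_nonneg _)
  calc nn (act (Mn k m z) (1, 0)) ≤ _ := t
    _ ≤ _ := by
      rw [one_mul, div_one]
      linarith

/-- **operator norm versus field** (also one step beyond the valid piece) -/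
theorem ValD.nm_le (h : ValD k d L n z) (hk : 100 ≤ k) (hL : 10 ≤ L) (hd0 : 0 < d)
    (hd : d ≤ 1 / 4) {m : ℕ} (hm : m ≤ n + 1) : nm k m z ≤ 16 * W k z m := by
  have hW1 := (h.wt_succ hk hL hd0 hd hm).2
  have a2 : nn (fld k z m) ≤ 2 * W k z m := nn_le_norm _
  have a4 : ‖act (Mn k m z) (1, 0)‖ ≤ nn (act (Mn k m z) (1, 0)) := norm_le_nn _
  have a5 := nm_le_add k z m
  have a7 := h.col_le hk hL hd0 hd hm
  linarith

/-- the profile of the operator norms of a valid start is clean, part (c2) -/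
theorem ValD.clean_c2 (h : ValD k d L n z) (hk : 100 ≤ k) (hL : 10 ≤ L) (hd0 : 0 < d)
    (hd : d ≤ 1 / 4) (hkd : 20 / d ≤ Real.log k) {m m' : ℕ} (hm' : m' ≤ m) (hm : m ≤ n) :
    (1 - 2 * d) * Real.log (nm k m' z) ≤ Real.log (nm k m z) := by
  have hk0 : 0 < k := by linarith
  have one : ∀ m ≤ n, 1 ≤ W k z m := fun m hm => h.one_le hk hd hm
  have hWm := one m hm
  have hWm' := one m' (hm'.trans hm)
  rcases Nat.eq_zero_or_pos m' with rfl | hpos
  · rw [nm_zero, Real.log_one, mul_zero]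
    exact Real.log_nonneg (hWm.trans (W_le_nm k z m))
  · have h1 := h.all hk hd0.le hd hm' hm
    have h2 := h.nm_le hk hL hd0 hd (m := m') (by omega)
    have h3 : (1 - d) * Real.log (W k z m') ≤ Real.log (W k z m) := by
      rw [← Real.log_rpow (by linarith)]
      exact Real.log_le_log (Real.rpow_pos_of_pos (by linarith) _) h1
    have h4 : Real.log (W k z m) ≤ Real.log (nm k m z) :=
      Real.log_le_log (by linarith) (W_le_nm k z m)
    have h5 : Real.log (nm k m' z) ≤ Real.log 16 + Real.log (W k z m') := by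
      rw [← Real.log_mul (by norm_num) (by linarith)]
      exact Real.log_le_log (nm_pos k m' z) h2
    have h6 : k ^ (1/2 : ℝ) ≤ W k z m' := by
      rcases le_total m' L with hmL | hmL
      · refine le_trans ?_ (h.W_clean hk hmL)
        have h10 := ten_le hk
        calc k ^ (1/2 : ℝ) = (k ^ (1/2 : ℝ)) ^ 1 := (pow_one _).symm
          _ ≤ _ := pow_le_pow_right₀ (by linarith) hpos
      · have := (h.late hk hL hd0 hd hmL (hm'.trans hm)).1
        have h7 : k ^ (1/2 : ℝ) ≤ k := by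
          calc k ^ (1/2 : ℝ) ≤ k ^ (1:ℝ) :=
                Real.rpow_le_rpow_of_exponent_le (by linarith) (by norm_num)
            _ = k := Real.rpow_one k
        nlinarith
    have h7 : (1/2 : ℝ) * Real.log k ≤ Real.log (W k z m') := by
      rw [← Real.log_rpow hk0]
      exact Real.log_le_log (by positivity) h6
    have h8 : 20 ≤ d * Real.log k := by
      rw [div_le_iff₀ hd0] at hkd
      linarith
    have h9 : Real.log 16 ≤ 3 := by
      have h0 : Real.log 16 = 4 * Real.log 2 := by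
        rw [show (16:ℝ) = 2 ^ 4 by norm_num, Real.log_pow]
        norm_num
      have := Real.log_two_lt_d9
      rw [h0]
      linarith
    have h10 : 0 ≤ Real.log 16 := Real.log_nonneg (by norm_num)
    have h11 : 10 ≤ d * Real.log (W k z m') := by nlinarith
    nlinarith

/-- the profile of the operator norms of a valid start is clean, part (c3) -/
theorem ValD.clean_c3 (h : ValD k d L n z) (hk : 100 ≤ k) (hd0 : 0 < d)
    (hd : d ≤ 1 / 4) (hkd : 20 / d ≤ Real.log k) {m : ℕ} (hm : m ≤ n) :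
    (m : ℝ) ≤ Real.exp (d * Real.log (nm k m z)) := by
  have hk0 : 0 < k := by linarith
  have hWm := h.one_le hk hd hm
  have h4 : Real.log (W k z m) ≤ Real.log (nm k m z) :=
    Real.log_le_log (by linarith) (W_le_nm k z m)
  refine le_trans ?_ (Real.exp_le_exp.mpr (mul_le_mul_of_nonneg_left h4 hd0.le))
  rcases le_total L m with hmL | hmL
  · obtain ⟨i, hij, hi⟩ := h.c3 m hmL hm
    have h1 := h.all hk hd0.le hd hij hm
    have hi1 := h.one_le hk hd (hij.trans hm)
    refine hi.trans ?_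
    rw [Real.rpow_def_of_pos (by linarith)]
    apply Real.exp_le_exp.mpr
    have h3 : (1 - d) * Real.log (W k z i) ≤ Real.log (W k z m) := by
      rw [← Real.log_rpow (by linarith)]
      exact Real.log_le_log (Real.rpow_pos_of_pos (by linarith) _) h1
    have h5 : 0 ≤ Real.log (W k z i) := Real.log_nonneg hi1
    have h6 : d * ((1 - d) * Real.log (W k z i)) ≤ d * Real.log (W k z m) :=
      mul_le_mul_of_nonneg_left h3 hd0.le
    nlinarith [mul_nonneg hd0.le h5]
  · have h1 := h.W_clean hk hmL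
    have h2 : (m : ℝ) * ((1/2 : ℝ) * Real.log k) ≤ Real.log (W k z m) := by
      rw [← Real.log_rpow hk0, ← Real.log_pow]
      exact Real.log_le_log (by positivity) h1
    have h8 : 20 ≤ d * Real.log k := by
      rw [div_le_iff₀ hd0] at hkd
      linarith
    have hm0 : (0:ℝ) ≤ m := Nat.cast_nonneg m
    have h9 : (m : ℝ) * 10 ≤ d * Real.log (W k z m) := by
      have := mul_le_mul_of_nonneg_left h2 hd0.le
      nlinarith
    have h10 := Real.add_one_le_exp (d * Real.log (W k z m))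
    linarith

end val

/-! ### time reversal -/

theorem T_swap (k : ℝ) (z : Tor) : T k z.swap = (Tinv k z).swap := rfl

theorem T_iter_swap (k : ℝ) (m : ℕ) (z : Tor) : (T k)^[m] z.swap = ((Tinv k)^[m] z).swap := by
  induction m with
  | zero => rfl
  | succ m ih => rw [Function.iterate_succ_apply', ih, T_swap, Function.iterate_succ_apply']

/-- the diagonal sign matrix -/
def Dg : Matrix (Fin 2) (Fin 2) ℝ := !![1, 0; 0, -1]

theorem Dg_mul_Dg : Dg * Dg = 1 := by
  unfold Dg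
  ext i j
  fin_cases i <;> fin_cases j <;> simp [Matrix.mul_apply, Fin.sum_univ_two]

theorem Am_transpose (k : ℝ) (z : Tor) : (Am k z).transpose = Dg * Am k z * Dg := by
  unfold Dg Am
  ext i j
  fin_cases i <;> fin_cases j <;> simp [Matrix.mul_apply, Fin.sum_univ_two]

theorem Am_congr (k : ℝ) {z z' : Tor} (h : z.2 = z'.2) : Am k z = Am k z' := by
  unfold Am
  rw [h]

/-- **time reversal of the cocycle** -/
theorem Mn_swap (k : ℝ) (m : ℕ) (z : Tor) :
    Mn k m z.swap = Dg * (Mn k m ((Tinv k)^[m] z)).transpose * Dg := by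
  induction m with
  | zero =>
    simp [Dg_mul_Dg]
  | succ m ih =>
    rw [Mn_succ', ih, T_iter_swap, Mn_succ k m, Matrix.transpose_mul,
      Function.iterate_succ_apply', T_Tinv, Am_transpose]
    have e : Am k ((Tinv k)^[m] z).swap = Am k (Tinv k ((Tinv k)^[m] z)) :=
      Am_congr k rfl
    rw [e]
    simp only [Matrix.mul_assoc]
    rw [← Matrix.mul_assoc Dg Dg, Dg_mul_Dg, Matrix.one_mul]

theorem nm_eq (k : ℝ) (n : ℕ) (z : Tor) : nm k n z = max (rn (Mn k n z) 0) (rn (Mn k n z) 1) := by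
  unfold nm
  rw [rr_succ]
  rfl

theorem abs_Mn_swap (k : ℝ) (m : ℕ) (z : Tor) (i j : Fin 2) :
    |Mn k m z.swap i j| = |Mn k m ((Tinv k)^[m] z) j i| := by
  rw [Mn_swap, Matrix.mul_apply, Fin.sum_univ_two, Matrix.mul_apply, Matrix.mul_apply,
    Fin.sum_univ_two, Fin.sum_univ_two]
  simp only [Matrix.transpose_apply]
  unfold Dg
  fin_cases i <;> fin_cases j <;> simp

theorem nm_swap_le (k : ℝ) (m : ℕ) (z : Tor) :
    nm k m z.swap ≤ 2 * nm k m ((Tinv k)^[m] z) := by
  rw [nm_eq, nm_eq]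
  unfold rn
  simp only [abs_Mn_swap]
  have a := le_max_left (|Mn k m ((Tinv k)^[m] z) 0 0| + |Mn k m ((Tinv k)^[m] z) 0 1|)
    (|Mn k m ((Tinv k)^[m] z) 1 0| + |Mn k m ((Tinv k)^[m] z) 1 1|)
  have b := le_max_right (|Mn k m ((Tinv k)^[m] z) 0 0| + |Mn k m ((Tinv k)^[m] z) 0 1|)
    (|Mn k m ((Tinv k)^[m] z) 1 0| + |Mn k m ((Tinv k)^[m] z) 1 1|)
  have p1 := abs_nonneg (Mn k m ((Tinv k)^[m] z) 0 0)
  have p2 := abs_nonneg (Mn k m ((Tinv k)^[m] z) 0 1)
  have p3 := abs_nonneg (Mn k m ((Tinv k)^[m] z) 1 0)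
  have p4 := abs_nonneg (Mn k m ((Tinv k)^[m] z) 1 1)
  refine max_le ?_ ?_ <;> linarith

theorem le_nm_swap (k : ℝ) (m : ℕ) (z : Tor) :
    nm k m ((Tinv k)^[m] z) ≤ 2 * nm k m z.swap := by
  rw [nm_eq, nm_eq]
  unfold rn
  simp only [abs_Mn_swap]
  have a := le_max_left (|Mn k m ((Tinv k)^[m] z) 0 0| + |Mn k m ((Tinv k)^[m] z) 1 0|)
    (|Mn k m ((Tinv k)^[m] z) 0 1| + |Mn k m ((Tinv k)^[m] z) 1 1|)
  have b := le_max_right (|Mn k m ((Tinv k)^[m] z) 0 0| + |Mn k m ((Tinv k)^[m] z) 1 0|)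
    (|Mn k m ((Tinv k)^[m] z) 0 1| + |Mn k m ((Tinv k)^[m] z) 1 1|)
  have p1 := abs_nonneg (Mn k m ((Tinv k)^[m] z) 0 0)
  have p2 := abs_nonneg (Mn k m ((Tinv k)^[m] z) 0 1)
  have p3 := abs_nonneg (Mn k m ((Tinv k)^[m] z) 1 0)
  have p4 := abs_nonneg (Mn k m ((Tinv k)^[m] z) 1 1)
  refine max_le ?_ ?_ <;> linarith

end Crest.Agent.R128.ValNorm
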