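import Mathlib
import Crest.Agent.R128.ValNorm
import Crest.Agent.R128.Hyp

/-!
# Row 128 (helper340): the seam lemmas in the `L²` operator norm
-/

set_option autoImplicit false
open scoped Matrix.Norms.L2Operator
open Matrix Finset
open Crest.AnalysisR.StandardFamily

namespace Crest.Agent.R128.ValNorm

open Crest.Agent.R128 Crest.Agent.R128.TreeSum Crest.Agent.R128.Acc Crest.Agent.R128.Lam0
open Crest.Agent.R128.Hyp

theorem norm_pair (v : E2) : ‖v‖ = nn (v 0, v 1) := by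
  unfold nn
  rw [EuclideanSpace.norm_eq]
  simp [Fin.sum_univ_two]

theorem ap_eq_act (M : M2) (v : E2) : act M (v 0, v 1) = (ap M v 0, ap M v 1) := by
  rw [ap_apply, ap_apply]
  rfl

/-- columns are bounded by the operator norm -/
theorem nn_act_le (M : M2) (a b : ℝ) : nn (act M (a, b)) ≤ ‖M‖ * nn (a, b) := by
  have h := norm_ap_le M (!₂[a, b] : E2)
  rw [norm_pair, norm_pair] at h
  have e : act M (a, b) = (ap M (!₂[a, b] : E2) 0, ap M (!₂[a, b] : E2) 1) := by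
    have := ap_eq_act M (!₂[a, b] : E2)
    simpa using this
  rw [e]
  simpa using h

theorem nn_e1 : nn ((1:ℝ), (0:ℝ)) = 1 := by
  unfold nn
  norm_num

theorem nn_e2 : nn ((0:ℝ), (1:ℝ)) = 1 := by
  unfold nn
  norm_num

theorem nn_fld_le (k : ℝ) (z : Tor) (m : ℕ) : nn (fld k z m) ≤ ‖Mn k m z‖ := by
  have := nn_act_le (Mn k m z) 0 1
  rw [nn_e2, mul_one] at this
  exact this

theorem nn_col_le (k : ℝ) (z : Tor) (m : ℕ) : nn (act (Mn k m z) (1, 0)) ≤ ‖Mn k m z‖ := by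
  have := nn_act_le (Mn k m z) 1 0
  rw [nn_e1, mul_one] at this
  exact this

theorem W_le_l2 (k : ℝ) (z : Tor) (m : ℕ) : W k z m ≤ ‖Mn k m z‖ :=
  (norm_le_nn _).trans (nn_fld_le k z m)

/-- operator norm at most the sum of the norms of the columns -/
theorem l2_le_add (M : M2) : ‖M‖ ≤ nn (act M (1, 0)) + nn (act M (0, 1)) := by
  have h0 : 0 ≤ nn (act M (1, 0)) := nn_nonneg _
  have h1 : 0 ≤ nn (act M (0, 1)) := nn_nonneg _
  refine norm_le_of_ap (by positivity) fun v => ?_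
  have hv0 : |v 0| ≤ ‖v‖ := by
    rw [norm_pair]
    exact abs_fst_le (v 0, v 1)
  have hv1 : |v 1| ≤ ‖v‖ := by
    rw [norm_pair]
    exact abs_snd_le (v 0, v 1)
  have e : ap M v = v 0 • ap M (!₂[1, 0] : E2) + v 1 • ap M (!₂[0, 1] : E2) := by
    ext i
    simp [ap_apply]
    ring
  have n0 : ‖ap M (!₂[1, 0] : E2)‖ = nn (act M (1, 0)) := by
    rw [norm_pair]
    congr 1
    have := ap_eq_act M (!₂[1, 0] : E2)
    simpa using this.symm
  have n1 : ‖ap M (!₂[0, 1] : E2)‖ = nn (act M (0, 1)) := by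
    rw [norm_pair]
    congr 1
    have := ap_eq_act M (!₂[0, 1] : E2)
    simpa using this.symm
  calc ‖ap M v‖ ≤ ‖v 0 • ap M (!₂[1, 0] : E2)‖ + ‖v 1 • ap M (!₂[0, 1] : E2)‖ := by
        rw [e]
        exact norm_add_le _ _
    _ = |v 0| * nn (act M (1, 0)) + |v 1| * nn (act M (0, 1)) := by
        rw [norm_smul, norm_smul, n0, n1, Real.norm_eq_abs, Real.norm_eq_abs]
    _ ≤ ‖v‖ * nn (act M (1, 0)) + ‖v‖ * nn (act M (0, 1)) := by gcongr
    _ = _ := by ring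

theorem nm_le_l2 (k : ℝ) (m : ℕ) (z : Tor) : nm k m z ≤ 2 * ‖Mn k m z‖ := by
  have a5 := nm_le_add k z m
  have a4 : ‖act (Mn k m z) (1, 0)‖ ≤ nn (act (Mn k m z) (1, 0)) := norm_le_nn _
  have a3 := nn_col_le k z m
  have a2 := W_le_l2 k z m
  linarith

theorem l2_le_nm (k : ℝ) (m : ℕ) (z : Tor) : ‖Mn k m z‖ ≤ 4 * nm k m z := by
  have h := l2_le_add (Mn k m z)
  have a1 := norm_act_Mn_le k m z (1, 0)
  have a2 := norm_act_Mn_le k m z (0, 1)
  have e1 : ‖((1:ℝ), (0:ℝ))‖ = 1 := by simp [Prod.norm_def]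
  have e2 : ‖((0:ℝ), (1:ℝ))‖ = 1 := by simp [Prod.norm_def]
  rw [e1, mul_one] at a1
  rw [e2, mul_one] at a2
  have b1 := nn_le_norm (act (Mn k m z) (1, 0))
  have b2 := nn_le_norm (act (Mn k m z) (0, 1))
  linarith

section val

variable {k d : ℝ} {L n : ℕ} {z : Tor}

theorem ValD.l2_le (h : ValD k d L n z) (hk : 100 ≤ k) (hL : 10 ≤ L) (hd0 : 0 < d)
    (hd : d ≤ 1 / 4) {m : ℕ} (hm : m ≤ n + 1) : ‖Mn k m z‖ ≤ 15 * W k z m := by
  have hW1 := (h.wt_succ hk hL hd0 hd hm).2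
  have a2 : nn (fld k z m) ≤ 2 * W k z m := nn_le_norm _
  have a7 := h.col_le hk hL hd0 hd hm
  have a8 := l2_le_add (Mn k m z)
  have e : act (Mn k m z) (0, 1) = fld k z m := rfl
  rw [e] at a8
  linarith

/-- **operator norm and field agree up to `3` in the logarithm, up to time `n + 1`** -/
theorem ValD.log_l2 (h : ValD k d L n z) (hk : 100 ≤ k) (hL : 10 ≤ L) (hd0 : 0 < d)
    (hd : d ≤ 1 / 4) {m : ℕ} (hm : m ≤ n + 1) :
    Real.log (W k z m) ≤ Real.log ‖Mn k m z‖ ∧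
      Real.log ‖Mn k m z‖ ≤ Real.log (W k z m) + 3 := by
  have hW1 := (h.wt_succ hk hL hd0 hd hm).2
  have h1 := W_le_l2 k z m
  have h2 := h.l2_le hk hL hd0 hd hm
  refine ⟨Real.log_le_log (by linarith) h1, ?_⟩
  have h3 : Real.log ‖Mn k m z‖ ≤ Real.log (15 * W k z m) := Real.log_le_log (by linarith) h2
  rw [Real.log_mul (by norm_num) (by linarith)] at h3
  have h4 : Real.log 15 ≤ 3 := by
    have h0 : Real.log 16 = 4 * Real.log 2 := by
      rw [show (16:ℝ) = 2 ^ 4 by norm_num, Real.log_pow]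
      norm_num
    have h5 : Real.log 15 ≤ Real.log 16 := Real.log_le_log (by norm_num) (by norm_num)
    have := Real.log_two_lt_d9
    linarith
  linarith

end val

/-! ### reversal -/

theorem norm_Dg : ‖Dg‖ ≤ 1 := by
  refine norm_le_of_ap (by norm_num) fun v => ?_
  rw [norm_pair, norm_pair, one_mul]
  unfold nn
  apply Real.sqrt_le_sqrt
  rw [ap_apply, ap_apply]
  unfold Dg
  simp

theorem l2_swap_le (k : ℝ) (m : ℕ) (z : Tor) :
    ‖Mn k m z.swap‖ ≤ ‖Mn k m ((Tinv k)^[m] z)‖ := by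
  rw [Mn_swap]
  have ht : ‖(Mn k m ((Tinv k)^[m] z)).transpose‖ = ‖Mn k m ((Tinv k)^[m] z)‖ := by
    have := Matrix.l2_opNorm_conjTranspose (Mn k m ((Tinv k)^[m] z))
    rwa [Matrix.conjTranspose_eq_transpose_of_trivial] at this
  calc ‖Dg * (Mn k m ((Tinv k)^[m] z)).transpose * Dg‖
      ≤ ‖Dg * (Mn k m ((Tinv k)^[m] z)).transpose‖ * ‖Dg‖ := norm_mul_le _ _
    _ ≤ (‖Dg‖ * ‖(Mn k m ((Tinv k)^[m] z)).transpose‖) * ‖Dg‖ := by
        gcongr
        exact norm_mul_le _ _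
    _ ≤ (1 * ‖(Mn k m ((Tinv k)^[m] z)).transpose‖) * 1 := by
        gcongr
        · exact norm_Dg
        · exact norm_Dg
    _ = _ := by rw [one_mul, mul_one, ht]

theorem le_l2_swap (k : ℝ) (m : ℕ) (z : Tor) :
    ‖Mn k m ((Tinv k)^[m] z)‖ ≤ ‖Mn k m z.swap‖ := by
  have hM : (Mn k m ((Tinv k)^[m] z)).transpose = Dg * Mn k m z.swap * Dg := by
    rw [Mn_swap]
    calc (Mn k m ((Tinv k)^[m] z)).transpose
        = (Dg * Dg) * (Mn k m ((Tinv k)^[m] z)).transpose * (Dg * Dg) := by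
          rw [Dg_mul_Dg, Matrix.one_mul, Matrix.mul_one]
      _ = _ := by simp only [Matrix.mul_assoc]
  have ht : ‖(Mn k m ((Tinv k)^[m] z)).transpose‖ = ‖Mn k m ((Tinv k)^[m] z)‖ := by
    have := Matrix.l2_opNorm_conjTranspose (Mn k m ((Tinv k)^[m] z))
    rwa [Matrix.conjTranspose_eq_transpose_of_trivial] at this
  rw [← ht, hM]
  calc ‖Dg * Mn k m z.swap * Dg‖ ≤ ‖Dg * Mn k m z.swap‖ * ‖Dg‖ := norm_mul_le _ _
    _ ≤ (‖Dg‖ * ‖Mn k m z.swap‖) * ‖Dg‖ := by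
        gcongr
        exact norm_mul_le _ _
    _ ≤ (1 * ‖Mn k m z.swap‖) * 1 := by
        gcongr
        · exact norm_Dg
        · exact norm_Dg
    _ = _ := by rw [one_mul, mul_one]

/-- **time reversal preserves the `L²` operator norm** -/
theorem l2_swap (k : ℝ) (m : ℕ) (z : Tor) :
    ‖Mn k m z.swap‖ = ‖Mn k m ((Tinv k)^[m] z)‖ :=
  le_antisymm (l2_swap_le k m z) (le_l2_swap k m z)

theorem Tinv_iter_T_iter (k : ℝ) {m j : ℕ} (h : m ≤ j) (z : Tor) :
    (Tinv k)^[m] ((T k)^[j] z) = (T k)^[j - m] z := by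
  induction m with
  | zero => simp
  | succ m ih =>
    rw [Function.iterate_succ_apply', ih (by omega),
      show j - m = (j - (m + 1)) + 1 by omega, Function.iterate_succ_apply', Tinv_T]

/-- the reversed orbit of a point of the root orbit: `‖A_{j-m → j}‖` -/
theorem l2_swap_orbit (k : ℝ) {m j : ℕ} (h : m ≤ j) (z : Tor) :
    ‖Mn k m ((T k)^[j] z).swap‖ = ‖Mn k m ((T k)^[j - m] z)‖ := by
  rw [l2_swap, Tinv_iter_T_iter k h]

/-- the distance of the root orbit is the logarithm of the norm of the transfer matrix -/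
theorem dist_Mn (k : ℝ) (z : Tor) {i j : ℕ} (h : i ≤ j) :
    Hyp.dist (fun i => Mn k i z) i j = Real.log ‖Mn k (j - i) ((T k)^[i] z)‖ := by
  unfold Hyp.dist
  simp only
  have e : Mn k j z = Mn k (j - i) ((T k)^[i] z) * Mn k i z := by
    rw [← Mn_add]
    congr 1
    omega
  rw [e, Matrix.mul_assoc, Matrix.mul_nonsing_inv _ (by rw [det_Mn]; exact isUnit_one),
    Matrix.mul_one]

/-- the other orientation: seen from `j` backward, reversed start -/
theorem dist_Mn_rev (k : ℝ) (z : Tor) {m j : ℕ} (h : m ≤ j) :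
    Hyp.dist (fun i => Mn k i z) (j - m) j = Real.log ‖Mn k m ((T k)^[j] z).swap‖ := by
  rw [dist_Mn k z (Nat.sub_le j m), l2_swap_orbit k h]
  congr 3
  omega

end Crest.Agent.R128.ValNorm
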