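import Mathlib
import Crest.Agent.R128.ValNorm2
import Crest.Agent.R128.V1Abs

/-!
# Row 128 (helper340), leaf (P2) of V1: a valid start has a clean profile (`V1.CleanF`)
-/

set_option autoImplicit false
open scoped Matrix.Norms.L2Operator
open Matrix Finset
open Crest.AnalysisR.StandardFamily

namespace Crest.Agent.R128.ValNorm

open Crest.Agent.R128 Crest.Agent.R128.TreeSum Crest.Agent.R128.Acc Crest.Agent.R128.Lam0
open Crest.Agent.R128.Hyp

/-- the distance on the times of the root orbit -/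
noncomputable def Dd (k : ℝ) (z : Tor) : ℕ → ℕ → ℝ := Hyp.dist (fun n => Mn k n z)

theorem Dd_eq (k : ℝ) (z : Tor) : Dd k z = Hyp.dist (fun n => Mn k n z) := rfl

theorem Dd_symm (k : ℝ) (z : Tor) (i j : ℕ) : Dd k z i j = Dd k z j i := by
  unfold Dd Hyp.dist
  simp only
  have hu : ∀ i, IsUnit (Mn k i z).det := fun i => by rw [det_Mn]; exact isUnit_one
  have hinv : (Mn k j z * (Mn k i z)⁻¹)⁻¹ = Mn k i z * (Mn k j z)⁻¹ := by
    rw [Matrix.mul_inv_rev, Matrix.nonsing_inv_nonsing_inv _ (hu i)]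
  rw [← hinv, ninv (det_mul_inv (det_Mn k j z) (det_Mn k i z))]

theorem Dd_add (k : ℝ) (z : Tor) (v m : ℕ) :
    Dd k z v (v + m) = Real.log ‖Mn k m ((T k)^[v] z)‖ := by
  unfold Dd
  rw [dist_Mn k z (Nat.le_add_right v m)]
  congr 3
  omega

theorem Dd_sub (k : ℝ) (z : Tor) {m j : ℕ} (h : m ≤ j) :
    Dd k z j (j - m) = Real.log ‖Mn k m ((T k)^[j] z).swap‖ := by
  rw [Dd_symm]
  exact dist_Mn_rev k z h

section val

variable {k d : ℝ} {L n : ℕ} {z y : Tor}

/-- abstract form: a distance profile which is the logarithm of the operator norms of a valid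
start is clean -/
theorem ValD.cleanF_of (h : ValD k d L n y) (hk : 100 ≤ k) (hL : 10 ≤ L) (hd0 : 0 < d)
    (hd : d ≤ 1 / 4) {D : ℕ → ℕ → ℝ} {v : ℕ}
    (hD : ∀ m ≤ n, D v (v + m) = Real.log ‖Mn k m y‖) {c : ℝ} (hc : 3 ≤ c) :
    V1.CleanF D d (d / 4) c (Real.log k * (L / 2)) L v (v + n) := by
  have hk0 : 0 < k := by linarith
  have one : ∀ m ≤ n, 1 ≤ W k y m := fun m hm => h.one_le hk hd hm
  refine ⟨?_, ?_, ?_⟩
  · intro hLn
    have hLn' : L ≤ n := by omega
    rw [hD L hLn']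
    have h1 := (h.log_l2 hk hL hd0 hd (m := L) (by omega)).1
    have h2 := h.W_L hk
    have h3 : (L : ℝ) * ((1/2 : ℝ) * Real.log k) ≤ Real.log (W k y L) := by
      rw [← Real.log_rpow hk0, ← Real.log_pow]
      exact Real.log_le_log (by positivity) h2
    calc Real.log k * (L / 2) = (L : ℝ) * ((1/2 : ℝ) * Real.log k) := by ring
      _ ≤ _ := h3
      _ ≤ _ := h1
  · intro i j hvi hij hLj hj
    obtain ⟨a, rfl⟩ := Nat.exists_eq_add_of_le hvi
    obtain ⟨b, rfl⟩ := Nat.exists_eq_add_of_le (hvi.trans hij)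
    have ha : a ≤ b := by omega
    have hb : b ≤ n := by omega
    rw [hD a (by omega), hD b hb]
    have h1 := (h.log_l2 hk hL hd0 hd (m := b) (by omega)).1
    have h2 := (h.log_l2 hk hL hd0 hd (m := a) (by omega)).2
    have h3 := h.all hk hd0.le hd ha hb
    have h4 : (1 - d) * Real.log (W k y a) ≤ Real.log (W k y b) := by
      rw [← Real.log_rpow (by linarith [one a (by omega)])]
      exact Real.log_le_log (Real.rpow_pos_of_pos (by linarith [one a (by omega)]) _) h3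
    have h5 : (1 - d) * Real.log ‖Mn k a y‖ ≤ (1 - d) * (Real.log (W k y a) + 3) :=
      mul_le_mul_of_nonneg_left h2 (by linarith)
    linarith
  · intro j hLj hj
    obtain ⟨b, rfl⟩ := Nat.exists_eq_add_of_le (show v ≤ j by omega)
    obtain ⟨i, hib, hi⟩ := h.c3 b (by omega) (by omega)
    refine ⟨v + i, by omega, by omega, ?_⟩
    rw [hD i (by omega)]
    have h1 := (h.log_l2 hk hL hd0 hd (m := i) (by omega)).1
    have hi1 := one i (by omega)
    have e : ((v + b - v : ℕ) : ℝ) = b := by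
      congr 1
      omega
    rw [e]
    refine hi.trans ?_
    rw [Real.rpow_def_of_pos (by linarith)]
    apply Real.exp_le_exp.mpr
    have h2 : d / 4 * Real.log (W k y i) ≤ d / 4 * Real.log ‖Mn k i y‖ :=
      mul_le_mul_of_nonneg_left h1 (by linarith)
    linarith

/-- **(P2) forward** -/
theorem cleanF_forward {v : ℕ} (h : ValD k d L n ((T k)^[v] z)) (hk : 100 ≤ k) (hL : 10 ≤ L)
    (hd0 : 0 < d) (hd : d ≤ 1 / 4) {c : ℝ} (hc : 3 ≤ c) :
    V1.CleanF (Hyp.dist (fun n => Mn k n z)) d (d / 4) c (Real.log k * (L / 2)) L v (v + n) := by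
  rw [← Dd_eq]
  exact h.cleanF_of hk hL hd0 hd (fun m _ => Dd_add k z v m) hc

theorem dist_forward {v : ℕ} (h : ValD k d L n ((T k)^[v] z)) (hk : 100 ≤ k) (hL : 10 ≤ L)
    (hd0 : 0 < d) (hd : d ≤ 1 / 4) {m : ℕ} (hm : m ≤ n + 1) :
    Real.log (W k ((T k)^[v] z) m) ≤ Hyp.dist (fun n => Mn k n z) v (v + m) ∧
      Hyp.dist (fun n => Mn k n z) v (v + m) ≤ Real.log (W k ((T k)^[v] z) m) + 3 := by
  rw [← Dd_eq, Dd_add]
  exact h.log_l2 hk hL hd0 hd hm

/-- **(P2) backward**: the reversed start, distances `i i' ↦ D (N - i) (N - i')` -/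
theorem cleanF_backward {N j : ℕ} (h : ValD k d L n ((T k)^[j] z).swap) (hnj : n ≤ j) (hjN : j ≤ N)
    (hk : 100 ≤ k) (hL : 10 ≤ L) (hd0 : 0 < d) (hd : d ≤ 1 / 4) {c : ℝ} (hc : 3 ≤ c) :
    V1.CleanF (fun i i' => Hyp.dist (fun n => Mn k n z) (N - i) (N - i')) d (d / 4) c
      (Real.log k * (L / 2)) L (N - j) (N - j + n) := by
  rw [← Dd_eq]
  refine h.cleanF_of hk hL hd0 hd (fun m hm => ?_) hc
  show Dd k z (N - (N - j)) (N - (N - j + m)) = _
  rw [show N - (N - j) = j by omega, show N - (N - j + m) = j - m by omega]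
  exact Dd_sub k z (hm.trans hnj)

theorem dist_backward {j : ℕ} (h : ValD k d L n ((T k)^[j] z).swap) (hk : 100 ≤ k)
    (hL : 10 ≤ L) (hd0 : 0 < d) (hd : d ≤ 1 / 4) {m : ℕ} (hm : m ≤ n + 1) (hmj : m ≤ j) :
    Real.log (W k ((T k)^[j] z).swap m) ≤ Hyp.dist (fun n => Mn k n z) j (j - m) ∧
      Hyp.dist (fun n => Mn k n z) j (j - m) ≤ Real.log (W k ((T k)^[j] z).swap m) + 3 := by
  rw [← Dd_eq, Dd_sub k z hmj]
  exact h.log_l2 hk hL hd0 hd hm

end val

end Crest.Agent.R128.ValNorm
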