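import Mathlib
import Crest.Agent.R128.V1Core
import Crest.Agent.R128.ValClean
import Crest.Agent.R128.TopCrit
import Crest.Agent.R128.NestedInst
import Crest.Agent.R128.Rev
import Crest.Agent.R128.Skel

set_option autoImplicit false

/-!
Row 128, MASTER v2, node V1 (helper337): the charging inequality on the orbits of the standard map.
-/

open MeasureTheory Finset
open scoped Matrix.Norms.L2Operator

namespace Crest.Agent.R128.V1

open Crest.Agent.R128.Acc Crest.Agent.R128.Lam0 Crest.Agent.R128.ValNorm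
  Crest.Agent.R128.Charge

variable {k : ℝ} {P L n n1 N : ℕ} {z : Tor}

theorem val_mono (h : Skel.Val k P L z n) {m : ℕ} (hm : m ≤ n) : Skel.Val k P L z m :=
  ⟨fun a h1 h2 => h.cl a h1 (by omega), fun i j h1 h2 h3 => h.v2 i j h1 h2 (by omega),
    fun j h1 h2 => h.v3 j h1 (by omega)⟩

theorem val_zero : Skel.Val k P L z 0 :=
  ⟨fun a _ h2 => absurd h2 (by omega), fun i j h1 h2 h3 => absurd h3 (by omega),
    fun j h1 h2 => absurd h2 (by omega)⟩

theorem toValD (hP : 2 ≤ P) (hL : 1000 ≤ L) (h : Skel.Val k P L z n) (hLn : L ≤ n) :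
    ValD k (1 / P) L n z where
  c1 m hm := h.cl m hm (by omega)
  c2 i j h1 h2 h3 := by
    have hP0 : (0:ℝ) < P := by exact_mod_cast (by omega : 0 < P)
    have h4 := h.v2 i j (by omega) h2 h3
    have e1 : W k z i ^ (1 - 1 / (P:ℝ)) = (W k z i ^ (P - 1)) ^ (1 / (P:ℝ)) := by
      rw [← Real.rpow_natCast, ← Real.rpow_mul (W_nonneg k z i)]
      congr 1
      rw [Nat.cast_sub (by omega)]
      field_simp
      push_cast
      ring
    have e2 : (W k z j ^ P) ^ (1 / (P:ℝ)) = W k z j := by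
      rw [← Real.rpow_natCast, ← Real.rpow_mul (W_nonneg k z j)]
      rw [mul_one_div_cancel hP0.ne', Real.rpow_one]
    rw [e1, ← e2]
    exact Real.rpow_le_rpow (pow_nonneg (W_nonneg k z i) _) h4 (by positivity)
  c3 j h1 h2 := by
    have hP0 : (0:ℝ) < P := by exact_mod_cast (by omega : 0 < P)
    obtain ⟨i, h3, h4, h5⟩ := h.v3 j (by omega) h2
    refine ⟨i, h4, ?_⟩
    have e1 : ((j : ℝ) ^ (4 * P)) ^ (1 / (P:ℝ) / 4) = j := by
      rw [← Real.rpow_natCast, ← Real.rpow_mul (Nat.cast_nonneg j)]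
      have : ((4 * P : ℕ) : ℝ) * (1 / (P:ℝ) / 4) = 1 := by
        push_cast
        field_simp
      rw [this, Real.rpow_one]
    rw [← e1]
    exact Real.rpow_le_rpow (by positivity) h5 (by positivity)

theorem first_fail (h : ¬ Skel.Val k P L z n) :
    ∃ n1, n1 < n ∧ Skel.Val k P L z n1 ∧ ¬ Skel.Val k P L z (n1 + 1) := by
  classical
  have hex : ∃ m, ¬ Skel.Val k P L z m := ⟨n, h⟩
  have h1 := Nat.find_spec hex
  have h2 : Nat.find hex ≤ n := Nat.find_min' hex h
  have h3 : Nat.find hex ≠ 0 := by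
    intro h0
    rw [h0] at h1
    exact h1 val_zero
  refine ⟨Nat.find hex - 1, by omega, ?_, ?_⟩
  · by_contra hcon
    exact Nat.find_min hex (by omega) hcon
  · have e : Nat.find hex - 1 + 1 = Nat.find hex := by omega
    rw [e]
    exact h1

theorem fail_cases (h : Skel.Val k P L z n1) (h' : ¬ Skel.Val k P L z (n1 + 1)) :
    (∃ m, m < L ∧ m ≤ n1 ∧ |V k ((T k)^[m] z).2| < k ^ ((2 : ℝ) / 3)) ∨
    ((∀ m, m < L → m ≤ n1 → k ^ ((2 : ℝ) / 3) ≤ |V k ((T k)^[m] z).2|) ∧
      ((∃ i, 1000 ≤ i ∧ i ≤ n1 + 1 ∧ ‖fld k z (n1 + 1)‖ ^ P < ‖fld k z i‖ ^ (P - 1)) ∨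
       (1000 ≤ n1 + 1 ∧ ∀ i, 1000 ≤ i → i ≤ n1 + 1 →
          ‖fld k z i‖ < ((n1 + 1 : ℕ) : ℝ) ^ (4 * P)))) := by
  by_cases hA : ∃ m, m < L ∧ m ≤ n1 ∧ |V k ((T k)^[m] z).2| < k ^ ((2 : ℝ) / 3)
  · exact Or.inl hA
  right
  push Not at hA
  refine ⟨hA, ?_⟩
  by_contra hcon
  push Not at hcon
  obtain ⟨hc1, hc2⟩ := hcon
  apply h'
  refine ⟨fun m h1 h2 => hA m h1 (by omega), ?_, ?_⟩
  · intro i j h1 h2 h3
    rcases Nat.lt_or_ge n1 j with h4 | h4
    · obtain rfl : j = n1 + 1 := by omega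
      exact hc1 i h1 h2
    · exact h.v2 i j h1 h2 h4
  · intro j h1 h2
    rcases Nat.lt_or_ge n1 j with h4 | h4
    · obtain rfl : j = n1 + 1 := by omega
      obtain ⟨i, h5, h6, h7⟩ := hc2 h1
      exact ⟨i, h5, h6, h7⟩
    · exact h.v3 j h1 h4

theorem sqrt_pow {k : ℝ} (hk : 0 ≤ k) : (k ^ (1 / 2 : ℝ)) ^ 1000 = k ^ 500 := by
  rw [← Real.rpow_natCast, ← Real.rpow_mul hk, ← Real.rpow_natCast]
  norm_num

/-- the field is large after `m ≥ 1000` regular digits -/
theorem W_big (hk : 100 ≤ k) {M : ℕ}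
    (c1 : ∀ m, m < M → k ^ ((2 : ℝ) / 3) ≤ |V k ((T k)^[m] z).2|)
    {m : ℕ} (h1 : 1000 ≤ m) (h2 : m ≤ M) : k ^ 500 ≤ W k z m := by
  have h3 := W_pow (ValD.three hk) c1 h2
  refine le_trans ?_ h3
  rw [← sqrt_pow (by linarith)]
  have h4 := beta_ge hk
  have h5 := ten_le hk
  calc (k ^ (1 / 2 : ℝ)) ^ 1000 ≤ (k ^ (1 / 2 : ℝ)) ^ m :=
        pow_le_pow_right₀ (by linarith) h1
    _ ≤ _ := pow_le_pow_left₀ (by linarith) (by linarith) m

theorem W_mono' (hk : 100 ≤ k) {M : ℕ}
    (c1 : ∀ m, m < M → k ^ ((2 : ℝ) / 3) ≤ |V k ((T k)^[m] z).2|)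
    {i j : ℕ} (hij : i ≤ j) (hj : j ≤ M) : W k z i ≤ W k z j := by
  have h1 := W_mono (ValD.three hk) c1 hij hj
  have h2 := beta_ge hk
  have h3 := ten_le hk
  have h4 : (1:ℝ) ≤ (k ^ (2/3 : ℝ) - 1 / 2) ^ (j - i) := one_le_pow₀ (by linarith)
  nlinarith [W_nonneg k z i]

/-- failure of the duration clause is a `LG` event -/
theorem toLG (hk : 100 ≤ k) (hP : 2 ≤ P) (hP' : P ≤ 1000) (hL : 1000 ≤ L) (hkL : (L : ℝ) ^ 8 ≤ k)
    (h : Skel.Val k P L z n1)
    (c1 : ∀ m, m < L → m ≤ n1 → k ^ ((2 : ℝ) / 3) ≤ |V k ((T k)^[m] z).2|)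
    (hLn : 1000 ≤ n1 + 1) (hP100 : 100 ≤ P)
    (hf : ∀ i, 1000 ≤ i → i ≤ n1 + 1 → ‖fld k z i‖ < ((n1 + 1 : ℕ) : ℝ) ^ (4 * P)) :
    z ∈ Skel.LG k L := by
  have hk1 : 1 ≤ k := by linarith
  have hL1 : (1:ℝ) ≤ L := by exact_mod_cast (by omega : 1 ≤ L)
  -- `L ^ (4 P) ≤ k ^ 500`
  have hLk : (L : ℝ) ^ (4 * P) ≤ k ^ 500 := by
    calc (L : ℝ) ^ (4 * P) ≤ (L:ℝ) ^ (8 * 500) := pow_le_pow_right₀ hL1 (by omega)
      _ = ((L:ℝ) ^ 8) ^ 500 := by rw [pow_mul]
      _ ≤ k ^ 500 := pow_le_pow_left₀ (by positivity) hkL _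
  have hn : L < n1 + 1 := by
    by_contra hcon
    push Not at hcon
    have h1 := W_big (z := z) hk (M := n1 + 1) (fun m hm => c1 m (by omega) (by omega))
      hLn le_rfl
    have h2 := hf (n1 + 1) hLn le_rfl
    have h3 : ((n1 + 1 : ℕ) : ℝ) ^ (4 * P) ≤ (L : ℝ) ^ (4 * P) :=
      pow_le_pow_left₀ (Nat.cast_nonneg _) (by exact_mod_cast hcon) _
    unfold W at h1
    linarith
  have c1' : ∀ m, m < L → k ^ ((2 : ℝ) / 3) ≤ |V k ((T k)^[m] z).2| :=
    fun m hm => c1 m hm (by omega)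
  have hWL := W_big (z := z) hk c1' (m := L) hL le_rfl
  have hD := toValD hP hL h (by omega : L ≤ n1)
  have hPr : (1 : ℝ) / P ≤ 1 / 4 := by
    have : (4:ℝ) ≤ P := by exact_mod_cast (by omega : 4 ≤ P)
    exact one_div_le_one_div_of_le (by norm_num) this
  have hPr0 : (0:ℝ) ≤ 1 / P := by positivity
  have hPr1 : (1 : ℝ) / P ≤ 1 / 100 := by
    have : (100:ℝ) ≤ P := by exact_mod_cast hP100
    exact one_div_le_one_div_of_le (by norm_num) this
  have one : ∀ m ≤ n1, 1 ≤ W k z m := fun m hm => hD.one_le hk hPr hm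
  refine ⟨?_, n1 + 1, hn, ?_, ?_⟩
  · rintro ⟨m, hm1, hm2⟩
    exact absurd hm2 (not_lt.mpr (c1' m hm1))
  · have e : n1 + 1 - 1 = n1 := by omega
    rw [e]
    refine ⟨W_big (z := z) hk c1' le_rfl hL, ?_, ?_⟩
    · intro i j hi hij hj
      have h4 := hD.all hk hPr0 hPr hij hj
      have h5 := one i (by omega)
      have h6 := one j hj
      have h7 := Real.log_le_log (by positivity) h4
      rw [Real.log_rpow (by linarith)] at h7
      have h8 := Real.log_nonneg h6
      have h9 := Real.log_nonneg h5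
      have h12 : (99 / 100 : ℝ) * Real.log (W k z i) ≤ (1 - 1 / (P:ℝ)) * Real.log (W k z i) :=
        mul_le_mul_of_nonneg_right (by linarith) h9
      have h10 : Real.log (W k z i ^ 89) ≤ Real.log (W k z j ^ 90) := by
        rw [Real.log_pow, Real.log_pow]
        push_cast
        linarith
      have h11 := (Real.log_le_log_iff (by positivity) (by positivity)).mp h10
      exact h11
    · intro j hj1 hj2
      obtain ⟨i, h5, h6, h7⟩ := h.v3 j hj1 hj2
      refine ⟨i, h5, h6, ?_⟩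
      have h8 : (1:ℝ) ≤ j := by exact_mod_cast (by omega : 1 ≤ j)
      have h9 : (j:ℝ) ^ 400 ≤ (j:ℝ) ^ (4 * P) := pow_le_pow_right₀ h8 (by omega)
      have : (0:ℝ) ≤ ‖fld k z i‖ := norm_nonneg _
      linarith
  · intro i hi1 hi2
    have hp : (0:ℝ) ≤ ((n1 + 1 : ℕ) : ℝ) ^ 4000 := by positivity
    have h1 := hf i hi1 hi2.le
    have h2 : ((n1 + 1 : ℕ) : ℝ) ^ (4 * P) ≤ ((n1 + 1 : ℕ) : ℝ) ^ 4000 :=
      pow_le_pow_right₀ (by exact_mod_cast (by omega : 1 ≤ n1 + 1)) (by omega)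
    linarith

/-- the drawdown alternative, in terms of the distances -/
theorem drop_of (hk : 100 ≤ k) (hP : 100 ≤ P) (hL : 1000 ≤ L) (h : Skel.Val k P L z n1)
    (c1 : ∀ m, m < L → m ≤ n1 → k ^ ((2 : ℝ) / 3) ≤ |V k ((T k)^[m] z).2|)
    {i : ℕ} (hi1 : 1000 ≤ i) (hi2 : i ≤ n1 + 1)
    (hlt : ‖fld k z (n1 + 1)‖ ^ P < ‖fld k z i‖ ^ (P - 1)) :
    ∃ i', L ≤ i' ∧ i' ≤ n1 ∧ ValD k (1 / P) L n1 z ∧
      Real.log (W k z (n1 + 1)) ≤ (1 - 1 / (P:ℝ)) * Real.log (W k z i') := by
  have hP0 : (0:ℝ) < P := by exact_mod_cast (by omega : 0 < P)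
  have hPr : (1 : ℝ) / P ≤ 1 / 4 := by
    have : (4:ℝ) ≤ P := by exact_mod_cast (by omega : 4 ≤ P)
    exact one_div_le_one_div_of_le (by norm_num) this
  have key : 1 ≤ W k z (n1 + 1) → W k z (n1 + 1) < W k z i := by
    intro h1
    by_contra hcon
    push Not at hcon
    have h2 : ‖fld k z i‖ ^ (P - 1) ≤ ‖fld k z (n1 + 1)‖ ^ (P - 1) :=
      pow_le_pow_left₀ (norm_nonneg _) hcon _
    have h3 : ‖fld k z (n1 + 1)‖ ^ (P - 1) ≤ ‖fld k z (n1 + 1)‖ ^ P :=
      pow_le_pow_right₀ h1 (by omega)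
    linarith
  rcases Nat.lt_or_ge n1 L with hn | hn
  · exfalso
    have h0 := W_big (z := z) hk (M := n1 + 1) (fun m hm => c1 m (by omega) (by omega))
      (m := n1 + 1) (by omega) le_rfl
    have h1 : (1:ℝ) ≤ k ^ 500 := one_le_pow₀ (by linarith)
    have h2 := key (h1.trans h0)
    have h3 := W_mono' (z := z) hk (M := n1 + 1) (fun m hm => c1 m (by omega) (by omega)) hi2 le_rfl
    linarith
  · have c1' : ∀ m, m < L → k ^ ((2 : ℝ) / 3) ≤ |V k ((T k)^[m] z).2| :=
      fun m hm => c1 m hm (by omega)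
    have hD := toValD (by omega) hL h hn
    have h1 := (hD.wt_succ hk (by omega) (by positivity) hPr (le_refl (n1 + 1))).2
    have h2 := key h1
    have hi3 : i ≤ n1 := by
      rcases Nat.lt_or_ge n1 i with h3 | h3
      · exfalso
        obtain rfl : i = n1 + 1 := by omega
        exact lt_irrefl _ h2
      · exact h3
    -- replace `i` by `max i L`
    obtain ⟨i', h3, h4, h5⟩ : ∃ i', L ≤ i' ∧ i' ≤ n1 ∧ W k z i ≤ W k z i' := by
      rcases Nat.lt_or_ge i L with h6 | h6
      · exact ⟨L, le_rfl, hn, W_mono' hk c1' h6.le le_rfl⟩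
      · exact ⟨i, h6, hi3, le_rfl⟩
    refine ⟨i', h3, h4, hD, ?_⟩
    have h6 := hD.one_le hk hPr hi3
    have h7 := Real.log_le_log (by unfold W at h1; positivity) hlt.le
    rw [Real.log_pow, Real.log_pow, Nat.cast_sub (by omega)] at h7
    push_cast at h7
    have h8 := Real.log_le_log (by linarith) h5
    have hd0 : (0:ℝ) ≤ 1 - 1 / (P:ℝ) := by linarith
    have h9 : Real.log (W k z (n1 + 1)) ≤ (1 - 1 / (P:ℝ)) * Real.log (W k z i) := by
      have h10 : (P:ℝ) * Real.log (W k z (n1 + 1)) ≤ P * ((1 - 1 / (P:ℝ)) * Real.log (W k z i)) := by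
        have e : (P:ℝ) * ((1 - 1 / (P:ℝ)) * Real.log (W k z i)) = (P - 1) * Real.log (W k z i) := by
          field_simp
        rw [e]
        exact h7
      exact le_of_mul_le_mul_left h10 hP0
    exact h9.trans (mul_le_mul_of_nonneg_left h8 hd0)

/-- the near critical times -/
def crit (k : ℝ) (z : Tor) (m : ℕ) : Prop := |V k ((T k)^[m] z).2| < k ^ ((2 : ℝ) / 3)

/-- the base times -/
def base (k : ℝ) (L N : ℕ) (z : Tor) (v : ℕ) : Prop :=
  (∃ m, m ≤ N ∧ v ≤ m + L ∧ m ≤ v + L ∧ crit k z m) ∨ (T k)^[v] z ∈ Skel.LG k L ∨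
    ((T k)^[v] z).swap ∈ Skel.LG k L

theorem swap_digit (k : ℝ) (z : Tor) {v m : ℕ} (hm : m < v) :
    V k ((T k)^[m] ((T k)^[v] z).swap).2 = V k ((T k)^[v - 1 - m] z).2 := by
  rw [Rev.digit_rev k hm.le]
  have e : v - m = (v - 1 - m) + 1 := by omega
  rw [e, Rev.fst_iter_succ]

theorem rv_dist (k : ℝ) (z : Tor) {v m : ℕ} (hv : v ≤ N) :
    rv N (Hyp.dist (fun n => Mn k n z)) (N - v) (N - v + m) =
      Hyp.dist (fun n => Mn k n z) v (v - m) := by
  unfold rv
  have e1 : N - (N - v) = v := by omega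
  have e2 : N - (N - v + m) = v - m := by omega
  rw [e1, e2]

theorem log_const_le {k : ℝ} (hk : Real.exp 20 ≤ k) : 20 ≤ Real.log k := by
  rw [Real.le_log_iff_exp_le (lt_of_lt_of_le (Real.exp_pos _) hk)]
  exact hk

theorem Bk_le {k : ℝ} (hk : 100 ≤ k) : NestedInst.Bk k ≤ Real.log k + 3 := by
  have h1 : NestedInst.Bk k ≤ Real.log (20 * k) := by
    unfold NestedInst.Bk
    apply Real.log_le_log
    · have := Real.pi_pos
      positivity
    · have := Real.pi_lt_d2
      nlinarith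
  rw [Real.log_mul (by norm_num) (by linarith)] at h1
  have h2 : Real.log 20 ≤ 3 := by
    rw [Real.log_le_iff_le_exp (by norm_num)]
    have h3 := Real.exp_one_gt_d9
    have h4 : Real.exp 3 = Real.exp 1 ^ 3 := by
      rw [← Real.exp_nat_mul]
      norm_num
    rw [h4]
    have h5 : (2.7182818283:ℝ) ^ 3 ≤ Real.exp 1 ^ 3 := pow_le_pow_left₀ (by norm_num) h3.le 3
    norm_num at h5
    linarith
  linarith

theorem data (hk : Real.exp 20 ≤ k) (hk' : 100 ≤ k) (hP : 100 ≤ P) (hP' : P ≤ 1000)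
    (hL : 300000 ≤ L) (hkL : (L : ℝ) ^ 8 ≤ k) (N : ℕ) (z : Tor) :
    Data (Hyp.dist (fun n => Mn k n z)) (fun m => bt (rr k z) m) N L (NestedInst.Bk k) (1 / P)
      (1 / P / 4) 10 (Real.log 2) (Real.log k * (L / 2)) (Real.log k) (Real.log (3 + 2 * Real.pi * k))
      (crit k z) (base k L N z) (fun v n => Skel.Val k P L ((T k)^[v] z) n)
      (fun v n => Skel.Val k P L ((T k)^[v] z).swap n) := by
  have hP0 : (0:ℝ) < P := by exact_mod_cast (by omega : 0 < P)
  have hPr : (1 : ℝ) / P ≤ 1 / 4 := by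
    have : (4:ℝ) ≤ P := by exact_mod_cast (by omega : 4 ≤ P)
    exact one_div_le_one_div_of_le (by norm_num) this
  have hPr2 : (1 : ℝ) / P ≤ 1 / 50 := by
    have : (50:ℝ) ≤ P := by exact_mod_cast (by omega : 50 ≤ P)
    exact one_div_le_one_div_of_le (by norm_num) this
  have hPr3 : (1 : ℝ) / 1000 ≤ 1 / P := by
    have : (P:ℝ) ≤ 1000 := by exact_mod_cast hP'
    exact one_div_le_one_div_of_le hP0 this
  have hPp : (0:ℝ) < 1 / P := by positivity
  have hlk := log_const_le hk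
  have hLr : (300000:ℝ) ≤ L := by exact_mod_cast hL
  have hbG : 150 * Real.log k ≤ 1 / P * (Real.log k * (L / 2)) := by
    have h1 : 1 / 1000 * (Real.log k * (L / 2)) ≤ 1 / P * (Real.log k * (L / 2)) :=
      mul_le_mul_of_nonneg_right hPr3 (by positivity)
    nlinarith
  exact {
    hyp := by
      refine Hyp.isHyp (fun i => det_Mn k i z) (fun i => ?_)
      have h1 := Dd_add k z i 1
      unfold Dd Hyp.dist at h1
      simp only at h1
      rw [h1]
      have h2 : Mn k 1 ((T k)^[i] z) = Am k ((T k)^[i] z) := by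
        rw [show (1:ℕ) = 0 + 1 from rfl, Mn_succ, Mn_zero, one_mul]
      rw [h2]
      have h3 := NestedInst.norm_Am_le (k := k) (by linarith) ((T k)^[i] z)
      have h4 := Hyp.one_le_norm (det_Am k ((T k)^[i] z))
      exact Real.log_le_log (by linarith) h3
    near := fun m => by
      have h1 := Dd_add k z 0 m
      rw [Dd_eq, Nat.zero_add] at h1
      rw [h1]
      simpa using NestedInst.near_bt k m z
    f0 := fun m => bt_nonneg (rr_pos k z) (rr_h4 k z) m
    step := fun m => by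
      have hV : ∀ n, 0 ≤ dg k z n := fun n => abs_nonneg _
      have hl : ∀ n, Real.log (1 + dg k z n) ≤ Real.log (3 + 2 * Real.pi * k) := by
        intro n
        have := dg_le k (by linarith) z n
        have := hV n
        exact Real.log_le_log (by linarith) (by linarith)
      have h1 := bt_succ_le hV (rr_pos k z) (rr_h2 k z) hl m
      have h2 := bt_le_succ hV (rr_pos k z) (rr_h3 k z) hl m
      rw [abs_le]
      constructor <;> linarith
    hκ := Real.log_pos (by linarith)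
    hB := by
      have := (NestedInst.log_two_le_Bk (k := k) (by linarith)).1
      linarith
    hc0 := Real.log_nonneg one_le_two
    hb0 := hPp
    hb := hPr2
    hb'0 := by positivity
    hb' := le_rfl
    hc := by norm_num
    hG := by
      have h1 := Bk_le hk'
      have h3 : Real.log 2 < 0.6931471808 := Real.log_two_lt_d9
      linarith
    hGκ := by linarith
    hL := by omega
    top := fun i j l t hC h1 h2 h3 => by
      have h4 : (2:ℝ) < k ^ ((2:ℝ)/3) := by
        have := beta_ge hk'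
        have := ten_le hk'
        linarith
      rcases TopCrit.topcrit hC h1 h2 h3 with h | h
      · exact Or.inl (lt_of_le_of_lt h h4)
      · exact Or.inr ⟨by omega, lt_of_le_of_lt h.2 h4⟩
    f1 := fun v n hvn h => by
      rcases Nat.lt_or_ge n L with hn | hn
      · exact ⟨fun h1 => absurd h1 (by omega), fun i j h1 h2 h3 h4 => absurd h3 (by omega),
          fun j h1 h2 => absurd h1 (by omega)⟩
      · exact cleanF_forward (toValD (by omega) (by omega) h hn) hk' (by omega) hPp hPr (by norm_num)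
    f2 := fun v n hvn h m h1 h2 h3 h4 => by
      have h5 := h.cl (m - v) (by omega) (by omega)
      rw [← Function.iterate_add_apply, show m - v + v = m by omega] at h5
      exact absurd h4 (not_lt.mpr h5)
    fm := fun v n m hmn h => val_mono h hmn
    f3 := fun v n hvn h => by
      obtain ⟨n1, hn1, h1, h2⟩ := first_fail h
      rcases fail_cases h1 h2 with ⟨m, hm1, hm2, hm3⟩ | ⟨c1, h3 | h3⟩
      · left; left
        refine ⟨m + v, by omega, by omega, by omega, ?_⟩
        unfold crit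
        rw [Function.iterate_add_apply]
        exact hm3
      · obtain ⟨i, hi1, hi2, hi3⟩ := h3
        obtain ⟨i', h3, h4, hD, h5⟩ := drop_of hk' hP (by omega) h1 c1 hi1 hi2 hi3
        right
        refine ⟨n1, hn1, cleanF_forward hD hk' (by omega) hPp hPr (by norm_num),
          i', h3, h4, ?_⟩
        have h6 := dist_forward (v := v) hD hk' (by omega) hPp hPr (le_refl (n1 + 1))
        have h7 := dist_forward (v := v) hD hk' (by omega) hPp hPr (m := i') (by omega)
        rw [show v + n1 + 1 = v + (n1 + 1) by omega]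
        have h8 := mul_le_mul_of_nonneg_left h7.1 (by linarith : (0:ℝ) ≤ 1 - 1 / (P:ℝ))
        linarith [h6.2]
      · left; right; left
        exact toLG hk' (by omega) hP' (by omega) hkL h1 c1 h3.1 hP h3.2
    b1 := fun v n hnv hvN h => by
      rcases Nat.lt_or_ge n L with hn | hn
      · exact ⟨fun h1 => absurd h1 (by omega), fun i j h1 h2 h3 h4 => absurd h3 (by omega),
          fun j h1 h2 => absurd h1 (by omega)⟩
      · exact cleanF_backward (toValD (by omega) (by omega) h hn) hnv hvN hk' (by omega) hPp hPr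
          (by norm_num)
    b2 := fun v n hnv hvN h m h1 h2 h3 h4 => by
      have h5 := h.cl (v - 1 - m) (by omega) (by omega)
      rw [swap_digit k z (by omega), show v - 1 - (v - 1 - m) = m by omega] at h5
      exact absurd h4 (not_lt.mpr h5)
    bm := fun v n m hmn h => val_mono h hmn
    b3 := fun v n hnv hvN h => by
      obtain ⟨n1, hn1, h1, h2⟩ := first_fail h
      rcases fail_cases h1 h2 with ⟨m, hm1, hm2, hm3⟩ | ⟨c1, h3 | h3⟩
      · left; left
        refine ⟨v - 1 - m, by omega, by omega, by omega, ?_⟩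
        unfold crit
        rw [swap_digit k z (by omega)] at hm3
        exact hm3
      · obtain ⟨i, hi1, hi2, hi3⟩ := h3
        obtain ⟨i', h3, h4, hD, h5⟩ := drop_of hk' hP (by omega) h1 c1 hi1 hi2 hi3
        right
        refine ⟨n1, hn1, cleanF_backward hD (by omega) hvN hk' (by omega) hPp hPr
          (by norm_num), i', h3, h4, ?_⟩
        have h6 := dist_backward (j := v) hD hk' (by omega) hPp hPr
          (le_refl (n1 + 1)) (by omega)
        have h7 := dist_backward (j := v) hD hk' (by omega) hPp hPr (m := i') (by omega)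
          (by omega)
        rw [show N - v + n1 + 1 = N - v + (n1 + 1) by omega, rv_dist k z hvN, rv_dist k z hvN]
        have h8 := mul_le_mul_of_nonneg_left h7.1 (by linarith : (0:ℝ) ≤ 1 - 1 / (P:ℝ))
        linarith [h6.2]
      · left; right; right
        exact toLG hk' (by omega) hP' (by omega) hkL h1 c1 h3.1 hP h3.2 }


theorem J_le (hk : 100 ≤ k) : Real.log (3 + 2 * Real.pi * k) / Real.log k ≤ 2 := by
  have h0 : 0 < Real.log k := Real.log_pos (by linarith)
  rw [div_le_iff₀ h0]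
  have h1 : Real.log (3 + 2 * Real.pi * k) ≤ Real.log (k ^ 2) := by
    apply Real.log_le_log
    · have := Real.pi_pos
      positivity
    · have := Real.pi_lt_d2
      nlinarith
  rw [Real.log_pow] at h1
  push_cast at h1
  exact h1

theorem mem_Ng_of_crit (hL : 0 < L) {m : ℕ} (h : crit k z m) : (T k)^[m] z ∈ Skel.Ng k L := by
  left; left
  exact ⟨0, hL, h⟩

open Classical in
theorem card_base_le (hL : 0 < L) :
    #{v ∈ range (N + 1) | base k L N z v} ≤ (2 * L + 1) * Skel.vs k N z (fun _ => Skel.Ng k L) := by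
  set M : Finset ℕ := {v ∈ range (N + 1) | (T k)^[v] z ∈ Skel.Ng k L} with hM
  have hsub : ({v ∈ range (N + 1) | base k L N z v} : Finset ℕ) ⊆
      M.biUnion (fun m => Finset.Icc (m - L) (m + L)) := by
    intro v hv
    rw [mem_filter, mem_range] at hv
    rw [mem_biUnion]
    rcases hv.2 with ⟨m, h1, h2, h3, h4⟩ | h | h
    · refine ⟨m, ?_, ?_⟩
      · rw [hM, mem_filter, mem_range]
        exact ⟨by omega, mem_Ng_of_crit hL h4⟩
      · rw [mem_Icc]
        omega
    · refine ⟨v, ?_, ?_⟩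
      · rw [hM, mem_filter, mem_range]
        exact ⟨hv.1, Or.inr (Or.inl h)⟩
      · rw [mem_Icc]
        omega
    · refine ⟨v, ?_, ?_⟩
      · rw [hM, mem_filter, mem_range]
        exact ⟨hv.1, Or.inr (Or.inr h)⟩
      · rw [mem_Icc]
        omega
  have h1 := (Finset.card_le_card hsub).trans Finset.card_biUnion_le
  have h2 : ∑ m ∈ M, (Finset.Icc (m - L) (m + L)).card ≤ ∑ m ∈ M, (2 * L + 1) := by
    apply Finset.sum_le_sum
    intro m _
    rw [Nat.card_Icc]
    omega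
  rw [Finset.sum_const, smul_eq_mul, mul_comm] at h2
  exact h1.trans h2

open Classical in
theorem card_le_vs_add {S1 S2 : ℕ → Set Tor} {A : Finset ℕ}
    (h : ∀ v ∈ A, v ∈ range (N + 1) ∧ ((T k)^[v] z ∈ S1 v ∨ (T k)^[v] z ∈ S2 v)) :
    #A ≤ Skel.vs k N z S1 + Skel.vs k N z S2 := by
  unfold Skel.vs
  refine le_trans (Finset.card_le_card ?_) (Finset.card_union_le _ _)
  intro v hv
  obtain ⟨h1, h2⟩ := h v hv
  rw [mem_union, mem_filter, mem_filter]
  rcases h2 with h2 | h2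
  · exact Or.inl ⟨h1, h2⟩
  · exact Or.inr ⟨h1, h2⟩

open Classical in
theorem card_double_le :
    #{v ∈ range (N + 1) | ¬ Skel.Val k 100 L ((T k)^[v] z) (N - v) ∧
      ¬ Skel.Val k 100 L ((T k)^[v] z).swap v} ≤
    Skel.vs k N z (fun v => Skel.Rc k L (N - v) ∩ Skel.bw (Skel.Rc k L v)) +
      Skel.vs k N z (fun _ => Skel.Ng k L) := by
  apply card_le_vs_add
  intro v hv
  rw [mem_filter] at hv
  obtain ⟨hv1, hv2, hv3⟩ := hv
  refine ⟨hv1, ?_⟩
  by_cases hN : (T k)^[v] z ∈ Skel.Ng k L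
  · exact Or.inr hN
  · left
    unfold Skel.Ng at hN
    simp only [Set.mem_union, not_or] at hN
    obtain ⟨⟨h1, h2⟩, h3, h4⟩ := hN
    exact ⟨⟨h1, h3, hv2⟩, ⟨h2, h4, hv3⟩⟩

open Classical in
/-- **V1** -/
theorem v1 : Skel.V1 := by
  refine ⟨300000, fun L hL => ⟨0, 6 * (2 * L + 1) + 48012,
    max (Real.exp 20) (max 100 ((L : ℝ) ^ 8)), fun k hk N z S hS => ?_⟩⟩
  have hk1 : Real.exp 20 ≤ k := (le_max_left _ _).trans hk
  have hk2 : 100 ≤ k := ((le_max_left _ _).trans (le_max_right _ _)).trans hk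
  have hk3 : (L : ℝ) ^ 8 ≤ k := ((le_max_right _ _).trans (le_max_right _ _)).trans hk
  have X1 := data (P := 1000) hk1 hk2 (by norm_num) (by norm_num) hL hk3 N z
  have X2 := data (P := 100) hk1 hk2 (by norm_num) (by norm_num) hL hk3 N z
  -- choose the feet
  have hch : ∀ p ∈ S, ∃ ij : ℕ × ℕ, Close.Cmp (Close.bz k z) (Real.log k) N ij.1 p.1 ij.2 p.2 := by
    intro p hp
    obtain ⟨i, j, h⟩ := (hS p hp).1
    exact ⟨(i, j), h⟩
  choose! g hg using hch
  set F : ℕ × ℕ → ℕ × ℕ × ℤ := fun p => ((g p).1, (g p).2, (p.2 : ℤ)) with hF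
  have hinj : Set.InjOn F S := by
    intro p hp q hq h
    simp only [hF, Prod.mk.injEq, Nat.cast_inj] at h
    obtain ⟨h1, h2, h3⟩ := h
    have cp := hg p hp
    have cq := hg q hq
    rw [← h1, ← h2] at cq
    rcases lt_trichotomy p.1 q.1 with h4 | h4 | h4
    · have := cq.first p.1 cp.it h4
      have := cp.top q.1 cq.it cq.tj
      linarith
    · exact Prod.ext h4 h3
    · have := cp.first q.1 cq.it h4
      have := cq.top p.1 cp.it cp.tj
      linarith
  have hcount := X1.count X2 (S.image F) (by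
    intro c hc
    rw [mem_image] at hc
    obtain ⟨p, hp, rfl⟩ := hc
    have C := hg p hp
    refine ⟨⟨by have := C.it; have := C.tj; simp only [hF]; omega, C.jN, ?_, ?_, ?_⟩, p.1, C.it, C.tj,
      C.top, ?_⟩
    · simpa [hF, Close.bz] using C.left
    · intro m h1 h2
      simpa [hF, Close.bz] using C.above m h1 h2
    · simpa [hF, Close.bz] using C.right
    · have h1 := (hS p hp).2.2 _ _ C
      unfold Skel.Fresh at h1
      by_cases h2 : Skel.Val k 1000 L ((T k)^[(g p).1] z) (p.1 - (g p).1)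
      · right
        intro h3
        exact h1 ⟨h2, h3⟩
      · exact Or.inl h2)
  rw [Finset.card_image_of_injOn hinj] at hcount
  have hJ := J_le hk2
  have hJ0 : 0 ≤ Real.log (3 + 2 * Real.pi * k) / Real.log k := by
    apply div_nonneg (Real.log_nonneg _) (Real.log_nonneg (by linarith))
    have := Real.pi_pos
    nlinarith
  have hb := card_base_le (k := k) (N := N) (z := z) (L := L) (by omega)
  have hd := card_double_le (k := k) (N := N) (z := z) (L := L)
  set Y := Skel.vs k N z (fun _ => Skel.Ng k L) with hY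
  set X := Skel.vs k N z (fun v => Skel.Rc k L (N - v) ∩ Skel.bw (Skel.Rc k L v)) with hX
  have hb' : ((((range (N + 1)).filter (base k L N z)).card : ℕ) : ℝ) ≤ (2 * L + 1) * Y := by
    exact_mod_cast hb
  have hd' : ((((range (N + 1)).filter (fun v => ¬ Skel.Val k 100 L ((T k)^[v] z) (N - v) ∧
      ¬ Skel.Val k 100 L ((T k)^[v] z).swap v)).card : ℕ) : ℝ) ≤ X + Y := by
    exact_mod_cast hd
  have hfin : (S.card : ℝ) ≤ 6 * ((2 * L + 1) * Y) + 48012 * (X + Y) := by
    refine hcount.trans ?_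
    have e1 : 2 * (Real.log (3 + 2 * Real.pi * k) / Real.log k + 1) ≤ 6 := by linarith
    have e2 : 2 * (8 / (1 / ((1000 : ℕ) : ℝ)) + 2) * (Real.log (3 + 2 * Real.pi * k) / Real.log k + 1) ≤
        48012 := by
      push_cast
      norm_num
      linarith
    refine add_le_add ?_ ?_
    · exact mul_le_mul e1 hb' (by positivity) (by norm_num)
    · exact mul_le_mul e2 hd' (by positivity) (by norm_num)
  have hfin2 : (S.card : ℝ) ≤ ((6 * (2 * L + 1) + 48012 : ℕ) : ℝ) * ((X + Y : ℕ) : ℝ) := by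
    refine hfin.trans ?_
    push_cast
    have hX0 : (0:ℝ) ≤ X := Nat.cast_nonneg _
    have hY0 : (0:ℝ) ≤ Y := Nat.cast_nonneg _
    have hL0 : (0:ℝ) ≤ L := Nat.cast_nonneg _
    have hXL : (0:ℝ) ≤ X * L := mul_nonneg hX0 hL0
    nlinarith
  exact_mod_cast hfin2

end Crest.Agent.R128.V1
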