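import Mathlib
import Crest.Agent.R128.Lam0U

/-!
# Row 128, node V2L (helper892): long-duration violations, summed over all durations

`LONG k L z m`: the start `z` is (relaxed) valid up to time `m - 1` but the field has not reached the
size `~ m ^ 400` before time `m` (first violation of the duration clause (c3) at time `m`).
The union over all `m ≥ 8 L` has area `≤ 16 L / k` (sum over dyadic classes of 379's `area_LG`).
-/

set_option autoImplicit false
open MeasureTheory Filter Topology Finset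
open scoped ENNReal

namespace Crest.Agent.R128.Long

open Crest.Agent.R128.TreeSum Crest.Agent.R128.Acc Crest.Agent.R128.Lam0

/-- relaxed first violation of the duration clause at time `m` -/
structure LONG (k : ℝ) (L : ℕ) (z : Tor) (m : ℕ) : Prop where
  lo : 8 * L ≤ m
  small : ∀ i, L ≤ i → i < m → ‖fld k z i‖ ≤ 2 * (m : ℝ) ^ 400
  val : RV k L z (m - 1)

theorem LONG.ge {k : ℝ} {L : ℕ} {z : Tor} {m : ℕ} (hk : (10:ℝ) ^ 4 ≤ k) (hL : 3 ≤ L)
    (h : LONG k L z m) : k ≤ (m : ℝ) := by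
  by_contra hlt
  push Not at hlt
  have h1 := h.val.big
  have h2 := h.small L le_rfl (by have := h.lo; omega)
  have hk0 : (1:ℝ) ≤ k := le_trans (by norm_num) hk
  have h3 : (m:ℝ) ^ 400 ≤ k ^ 400 := pow_le_pow_left₀ (Nat.cast_nonneg _) hlt.le _
  have h4 : k ^ 500 = k ^ 400 * k ^ 100 := by rw [← pow_add]
  have h5 : (4:ℝ) ≤ k ^ 100 := by
    calc (4:ℝ) ≤ k := le_trans (by norm_num) hk
      _ = k ^ 1 := (pow_one _).symm
      _ ≤ k ^ 100 := pow_le_pow_right₀ hk0 (by norm_num)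
  have h6 : (0:ℝ) < k ^ 400 := by positivity
  nlinarith

theorem LONG.toLG {k : ℝ} {L : ℕ} {z : Tor} {m M : ℕ} (h : LONG k L z m) (h1 : M ≤ m)
    (h2 : m ≤ 2 * M) : LGn k L M z m := ⟨h1, h2, h.small, h.val⟩

/-- dyadic class of `m` -/
theorem exists_dyadic {a m : ℕ} (ha : 0 < a) (hm : a ≤ m) : ∃ i : ℕ, a * 2 ^ i ≤ m ∧ m ≤ 2 * (a * 2 ^ i) := by
  have hex : ∃ i : ℕ, m < a * 2 ^ (i + 1) := by
    refine ⟨m, ?_⟩
    have : m < 2 ^ (m + 1) := lt_trans (Nat.lt_two_pow_self) (Nat.pow_lt_pow_right (by norm_num) (by omega))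
    calc m < 2 ^ (m + 1) := this
      _ ≤ a * 2 ^ (m + 1) := Nat.le_mul_of_pos_left _ ha
  classical
  refine ⟨Nat.find hex, ?_, ?_⟩
  · rcases Nat.eq_zero_or_pos (Nat.find hex) with h0 | h0
    · rw [h0]; simpa using hm
    · have := Nat.find_min hex (m := Nat.find hex - 1) (by omega)
      push Not at this
      have e : Nat.find hex - 1 + 1 = Nat.find hex := by omega
      rwa [e] at this
  · have := Nat.find_spec hex
    rw [pow_succ] at this
    nlinarith

/-- **V2L**: total area of the (relaxed) first violations of the duration clause -/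
theorem area_LONG {k : ℝ} (hk : (10:ℝ) ^ 4 ≤ k) {L : ℕ} (hL : 3 ≤ L) :
    volume {z : Tor | ∃ m, LONG k L z m} ≤ ENNReal.ofReal (16 * L / k) := by
  have hk0 : (0:ℝ) < k := lt_of_lt_of_le (by norm_num) hk
  set Mi : ℕ → ℕ := fun i => 8 * L * 2 ^ i with hMi
  have hMi8 : ∀ i, 8 * L ≤ Mi i := fun i => Nat.le_mul_of_pos_right _ (by positivity)
  -- each class
  have hcl : ∀ i, volume {z : Tor | ∃ m, LGn k L (Mi i) z m} ≤ ENNReal.ofReal (1 / (4 * 2 ^ i)) := by
    intro i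
    have h := area_LG hk hL (hMi8 i)
    have e : (Mi i / 2 : ℕ) = L * (4 * 2 ^ i) := by
      simp only [hMi]
      have : 8 * L * 2 ^ i = 2 * (L * (4 * 2 ^ i)) := by ring
      rw [this, Nat.mul_div_cancel_left _ (by norm_num)]
    rw [e] at h
    have hL0 : (L : ℝ≥0∞) ≠ 0 := by
      simp only [ne_eq, Nat.cast_eq_zero]; omega
    push_cast at h
    rw [mul_assoc] at h
    have h2 : (4 * 2 ^ i : ℝ≥0∞) * volume {z : Tor | ∃ m, LGn k L (Mi i) z m} ≤ 1 := by
      have h3 : (L : ℝ≥0∞) * ((4 * 2 ^ i : ℝ≥0∞) * volume {z : Tor | ∃ m, LGn k L (Mi i) z m}) ≤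
          (L : ℝ≥0∞) * 1 := by simpa using h
      exact (ENNReal.mul_le_mul_iff_right hL0 (ENNReal.natCast_ne_top L)).1 h3
    have h4 : ENNReal.ofReal (1 / (4 * 2 ^ i)) = ((4 * 2 ^ i : ℝ≥0∞))⁻¹ := by
      rw [one_div, ENNReal.ofReal_inv_of_pos (by positivity)]
      congr 1
      rw [ENNReal.ofReal_mul (by norm_num), ENNReal.ofReal_pow (by norm_num)]
      norm_num
    rw [h4]
    rw [← one_div, ENNReal.le_div_iff_mul_le (Or.inl (by positivity)) (Or.inl (by
      exact ENNReal.mul_ne_top (by norm_num) (ENNReal.pow_ne_top (by norm_num))))]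
    rwa [mul_comm]
  -- the smallest class
  have hex : ∃ j : ℕ, k ≤ 16 * L * 2 ^ j := by
    obtain ⟨j, hj⟩ := pow_unbounded_of_one_lt k (by norm_num : (1:ℝ) < 2)
    refine ⟨j, hj.le.trans ?_⟩
    have : (1:ℝ) ≤ 16 * L := by
      have : (3:ℝ) ≤ L := by exact_mod_cast hL
      linarith
    nlinarith [pow_pos (by norm_num : (0:ℝ) < 2) j]
  classical
  obtain ⟨j0, hj0s, hj0min⟩ : ∃ j0 : ℕ, k ≤ 16 * L * 2 ^ j0 ∧ ∀ i : ℕ, k ≤ 16 * L * 2 ^ i → j0 ≤ i :=
    ⟨Nat.find hex, Nat.find_spec hex, fun i hi => Nat.find_min' hex hi⟩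
  have hsub : {z : Tor | ∃ m, LONG k L z m} ⊆ ⋃ i : ℕ, {z : Tor | ∃ m, LGn k L (Mi (j0 + i)) z m} := by
    rintro z ⟨m, hm⟩
    have hkm := hm.ge hk hL
    obtain ⟨i, hi1, hi2⟩ := exists_dyadic (a := 8 * L) (by omega) hm.lo
    have hji : j0 ≤ i := by
      apply hj0min
      have : (m:ℝ) ≤ ((2 * (8 * L * 2 ^ i) : ℕ) : ℝ) := by exact_mod_cast hi2
      push_cast at this
      linarith
    refine Set.mem_iUnion.2 ⟨i - j0, m, ?_⟩
    have e : j0 + (i - j0) = i := by omega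
    rw [e]
    exact hm.toLG hi1 hi2
  refine (measure_mono hsub).trans ((measure_iUnion_le _).trans ?_)
  refine (ENNReal.tsum_le_tsum fun i => hcl (j0 + i)).trans ?_
  have hsum : ∑' i : ℕ, ENNReal.ofReal (1 / (4 * 2 ^ (j0 + i))) = ENNReal.ofReal (1 / (2 * 2 ^ j0)) := by
    have hs : HasSum (fun i : ℕ => (1 / (4 * 2 ^ j0) : ℝ) * (1 / 2) ^ i) (1 / (4 * 2 ^ j0) * 2) :=
      hasSum_geometric_two.mul_left _
    have he : ∀ i : ℕ, (1 / (4 * 2 ^ (j0 + i)) : ℝ) = (1 / (4 * 2 ^ j0) : ℝ) * (1 / 2) ^ i := by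
      intro i
      rw [pow_add, one_div_pow]
      field_simp
    simp_rw [he]
    rw [← ENNReal.ofReal_tsum_of_nonneg (fun i => by positivity) hs.summable, hs.tsum_eq]
    congr 1
    field_simp
    norm_num
  rw [hsum]
  apply ENNReal.ofReal_le_ofReal
  -- `1 / (2 * 2 ^ j0) ≤ 16 L / k`
  rw [div_le_div_iff₀ (by positivity) hk0]
  nlinarith [pow_pos (by norm_num : (0:ℝ) < 2) j0]

end Crest.Agent.R128.Long
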