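import Mathlib
import Crest.Agent.R128.OnePerX
import Crest.Agent.R128.Long
import Crest.Agent.R128.Meas

/-!
# Row 128, node V2L, parametric version (helper892)

`Vl k L d z n`: 279's `Val d L0 n z` (FINAL v2.1) with the maximum norm `‖fld k z m‖`.  The first
violations of the duration clause (c3) have total area at most `8 L / k`, for every `0 < d ≤ 1/8` and
every `L` with `64 ≤ d L`; in particular for `d = 1/1000`.
-/

set_option autoImplicit false
open MeasureTheory Filter Topology Finset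
open scoped ENNReal

namespace Crest.Agent.R128.LongX

open Crest.Agent.R128.TreeSum Crest.Agent.R128.Acc Crest.Agent.R128.Lam0 Crest.Agent.R128.OnePerX
  Crest.Agent.R128.Long

/-- clean up to time `n`, maximum norm (279, FINAL v2.1) -/
structure Vl (k : ℝ) (L : ℕ) (d : ℝ) (z : Tor) (n : ℕ) : Prop where
  c1 : ∀ m, m < L → k ^ (2 / 3 : ℝ) ≤ |V k ((T k)^[m] z).2|
  c2 : ∀ i j, L ≤ i → i ≤ j → j ≤ n → ‖fld k z i‖ ^ (1 - d) ≤ ‖fld k z j‖
  c3 : ∀ j, L ≤ j → j ≤ n → ∃ i, L ≤ i ∧ i ≤ j ∧ (j : ℝ) ≤ ‖fld k z i‖ ^ (d / 4)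

theorem Vl.mono {k : ℝ} {L : ℕ} {d : ℝ} {z : Tor} {n n' : ℕ} (h : Vl k L d z n) (hn : n' ≤ n) :
    Vl k L d z n' :=
  ⟨h.c1, fun i j a b c => h.c2 i j a b (c.trans hn), fun j a b => h.c3 j a (b.trans hn)⟩

/-- base growth in the maximum norm -/
theorem base_norm {k : ℝ} {L : ℕ} {z : Tor} (hk : (64:ℝ) ≤ k)
    (h : ∀ m, m < L → k ^ (2 / 3 : ℝ) ≤ |V k ((T k)^[m] z).2|) : k ^ ((L:ℝ) / 2) ≤ ‖fld k z L‖ := by
  have hk0 : (0:ℝ) < k := by linarith
  have h1 := (base (B := k ^ (1 / 2 : ℝ)) (Real.one_le_rpow (by linarith) (by norm_num))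
    (fun m hm => (half_le hk).trans (h m hm)) L le_rfl).1
  have e : k ^ ((L:ℝ) / 2) = (k ^ (1 / 2 : ℝ)) ^ L := by
    rw [← Real.rpow_natCast, ← Real.rpow_mul hk0.le]
    congr 1; ring
  rw [e]
  exact h1.trans (norm_snd_le (fld k z L))

theorem Vl.big {k : ℝ} {L : ℕ} {d : ℝ} {z : Tor} {n : ℕ} (hk : (64:ℝ) ≤ k) (hd : d ≤ 1)
    (h : Vl k L d z n) {m : ℕ} (hm : L ≤ m) (hn : m ≤ n) :
    k ^ ((1 - d) * (L / 2)) ≤ ‖fld k z m‖ := by
  have hk0 : (0:ℝ) < k := by linarith
  have h2 := base_norm hk h.c1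
  calc k ^ ((1 - d) * (L / 2)) = (k ^ ((L:ℝ) / 2)) ^ (1 - d) := by
        rw [← Real.rpow_mul hk0.le]; congr 1; ring
    _ ≤ ‖fld k z L‖ ^ (1 - d) := Real.rpow_le_rpow (by positivity) h2 (by linarith)
    _ ≤ ‖fld k z m‖ := h.c2 L m le_rfl hm hn

/-- **separation of clean starts** (maximum norm) -/
theorem Vl.sep {k : ℝ} {L : ℕ} {d : ℝ} {z : Tor} {m n : ℕ} (hk : (100:ℝ) ≤ k) (hL : 3 ≤ L)
    (hd0 : 0 < d) (hd : d ≤ 1 / 8) (hdL : 1 ≤ d * L) (hm : L ≤ m) (h : Vl k L d z (m + n)) {κ : ℝ}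
    (hκ : 0 ≤ κ) (hκ' : κ * k ^ 3 ≤ k ^ ((1 - d) * (1 - 6 * d) * (L / 2))) :
    κ * ‖fld k ((T k)^[m] z) n‖ ≤ 2 * ‖fld k z (m + n)‖ := by
  have hk0 : (0:ℝ) < k := by linarith
  have hA : ∀ j, |V k ((T k)^[m + j] z).2| + 2 ≤ 8 * k := fun j => abs_V_le (by linarith) _
  have hbig : ∀ i, L ≤ i → i ≤ m + n → k ^ ((1 - d) * (L / 2)) ≤ ‖fld k z i‖ := fun i hi hi' =>
    h.big (by linarith) (by linarith) hi hi'
  have hge1 : ∀ i, L ≤ i → i ≤ m + n → 1 ≤ ‖fld k z i‖ := by
    intro i hi hi'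
    refine le_trans ?_ (hbig i hi hi')
    apply Real.one_le_rpow (by linarith)
    have : 0 ≤ 1 - d := by linarith
    positivity
  -- `2 ≤ ‖fld i‖ ^ d`
  have h2le : ∀ i, L ≤ i → i ≤ m + n → 2 ≤ ‖fld k z i‖ ^ d := by
    intro i hi hi'
    calc (2:ℝ) ≤ k ^ (1 / 4 : ℝ) := by
          have : (2:ℝ) = (16:ℝ) ^ (1 / 4 : ℝ) := by
            rw [show (16:ℝ) = 2 ^ (4:ℝ) by norm_num, ← Real.rpow_mul (by norm_num)]
            norm_num
          rw [this]
          exact Real.rpow_le_rpow (by norm_num) (by linarith) (by norm_num)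
      _ ≤ k ^ ((1 - d) * (L / 2) * d) := by
          apply Real.rpow_le_rpow_of_exponent_le (by linarith)
          nlinarith
      _ = (k ^ ((1 - d) * (L / 2))) ^ d := by rw [← Real.rpow_mul hk0.le]
      _ ≤ ‖fld k z i‖ ^ d := Real.rpow_le_rpow (by positivity) (hbig i hi hi') hd0.le
  have c := count_valid (isField_shift k z m) (isField_later k z m) (A := 8 * k) (δ := 2 * d)
    (K := 1) (κ := κ) hA (by linarith) (by linarith) (m := 0) (n := n) (Nat.zero_le _)
    (by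
      simp only [add_zero]
      exact (hge1 m hm (by omega)).trans (norm_le_nn _))
    (by
      intro j hj
      rw [Finset.mem_Icc] at hj
      simp only [add_zero]
      have hp : 0 < ‖fld k z m‖ := lt_of_lt_of_le one_pos (hge1 m hm (by omega))
      calc nn (fld k z m) ^ (1 - 2 * d) ≤ (2 * ‖fld k z m‖) ^ (1 - 2 * d) :=
            Real.rpow_le_rpow (nn_nonneg _) (nn_le_norm _) (by linarith)
        _ = 2 ^ (1 - 2 * d) * ‖fld k z m‖ ^ (1 - 2 * d) := Real.mul_rpow (by norm_num) hp.le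
        _ ≤ 2 * ‖fld k z m‖ ^ (1 - 2 * d) := by
            refine mul_le_mul_of_nonneg_right ?_ (by positivity)
            calc (2:ℝ) ^ (1 - 2 * d) ≤ 2 ^ (1:ℝ) :=
                  Real.rpow_le_rpow_of_exponent_le (by norm_num) (by linarith)
              _ = 2 := Real.rpow_one 2
        _ ≤ ‖fld k z m‖ ^ d * ‖fld k z m‖ ^ (1 - 2 * d) :=
            mul_le_mul_of_nonneg_right (h2le m hm (by omega)) (by positivity)
        _ = ‖fld k z m‖ ^ (1 - d) := by rw [← Real.rpow_add hp]; congr 1; ring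
        _ ≤ ‖fld k z (m + j)‖ := h.c2 m (m + j) hm (by omega) (by omega)
        _ ≤ _ := norm_le_nn _)
    (by
      calc ∑ j ∈ Ico 0 n, nn (fld k z (m + j)) ^ (-(2 * d))
          ≤ ∑ j ∈ Ico 0 n, 1 / ((m + j : ℕ) : ℝ) ^ 2 := by
            apply Finset.sum_le_sum
            intro j hj
            rw [Finset.mem_Ico] at hj
            obtain ⟨i, hi1, hi2, hi3⟩ := h.c3 (m + j) (by omega) (by omega)
            have h1 := h.c2 i (m + j) hi1 hi2 (by omega)
            have hj1 : (1:ℝ) ≤ ((m + j : ℕ) : ℝ) := by exact_mod_cast (by omega : 1 ≤ m + j)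
            have hWi := hge1 i hi1 (by omega)
            have hWj := hge1 (m + j) (by omega) (by omega)
            have hnn := norm_le_nn (fld k z (m + j))
            have h4 : ((m + j : ℕ) : ℝ) ^ (2:ℝ) ≤ nn (fld k z (m + j)) ^ (2 * d) := by
              calc ((m + j : ℕ) : ℝ) ^ (2:ℝ) ≤ ((m + j : ℕ) : ℝ) ^ (8 * (1 - d)) :=
                    Real.rpow_le_rpow_of_exponent_le hj1 (by linarith)
                _ ≤ (‖fld k z i‖ ^ (d / 4)) ^ (8 * (1 - d)) :=
                    Real.rpow_le_rpow (by linarith) hi3 (by linarith)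
                _ = (‖fld k z i‖ ^ (1 - d)) ^ (2 * d) := by
                    rw [← Real.rpow_mul (by linarith), ← Real.rpow_mul (by linarith)]
                    congr 1; ring
                _ ≤ ‖fld k z (m + j)‖ ^ (2 * d) :=
                    Real.rpow_le_rpow (by positivity) h1 (by linarith)
                _ ≤ _ := Real.rpow_le_rpow (by linarith) hnn (by linarith)
            rw [Real.rpow_neg (nn_nonneg _), ← one_div]
            have h5 : (0:ℝ) < ((m + j : ℕ) : ℝ) ^ 2 := by positivity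
            apply one_div_le_one_div_of_le h5
            rw [← Real.rpow_natCast]
            exact_mod_cast h4
        _ ≤ 1 / ((m:ℝ) - 1) := sum_inv_sq m n (by omega)
        _ ≤ 1 := by
            have : (2:ℝ) ≤ (m:ℝ) - 1 := by
              have : ((3:ℕ):ℝ) ≤ m := by exact_mod_cast (hL.trans hm)
              push_cast at this
              linarith
            rw [div_le_one (by linarith)]
            linarith)
    hκ
    (by
      simp only [add_zero]
      have e0 : nn (fld k ((T k)^[m] z) 0) = 1 := OnePerX.W_zero k _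
      rw [e0, mul_one, mul_one]
      have h5 : (2:ℝ) + (8 * k) ^ 2 ≤ k ^ 3 := by
        nlinarith [sq_nonneg k, mul_pos hk0 hk0, mul_pos (mul_pos hk0 hk0) hk0]
      have h6 : κ * (2 + (8 * k) ^ 2) ≤ κ * k ^ 3 := mul_le_mul_of_nonneg_left h5 hκ
      refine h6.trans (hκ'.trans ?_)
      calc k ^ ((1 - d) * (1 - 6 * d) * (L / 2)) = (k ^ ((1 - d) * (L / 2))) ^ (1 - 3 * (2 * d)) := by
            rw [← Real.rpow_mul hk0.le]; congr 1; ring
        _ ≤ ‖fld k z m‖ ^ (1 - 3 * (2 * d)) :=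
            Real.rpow_le_rpow (by positivity) (hbig m hm (by omega)) (by linarith)
        _ ≤ nn (fld k z m) ^ (1 - 3 * (2 * d)) :=
            Real.rpow_le_rpow (norm_nonneg _) (norm_le_nn _) (by linarith))
  calc κ * ‖fld k ((T k)^[m] z) n‖ ≤ κ * nn (fld k ((T k)^[m] z) n) :=
        mul_le_mul_of_nonneg_left (norm_le_nn _) hκ
    _ ≤ nn (fld k z (m + n)) := c
    _ ≤ _ := nn_le_norm _

/-- **one start per level**, maximum norm -/
theorem card_starts_le {k : ℝ} {L : ℕ} {d : ℝ} (hk : (100:ℝ) ≤ k) (hL : 3 ≤ L)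
    (hd0 : 0 < d) (hd : d ≤ 1 / 8) (hdL : 1 ≤ d * L) {q : ℕ}
    (hq : (q:ℝ) + 4 ≤ (1 - d) * (1 - 6 * d) * (L / 2))
    {z : Tor} {t : ℕ} {S : Finset ℕ} (hS : ∀ n ∈ S, n ≤ t ∧ Vl k L d ((T k)^[n] z) (t - n))
    {x y : ℝ} (hx : ∀ n ∈ S, x ≤ ‖fld k ((T k)^[n] z) (t - n)‖)
    (hy : ∀ n ∈ S, ‖fld k ((T k)^[n] z) (t - n)‖ ≤ y) {J : ℕ} (hJ : y < k ^ (q * J) * x) :
    S.card ≤ L * J := by
  have hk0 : (0:ℝ) < k := by linarith
  apply card_le_of_sep (κ := k ^ q) (by positivity) (F := fun n => ‖fld k ((T k)^[n] z) (t - n)‖)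
    (y := y) J S x ?_ hx hy (by rwa [← pow_mul])
  intro a ha b hb hab
  obtain ⟨ha1, ha2⟩ := hS a ha
  obtain ⟨hb1, hb2⟩ := hS b hb
  have e1 : t - a = (b - a) + (t - b) := by omega
  have e2 : (T k)^[b] z = (T k)^[b - a] ((T k)^[a] z) := by
    rw [← Function.iterate_add_apply]
    congr 1
    omega
  rw [e1] at ha2
  have := ha2.sep hk hL hd0 hd hdL (by omega : L ≤ b - a) (κ := 2 * k ^ q) (by positivity) (by
    calc 2 * k ^ q * k ^ 3 ≤ k * k ^ q * k ^ 3 := by gcongr; linarith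
      _ = k ^ (q + 4) := by ring
      _ ≤ _ := by
        rw [← Real.rpow_natCast]
        apply Real.rpow_le_rpow_of_exponent_le (by linarith)
        push_cast
        exact hq)
  show k ^ q * ‖fld k ((T k)^[b] z) (t - b)‖ ≤ ‖fld k ((T k)^[a] z) (t - a)‖
  rw [e2, e1]
  linarith

/-- first violation of (c3) at time `m`, dyadic class `M` -/
structure Lg (k : ℝ) (L : ℕ) (d : ℝ) (M : ℕ) (z : Tor) (m : ℕ) : Prop where
  lo : M ≤ m
  hi : m ≤ 2 * M
  small : ∀ i, L ≤ i → i < m → ‖fld k z i‖ ^ (d / 4) < (m : ℝ)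
  val : Vl k L d z (m - 1)

theorem measurable_Vl (k : ℝ) (L : ℕ) (d : ℝ) (n : ℕ) : MeasurableSet {z | Vl k L d z n} := by
  have e : {z | Vl k L d z n} =
      (⋂ (m : ℕ) (_ : m < L), {z : Tor | k ^ (2 / 3 : ℝ) ≤ |V k ((T k)^[m] z).2|}) ∩
      ((⋂ (i : ℕ) (j : ℕ) (_ : L ≤ i) (_ : i ≤ j) (_ : j ≤ n),
        {z : Tor | ‖fld k z i‖ ^ (1 - d) ≤ ‖fld k z j‖}) ∩
      (⋂ (j : ℕ) (_ : L ≤ j) (_ : j ≤ n), ⋃ (i : ℕ) (_ : L ≤ i) (_ : i ≤ j),
        {z : Tor | (j : ℝ) ≤ ‖fld k z i‖ ^ (d / 4)})) := by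
    ext z
    simp only [Set.mem_inter_iff, Set.mem_ofPred_eq, Set.mem_iInter, Set.mem_iUnion, exists_prop]
    constructor
    · rintro ⟨a, b, c⟩
      exact ⟨a, b, c⟩
    · rintro ⟨a, b, c⟩
      exact ⟨a, b, c⟩
  rw [e]
  refine MeasurableSet.inter ?_ (MeasurableSet.inter ?_ ?_)
  · refine MeasurableSet.iInter fun m => MeasurableSet.iInter fun _ => ?_
    exact measurableSet_le measurable_const
      (Meas.continuous_V_iter k m).abs.measurable
  · refine MeasurableSet.iInter fun i => MeasurableSet.iInter fun j => MeasurableSet.iInter fun _ =>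
      MeasurableSet.iInter fun _ => MeasurableSet.iInter fun _ => ?_
    exact measurableSet_le ((measurable_nf k i).pow_const _) (measurable_nf k j)
  · refine MeasurableSet.iInter fun j => MeasurableSet.iInter fun _ => MeasurableSet.iInter fun _ =>
      MeasurableSet.iUnion fun i => MeasurableSet.iUnion fun _ => MeasurableSet.iUnion fun _ => ?_
    exact measurableSet_le measurable_const ((measurable_nf k i).pow_const _)

theorem measurable_Lg (k : ℝ) (L : ℕ) (d : ℝ) (M : ℕ) : MeasurableSet {z | ∃ m, Lg k L d M z m} := by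
  have e : {z | ∃ m, Lg k L d M z m} = ⋃ (m : ℕ) (_ : M ≤ m) (_ : m ≤ 2 * M),
      ((⋂ (i : ℕ) (_ : L ≤ i) (_ : i < m), {z | ‖fld k z i‖ ^ (d / 4) < (m : ℝ)}) ∩
      {z | Vl k L d z (m - 1)}) := by
    ext z
    simp only [Set.mem_inter_iff, Set.mem_ofPred_eq, Set.mem_iInter, Set.mem_iUnion, exists_prop]
    constructor
    · rintro ⟨m, a, b, c, d⟩
      exact ⟨m, a, b, c, d⟩
    · rintro ⟨m, a, b, c, d⟩
      exact ⟨m, a, b, c, d⟩
  rw [e]
  refine MeasurableSet.iUnion fun m => MeasurableSet.iUnion fun _ => MeasurableSet.iUnion fun _ => ?_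
  refine MeasurableSet.inter ?_ (measurable_Vl k L d (m - 1))
  exact MeasurableSet.iInter fun i => MeasurableSet.iInter fun _ => MeasurableSet.iInter fun _ =>
      measurableSet_lt ((measurable_nf k i).pow_const _) measurable_const

/-- two starts of long-duration events at distance `≤ M / 2` are at distance `< L` -/
theorem Lg_sep {k : ℝ} (hk : (100:ℝ) ≤ k) {L M : ℕ} (hL : 3 ≤ L) {d : ℝ} (hd0 : 0 < d) (hd : d ≤ 1 / 8)
    (hdL : 64 ≤ d * L) (hM : 8 * L ≤ M) {z : Tor} {q : ℕ}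
    (hq : L ≤ q) (hq2 : 2 * q ≤ M) (h1 : ∃ m, Lg k L d M z m) (h2 : ∃ m, Lg k L d M ((T k)^[q] z) m) :
    False := by
  obtain ⟨m1, d1⟩ := h1
  obtain ⟨m2, d2⟩ := h2
  have hk0 : (0:ℝ) < k := by linarith
  have hM1 := d1.lo
  have hM2 := d2.lo
  have hM3 := d1.hi
  have hL0 : (0:ℝ) < L := by exact_mod_cast (by omega : 0 < L)
  set j := M / 4 with hj
  have hj4 : 4 * j ≤ M := by omega
  have hj4' : M ≤ 4 * j + 3 := by omega
  obtain ⟨i, hi1, hi2, hi3⟩ := d2.val.c3 j (by omega) (by omega)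
  have hv : Vl k L d z (q + i) := d1.val.mono (by omega)
  -- `κ = 2 * (10 : ℝ) ^ (4 / d)`
  set κ : ℝ := 2 * (10:ℝ) ^ (4 / d) with hκ
  have hκle : κ * k ^ 3 ≤ k ^ ((1 - d) * (1 - 6 * d) * (L / 2)) := by
    have e1 : (10:ℝ) ^ (4 / d) ≤ k ^ (L / 32 : ℝ) := by
      calc (10:ℝ) ^ (4 / d) ≤ (k ^ (1 / 2 : ℝ)) ^ (4 / d) := by
            apply Real.rpow_le_rpow (by norm_num) _ (by positivity)
            have : (10:ℝ) = (100:ℝ) ^ (1 / 2 : ℝ) := by
              rw [show (100:ℝ) = 10 ^ (2:ℝ) by norm_num, ← Real.rpow_mul (by norm_num)]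
              norm_num
            rw [this]
            exact Real.rpow_le_rpow (by norm_num) hk (by norm_num)
        _ = k ^ (2 / d) := by rw [← Real.rpow_mul hk0.le]; congr 1; ring
        _ ≤ k ^ (L / 32 : ℝ) := by
            apply Real.rpow_le_rpow_of_exponent_le (by linarith)
            rw [div_le_div_iff₀ hd0 (by norm_num)]
            nlinarith
    have e2 : κ * k ^ 3 ≤ k ^ (L / 32 + 4 : ℝ) := by
      calc κ * k ^ 3 ≤ (k * k ^ (L / 32 : ℝ)) * k ^ 3 := by
            rw [hκ]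
            gcongr
            linarith
        _ = k ^ (L / 32 + 4 : ℝ) := by
            rw [Real.rpow_add hk0]
            have : k ^ (4:ℝ) = k ^ 4 := by exact_mod_cast Real.rpow_natCast k 4
            rw [this]; ring
    refine e2.trans ?_
    apply Real.rpow_le_rpow_of_exponent_le (by linarith)
    have hL512 : (512:ℝ) ≤ L := by nlinarith
    have h78 : (7:ℝ) / 8 ≤ 1 - d := by linarith
    have h14 : (1:ℝ) / 4 ≤ 1 - 6 * d := by linarith
    have : (7:ℝ) / 8 * (1 / 4) ≤ (1 - d) * (1 - 6 * d) := by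
      apply mul_le_mul h78 h14 (by norm_num) (by linarith)
    nlinarith
  have hs := hv.sep hk hL hd0 hd (by linarith) hq (κ := κ) (by positivity) hκle
  have hsm := d1.small (q + i) (by omega) (by omega)
  -- `m1 ≤ 10 j`
  have hmj : (m1 : ℝ) ≤ 10 * (j : ℝ) := by
    have : m1 ≤ 10 * j := by omega
    exact_mod_cast this
  have h3 : (10:ℝ) ^ (4 / d) * ‖fld k ((T k)^[q] z) i‖ ≤ ‖fld k z (q + i)‖ := by
    rw [hκ] at hs
    linarith
  have h4 : (10:ℝ) * (j:ℝ) ≤ ‖fld k z (q + i)‖ ^ (d / 4) := by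
    calc (10:ℝ) * (j:ℝ) ≤ 10 * ‖fld k ((T k)^[q] z) i‖ ^ (d / 4) :=
          mul_le_mul_of_nonneg_left hi3 (by norm_num)
      _ = ((10:ℝ) ^ (4 / d)) ^ (d / 4) * ‖fld k ((T k)^[q] z) i‖ ^ (d / 4) := by
          rw [← Real.rpow_mul (by norm_num)]
          have : 4 / d * (d / 4) = 1 := by field_simp
          rw [this, Real.rpow_one]
      _ = ((10:ℝ) ^ (4 / d) * ‖fld k ((T k)^[q] z) i‖) ^ (d / 4) := by
          rw [Real.mul_rpow (by positivity) (norm_nonneg _)]
      _ ≤ _ := Real.rpow_le_rpow (by positivity) h3 (by positivity)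
  linarith

/-- area of one dyadic class -/
theorem area_Lg {k : ℝ} (hk : (100:ℝ) ≤ k) {L M : ℕ} (hL : 3 ≤ L) {d : ℝ} (hd0 : 0 < d) (hd : d ≤ 1 / 8)
    (hdL : 64 ≤ d * L) (hM : 8 * L ≤ M) :
    ((M / 2 : ℕ) : ℝ≥0∞) * volume {z : Tor | ∃ m, Lg k L d M z m} ≤ (L : ℝ≥0∞) := by
  set B : Set Tor := {z : Tor | ∃ m, Lg k L d M z m} with hB
  have hBm : MeasurableSet B := measurable_Lg k L d M
  have key := Boot.packing (μ := (volume : Measure Tor)) (e := T k) (mp_T k) hBm (M / 2)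
    (b := (L : ℝ≥0∞)) (by
      intro z
      classical
      have hcard : ((Finset.range (M / 2)).filter (fun n => (T k)^[n] z ∈ B)).card ≤ L := by
        rcases ((Finset.range (M / 2)).filter (fun n => (T k)^[n] z ∈ B)).eq_empty_or_nonempty with h | h
        · simp [h]
        · set a := Finset.min' _ h with ha
          have haS := Finset.min'_mem _ h
          rw [← ha, Finset.mem_filter, Finset.mem_range] at haS
          have hsub : (Finset.range (M / 2)).filter (fun n => (T k)^[n] z ∈ B) ⊆ Finset.Ico a (a + L) := by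
            intro n hn
            have h1 : a ≤ n := Finset.min'_le _ n hn
            rw [Finset.mem_filter, Finset.mem_range] at hn
            rw [Finset.mem_Ico]
            refine ⟨h1, ?_⟩
            by_contra hc
            push Not at hc
            have e : (T k)^[n - a] ((T k)^[a] z) = (T k)^[n] z := by
              rw [← Function.iterate_add_apply, Nat.sub_add_cancel h1]
            have hmem := hn.2
            rw [← e] at hmem
            exact Lg_sep hk hL hd0 hd hdL hM (q := n - a) (by omega) (by omega) haS.2 hmem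
          refine (Finset.card_le_card hsub).trans ?_
          simp
      calc ∑ n ∈ Finset.range (M / 2), B.indicator (fun _ => (1 : ℝ≥0∞)) ((T k)^[n] z)
          = ∑ n ∈ (Finset.range (M / 2)).filter (fun n => (T k)^[n] z ∈ B), (1 : ℝ≥0∞) := by
            rw [Finset.sum_filter]
            apply Finset.sum_congr rfl
            intro n _
            by_cases hc : (T k)^[n] z ∈ B
            · rw [Set.indicator_of_mem hc, if_pos hc]
            · rw [Set.indicator_of_notMem hc, if_neg hc]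
        _ = (((Finset.range (M / 2)).filter (fun n => (T k)^[n] z ∈ B)).card : ℝ≥0∞) := by simp
        _ ≤ (L : ℝ≥0∞) := by exact_mod_cast hcard)
  simpa using key

/-- first violation of (c3) at time `m` (valid up to `m - 1`) -/
def F3 (k : ℝ) (L : ℕ) (d : ℝ) (z : Tor) (m : ℕ) : Prop :=
  L ≤ m ∧ Vl k L d z (m - 1) ∧ ∀ i, L ≤ i → i ≤ m → ‖fld k z i‖ ^ (d / 4) < (m : ℝ)

theorem F3.lt {k : ℝ} {L : ℕ} {d : ℝ} {z : Tor} {m : ℕ} (hk : (100:ℝ) ≤ k) (hd0 : 0 < d)
    (hdL : 64 ≤ d * L) (h : F3 k L d z m) : k < (m : ℝ) := by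
  have hk0 : (0:ℝ) < k := by linarith
  obtain ⟨h1, h2, h3⟩ := h
  have h4 := h3 L le_rfl h1
  have h5 := base_norm (by linarith : (64:ℝ) ≤ k) h2.c1
  calc k = k ^ (1:ℝ) := (Real.rpow_one k).symm
    _ ≤ k ^ ((L:ℝ) / 2 * (d / 4)) := by
        apply Real.rpow_le_rpow_of_exponent_le (by linarith)
        nlinarith
    _ = (k ^ ((L:ℝ) / 2)) ^ (d / 4) := Real.rpow_mul hk0.le _ _
    _ ≤ ‖fld k z L‖ ^ (d / 4) := Real.rpow_le_rpow (by positivity) h5 (by positivity)
    _ < m := h4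

/-- **V2L for every `d`**: total area of the first violations of (c3) -/
theorem area_F3 {k : ℝ} (hk : (100:ℝ) ≤ k) {L : ℕ} (hL : 3 ≤ L) (hkL : 8 * (L:ℝ) ≤ k) {d : ℝ}
    (hd0 : 0 < d) (hd : d ≤ 1 / 8) (hdL : 64 ≤ d * L) :
    volume {z : Tor | ∃ m, F3 k L d z m} ≤ ENNReal.ofReal (8 * L / k) := by
  have hk0 : (0:ℝ) < k := by linarith
  set b := ⌊k / 2⌋₊ with hb
  have hb1 : (b:ℝ) ≤ k / 2 := Nat.floor_le (by positivity)
  have hb2 : k / 2 < (b:ℝ) + 1 := Nat.lt_floor_add_one _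
  have hb3 : 4 * L ≤ b := by
    apply Nat.le_floor
    push_cast
    linarith
  have hb0 : 0 < b := by omega
  have hbk : k ≤ 4 * (b:ℝ) := by
    have : (12:ℝ) ≤ b := by exact_mod_cast (by omega : 12 ≤ b)
    linarith
  have hcl : ∀ i : ℕ, volume {z : Tor | ∃ m, Lg k L d (2 * b * 2 ^ i) z m} ≤
      ENNReal.ofReal (L / b * (1 / 2) ^ i) := by
    intro i
    have hM : 8 * L ≤ 2 * b * 2 ^ i := by
      have : 2 * b * 1 ≤ 2 * b * 2 ^ i := Nat.mul_le_mul_left _ Nat.one_le_two_pow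
      omega
    have h := area_Lg hk hL hd0 hd hdL hM
    have e : (2 * b * 2 ^ i / 2 : ℕ) = b * 2 ^ i := by
      rw [mul_assoc, Nat.mul_div_cancel_left _ (by norm_num)]
    rw [e] at h
    have hpos : 0 < b * 2 ^ i := by positivity
    have h2 : volume {z : Tor | ∃ m, Lg k L d (2 * b * 2 ^ i) z m} ≤ (L : ℝ≥0∞) / ((b * 2 ^ i : ℕ) : ℝ≥0∞) := by
      rw [ENNReal.le_div_iff_mul_le (Or.inl (by exact_mod_cast hpos.ne')) (Or.inl (ENNReal.natCast_ne_top _)),
        mul_comm]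
      exact h
    refine h2.trans (le_of_eq ?_)
    rw [← ENNReal.ofReal_natCast L, ← ENNReal.ofReal_natCast (b * 2 ^ i), ← ENNReal.ofReal_div_of_pos
      (by exact_mod_cast hpos)]
    congr 1
    push_cast
    rw [one_div_pow]
    field_simp
  have hsub : {z : Tor | ∃ m, F3 k L d z m} ⊆ ⋃ i : ℕ, {z : Tor | ∃ m, Lg k L d (2 * b * 2 ^ i) z m} := by
    rintro z ⟨m, hm⟩
    have hkm := hm.lt hk hd0 hdL
    have h2b : 2 * b ≤ m := by
      have : ((2 * b : ℕ) : ℝ) ≤ (m:ℝ) := by push_cast; linarith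
      exact_mod_cast this
    obtain ⟨i, hi1, hi2⟩ := exists_dyadic (a := 2 * b) (by omega) h2b
    exact Set.mem_iUnion.2 ⟨i, m, hi1, hi2, fun i hi hi' => hm.2.2 i hi hi'.le, hm.2.1⟩
  refine (measure_mono hsub).trans ((measure_iUnion_le _).trans ?_)
  refine (ENNReal.tsum_le_tsum hcl).trans ?_
  have hs : HasSum (fun i : ℕ => (L / b : ℝ) * (1 / 2) ^ i) (L / b * 2) :=
    hasSum_geometric_two.mul_left _
  rw [← ENNReal.ofReal_tsum_of_nonneg (fun i => by positivity) hs.summable, hs.tsum_eq]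
  apply ENNReal.ofReal_le_ofReal
  have hb0' : (0:ℝ) < b := by exact_mod_cast hb0
  rw [div_mul_eq_mul_div, div_le_div_iff₀ hb0' hk0]
  have hL0 : (0:ℝ) ≤ L := Nat.cast_nonneg _
  nlinarith [mul_le_mul_of_nonneg_left hbk hL0]

/-- **decomposition of `¬ Val`**: base violation, or a first violation of (c2) or of (c3) -/
theorem not_Vl {k : ℝ} {L : ℕ} {d : ℝ} {z : Tor} {M : ℕ} (h : ¬ Vl k L d z M) :
    (∃ m, m < L ∧ |V k ((T k)^[m] z).2| < k ^ (2 / 3 : ℝ)) ∨
      ∃ m, L ≤ m ∧ m ≤ M ∧ (∀ n, n < m → Vl k L d z n) ∧ ¬ Vl k L d z m ∧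
        ((∃ i, L ≤ i ∧ i ≤ m ∧ ‖fld k z m‖ < ‖fld k z i‖ ^ (1 - d)) ∨ F3 k L d z m) := by
  by_cases h1 : ∀ m, m < L → k ^ (2 / 3 : ℝ) ≤ |V k ((T k)^[m] z).2|
  · right
    classical
    have hex : ∃ m, ¬ Vl k L d z m := ⟨M, h⟩
    have hspec := Nat.find_spec hex
    have hmin : ∀ n, n < Nat.find hex → Vl k L d z n := fun n hn => by
      by_contra hc
      exact Nat.find_min hex hn hc
    have hle : Nat.find hex ≤ M := Nat.find_min' hex h
    generalize Nat.find hex = m at hspec hmin hle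
    have hLm : L ≤ m := by
      by_contra hc
      push Not at hc
      exact hspec ⟨h1, fun i j a b c => by omega, fun j a b => by omega⟩
    refine ⟨m, hLm, hle, hmin, hspec, ?_⟩
    by_cases h2 : ∃ i, L ≤ i ∧ i ≤ m ∧ ‖fld k z m‖ < ‖fld k z i‖ ^ (1 - d)
    · exact Or.inl h2
    · right
      push Not at h2
      have hprev : ∀ n, L ≤ n → n < m → Vl k L d z n := fun n _ hn => hmin n hn
      have hc2 : ∀ i j, L ≤ i → i ≤ j → j ≤ m → ‖fld k z i‖ ^ (1 - d) ≤ ‖fld k z j‖ := by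
        intro i j hi hij hj
        rcases hj.lt_or_eq with hlt | rfl
        · exact (hmin j hlt).c2 i j hi hij le_rfl
        · exact h2 i hi hij
      have hv : Vl k L d z (m - 1) := by
        refine ⟨h1, fun i j hi hij hj => hc2 i j hi hij (by omega), fun j hj hj' => ?_⟩
        rcases Nat.eq_or_lt_of_le hLm with he | hlt
        · -- `m = L`: no `j` in `[L, m-1]` unless `L = 0`
          rcases Nat.eq_zero_or_pos m with h0 | h0
          · have : j = 0 := by omega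
            by_contra hcon
            exact hspec ⟨h1, hc2, fun j' hj1 hj2 => by
              have e1 : j' = 0 := by omega
              refine ⟨0, by omega, by omega, ?_⟩
              rw [e1]
              simpa using Real.rpow_nonneg (norm_nonneg (fld k z 0)) (d / 4)⟩
          · omega
        · exact (hmin (m - 1) (by omega)).c3 j hj hj'
      refine ⟨hLm, hv, ?_⟩
      by_contra hcon
      push Not at hcon
      obtain ⟨i, hi1, hi2, hi3⟩ := hcon
      exact hspec ⟨h1, hc2, fun j hj hj' => by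
        rcases hj'.lt_or_eq with hlt | rfl
        · exact (hmin j hlt).c3 j hj le_rfl
        · exact ⟨i, hi1, hi2, hi3⟩⟩
  · left
    push Not at h1
    exact h1

end Crest.Agent.R128.LongX
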