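import Mathlib
import Crest.Agent.R128.Skel
import Crest.Agent.R128.LongX

/-!
# Row 128, node V2L of `Skel.lean` (helper892): area of the first violations of the duration clause

Dyadic class `M ≤ m ≤ 2M`: the `M / 2` shifts of the class are counted by one start per level
(`Lam0.sep`), at most `1000 * 11 (i + 2)` for `M = 2 b 2^i`, `2 b ~ k`.
-/

set_option autoImplicit false
open MeasureTheory Filter Topology Finset
open scoped ENNReal NNReal

namespace Crest.Agent.R128.V2L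

open Crest.Agent.R128.TreeSum Crest.Agent.R128.Acc Crest.Agent.R128.Lam0 Crest.Agent.R128.OnePerX
  Crest.Agent.R128.LongX Crest.Agent.R128.Long

theorem RV_mono {k : ℝ} {L : ℕ} {z : Tor} {n n' : ℕ} (h : RV k L z n) (hn : n' ≤ n) : RV k L z n' :=
  ⟨h.big, fun i j a b c => h.v2 i j a b (c.trans hn), fun j a b => h.v3 j a (b.trans hn)⟩

/-- class `M` -/
def A (k : ℝ) (M : ℕ) : Set Tor :=
  {z | RV k 1000 z (M - 1) ∧ ∀ i, 1000 ≤ i → i < M → ‖fld k z i‖ ≤ 2 * (2 * (M : ℝ)) ^ 4000}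

theorem measurableSet_A (k : ℝ) (M : ℕ) : MeasurableSet (A k M) := by
  have e : A k M = {z | RV k 1000 z (M - 1)} ∩
      ⋂ (i : ℕ) (_ : 1000 ≤ i) (_ : i < M), {z | ‖fld k z i‖ ≤ 2 * (2 * (M : ℝ)) ^ 4000} := by
    ext z
    simp only [A, Set.mem_inter_iff, Set.mem_ofPred_eq, Set.mem_iInter]
  rw [e]
  refine MeasurableSet.inter (measurable_RV k 1000 (M - 1)) ?_
  exact MeasurableSet.iInter fun i => MeasurableSet.iInter fun _ => MeasurableSet.iInter fun _ =>
      measurableSet_le (measurable_nf k i) measurable_const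

/-- pointwise count -/
theorem card_A {k : ℝ} (hk : (100:ℝ) ≤ k) {M : ℕ} (hM : 2000 ≤ M) {J : ℕ}
    (hJ : 2 * (2 * (M : ℝ)) ^ 4000 < k ^ (399 * J)) (z : Tor) [DecidablePred fun n => (T k)^[n] z ∈ A k M] :
    ((Finset.range (M / 2)).filter (fun n => (T k)^[n] z ∈ A k M)).card ≤ 1000 * J := by
  have hk0 : (0:ℝ) < k := by linarith
  apply card_le_of_sep (κ := k ^ 399) (by positivity)
    (F := fun n => ‖fld k ((T k)^[n] z) (M - 1 - n)‖) (y := 2 * (2 * (M : ℝ)) ^ 4000) J _ 1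
  · intro a ha b hb hab
    rw [Finset.mem_filter, Finset.mem_range] at ha hb
    obtain ⟨ha1, ha2, ha3⟩ := ha
    obtain ⟨hb1, hb2, hb3⟩ := hb
    have e1 : M - 1 - a = (b - a) + (M - 1 - b) := by omega
    have e2 : (T k)^[b] z = (T k)^[b - a] ((T k)^[a] z) := by
      rw [← Function.iterate_add_apply]
      congr 1
      omega
    have hv : RV k 1000 ((T k)^[a] z) ((b - a) + (M - 1 - b)) := RV_mono ha2 (by omega)
    have hs := sep hk (by norm_num) (by omega : 1000 ≤ b - a) hv (κ := k ^ 400) (by positivity) le_rfl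
    show k ^ 399 * ‖fld k ((T k)^[b] z) (M - 1 - b)‖ ≤ ‖fld k ((T k)^[a] z) (M - 1 - a)‖
    rw [e2, e1]
    have h0 : 0 ≤ k ^ 399 * ‖fld k ((T k)^[b - a] ((T k)^[a] z)) (M - 1 - b)‖ := by positivity
    have h1 : k ^ 400 * ‖fld k ((T k)^[b - a] ((T k)^[a] z)) (M - 1 - b)‖ =
        k * (k ^ 399 * ‖fld k ((T k)^[b - a] ((T k)^[a] z)) (M - 1 - b)‖) := by
      rw [← mul_assoc, ← pow_succ']
    rw [h1] at hs
    nlinarith
  · intro a ha
    rw [Finset.mem_filter, Finset.mem_range] at ha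
    have h1 := ha.2.1.big' (j := M - 1 - a) hk (by omega) (by omega)
    exact (one_le_pow₀ (by linarith)).trans h1
  · intro a ha
    rw [Finset.mem_filter, Finset.mem_range] at ha
    exact ha.2.2 (M - 1 - a) (by omega) (by omega)
  · rw [mul_one, ← pow_mul]
    exact hJ

/-- area of one class -/
theorem area_A {k : ℝ} (hk : (100:ℝ) ≤ k) {M : ℕ} (hM : 2000 ≤ M) {J : ℕ}
    (hJ : 2 * (2 * (M : ℝ)) ^ 4000 < k ^ (399 * J)) :
    ((M / 2 : ℕ) : ℝ≥0∞) * volume (A k M) ≤ ((1000 * J : ℕ) : ℝ≥0∞) := by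
  have key := Boot.packing (μ := (volume : Measure Tor)) (e := T k) (mp_T k) (measurableSet_A k M) (M / 2)
    (b := ((1000 * J : ℕ) : ℝ≥0∞)) (by
      intro z
      classical
      calc ∑ n ∈ Finset.range (M / 2), (A k M).indicator (fun _ => (1 : ℝ≥0∞)) ((T k)^[n] z)
          = ∑ n ∈ (Finset.range (M / 2)).filter (fun n => (T k)^[n] z ∈ A k M), (1 : ℝ≥0∞) := by
            rw [Finset.sum_filter]
            apply Finset.sum_congr rfl
            intro n _
            by_cases hc : (T k)^[n] z ∈ A k M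
            · rw [Set.indicator_of_mem hc, if_pos hc]
            · rw [Set.indicator_of_notMem hc, if_neg hc]
        _ = (((Finset.range (M / 2)).filter (fun n => (T k)^[n] z ∈ A k M)).card : ℝ≥0∞) := by simp
        _ ≤ ((1000 * J : ℕ) : ℝ≥0∞) := by exact_mod_cast card_A hk hM hJ z)
  simpa using key

theorem add_two_le (i : ℕ) : ((i : ℝ) + 2) ≤ 2 * (3 / 2) ^ i := by
  induction i with
  | zero => norm_num
  | succ i ih =>
    rw [pow_succ]
    push_cast
    have : (0:ℝ) ≤ i := Nat.cast_nonneg _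
    nlinarith

/-- size of the classes `M = 2 b 2 ^ i`, `2 b ≤ k` -/
theorem class_size {k : ℝ} (hk : (100:ℝ) ≤ k) {b : ℕ} (hb : 2 * (b : ℝ) ≤ k) (i : ℕ) :
    2 * (2 * ((2 * b * 2 ^ i : ℕ) : ℝ)) ^ 4000 < k ^ (399 * (11 * (i + 2))) := by
  have hk0 : (0:ℝ) < k := by linarith
  have h1 : 2 * ((2 * b * 2 ^ i : ℕ) : ℝ) ≤ k ^ (i + 2) := by
    push_cast
    calc 2 * (2 * (b:ℝ) * 2 ^ i) ≤ k * (k * k ^ i) := by
          have h2 : (2:ℝ) ^ i ≤ k ^ i := pow_le_pow_left₀ (by norm_num) (by linarith) i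
          have h3 : 2 * (b:ℝ) * 2 ^ i ≤ k * k ^ i :=
            mul_le_mul hb h2 (by positivity) hk0.le
          exact mul_le_mul (by linarith) h3 (by positivity) hk0.le
      _ = k ^ (i + 2) := by ring
  calc 2 * (2 * ((2 * b * 2 ^ i : ℕ) : ℝ)) ^ 4000 ≤ 2 * (k ^ (i + 2)) ^ 4000 := by
        refine mul_le_mul_of_nonneg_left ?_ (by norm_num)
        exact pow_le_pow_left₀ (by positivity) h1 _
    _ < k * (k ^ (i + 2)) ^ 4000 := mul_lt_mul_of_pos_right (by linarith) (by positivity)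
    _ = k ^ (1 + (i + 2) * 4000) := by rw [← pow_mul, pow_add, pow_one]
    _ ≤ k ^ (399 * (11 * (i + 2))) := pow_le_pow_right₀ (by linarith) (by omega)

/-- **V2L** (exact Prop of `Skel.lean`) -/
theorem v2l : Skel.V2L := by
  refine ⟨8002, fun L0 hL0 => ⟨352000, 10 ^ 4, fun k hk => ?_⟩⟩
  have hk100 : (100:ℝ) ≤ k := le_trans (by norm_num) hk
  have hk0 : (0:ℝ) < k := by linarith
  set b := ⌊k / 2⌋₊ with hb
  have hb1 : (b:ℝ) ≤ k / 2 := Nat.floor_le (by positivity)
  have hb2 : k / 2 < (b:ℝ) + 1 := Nat.lt_floor_add_one _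
  have hb3 : 1000 ≤ b := by
    apply Nat.le_floor
    push_cast
    linarith
  have hbk : k ≤ 4 * (b:ℝ) := by
    have : (1000:ℝ) ≤ b := by exact_mod_cast hb3
    linarith
  have hbpos : (0:ℝ) < b := by linarith
  have hcl : ∀ i : ℕ, volume (A k (2 * b * 2 ^ i)) ≤ ENNReal.ofReal (22000 / b * (3 / 4) ^ i) := by
    intro i
    have hM : 2000 ≤ 2 * b * 2 ^ i := by
      have : 2 * b * 1 ≤ 2 * b * 2 ^ i := Nat.mul_le_mul_left _ Nat.one_le_two_pow
      omega
    have h := area_A hk100 hM (J := 11 * (i + 2)) (class_size hk100 (by linarith) i)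
    have e : (2 * b * 2 ^ i / 2 : ℕ) = b * 2 ^ i := by
      rw [mul_assoc, Nat.mul_div_cancel_left _ (by norm_num)]
    rw [e] at h
    have hpos : 0 < b * 2 ^ i := by positivity
    have h2 : volume (A k (2 * b * 2 ^ i)) ≤
        ((1000 * (11 * (i + 2)) : ℕ) : ℝ≥0∞) / ((b * 2 ^ i : ℕ) : ℝ≥0∞) := by
      rw [ENNReal.le_div_iff_mul_le (Or.inl (by exact_mod_cast hpos.ne')) (Or.inl (ENNReal.natCast_ne_top _)),
        mul_comm]
      exact h
    refine h2.trans ?_
    rw [← ENNReal.ofReal_natCast (1000 * (11 * (i + 2))), ← ENNReal.ofReal_natCast (b * 2 ^ i),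
      ← ENNReal.ofReal_div_of_pos (by exact_mod_cast hpos)]
    apply ENNReal.ofReal_le_ofReal
    have h3 := add_two_le i
    have h4 : (0:ℝ) < (2:ℝ) ^ i := by positivity
    have e3 : (3 / 4 : ℝ) ^ i = (3 / 2) ^ i / 2 ^ i := by
      rw [← div_pow]; norm_num
    push_cast
    rw [e3, div_mul_div_comm]
    apply div_le_div_of_nonneg_right _ (by positivity)
    nlinarith
  have hsub : Skel.LG k L0 ⊆ ⋃ i : ℕ, A k (2 * b * 2 ^ i) := by
    rintro z ⟨hz1, m, hm, hRV, hsm⟩
    have hdig : ∀ m, m < L0 → k ^ (2 / 3 : ℝ) ≤ |V k ((T k)^[m] z).2| := by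
      intro m hm
      by_contra hc
      push Not at hc
      exact hz1 ⟨m, hm, hc⟩
    have h1 := base_norm (by linarith : (64:ℝ) ≤ k) hdig
    have h2 := hsm L0 (by omega) hm
    have hkm : k < (m:ℝ) := by
      by_contra hc
      push Not at hc
      have h3 : (m:ℝ) ^ 4000 ≤ k ^ 4000 := pow_le_pow_left₀ (Nat.cast_nonneg _) hc _
      have h4 : k ^ 4001 ≤ k ^ ((L0:ℝ) / 2) := by
        rw [← Real.rpow_natCast]
        apply Real.rpow_le_rpow_of_exponent_le (by linarith)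
        have : ((8002:ℕ):ℝ) ≤ L0 := by exact_mod_cast hL0
        push_cast at this ⊢
        linarith
      have h5 : k ^ 4001 = k * k ^ 4000 := by rw [← pow_succ']
      have h6 : (0:ℝ) < k ^ 4000 := by positivity
      have h7 : k * k ^ 4000 ≤ 2 * k ^ 4000 := by
        rw [← h5]
        calc k ^ 4001 ≤ k ^ ((L0:ℝ) / 2) := h4
          _ ≤ ‖fld k z L0‖ := h1
          _ ≤ 2 * (m:ℝ) ^ 4000 := h2
          _ ≤ 2 * k ^ 4000 := by linarith
      nlinarith
    have h2b : 2 * b ≤ m := by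
      have : ((2 * b : ℕ) : ℝ) ≤ (m:ℝ) := by push_cast; linarith
      exact_mod_cast this
    obtain ⟨i, hi1, hi2⟩ := exists_dyadic (a := 2 * b) (by omega) h2b
    refine Set.mem_iUnion.2 ⟨i, RV_mono hRV (by omega), fun j hj hj' => (hsm j hj (by omega)).trans ?_⟩
    refine mul_le_mul_of_nonneg_left ?_ (by norm_num)
    refine pow_le_pow_left₀ (Nat.cast_nonneg _) ?_ _
    exact_mod_cast hi2
  refine (measure_mono hsub).trans ((measure_iUnion_le _).trans ?_)
  refine (ENNReal.tsum_le_tsum hcl).trans ?_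
  have hs : HasSum (fun i : ℕ => (22000 / b : ℝ) * (3 / 4) ^ i) (22000 / b * 4) := by
    have := (hasSum_geometric_of_lt_one (by norm_num : (0:ℝ) ≤ 3 / 4) (by norm_num)).mul_left (22000 / b : ℝ)
    norm_num at this ⊢
    exact this
  rw [← ENNReal.ofReal_tsum_of_nonneg (fun i => by positivity) hs.summable, hs.tsum_eq]
  apply ENNReal.ofReal_le_ofReal
  have h8 : 1 / k ≤ Skel.e k := by
    unfold Skel.e
    rw [one_div, ← Real.rpow_neg_one]
    exact Real.rpow_le_rpow_of_exponent_le (by linarith) (by norm_num)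
  calc 22000 / (b:ℝ) * 4 ≤ 352000 * (1 / k) := by
        rw [div_mul_eq_mul_div, mul_one_div, div_le_div_iff₀ hbpos hk0]
        linarith
    _ ≤ 352000 * Skel.e k := by linarith

end Crest.Agent.R128.V2L
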