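import Crest.Agent.R128.DDRootB
import Crest.Agent.R128.AccRoot

/-!
# Row 128, V2 in root form, part 3 (helper136)

`count_events`: for every root orbit, the number of pairs `(s, D)`, `s < N`, `D ≥ 2000`, such that the start
`T^s z` has a relaxed drawdown event of class `k ^ D` completed within `N - s` steps, is at most
`8000 L` times the number of integer down-crossings of the root contour.
-/

set_option autoImplicit false

open MeasureTheory Finset
open scoped Matrix.Norms.L2Operator ENNReal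

namespace Crest.Agent.R128.DDRoot

open Crest.Agent.R128.TreeSum Crest.Agent.R128.Acc Crest.Agent.R128.Hyp Crest.Agent.R128.Lam0
open Crest.Agent.R128.Chain Crest.Agent.R128.AccRoot

theorem isField_gen (k : ℝ) (y : Tor) (σ : ℕ) (v : ℝ × ℝ) :
    IsField (fun j => V k ((T k)^[σ + j] y).2) (fun j => act (Mn k j ((T k)^[σ] y)) v) := by
  intro n
  simp only
  rw [Mn_succ', act_mul, act_Am]
  have : (T k)^[n] ((T k)^[σ] y) = (T k)^[σ + n] y := by
    rw [← Function.iterate_add_apply, add_comm]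
  rw [this]

theorem fld_add (k : ℝ) (y : Tor) (σ m : ℕ) :
    fld k y (σ + m) = act (Mn k m ((T k)^[σ] y)) (fld k y σ) := by
  unfold fld
  rw [add_comm, Mn_add, act_mul]

/-- logarithmic data of an event -/
theorem Ev.logs {k : ℝ} (hk : (10:ℝ) ^ 3 ≤ k) {L M : ℕ} (hL : 3 ≤ L) {X : ℝ} (hX : 1 < X) {y : Tor}
    {n c σ : ℕ} (h : Ev k L M X y n c σ) :
    Real.log ‖fld k y n‖ / 102 - Real.log 2 ≤ Real.log ‖Mn k (n - σ) ((T k)^[σ] y)‖ ∧
    Real.log ‖Mn k (c - σ) ((T k)^[σ] y)‖ ≤ 6 * Real.log 2 + Real.log k + Real.log c ∧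
    Real.log c ≤ Real.log 2 + (Real.log 2 + Real.log ‖fld k y n‖) / 400 := by
  have hk4 : (4:ℝ) ≤ k := le_trans (by norm_num) hk
  have hk0 : (0:ℝ) < k := by linarith
  have hW1 : 1 < ‖fld k y n‖ := lt_of_lt_of_le hX h.lo
  have hW0 : 0 < ‖fld k y n‖ := by linarith
  set W := ‖fld k y n‖ with hW
  set R : ℝ := W ^ ((101:ℝ) / 102) with hR
  have hR0 : 0 < R := Real.rpow_pos_of_pos hW0 _
  have hRpow : R ^ 102 = W ^ 101 := by
    rw [hR, ← Real.rpow_natCast, ← Real.rpow_mul hW0.le, ← Real.rpow_natCast]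
    norm_num
  have hlogR : Real.log R = 101 / 102 * Real.log W := by
    rw [hR, Real.log_rpow hW0]
  have le_R : ∀ j, ‖fld k y j‖ ^ 102 ≤ W ^ 101 → ‖fld k y j‖ ≤ R := by
    intro j hj
    rw [← hRpow] at hj
    exact le_of_pow_le_pow_left₀ (by norm_num) hR0.le hj
  have gt_R : ∀ j, σ < j → j < c → R < ‖fld k y j‖ := by
    intro j h1 h2
    have := h.mid j h1 h2
    rw [← hRpow] at this
    exact lt_of_pow_lt_pow_left₀ 102 (norm_nonneg _) this
  have hσR := le_R σ h.ends
  have hcR := le_R c h.endc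
  have hσn := h.hσ
  have hnc := h.hnc
  have nσ : nn (fld k y σ) ≤ 2 * R := (nn_le_norm _).trans (by linarith)
  have nc : nn (fld k y c) ≤ 2 * R := (nn_le_norm _).trans (by linarith)
  have nmid : ∀ j, σ < j → j < c → R < nn (fld k y j) := fun j h1 h2 =>
    lt_of_lt_of_le (gt_R j h1 h2) (norm_le_nn _)
  have nσ' : R ≤ 8 * k * nn (fld k y σ) :=
    (nmid (σ + 1) (by omega) (by omega)).le.trans (fld_step_le hk4 y σ)
  have nc' : R ≤ 8 * k * nn (fld k y c) := by
    have h1 := fld_step_ge hk4 y (c - 1)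
    have e : c - 1 + 1 = c := by omega
    rw [e] at h1
    exact (nmid (c - 1) (by omega) (by omega)).le.trans h1
  have pσ : 0 < nn (fld k y σ) := by
    by_contra hc
    push Not at hc
    nlinarith
  have pc : 0 < nn (fld k y c) := by
    by_contra hc
    push Not at hc
    nlinarith
  refine ⟨?_, ?_, ?_⟩
  · have h1 := nn_act_le (Mn k (n - σ) ((T k)^[σ] y)) (fld k y σ)
    rw [← fld_add, Nat.add_sub_cancel' hσn.le] at h1
    have h2 : W / (2 * R) ≤ ‖Mn k (n - σ) ((T k)^[σ] y)‖ := by
      rw [div_le_iff₀ (by positivity)]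
      calc W ≤ nn (fld k y n) := norm_le_nn _
        _ ≤ ‖Mn k (n - σ) ((T k)^[σ] y)‖ * nn (fld k y σ) := h1
        _ ≤ _ := mul_le_mul_of_nonneg_left nσ (norm_nonneg _)
    have h3 := Real.log_le_log (by positivity) h2
    rw [Real.log_div hW0.ne' (by positivity), Real.log_mul (by norm_num) hR0.ne', hlogR] at h3
    linarith
  · obtain ⟨m, hm⟩ : ∃ m, c = σ + m := ⟨c - σ, by omega⟩
    have hm1 : 1 ≤ m := by omega
    have e1 : c - σ = m := by omega
    rw [e1]
    have hbound : ‖Mn k m ((T k)^[σ] y)‖ ≤ 64 * k * m := by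
      apply norm_le_of_act (by positivity)
      intro v
      have ht := tree_ineq (isField_shift k y σ) (isField_gen k y σ v) (m := 0) (n := m) (Nat.zero_le _)
        (by simpa using pσ)
      simp only [add_zero, Mn_zero] at ht
      rw [← hm] at ht
      have e0 : act (1 : Matrix (Fin 2) (Fin 2) ℝ) v = v := by
        unfold act
        simp
      rw [e0] at ht
      refine ht.trans ?_
      rw [mul_comm (nn v)]
      apply mul_le_mul_of_nonneg_right _ (nn_nonneg v)
      have t1 : nn (fld k y c) / nn (fld k y σ) ≤ 16 * k := by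
        rw [div_le_iff₀ pσ]
        nlinarith
      have t2 : nn (fld k y σ) / nn (fld k y c) ≤ 16 * k := by
        rw [div_le_iff₀ pc]
        nlinarith
      have t3 : nn (fld k y σ) * nn (fld k y c) *
          TreeSum.wt (fun j => V k ((T k)^[σ + j] y).2) (fun j => fld k y (σ + j)) 0 m ≤ 32 * k * m := by
        unfold TreeSum.wt
        rw [Finset.mul_sum]
        calc ∑ j ∈ Ico 0 m, nn (fld k y σ) * nn (fld k y c) *
            ((|V k ((T k)^[σ + j] y).2| + 2) / (nn (fld k y (σ + j)) * nn (fld k y (σ + (j + 1)))))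
            ≤ ∑ _j ∈ Ico 0 m, 32 * k := by
              apply Finset.sum_le_sum
              intro j hj
              rw [Finset.mem_Ico] at hj
              have q1 : nn (fld k y σ) ≤ 2 * nn (fld k y (σ + j)) := by
                rcases Nat.eq_zero_or_pos j with h0 | h0
                · rw [h0, add_zero]; linarith
                · have := nmid (σ + j) (by omega) (by omega)
                  linarith
              have q2 : nn (fld k y c) ≤ 2 * nn (fld k y (σ + (j + 1))) := by
                rcases Nat.lt_or_ge (j + 1) m with h0 | h0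
                · have := nmid (σ + (j + 1)) (by omega) (by omega)
                  linarith
                · have : σ + (j + 1) = c := by omega
                  rw [this]; linarith
              have q3 := abs_V_le hk4 ((T k)^[σ + j] y)
              have p1 : 0 < nn (fld k y (σ + j)) := by linarith
              have p2 : 0 < nn (fld k y (σ + (j + 1))) := by linarith
              rw [mul_div_assoc', div_le_iff₀ (by positivity)]
              have q4 : nn (fld k y σ) * nn (fld k y c) ≤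
                  (2 * nn (fld k y (σ + j))) * (2 * nn (fld k y (σ + (j + 1)))) :=
                mul_le_mul q1 q2 pc.le (by positivity)
              calc nn (fld k y σ) * nn (fld k y c) * (|V k ((T k)^[σ + j] y).2| + 2)
                  ≤ ((2 * nn (fld k y (σ + j))) * (2 * nn (fld k y (σ + (j + 1))))) * (8 * k) :=
                    mul_le_mul q4 q3 (by positivity) (by positivity)
                _ = _ := by ring
          _ = 32 * k * m := by
              rw [Finset.sum_const, Nat.card_Ico, nsmul_eq_mul]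
              simp only [Nat.sub_zero]
              ring
      have hm1' : (1:ℝ) ≤ m := by exact_mod_cast hm1
      nlinarith
    have hm0 : (0:ℝ) < m := by exact_mod_cast hm1
    have hpos : 0 < ‖Mn k m ((T k)^[σ] y)‖ := norm_pos' (det_Mn _ _ _)
    have h3 := Real.log_le_log hpos hbound
    rw [Real.log_mul (by positivity) hm0.ne', Real.log_mul (by norm_num) hk0.ne'] at h3
    have h4 : Real.log 64 = 6 * Real.log 2 := by
      rw [show (64:ℝ) = 2 ^ 6 by norm_num, Real.log_pow]
      push_cast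
      ring
    have h5 : Real.log m ≤ Real.log c := by
      apply Real.log_le_log hm0
      exact_mod_cast (by omega : m ≤ c)
    linarith
  · have hLn := h.hLn
    obtain ⟨i, hi1, hi2, hi3⟩ := h.vl.v3 (c - 1) (by omega) le_rfl
    have hi4 := h.max i (by omega)
    have hc1 : 1 ≤ c - 1 := by omega
    have hc1' : (0:ℝ) < ((c - 1 : ℕ) : ℝ) := by exact_mod_cast hc1
    have h3 : Real.log (((c - 1 : ℕ) : ℝ) ^ 400) ≤ Real.log (2 * W) :=
      Real.log_le_log (by positivity) (by linarith)
    rw [Real.log_pow, Real.log_mul (by norm_num) hW0.ne'] at h3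
    push_cast at h3
    have h4 : Real.log c ≤ Real.log (2 * ((c - 1 : ℕ) : ℝ)) := by
      apply Real.log_le_log (by exact_mod_cast (by omega : 0 < c))
      exact_mod_cast (by omega : c ≤ 2 * (c - 1))
    rw [Real.log_mul (by norm_num) hc1'.ne'] at h4
    linarith

/-- **geometry**: an event produces an extremum of the root contour -/
theorem Ev.extremum {k : ℝ} (hk : (10:ℝ) ^ 3 ≤ k) {L M : ℕ} (hL : 3 ≤ L) {D : ℕ} (hD : 2000 ≤ D)
    {z : Tor} {s n c σ : ℕ} (h : Ev k L M (k ^ D) ((T k)^[s] z) n c σ) :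
    (∃ t, Pk (fun j => bt (rr k z) j / Real.log k) (s + σ) (s + c) t ((D : ℝ) / 2000)) ∨
    (∃ t, Vl (fun j => bt (rr k z) j / Real.log k) (s + σ) (s + c) t ((D : ℝ) / 2000)) := by
  have hk4 : (4:ℝ) ≤ k := le_trans (by norm_num) hk
  have hk0 : (0:ℝ) < k := by linarith
  have hk1 : (1:ℝ) < k := by linarith
  have hX1 : (1:ℝ) < k ^ D := one_lt_pow₀ hk1 (by omega)
  obtain ⟨l1, l2, l3⟩ := h.logs hk hL hX1
  have hκ : 0 < Real.log k := Real.log_pos hk1
  have hκ2 : 9 * Real.log 2 ≤ Real.log k := by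
    have h1 : Real.log ((2:ℝ) ^ 9) ≤ Real.log k :=
      Real.log_le_log (by norm_num) (le_trans (by norm_num) hk)
    rw [Real.log_pow] at h1
    push_cast at h1
    exact h1
  have hl2 : 0 < Real.log 2 := Real.log_pos (by norm_num)
  have hlo : (D : ℝ) * Real.log k ≤ Real.log ‖fld k ((T k)^[s] z) n‖ := by
    have := Real.log_le_log (by positivity) h.lo
    rwa [Real.log_pow] at this
  have hσn := h.hσ
  have hnc := h.hnc
  -- the three matrices
  have E1 : Mn k (s + n) z * (Mn k (s + σ) z)⁻¹ = Mn k (n - σ) ((T k)^[σ] ((T k)^[s] z)) := by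
    have := transfer_eq k z (s + σ) (n - σ)
    rw [show s + σ + (n - σ) = s + n by omega] at this
    rw [this, add_comm s σ, Function.iterate_add_apply]
  have E2 : Mn k (s + c) z * (Mn k (s + σ) z)⁻¹ = Mn k (c - σ) ((T k)^[σ] ((T k)^[s] z)) := by
    have := transfer_eq k z (s + σ) (c - σ)
    rw [show s + σ + (c - σ) = s + c by omega] at this
    rw [this, add_comm s σ, Function.iterate_add_apply]
  set W := Real.log ‖fld k ((T k)^[s] z) n‖ with hW
  set dab := Real.log ‖Mn k (n - σ) ((T k)^[σ] ((T k)^[s] z))‖ with hdab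
  set dac := Real.log ‖Mn k (c - σ) ((T k)^[σ] ((T k)^[s] z))‖ with hdac
  have hdac0 : 0 ≤ dac := Real.log_nonneg (one_le_norm (det_Mn _ _ _))
  have hc0 : (0:ℝ) < c := by exact_mod_cast (by omega : 0 < c)
  set x : ℝ := (D : ℝ) * Real.log k / 2000 with hx
  have hD' : (2000:ℝ) ≤ D := by exact_mod_cast hD
  have hDk : 2000 * Real.log k ≤ D * Real.log k := mul_le_mul_of_nonneg_right hD' hκ.le
  have hx0 : 0 < x := by
    rw [hx]
    have : 0 < (D:ℝ) * Real.log k := by nlinarith
    positivity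
  have hosc := osc (f := bt (rr k z)) (a := s + σ) (b := s + n) (c := s + c) (x := x) (dab := dab)
    (dac := dac) (c0 := 7 * Real.log 2 + Real.log k + Real.log c) (c1 := 2 * Real.log 2) hx0
    (by omega) (by omega) (by linarith)
    (by
      have := bt_diff k z (s + σ) (s + c)
      rw [E2] at this
      exact this)
    (by
      obtain ⟨u, hu, hum⟩ := (Finset.Icc (s + σ) (s + n)).exists_min_image (bt (rr k z))
        ⟨s + σ, by rw [Finset.mem_Icc]; omega⟩
      rw [Finset.mem_Icc] at hu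
      have hum' : ∀ m, s + σ ≤ m → m ≤ s + n → bt (rr k z) u ≤ bt (rr k z) m := fun m h3 h4 =>
        hum m (Finset.mem_Icc.mpr ⟨h3, h4⟩)
      refine ⟨u, hu.1, hu.2, hum', ?_⟩
      have h1 := trans_le hk4 z (a := s + σ) (b := s + n) (u := u) (by omega) hum'
      rw [E1] at h1
      have hpos : 0 < ‖Mn k (n - σ) ((T k)^[σ] ((T k)^[s] z))‖ := norm_pos' (det_Mn _ _ _)
      have h2 := Real.log_le_log hpos h1
      have e3 : s + n - (s + σ) = n - σ := by omega
      rw [e3] at h2
      have hns : (0:ℝ) < ((n - σ : ℕ) : ℝ) := by exact_mod_cast (by omega : 0 < n - σ)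
      rw [Real.log_mul (by positivity) (Real.exp_pos _).ne', Real.log_exp,
        Real.log_mul (by positivity) hns.ne', Real.log_mul (by norm_num) hk0.ne'] at h2
      have h4 : Real.log 128 = 7 * Real.log 2 := by
        rw [show (128:ℝ) = 2 ^ 7 by norm_num, Real.log_pow]
        push_cast
        ring
      have h5 : Real.log ((n - σ : ℕ) : ℝ) ≤ Real.log c := by
        apply Real.log_le_log hns
        exact_mod_cast (by omega : n - σ ≤ c)
      linarith)
    (by
      rw [hx]
      have hP : (D:ℝ) * Real.log k ≤ W := hlo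
      have : 2000 * Real.log k ≤ (D:ℝ) * Real.log k := hDk
      linarith)
  have hxk : x / Real.log k = (D : ℝ) / 2000 := by
    rw [hx]
    field_simp
  rcases hosc with ⟨t, ht⟩ | ⟨t, ht⟩
  · left
    refine ⟨t, ?_⟩
    obtain ⟨u, w, h1, h2, h3, h4, h5, h6, h7, h8⟩ := ht
    refine ⟨u, w, h1, h2, h3, h4, ?_, ?_, ?_, ?_⟩
    · rw [← hxk, ← add_div]
      exact div_le_div_of_nonneg_right h5 hκ.le
    · rw [← hxk, ← add_div]
      exact div_le_div_of_nonneg_right h6 hκ.le
    · intro m hm1 hm2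
      exact div_le_div_of_nonneg_right (h7 m hm1 hm2) hκ.le
    · intro m hm1 hm2
      exact div_lt_div_of_pos_right (h8 m hm1 hm2) hκ
  · right
    refine ⟨t, ?_⟩
    obtain ⟨u, w, h1, h2, h3, h4, h5, h6, h7, h8⟩ := ht
    refine ⟨u, w, h1, h2, h3, h4, ?_, ?_, ?_, ?_⟩
    · rw [← hxk, ← add_div]
      exact div_le_div_of_nonneg_right h5 hκ.le
    · rw [← hxk, ← add_div]
      exact div_le_div_of_nonneg_right h6 hκ.le
    · intro m hm1 hm2
      exact div_le_div_of_nonneg_right (h7 m hm1 hm2) hκ.le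
    · intro m hm1 hm2
      exact div_lt_div_of_pos_right (h8 m hm1 hm2) hκ

/-- relaxed drawdown event of class `k ^ D` completed within `M` steps (`Skel.RD` for `L = 1000`) -/
def Bev (k : ℝ) (L M D : ℕ) : Set Tor :=
  {z | ∃ n n', DDn k L M (k ^ D) z n n' ∧ RV k L z (n' - 1)}

open Classical in
/-- **V2, pointwise root form** -/
theorem count_events {k : ℝ} (hk : (10:ℝ) ^ 3 ≤ k) {L : ℕ} (hL : 3 ≤ L) (z : Tor) (N H : ℕ) :
    ∑ D ∈ Finset.Icc 2000 H, #{s ∈ range N | (T k)^[s] z ∈ Bev k L (N - s) D} ≤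
      8000 * L * cross k N z := by
  have hk1 : (1:ℝ) < k := lt_of_lt_of_le (by norm_num) hk
  have hκ : 0 < Real.log k := Real.log_pos hk1
  set f : ℕ → ℝ := fun j => bt (rr k z) j / Real.log k with hf
  have hf0 : ∀ n, 0 ≤ f n := fun n => div_nonneg (bt_nonneg (rr_pos k z) (rr_h4 k z) n) hκ.le
  have hcr : cross k N z = cr f N := rfl
  rw [hcr]
  set Q : Finset (ℕ × ℕ) := ((range N) ×ˢ (Finset.Icc 2000 H)).filter
    (fun p => (T k)^[p.1] z ∈ Bev k L (N - p.1) p.2) with hQ
  have hQc : ∑ D ∈ Finset.Icc 2000 H, #{s ∈ range N | (T k)^[s] z ∈ Bev k L (N - s) D} = #Q := by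
    rw [hQ, Finset.card_filter, Finset.sum_product_right]
    apply Finset.sum_congr rfl
    intro D _
    rw [Finset.card_filter]
  rw [hQc]
  set R1 : ℕ × ℕ → ℕ → Prop := fun p t => ∃ n c σ, Ev k L (N - p.1) (k ^ p.2) ((T k)^[p.1] z) n c σ ∧
    Pk f (p.1 + σ) (p.1 + c) t ((p.2 : ℝ) / 2000) with hR1
  set R2 : ℕ × ℕ → ℕ → Prop := fun p t => ∃ n c σ, Ev k L (N - p.1) (k ^ p.2) ((T k)^[p.1] z) n c σ ∧
    Vl f (p.1 + σ) (p.1 + c) t ((p.2 : ℝ) / 2000) with hR2
  have hsub : Q ⊆ (Q.filter (fun p => ∃ t, R1 p t)) ∪ (Q.filter (fun p => ∃ t, R2 p t)) := by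
    intro p hp
    have hp' := hp
    rw [hQ, Finset.mem_filter, Finset.mem_product, Finset.mem_range, Finset.mem_Icc] at hp'
    obtain ⟨⟨p1, p2, p3⟩, n, n', p4, p5⟩ := hp'
    have hX1 : (1:ℝ) < k ^ p.2 := one_lt_pow₀ hk1 (by omega)
    obtain ⟨n, c, σ, hE⟩ := ev_of hX1 p4 p5
    rcases hE.extremum hk hL p2 with ⟨t, ht⟩ | ⟨t, ht⟩
    · exact Finset.mem_union_left _ (Finset.mem_filter.mpr ⟨hp, t, n, c, σ, hE, ht⟩)
    · exact Finset.mem_union_right _ (Finset.mem_filter.mpr ⟨hp, t, n, c, σ, hE, ht⟩)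
  -- general multiplicity
  have mult : ∀ (Q' : Finset (ℕ × ℕ)) (τ : ℕ × ℕ → ℕ),
      (∀ p ∈ Q', ∃ n c σ, Ev k L (N - p.1) (k ^ p.2) ((T k)^[p.1] z) n c σ ∧ p.1 + σ < τ p ∧ τ p < p.1 + c) →
      ∀ t D, #{p ∈ Q' | τ p = t ∧ p.2 = D} ≤ L := by
    intro Q' τ hQ' t D
    rcases ({p ∈ Q' | τ p = t ∧ p.2 = D} : Finset (ℕ × ℕ)).eq_empty_or_nonempty with he | hne
    · rw [he]; simp
    · obtain ⟨p0, hp0, hmin⟩ := Finset.exists_min_image _ (fun p : ℕ × ℕ => p.1) hne
      have h1 : ({p ∈ Q' | τ p = t ∧ p.2 = D} : Finset (ℕ × ℕ)) ⊆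
          (Finset.Ico p0.1 (p0.1 + L)).image (fun s => (s, D)) := by
        intro q hq
        have hq' := hmin q hq
        rw [Finset.mem_filter] at hq hp0
        rw [Finset.mem_image]
        refine ⟨q.1, ?_, ?_⟩
        · rw [Finset.mem_Ico]
          refine ⟨hq', ?_⟩
          by_contra hc
          push Not at hc
          obtain ⟨n1, c1, σ1, e1, a1, a2⟩ := hQ' p0 hp0.1
          obtain ⟨n2, c2, σ2, e2, b1, b2⟩ := hQ' q hq.1
          rw [hp0.2.1] at a1 a2
          rw [hq.2.1] at b1 b2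
          rw [hp0.2.2] at e1
          rw [hq.2.2] at e2
          have e3 : (T k)^[q.1] z = (T k)^[q.1 - p0.1] ((T k)^[p0.1] z) := by
            rw [← Function.iterate_add_apply, Nat.sub_add_cancel hq']
          rw [e3] at e2
          exact Ev.overlap hk hL (by positivity) e1 e2 (by omega) (by omega)
        · rw [← hq.2.2]
      calc #{p ∈ Q' | τ p = t ∧ p.2 = D} ≤ _ := Finset.card_le_card h1
        _ ≤ #(Finset.Ico p0.1 (p0.1 + L)) := Finset.card_image_le
        _ = L := by simp
  have hQN : ∀ p ∈ Q, p.1 ≤ N ∧ 2000 ≤ p.2 := by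
    intro p hp
    rw [hQ, Finset.mem_filter, Finset.mem_product, Finset.mem_range, Finset.mem_Icc] at hp
    omega
  have b1 : #(Q.filter (fun p => ∃ t, R1 p t)) ≤ 2 * 2000 * L * cr f N := by
    have hch : ∀ p ∈ Q.filter (fun p => ∃ t, R1 p t), ∃ t, R1 p t := fun p hp =>
      (Finset.mem_filter.mp hp).2
    choose! τ hτ using hch
    apply count_pairs (τ := τ) (A := 2000) (by norm_num)
    · intro p hp
      exact (hQN p (Finset.mem_filter.mp hp).1).2
    · apply mult
      intro p hp
      obtain ⟨n, c, σ, e, u, w, h1, h2, h3, h4, _⟩ := hτ p hp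
      exact ⟨n, c, σ, e, by omega, by omega⟩
    · intro x hx
      have := sum_Pk (f := f) hf0 (N := N) (S := (Q.filter (fun p => ∃ t, R1 p t)).image τ)
        (x := fun t => (x t : ℝ) / 2000) (fun t _ => div_nonneg (Nat.cast_nonneg _) (by norm_num)) (by
          intro t ht
          obtain ⟨p, hp, hpt, hxt⟩ := hx t ht
          obtain ⟨n, c, σ, e, hpk⟩ := hτ p hp
          rw [hpt, ← hxt] at hpk
          have h3 := (hQN p (Finset.mem_filter.mp hp).1).1
          exact hpk.mono (Nat.zero_le _) (by have := e.hcM; omega))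
      refine le_trans (le_of_eq ?_) this
      apply Finset.sum_congr rfl
      intro t _
      rw [Nat.floor_div_ofNat, Nat.floor_natCast]
  have b2 : #(Q.filter (fun p => ∃ t, R2 p t)) ≤ 2 * 2000 * L * cr f N := by
    have hch : ∀ p ∈ Q.filter (fun p => ∃ t, R2 p t), ∃ t, R2 p t := fun p hp =>
      (Finset.mem_filter.mp hp).2
    choose! τ hτ using hch
    apply count_pairs (τ := τ) (A := 2000) (by norm_num)
    · intro p hp
      exact (hQN p (Finset.mem_filter.mp hp).1).2
    · apply mult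
      intro p hp
      obtain ⟨n, c, σ, e, u, w, h1, h2, h3, h4, _⟩ := hτ p hp
      exact ⟨n, c, σ, e, by omega, by omega⟩
    · intro x hx
      have := sum_Vl (f := f) hf0 (N := N) (S := (Q.filter (fun p => ∃ t, R2 p t)).image τ)
        (x := fun t => (x t : ℝ) / 2000) (fun t _ => div_nonneg (Nat.cast_nonneg _) (by norm_num)) (by
          intro t ht
          obtain ⟨p, hp, hpt, hxt⟩ := hx t ht
          obtain ⟨n, c, σ, e, hpk⟩ := hτ p hp
          rw [hpt, ← hxt] at hpk
          have h3 := (hQN p (Finset.mem_filter.mp hp).1).1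
          exact hpk.mono (Nat.zero_le _) (by have := e.hcM; omega))
      refine le_trans (le_of_eq ?_) this
      apply Finset.sum_congr rfl
      intro t _
      rw [Nat.floor_div_ofNat, Nat.floor_natCast]
  calc #Q ≤ _ := Finset.card_le_card hsub
    _ ≤ _ := Finset.card_union_le _ _
    _ ≤ 2 * 2000 * L * cr f N + 2 * 2000 * L * cr f N := Nat.add_le_add b1 b2
    _ = 8000 * L * cr f N := by ring

open Classical in
/-- `Skel.V2` (with `D0 = 2000`, `C = 8000000`) -/
theorem v2_form {k : ℝ} (hk : (10:ℝ) ^ 3 ≤ k) (N J : ℕ) (z : Tor) :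
    ∑ D ∈ range J, #{v ∈ range N | (T k)^[v] z ∈ Bev k 1000 (N - v) (2000 + D)} ≤
      8000000 * cross k N z := by
  have h := count_events hk (L := 1000) (by norm_num) z N (2000 + J)
  refine le_trans ?_ (h.trans (by norm_num))
  have e : ∑ D ∈ range J, #{v ∈ range N | (T k)^[v] z ∈ Bev k 1000 (N - v) (2000 + D)} =
      ∑ D ∈ Finset.Ico 2000 (2000 + J), #{v ∈ range N | (T k)^[v] z ∈ Bev k 1000 (N - v) D} := by
    rw [Finset.sum_Ico_eq_sum_range]
    simp
  rw [e]
  apply Finset.sum_le_sum_of_subset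
  intro D hD
  rw [Finset.mem_Ico] at hD
  rw [Finset.mem_Icc]
  omega

end Crest.Agent.R128.DDRoot
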