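import Crest.Agent.R128.Skel
import Crest.Agent.R128.DDRootC

/-!
# Row 128: V2 (single cover) in the form of the skeleton (helper136)
-/

set_option autoImplicit false

namespace Crest.Agent.R128.V2Proof

/-- **V2** -/
theorem v2 : Skel.V2 := by
  refine ⟨2000, 8000000, (10:ℝ) ^ 3, ?_⟩
  intro k hk N J z
  exact DDRoot.v2_form hk N J z

end Crest.Agent.R128.V2Proof
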