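import Mathlib
import Crest.Agent.R128.Torus

/-!
# Row 128, node V4-STRIPS (helper953): double covering by separated strips

No lags, no thresholds, no disintegration: every point `z` of the class `B` has its own unit curve
`l ↦ Y z l`; a maximal family of pairwise disjoint strips of width `r` has area at most the area of the
relaxed class, and by coherence the strips of width `K r` cover `B`.
-/

set_option autoImplicit false

open MeasureTheory Set Topology Filter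
open scoped ENNReal NNReal

namespace Crest.Agent.R128.Strip

/-- abstract covering by a maximal disjoint family; no measurability of `B`, `R`, `Q` is needed -/
theorem strip_cover {Ω : Type*} [MeasurableSpace Ω] (μ : Measure Ω) {B R Q : Set Ω}
    (hQf : μ Q ≠ ∞) (N M : Ω → Set Ω) {c C : ℝ≥0∞} (hc : c ≠ 0) (hcf : c ≠ ∞)
    (hNm : ∀ z ∈ B, MeasurableSet (N z)) (hNQ : ∀ z ∈ B, N z ⊆ Q) (hNc : ∀ z ∈ B, c ≤ μ (N z))
    (hM : ∀ z ∈ B, μ (R ∩ M z) ≤ C)
    (hcov : ∀ z ∈ B, ∀ z' ∈ B, (N z ∩ N z').Nonempty → z' ∈ M z) :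
    c * μ (B ∩ R) ≤ C * μ Q := by
  classical
  -- admissible families
  let P : Finset Ω → Prop := fun F => (∀ z ∈ F, z ∈ B) ∧ (F : Set Ω).PairwiseDisjoint N
  have hsum : ∀ F, P F → (F.card : ℝ≥0∞) * c ≤ μ Q := by
    intro F hF
    calc (F.card : ℝ≥0∞) * c = ∑ _z ∈ F, c := by rw [Finset.sum_const, nsmul_eq_mul]
      _ ≤ ∑ z ∈ F, μ (N z) := Finset.sum_le_sum fun z hz => hNc z (hF.1 z hz)
      _ = μ (⋃ z ∈ F, N z) := (measure_biUnion_finset hF.2 fun z hz => hNm z (hF.1 z hz)).symm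
      _ ≤ μ Q := measure_mono (Set.iUnion₂_subset fun z hz => hNQ z (hF.1 z hz))
  -- the cardinalities are bounded
  obtain ⟨m, hm⟩ : ∃ m : ℕ, ∀ F, P F → F.card ≤ m := by
    obtain ⟨m, hm⟩ := ENNReal.exists_nat_gt (show μ Q / c ≠ ∞ from ENNReal.div_ne_top hQf hc)
    refine ⟨m, fun F hF => ?_⟩
    have h1 : (F.card : ℝ≥0∞) ≤ μ Q / c := (ENNReal.le_div_iff_mul_le (Or.inl hc) (Or.inl hcf)).2 (hsum F hF)
    have h2 : (F.card : ℝ≥0∞) < m := lt_of_le_of_lt h1 hm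
    exact_mod_cast h2.le
  obtain ⟨F, hF, hmax⟩ : ∃ F, P F ∧ ∀ G, P G → G.card ≤ F.card := by
    have hex : ∃ n, ∃ F, P F ∧ m - F.card = n := ⟨m - (∅ : Finset Ω).card, ∅, ⟨by simp, by simp⟩, rfl⟩
    obtain ⟨F, hF, hFn⟩ := Nat.find_spec hex
    refine ⟨F, hF, fun G hG => ?_⟩
    have h1 := Nat.find_min' hex ⟨G, hG, rfl⟩
    rw [← hFn] at h1
    have h2 := hm F hF
    have h3 := hm G hG
    omega
  have hcover : B ∩ R ⊆ ⋃ z ∈ F, R ∩ M z := by
    rintro w ⟨hwB, hwR⟩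
    by_contra hcon
    simp only [Set.mem_iUnion, Set.mem_inter_iff, not_exists, not_and] at hcon
    have hdis : ∀ z ∈ F, Disjoint (N z) (N w) := by
      intro z hz
      rw [Set.disjoint_iff_inter_eq_empty]
      by_contra hne
      exact hcon z hz hwR (hcov z (hF.1 z hz) w hwB (Set.nonempty_iff_ne_empty.2 hne))
    have hNw : (N w).Nonempty := by
      rw [Set.nonempty_iff_ne_empty]
      intro h0
      have := hNc w hwB
      rw [h0, measure_empty] at this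
      exact hc (le_antisymm this bot_le)
    have hwF : w ∉ F := by
      intro hw
      have := hdis w hw
      rw [disjoint_self] at this
      exact hNw.ne_empty this
    have hG : P (insert w F) := by
      refine ⟨?_, ?_⟩
      · intro z hz
        rcases Finset.mem_insert.1 hz with rfl | h
        · exact hwB
        · exact hF.1 z h
      · rw [Finset.coe_insert]
        refine (Set.pairwiseDisjoint_insert).2 ⟨hF.2, fun z hz _ => (hdis z hz).symm⟩
    have := hmax _ hG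
    rw [Finset.card_insert_of_notMem hwF] at this
    omega
  calc c * μ (B ∩ R) ≤ c * ∑ z ∈ F, μ (R ∩ M z) := by
        gcongr
        exact (measure_mono hcover).trans (measure_biUnion_finset_le F _)
    _ ≤ c * ∑ _z ∈ F, C := by
        gcongr with z hz
        exact hM z (hF.1 z hz)
    _ = C * ((F.card : ℝ≥0∞) * c) := by
        rw [Finset.sum_const, nsmul_eq_mul]; ring
    _ ≤ C * μ Q := by
        gcongr
        exact hsum F hF

/-- slicing a strip along the translated graphs -/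
theorem volume_strip_le {σ : ℝ → ℝ} (hσ : Measurable σ) {A : Set (ℝ × ℝ)} (hA : MeasurableSet A)
    {I : Set ℝ} (hI : MeasurableSet I) {ρ : ℝ} {lam : ℝ≥0∞}
    (h : ∀ u, |u| ≤ ρ → volume {l : ℝ | l ∈ I ∧ (l, σ l + u) ∈ A} ≤ lam) :
    volume {p : ℝ × ℝ | p.1 ∈ I ∧ |p.2 - σ p.1| ≤ ρ ∧ p ∈ A} ≤ ENNReal.ofReal (2 * ρ) * lam := by
  -- the shear is measure preserving
  have hmp : MeasurePreserving (fun p : ℝ × ℝ => (p.1, σ p.1 + p.2)) volume volume := by
    have := (MeasurePreserving.id (volume : Measure ℝ)).skew_product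
      (μc := (volume : Measure ℝ)) (μd := (volume : Measure ℝ))
      (g := fun b a => σ b + a) (by
        exact (hσ.comp measurable_fst).add measurable_snd)
      (ae_of_all _ fun b => (measurePreserving_add_left (volume : Measure ℝ) (σ b)).map_eq)
    exact this
  set S : Set (ℝ × ℝ) := {p : ℝ × ℝ | p.1 ∈ I ∧ |p.2 - σ p.1| ≤ ρ ∧ p ∈ A} with hS
  have hSm : MeasurableSet S := by
    have h1 : MeasurableSet {p : ℝ × ℝ | p.1 ∈ I} := measurable_fst hI
    have h2 : MeasurableSet {p : ℝ × ℝ | |p.2 - σ p.1| ≤ ρ} :=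
      measurableSet_le ((measurable_snd.sub (hσ.comp measurable_fst)).abs) measurable_const
    exact h1.inter (h2.inter hA)
  have e1 : volume S = volume ((fun p : ℝ × ℝ => (p.1, σ p.1 + p.2)) ⁻¹' S) :=
    (hmp.measure_preimage hSm.nullMeasurableSet).symm
  have e2 : (fun p : ℝ × ℝ => (p.1, σ p.1 + p.2)) ⁻¹' S =
      {p : ℝ × ℝ | p.1 ∈ I ∧ |p.2| ≤ ρ ∧ (p.1, σ p.1 + p.2) ∈ A} := by
    ext p
    simp [hS]
  have hm2 : MeasurableSet {p : ℝ × ℝ | p.1 ∈ I ∧ |p.2| ≤ ρ ∧ (p.1, σ p.1 + p.2) ∈ A} := by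
    rw [← e2]; exact hmp.measurable hSm
  rw [e1, e2, Measure.volume_eq_prod, Measure.prod_apply_symm hm2]
  calc ∫⁻ u, volume ((fun l => (l, u)) ⁻¹' {p : ℝ × ℝ | p.1 ∈ I ∧ |p.2| ≤ ρ ∧ (p.1, σ p.1 + p.2) ∈ A})
      ≤ ∫⁻ u, (Set.Icc (-ρ) ρ).indicator (fun _ => lam) u := by
        apply lintegral_mono
        intro u
        by_cases hu : u ∈ Set.Icc (-ρ) ρ
        · rw [Set.indicator_of_mem hu]
          refine le_trans (measure_mono ?_) (h u (abs_le.2 hu))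
          rintro l ⟨h1, _, h3⟩
          exact ⟨h1, h3⟩
        · rw [Set.indicator_of_notMem hu]
          have : (fun l => (l, u)) ⁻¹' {p : ℝ × ℝ | p.1 ∈ I ∧ |p.2| ≤ ρ ∧ (p.1, σ p.1 + p.2) ∈ A} = ∅ := by
            ext l
            simp only [Set.mem_preimage, Set.mem_ofPred_eq, Set.mem_empty_iff_false, iff_false]
            rintro ⟨_, h2, _⟩
            exact hu (abs_le.1 h2)
          show volume ((fun l => (l, u)) ⁻¹' {p : ℝ × ℝ | p.1 ∈ I ∧ |p.2| ≤ ρ ∧ (p.1, σ p.1 + p.2) ∈ A}) ≤ 0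
          rw [this, measure_empty]
    _ = ENNReal.ofReal (2 * ρ) * lam := by
        rw [lintegral_indicator_const measurableSet_Icc, Real.volume_Icc]
        rw [mul_comm]
        congr 2
        ring

/-- the area of a strip -/
theorem volume_strip_eq {σ : ℝ → ℝ} (hσ : Measurable σ) {I : Set ℝ} (hI : MeasurableSet I) {ρ : ℝ} :
    volume {p : ℝ × ℝ | p.1 ∈ I ∧ |p.2 - σ p.1| ≤ ρ} = volume I * ENNReal.ofReal (2 * ρ) := by
  have hSm : MeasurableSet {p : ℝ × ℝ | p.1 ∈ I ∧ |p.2 - σ p.1| ≤ ρ} := by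
    have h1 : MeasurableSet {p : ℝ × ℝ | p.1 ∈ I} := measurable_fst hI
    have h2 : MeasurableSet {p : ℝ × ℝ | |p.2 - σ p.1| ≤ ρ} :=
      measurableSet_le ((measurable_snd.sub (hσ.comp measurable_fst)).abs) measurable_const
    exact h1.inter h2
  rw [Measure.volume_eq_prod, Measure.prod_apply hSm]
  have : ∀ l, volume (Prod.mk l ⁻¹' {p : ℝ × ℝ | p.1 ∈ I ∧ |p.2 - σ p.1| ≤ ρ}) =
      I.indicator (fun _ => ENNReal.ofReal (2 * ρ)) l := by
    intro l
    by_cases hl : l ∈ I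
    · rw [Set.indicator_of_mem hl]
      have : Prod.mk l ⁻¹' {p : ℝ × ℝ | p.1 ∈ I ∧ |p.2 - σ p.1| ≤ ρ} = Set.Icc (σ l - ρ) (σ l + ρ) := by
        ext s
        simp only [Set.mem_preimage, Set.mem_ofPred_eq, hl, true_and, Set.mem_Icc]
        rw [abs_le]
        constructor
        · rintro ⟨a, b⟩; constructor <;> linarith
        · rintro ⟨a, b⟩; constructor <;> linarith
      rw [this, Real.volume_Icc]
      congr 1
      ring
    · rw [Set.indicator_of_notMem hl]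
      have : Prod.mk l ⁻¹' {p : ℝ × ℝ | p.1 ∈ I ∧ |p.2 - σ p.1| ≤ ρ} = ∅ := by
        ext s
        simp [hl]
      rw [this, measure_empty]
  simp_rw [this]
  rw [lintegral_indicator_const hI, mul_comm]

theorem measurable_pr : Measurable pr := by
  unfold pr
  exact (AddCircle.measurable_mk'.comp measurable_fst).prodMk (AddCircle.measurable_mk'.comp measurable_snd)

/-- one cell -/
theorem volume_cell {B : Set Tor} (hB : MeasurableSet B) (a b : ℝ) :
    volume {z : ℝ × ℝ | (z.1 ∈ Set.Ioc a (a + 1) ∧ z.2 ∈ Set.Ioc b (b + 1)) ∧ pr z ∈ B} = volume B := by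
  have h1 := UnitAddCircle.measurePreserving_mk a
  have h2 := UnitAddCircle.measurePreserving_mk b
  have h3 := h1.prod h2
  have h4 := h3.measure_preimage (s := B) (by
    rw [← Measure.volume_eq_prod]; exact hB.nullMeasurableSet)
  rw [← Measure.volume_eq_prod, Measure.prod_restrict] at h4
  have e : (Prod.map (fun a : ℝ => (a : UnitAddCircle)) (fun a : ℝ => (a : UnitAddCircle))) = pr := rfl
  rw [Measure.restrict_apply (by rw [e]; exact measurable_pr hB)] at h4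
  rw [← h4, e]
  congr 1
  ext z
  simp only [Set.mem_ofPred_eq, Set.mem_inter_iff, Set.mem_preimage, Set.mem_prod]
  tauto

/-- the box of nine cells -/
theorem volume_box {B : Set Tor} (hB : MeasurableSet B) :
    volume {z : ℝ × ℝ | (z.1 ∈ Set.Ioc (-1 : ℝ) 2 ∧ z.2 ∈ Set.Ioc (-1 : ℝ) 2) ∧ pr z ∈ B} ≤ 9 * volume B := by
  have hsub : {z : ℝ × ℝ | (z.1 ∈ Set.Ioc (-1 : ℝ) 2 ∧ z.2 ∈ Set.Ioc (-1 : ℝ) 2) ∧ pr z ∈ B} ⊆
      ⋃ i : Fin 3, ⋃ j : Fin 3, {z : ℝ × ℝ | (z.1 ∈ Set.Ioc (((i : ℕ) : ℝ) - 1) (((i : ℕ) : ℝ) - 1 + 1) ∧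
        z.2 ∈ Set.Ioc (((j : ℕ) : ℝ) - 1) (((j : ℕ) : ℝ) - 1 + 1)) ∧ pr z ∈ B} := by
    have key : ∀ x : ℝ, x ∈ Set.Ioc (-1 : ℝ) 2 → ∃ i : Fin 3, x ∈ Set.Ioc (((i : ℕ) : ℝ) - 1) (((i : ℕ) : ℝ) - 1 + 1) := by
      intro x hx
      rcases le_or_gt x 0 with h | h
      · exact ⟨0, by constructor <;> norm_num <;> linarith [hx.1]⟩
      rcases le_or_gt x 1 with h' | h'
      · exact ⟨1, by constructor <;> norm_num <;> linarith⟩
      · exact ⟨2, by constructor <;> norm_num <;> linarith [hx.2]⟩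
    rintro z ⟨⟨h1, h2⟩, h3⟩
    obtain ⟨i, hi⟩ := key _ h1
    obtain ⟨j, hj⟩ := key _ h2
    exact Set.mem_iUnion.2 ⟨i, Set.mem_iUnion.2 ⟨j, ⟨hi, hj⟩, h3⟩⟩
  refine (measure_mono hsub).trans ((measure_iUnion_le _).trans ?_)
  calc ∑' i : Fin 3, volume (⋃ j : Fin 3, {z : ℝ × ℝ | (z.1 ∈ Set.Ioc (((i : ℕ) : ℝ) - 1) (((i : ℕ) : ℝ) - 1 + 1) ∧
        z.2 ∈ Set.Ioc (((j : ℕ) : ℝ) - 1) (((j : ℕ) : ℝ) - 1 + 1)) ∧ pr z ∈ B})
      ≤ ∑' _i : Fin 3, ∑' _j : Fin 3, volume B := by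
        apply ENNReal.tsum_le_tsum
        intro i
        refine (measure_iUnion_le _).trans (ENNReal.tsum_le_tsum fun j => ?_)
        rw [volume_cell hB]
    _ = 9 * volume B := by
        rw [tsum_fintype, tsum_fintype]
        simp only [Finset.sum_const, Finset.card_univ, Fintype.card_fin, nsmul_eq_mul]
        rw [← mul_assoc]
        norm_num

/-- **Double covering by separated strips.**  `B` = one class of points, `Q'` = the relaxed class, `R` any
measurable set meeting every `κ`-Lipschitz unit graph over the first coordinate in length at most `lam`. -/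
theorem strips {B R Q' : Set Tor} (hB : MeasurableSet B) (hR : MeasurableSet R) (hQ' : MeasurableSet Q')
    {κ : ℝ≥0} (hκ : κ ≤ 1 / 2) {lam : ℝ≥0∞}
    (hlam : ∀ σ : ℝ → ℝ, LipschitzWith κ σ → ∀ a : ℝ,
      volume {X : ℝ | X ∈ Set.Icc a (a + 1) ∧ pr (X, σ X) ∈ R} ≤ lam)
    {r K : ℝ} (hr : 0 < r) (hr2 : r ≤ 1 / 2) (Y : ℝ × ℝ → ℝ → ℝ)
    (hY0 : ∀ z : ℝ × ℝ, pr z ∈ B → Y z z.1 = z.2)
    (hLip : ∀ z : ℝ × ℝ, pr z ∈ B → ∀ l l', |l - z.1| ≤ 1 → |l' - z.1| ≤ 1 → |Y z l - Y z l'| ≤ κ * |l - l'|)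
    (hN : ∀ z : ℝ × ℝ, pr z ∈ B → ∀ l, |l - z.1| ≤ 1 → ∀ s, |s - Y z l| ≤ r → pr (l, s) ∈ Q')
    (hcoh : ∀ z z' : ℝ × ℝ, pr z ∈ B → pr z' ∈ B → ∀ l l', |l - z.1| ≤ 1 → |l - z'.1| ≤ 1 →
      |l' - z.1| ≤ 1 → |l' - z'.1| ≤ 1 → |Y z l - Y z' l| ≤ 2 * r → |Y z l' - Y z' l'| ≤ K * r) :
    volume (B ∩ R) ≤ ENNReal.ofReal (18 * K) * (lam * volume Q') := by
  classical
  -- Lipschitz extensions of the curves
  have hext : ∀ z : ℝ × ℝ, ∃ σ : ℝ → ℝ, LipschitzWith κ σ ∧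
      (pr z ∈ B → ∀ l, |l - z.1| ≤ 1 → σ l = Y z l) := by
    intro z
    by_cases hz : pr z ∈ B
    · have hL : LipschitzOnWith κ (Y z) {l | |l - z.1| ≤ 1} := by
        rw [lipschitzOnWith_iff_dist_le_mul]
        intro l hl l' hl'
        rw [Real.dist_eq, Real.dist_eq]
        exact hLip z hz l l' hl hl'
      obtain ⟨σ, h1, h2⟩ := hL.extend_real
      exact ⟨σ, h1, fun _ l hl => (h2 hl).symm⟩
    · exact ⟨fun _ => 0, LipschitzWith.const' 0 |>.weaken bot_le, fun h => absurd h hz⟩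
  choose σ hσL hσY using hext
  have hκ' : (κ : ℝ) ≤ 1 / 2 := by exact_mod_cast hκ
  -- the plane sets
  set Bt : Set (ℝ × ℝ) := {z | (z.1 ∈ Set.Ioc (0 : ℝ) 1 ∧ z.2 ∈ Set.Ioc (0 : ℝ) 1) ∧ pr z ∈ B} with hBt
  set Qt : Set (ℝ × ℝ) := {z | (z.1 ∈ Set.Ioc (-1 : ℝ) 2 ∧ z.2 ∈ Set.Ioc (-1 : ℝ) 2) ∧ pr z ∈ Q'} with hQt
  set Rt : Set (ℝ × ℝ) := pr ⁻¹' R with hRt
  set N : ℝ × ℝ → Set (ℝ × ℝ) := fun z =>
    {p | p.1 ∈ Set.Icc (z.1 - 1 / 2) (z.1 + 1 / 2) ∧ |p.2 - σ z p.1| ≤ r} with hNdef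
  set M : ℝ × ℝ → Set (ℝ × ℝ) := fun z =>
    {p | p.1 ∈ Set.Icc (z.1 - 1) (z.1 + 1) ∧ |p.2 - σ z p.1| ≤ K * r} with hMdef
  have hQv : volume Qt ≤ 9 * volume Q' := volume_box hQ'
  have hσm : ∀ z, Measurable (σ z) := fun z => (hσL z).continuous.measurable
  have main := strip_cover (volume : Measure (ℝ × ℝ)) (B := Bt) (R := Rt) (Q := Qt)
    (ne_top_of_le_ne_top (ENNReal.mul_ne_top (by norm_num) (measure_ne_top _ _)) hQv)
    N M (c := ENNReal.ofReal (2 * r)) (C := ENNReal.ofReal (2 * (K * r)) * (2 * lam))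
    (by
      rw [Ne, ENNReal.ofReal_eq_zero]; linarith)
    ENNReal.ofReal_ne_top
    (by
      intro z _
      have h1 : MeasurableSet {p : ℝ × ℝ | p.1 ∈ Set.Icc (z.1 - 1 / 2) (z.1 + 1 / 2)} :=
        measurable_fst measurableSet_Icc
      have h2 : MeasurableSet {p : ℝ × ℝ | |p.2 - σ z p.1| ≤ r} :=
        measurableSet_le ((measurable_snd.sub ((hσm z).comp measurable_fst)).abs) measurable_const
      exact h1.inter h2)
    (by
      rintro z ⟨⟨⟨a1, a2⟩, b1, b2⟩, hz⟩ p ⟨⟨c1, c2⟩, hp⟩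
      have hl : |p.1 - z.1| ≤ 1 / 2 := abs_le.2 ⟨by linarith, by linarith⟩
      have hl1 : |p.1 - z.1| ≤ 1 := hl.trans (by norm_num)
      rw [hσY z hz _ hl1] at hp
      have h1 := hLip z hz p.1 z.1 hl1 (by rw [sub_self, abs_zero]; norm_num)
      rw [hY0 z hz] at h1
      have h2 : |Y z p.1 - z.2| ≤ 1 / 4 := h1.trans (by
        have := abs_nonneg (p.1 - z.1)
        nlinarith)
      have h3 := abs_le.1 hp
      have h4 := abs_le.1 h2
      refine ⟨⟨⟨by linarith, by linarith⟩, ⟨by linarith, by linarith⟩⟩, ?_⟩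
      exact hN z hz p.1 hl1 p.2 hp)
    (by
      intro z _
      have := volume_strip_eq (hσm z) (I := Set.Icc (z.1 - 1 / 2) (z.1 + 1 / 2)) measurableSet_Icc (ρ := r)
      show ENNReal.ofReal (2 * r) ≤ volume {p : ℝ × ℝ | p.1 ∈ Set.Icc (z.1 - 1 / 2) (z.1 + 1 / 2) ∧ |p.2 - σ z p.1| ≤ r}
      rw [this, Real.volume_Icc]
      have : z.1 + 1 / 2 - (z.1 - 1 / 2) = 1 := by ring
      rw [this, ENNReal.ofReal_one, one_mul])
    (by
      intro z _
      have e : Rt ∩ M z = {p : ℝ × ℝ | p.1 ∈ Set.Icc (z.1 - 1) (z.1 + 1) ∧ |p.2 - σ z p.1| ≤ K * r ∧ p ∈ Rt} := by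
        ext p
        simp only [hMdef, Set.mem_inter_iff, Set.mem_ofPred_eq]
        tauto
      rw [e]
      apply volume_strip_le (hσm z) (measurable_pr hR) measurableSet_Icc
      intro u _
      have hL : LipschitzWith κ (fun l => σ z l + u) := by
        intro x y
        rw [edist_add_right]
        exact hσL z x y
      have h1 := hlam _ hL (z.1 - 1)
      have h2 := hlam _ hL z.1
      have hsub : {l : ℝ | l ∈ Set.Icc (z.1 - 1) (z.1 + 1) ∧ (l, σ z l + u) ∈ Rt} ⊆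
          {X : ℝ | X ∈ Set.Icc (z.1 - 1) (z.1 - 1 + 1) ∧ pr (X, σ z X + u) ∈ R} ∪
          {X : ℝ | X ∈ Set.Icc z.1 (z.1 + 1) ∧ pr (X, σ z X + u) ∈ R} := by
        rintro l ⟨⟨h1, h2⟩, h3⟩
        rcases le_total l z.1 with h4 | h4
        · exact Or.inl ⟨⟨h1, by linarith⟩, h3⟩
        · exact Or.inr ⟨⟨h4, h2⟩, h3⟩
      refine (measure_mono hsub).trans ((measure_union_le _ _).trans ?_)
      rw [two_mul]
      exact add_le_add h1 h2)
    (by
      rintro z hz z' hz' ⟨p, ⟨p1, p2⟩, ⟨q1, q2⟩⟩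
      obtain ⟨⟨⟨a1, a2⟩, b1, b2⟩, hzB⟩ := hz
      obtain ⟨⟨⟨a1', a2'⟩, b1', b2'⟩, hzB'⟩ := hz'
      have hl : |p.1 - z.1| ≤ 1 := abs_le.2 ⟨by linarith [p1.1], by linarith [p1.2]⟩
      have hl' : |p.1 - z'.1| ≤ 1 := abs_le.2 ⟨by linarith [q1.1], by linarith [q1.2]⟩
      have hzz : |z'.1 - z.1| ≤ 1 := abs_le.2 ⟨by linarith, by linarith⟩
      rw [hσY z hzB _ hl] at p2
      rw [hσY z' hzB' _ hl'] at q2
      have h1 : |Y z p.1 - Y z' p.1| ≤ 2 * r := by
        have e : Y z p.1 - Y z' p.1 = (p.2 - Y z' p.1) - (p.2 - Y z p.1) := by ring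
        rw [e]
        exact (abs_sub _ _).trans (by linarith)
      have h2 := hcoh z z' hzB hzB' p.1 z'.1 hl hl' hzz (by rw [sub_self, abs_zero]; norm_num) h1
      rw [hY0 z' hzB'] at h2
      refine ⟨⟨by linarith, by linarith⟩, ?_⟩
      rw [hσY z hzB _ hzz, abs_sub_comm]
      exact h2)
  -- back to the torus
  have hvB : volume (B ∩ R) = volume (Bt ∩ Rt) := by
    rw [← volume_cell (hB.inter hR) 0 0]
    congr 1
    ext z
    simp only [hBt, hRt, zero_add, Set.mem_ofPred_eq, Set.mem_inter_iff, Set.mem_preimage]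
    tauto
  rw [hvB]
  have h2r : ENNReal.ofReal (2 * r) ≠ 0 := by
    rw [Ne, ENNReal.ofReal_eq_zero]; linarith
  have h3 : ENNReal.ofReal (2 * r) * volume (Bt ∩ Rt) ≤
      ENNReal.ofReal (2 * r) * (ENNReal.ofReal (18 * K) * (lam * volume Q')) := by
    refine main.trans ?_
    calc ENNReal.ofReal (2 * (K * r)) * (2 * lam) * volume Qt
        ≤ ENNReal.ofReal (2 * (K * r)) * (2 * lam) * (9 * volume Q') := by gcongr
      _ = ENNReal.ofReal (2 * r) * (ENNReal.ofReal (18 * K) * (lam * volume Q')) := by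
        have e1 : ENNReal.ofReal (2 * (K * r)) = ENNReal.ofReal (2 * r) * ENNReal.ofReal K := by
          rw [← ENNReal.ofReal_mul (by linarith)]
          congr 1
          ring
        have e2 : ENNReal.ofReal (18 * K) = 18 * ENNReal.ofReal K := by
          rw [ENNReal.ofReal_mul (by norm_num)]
          congr 1
          norm_num
        rw [e1, e2]
        ring
  exact (ENNReal.mul_le_mul_iff_right h2r ENNReal.ofReal_ne_top).1 h3

end Crest.Agent.R128.Strip
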