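import Crest.Agent.R128.Prod
import Crest.Agent.R128.Strip
import Crest.Agent.R128.CoreI
/-!
Row 128, node V34-PROD (helper815), torus version on `Core.CoreStmt2`.
-/
set_option autoImplicit false
open MeasureTheory Set
open scoped ENNReal
namespace Crest.Agent.R128.Prod

open Crest.Agent.R128.Lam0 Crest.Agent.R128.Core

/-- measurable section of `pr` with values in the unit square -/
noncomputable def sec (p : Tor) : ℝ × ℝ :=
  ((AddCircle.measurableEquivIco 1 0 p.1 : ℝ), (AddCircle.measurableEquivIco 1 0 p.2 : ℝ))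

theorem measurable_sec : Measurable sec := by
  refine Measurable.prodMk ?_ ?_
  · exact measurable_subtype_coe.comp ((AddCircle.measurableEquivIco 1 0).measurable.comp measurable_fst)
  · exact measurable_subtype_coe.comp ((AddCircle.measurableEquivIco 1 0).measurable.comp measurable_snd)

theorem coe_equivIco (x : UnitAddCircle) :
    (((AddCircle.measurableEquivIco 1 0 x : ℝ)) : UnitAddCircle) = x :=
  (AddCircle.equivIco (1 : ℝ) 0).symm_apply_apply x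

theorem pr_sec (p : Tor) : pr (sec p) = p := by
  unfold pr sec
  rw [coe_equivIco, coe_equivIco]

theorem sec_mem (p : Tor) : sec p ∈ Q := by
  have h1 := (AddCircle.measurableEquivIco (1 : ℝ) 0 p.1).2
  have h2 := (AddCircle.measurableEquivIco (1 : ℝ) 0 p.2).2
  exact ⟨⟨h1.1, h1.2.trans_eq (zero_add 1)⟩, ⟨h2.1, h2.2.trans_eq (zero_add 1)⟩⟩

theorem sec_pr {z : ℝ × ℝ} (hz : z ∈ Q) : sec (pr z) = z := by
  have h : ∀ x : ℝ, x ∈ Ico (0 : ℝ) 1 → (AddCircle.measurableEquivIco 1 0 (x : UnitAddCircle) : ℝ) = x := by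
    intro x hx
    have hx' : x ∈ Ico (0 : ℝ) (0 + 1) := by rwa [zero_add]
    have := (AddCircle.equivIco (1 : ℝ) 0).apply_symm_apply ⟨x, hx'⟩
    exact congrArg Subtype.val this
  unfold sec pr
  exact Prod.ext (h z.1 hz.1) (h z.2 hz.2)

/-- a set of the torus whose lifts in the unit square lie in a measurable set `U` -/
theorem volume_le_of_lift {A : Set Tor} {U : Set (ℝ × ℝ)} (hU : MeasurableSet U)
    (h : ∀ z ∈ Q, pr z ∈ A → z ∈ U) : volume A ≤ volume U := by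
  have h1 : A ⊆ sec ⁻¹' U := fun p hp => h (sec p) (sec_mem p) (by rwa [pr_sec])
  have hm : MeasurableSet (sec ⁻¹' U) := measurable_sec hU
  calc volume A ≤ volume (sec ⁻¹' U) := measure_mono h1
    _ = (volume.restrict Q) (pr ⁻¹' (sec ⁻¹' U)) :=
        (mp_pr.measure_preimage hm.nullMeasurableSet).symm
    _ = volume (pr ⁻¹' (sec ⁻¹' U) ∩ Q) :=
        Measure.restrict_apply (Strip.measurable_pr hm)
    _ ≤ volume U := by
        refine measure_mono ?_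
        rintro z ⟨hz1, hz2⟩
        have : sec (pr z) ∈ U := hz1
        rwa [sec_pr hz2] at this

/-- the relaxed set lifted to the box of nine cells -/
def box (Q' : Set Tor) : Set (ℝ × ℝ) :=
  {z | (z.1 ∈ Ioc (-1 : ℝ) 2 ∧ z.2 ∈ Ioc (-1 : ℝ) 2) ∧ pr z ∈ Q'}

theorem fam_of_core {k X r : ℝ} {σ : ℝ → ℝ → ℕ → ℝ → ℝ} (hr : 0 < r) (hr1 : r ≤ 1)
    (h1 : ∀ a b n', Adm k X a b n' → σ a b n' a = b ∧
      (∀ l l', |l - a| ≤ 1 → |l' - a| ≤ 1 → |σ a b n' l - σ a b n' l'| ≤ 1 / 8 * |l - l'|) ∧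
      (∀ l s, |l - a| ≤ 1 → |s - σ a b n' l| ≤ r → ∀ m ≤ n',
        nf k a b m ≤ 2 * nf k l s m ∧ nf k l s m ≤ 2 * nf k a b m))
    (h2 : ∀ a b n' a2 b2 n2', Adm k X a b n' → Adm k X a2 b2 n2' → ∀ l l' ρ,
      |l - a| ≤ 1 → |l - a2| ≤ 1 → |l' - a| ≤ 1 → |l' - a2| ≤ 1 → r / 10 ^ 4 ≤ ρ → ρ ≤ 2 * r →
      |σ a b n' l - σ a2 b2 n2' l| ≤ ρ → |σ a b n' l' - σ a2 b2 n2' l'| ≤ 50 * ρ)
    {B Q' : Set Tor} {N : ℝ → ℝ → ℕ}
    (hB : ∀ a b : ℝ, pr (a, b) ∈ B → Adm k X a b (N a b) ∧ ∀ l s : ℝ,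
      (∀ m ≤ N a b, nf k a b m ≤ 2 * nf k l s m ∧ nf k l s m ≤ 2 * nf k a b m) → pr (l, s) ∈ Q') :
    Fam {z | z ∈ Q ∧ pr z ∈ B} (fun z => σ z.1 z.2 (N z.1 z.2)) (r / 2) 100 (box Q') := by
  have hd : ∀ {x y : ℝ}, x ∈ Icc (0 : ℝ) 1 → y ∈ Icc (0 : ℝ) 1 → |x - y| ≤ 1 := by
    intro x y hx hy
    rw [abs_le]
    constructor <;> linarith [hx.1, hx.2, hy.1, hy.2]
  have hI : ∀ {z : ℝ × ℝ}, z ∈ Q → z.1 ∈ Icc (0 : ℝ) 1 := fun hz => Ico_subset_Icc_self hz.1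
  refine ⟨fun z hz => hI hz.1, fun z hz => (h1 _ _ _ (hB z.1 z.2 hz.2).1).1, ?_, ?_, ?_⟩
  · intro z hz x hx y hy
    exact (h1 _ _ _ (hB z.1 z.2 hz.2).1).2.1 x y (hd hx (hI hz.1)) (hd hy (hI hz.1))
  · intro z hz l hl s hs
    have hz1 := hI hz.1
    have hA := hB z.1 z.2 hz.2
    have hc := h1 _ _ _ hA.1
    have e1 : |σ z.1 z.2 (N z.1 z.2) l - z.2| ≤ 1 / 8 := by
      have := hc.2.1 l z.1 (hd hl hz1) (by simp)
      rw [hc.1] at this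
      have h3 := hd hl hz1
      linarith
    have e2 : |s - σ z.1 z.2 (N z.1 z.2) l| ≤ r / 2 := hs
    have hz2 := hz.1.2
    refine ⟨⟨⟨by linarith [hl.1], by linarith [hl.2]⟩, ?_, ?_⟩,
      hA.2 l s fun m hm => hc.2.2 l s (hd hl hz1) (by linarith) m hm⟩
    · rw [abs_le] at e1 e2
      have := hz2.1
      show (-1 : ℝ) < s
      linarith [e1.1, e2.1]
    · rw [abs_le] at e1 e2
      have := hz2.2
      show s ≤ 2
      linarith [e1.2, e2.2]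
  · intro z hz w hw l hl l' hl' h
    have := h2 _ _ _ _ _ _ (hB z.1 z.2 hz.2).1 (hB w.1 w.2 hw.2).1 l l' r (hd hl (hI hz.1))
      (hd hl (hI hw.1)) (hd hl' (hI hz.1)) (hd hl' (hI hw.1)) (by linarith) (by linarith)
      (by linarith)
    linarith

/-- **Product inequality for one pair of classes, from CORE2.** -/
theorem prod_of_core (hC : CoreStmt2) : ∃ K0 : ℝ, ∀ k, K0 ≤ k → ∀ X Y : ℝ, k ^ 600 ≤ X →
    k ^ 600 ≤ Y → ∀ B₁ B₂ Q₁ Q₂ : Set Tor, MeasurableSet Q₁ → MeasurableSet Q₂ →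
    (∀ a b : ℝ, pr (a, b) ∈ B₁ → ∃ n', Adm k X a b n' ∧ ∀ l s : ℝ,
      (∀ m ≤ n', nf k a b m ≤ 2 * nf k l s m ∧ nf k l s m ≤ 2 * nf k a b m) → pr (l, s) ∈ Q₁) →
    (∀ a b : ℝ, pr (a, b) ∈ B₂ → ∃ n', Adm k Y a b n' ∧ ∀ l s : ℝ,
      (∀ m ≤ n', nf k a b m ≤ 2 * nf k l s m ∧ nf k l s m ≤ 2 * nf k a b m) → pr (l, s) ∈ Q₂) →
    volume (B₁ ∩ Prod.swap ⁻¹' B₂) ≤ 10 ^ 7 * (volume Q₁ * volume Q₂) := by
  obtain ⟨K0, hK⟩ := hC
  refine ⟨K0, fun k hk X Y hX hY B₁ B₂ Q₁ Q₂ hQ₁ hQ₂ hB₁ hB₂ => ?_⟩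
  obtain ⟨r₁, hr₁, hr₁', σ₁, h11, h12⟩ := hK k hk X hX
  obtain ⟨r₂, hr₂, hr₂', σ₂, h21, h22⟩ := hK k hk Y hY
  choose! N₁ hN₁ using hB₁
  choose! N₂ hN₂ using hB₂
  have F₁ := fam_of_core hr₁ hr₁' h11 h12 hN₁
  have F₂ := fam_of_core hr₂ hr₂' h21 h22 hN₂
  have v₁ : volume (box Q₁) ≤ 9 * volume Q₁ := Strip.volume_box hQ₁
  have v₂ : volume (box Q₂) ≤ 9 * volume Q₂ := Strip.volume_box hQ₂
  have f₁ : volume (box Q₁) ≠ ⊤ :=
    ne_top_of_le_ne_top (ENNReal.mul_ne_top (by norm_num) (measure_ne_top _ _)) v₁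
  have f₂ : volume (box Q₂) ≠ ⊤ :=
    ne_top_of_le_ne_top (ENNReal.mul_ne_top (by norm_num) (measure_ne_top _ _)) v₂
  obtain ⟨U, hU, hsub, hvol⟩ := F₁.prod F₂ (by linarith) (by linarith) (by norm_num) f₁ f₂
  have hlift : volume (B₁ ∩ Prod.swap ⁻¹' B₂) ≤ volume U := by
    refine volume_le_of_lift hU fun z hz hp => hsub ⟨⟨hz, hp.1⟩, ?_, ?_⟩
    · exact ⟨hz.2, hz.1⟩
    · exact hp.2
  calc volume (B₁ ∩ Prod.swap ⁻¹' B₂) ≤ volume U := hlift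
    _ ≤ ENNReal.ofReal (5 / 2 * 100 ^ 2) * (volume (box Q₁) * volume (box Q₂)) := hvol
    _ ≤ ENNReal.ofReal (5 / 2 * 100 ^ 2) * ((9 * volume Q₁) * (9 * volume Q₂)) := by gcongr
    _ = (ENNReal.ofReal (5 / 2 * 100 ^ 2) * 81) * (volume Q₁ * volume Q₂) := by ring
    _ ≤ 10 ^ 7 * (volume Q₁ * volume Q₂) := by
        gcongr
        have e : ENNReal.ofReal (5 / 2 * 100 ^ 2) = 25000 := by
          rw [show (5 / 2 * 100 ^ 2 : ℝ) = ((25000 : ℕ) : ℝ) by norm_num, ENNReal.ofReal_natCast]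
          norm_num
        rw [e]
        norm_num

end Crest.Agent.R128.Prod
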