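import Crest.Agent.R128.Cls287
import Crest.Agent.R128.ProdT

/-!
# Row 128, node V4 (helper287): `Core.CoreStmt2 → Skel.V4`
-/

set_option autoImplicit false

namespace Crest.Agent.R128.V4Of

/-- **V4** from CORE2 (product of strips by helper815, classification by helper379) -/
theorem v4_of_core (hC : Core.CoreStmt2) : Skel.V4 :=
  Cls287.v4_of_prod (Prod.prod_of_core hC)

end Crest.Agent.R128.V4Of
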