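import Mathlib
import Crest.Agent.R128.Skel

/-!
# Row 128, node VM of `Skel.lean`: measurability of the sets `C1`, `LG`, `Rc`, `RD` (helper499)
-/

set_option autoImplicit false
open MeasureTheory Filter Topology Finset
open scoped ENNReal NNReal
open Crest.AnalysisR.StandardFamily

namespace Crest.Agent.R128.VM

open Crest.Agent.R128.Acc Crest.Agent.R128.AccRoot Crest.Agent.R128.Lam0 Crest.Agent.R128.Close
  Crest.Agent.R128.Skel

theorem measurable_digit (k : ℝ) (m : ℕ) : Measurable fun z : Tor => |V k ((T k)^[m] z).2| := by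
  have h1 : Continuous fun z : Tor => ((T k)^[m] z) := (continuous_T k).iterate m
  exact ((continuous_V k).comp (continuous_snd.comp h1)).abs.measurable

theorem ms_C1 (k : ℝ) (L0 : ℕ) : MeasurableSet (C1 k L0) := by
  have e : C1 k L0 = ⋃ (m : ℕ) (_ : m < L0), {z | |V k ((T k)^[m] z).2| < k ^ ((2 : ℝ) / 3)} := by
    ext z; simp [C1]
  rw [e]
  exact MeasurableSet.iUnion fun m => MeasurableSet.iUnion fun _ =>
    measurableSet_lt (measurable_digit k m) measurable_const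

theorem ms_LG (k : ℝ) (L0 : ℕ) : MeasurableSet (LG k L0) := by
  have e : LG k L0 = (C1 k L0)ᶜ ∩ ⋃ (m : ℕ) (_ : L0 < m), ({z | RV k 1000 z (m - 1)} ∩
      ⋂ (i : ℕ) (_ : 1000 ≤ i) (_ : i < m), {z | ‖fld k z i‖ ≤ 2 * (m : ℝ) ^ 4000}) := by
    ext z
    simp only [LG, Set.mem_ofPred_eq, Set.mem_inter_iff, Set.mem_compl_iff, Set.mem_iUnion,
      Set.mem_iInter, exists_prop]
  rw [e]
  refine (ms_C1 k L0).compl.inter (MeasurableSet.iUnion fun m => MeasurableSet.iUnion fun _ =>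
    (measurable_RV k 1000 (m - 1)).inter ?_)
  exact MeasurableSet.iInter fun i => MeasurableSet.iInter fun _ => MeasurableSet.iInter fun _ =>
    measurableSet_le (measurable_nf k i) measurable_const

theorem ms_Val (k : ℝ) (P L0 n : ℕ) : MeasurableSet {z | Val k P L0 z n} := by
  have e : {z | Val k P L0 z n} =
      (⋂ (m : ℕ) (_ : m < L0) (_ : m < n), {z | k ^ ((2 : ℝ) / 3) ≤ |V k ((T k)^[m] z).2|}) ∩
      (⋂ (i : ℕ) (j : ℕ) (_ : 1000 ≤ i) (_ : i ≤ j) (_ : j ≤ n),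
        {z | ‖fld k z i‖ ^ (P - 1) ≤ ‖fld k z j‖ ^ P}) ∩
      (⋂ (j : ℕ) (_ : 1000 ≤ j) (_ : j ≤ n), ⋃ (i : ℕ) (_ : 1000 ≤ i) (_ : i ≤ j),
        {z | (j : ℝ) ^ (4 * P) ≤ ‖fld k z i‖}) := by
    ext z
    simp only [Set.mem_inter_iff, Set.mem_ofPred_eq, Set.mem_iInter, Set.mem_iUnion, exists_prop]
    constructor
    · rintro ⟨a, b, c⟩
      exact ⟨⟨a, b⟩, c⟩
    · rintro ⟨⟨a, b⟩, c⟩
      exact ⟨a, b, c⟩
  rw [e]
  refine (MeasurableSet.inter ?_ ?_).inter ?_
  · exact MeasurableSet.iInter fun m => MeasurableSet.iInter fun _ => MeasurableSet.iInter fun _ =>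
      measurableSet_le measurable_const (measurable_digit k m)
  · refine MeasurableSet.iInter fun i => MeasurableSet.iInter fun j => MeasurableSet.iInter fun _ =>
      MeasurableSet.iInter fun _ => MeasurableSet.iInter fun _ => ?_
    exact measurableSet_le ((measurable_nf k i).pow_const _) ((measurable_nf k j).pow_const _)
  · refine MeasurableSet.iInter fun j => MeasurableSet.iInter fun _ => MeasurableSet.iInter fun _ =>
      MeasurableSet.iUnion fun i => MeasurableSet.iUnion fun _ => MeasurableSet.iUnion fun _ => ?_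
    exact measurableSet_le measurable_const (measurable_nf k i)

theorem ms_Rc (k : ℝ) (L0 M : ℕ) : MeasurableSet (Rc k L0 M) := by
  have e : Rc k L0 M = ((C1 k L0)ᶜ ∩ (LG k L0)ᶜ) ∩ {z | Val k 100 L0 z M}ᶜ := by
    ext z
    simp only [Rc, Set.mem_ofPred_eq, Set.mem_inter_iff, Set.mem_compl_iff, and_assoc]
  rw [e]
  exact ((ms_C1 k L0).compl.inter (ms_LG k L0).compl).inter (ms_Val k 100 L0 M).compl

theorem ms_RD (k : ℝ) (D M : ℕ) : MeasurableSet (RD k D M) := by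
  have e : RD k D M = ⋃ (n : ℕ) (n' : ℕ) (_ : 1000 ≤ n) (_ : n < n') (_ : n' ≤ M),
      (((⋂ (j : ℕ) (_ : j < n), {z | ‖fld k z j‖ < ‖fld k z n‖}) ∩
      (⋂ (j : ℕ) (_ : j ≤ n'), {z | ‖fld k z j‖ ≤ ‖fld k z n‖}) ∩
      {z | ‖fld k z n'‖ ^ 102 ≤ ‖fld k z n‖ ^ 101} ∩ {z | k ^ D ≤ ‖fld k z n‖} ∩
      {z | ‖fld k z n‖ ≤ k ^ 2 * k ^ D} ∩ {z | RV k 1000 z n}) ∩ {z | RV k 1000 z (n' - 1)}) := by
    ext z
    simp only [RD, Set.mem_inter_iff, Set.mem_ofPred_eq, Set.mem_iInter, Set.mem_iUnion, exists_prop]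
    constructor
    · rintro ⟨n, n', ⟨a, b, c, d, e, f, g, h, i⟩, r⟩
      exact ⟨n, n', a, b, c, ⟨⟨⟨⟨⟨d, e⟩, f⟩, g⟩, h⟩, i⟩, r⟩
    · rintro ⟨n, n', a, b, c, ⟨⟨⟨⟨⟨d, e⟩, f⟩, g⟩, h⟩, i⟩, r⟩
      exact ⟨n, n', ⟨a, b, c, d, e, f, g, h, i⟩, r⟩
  rw [e]
  refine MeasurableSet.iUnion fun n => MeasurableSet.iUnion fun n' => MeasurableSet.iUnion fun _ =>
    MeasurableSet.iUnion fun _ => MeasurableSet.iUnion fun _ => ?_
  refine MeasurableSet.inter ?_ (measurable_RV k 1000 (n' - 1))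
  refine ((((MeasurableSet.inter ?_ ?_).inter ?_).inter ?_).inter ?_).inter (measurable_RV k 1000 n)
  · exact MeasurableSet.iInter fun j => MeasurableSet.iInter fun _ =>
      measurableSet_lt (measurable_nf k j) (measurable_nf k n)
  · exact MeasurableSet.iInter fun j => MeasurableSet.iInter fun _ =>
      measurableSet_le (measurable_nf k j) (measurable_nf k n)
  · exact measurableSet_le ((measurable_nf k n').pow_const 102) ((measurable_nf k n).pow_const 101)
  · exact measurableSet_le measurable_const (measurable_nf k n)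
  · exact measurableSet_le (measurable_nf k n) measurable_const

theorem ms_bw {S : Set Tor} (h : MeasurableSet S) : MeasurableSet (bw S) :=
  measurable_swap h

/-- **VM** -/
theorem vm : Skel.VM := fun k L0 M => ⟨ms_C1 k L0, ms_LG k L0, ms_Rc k L0 M, ms_RD k L0 M⟩

end Crest.Agent.R128.VM
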