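import Mathlib
import Crest.Agent.R128.SkelMeas
import Crest.Agent.R128.V1
import Crest.Agent.R128.V2Proof
import Crest.Agent.R128.V2L
import Crest.Agent.R128.VM
import Crest.Agent.R128.V4Of
import Crest.Agent.R128.CoreA
import Crest.Agent.R128.CoreAsm
import Crest.Agent.R128.ShxE

/-! # Row 128 (helper310): everything except V5 -/

namespace Crest.Agent.R128.Almost310

theorem core2 : Core.CoreStmt2 := Core.coreStmt2_of Shx.shadow_stmt CoreA.coh_stmt

theorem v4 : Skel.V4 := V4Of.v4_of_core core2

/-- `V5` is the only open Prop -/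
theorem res_of (h5 : Skel.V5) : Skel.Res :=
  SkelMeas.v6 V1.v1 V2Proof.v2 V2L.v2l v4 h5 VM.vm

end Crest.Agent.R128.Almost310
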