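import Mathlib

/-!
# Significant extrema of a contour alternate

`f : ℕ → ℝ` (the root contour `log ‖A_{0→n}‖`, minimal at `0`).  `SigMax f r N T`: `T` is a (first)
maximum with drops `≥ r` on both sides inside `[0, N]`; `SigMin` is the same for `-f`.
* `card_sigMin_le`: the `r`-significant minima are at most as many as the `r`-significant maxima;
* `sum_sigMax_le`: `∑_{ρ ≤ R} #(ρ κ)-significant maxima ≤ #` closed components `(i, j; l)` of
  `{f > l κ}` of depth at most `R κ`.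
-/

set_option autoImplicit false

open Finset

namespace Crest.Agent.R128.Alt

/-- `T` is the first maximum of `f` on a window `[i, j] ⊆ [0, N]` around it, with drops at least `r`. -/
def SigMax (f : ℕ → ℝ) (r : ℝ) (N T : ℕ) : Prop :=
  ∃ i j, i < T ∧ T < j ∧ j ≤ N ∧ f i ≤ f T - r ∧ f j ≤ f T - r ∧
    (∀ m, i ≤ m → m ≤ j → f m ≤ f T) ∧ (∀ m, i ≤ m → m < T → f m < f T)

/-- `T` is the first minimum of `f` on a window around it, with rises at least `r`. -/
def SigMin (f : ℕ → ℝ) (r : ℝ) (N T : ℕ) : Prop :=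
  ∃ i j, i < T ∧ T < j ∧ j ≤ N ∧ f T + r ≤ f i ∧ f T + r ≤ f j ∧
    (∀ m, i ≤ m → m ≤ j → f T ≤ f m) ∧ (∀ m, i ≤ m → m < T → f T < f m)

theorem SigMax.mono {f : ℕ → ℝ} {r r' : ℝ} {N T : ℕ} (h : SigMax f r N T) (hr : r' ≤ r) :
    SigMax f r' N T := by
  obtain ⟨i, j, h1, h2, h3, h4, h5, h6, h7⟩ := h
  exact ⟨i, j, h1, h2, h3, by linarith, by linarith, h6, h7⟩

theorem SigMin.mono {f : ℕ → ℝ} {r r' : ℝ} {N T : ℕ} (h : SigMin f r N T) (hr : r' ≤ r) :
    SigMin f r' N T := by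
  obtain ⟨i, j, h1, h2, h3, h4, h5, h6, h7⟩ := h
  exact ⟨i, j, h1, h2, h3, by linarith, by linarith, h6, h7⟩

theorem SigMax.lt {f : ℕ → ℝ} {r : ℝ} {N T : ℕ} (h : SigMax f r N T) : T < N := by
  obtain ⟨i, j, h1, h2, h3, h4, h5, h6, h7⟩ := h
  omega

theorem SigMin.lt {f : ℕ → ℝ} {r : ℝ} {N T : ℕ} (h : SigMin f r N T) : T < N := by
  obtain ⟨i, j, h1, h2, h3, h4, h5, h6, h7⟩ := h
  omega

/-- first argmax on an interval -/
theorem exists_first_argmax (f : ℕ → ℝ) {a b : ℕ} (hab : a ≤ b) :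
    ∃ T, a ≤ T ∧ T ≤ b ∧ (∀ m, a ≤ m → m ≤ b → f m ≤ f T) ∧ (∀ m, a ≤ m → m < T → f m < f T) := by
  classical
  have hex : ∃ T, a ≤ T ∧ T ≤ b ∧ ∀ m, a ≤ m → m ≤ b → f m ≤ f T := by
    obtain ⟨T, hT, hmax⟩ := Finset.exists_max_image (Finset.Icc a b) f ⟨a, by simp [hab]⟩
    rw [Finset.mem_Icc] at hT
    exact ⟨T, hT.1, hT.2, fun m h1 h2 => hmax m (Finset.mem_Icc.2 ⟨h1, h2⟩)⟩
  set T := Nat.find hex with hTdef
  obtain ⟨h1, h2, h3⟩ := Nat.find_spec hex
  refine ⟨T, h1, h2, h3, fun m hm hmT => ?_⟩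
  have hnot := Nat.find_min hex hmT
  push Not at hnot
  obtain ⟨m', h4, h5, h6⟩ := hnot hm (by omega)
  exact lt_of_lt_of_le h6 (h3 m' h4 h5)

theorem exists_sigMax {f : ℕ → ℝ} {r : ℝ} (hr : 0 < r) {N a b : ℕ} (hb : b ≤ N)
    (h : ∃ m, a ≤ m ∧ m ≤ b ∧ f a + r ≤ f m ∧ f b + r ≤ f m) :
    ∃ T, a < T ∧ T < b ∧ SigMax f r N T := by
  obtain ⟨m, h1, h2, h3, h4⟩ := h
  obtain ⟨T, t1, t2, t3, t4⟩ := exists_first_argmax f (h1.trans h2)
  have hm := t3 m h1 h2
  have haT : a < T := by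
    rcases lt_or_eq_of_le t1 with h5 | h5
    · exact h5
    · rw [← h5] at hm; linarith
  have hTb : T < b := by
    rcases lt_or_eq_of_le t2 with h5 | h5
    · exact h5
    · rw [h5] at hm; linarith
  exact ⟨T, haT, hTb, a, b, haT, hTb, hb, by linarith, by linarith, t3, t4⟩

/-- between two significant minima there is a significant maximum -/
theorem between {f : ℕ → ℝ} {r : ℝ} (hr : 0 < r) {N T1 T2 : ℕ} (hlt : T1 < T2)
    (h1 : SigMin f r N T1) (h2 : SigMin f r N T2) : ∃ T, T1 < T ∧ T < T2 ∧ SigMax f r N T := by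
  refine exists_sigMax hr h2.lt.le ?_
  obtain ⟨i1, j1, a1, a2, a3, a4, a5, a6, a7⟩ := h1
  obtain ⟨i2, j2, b1, b2, b3, b4, b5, b6, b7⟩ := h2
  rcases le_or_gt j1 T2 with c1 | c1
  · rcases lt_or_ge i2 T1 with c2 | c2
    · have := b7 T1 c2.le hlt
      exact ⟨j1, a2.le, c1, a5, by linarith⟩
    · rcases le_total (f T2) (f T1) with c3 | c3
      · exact ⟨j1, a2.le, c1, a5, by linarith⟩
      · exact ⟨i2, c2, b1.le, by linarith, b4⟩
  · have c4 := a6 T2 (by omega) c1.le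
    rcases lt_or_ge i2 T1 with c2 | c2
    · have := b7 T1 c2.le hlt
      linarith
    · exact ⟨i2, c2, b1.le, by linarith, b4⟩

/-- before every significant minimum there is a significant maximum (`f` is minimal at `0`) -/
theorem before {f : ℕ → ℝ} {r : ℝ} (hr : 0 < r) {N T2 : ℕ} (h0 : ∀ n ≤ N, f 0 ≤ f n)
    (h2 : SigMin f r N T2) : ∃ T, T < T2 ∧ SigMax f r N T := by
  have hlt := h2.lt
  obtain ⟨i2, j2, b1, b2, b3, b4, b5, b6, b7⟩ := h2
  obtain ⟨T, t1, t2, t3⟩ := exists_sigMax (f := f) hr (a := 0) (b := T2) hlt.le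
    ⟨i2, Nat.zero_le _, b1.le, by linarith [h0 T2 hlt.le], b4⟩
  exact ⟨T, t2, t3⟩

/-- interlacing gives a cardinality inequality -/
theorem card_le_of_interlace {A B : Finset ℕ} (h1 : ∀ x ∈ A, ∃ y ∈ B, y < x)
    (h2 : ∀ x ∈ A, ∀ x' ∈ A, x < x' → ∃ y ∈ B, x < y ∧ y < x') : A.card ≤ B.card := by
  classical
  have hne : ∀ x ∈ A, (B.filter (· < x)).Nonempty := fun x hx => by
    obtain ⟨y, hy, hyx⟩ := h1 x hx
    exact ⟨y, Finset.mem_filter.2 ⟨hy, hyx⟩⟩
  set g : ℕ → ℕ := fun x => if h : (B.filter (· < x)).Nonempty then (B.filter (· < x)).max' h else 0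
    with hg
  have hgx : ∀ x (hx : x ∈ A), g x = (B.filter (· < x)).max' (hne x hx) := fun x hx => by
    simp only [hg]; rw [dif_pos (hne x hx)]
  have hmem : ∀ x ∈ A, g x ∈ B ∧ g x < x := fun x hx => by
    have := Finset.max'_mem _ (hne x hx)
    rw [← hgx x hx, Finset.mem_filter] at this
    exact this
  have hlt : ∀ x ∈ A, ∀ x' ∈ A, x < x' → g x < g x' := fun x hx x' hx' hxx' => by
    obtain ⟨y, hy, h3, h4⟩ := h2 x hx x' hx' hxx'
    have h5 : y ≤ g x' := by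
      rw [hgx x' hx']
      exact Finset.le_max' _ _ (Finset.mem_filter.2 ⟨hy, h4⟩)
    exact lt_of_lt_of_le ((hmem x hx).2.trans h3) h5
  refine Finset.card_le_card_of_injOn g (fun x hx => (hmem x hx).1) ?_
  intro x hx x' hx' e
  rcases lt_trichotomy x x' with h | h | h
  · exact absurd e (hlt x hx x' hx' h).ne
  · exact h
  · exact absurd e (hlt x' hx' x hx h).ne'

open Classical in
/-- **alternation**: significant minima are at most as many as significant maxima. -/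
theorem card_sigMin_le {f : ℕ → ℝ} {r : ℝ} (hr : 0 < r) {N : ℕ} (h0 : ∀ n ≤ N, f 0 ≤ f n) :
    ((range (N + 1)).filter (SigMin f r N)).card ≤ ((range (N + 1)).filter (SigMax f r N)).card := by
  refine card_le_of_interlace ?_ ?_
  · intro x hx
    rw [Finset.mem_filter] at hx
    obtain ⟨T, h1, h2⟩ := before hr h0 hx.2
    refine ⟨T, ?_, h1⟩
    rw [Finset.mem_filter, Finset.mem_range]
    exact ⟨by have := h2.lt; omega, h2⟩
  · intro x hx x' hx' hlt
    rw [Finset.mem_filter] at hx hx'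
    obtain ⟨T, h1, h2, h3⟩ := between hr hlt hx.2 hx'.2
    refine ⟨T, ?_, h1, h2⟩
    rw [Finset.mem_filter, Finset.mem_range]
    exact ⟨by have := h3.lt; omega, h3⟩

/-- closed component of `{f > l κ}` in `[0, N]` -/
structure Cmp (f : ℕ → ℝ) (κ : ℝ) (N i j : ℕ) (l : ℤ) : Prop where
  lt : i + 1 < j
  le : j ≤ N
  left : f i ≤ l * κ
  mid : ∀ m, i < m → m < j → l * κ < f m
  right : f j ≤ l * κ

/-- first argmax of the open interval -/
structure IsTop (f : ℕ → ℝ) (i j T : ℕ) : Prop where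
  lt : i < T
  gt : T < j
  le : ∀ m, i < m → m < j → f m ≤ f T
  first : ∀ m, i < m → m < T → f m < f T

theorem IsTop.unique {f : ℕ → ℝ} {i j T T' : ℕ} (h : IsTop f i j T) (h' : IsTop f i j T') : T = T' := by
  rcases lt_trichotomy T T' with h1 | h1 | h1
  · have := h'.first T h.lt h1
    have := h.le T' h'.lt h'.gt
    linarith
  · exact h1
  · have := h.first T' h'.lt h1
    have := h'.le T h.lt h.gt
    linarith

/-- a significant maximum of depth `ρ κ` is the top of a component at every integer level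
`l` with `f T - ρ κ ≤ l κ < f T`. -/
theorem exists_cmp {f : ℕ → ℝ} {κ r : ℝ} {N T : ℕ} (h : SigMax f r N T) {l : ℤ}
    (hl : f T - r ≤ l * κ) (hl' : l * κ < f T) : ∃ i j, Cmp f κ N i j l ∧ IsTop f i j T := by
  classical
  obtain ⟨i0, j0, h1, h2, h3, h4, h5, h6, h7⟩ := h
  -- right foot: first `m > T` with `f m ≤ l κ`
  have hexj : ∃ m, T < m ∧ f m ≤ l * κ := ⟨j0, h2, h5.trans hl⟩
  set j := Nat.find hexj with hj
  obtain ⟨hj1, hj2⟩ := Nat.find_spec hexj
  have hjj0 : j ≤ j0 := Nat.find_min' hexj ⟨h2, h5.trans hl⟩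
  have hjmin : ∀ m, T < m → m < j → l * κ < f m := fun m hm hmj => by
    have := Nat.find_min hexj hmj
    push Not at this
    exact this hm
  -- left foot: last `m < T` with `f m ≤ l κ`
  set S := (range T).filter (fun m => f m ≤ l * κ) with hS
  have hi0S : i0 ∈ S := by rw [hS, Finset.mem_filter, Finset.mem_range]; exact ⟨h1, h4.trans hl⟩
  set i := S.max' ⟨i0, hi0S⟩ with hi
  have hiS : i ∈ S := Finset.max'_mem _ _
  rw [hS, Finset.mem_filter, Finset.mem_range] at hiS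
  have hi0i : i0 ≤ i := Finset.le_max' _ _ hi0S
  have himax : ∀ m, i < m → m < T → l * κ < f m := fun m hm hmT => by
    by_contra hcon
    push Not at hcon
    have : m ∈ S := by rw [hS, Finset.mem_filter, Finset.mem_range]; exact ⟨hmT, hcon⟩
    have := Finset.le_max' S m this
    omega
  refine ⟨i, j, ⟨by omega, by omega, hiS.2, ?_, hj2⟩, ⟨hiS.1, hj1, ?_, ?_⟩⟩
  · intro m hm hmj
    rcases lt_trichotomy m T with c | c | c
    · exact himax m hm c
    · rw [c]; exact hl'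
    · exact hjmin m c hmj
  · intro m hm hmj
    exact h6 m (by omega) (by omega)
  · intro m hm hmT
    exact h7 m (by omega) hmT

open Classical in
/-- `∑_{ρ=1}^R #{(ρ κ)-significant maxima} ≤ #{closed components of depth ≤ R κ}`.
`S` = any finite set containing all those components. -/
theorem sum_sigMax_le {f : ℕ → ℝ} {κ : ℝ} (hκ : 0 < κ) {N R : ℕ} (S : Finset (ℕ × ℕ × ℤ))
    (hS : ∀ i j l T, Cmp f κ N i j l → IsTop f i j T → f T - l * κ ≤ R * κ → (i, j, l) ∈ S) :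
    ∑ ρ ∈ Icc 1 R, ((range (N + 1)).filter (SigMax f (ρ * κ) N)).card ≤ S.card := by
  rw [← Finset.card_sigma]
  -- the level attached to `(ρ, T)`
  have key : ∀ ρ T : ℕ, SigMax f (ρ * κ) N T → 1 ≤ ρ →
      ∃ i j : ℕ, ∃ l : ℤ, Cmp f κ N i j l ∧ IsTop f i j T ∧ f T - l * κ ≤ ρ * κ ∧
        (ρ - 1 : ℝ) * κ < f T - l * κ := by
    intro ρ T h hρ
    have e1 := Int.le_ceil (f T / κ - ρ)
    have e2 := Int.ceil_lt_add_one (f T / κ - ρ)
    set l := ⌈f T / κ - ρ⌉ with hl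
    have hρ' : (1 : ℝ) ≤ ρ := by exact_mod_cast hρ
    have e3 : f T / κ * κ = f T := by field_simp
    have e4 : f T - ρ * κ ≤ l * κ := by
      have := mul_le_mul_of_nonneg_right e1 hκ.le
      rw [sub_mul, e3] at this
      exact this
    have e5 : (l : ℝ) * κ < f T - (ρ - 1) * κ := by
      have := mul_lt_mul_of_pos_right e2 hκ
      rw [add_mul, sub_mul, e3] at this
      linarith
    obtain ⟨i, j, h1, h2⟩ := exists_cmp h e4 (by nlinarith)
    exact ⟨i, j, l, h1, h2, by linarith, by linarith⟩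
  choose! gi gj gl h1 h2 h3 h4 using key
  refine Finset.card_le_card_of_injOn (fun p => (gi p.1 p.2, gj p.1 p.2, gl p.1 p.2)) ?_ ?_
  · rintro ⟨ρ, T⟩ hp
    simp only [Finset.coe_sigma, Set.mem_sigma_iff, Finset.mem_coe, Finset.mem_Icc, Finset.mem_filter,
      Finset.mem_range] at hp
    obtain ⟨⟨p1, p2⟩, p3, p4⟩ := hp
    refine hS _ _ _ T (h1 ρ T p4 p1) (h2 ρ T p4 p1) ((h3 ρ T p4 p1).trans ?_)
    have : (ρ : ℝ) ≤ R := by exact_mod_cast p2
    nlinarith
  · rintro ⟨ρ, T⟩ hp ⟨ρ', T'⟩ hp' e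
    simp only [Finset.coe_sigma, Set.mem_sigma_iff, Finset.mem_coe, Finset.mem_Icc, Finset.mem_filter,
      Finset.mem_range] at hp hp'
    obtain ⟨⟨p1, p2⟩, p3, p4⟩ := hp
    obtain ⟨⟨q1, q2⟩, q3, q4⟩ := hp'
    simp only [Prod.mk.injEq] at e
    obtain ⟨e1, e2, e3⟩ := e
    have t1 := h2 ρ T p4 p1
    have t2 := h2 ρ' T' q4 q1
    rw [← e1, ← e2] at t2
    have hT : T = T' := t1.unique t2
    subst hT
    have a1 := h3 ρ T p4 p1
    have a2 := h4 ρ T p4 p1
    have a3 := h3 ρ' T q4 q1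
    have a4 := h4 ρ' T q4 q1
    rw [← e3] at a3 a4
    have b1 : ((ρ : ℝ) - 1) * κ < ρ' * κ := by linarith
    have b2 : ((ρ' : ℝ) - 1) * κ < ρ * κ := by linarith
    have c1 : (ρ : ℝ) - 1 < ρ' := lt_of_mul_lt_mul_right b1 hκ.le
    have c2 : (ρ' : ℝ) - 1 < ρ := lt_of_mul_lt_mul_right b2 hκ.le
    have c3 : (ρ : ℝ) < ρ' + 1 := by linarith
    have c4 : (ρ' : ℝ) < ρ + 1 := by linarith
    have d1 : ρ < ρ' + 1 := by exact_mod_cast c3
    have d2 : ρ' < ρ + 1 := by exact_mod_cast c4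
    have : ρ = ρ' := by omega
    subst this
    rfl

open Classical in
/-- both kinds of extrema together -/
theorem sum_sig_le {f : ℕ → ℝ} {κ : ℝ} (hκ : 0 < κ) {N R : ℕ} (h0 : ∀ n ≤ N, f 0 ≤ f n)
    (S : Finset (ℕ × ℕ × ℤ))
    (hS : ∀ i j l T, Cmp f κ N i j l → IsTop f i j T → f T - l * κ ≤ R * κ → (i, j, l) ∈ S) :
    ∑ ρ ∈ Icc 1 R, ((range (N + 1)).filter (fun T => SigMax f (ρ * κ) N T ∨ SigMin f (ρ * κ) N T)).card
      ≤ 2 * S.card := by
  have h1 := sum_sigMax_le hκ S hS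
  have h2 : ∀ ρ ∈ Icc 1 R,
      ((range (N + 1)).filter (fun T => SigMax f (ρ * κ) N T ∨ SigMin f (ρ * κ) N T)).card ≤
        2 * ((range (N + 1)).filter (SigMax f (ρ * κ) N)).card := by
    intro ρ hρ
    rw [Finset.mem_Icc] at hρ
    have hr : (0 : ℝ) < ρ * κ := by
      have : (1 : ℝ) ≤ ρ := by exact_mod_cast hρ.1
      positivity
    have h3 := card_sigMin_le (f := f) hr h0
    rw [Finset.filter_or]
    calc _ ≤ _ := Finset.card_union_le _ _
      _ ≤ _ := by omega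
  calc _ ≤ ∑ ρ ∈ Icc 1 R, 2 * ((range (N + 1)).filter (SigMax f (ρ * κ) N)).card :=
        Finset.sum_le_sum h2
    _ = 2 * ∑ ρ ∈ Icc 1 R, ((range (N + 1)).filter (SigMax f (ρ * κ) N)).card := by
        rw [Finset.mul_sum]
    _ ≤ _ := by omega

end Crest.Agent.R128.Alt
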