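import Crest.Agent.R128.Iter

/-! Row 128 (helper944): iteration of attempts on dyadic cells, with exceptions. Sorry free.

`E` is an arbitrary set of points, `G t n` = the dyadic level `n` is good for `t`.  Per cell only the
hull of the GOOD points of `E` is assumed to be small; every point of `E` is good at all but at most
`B` of the levels `n₀ + i g`, `i < M`.  Then
`volume (E ∩ cell n₀ m) ≤ (q + (1 - q) / x) ^ M * x ^ B * volume (cell n₀ m)` for every `x ≥ 1`. -/

set_option autoImplicit false
open MeasureTheory Set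
open scoped ENNReal

namespace Crest.Agent.R128.AttemptsX

open Crest.Agent.R128.Iter

/-- good points of `E` in a cell -/
def good (E : Set ℝ) (G : ℝ → ℕ → Prop) (n : ℕ) (m : ℤ) : Set ℝ :=
  {s | s ∈ E ∧ s ∈ cell n m ∧ G s n}

theorem attemptsX {G : ℝ → ℕ → Prop} {g : ℕ} {q x : ℝ} (hq0 : 0 ≤ q) (hq1 : q ≤ 1) (hx : 1 ≤ x)
    (M : ℕ) : ∀ (E : Set ℝ) (n₀ : ℕ)
    (_ : ∀ i < M, ∀ m, volume (hull (n₀ + i * g + g) (good E G (n₀ + i * g) m) ∩
      cell (n₀ + i * g) m) ≤ ENNReal.ofReal q * volume (cell (n₀ + i * g) m))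
    (m : ℤ) (B : ℕ)
    (_ : ∀ t ∈ E ∩ cell n₀ m, ∀ s : Finset ℕ, (∀ i ∈ s, i < M ∧ ¬ G t (n₀ + i * g)) → s.card ≤ B),
    volume (E ∩ cell n₀ m) ≤
      ENNReal.ofReal ((q + (1 - q) / x) ^ M * x ^ B) * volume (cell n₀ m) := by
  have hx0 : 0 < x := by linarith
  have hρ0 : 0 ≤ q + (1 - q) / x := by
    have : 0 ≤ (1 - q) / x := div_nonneg (by linarith) hx0.le
    linarith
  induction M with
  | zero =>
    intro E n₀ _ m B _
    rw [pow_zero, one_mul]
    calc volume (E ∩ cell n₀ m) ≤ volume (cell n₀ m) := measure_mono inter_subset_right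
      _ = 1 * volume (cell n₀ m) := (one_mul _).symm
      _ ≤ ENNReal.ofReal (x ^ B) * volume (cell n₀ m) := by
          gcongr
          rw [ENNReal.one_le_ofReal]
          exact one_le_pow₀ hx
  | succ M ih =>
    intro E n₀ hatt m B hB
    classical
    set A : Finset ℤ := kids (good E G n₀ m) n₀ g m with hA
    set J : Finset ℤ := Finset.Ico (m * 2 ^ g) ((m + 1) * 2 ^ g) with hJ
    have hAJ : A ⊆ J := by
      intro m' hm'
      have := (mem_kids.1 hm').1
      rw [hJ, Finset.mem_Ico]
      exact this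
    have hJcard : (J.card : ℝ) = 2 ^ g := by
      rw [hJ, Int.card_Ico]
      have : (m + 1) * 2 ^ g - m * 2 ^ g = 2 ^ g := by ring
      rw [this]
      have h2 : ((2:ℤ) ^ g).toNat = 2 ^ g := by
        have : ((2:ℤ) ^ g) = ((2 ^ g : ℕ) : ℤ) := by push_cast; ring
        rw [this, Int.toNat_natCast]
      rw [h2]
      push_cast
      ring
    -- number of good children
    have hAcard : (A.card : ℝ) ≤ q * 2 ^ g := by
      have h := hatt 0 (Nat.succ_pos _) m
      simp only [zero_mul, add_zero] at h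
      rw [volume_hull_inter_cell, volume_cell, ← ENNReal.ofReal_natCast,
        ← ENNReal.ofReal_mul (Nat.cast_nonneg _), ← ENNReal.ofReal_mul hq0,
        ENNReal.ofReal_le_ofReal_iff (by positivity)] at h
      rw [pow_add] at h
      have h2 : (0:ℝ) < 2 ^ n₀ := by positivity
      have h3 : (0:ℝ) < 2 ^ g := by positivity
      have h4 : ((kids (good E G n₀ m) n₀ g m).card : ℝ) * (1 / (2 ^ n₀ * 2 ^ g)) =
          (A.card : ℝ) / 2 ^ g * (1 / 2 ^ n₀) := by
        rw [hA]; field_simp
      rw [h4] at h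
      have h5 := le_of_mul_le_mul_right h (by positivity : (0:ℝ) < 1 / 2 ^ n₀)
      rwa [div_le_iff₀ h3] at h5
    -- tail hypothesis
    have hatt' : ∀ E' ⊆ E, ∀ i < M, ∀ m', volume (hull (n₀ + g + i * g + g)
        (good E' G (n₀ + g + i * g) m') ∩ cell (n₀ + g + i * g) m') ≤
        ENNReal.ofReal q * volume (cell (n₀ + g + i * g) m') := by
      intro E' hE' i hi m'
      have h := hatt (i + 1) (by omega) m'
      have he : n₀ + (i + 1) * g = n₀ + g + i * g := by ring
      rw [he] at h
      refine le_trans (measure_mono ?_) h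
      refine inter_subset_inter_left _ ?_
      intro t ht
      obtain ⟨s, hs1, hs2⟩ := ht
      exact ⟨s, hs1, hE' hs2.1, hs2.2.1, hs2.2.2⟩
    set v : ℝ := 1 / 2 ^ (n₀ + g) with hv
    have hv0 : 0 ≤ v := by positivity
    -- bound on good children
    have hgoodkid : ∀ m' ∈ A, volume (E ∩ cell (n₀ + g) m') ≤
        ENNReal.ofReal ((q + (1 - q) / x) ^ M * x ^ B * v) := by
      intro m' hm'
      have hmm := (mem_kids.1 hm').1
      have hsub := cell_subset (n := n₀) hmm.1 hmm.2
      have h := ih E (n₀ + g) (hatt' E Subset.rfl) m' B (by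
        intro t ht s hs
        have h1 := hB t ⟨ht.1, hsub ht.2⟩ (s.map ⟨Nat.succ, Nat.succ_injective⟩) (by
          intro i hi
          rw [Finset.mem_map] at hi
          obtain ⟨j, hj, rfl⟩ := hi
          have := hs j hj
          refine ⟨Nat.succ_lt_succ this.1, ?_⟩
          have he : n₀ + (Nat.succ j) * g = n₀ + g + j * g := by
            rw [Nat.succ_eq_add_one]; ring
          change ¬ G t (n₀ + (Nat.succ j) * g)
          rw [he]
          exact this.2)
        rwa [Finset.card_map] at h1)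
      rw [volume_cell, ← ENNReal.ofReal_mul (by positivity)] at h
      exact h
    have hbadkid : ∀ m' ∈ J \ A, volume (E ∩ cell (n₀ + g) m') ≤
        ENNReal.ofReal ((q + (1 - q) / x) ^ M * (x ^ B / x) * v) := by
      intro m' hm'
      rw [Finset.mem_sdiff, hJ, Finset.mem_Ico] at hm'
      have hsub := cell_subset (n := n₀) hm'.1.1 hm'.1.2
      have hnot : ∀ t ∈ E ∩ cell (n₀ + g) m', ¬ G t n₀ := by
        intro t ht hG
        exact hm'.2 (mem_kids.2 ⟨hm'.1, ⟨t, ht.2, ht.1, hsub ht.2, hG⟩⟩)
      rcases Nat.eq_zero_or_pos B with hB0 | hBpos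
      · -- no exception allowed : empty
        have hemp : E ∩ cell (n₀ + g) m' = ∅ := by
          rw [Set.eq_empty_iff_forall_notMem]
          intro t ht
          have h1 := hB t ⟨ht.1, hsub ht.2⟩ {0} (by
            intro i hi
            rw [Finset.mem_singleton] at hi
            subst hi
            refine ⟨Nat.succ_pos _, ?_⟩
            simpa using hnot t ht)
          rw [Finset.card_singleton] at h1
          omega
        rw [hemp, measure_empty]
        exact bot_le
      · obtain ⟨B', rfl⟩ : ∃ B', B = B' + 1 := ⟨B - 1, by omega⟩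
        have h := ih E (n₀ + g) (hatt' E Subset.rfl) m' B' (by
          intro t ht s hs
          have hmem : (0:ℕ) ∉ s.map ⟨Nat.succ, Nat.succ_injective⟩ := by
            intro h0
            rw [Finset.mem_map] at h0
            obtain ⟨j, _, hj⟩ := h0
            exact Nat.succ_ne_zero j hj
          have h1 := hB t ⟨ht.1, hsub ht.2⟩ (insert 0 (s.map ⟨Nat.succ, Nat.succ_injective⟩)) (by
            intro i hi
            rw [Finset.mem_insert, Finset.mem_map] at hi
            rcases hi with rfl | ⟨j, hj, rfl⟩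
            · refine ⟨Nat.succ_pos _, ?_⟩
              simpa using hnot t ht
            · have := hs j hj
              refine ⟨Nat.succ_lt_succ this.1, ?_⟩
              have he : n₀ + (Nat.succ j) * g = n₀ + g + j * g := by
                rw [Nat.succ_eq_add_one]; ring
              change ¬ G t (n₀ + (Nat.succ j) * g)
              rw [he]
              exact this.2)
          rw [Finset.card_insert_of_notMem hmem, Finset.card_map] at h1
          omega)
        rw [volume_cell, ← ENNReal.ofReal_mul (by positivity)] at h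
        have he : x ^ (B' + 1) / x = x ^ B' := by
          rw [pow_succ]; field_simp
        rw [he]
        exact h
    -- covering
    have hcov : E ∩ cell n₀ m ⊆ (⋃ m' ∈ A, (E ∩ cell (n₀ + g) m')) ∪
        (⋃ m' ∈ J \ A, (E ∩ cell (n₀ + g) m')) := by
      intro u hu
      have hb := idx_bounds (g := g) hu.2
      by_cases hc : idx (n₀ + g) u ∈ A
      · left
        rw [mem_iUnion₂]
        exact ⟨_, hc, hu.1, mem_cell_idx _ _⟩
      · right
        rw [mem_iUnion₂]
        refine ⟨_, Finset.mem_sdiff.2 ⟨?_, hc⟩, hu.1, mem_cell_idx _ _⟩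
        rw [hJ, Finset.mem_Ico]
        exact hb
    set R : ℝ := (q + (1 - q) / x) ^ M with hR
    have hR0 : 0 ≤ R := pow_nonneg hρ0 _
    have hcardsd : ((J \ A).card : ℝ) = 2 ^ g - A.card := by
      rw [Finset.card_sdiff_of_subset hAJ, Nat.cast_sub (Finset.card_le_card hAJ), hJcard]
    have h1 : volume (⋃ m' ∈ A, (E ∩ cell (n₀ + g) m')) ≤
        ENNReal.ofReal (A.card * (R * x ^ B * v)) := by
      calc volume (⋃ m' ∈ A, (E ∩ cell (n₀ + g) m'))
          ≤ ∑ m' ∈ A, volume (E ∩ cell (n₀ + g) m') := measure_biUnion_finset_le _ _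
        _ ≤ ∑ _m' ∈ A, ENNReal.ofReal (R * x ^ B * v) := Finset.sum_le_sum hgoodkid
        _ = ENNReal.ofReal (A.card * (R * x ^ B * v)) := by
            rw [Finset.sum_const, nsmul_eq_mul, ENNReal.ofReal_mul (Nat.cast_nonneg _),
              ENNReal.ofReal_natCast]
    have h2 : volume (⋃ m' ∈ J \ A, (E ∩ cell (n₀ + g) m')) ≤
        ENNReal.ofReal ((J \ A).card * (R * (x ^ B / x) * v)) := by
      calc volume (⋃ m' ∈ J \ A, (E ∩ cell (n₀ + g) m'))
          ≤ ∑ m' ∈ J \ A, volume (E ∩ cell (n₀ + g) m') := measure_biUnion_finset_le _ _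
        _ ≤ ∑ _m' ∈ J \ A, ENNReal.ofReal (R * (x ^ B / x) * v) := Finset.sum_le_sum hbadkid
        _ = ENNReal.ofReal ((J \ A).card * (R * (x ^ B / x) * v)) := by
            rw [Finset.sum_const, nsmul_eq_mul, ENNReal.ofReal_mul (Nat.cast_nonneg _),
              ENNReal.ofReal_natCast]
    calc volume (E ∩ cell n₀ m)
        ≤ volume ((⋃ m' ∈ A, (E ∩ cell (n₀ + g) m')) ∪
            (⋃ m' ∈ J \ A, (E ∩ cell (n₀ + g) m'))) := measure_mono hcov
      _ ≤ volume (⋃ m' ∈ A, (E ∩ cell (n₀ + g) m')) +
            volume (⋃ m' ∈ J \ A, (E ∩ cell (n₀ + g) m')) := measure_union_le _ _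
      _ ≤ ENNReal.ofReal (A.card * (R * x ^ B * v)) +
            ENNReal.ofReal ((J \ A).card * (R * (x ^ B / x) * v)) := add_le_add h1 h2
      _ = ENNReal.ofReal (A.card * (R * x ^ B * v) + (J \ A).card * (R * (x ^ B / x) * v)) := by
            rw [ENNReal.ofReal_add (by positivity) (by positivity)]
      _ ≤ ENNReal.ofReal ((q + (1 - q) / x) ^ (M + 1) * x ^ B * (1 / 2 ^ n₀)) := by
            refine ENNReal.ofReal_le_ofReal ?_
            rw [hcardsd, pow_succ]
            have hv' : v = (1 / 2 ^ n₀) * (1 / 2 ^ g) := by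
              rw [hv, pow_add]; field_simp
            have hxB : 0 < x ^ B := by positivity
            have key : (A.card : ℝ) + (2 ^ g - A.card) / x ≤ 2 ^ g * (q + (1 - q) / x) := by
              have e1 : (2 ^ g - (A.card:ℝ)) / x = 2 ^ g / x - A.card * (1 / x) := by
                field_simp
              have e2 : (2:ℝ) ^ g * (q + (1 - q) / x) = 2 ^ g / x + q * 2 ^ g * (1 - 1 / x) := by
                field_simp; ring
              rw [e1, e2]
              have h1x : 0 ≤ 1 - 1 / x := by
                have : 1 / x ≤ 1 := by rw [div_le_one hx0]; exact hx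
                linarith
              nlinarith [mul_le_mul_of_nonneg_right hAcard h1x]
            have e3 : (A.card : ℝ) * (R * x ^ B * v) + (2 ^ g - A.card) * (R * (x ^ B / x) * v) =
                ((A.card : ℝ) + (2 ^ g - A.card) / x) * (R * x ^ B * v) := by
              field_simp
            rw [e3]
            have e4 : R * (q + (1 - q) / x) * x ^ B * (1 / 2 ^ n₀) =
                (2 ^ g * (q + (1 - q) / x)) * (R * x ^ B * v) := by
              rw [hv']; field_simp
            rw [e4]
            exact mul_le_mul_of_nonneg_right key (by positivity)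
      _ = ENNReal.ofReal ((q + (1 - q) / x) ^ (M + 1) * x ^ B) * volume (cell n₀ m) := by
            rw [volume_cell, ← ENNReal.ofReal_mul (by positivity)]

/-- numeric form: with `x = e`, `q = 1 - c`. -/
theorem attemptsX_exp {G : ℝ → ℕ → Prop} {g : ℕ} {c : ℝ} (hc0 : 0 ≤ c) (hc1 : c ≤ 1)
    {M : ℕ} {E : Set ℝ} {n₀ : ℕ}
    (hatt : ∀ i < M, ∀ m, volume (hull (n₀ + i * g + g) (good E G (n₀ + i * g) m) ∩
      cell (n₀ + i * g) m) ≤ ENNReal.ofReal (1 - c) * volume (cell (n₀ + i * g) m))
    (m : ℤ) {B : ℕ} (hBM : (B : ℝ) ≤ c * M / 8)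
    (hB : ∀ t ∈ E ∩ cell n₀ m, ∀ s : Finset ℕ, (∀ i ∈ s, i < M ∧ ¬ G t (n₀ + i * g)) →
      s.card ≤ B) :
    volume (E ∩ cell n₀ m) ≤
      ENNReal.ofReal (Real.exp (-(c * M / 4))) * volume (cell n₀ m) := by
  have h := attemptsX (G := G) (g := g) (q := 1 - c) (x := 2) (by linarith) (by linarith)
    (by norm_num) M E n₀ hatt m B hB
  refine h.trans ?_
  gcongr
  have e1 : (1 - c) + (1 - (1 - c)) / 2 = 1 - c / 2 := by ring
  rw [e1]
  have h1 : (1 - c / 2) ^ M ≤ Real.exp (-(c * M / 2)) := by
    have h2 : 1 - c / 2 ≤ Real.exp (-(c / 2)) := by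
      have := Real.add_one_le_exp (-(c / 2))
      linarith
    calc (1 - c / 2) ^ M ≤ (Real.exp (-(c / 2))) ^ M :=
          pow_le_pow_left₀ (by linarith) h2 M
      _ = Real.exp (-(c * M / 2)) := by
          rw [← Real.exp_nat_mul]
          congr 1
          ring
  have h3 : (2:ℝ) ^ B ≤ Real.exp (c * M / 4) := by
    have h4 : (2:ℝ) ≤ Real.exp 1 := by
      have := Real.add_one_le_exp (1:ℝ)
      linarith
    calc (2:ℝ) ^ B ≤ (Real.exp 1) ^ B := pow_le_pow_left₀ (by norm_num) h4 B
      _ = Real.exp B := by rw [← Real.exp_nat_mul, mul_one]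
      _ ≤ Real.exp (c * M / 4) := by
          rw [Real.exp_le_exp]
          have : 0 ≤ c * M := by positivity
          linarith
  calc (1 - c / 2) ^ M * 2 ^ B ≤ Real.exp (-(c * M / 2)) * Real.exp (c * M / 4) :=
        mul_le_mul h1 h3 (by positivity) (Real.exp_pos _).le
    _ = Real.exp (-(c * M / 4)) := by
        rw [← Real.exp_add]
        congr 1
        ring

end Crest.Agent.R128.AttemptsX
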