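import Mathlib

/-! Row 128, node V2-GLUE (helper167): from pointwise counts along the orbits of a measure preserving
map to areas. Abstract, Mathlib only, sorry free. -/

set_option autoImplicit false
open MeasureTheory Filter Topology Finset
open scoped ENNReal

namespace Crest.Agent.R128.Avg

variable {Ω : Type*} [MeasurableSpace Ω] {μ : Measure Ω} {T : Ω → Ω}

/-- orbit sums of a measurable function -/
theorem lintegral_orbit_sum (hT : MeasurePreserving T μ μ) {φ : Ω → ℝ≥0∞} (hφ : Measurable φ)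
    (n : ℕ) : ∫⁻ z, ∑ i ∈ range n, φ (T^[i] z) ∂μ = n * ∫⁻ z, φ z ∂μ := by
  have e : ∀ i, ∫⁻ z, φ (T^[i] z) ∂μ = ∫⁻ z, φ z ∂μ := fun i => (hT.iterate i).lintegral_comp hφ
  have hm : ∀ i ∈ range n, Measurable fun z => φ (T^[i] z) := fun i _ =>
    hφ.comp (hT.iterate i).measurable
  rw [lintegral_finsetSum _ hm, Finset.sum_congr rfl fun i _ => e i]
  simp

/-- the same with shifted start -/
theorem lintegral_orbit_sum_finset (hT : MeasurePreserving T μ μ) {φ : Ω → ℝ≥0∞} (hφ : Measurable φ)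
    (s : Finset ℕ) : ∫⁻ z, ∑ i ∈ s, φ (T^[i] z) ∂μ = s.card * ∫⁻ z, φ z ∂μ := by
  have e : ∀ i, ∫⁻ z, φ (T^[i] z) ∂μ = ∫⁻ z, φ z ∂μ := fun i => (hT.iterate i).lintegral_comp hφ
  have hm : ∀ i ∈ s, Measurable fun z => φ (T^[i] z) := fun i _ =>
    hφ.comp (hT.iterate i).measurable
  rw [lintegral_finsetSum _ hm, Finset.sum_congr rfl fun i _ => e i]
  simp

omit [MeasurableSpace Ω] in
theorem sum_indicator_eq_card (A : Set Ω) (s : Finset ℕ) (f : ℕ → Ω) [DecidablePred fun i => f i ∈ A] :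
    ∑ i ∈ s, A.indicator (fun _ => (1 : ℝ≥0∞)) (f i) = ((s.filter fun i => f i ∈ A).card : ℝ≥0∞) := by
  rw [Finset.card_filter, Nat.cast_sum]
  refine Finset.sum_congr rfl fun i _ => ?_
  by_cases h : f i ∈ A <;> simp [h]

/-- number of visits: the integral is `card * area` -/
theorem lintegral_card_visits (hT : MeasurePreserving T μ μ) {A : Set Ω} (hA : MeasurableSet A)
    (s : Finset ℕ) [∀ z, DecidablePred fun i : ℕ => T^[i] z ∈ A] :
    ∫⁻ z, ((s.filter fun i => T^[i] z ∈ A).card : ℝ≥0∞) ∂μ = s.card * μ A := by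
  have h := lintegral_orbit_sum_finset hT (measurable_const.indicator hA :
    Measurable (A.indicator fun _ => (1 : ℝ≥0∞))) s
  rw [lintegral_indicator_const hA, one_mul] at h
  rw [← h]
  refine lintegral_congr fun z => ?_
  exact (sum_indicator_eq_card A s (fun i => T^[i] z)).symm

/-- one orbit length -/
theorem mul_lintegral_le (hT : MeasurePreserving T μ μ) {φ : Ω → ℝ≥0∞} (hφ : Measurable φ)
    {g : Ω → ℝ≥0∞} {C B : ℝ≥0∞} (hC : C ≠ ∞) {n : ℕ}
    (h : ∀ z, ∑ i ∈ range n, φ (T^[i] z) ≤ C * g z + B) :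
    n * ∫⁻ z, φ z ∂μ ≤ C * ∫⁻ z, g z ∂μ + B * μ Set.univ := by
  calc (n : ℝ≥0∞) * ∫⁻ z, φ z ∂μ = ∫⁻ z, ∑ i ∈ range n, φ (T^[i] z) ∂μ :=
        (lintegral_orbit_sum hT hφ n).symm
    _ ≤ ∫⁻ z, (C * g z + B) ∂μ := lintegral_mono h
    _ = C * ∫⁻ z, g z ∂μ + B * μ Set.univ := by
        rw [lintegral_add_right _ measurable_const, lintegral_const_mul' _ _ hC, lintegral_const]

theorem tendsto_const_div_nat {D : ℝ≥0∞} (hD : D ≠ ∞) :
    Tendsto (fun n : ℕ => D * (n : ℝ≥0∞)⁻¹) atTop (𝓝 0) := by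
  have := ENNReal.Tendsto.const_mul (a := D) ENNReal.tendsto_inv_nat_nhds_zero (Or.inr hD)
  simpa using this

/-- passing to the limit: `n * I ≤ n * Y + D` frequently implies `I ≤ Y`. -/
theorem le_of_frequently_mul_le {I Y D : ℝ≥0∞} (hD : D ≠ ∞)
    (h : ∃ᶠ n : ℕ in atTop, (n : ℝ≥0∞) * I ≤ n * Y + D) : I ≤ Y := by
  have h2 : ∃ᶠ n : ℕ in atTop, I ≤ Y + D * (n : ℝ≥0∞)⁻¹ := by
    refine (h.and_eventually (eventually_gt_atTop 0)).mono ?_
    rintro n ⟨hn, hn0⟩
    have hn1 : (n : ℝ≥0∞) ≠ 0 := by exact_mod_cast hn0.ne'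
    have hn2 : (n : ℝ≥0∞) ≠ ∞ := ENNReal.natCast_ne_top n
    calc I = (n : ℝ≥0∞)⁻¹ * (n * I) := by
          rw [← mul_assoc, ENNReal.inv_mul_cancel hn1 hn2, one_mul]
      _ ≤ (n : ℝ≥0∞)⁻¹ * (n * Y + D) := by gcongr
      _ = Y + D * (n : ℝ≥0∞)⁻¹ := by
          rw [mul_add, ← mul_assoc, ENNReal.inv_mul_cancel hn1 hn2, one_mul, mul_comm _ D]
  have ht : Tendsto (fun n : ℕ => Y + D * (n : ℝ≥0∞)⁻¹) atTop (𝓝 (Y + 0)) :=
    tendsto_const_nhds.add (tendsto_const_div_nat hD)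
  rw [add_zero] at ht
  by_contra hlt
  push Not at hlt
  have := ht.eventually (gt_mem_nhds hlt)
  exact h2 (this.mono fun n hn hle => absurd hle (not_le.2 hn))

/-- **V2-GLUE.** Pointwise orbit sums of `φ` controlled by `C g_N + B`, and `∫ g_N ≤ N X` for
frequently many `N`: then `∫ φ ≤ C X`. The function `g` needs no measurability. -/
theorem lintegral_le_of_orbit [IsProbabilityMeasure μ] (hT : MeasurePreserving T μ μ)
    {φ : Ω → ℝ≥0∞} (hφ : Measurable φ) (hI : ∫⁻ z, φ z ∂μ ≠ ∞) {g : ℕ → Ω → ℝ≥0∞} {C B X : ℝ≥0∞}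
    (hC : C ≠ ∞) (hB : B ≠ ∞) (M : ℕ)
    (h : ∀ᶠ N : ℕ in atTop, ∀ z, ∑ i ∈ range (N - M), φ (T^[i] z) ≤ C * g N z + B)
    (hg : ∃ᶠ N : ℕ in atTop, ∫⁻ z, g N z ∂μ ≤ N * X) :
    ∫⁻ z, φ z ∂μ ≤ C * X := by
  set I := ∫⁻ z, φ z ∂μ with hIdef
  refine le_of_frequently_mul_le (D := B + M * I)
    (ENNReal.add_ne_top.2 ⟨hB, ENNReal.mul_ne_top (ENNReal.natCast_ne_top M) hI⟩) ?_
  refine (hg.and_eventually h).mono ?_
  rintro N ⟨h1, h2⟩
  have h3 := mul_lintegral_le hT hφ hC (n := N - M) h2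
  rw [measure_univ, mul_one] at h3
  have h4 : (N : ℝ≥0∞) ≤ ((N - M : ℕ) : ℝ≥0∞) + M := by
    have : N ≤ (N - M) + M := by omega
    exact_mod_cast this
  calc (N : ℝ≥0∞) * I ≤ (((N - M : ℕ) : ℝ≥0∞) + M) * I := by gcongr
    _ = ((N - M : ℕ) : ℝ≥0∞) * I + M * I := by rw [add_mul]
    _ ≤ (C * ∫⁻ z, g N z ∂μ + B) + M * I := by gcongr
    _ ≤ (C * (N * X) + B) + M * I := by gcongr
    _ = N * (C * X) + (B + M * I) := by ring

/-- set version: number of visits of `A` along the orbit. -/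
theorem measure_le_of_orbit [IsProbabilityMeasure μ] (hT : MeasurePreserving T μ μ)
    {A : Set Ω} (hA : MeasurableSet A) {g : ℕ → Ω → ℝ≥0∞} {C B X : ℝ≥0∞}
    (hC : C ≠ ∞) (hB : B ≠ ∞) (M : ℕ) [∀ z, DecidablePred fun i : ℕ => T^[i] z ∈ A]
    (h : ∀ᶠ N : ℕ in atTop, ∀ z,
      (((range (N - M)).filter fun i => T^[i] z ∈ A).card : ℝ≥0∞) ≤ C * g N z + B)
    (hg : ∃ᶠ N : ℕ in atTop, ∫⁻ z, g N z ∂μ ≤ N * X) :
    μ A ≤ C * X := by
  have key := lintegral_le_of_orbit hT (φ := A.indicator fun _ => (1 : ℝ≥0∞))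
    (measurable_const.indicator hA) (by
      rw [lintegral_indicator_const hA, one_mul]
      exact measure_ne_top μ A) (g := g) (X := X) hC hB M
    (h.mono fun N hN z => by
      rw [sum_indicator_eq_card A (range (N - M)) (fun i => T^[i] z)]
      exact hN z) hg
  rwa [lintegral_indicator_const hA, one_mul] at key

/-- lag-sum version: sets `A n`, `n ∈ s`, counted with multiplicity along the orbit. -/
theorem sum_measure_le_of_orbit [IsProbabilityMeasure μ] (hT : MeasurePreserving T μ μ)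
    {A : ℕ → Set Ω} (hA : ∀ n, MeasurableSet (A n)) (s : Finset ℕ) {g : ℕ → Ω → ℝ≥0∞}
    {C B X : ℝ≥0∞} (hC : C ≠ ∞) (hB : B ≠ ∞) (M : ℕ)
    [∀ z, DecidablePred fun p : ℕ × ℕ => T^[p.1] z ∈ A p.2]
    (h : ∀ᶠ N : ℕ in atTop, ∀ z,
      (((range (N - M) ×ˢ s).filter fun p => T^[p.1] z ∈ A p.2).card : ℝ≥0∞) ≤ C * g N z + B)
    (hg : ∃ᶠ N : ℕ in atTop, ∫⁻ z, g N z ∂μ ≤ N * X) :
    ∑ n ∈ s, μ (A n) ≤ C * X := by
  have hφ : Measurable fun z => ∑ n ∈ s, (A n).indicator (fun _ => (1 : ℝ≥0∞)) z :=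
    Finset.measurable_fun_sum _ fun n _ => measurable_const.indicator (hA n)
  have hint : ∫⁻ z, ∑ n ∈ s, (A n).indicator (fun _ => (1 : ℝ≥0∞)) z ∂μ = ∑ n ∈ s, μ (A n) := by
    rw [lintegral_finsetSum _ fun n _ => measurable_const.indicator (hA n)]
    exact Finset.sum_congr rfl fun n _ => by rw [lintegral_indicator_const (hA n), one_mul]
  rw [← hint]
  refine lintegral_le_of_orbit hT hφ (by
    rw [hint]
    exact (ENNReal.sum_lt_top.2 fun n _ => measure_lt_top μ _).ne) (g := g) hC hB M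
    (h.mono fun N hN z => ?_) hg
  refine le_trans (le_of_eq ?_) (hN z)
  rw [Finset.card_filter, Nat.cast_sum, Finset.sum_product]
  refine Finset.sum_congr rfl fun i _ => Finset.sum_congr rfl fun n _ => ?_
  by_cases hi : T^[i] z ∈ A n <;> simp [hi]

/-- the other direction: a count bounded pointwise by visits of sets has integral bounded by areas. -/
theorem lintegral_le_of_visits (hT : MeasurePreserving T μ μ) {ι : Type*} {A : ι → Set Ω}
    (hA : ∀ j, MeasurableSet (A j)) (J : Finset ι) (C : ι → ℝ≥0∞) (hC : ∀ j, C j ≠ ∞) (n : ℕ)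
    [∀ z j, DecidablePred fun i : ℕ => T^[i] z ∈ A j] {g : Ω → ℝ≥0∞} {B : ℝ≥0∞}
    (h : ∀ z, g z ≤ ∑ j ∈ J, C j * (((range n).filter fun i => T^[i] z ∈ A j).card : ℝ≥0∞) + B) :
    ∫⁻ z, g z ∂μ ≤ ∑ j ∈ J, C j * (n * μ (A j)) + B * μ Set.univ := by
  calc ∫⁻ z, g z ∂μ
      ≤ ∫⁻ z, (∑ j ∈ J, C j * (((range n).filter fun i => T^[i] z ∈ A j).card : ℝ≥0∞) + B) ∂μ :=
        lintegral_mono h
    _ = ∫⁻ z, ∑ j ∈ J, C j * (((range n).filter fun i => T^[i] z ∈ A j).card : ℝ≥0∞) ∂μ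
          + B * μ Set.univ := by
        rw [lintegral_add_right _ measurable_const, lintegral_const]
    _ = ∑ j ∈ J, C j * (n * μ (A j)) + B * μ Set.univ := by
        congr 1
        have hm : ∀ j, Measurable fun z =>
            (((range n).filter fun i => T^[i] z ∈ A j).card : ℝ≥0∞) := by
          intro j
          have : (fun z => (((range n).filter fun i => T^[i] z ∈ A j).card : ℝ≥0∞)) =
              fun z => ∑ i ∈ range n, (A j).indicator (fun _ => (1 : ℝ≥0∞)) (T^[i] z) := by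
            funext z
            exact (sum_indicator_eq_card (A j) (range n) (fun i => T^[i] z)).symm
          rw [this]
          exact Finset.measurable_fun_sum _ fun i _ =>
            (measurable_const.indicator (hA j)).comp (hT.iterate i).measurable
        rw [lintegral_finsetSum _ fun j _ => (hm j).const_mul _]
        refine Finset.sum_congr rfl fun j _ => ?_
        rw [lintegral_const_mul' _ _ (hC j), lintegral_card_visits hT (hA j) (range n),
          Finset.card_range]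

/-- real versions: `g` is a natural number valued count `c N z`, `X` real. -/
theorem measureReal_le_of_orbit [IsProbabilityMeasure μ] (hT : MeasurePreserving T μ μ)
    {A : Set Ω} (hA : MeasurableSet A) {c : ℕ → Ω → ℕ} {C B X : ℝ} (hC : 0 ≤ C) (hB : 0 ≤ B)
    (hX : 0 ≤ X) (M : ℕ) [∀ z, DecidablePred fun i : ℕ => T^[i] z ∈ A]
    (h : ∀ᶠ N : ℕ in atTop, ∀ z,
      (((range (N - M)).filter fun i => T^[i] z ∈ A).card : ℝ) ≤ C * c N z + B)
    (hg : ∃ᶠ N : ℕ in atTop, ∫⁻ z, (c N z : ℝ≥0∞) ∂μ ≤ ENNReal.ofReal (N * X)) :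
    μ.real A ≤ C * X := by
  have key := measure_le_of_orbit hT hA (g := fun N z => (c N z : ℝ≥0∞)) (C := ENNReal.ofReal C)
    (B := ENNReal.ofReal B) (X := ENNReal.ofReal X) ENNReal.ofReal_ne_top ENNReal.ofReal_ne_top M
    (h.mono fun N hN z => by
      have h1 := ENNReal.ofReal_le_ofReal (hN z)
      rw [ENNReal.ofReal_natCast, ENNReal.ofReal_add (by positivity) hB,
        ENNReal.ofReal_mul hC, ENNReal.ofReal_natCast] at h1
      exact h1)
    (hg.mono fun N hN => by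
      rw [ENNReal.ofReal_mul (by positivity), ENNReal.ofReal_natCast] at hN
      exact hN)
  rw [measureReal_def]
  rw [← ENNReal.ofReal_mul hC] at key
  exact ENNReal.toReal_le_of_le_ofReal (by positivity) key

end Crest.Agent.R128.Avg
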