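import Mathlib
import Crest.Agent.R128.BVP7

set_option autoImplicit false

open scoped BigOperators NNReal ENNReal
open Finset MeasureTheory Topology Filter

namespace Crest.Agent.R128.BVP

theorem continuous_xorb (k : ℝ) (m : ℕ) : Continuous fun z : ℝ × ℝ => xorb k z.1 z.2 m := by
  have key : ∀ m, (Continuous fun z : ℝ × ℝ => xorb k z.1 z.2 m) ∧
      Continuous fun z : ℝ × ℝ => xorb k z.1 z.2 (m + 1) := by
    intro m
    induction m with
    | zero => exact ⟨continuous_fst, continuous_snd⟩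
    | succ m ih =>
      refine ⟨ih.2, ?_⟩
      exact ((continuous_fk k).comp ih.2).sub ih.1
  exact (key m).1

/-- **Double cover, one vertical line.** Every point of `B` (coordinates `(X, y)`, `X1 - 1 ≤ X ≤ X1`) is `Good` at
the same time `n`; every `κ`-Lipschitz graph meets `R ⊇ B` in measure at most `lam`. -/
theorem double_cover_line {n : ℕ} (hn : 1 ≤ n) {k : ℝ} (hk : 0 ≤ k) {C ε : ℝ}
    (hε : ε ≤ 1 / 4) (hC : 0 ≤ C) (hεC : ε * C ≤ 1 / 4)
    {B : Set (ℝ × ℝ)} (hB : MeasurableSet B) (X1 : ℝ) (hB1 : ∀ z ∈ B, X1 - 1 ≤ z.1 ∧ z.1 ≤ X1)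
    (p q w rho : ℝ × ℝ → ℕ → ℝ)
    (hgood : ∀ z ∈ B, Good n (fk k) (Vk k) (4 * Real.pi ^ 2 * k) C ε (xorb k z.1 z.2)
      (p z) (q z) (w z) (rho z))
    (κ : ℝ≥0) (hκ : ∀ z ∈ B, w z 1 ≤ 2 * κ)
    {R : Set (ℝ × ℝ)} (hBR : B ⊆ R) (lam : ℝ≥0∞)
    (hR : ∀ σ : ℝ → ℝ, LipschitzWith κ σ → volume {X : ℝ | X ∈ Set.Icc (X1 - 1) X1 ∧ (X, σ X) ∈ R} ≤ lam)
    (P : Set ℝ)
    (hP : ∀ z ∈ B, ∀ o : ℕ → ℝ, Orb n (fk k) o → o 0 = X1 → o (n + 1) = xorb k z.1 z.2 (n + 1) →
      (∀ m ∈ Icc 1 n, |o m - xorb k z.1 z.2 m| ≤ 3 / 4 * w z m) → o 1 ∈ P) :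
    volume B ≤ ENNReal.ofReal (5 * C) * (lam * volume P) := by
  have h1n : (1 : ℕ) ∈ Icc 1 n := by rw [Finset.mem_Icc]; omega
  have hM : 0 ≤ 4 * Real.pi ^ 2 * k := by positivity
  have hNL := NL_fk hk
  set v : ℝ × ℝ → ℝ := fun z => xorb k z.1 z.2 (n + 1) with hv
  set Z : ℝ × ℝ → ℝ → ℝ → ℕ → ℝ := fun z X' u => mo n (fk k) (xorb k z.1 z.2) (w z) X' u with hZdef
  have hx0 : ∀ z : ℝ × ℝ, xorb k z.1 z.2 0 = z.1 := fun z => rfl
  have hx1 : ∀ z : ℝ × ℝ, xorb k z.1 z.2 1 = z.2 := fun z => rfl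
  have hxo : ∀ z : ℝ × ℝ, Orb n (fk k) (xorb k z.1 z.2) := fun z => xorb_orb k _ _ n
  have hZ : ∀ z ∈ B, ∀ X' u, |X' - z.1| ≤ 3 / 2 →
      (∀ m ∈ Icc 1 n, |p z m / p z (n + 1)| * |u - v z| ≤ w z m / 8) →
      Orb n (fk k) (Z z X' u) ∧ Z z X' u 0 = X' ∧ Z z X' u (n + 1) = u ∧
      ∀ m ∈ Icc 1 n, |Z z X' u m - xorb k z.1 z.2 m| ≤ 3 / 4 * w z m := by
    intro z hz X' u hX' hu
    exact mo_spec (hgood z hz) hM hNL hε X' u hX' hu
  have hZ' : ∀ z ∈ B, ∀ X', |X' - z.1| ≤ 3 / 2 →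
      Orb n (fk k) (Z z X' (v z)) ∧ Z z X' (v z) 0 = X' ∧ Z z X' (v z) (n + 1) = v z ∧
      ∀ m ∈ Icc 1 n, |Z z X' (v z) m - xorb k z.1 z.2 m| ≤ 3 / 4 * w z m := by
    intro z hz X' hX'
    refine hZ z hz X' _ hX' fun m hm => ?_
    rw [sub_self, abs_zero, mul_zero]
    linarith [(hgood z hz).wpos m hm]
  have hbox : ∀ z ∈ B, ∀ o : ℕ → ℝ, (∀ m ∈ Icc 1 n, |o m - xorb k z.1 z.2 m| ≤ 3 / 4 * w z m) →
      ∀ m ∈ Icc 1 n, |o m - xorb k z.1 z.2 m| ≤ w z m := fun z hz o h m hm =>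
    (h m hm).trans (by linarith [(hgood z hz).wpos m hm])
  have hself : ∀ z ∈ B, ∀ m ∈ Icc 1 n, |xorb k z.1 z.2 m - xorb k z.1 z.2 m| ≤ w z m := fun z hz m hm => by
    rw [sub_self, abs_zero]; exact ((hgood z hz).wpos m hm).le
  have hown : ∀ z ∈ B, Z z z.1 (v z) 1 = z.2 := by
    intro z hz
    obtain ⟨a1, a2, a3, a4⟩ := hZ' z hz z.1 (by rw [sub_self, abs_zero]; norm_num)
    have := (hgood z hz).unique hM hNL hε _ (xorb k z.1 z.2) a1 (hxo z) (hbox z hz _ a4) (hself z hz)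
      (by rw [a2, hx0]) a3 1 (by omega)
    rw [this, hx1]
  set h : ℝ × ℝ → ℝ := fun z => Z z X1 (v z) 1 with hh
  have hX1abs : ∀ z ∈ B, |X1 - z.1| ≤ 3 / 2 := fun z hz => by
    rw [abs_le]; constructor <;> linarith [(hB1 z hz).1, (hB1 z hz).2]
  -- the core: two points of `B` with the same image lie on one leaf
  have core : ∀ z ∈ B, ∀ z' ∈ B, z.1 ≤ z'.1 → h z = h z' → |z'.2 - z.2| ≤ κ * |z'.1 - z.1| := by
    intro z hz z' hz' hle e
    obtain ⟨a1, a2, a3, a4⟩ := hZ' z hz X1 (hX1abs z hz)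
    obtain ⟨b1, b2, b3, b4⟩ := hZ' z' hz' X1 (hX1abs z' hz')
    have hvv : v z = v z' := by
      have := orb_ext a1 b1 (by rw [a2, b2]) e (n + 1) le_rfl
      rwa [a3, b3] at this
    have hzb := hB1 z hz
    have hzb' := hB1 z' hz'
    have hleaf := leaf hn (hgood z hz) (hgood z' hz') hM hNL hε z'.1 X1 (v z')
      (fun X' => Z z X' (v z')) (fun X' => Z z' X' (v z'))
      (by
        intro X' hX'
        rw [Set.mem_Icc] at hX'
        have := hZ' z hz X' (by rw [abs_le]; constructor <;> linarith)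
        rw [← hvv]
        exact this)
      (by
        intro X' hX'
        rw [Set.mem_Icc] at hX'
        exact hZ' z' hz' X' (by rw [abs_le]; constructor <;> linarith))
      X1 ⟨hzb'.2, le_rfl⟩ (by
        rw [← hvv]
        have e2 : Z z X1 (v z) 1 = Z z' X1 (v z') 1 := e
        rw [e2, hvv])
      z'.1 ⟨le_rfl, hzb'.2⟩ 1 (by omega)
    rw [hown z' hz'] at hleaf
    have hc := hZ' z hz z'.1 (by rw [abs_le]; constructor <;> linarith)
    rw [hvv] at hc
    have hd := ((hgood z hz).diff hM hNL hε (xorb k z.1 z.2) (Z z z'.1 (v z')) (hxo z) hc.1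
      (hself z hz) (hbox z hz _ hc.2.2.2) 1 h1n).1
    have e3 : xorb k z.1 z.2 (n + 1) = v z' := hvv
    rw [hleaf, hc.2.1, hc.2.2.1, hx0, hx1, e3, sub_self, abs_zero, mul_zero, zero_add] at hd
    have h3 := hκ z hz
    have h4 : 2 * (w z 1 / 4 * |z'.1 - z.1|) ≤ κ * |z'.1 - z.1| := by
      have := mul_le_mul_of_nonneg_right h3 (abs_nonneg (z'.1 - z.1))
      linarith
    linarith
  have core' : ∀ z ∈ B, ∀ z' ∈ B, h z = h z' → |z'.2 - z.2| ≤ κ * |z'.1 - z.1| := by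
    intro z hz z' hz' e
    rcases le_total z.1 z'.1 with h1 | h1
    · exact core z hz z' hz' h1 e
    · have := core z' hz' z hz h1 e.symm
      rwa [abs_sub_comm, abs_sub_comm z.1] at this
  set Ψ : ℝ × ℝ → ℝ × ℝ := fun z => (z.1, h z) with hΨ
  have hinj : Set.InjOn Ψ B := by
    intro z hz z' hz' e
    have e1 : (Ψ z).1 = (Ψ z').1 := by rw [e]
    have e2 : (Ψ z).2 = (Ψ z').2 := by rw [e]
    change z.1 = z'.1 at e1
    change h z = h z' at e2
    have h3 := core' z hz z' hz' e2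
    rw [e1, sub_self, abs_zero, mul_zero] at h3
    have h4 := abs_eq_zero.mp (le_antisymm h3 (abs_nonneg _))
    exact Prod.ext e1 (by linarith)
  have hlocal : ∀ z ∈ B, ∀ᶠ z' in 𝓝 z, z' ∈ B → |h z' - h z| ≤ 2 * (rho z 1 * |v z' - v z|) := by
    intro z hz
    have G := hgood z hz
    have ev1 : ∀ᶠ z' in 𝓝 z, ∀ m ∈ Icc 1 n,
        |xorb k z'.1 z'.2 m - xorb k z.1 z.2 m| ≤ 3 / 4 * w z m := by
      rw [Filter.eventually_all_finset]
      intro m hm
      have hc := continuous_xorb k m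
      have : Tendsto (fun z' : ℝ × ℝ => |xorb k z'.1 z'.2 m - xorb k z.1 z.2 m|) (𝓝 z) (𝓝 0) := by
        have h1 : Tendsto (fun z' : ℝ × ℝ => |xorb k z'.1 z'.2 m - xorb k z.1 z.2 m|) (𝓝 z)
            (𝓝 |xorb k z.1 z.2 m - xorb k z.1 z.2 m|) :=
          ((hc.tendsto z).sub tendsto_const_nhds).abs
        simpa using h1
      have hpos : 0 < 3 / 4 * w z m := by linarith [G.wpos m hm]
      filter_upwards [this.eventually_lt_const hpos] with z' hz' using hz'.le
    have ev2 : ∀ᶠ z' in 𝓝 z, ∀ m ∈ Icc 1 n,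
        |p z m / p z (n + 1)| * |v z' - v z| ≤ w z m / 8 := by
      rw [Filter.eventually_all_finset]
      intro m hm
      have hc := continuous_xorb k (n + 1)
      have : Tendsto (fun z' : ℝ × ℝ => |p z m / p z (n + 1)| * |v z' - v z|) (𝓝 z) (𝓝 0) := by
        have h1 : Tendsto (fun z' : ℝ × ℝ => |p z m / p z (n + 1)| * |v z' - v z|) (𝓝 z)
            (𝓝 (|p z m / p z (n + 1)| * |v z - v z|)) :=
          tendsto_const_nhds.mul ((hc.tendsto z).sub tendsto_const_nhds).abs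
        simpa using h1
      have hpos : 0 < w z m / 8 := by linarith [G.wpos m hm]
      filter_upwards [this.eventually_lt_const hpos] with z' hz' using hz'.le
    have ev3 : ∀ᶠ z' in 𝓝 z, |z'.1 - z.1| < 1 / 2 := by
      have : Tendsto (fun z' : ℝ × ℝ => |z'.1 - z.1|) (𝓝 z) (𝓝 |z.1 - z.1|) :=
        ((continuous_fst.tendsto z).sub tendsto_const_nhds).abs
      rw [sub_self, abs_zero] at this
      exact this.eventually_lt_const (by norm_num)
    filter_upwards [ev1, ev2, ev3] with z' h1 h2 h3 hz'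
    have hzb := hB1 z hz
    have hzb' := hB1 z' hz'
    have h3' := abs_lt.mp h3
    have habs : ∀ X' ∈ Set.Icc z'.1 X1, |X' - z.1| ≤ 3 / 2 := by
      intro X' hX'
      rw [Set.mem_Icc] at hX'
      rw [abs_le]; constructor <;> linarith
    have habs' : ∀ X' ∈ Set.Icc z'.1 X1, |X' - z'.1| ≤ 3 / 2 := by
      intro X' hX'
      rw [Set.mem_Icc] at hX'
      rw [abs_le]; constructor <;> linarith
    have hWz : Z z z'.1 (v z') 1 = z'.2 := by
      obtain ⟨a1, a2, a3, a4⟩ := hZ z hz z'.1 (v z') (habs z'.1 ⟨le_rfl, hzb'.2⟩) h2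
      have := G.unique hM hNL hε _ (xorb k z'.1 z'.2) a1 (hxo z') (hbox z hz _ a4) (hbox z hz _ h1)
        (by rw [a2, hx0]) a3 1 (by omega)
      rw [this, hx1]
    have hleaf := leaf hn G (hgood z' hz') hM hNL hε z'.1 X1 (v z')
      (fun X' => Z z X' (v z')) (fun X' => Z z' X' (v z'))
      (fun X' hX' => hZ z hz X' (v z') (habs X' hX') h2)
      (fun X' hX' => hZ' z' hz' X' (habs' X' hX'))
      z'.1 ⟨le_rfl, hzb'.2⟩ (by rw [hWz, hown z' hz'])
      X1 ⟨hzb'.2, le_rfl⟩ 1 (by omega)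
    have hhz : h z' = Z z X1 (v z') 1 := hleaf.symm
    obtain ⟨a1, a2, a3, a4⟩ := hZ z hz X1 (v z') (hX1abs z hz) h2
    obtain ⟨b1, b2, b3, b4⟩ := hZ' z hz X1 (hX1abs z hz)
    have hd := (G.diff hM hNL hε (Z z X1 (v z)) (Z z X1 (v z')) b1 a1
      (hbox z hz _ b4) (hbox z hz _ a4) 1 h1n).1
    rw [a3, b3, a2, b2, sub_self, abs_zero, mul_zero, add_zero] at hd
    rw [hhz]
    exact hd
  have hcont : ContinuousOn Ψ B := by
    apply ContinuousOn.prodMk continuous_fst.continuousOn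
    intro z hz
    rw [ContinuousWithinAt, tendsto_iff_norm_sub_tendsto_zero]
    have hc := continuous_xorb k (n + 1)
    have hup : Tendsto (fun z' => 2 * (rho z 1 * |v z' - v z|)) (𝓝[B] z) (𝓝 0) := by
      have h1 : Tendsto (fun z' => 2 * (rho z 1 * |v z' - v z|)) (𝓝 z)
          (𝓝 (2 * (rho z 1 * |v z - v z|))) :=
        tendsto_const_nhds.mul (tendsto_const_nhds.mul ((hc.tendsto z).sub tendsto_const_nhds).abs)
      have h2 : 2 * (rho z 1 * |v z - v z|) = 0 := by simp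
      rw [h2] at h1
      exact h1.mono_left nhdsWithin_le_nhds
    refine squeeze_zero' (Eventually.of_forall fun z' => norm_nonneg _) ?_ hup
    filter_upwards [nhdsWithin_le_nhds (hlocal z hz), self_mem_nhdsWithin] with z' hz' hzD
    rw [Real.norm_eq_abs]
    exact hz' hzD
  have hΨm : MeasurableSet (Ψ '' B) := hB.image_of_continuousOn_injOn hcont hinj
  -- vertical slices
  have hvert : ∀ X : ℝ, volume {y : ℝ | (X, y) ∈ B} ≤
      ENNReal.ofReal (5 * C) * volume {y : ℝ | (X, y) ∈ Ψ '' B} := by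
    intro X
    by_cases hne : ∃ y, (X, y) ∈ B
    · obtain ⟨y0, hy0⟩ := hne
      have hXb := hB1 _ hy0
      simp only at hXb
      refine matching hn (continuous_fk k) hM hNL hε hC hεC (g := fun _ => X)
        (fun y z => by rw [sub_self, abs_zero]; positivity)
        (fun y => xorb k X y) (fun y => rfl) (fun y => rfl) (fun y => xorb_orb k _ _ n)
        (measurable_prodMk_left hB) (fun y => p (X, y)) (fun y => q (X, y)) (fun y => w (X, y))
        (fun y => rho (X, y)) (fun y hy => hgood (X, y) hy) X1 (fun y _ => ⟨hXb.2, by linarith⟩) _ ?_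
      intro y hy o ho ho0 hon hob
      obtain ⟨b1, b2, b3, b4⟩ := hZ' (X, y) hy X1 (hX1abs (X, y) hy)
      have := (hgood (X, y) hy).unique hM hNL hε o (Z (X, y) X1 (v (X, y))) ho b1
        (hbox (X, y) hy _ hob) (hbox (X, y) hy _ b4) (by rw [ho0, b2]) (by rw [hon, b3]) 1 (by omega)
      refine ⟨(X, y), hy, ?_⟩
      simp only [hΨ, hh]
      rw [this]
    · have : {y : ℝ | (X, y) ∈ B} = ∅ := by
        ext y
        simp only [Set.mem_ofPred_eq, Set.mem_empty_iff_false, iff_false]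
        exact fun hy => hne ⟨y, hy⟩
      rw [this, measure_empty]
      exact bot_le
  -- horizontal slices
  have hhor : ∀ y1 : ℝ, volume {X : ℝ | (X, y1) ∈ Ψ '' B} ≤ P.indicator (fun _ => lam) y1 := by
    intro y1
    by_cases hne : ∃ X, (X, y1) ∈ Ψ '' B
    · have hyP : y1 ∈ P := by
        obtain ⟨X, z, hz, e⟩ := hne
        have e2 : h z = y1 := congrArg Prod.snd e
        obtain ⟨b1, b2, b3, b4⟩ := hZ' z hz X1 (hX1abs z hz)
        rw [← e2]
        exact hP z hz _ b1 b2 b3 b4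
      rw [Set.indicator_of_mem hyP]
      classical
      set S : Set ℝ := {X : ℝ | (X, y1) ∈ Ψ '' B} with hS
      have hch : ∀ X ∈ S, ∃ y, (X, y) ∈ B ∧ h (X, y) = y1 := by
        rintro X ⟨z, hz, e⟩
        have e1 : z.1 = X := congrArg Prod.fst e
        have e2 : h z = y1 := congrArg Prod.snd e
        refine ⟨z.2, ?_, ?_⟩
        · rw [← e1]; exact hz
        · rw [← e1]; exact e2
      choose! σ0 hσ0 using hch
      have hlip : LipschitzOnWith κ σ0 S := by
        rw [lipschitzOnWith_iff_dist_le_mul]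
        intro X hX X' hX'
        obtain ⟨a1, a2⟩ := hσ0 X hX
        obtain ⟨b1, b2⟩ := hσ0 X' hX'
        have := core' (X', σ0 X') b1 (X, σ0 X) a1 (by rw [a2, b2])
        rw [Real.dist_eq, Real.dist_eq]
        exact this
      obtain ⟨σ, hσ, hσe⟩ := hlip.extend_real
      refine le_trans (measure_mono ?_) (hR σ hσ)
      intro X hX
      obtain ⟨a1, a2⟩ := hσ0 X hX
      refine ⟨?_, ?_⟩
      · have := hB1 _ a1
        exact ⟨this.1, this.2⟩
      · rw [← hσe hX]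
        exact hBR a1
    · have : {X : ℝ | (X, y1) ∈ Ψ '' B} = ∅ := by
        ext X
        simp only [Set.mem_ofPred_eq, Set.mem_empty_iff_false, iff_false]
        exact fun hX => hne ⟨X, hX⟩
      rw [this, measure_empty]
      exact bot_le
  calc volume B = ∫⁻ X, volume {y : ℝ | (X, y) ∈ B} := by
        rw [Measure.volume_eq_prod, Measure.prod_apply hB]; rfl
    _ ≤ ∫⁻ X, ENNReal.ofReal (5 * C) * volume {y : ℝ | (X, y) ∈ Ψ '' B} := lintegral_mono hvert
    _ = ENNReal.ofReal (5 * C) * ∫⁻ X, volume {y : ℝ | (X, y) ∈ Ψ '' B} :=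
        lintegral_const_mul _ (measurable_measure_prodMk_left hΨm)
    _ = ENNReal.ofReal (5 * C) * volume (Ψ '' B) := by
        congr 1
        rw [Measure.volume_eq_prod, Measure.prod_apply hΨm]; rfl
    _ = ENNReal.ofReal (5 * C) * ∫⁻ y1, volume {X : ℝ | (X, y1) ∈ Ψ '' B} := by
        congr 1
        rw [Measure.volume_eq_prod, Measure.prod_apply_symm hΨm]; rfl
    _ ≤ ENNReal.ofReal (5 * C) * ∫⁻ y1, P.indicator (fun _ => lam) y1 := by
        gcongr with y1
        exact hhor y1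
    _ ≤ ENNReal.ofReal (5 * C) * (lam * volume P) := by
        gcongr
        exact lintegral_indicator_const_le P lam

end Crest.Agent.R128.BVP
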