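import Mathlib
import Crest.Agent.R128.BVP9

set_option autoImplicit false

open scoped BigOperators NNReal ENNReal
open Finset MeasureTheory Topology Filter

namespace Crest.Agent.R128.BVP

theorem volume_lift_box (X1 : ℝ) {B : Set Tor} (hB : MeasurableSet B) :
    volume {z : ℝ × ℝ | (z.1 ∈ Set.Ioc (X1 - 1) X1 ∧ z.2 ∈ Set.Ioc (0 : ℝ) 1) ∧ pr z ∈ B} = volume B := by
  have h1 := UnitAddCircle.measurePreserving_mk (X1 - 1)
  have h2 := UnitAddCircle.measurePreserving_mk 0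
  rw [zero_add] at h2
  rw [sub_add_cancel] at h1
  have h3 := h1.prod h2
  have hpr : Measurable pr := by
    unfold pr
    exact (AddCircle.measurable_mk'.comp measurable_fst).prodMk (AddCircle.measurable_mk'.comp measurable_snd)
  have h4 := h3.measure_preimage (s := B) (by
    rw [← Measure.volume_eq_prod]; exact hB.nullMeasurableSet)
  rw [← Measure.volume_eq_prod, Measure.prod_restrict] at h4
  have e : (Prod.map (fun a : ℝ => (a : UnitAddCircle)) (fun a : ℝ => (a : UnitAddCircle))) = pr := rfl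
  rw [Measure.restrict_apply (by rw [e]; exact hpr hB)] at h4
  rw [← h4, ← Measure.volume_eq_prod]
  congr 1
  ext z
  constructor
  · rintro ⟨⟨a, b⟩, c⟩; exact ⟨c, ⟨a, b⟩⟩
  · rintro ⟨c, ⟨a, b⟩⟩; exact ⟨⟨a, b⟩, c⟩

/-- **Double cover on the torus**, one lag `n`. Coordinates `(X, y)`; for the backward violations use the time
reversed coordinates `(X, y) = (x_0, x_{-1})`. -/
theorem double_cover_tor {n : ℕ} (hn : 1 ≤ n) {k : ℝ} (hk : 0 ≤ k) {C ε : ℝ}
    (hε : ε ≤ 1 / 4) (hC : 0 ≤ C) (hεC : ε * C ≤ 1 / 4)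
    {B R G2 : Set Tor} (hB : MeasurableSet B) (hBR : B ⊆ R) (hG2 : MeasurableSet G2)
    (p q w rho : ℝ × ℝ → ℕ → ℝ)
    (hgood : ∀ z : ℝ × ℝ, pr z ∈ B → Good n (fk k) (Vk k) (4 * Real.pi ^ 2 * k) C ε (xorb k z.1 z.2)
      (p z) (q z) (w z) (rho z))
    (κ : ℝ≥0) (hκ : ∀ z : ℝ × ℝ, pr z ∈ B → w z 1 ≤ 2 * κ) (lam : ℝ≥0∞)
    (hR : ∀ σ : ℝ → ℝ, LipschitzWith κ σ → ∀ a : ℝ,
      volume {X : ℝ | X ∈ Set.Icc a (a + 1) ∧ pr (X, σ X) ∈ R} ≤ lam)
    (hG : ∀ z : ℝ × ℝ, pr z ∈ B → ∀ o : ℕ → ℝ, Orb n (fk k) o → z.1 ≤ o 0 → o 0 ≤ z.1 + 1 →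
      o (n + 1) = xorb k z.1 z.2 (n + 1) →
      (∀ m ∈ Icc 1 n, |o m - xorb k z.1 z.2 m| ≤ 3 / 4 * w z m) → pr (o 0, o 1) ∈ G2) :
    volume B ≤ ENNReal.ofReal (15 * C) * (lam * volume G2) := by
  have h1n : (1 : ℕ) ∈ Icc 1 n := by rw [Finset.mem_Icc]; omega
  have hpr : Measurable pr := by
    unfold pr
    exact (AddCircle.measurable_mk'.comp measurable_fst).prodMk (AddCircle.measurable_mk'.comp measurable_snd)
  set F : UnitAddCircle → ℝ≥0∞ := fun a => volume {b : UnitAddCircle | (a, b) ∈ G2} with hF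
  have hFm : Measurable F := measurable_measure_prodMk_left hG2
  have hline : ∀ X1 : ℝ, volume B ≤ ENNReal.ofReal (5 * C) * (lam * (3 * F (X1 : UnitAddCircle))) := by
    intro X1
    have hS : MeasurableSet {b : UnitAddCircle | ((X1 : UnitAddCircle), b) ∈ G2} := measurable_prodMk_left hG2
    rw [← volume_lift_box X1 hB]
    have hmB : MeasurableSet {z : ℝ × ℝ | (z.1 ∈ Set.Ioc (X1 - 1) X1 ∧ z.2 ∈ Set.Ioc (0 : ℝ) 1) ∧ pr z ∈ B} :=
      ((measurable_fst measurableSet_Ioc).inter (measurable_snd measurableSet_Ioc)).inter (hpr hB)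
    have h := double_cover_line hn hk hε hC hεC hmB X1 (fun z hz => ⟨hz.1.1.1.le, hz.1.1.2⟩)
      p q w rho (fun z hz => hgood z hz.2) κ (fun z hz => hκ z hz.2)
      (R := {z : ℝ × ℝ | pr z ∈ R}) (fun z hz => hBR hz.2) lam
      (by
        intro σ hσ
        have := hR σ hσ (X1 - 1)
        rw [sub_add_cancel] at this
        exact this)
      {y' : ℝ | y' ∈ Set.Ioc ((0 : ℝ) - 1) (0 + 2) ∧
        (y' : UnitAddCircle) ∈ {b : UnitAddCircle | ((X1 : UnitAddCircle), b) ∈ G2}}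
      (by
        intro z hz o ho ho0 hon hob
        have h2 := hob 1 h1n
        have h3 := (hgood z hz.2).w1
        have h4 : xorb k z.1 z.2 1 = z.2 := rfl
        rw [h4] at h2
        have h5 := abs_le.mp h2
        have h6 := hz.1.2
        rw [Set.mem_Ioc] at h6
        refine ⟨⟨by linarith, by linarith⟩, ?_⟩
        have h7 := hG z hz.2 o ho (by rw [ho0]; exact hz.1.1.2) (by rw [ho0]; linarith [hz.1.1.1]) hon hob
        rw [ho0] at h7
        exact h7)
    refine h.trans ?_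
    gcongr
    exact volume_lift_le 0 hS
  have hint : ∫⁻ X in Set.Ioc (0 : ℝ) (0 + 1), F (X : UnitAddCircle) = volume G2 := by
    rw [UnitAddCircle.lintegral_preimage 0 F, Measure.volume_eq_prod, Measure.prod_apply hG2]
    rfl
  have hmF : Measurable fun X : ℝ => F (X : UnitAddCircle) := hFm.comp AddCircle.measurable_mk'
  calc volume B = ∫⁻ _ in Set.Ioc (0 : ℝ) (0 + 1), volume B := by
        rw [setLIntegral_const, Real.volume_Ioc]; simp
    _ ≤ ∫⁻ X in Set.Ioc (0 : ℝ) (0 + 1), ENNReal.ofReal (5 * C) * (lam * (3 * F (X : UnitAddCircle))) :=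
        lintegral_mono fun X => hline X
    _ = ENNReal.ofReal (5 * C) * (lam * (3 * ∫⁻ X in Set.Ioc (0 : ℝ) (0 + 1), F (X : UnitAddCircle))) := by
        rw [lintegral_const_mul _ ((hmF.const_mul 3).const_mul lam), lintegral_const_mul _ (hmF.const_mul 3),
          lintegral_const_mul _ hmF]
    _ = ENNReal.ofReal (15 * C) * (lam * volume G2) := by
        rw [hint]
        have e3 : ENNReal.ofReal (15 * C) = ENNReal.ofReal (5 * C) * 3 := by
          rw [show (3 : ℝ≥0∞) = ENNReal.ofReal 3 by norm_num, ← ENNReal.ofReal_mul (by linarith)]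
          congr 1; ring
        rw [e3]
        ring

end Crest.Agent.R128.BVP
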