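import Mathlib
import Crest.Agent.R128.BVP10

set_option autoImplicit false

open scoped BigOperators NNReal ENNReal
open Finset MeasureTheory Topology Filter

namespace Crest.Agent.R128.BVP

/-- A family of good sets `E i` (at time `nn i`) with relaxed sets `Q i` containing all matched points. -/
structure Fam (k C ε : ℝ) (κ : ℝ≥0) {ι : Type*} (nn : ι → ℕ) (E Q : ι → Set Tor) : Prop where
  measE : ∀ i, MeasurableSet (E i)
  measQ : ∀ i, MeasurableSet (Q i)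
  one_le : ∀ i, 1 ≤ nn i
  good : ∀ i, ∀ z : ℝ × ℝ, pr z ∈ E i → ∃ p q w rho : ℕ → ℝ,
    Good (nn i) (fk k) (Vk k) (4 * Real.pi ^ 2 * k) C ε (xorb k z.1 z.2) p q w rho ∧ w 1 ≤ 2 * κ ∧
    ∀ o : ℕ → ℝ, Orb (nn i) (fk k) o → z.1 ≤ o 0 → o 0 ≤ z.1 + 1 →
      o (nn i + 1) = xorb k z.1 z.2 (nn i + 1) →
      (∀ m ∈ Icc 1 (nn i), |o m - xorb k z.1 z.2 m| ≤ 3 / 4 * w m) → pr (o 0, o 1) ∈ Q i

theorem measurable_pr : Measurable pr := by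
  unfold pr
  exact (AddCircle.measurable_mk'.comp measurable_fst).prodMk (AddCircle.measurable_mk'.comp measurable_snd)

/-- **(V3)** a unit curve meets the union of the good sets in measure `≤ 20 C ∑ vol (Q i)`. -/
theorem Fam.curve {k C ε : ℝ} {κ : ℝ≥0} {ι : Type*} [Countable ι] {nn : ι → ℕ} {E Q : ι → Set Tor}
    (F : Fam k C ε κ nn E Q) (hk : 0 ≤ k) (hε : ε ≤ 1 / 4) (hC : 0 ≤ C) (hεC : ε * C ≤ 1 / 4)
    {κ0 : ℝ≥0} (hκ0 : (κ0 : ℝ) ≤ 1 / 8) {σ : ℝ → ℝ} (hσ : LipschitzWith κ0 σ) (a : ℝ) :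
    volume {y : ℝ | y ∈ Set.Icc a (a + 1) ∧ pr (σ y, y) ∈ ⋃ i, E i} ≤
      ENNReal.ofReal (20 * C) * ∑' i, volume (Q i) := by
  classical
  have hσ' : ∀ y z, |σ y - σ z| ≤ κ0 * |y - z| := fun y z => by
    have := hσ.dist_le_mul y z
    rwa [Real.dist_eq, Real.dist_eq] at this
  have hone : ∀ i, volume {y : ℝ | y ∈ Set.Icc a (a + 1) ∧ pr (σ y, y) ∈ E i} ≤
      ENNReal.ofReal (20 * C) * volume (Q i) := by
    intro i
    have hch : ∀ y : ℝ, ∃ P : (ℕ → ℝ) × (ℕ → ℝ) × (ℕ → ℝ) × (ℕ → ℝ), pr (σ y, y) ∈ E i →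
        Good (nn i) (fk k) (Vk k) (4 * Real.pi ^ 2 * k) C ε (xorb k (σ y) y) P.1 P.2.1 P.2.2.1 P.2.2.2 ∧
        P.2.2.1 1 ≤ 2 * κ ∧
        ∀ o : ℕ → ℝ, Orb (nn i) (fk k) o → σ y ≤ o 0 → o 0 ≤ σ y + 1 →
          o (nn i + 1) = xorb k (σ y) y (nn i + 1) →
          (∀ m ∈ Icc 1 (nn i), |o m - xorb k (σ y) y m| ≤ 3 / 4 * P.2.2.1 m) → pr (o 0, o 1) ∈ Q i := by
      intro y
      by_cases h : pr (σ y, y) ∈ E i
      · obtain ⟨p, q, w, rho, h1, h2, h3⟩ := F.good i (σ y, y) h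
        exact ⟨(p, q, w, rho), fun _ => ⟨h1, h2, h3⟩⟩
      · exact ⟨(0, 0, 0, 0), fun h' => absurd h' h⟩
    choose Pf hPf using hch
    have hmeas : MeasurableSet {y : ℝ | y ∈ Set.Icc a (a + 1) ∧ pr (σ y, y) ∈ E i} := by
      have h1 : Measurable fun y : ℝ => pr (σ y, y) :=
        measurable_pr.comp (hσ.continuous.measurable.prodMk measurable_id)
      exact measurableSet_Icc.inter (h1 (F.measE i))
    refine matching_tor_at a (F.one_le i) hk hε hC hεC (g := σ)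
      (fun y z => (hσ' y z).trans ?_) hmeas (fun y hy => hy.1) (σ a) ?_
      (fun y => (Pf y).1) (fun y => (Pf y).2.1) (fun y => (Pf y).2.2.1) (fun y => (Pf y).2.2.2)
      (fun y hy => (hPf y hy.2).1) (F.measQ i) ?_
    · exact mul_le_mul_of_nonneg_right (by linarith) (abs_nonneg _)
    · intro y hy
      have h1 := hσ' y a
      have h2 := hy.1
      rw [Set.mem_Icc] at h2
      have h3 : |y - a| ≤ 1 := by rw [abs_le]; constructor <;> linarith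
      have h4 : (κ0 : ℝ) * |y - a| ≤ 1 / 8 * 1 := mul_le_mul hκ0 h3 (abs_nonneg _) (by norm_num)
      linarith
    · intro y hy o ho h1 h2 h3 h4
      exact (hPf y hy.2).2.2 o ho h1 h2 h3 h4
  have hsub : {y : ℝ | y ∈ Set.Icc a (a + 1) ∧ pr (σ y, y) ∈ ⋃ i, E i} ⊆
      ⋃ i, {y : ℝ | y ∈ Set.Icc a (a + 1) ∧ pr (σ y, y) ∈ E i} := by
    rintro y ⟨h1, h2⟩
    rw [Set.mem_iUnion] at h2 ⊢
    obtain ⟨i, hi⟩ := h2
    exact ⟨i, h1, hi⟩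
  calc volume {y : ℝ | y ∈ Set.Icc a (a + 1) ∧ pr (σ y, y) ∈ ⋃ i, E i}
      ≤ ∑' i, volume {y : ℝ | y ∈ Set.Icc a (a + 1) ∧ pr (σ y, y) ∈ E i} :=
        (measure_mono hsub).trans (measure_iUnion_le _)
    _ ≤ ∑' i, ENNReal.ofReal (20 * C) * volume (Q i) := ENNReal.tsum_le_tsum hone
    _ = ENNReal.ofReal (20 * C) * ∑' i, volume (Q i) := ENNReal.tsum_mul_left

/-- **(V4)** double cover. -/
theorem Fam.double {k C ε : ℝ} {κ : ℝ≥0} {ι : Type*} [Countable ι] {nn : ι → ℕ} {E Q : ι → Set Tor}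
    (F : Fam k C ε κ nn E Q) (hk : 0 ≤ k) (hε : ε ≤ 1 / 4) (hC : 0 ≤ C) (hεC : ε * C ≤ 1 / 4)
    {R : Set Tor} (hRm : MeasurableSet R) (lam : ℝ≥0∞)
    (hR : ∀ σ : ℝ → ℝ, LipschitzWith κ σ → ∀ a : ℝ,
      volume {X : ℝ | X ∈ Set.Icc a (a + 1) ∧ pr (X, σ X) ∈ R} ≤ lam) :
    volume ((⋃ i, E i) ∩ R) ≤ ENNReal.ofReal (15 * C) * (lam * ∑' i, volume (Q i)) := by
  classical
  have hone : ∀ i, volume (E i ∩ R) ≤ ENNReal.ofReal (15 * C) * (lam * volume (Q i)) := by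
    intro i
    have hch : ∀ z : ℝ × ℝ, ∃ P : (ℕ → ℝ) × (ℕ → ℝ) × (ℕ → ℝ) × (ℕ → ℝ), pr z ∈ E i →
        Good (nn i) (fk k) (Vk k) (4 * Real.pi ^ 2 * k) C ε (xorb k z.1 z.2) P.1 P.2.1 P.2.2.1 P.2.2.2 ∧
        P.2.2.1 1 ≤ 2 * κ ∧
        ∀ o : ℕ → ℝ, Orb (nn i) (fk k) o → z.1 ≤ o 0 → o 0 ≤ z.1 + 1 →
          o (nn i + 1) = xorb k z.1 z.2 (nn i + 1) →
          (∀ m ∈ Icc 1 (nn i), |o m - xorb k z.1 z.2 m| ≤ 3 / 4 * P.2.2.1 m) → pr (o 0, o 1) ∈ Q i := by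
      intro z
      by_cases h : pr z ∈ E i
      · obtain ⟨p, q, w, rho, h1, h2, h3⟩ := F.good i z h
        exact ⟨(p, q, w, rho), fun _ => ⟨h1, h2, h3⟩⟩
      · exact ⟨(0, 0, 0, 0), fun h' => absurd h' h⟩
    choose Pf hPf using hch
    exact double_cover_tor (F.one_le i) hk hε hC hεC ((F.measE i).inter hRm) Set.inter_subset_right
      (F.measQ i) (fun z => (Pf z).1) (fun z => (Pf z).2.1) (fun z => (Pf z).2.2.1) (fun z => (Pf z).2.2.2)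
      (fun z hz => (hPf z hz.1).1) κ (fun z hz => (hPf z hz.1).2.1) lam hR
      (fun z hz o ho h1 h2 h3 h4 => (hPf z hz.1).2.2 o ho h1 h2 h3 h4)
  calc volume ((⋃ i, E i) ∩ R) = volume (⋃ i, E i ∩ R) := by rw [Set.iUnion_inter]
    _ ≤ ∑' i, volume (E i ∩ R) := measure_iUnion_le _
    _ ≤ ∑' i, ENNReal.ofReal (15 * C) * (lam * volume (Q i)) := ENNReal.tsum_le_tsum hone
    _ = ENNReal.ofReal (15 * C) * (lam * ∑' i, volume (Q i)) := by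
        rw [ENNReal.tsum_mul_left, ENNReal.tsum_mul_left]

end Crest.Agent.R128.BVP
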