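import Mathlib
import Crest.Agent.R128.BVP11
import Crest.Agent.R128.Near

set_option autoImplicit false

open scoped BigOperators NNReal ENNReal
open Finset MeasureTheory Topology Filter

namespace Crest.Agent.R128.BVP

/-- left solution -/
def pa (a : ℕ → ℝ) : ℕ → ℝ
  | 0 => 0
  | 1 => 1
  | m + 2 => a (m + 1) * pa a (m + 1) - pa a m

/-- right solution, indexed from the right end -/
def ra (a : ℕ → ℝ) (n : ℕ) : ℕ → ℝ
  | 0 => 0
  | 1 => 1
  | i + 2 => a (n - i) * ra a n (i + 1) - ra a n i

theorem grow {s : ℕ → ℝ} {b : ℝ} (hb : 2 ≤ b) {n : ℕ} (h0 : s 0 = 0) (h1 : s 1 = 1)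
    (h : ∀ i < n, b * |s (i + 1)| - |s i| ≤ |s (i + 2)|) :
    ∀ i ≤ n, 0 < |s (i + 1)| ∧ (b - 1) * |s i| ≤ |s (i + 1)| := by
  intro i
  induction i with
  | zero => intro _; rw [zero_add, h0, h1]; norm_num
  | succ i ih =>
    intro hi
    obtain ⟨i1, i2⟩ := ih (by omega)
    have h2 := h i (by omega)
    have h3 : |s i| ≤ |s (i + 1)| := by nlinarith [abs_nonneg (s i)]
    have h4 : (b - 1) * |s (i + 1)| ≤ |s (i + 2)| := by nlinarith
    refine ⟨?_, h4⟩
    show 0 < |s (i + 2)|
    nlinarith

theorem geo_le {θ : ℝ} (h0 : 0 ≤ θ) (h : θ ≤ 1 / 2) (n : ℕ) : ∑ j ∈ Icc 1 n, θ ^ j ≤ 2 * θ := by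
  have : ∀ n : ℕ, ∑ j ∈ Icc 1 n, θ ^ j ≤ 2 * θ - 2 * θ ^ (n + 1) := by
    intro n
    induction n with
    | zero => simp
    | succ n ih =>
      rw [Finset.sum_Icc_succ_top (by omega)]
      have h1 : 0 ≤ θ ^ (n + 1) := by positivity
      have h2 : θ ^ (n + 1 + 1) = θ ^ (n + 1) * θ := pow_succ _ _
      nlinarith
  have h1 := this n
  have h2 : 0 ≤ θ ^ (n + 1) := by positivity
  linarith

/-- **Good for all-regular segments.** -/
theorem good_clean {n : ℕ} (hn : 1 ≤ n) {f V : ℝ → ℝ} {M b : ℝ} (hM : 0 ≤ M) (hb : 9 ≤ b)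
    {x : ℕ → ℝ} (hx : Orb n f x) (hreg : ∀ m ∈ Icc 1 n, b ≤ |V (x m)|) :
    ∃ p q w rho : ℕ → ℝ, Good n f V M 1 (8 * M / ((b - 1) * (b - 2))) x p q w rho ∧ w 1 ≤ 4 / (b - 1) := by
  set a : ℕ → ℝ := fun m => V (x m) with ha
  set p := pa a with hp
  set q : ℕ → ℝ := fun m => ra a n (n + 1 - m) with hq
  have hb1 : 0 < b - 1 := by linarith
  have hb2 : 0 < b - 2 := by linarith
  have hprec : ∀ m, p (m + 2) = a (m + 1) * p (m + 1) - p m := fun m => rfl
  have hqrec : ∀ m < n, q m = a (m + 1) * q (m + 1) - q (m + 2) := by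
    intro m hm
    simp only [hq]
    have e1 : n + 1 - m = (n - 1 - m) + 2 := by omega
    have e2 : n + 1 - (m + 1) = (n - 1 - m) + 1 := by omega
    have e3 : n + 1 - (m + 2) = n - 1 - m := by omega
    rw [e1, e2, e3]
    have e4 : n - (n - 1 - m) = m + 1 := by omega
    show a (n - (n - 1 - m)) * ra a n (n - 1 - m + 1) - ra a n (n - 1 - m) = _
    rw [e4]
  have gp := grow (s := p) (b := b) (by linarith) (n := n) rfl rfl (by
    intro i hi
    rw [hprec i]
    have h1 := hreg (i + 1) (by rw [Finset.mem_Icc]; omega)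
    have h2 := abs_sub_abs_le_abs_sub (a (i + 1) * p (i + 1)) (p i)
    rw [abs_mul] at h2
    have h3 := mul_le_mul_of_nonneg_right h1 (abs_nonneg (p (i + 1)))
    linarith)
  have gr := grow (s := ra a n) (b := b) (by linarith) (n := n) rfl rfl (by
    intro i hi
    have h1 := hreg (n - i) (by rw [Finset.mem_Icc]; omega)
    have h2 := abs_sub_abs_le_abs_sub (a (n - i) * ra a n (i + 1)) (ra a n i)
    rw [abs_mul] at h2
    have h3 := mul_le_mul_of_nonneg_right h1 (abs_nonneg (ra a n (i + 1)))
    have h4 : ra a n (i + 2) = a (n - i) * ra a n (i + 1) - ra a n i := rfl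
    rw [h4]
    linarith)
  -- |p m| ≤ θ |p (m+1)|, |q (m+1)| ≤ θ |q m|
  set θ : ℝ := 1 / (b - 1) with hθ
  have hθ0 : 0 < θ := by positivity
  have hθ2 : θ ≤ 1 / 2 := by
    rw [hθ]; apply one_div_le_one_div_of_le (by norm_num); linarith
  have hpθ : ∀ m ≤ n, |p m| ≤ θ * |p (m + 1)| := by
    intro m hm
    have := (gp m hm).2
    rw [hθ, one_div, ← div_eq_inv_mul, le_div_iff₀ hb1]
    linarith
  have hqθ : ∀ m ≤ n, |q (m + 1)| ≤ θ * |q m| := by
    intro m hm
    have := (gr (n - m) (by omega)).2
    simp only [hq]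
    have e1 : n + 1 - m = n - m + 1 := by omega
    have e2 : n + 1 - (m + 1) = n - m := by omega
    rw [e1, e2, hθ, one_div, ← div_eq_inv_mul, le_div_iff₀ hb1]
    linarith
  have hpp : ∀ m, 1 ≤ m → m ≤ n + 1 → 0 < |p m| := by
    intro m h1 h2
    have := (gp (m - 1) (by omega)).1
    rwa [Nat.sub_add_cancel h1] at this
  have hqp : ∀ m ≤ n, 0 < |q m| := by
    intro m h1
    have := (gr (n - m) (by omega)).1
    simp only [hq]
    have e1 : n + 1 - m = n - m + 1 := by omega
    rw [e1]; exact this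
  have hW0 : p (n + 1) ≠ 0 := by
    have := hpp (n + 1) (by omega) le_rfl
    exact abs_pos.mp this
  have J : Jac n (fun m => V (x m)) p q :=
    { p0 := rfl, p1 := rfl, hp := fun m _ => hprec m
      qn1 := by simp only [hq]; rw [Nat.sub_self]; rfl
      qn := by
        simp only [hq]
        rw [show n + 1 - n = 1 by omega]; rfl
      hq := hqrec, W0 := hW0 }
  set W := p (n + 1) with hWdef
  have hWpos : 0 < |W| := abs_pos.mpr hW0
  have hq0 : |q 0| = |W| := by rw [q_zero J]
  -- decay of q from 0, mutual decay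
  have hqdec : ∀ i j, i ≤ j → j ≤ n + 1 → |q j| ≤ θ ^ (j - i) * |q i| := by
    intro i j hij
    induction j, hij using Nat.le_induction with
    | base => intro _; rw [Nat.sub_self, pow_zero, one_mul]
    | succ j hij ih =>
      intro hj
      have h1 := ih (by omega)
      have h2 := hqθ j (by omega)
      rw [show j + 1 - i = (j - i) + 1 by omega, pow_succ]
      have h3 := mul_le_mul_of_nonneg_left h1 hθ0.le
      calc |q (j + 1)| ≤ θ * |q j| := h2
        _ ≤ θ * (θ ^ (j - i) * |q i|) := h3
        _ = _ := by ring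
  have hpdec : ∀ i j, i ≤ j → j ≤ n + 1 → |p i| ≤ θ ^ (j - i) * |p j| := by
    intro i j hij
    induction j, hij using Nat.le_induction with
    | base => intro _; rw [Nat.sub_self, pow_zero, one_mul]
    | succ j hij ih =>
      intro hj
      have h1 := ih (by omega)
      have h2 := hpθ j (by omega)
      rw [show j + 1 - i = (j - i) + 1 by omega, pow_succ]
      have h3 : 0 ≤ θ ^ (j - i) := by positivity
      calc |p i| ≤ θ ^ (j - i) * |p j| := h1
        _ ≤ θ ^ (j - i) * (θ * |p (j + 1)|) := mul_le_mul_of_nonneg_left h2 h3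
        _ = _ := by ring
  have hqW : ∀ j ≤ n + 1, |q j| ≤ θ ^ j * |W| := by
    intro j hj
    have := hqdec 0 j (Nat.zero_le _) hj
    rwa [Nat.sub_zero, hq0] at this
  have hdiag : ∀ m ≤ n, |p m| * |q m| ≤ |W| / (b - 2) := by
    intro m hm
    have h1 := wronski J m hm
    have h2 := (gp m hm).2
    have h3 := hqθ m hm
    have h4 : |p (m + 1) * q m| - |p m * q (m + 1)| ≤ |W| := by
      rw [hWdef, ← h1]; exact abs_sub_abs_le_abs_sub _ _
    rw [abs_mul, abs_mul] at h4
    rw [le_div_iff₀ hb2]
    have h5 := mul_le_mul_of_nonneg_right h2 (abs_nonneg (q m))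
    have h6 : |p m| * |q (m + 1)| ≤ |p m| * (1 * |q m|) := by
      apply mul_le_mul_of_nonneg_left _ (abs_nonneg _)
      refine h3.trans (mul_le_mul_of_nonneg_right (by linarith) (abs_nonneg _))
    nlinarith [abs_nonneg (p m), abs_nonneg (q m)]
  have hK1 : ∀ m j, j ≤ m → |K n p q m j| = |q m| * |p j| / |W| := by
    intro m j h
    unfold K
    rw [if_pos h, abs_div, abs_mul]
  have hK2 : ∀ m j, m < j → |K n p q m j| = |p m| * |q j| / |W| := by
    intro m j h
    unfold K
    rw [if_neg (by omega), abs_div, abs_mul]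
  refine ⟨p, q, fun m => 4 * (|q m| / |W|), fun m => |p m| / |W|, ?_, ?_⟩
  · refine { orb := hx, jac := J, wpos := ?_, hqw := ?_, hsw := ?_, rpos := ?_, hprho := ?_, hsr := ?_,
             w1 := ?_, rho1 := ?_ }
    · intro m hm
      rw [Finset.mem_Icc] at hm
      have := hqp m hm.2
      positivity
    · intro m hm
      rw [abs_div]
      linarith
    · intro m hm
      rw [Finset.mem_Icc] at hm
      have hterm : ∀ j ∈ Icc 1 n, |K n p q m j| * M * (4 * (|q j| / |W|)) ^ 2 ≤
          (16 * M / (b - 2) * (|q m| / |W|)) * θ ^ j := by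
        intro j hj
        rw [Finset.mem_Icc] at hj
        have hA : |K n p q m j| * (|q j| / |W|) ≤ 1 / (b - 2) * (|q m| / |W|) := by
          rcases Nat.lt_or_ge m j with h | h
          · rw [hK2 m j h]
            have h1 := hqdec m j h.le (by omega)
            have h2 := hdiag m hm.2
            have h3 : θ ^ (j - m) ≤ 1 := pow_le_one₀ hθ0.le (by linarith)
            have h4 : |q j| ≤ |q m| := h1.trans (mul_le_of_le_one_left (abs_nonneg _) h3)
            have e : |p m| * |q j| / |W| * (|q j| / |W|) = (|p m| * |q j| * |q j|) / (|W| * |W|) := by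
              field_simp
            have e2 : 1 / (b - 2) * (|q m| / |W|) = (|W| / (b - 2) * |q m|) / (|W| * |W|) := by
              field_simp
            rw [e, e2]
            apply div_le_div_of_nonneg_right _ (by positivity)
            calc |p m| * |q j| * |q j| ≤ |p m| * |q m| * |q m| := by
                  apply mul_le_mul _ h4 (abs_nonneg _) (by positivity)
                  exact mul_le_mul_of_nonneg_left h4 (abs_nonneg _)
              _ ≤ |W| / (b - 2) * |q m| := mul_le_mul_of_nonneg_right h2 (abs_nonneg _)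
          · rw [hK1 m j h]
            have h2 := hdiag j hj.2
            have e : |q m| * |p j| / |W| * (|q j| / |W|) = (|p j| * |q j| * |q m|) / (|W| * |W|) := by
              field_simp
            have e2 : 1 / (b - 2) * (|q m| / |W|) = (|W| / (b - 2) * |q m|) / (|W| * |W|) := by
              field_simp
            rw [e, e2]
            apply div_le_div_of_nonneg_right _ (by positivity)
            exact mul_le_mul_of_nonneg_right h2 (abs_nonneg _)
        have hB : |q j| / |W| ≤ θ ^ j := by
          rw [div_le_iff₀ hWpos]; exact hqW j (by omega)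
        have hA0 : 0 ≤ |K n p q m j| * (|q j| / |W|) := by positivity
        have hB0 : 0 ≤ |q j| / |W| := by positivity
        calc |K n p q m j| * M * (4 * (|q j| / |W|)) ^ 2
            = 16 * M * ((|K n p q m j| * (|q j| / |W|)) * (|q j| / |W|)) := by ring
          _ ≤ 16 * M * ((1 / (b - 2) * (|q m| / |W|)) * θ ^ j) := by
              apply mul_le_mul_of_nonneg_left _ (by positivity)
              exact mul_le_mul hA hB hB0 (by positivity)
          _ = _ := by ring
      calc ∑ j ∈ Icc 1 n, |K n p q m j| * M * (4 * (|q j| / |W|)) ^ 2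
          ≤ ∑ j ∈ Icc 1 n, (16 * M / (b - 2) * (|q m| / |W|)) * θ ^ j := Finset.sum_le_sum hterm
        _ = (16 * M / (b - 2) * (|q m| / |W|)) * ∑ j ∈ Icc 1 n, θ ^ j := by rw [Finset.mul_sum]
        _ ≤ (16 * M / (b - 2) * (|q m| / |W|)) * (2 * θ) :=
            mul_le_mul_of_nonneg_left (geo_le hθ0.le hθ2 n) (by positivity)
        _ = 8 * M / ((b - 1) * (b - 2)) * (4 * (|q m| / |W|)) := by
            rw [hθ]; field_simp; ring
    · intro m hm
      rw [Finset.mem_Icc] at hm
      have := hpp m hm.1 (by omega)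
      positivity
    · intro m hm
      rw [abs_div]
    · intro m hm
      rw [Finset.mem_Icc] at hm
      have hterm : ∀ j ∈ Icc 1 n, |K n p q m j| * M * (4 * (|q j| / |W|)) * (|p j| / |W|) ≤
          (4 * M / (b - 2) * (|p m| / |W|)) * θ ^ j := by
        intro j hj
        rw [Finset.mem_Icc] at hj
        have hd := hdiag j hj.2
        have hd' : |q j| / |W| * |p j| ≤ 1 / (b - 2) := by
          rw [div_mul_eq_mul_div, div_le_iff₀ hWpos]
          calc |q j| * |p j| = |p j| * |q j| := mul_comm _ _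
            _ ≤ |W| / (b - 2) := hd
            _ = 1 / (b - 2) * |W| := by ring
        have hC1 : |K n p q m j| ≤ θ ^ j * |p m| := by
          rcases Nat.lt_or_ge m j with h | h
          · rw [hK2 m j h, div_le_iff₀ hWpos]
            have := mul_le_mul_of_nonneg_left (hqW j (by omega)) (abs_nonneg (p m))
            calc |p m| * |q j| ≤ |p m| * (θ ^ j * |W|) := this
              _ = _ := by ring
          · rw [hK1 m j h, div_le_iff₀ hWpos]
            have h1 := hqW m (by omega)
            have h2 := hpdec j m h (by omega)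
            have h3 : θ ^ (m - j) ≤ 1 := pow_le_one₀ hθ0.le (by linarith)
            have h4 : |p j| ≤ |p m| := h2.trans (mul_le_of_le_one_left (abs_nonneg _) h3)
            have h5 : θ ^ m ≤ θ ^ j := pow_le_pow_of_le_one hθ0.le (by linarith) h
            have h6 : |q m| ≤ θ ^ j * |W| := h1.trans (mul_le_mul_of_nonneg_right h5 hWpos.le)
            calc |q m| * |p j| ≤ (θ ^ j * |W|) * |p m| := mul_le_mul h6 h4 (abs_nonneg _) (by positivity)
              _ = _ := by ring
        calc |K n p q m j| * M * (4 * (|q j| / |W|)) * (|p j| / |W|)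
            = 4 * M * (|K n p q m j| * (|q j| / |W| * |p j|)) / |W| := by ring
          _ ≤ 4 * M * ((θ ^ j * |p m|) * (1 / (b - 2))) / |W| := by
              apply div_le_div_of_nonneg_right _ hWpos.le
              apply mul_le_mul_of_nonneg_left _ (by positivity)
              exact mul_le_mul hC1 hd' (by positivity) (by positivity)
          _ = _ := by ring
      calc ∑ j ∈ Icc 1 n, |K n p q m j| * M * (4 * (|q j| / |W|)) * (|p j| / |W|)
          ≤ ∑ j ∈ Icc 1 n, (4 * M / (b - 2) * (|p m| / |W|)) * θ ^ j := Finset.sum_le_sum hterm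
        _ = (4 * M / (b - 2) * (|p m| / |W|)) * ∑ j ∈ Icc 1 n, θ ^ j := by rw [Finset.mul_sum]
        _ ≤ (4 * M / (b - 2) * (|p m| / |W|)) * (2 * θ) :=
            mul_le_mul_of_nonneg_left (geo_le hθ0.le hθ2 n) (by positivity)
        _ = 8 * M / ((b - 1) * (b - 2)) * (|p m| / |W|) := by
            rw [hθ]; field_simp; ring
    · have h1 : |q 1| / |W| ≤ θ ^ 1 := by
        rw [div_le_iff₀ hWpos]; exact hqW 1 (by omega)
      rw [pow_one] at h1
      have h2 : θ ≤ 1 / 8 := by
        rw [hθ]; apply one_div_le_one_div_of_le (by norm_num); linarith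
      show 4 * (|q 1| / |W|) ≤ 1 / 2
      linarith
    · show |p 1| / |W| ≤ 1 * |1 / W|
      rw [abs_div, J.p1]
      simp
  · have h1 : |q 1| / |W| ≤ θ ^ 1 := by
      rw [div_le_iff₀ hWpos]; exact hqW 1 (by omega)
    rw [pow_one] at h1
    show 4 * (|q 1| / |W|) ≤ 4 / (b - 1)
    have e : 4 / (b - 1) = 4 * θ := by rw [hθ]; ring
    rw [e]; linarith

end Crest.Agent.R128.BVP
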