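import Mathlib
import Crest.Agent.R128.BVPc1

set_option autoImplicit false

open scoped BigOperators NNReal ENNReal
open Finset MeasureTheory Topology Filter

namespace Crest.Agent.R128.BVP

/-- the digit number `m` of `z` is irregular -/
def irr (k b : ℝ) (m : ℕ) : Set Tor := {z | |V k ((T k)^[m] z).2| < b}

theorem measurable_irr (k b : ℝ) (m : ℕ) : MeasurableSet (irr k b m) := by
  have h1 : Continuous fun z : Tor => |V k ((T k)^[m] z).2| :=
    ((continuous_V k).comp (continuous_snd.comp ((continuous_T k).iterate m))).abs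
  exact measurableSet_lt h1.measurable measurable_const

theorem volume_irr {k b : ℝ} (hk : 1 ≤ k) (hb : 0 ≤ b) (m : ℕ) :
    volume (irr k b m) ≤ ENNReal.ofReal (b / k) := by
  have h1 : irr k b m = (T k)^[m] ⁻¹' {z : Tor | |V k z.2| < b} := rfl
  have h2 : MeasurableSet {z : Tor | |V k z.2| < b} := measurable_irr k b 0
  rw [h1, ((mp_T k).iterate m).measure_preimage h2.nullMeasurableSet]
  have h3 : {z : Tor | |V k z.2| < b} ⊆ {z : Tor | z.2 ∈ {x : UnitAddCircle | |V k x - 0| ≤ b}} := by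
    intro z hz
    show |V k z.2 - 0| ≤ b
    rw [sub_zero]
    exact le_of_lt hz
  refine (measure_mono h3).trans ?_
  have h4 : volume {z : Tor | z.2 ∈ {x : UnitAddCircle | |V k x - 0| ≤ b}} =
      volume {x : UnitAddCircle | |V k x - 0| ≤ b} := volume_Tor_snd _
  rw [h4]
  exact volume_V_lin hk (by rw [abs_zero]; linarith) hb

/-- position `m + 1` of the orbit = digit number `m` -/
theorem V_iter (k : ℝ) (z : ℝ × ℝ) (m : ℕ) : V k ((T k)^[m] (pr z)).2 = Vk k (xorb k z.1 z.2 (m + 1)) := by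
  have h := xorb_T k z.1 z.2 m
  have e : pr z = ((z.1 : UnitAddCircle), (z.2 : UnitAddCircle)) := rfl
  rw [e, h]
  exact V_eq_Vk k _

/-- The family of first irregular digits: `E i` = digits `0..i` regular, digit `i+1` irregular. -/
theorem fam_c1 {k b : ℝ} (hk : 0 ≤ k) (hb : 9 ≤ b) (κ : ℝ≥0) (hκ : 4 / (b - 1) ≤ 2 * κ) (L : ℕ) :
    Fam k 1 (8 * (4 * Real.pi ^ 2 * k) / ((b - 1) * (b - 2))) κ (fun i : Fin L => (i : ℕ) + 1)
      (fun i => {z : Tor | (∀ j ≤ (i : ℕ), z ∉ irr k b j) ∧ z ∈ irr k b (i + 1)})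
      (fun i => irr k b (i + 1)) where
  measE := by
    intro i
    have h1 : MeasurableSet {z : Tor | ∀ j ≤ (i : ℕ), z ∉ irr k b j} := by
      have : {z : Tor | ∀ j ≤ (i : ℕ), z ∉ irr k b j} = ⋂ j, ⋂ (_ : j ≤ (i : ℕ)), (irr k b j)ᶜ := by
        ext z; simp
      rw [this]
      exact MeasurableSet.iInter fun j => MeasurableSet.iInter fun _ => (measurable_irr k b j).compl
    exact h1.inter (measurable_irr k b _)
  measQ := fun i => measurable_irr k b _
  one_le := fun i => by simp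
  good := by
    rintro i z ⟨hz1, hz2⟩
    have hreg : ∀ m ∈ Icc 1 ((i : ℕ) + 1), b ≤ |Vk k (xorb k z.1 z.2 m)| := by
      intro m hm
      rw [Finset.mem_Icc] at hm
      have := hz1 (m - 1) (by omega)
      unfold irr at this
      rw [Set.mem_ofPred_eq, V_iter, Nat.sub_add_cancel hm.1, not_lt] at this
      exact this
    obtain ⟨p, q, w, rho, hG, hw⟩ := good_clean (n := (i : ℕ) + 1) (by omega) (f := fk k) (V := Vk k)
      (M := 4 * Real.pi ^ 2 * k) (by positivity) hb (xorb_orb k z.1 z.2 _) hreg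
    refine ⟨p, q, w, rho, hG, hw.trans hκ, ?_⟩
    intro o ho _ _ hon _
    have he := orb_ext ho (xorb_orb k (o 0) (o 1) ((i : ℕ) + 1)) rfl rfl ((i : ℕ) + 1 + 1) le_rfl
    show |V k ((T k)^[(i : ℕ) + 1] (pr (o 0, o 1))).2| < b
    rw [V_iter, ← he, hon]
    have h2 : |V k ((T k)^[(i : ℕ) + 1] (pr z)).2| < b := hz2
    rwa [V_iter] at h2

theorem first_irr {k b : ℝ} {L : ℕ} {z : Tor} (h : ∃ m < L, z ∈ irr k b m) :
    z ∈ irr k b 0 ∨ z ∈ ⋃ i : Fin L, {z : Tor | (∀ j ≤ (i : ℕ), z ∉ irr k b j) ∧ z ∈ irr k b (i + 1)} := by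
  classical
  have h' : ∃ m, z ∈ irr k b m := by obtain ⟨m, -, hm⟩ := h; exact ⟨m, hm⟩
  set m0 := Nat.find h' with hm0
  have h1 : z ∈ irr k b m0 := Nat.find_spec h'
  have h2 : m0 < L := by
    obtain ⟨m, hmL, hm⟩ := h
    exact lt_of_le_of_lt (Nat.find_min' h' hm) hmL
  rcases Nat.eq_zero_or_pos m0 with h3 | h3
  · left; rw [← h3]; exact h1
  · right
    rw [Set.mem_iUnion]
    refine ⟨⟨m0 - 1, by omega⟩, ?_, ?_⟩
    · intro j hj
      simp only at hj
      exact Nat.find_min h' (by omega)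
    · simp only
      rw [Nat.sub_add_cancel h3]; exact h1

theorem sum_irr_le {k b : ℝ} (hk : 1 ≤ k) (hb : 0 ≤ b) (L : ℕ) :
    ∑' i : Fin L, volume (irr k b (i + 1)) ≤ ENNReal.ofReal (L * (b / k)) := by
  rw [tsum_fintype]
  calc ∑ i : Fin L, volume (irr k b (i + 1)) ≤ ∑ _i : Fin L, ENNReal.ofReal (b / k) :=
        Finset.sum_le_sum fun i _ => volume_irr hk hb _
    _ = ENNReal.ofReal (L * (b / k)) := by
        rw [Finset.sum_const, Finset.card_univ, Fintype.card_fin, nsmul_eq_mul,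
          ENNReal.ofReal_mul (Nat.cast_nonneg _), ENNReal.ofReal_natCast]

/-- **(V3, c1)** on every Lipschitz curve the first `L` digits are regular up to measure `C b / k`. -/
theorem curve_c1 {k b : ℝ} (hk : 1 ≤ k) (hb : 9 ≤ b)
    (hε : 8 * (4 * Real.pi ^ 2 * k) / ((b - 1) * (b - 2)) ≤ 1 / 4) (L : ℕ)
    {κ0 : ℝ≥0} (hκ0 : (κ0 : ℝ) ≤ 1 / 8) {σ : ℝ → ℝ} (hσ : LipschitzWith κ0 σ) (a : ℝ) :
    volume {y : ℝ | y ∈ Set.Icc a (a + 1) ∧ ∃ m < L, pr (σ y, y) ∈ irr k b m} ≤
      ENNReal.ofReal ((20 * L + 1) * (b / k)) := by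
  have hk0 : 0 ≤ k := by linarith
  have F := fam_c1 (k := k) (b := b) hk0 hb (Real.toNNReal (4 / (b - 1))) (by
    rw [Real.coe_toNNReal _ (div_nonneg (by norm_num) (by linarith))]
    have : 0 ≤ 4 / (b - 1) := div_nonneg (by norm_num) (by linarith)
    linarith) L
  have h1 := F.curve hk0 hε zero_le_one (by linarith) hκ0 hσ a
  have h0 : volume {y : ℝ | y ∈ Set.Icc a (a + 1) ∧ pr (σ y, y) ∈ irr k b 0} ≤ ENNReal.ofReal (b / k) := by
    have hm : MeasurableSet {x : UnitAddCircle | |V k x - 0| ≤ b} := by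
      have : Continuous fun x : UnitAddCircle => |V k x - 0| := ((continuous_V k).sub continuous_const).abs
      exact measurableSet_le this.measurable measurable_const
    have e1 : volume {y : ℝ | y ∈ Set.Ioc a (a + 1) ∧ (y : UnitAddCircle) ∈ {x : UnitAddCircle | |V k x - 0| ≤ b}}
        = volume {x : UnitAddCircle | |V k x - 0| ≤ b} := by
      have h := (UnitAddCircle.measurePreserving_mk a).measure_preimage hm.nullMeasurableSet
      rw [← h, Measure.restrict_apply ((AddCircle.measurable_mk') hm)]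
      congr 1
      ext y
      simp [and_comm]
    have e2 := volume_V_lin hk (s := 0) (by rw [abs_zero]; linarith) (r := b) (by linarith)
    have hsub : {y : ℝ | y ∈ Set.Icc a (a + 1) ∧ pr (σ y, y) ∈ irr k b 0} ⊆
        {y : ℝ | y ∈ Set.Ioc a (a + 1) ∧ (y : UnitAddCircle) ∈ {x : UnitAddCircle | |V k x - 0| ≤ b}} ∪ {a} := by
      rintro y ⟨⟨h2, h3⟩, h4⟩
      rcases h2.eq_or_lt with h5 | h5
      · right; exact h5.symm
      · left
        refine ⟨⟨h5, h3⟩, ?_⟩
        show |V k (y : UnitAddCircle) - 0| ≤ b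
        rw [sub_zero]
        exact le_of_lt h4
    calc _ ≤ _ := measure_mono hsub
      _ ≤ _ := measure_union_le _ _
      _ ≤ ENNReal.ofReal (b / k) + 0 := by
          gcongr
          · rw [e1]; exact e2
          · simp
      _ = _ := add_zero _
  have hsub : {y : ℝ | y ∈ Set.Icc a (a + 1) ∧ ∃ m < L, pr (σ y, y) ∈ irr k b m} ⊆
      {y : ℝ | y ∈ Set.Icc a (a + 1) ∧ pr (σ y, y) ∈ irr k b 0} ∪
      {y : ℝ | y ∈ Set.Icc a (a + 1) ∧ pr (σ y, y) ∈
        ⋃ i : Fin L, {z : Tor | (∀ j ≤ (i : ℕ), z ∉ irr k b j) ∧ z ∈ irr k b (i + 1)}} := by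
    rintro y ⟨h2, h3⟩
    rcases first_irr h3 with h4 | h4
    · exact Or.inl ⟨h2, h4⟩
    · exact Or.inr ⟨h2, h4⟩
  have hbk : 0 ≤ b / k := div_nonneg (by linarith) hk0
  calc _ ≤ _ := measure_mono hsub
    _ ≤ _ := measure_union_le _ _
    _ ≤ ENNReal.ofReal (b / k) + ENNReal.ofReal (20 * 1) * ENNReal.ofReal (L * (b / k)) := by
        gcongr
        exact h1.trans (by gcongr; exact sum_irr_le hk (by linarith) L)
    _ = ENNReal.ofReal ((20 * L + 1) * (b / k)) := by
        rw [← ENNReal.ofReal_mul (by norm_num), ← ENNReal.ofReal_add hbk (by positivity)]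
        congr 1; ring

/-- **(V4, c1)** irregular digit among the first `L` and `R`. -/
theorem double_c1 {k b : ℝ} (hk : 1 ≤ k) (hb : 9 ≤ b)
    (hε : 8 * (4 * Real.pi ^ 2 * k) / ((b - 1) * (b - 2)) ≤ 1 / 4) (L : ℕ)
    (κ : ℝ≥0) (hκ : 4 / (b - 1) ≤ 2 * κ)
    {R : Set Tor} (hRm : MeasurableSet R) (lam : ℝ≥0∞)
    (hR : ∀ σ : ℝ → ℝ, LipschitzWith κ σ → ∀ a : ℝ,
      volume {X : ℝ | X ∈ Set.Icc a (a + 1) ∧ pr (X, σ X) ∈ R} ≤ lam) :
    volume {z : Tor | z ∈ R ∧ ∃ m < L, z ∈ irr k b m} ≤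
      lam * ENNReal.ofReal ((15 * L + 1) * (b / k)) := by
  have hk0 : 0 ≤ k := by linarith
  have F := fam_c1 (k := k) (b := b) hk0 hb κ hκ L
  have h1 := F.double hk0 hε zero_le_one (by linarith) hRm lam hR
  have hbk : 0 ≤ b / k := div_nonneg (by linarith) hk0
  -- the digit 0: horizontal lines
  have h0 : volume (irr k b 0 ∩ R) ≤ lam * ENNReal.ofReal (b / k) := by
    have hm0 : MeasurableSet (irr k b 0 ∩ R) := (measurable_irr k b 0).inter hRm
    have hmc : MeasurableSet {x : UnitAddCircle | |V k x| < b} :=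
      measurableSet_lt ((continuous_V k).abs.measurable) measurable_const
    have hslice : ∀ y : UnitAddCircle, volume ((fun x : UnitAddCircle => (x, y)) ⁻¹' (irr k b 0 ∩ R)) ≤
        {x : UnitAddCircle | |V k x| < b}.indicator (fun _ => lam) y := by
      intro y
      by_cases hy : |V k y| < b
      · rw [Set.indicator_of_mem (by exact hy)]
        obtain ⟨y', rfl⟩ := QuotientAddGroup.mk_surjective y
        have h2 := hR (fun _ => y') (LipschitzWith.const' y') 0
        have hmS : MeasurableSet {x : UnitAddCircle | (x, ((y' : ℝ) : UnitAddCircle)) ∈ R} :=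
          measurable_prodMk_right hRm
        have h3 : volume {x : UnitAddCircle | (x, ((y' : ℝ) : UnitAddCircle)) ∈ R} ≤ lam := by
          have h := (UnitAddCircle.measurePreserving_mk 0).measure_preimage hmS.nullMeasurableSet
          rw [← h, Measure.restrict_apply ((AddCircle.measurable_mk') hmS)]
          refine le_trans (measure_mono ?_) h2
          rintro x ⟨hx1, hx2⟩
          exact ⟨⟨hx2.1.le, hx2.2⟩, hx1⟩
        refine le_trans (measure_mono ?_) h3
        intro x hx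
        exact hx.2
      · have : (fun x : UnitAddCircle => (x, y)) ⁻¹' (irr k b 0 ∩ R) = ∅ := by
          ext x
          simp only [Set.mem_preimage, Set.mem_empty_iff_false, iff_false]
          intro hx
          exact hy hx.1
        rw [this, measure_empty]
        exact bot_le
    calc volume (irr k b 0 ∩ R) = ∫⁻ y, volume ((fun x : UnitAddCircle => (x, y)) ⁻¹' (irr k b 0 ∩ R)) := by
          rw [Measure.volume_eq_prod, Measure.prod_apply_symm hm0]
      _ ≤ ∫⁻ y, {x : UnitAddCircle | |V k x| < b}.indicator (fun _ => lam) y := lintegral_mono hslice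
      _ = lam * volume {x : UnitAddCircle | |V k x| < b} := lintegral_indicator_const hmc lam
      _ ≤ lam * ENNReal.ofReal (b / k) := by
          gcongr
          refine le_trans (measure_mono ?_) (volume_V_lin hk (s := 0) (by rw [abs_zero]; linarith) (r := b) (by linarith))
          intro x hx
          show |V k x - 0| ≤ b
          rw [sub_zero]; exact le_of_lt hx
  have hsub : {z : Tor | z ∈ R ∧ ∃ m < L, z ∈ irr k b m} ⊆ (irr k b 0 ∩ R) ∪
      ((⋃ i : Fin L, {z : Tor | (∀ j ≤ (i : ℕ), z ∉ irr k b j) ∧ z ∈ irr k b (i + 1)}) ∩ R) := by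
    rintro z ⟨h2, h3⟩
    rcases first_irr h3 with h4 | h4
    · exact Or.inl ⟨h4, h2⟩
    · exact Or.inr ⟨h4, h2⟩
  calc _ ≤ _ := measure_mono hsub
    _ ≤ _ := measure_union_le _ _
    _ ≤ lam * ENNReal.ofReal (b / k) + ENNReal.ofReal (15 * 1) * (lam * ENNReal.ofReal (L * (b / k))) := by
        gcongr
        exact h1.trans (by gcongr; exact sum_irr_le hk (by linarith) L)
    _ = lam * ENNReal.ofReal ((15 * L + 1) * (b / k)) := by
        rw [mul_left_comm, ← ENNReal.ofReal_mul (by norm_num), ← mul_add, ← ENNReal.ofReal_add hbk (by positivity)]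
        congr 2; ring

end Crest.Agent.R128.BVP
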