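import Crest.Agent.R128.Remez

/-!
# One-variable holomorphic lemmas for cells (row 128)

* Cauchy / Borel–Carathéodory estimates with a bound on the imaginary part only;
* transfer of such bounds to several variables;
* local constancy of an analytic function off a set of small measure;
* distortion, injectivity and images for nearly affine real maps.
-/

set_option autoImplicit false

open Metric Set MeasureTheory
open scoped ComplexConjugate NNReal ENNReal

namespace Crest.Agent.R128.CellA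

/-! ### Cauchy estimates from a bound of the imaginary part -/

/-- Borel–Carathéodory with the imaginary part. -/
theorem norm_sub_le_of_im {f : ℂ → ℂ} {z₀ : ℂ} {R B : ℝ} (hB : 0 < B)
    (hf : DifferentiableOn ℂ f (ball z₀ R)) (him : ∀ z ∈ ball z₀ R, |(f z).im| ≤ B)
    {z : ℂ} (hz : z ∈ ball z₀ R) :
    ‖f z - f z₀‖ ≤ 4 * B * ‖z - z₀‖ / (R - ‖z - z₀‖) := by
  have hR : 0 < R := lt_of_le_of_lt dist_nonneg hz
  have hz₀ : z₀ ∈ ball z₀ R := mem_ball_self hR
  set g : ℂ → ℂ := fun w => -Complex.I * (f (z₀ + w) - f z₀) with hg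
  have hmaps : MapsTo (fun w : ℂ => z₀ + w) (ball 0 R) (ball z₀ R) := by
    intro w hw
    simpa [mem_ball, dist_eq_norm] using hw
  have hgd : DifferentiableOn ℂ g (ball 0 R) := by
    refine DifferentiableOn.const_mul ?_ _
    refine DifferentiableOn.sub_const ?_ _
    exact hf.comp (by fun_prop) hmaps
  have hgre : MapsTo g (ball 0 R) {z | z.re ≤ 2 * B} := by
    intro w hw
    have h1 := him _ (hmaps hw)
    have h2 := him _ hz₀
    simp only [hg, mem_ofPred_eq, Complex.mul_re, Complex.neg_re, Complex.I_re, Complex.neg_im,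
      Complex.I_im, Complex.sub_im, Complex.sub_re]
    rw [abs_le] at h1 h2
    simp only [neg_zero, zero_mul, zero_sub, neg_mul, one_mul, neg_neg]
    linarith [h1.2, h2.1]
  have hw : z - z₀ ∈ ball (0 : ℂ) R := by
    simpa [dist_eq_norm] using hz
  have h := Complex.borelCaratheodory_zero (M := 2 * B) (by positivity) hgd hgre hR hw
    (by simp [hg])
  have h3 : ‖g (z - z₀)‖ = ‖f z - f z₀‖ := by
    simp [hg]
  rw [h3] at h
  refine h.trans (le_of_eq ?_)
  ring

/-- Derivative bound at the center from a bound of the imaginary part. -/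
theorem norm_deriv_le_of_im {f : ℂ → ℂ} {z₀ : ℂ} {R B : ℝ} (hR : 0 < R) (hB : 0 < B)
    (hf : DifferentiableOn ℂ f (ball z₀ R)) (him : ∀ z ∈ ball z₀ R, |(f z).im| ≤ B) :
    ‖deriv f z₀‖ ≤ 4 * B / R := by
  have hd : DifferentiableAt ℂ f z₀ := hf.differentiableAt (ball_mem_nhds z₀ hR)
  refine le_of_forall_gt_imp_ge_of_dense ?_
  intro c hc
  have hc0 : 0 < c := lt_trans (by positivity) hc
  -- choose a small radius on which the slope bound holds
  obtain ⟨r, hr0, hrR, hrc⟩ : ∃ r : ℝ, 0 < r ∧ r < R ∧ 4 * B / (R - r) ≤ c := by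
    refine ⟨R - 4 * B / c, ?_, ?_, ?_⟩
    · have : 4 * B / c < R := by
        rw [div_lt_iff₀ hc0]; rw [div_lt_iff₀ hR] at hc; linarith
      linarith
    · have : 0 < 4 * B / c := by positivity
      linarith
    · have : R - (R - 4 * B / c) = 4 * B / c := by ring
      rw [this]
      have : 4 * B / (4 * B / c) = c := by field_simp
      rw [this]
  refine (hd.hasDerivAt).le_of_lip' hc0.le ?_ |>.trans le_rfl
  filter_upwards [ball_mem_nhds z₀ hr0] with z hz
  have hz' : ‖z - z₀‖ < r := by simpa [dist_eq_norm] using hz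
  have h1 := norm_sub_le_of_im hB hf him (z := z) (ball_subset_ball hrR.le hz)
  refine h1.trans ?_
  have h2 : 4 * B * ‖z - z₀‖ / (R - ‖z - z₀‖) ≤ 4 * B * ‖z - z₀‖ / (R - r) := by
    refine div_le_div_of_nonneg_left (by positivity) (by linarith) (by linarith)
  refine h2.trans ?_
  calc 4 * B * ‖z - z₀‖ / (R - r) = (4 * B / (R - r)) * ‖z - z₀‖ := by ring
    _ ≤ c * ‖z - z₀‖ := by gcongr

/-- Derivative bound on the half disc. -/
theorem norm_deriv_le_of_im_half {f : ℂ → ℂ} {z₀ : ℂ} {R B : ℝ} (hR : 0 < R) (hB : 0 < B)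
    (hf : DifferentiableOn ℂ f (ball z₀ R)) (him : ∀ z ∈ ball z₀ R, |(f z).im| ≤ B)
    {z : ℂ} (hz : ‖z - z₀‖ ≤ R / 2) : ‖deriv f z‖ ≤ 8 * B / R := by
  have hsub : ball z (R / 2) ⊆ ball z₀ R := by
    refine ball_subset_ball' ?_
    rw [dist_eq_norm]; linarith
  have := norm_deriv_le_of_im (R := R / 2) (by positivity) hB (hf.mono hsub)
    (fun w hw => him w (hsub hw))
  refine this.trans (le_of_eq ?_)
  field_simp
  ring

/-- Variation of the derivative on the quarter disc. -/
theorem norm_deriv_sub_le_of_im {f : ℂ → ℂ} {z₀ : ℂ} {R B : ℝ} (hR : 0 < R) (hB : 0 < B)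
    (hf : DifferentiableOn ℂ f (ball z₀ R)) (him : ∀ z ∈ ball z₀ R, |(f z).im| ≤ B)
    {z w : ℂ} (hz : ‖z - z₀‖ ≤ R / 4) (hw : ‖w - z₀‖ ≤ R / 4) :
    ‖deriv f z - deriv f w‖ ≤ 32 * B / R ^ 2 * ‖z - w‖ := by
  have hd1 : DifferentiableOn ℂ (deriv f) (ball z₀ R) := hf.deriv isOpen_ball
  have key : ∀ u ∈ closedBall z₀ (R / 4), ‖deriv (deriv f) u‖ ≤ 32 * B / R ^ 2 := by
    intro u hu
    have hu' : ‖u - z₀‖ ≤ R / 4 := by simpa [dist_eq_norm] using hu
    have hsub : closedBall u (R / 4) ⊆ closedBall z₀ (R / 2) := by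
      refine closedBall_subset_closedBall' ?_
      rw [dist_eq_norm]; linarith
    have hsub2 : closedBall u (R / 4) ⊆ ball z₀ R :=
      hsub.trans (closedBall_subset_ball (by linarith))
    have h1 : DiffContOnCl ℂ (deriv f) (ball u (R / 4)) := by
      refine DifferentiableOn.diffContOnCl ?_
      rw [closure_ball u (by positivity : R / 4 ≠ 0)]
      exact hd1.mono hsub2
    have h2 := Complex.norm_deriv_le_of_forall_mem_sphere_norm_le (R := R / 4)
      (C := 8 * B / R) (by positivity) h1 (by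
        intro v hv
        have : v ∈ closedBall z₀ (R / 2) := hsub (sphere_subset_closedBall hv)
        exact norm_deriv_le_of_im_half hR hB hf him (by simpa [dist_eq_norm] using this))
    refine h2.trans (le_of_eq ?_)
    field_simp
    ring
  have hmem : ∀ u : ℂ, ‖u - z₀‖ ≤ R / 4 → u ∈ closedBall z₀ (R / 4) := by
    intro u hu; simpa [dist_eq_norm] using hu
  have := (convex_closedBall z₀ (R / 4)).norm_image_sub_le_of_norm_deriv_le
    (f := deriv f) (C := 32 * B / R ^ 2) (fun u hu => hd1.differentiableAt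
      (isOpen_ball.mem_nhds (closedBall_subset_ball (by linarith) hu))) key (hmem w hw) (hmem z hz)
  exact this

/-- Affine approximation on the quarter disc. -/
theorem norm_affine_approx_of_im {f : ℂ → ℂ} {z₀ : ℂ} {R B : ℝ} (hR : 0 < R) (hB : 0 < B)
    (hf : DifferentiableOn ℂ f (ball z₀ R)) (him : ∀ z ∈ ball z₀ R, |(f z).im| ≤ B)
    {z : ℂ} (hz : ‖z - z₀‖ ≤ R / 4) :
    ‖f z - f z₀ - deriv f z₀ * (z - z₀)‖ ≤ 32 * B / R ^ 2 * ‖z - z₀‖ ^ 2 := by
  set r := ‖z - z₀‖ with hr
  set g : ℂ → ℂ := fun w => f w - deriv f z₀ * (w - z₀) with hg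
  have hsubr : closedBall z₀ r ⊆ ball z₀ R := closedBall_subset_ball (by linarith)
  have hgd : ∀ u ∈ closedBall z₀ r, HasDerivAt g (deriv f u - deriv f z₀) u := by
    intro u hu
    have h1 : HasDerivAt f (deriv f u) u :=
      (hf.differentiableAt (isOpen_ball.mem_nhds (hsubr hu))).hasDerivAt
    have h2 : HasDerivAt (fun w : ℂ => deriv f z₀ * (w - z₀)) (deriv f z₀ * 1) u :=
      ((hasDerivAt_id u).sub_const z₀).const_mul _
    have h3 := h1.sub h2
    rw [mul_one] at h3
    exact h3
  have hbound : ∀ u ∈ closedBall z₀ r, ‖deriv g u‖ ≤ 32 * B / R ^ 2 * r := by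
    intro u hu
    rw [(hgd u hu).deriv]
    have hu' : ‖u - z₀‖ ≤ r := by simpa [dist_eq_norm] using hu
    have := norm_deriv_sub_le_of_im hR hB hf him (z := u) (w := z₀) (by linarith) (by simp; positivity)
    refine this.trans ?_
    gcongr
  have := (convex_closedBall z₀ r).norm_image_sub_le_of_norm_deriv_le
    (f := g) (C := 32 * B / R ^ 2 * r) (fun u hu => (hgd u hu).differentiableAt) hbound
    (mem_closedBall_self (norm_nonneg _)) (show z ∈ closedBall z₀ r by simp [dist_eq_norm, hr])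
  have h3 : g z - g z₀ = f z - f z₀ - deriv f z₀ * (z - z₀) := by
    simp only [hg]; ring
  rw [h3] at this
  refine this.trans (le_of_eq ?_)
  rw [← hr]; ring

/-- Several variables: operator norm of the derivative. -/
theorem norm_fderiv_le_of_im {E : Type*} [NormedAddCommGroup E] [NormedSpace ℂ E] {F : E → ℂ}
    {p : E} {R B : ℝ} (hR : 0 < R) (hB : 0 < B) (hF : DifferentiableOn ℂ F (ball p R))
    (him : ∀ q ∈ ball p R, |(F q).im| ≤ B) : ‖fderiv ℂ F p‖ ≤ 4 * B / R := by
  have hd : DifferentiableAt ℂ F p := hF.differentiableAt (ball_mem_nhds p hR)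
  refine ContinuousLinearMap.opNorm_le_bound _ (by positivity) ?_
  intro v
  rcases eq_or_ne v 0 with rfl | hv
  · simp
  have hvn : 0 < ‖v‖ := norm_pos_iff.2 hv
  set γ : ℂ → E := fun z => p + z • v with hγ
  have hmaps : MapsTo γ (ball 0 (R / ‖v‖)) (ball p R) := by
    intro z hz
    have : ‖z‖ < R / ‖v‖ := by simpa using hz
    rw [mem_ball, dist_eq_norm]
    simp only [hγ, add_sub_cancel_left, norm_smul]
    rwa [lt_div_iff₀ hvn] at this
  have hγd : Differentiable ℂ γ := by
    simp only [hγ]; fun_prop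
  have h1 := norm_deriv_le_of_im (f := F ∘ γ) (z₀ := 0) (R := R / ‖v‖) (B := B) (by positivity) hB
    (hF.comp hγd.differentiableOn hmaps) (fun z hz => him _ (hmaps hz))
  have h2 : HasDerivAt γ v 0 := by
    have := ((hasDerivAt_id (0 : ℂ)).smul_const v).const_add p
    simpa [hγ] using this
  have hγ0 : γ 0 = p := by simp [hγ]
  have h3 : HasDerivAt (F ∘ γ) (fderiv ℂ F p v) 0 := by
    have hd' : HasFDerivAt F (fderiv ℂ F p) (γ 0) := by rw [hγ0]; exact hd.hasFDerivAt
    exact hd'.comp_hasDerivAt (0 : ℂ) h2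
  rw [h3.deriv] at h1
  refine h1.trans (le_of_eq ?_)
  field_simp

/-- Several variables, derivative on the half ball. -/
theorem norm_fderiv_le_of_im_half {E : Type*} [NormedAddCommGroup E] [NormedSpace ℂ E] {F : E → ℂ}
    {p q : E} {R B : ℝ} (hR : 0 < R) (hB : 0 < B) (hF : DifferentiableOn ℂ F (ball p R))
    (him : ∀ q ∈ ball p R, |(F q).im| ≤ B) (hq : ‖q - p‖ ≤ R / 2) :
    ‖fderiv ℂ F q‖ ≤ 8 * B / R := by
  have hsub : ball q (R / 2) ⊆ ball p R := by
    refine ball_subset_ball' ?_
    rw [dist_eq_norm]; linarith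
  have := norm_fderiv_le_of_im (R := R / 2) (by positivity) hB (hF.mono hsub)
    (fun w hw => him w (hsub hw))
  refine this.trans (le_of_eq ?_)
  field_simp
  ring

end Crest.Agent.R128.CellA
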