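import Mathlib
import Crest.Agent.R128.Coc

set_option autoImplicit false

open MeasureTheory Filter Topology
open Crest.Agent.R128

/-!
Complexified orbit of the standard map in the coordinates `(x_{n-1}, x_n)` (row 128; helper421).
-/

namespace Crest.Agent.R128.Cell

/-- the complexified map in the coordinates `(x_{n-1}, x_n)` -/
noncomputable def cstep (k : ℝ) (p : ℂ × ℂ) : ℂ × ℂ :=
  (p.2, 2 * p.2 + k * Complex.sin (2 * Real.pi * p.2) - p.1)

noncomputable def corb (k : ℝ) (n : ℕ) (p : ℂ × ℂ) : ℂ × ℂ := (cstep k)^[n] p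

/-- the position `x_n` as a function of `(x_{-1}, x_0)` -/
noncomputable def X (k : ℝ) (n : ℕ) (p : ℂ × ℂ) : ℂ := (corb k n p).2

noncomputable def cV (k : ℝ) (x : ℂ) : ℂ := 2 + 2 * Real.pi * k * Complex.cos (2 * Real.pi * x)

noncomputable def cAm (k : ℝ) (p : ℂ × ℂ) : Matrix (Fin 2) (Fin 2) ℂ := !![0, 1; -1, cV k p.2]

/-- the complex cocycle -/
noncomputable def Mc (k : ℝ) : ℕ → ℂ × ℂ → Matrix (Fin 2) (Fin 2) ℂ
  | 0, _ => 1
  | n + 1, p => Mc k n (cstep k p) * cAm k p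

@[simp] theorem corb_zero (k : ℝ) (p : ℂ × ℂ) : corb k 0 p = p := rfl

theorem corb_succ (k : ℝ) (n : ℕ) (p : ℂ × ℂ) : corb k (n + 1) p = corb k n (cstep k p) := rfl

theorem corb_succ' (k : ℝ) (n : ℕ) (p : ℂ × ℂ) : corb k (n + 1) p = cstep k (corb k n p) := by
  unfold corb
  rw [Function.iterate_succ_apply']

theorem corb_add (k : ℝ) (m n : ℕ) (p : ℂ × ℂ) : corb k (m + n) p = corb k m (corb k n p) := by
  unfold corb
  rw [Function.iterate_add_apply]

theorem corb_succ_fst (k : ℝ) (n : ℕ) (p : ℂ × ℂ) : (corb k (n + 1) p).1 = X k n p := by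
  rw [corb_succ']
  rfl

@[simp] theorem X_zero (k : ℝ) (p : ℂ × ℂ) : X k 0 p = p.2 := rfl

theorem X_one (k : ℝ) (p : ℂ × ℂ) :
    X k 1 p = 2 * p.2 + k * Complex.sin (2 * Real.pi * p.2) - p.1 := rfl

theorem X_rec (k : ℝ) (n : ℕ) (p : ℂ × ℂ) :
    X k (n + 2) p = 2 * X k (n + 1) p + k * Complex.sin (2 * Real.pi * X k (n + 1) p)
      - X k n p := by
  have h : X k (n + 2) p = (cstep k (corb k (n + 1) p)).2 := by
    unfold X
    rw [corb_succ']
  rw [h]
  unfold cstep
  rw [corb_succ_fst]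
  rfl

theorem differentiable_cstep (k : ℝ) : Differentiable ℂ (cstep k) := by
  unfold cstep
  fun_prop

theorem differentiable_corb (k : ℝ) (n : ℕ) : Differentiable ℂ (corb k n) := by
  induction n with
  | zero => exact differentiable_id
  | succ n ih => exact ih.comp (differentiable_cstep k)

theorem differentiable_X (k : ℝ) (n : ℕ) : Differentiable ℂ (X k n) :=
  differentiable_snd.comp (differentiable_corb k n)

/-- action of a matrix on a pair -/
def cact (M : Matrix (Fin 2) (Fin 2) ℂ) (v : ℂ × ℂ) : ℂ × ℂ :=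
  (M 0 0 * v.1 + M 0 1 * v.2, M 1 0 * v.1 + M 1 1 * v.2)

theorem cact_mul (M N : Matrix (Fin 2) (Fin 2) ℂ) (v : ℂ × ℂ) :
    cact (M * N) v = cact M (cact N v) := by
  unfold cact
  simp only [Matrix.mul_apply, Fin.sum_univ_two]
  ext <;> simp <;> ring

@[simp] theorem cact_one (v : ℂ × ℂ) : cact 1 v = v := by
  unfold cact
  ext <;> simp

@[simp] theorem Mc_zero (k : ℝ) (p : ℂ × ℂ) : Mc k 0 p = 1 := rfl

theorem Mc_succ (k : ℝ) (n : ℕ) (p : ℂ × ℂ) : Mc k (n + 1) p = Mc k n (cstep k p) * cAm k p := rfl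

theorem Mc_add (k : ℝ) (m n : ℕ) (p : ℂ × ℂ) :
    Mc k (m + n) p = Mc k m (corb k n p) * Mc k n p := by
  induction n generalizing p with
  | zero => simp
  | succ n ih =>
    rw [← Nat.add_assoc, Mc_succ, ih, Mc_succ, Matrix.mul_assoc, corb_succ]

theorem Mc_succ' (k : ℝ) (n : ℕ) (p : ℂ × ℂ) :
    Mc k (n + 1) p = cAm k (corb k n p) * Mc k n p := by
  rw [add_comm, Mc_add, Mc_succ, Mc_zero, one_mul]

theorem det_cAm (k : ℝ) (p : ℂ × ℂ) : (cAm k p).det = 1 := by
  simp [cAm, Matrix.det_fin_two]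

theorem det_Mc (k : ℝ) (n : ℕ) (p : ℂ × ℂ) : (Mc k n p).det = 1 := by
  induction n generalizing p with
  | zero => simp
  | succ n ih => rw [Mc_succ, Matrix.det_mul, ih, det_cAm, one_mul]

theorem hasDerivAt_sin2pi (k : ℝ) (x : ℂ) :
    HasDerivAt (fun x : ℂ => 2 * x + k * Complex.sin (2 * Real.pi * x)) (cV k x) x := by
  have h1 : HasDerivAt (fun x : ℂ => 2 * (Real.pi : ℂ) * x) (2 * Real.pi) x := by
    simpa using (hasDerivAt_id x).const_mul (2 * (Real.pi : ℂ))
  have h2 := (h1.csin).const_mul (k : ℂ)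
  have h3 : HasDerivAt (fun x : ℂ => 2 * x) 2 x := by
    simpa using (hasDerivAt_id x).const_mul (2 : ℂ)
  refine (h3.add h2).congr_deriv ?_
  unfold cV
  ring

theorem hasFDerivAt_cstep (k : ℝ) (p v : ℂ × ℂ) :
    fderiv ℂ (cstep k) p v = cact (cAm k p) v := by
  have h1 : HasFDerivAt (fun q : ℂ × ℂ => 2 * q.2 + k * Complex.sin (2 * Real.pi * q.2))
      (cV k p.2 • (ContinuousLinearMap.snd ℂ ℂ ℂ)) p := by
    have := (hasDerivAt_sin2pi k p.2).comp_hasFDerivAt p
      ((ContinuousLinearMap.snd ℂ ℂ ℂ).hasFDerivAt (x := p))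
    exact this
  have h2 := (ContinuousLinearMap.snd ℂ ℂ ℂ).hasFDerivAt (x := p)
  have h3 := h2.prodMk (h1.sub ((ContinuousLinearMap.fst ℂ ℂ ℂ).hasFDerivAt (x := p)))
  have h4 : HasFDerivAt (cstep k) ((ContinuousLinearMap.snd ℂ ℂ ℂ).prod
      (cV k p.2 • (ContinuousLinearMap.snd ℂ ℂ ℂ) - ContinuousLinearMap.fst ℂ ℂ ℂ)) p := h3
  rw [h4.fderiv]
  unfold cact cAm
  ext <;> simp
  ring

/-- the derivative of the orbit is the cocycle -/
theorem fderiv_corb (k : ℝ) (n : ℕ) (p v : ℂ × ℂ) :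
    fderiv ℂ (corb k n) p v = cact (Mc k n p) v := by
  induction n generalizing p v with
  | zero =>
    have : corb k 0 = fun x => x := by
      funext x
      rfl
    rw [this, fderiv_fun_id]
    simp
  | succ n ih =>
    have e : corb k (n + 1) = (corb k n) ∘ (cstep k) := by
      funext x
      rfl
    rw [e, fderiv_comp p (differentiable_corb k n _) (differentiable_cstep k _),
      ContinuousLinearMap.comp_apply, ih, Mc_succ, cact_mul, hasFDerivAt_cstep]

theorem fderiv_X (k : ℝ) (n : ℕ) (p v : ℂ × ℂ) :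
    fderiv ℂ (X k n) p v = (cact (Mc k n p) v).2 := by
  have h : HasFDerivAt (X k n) ((ContinuousLinearMap.snd ℂ ℂ ℂ).comp (fderiv ℂ (corb k n) p)) p :=
    ((ContinuousLinearMap.snd ℂ ℂ ℂ).hasFDerivAt (x := corb k n p)).comp p
      (differentiable_corb k n p).hasFDerivAt
  rw [h.fderiv, ContinuousLinearMap.comp_apply, fderiv_corb]
  rfl

theorem cact_succ_fst (k : ℝ) (n : ℕ) (p v : ℂ × ℂ) :
    (cact (Mc k (n + 1) p) v).1 = (cact (Mc k n p) v).2 := by
  rw [Mc_succ', cact_mul]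
  unfold cAm
  simp [cact]

/-- the second components of the linearised orbit satisfy the second order recursion -/
theorem cact_rec (k : ℝ) (n : ℕ) (p v : ℂ × ℂ) :
    (cact (Mc k (n + 2) p) v).2 = cV k (X k (n + 1) p) * (cact (Mc k (n + 1) p) v).2
      - (cact (Mc k n p) v).2 := by
  have h : (cact (Mc k (n + 2) p) v) = cact (cAm k (corb k (n + 1) p)) (cact (Mc k (n + 1) p) v) := by
    rw [Mc_succ', cact_mul]
  have e : ∀ (q w : ℂ × ℂ), (cact (cAm k q) w).2 = cV k q.2 * w.2 - w.1 := by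
    intro q w
    unfold cact cAm
    simp
    ring
  rw [h, e, cact_succ_fst]
  rfl

theorem cact_zero_snd (k : ℝ) (p v : ℂ × ℂ) : (cact (Mc k 0 p) v).2 = v.2 := by simp

theorem cact_one_snd (k : ℝ) (p v : ℂ × ℂ) :
    (cact (Mc k 1 p) v).2 = cV k p.2 * v.2 - v.1 := by
  rw [show (1 : ℕ) = 0 + 1 from rfl, Mc_succ']
  simp [cact, cAm]
  ring

/-! ### conjugation and real points -/

/-- complex conjugation on pairs -/
noncomputable def cj (p : ℂ × ℂ) : ℂ × ℂ := (starRingEnd ℂ p.1, starRingEnd ℂ p.2)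

theorem cstep_cj (k : ℝ) (p : ℂ × ℂ) : cstep k (cj p) = cj (cstep k p) := by
  unfold cstep cj
  have h2 : (starRingEnd ℂ) (2 : ℂ) = 2 := Complex.conj_ofReal 2
  simp [← Complex.sin_conj, h2]

theorem corb_cj (k : ℝ) (n : ℕ) (p : ℂ × ℂ) : corb k n (cj p) = cj (corb k n p) := by
  induction n generalizing p with
  | zero => rfl
  | succ n ih => rw [corb_succ, corb_succ, cstep_cj, ih]

theorem X_cj (k : ℝ) (n : ℕ) (p : ℂ × ℂ) : X k n (cj p) = starRingEnd ℂ (X k n p) := by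
  unfold X
  rw [corb_cj]
  rfl

/-- the real map -/
noncomputable def rstep (k : ℝ) (p : ℝ × ℝ) : ℝ × ℝ :=
  (p.2, 2 * p.2 + k * Real.sin (2 * Real.pi * p.2) - p.1)

noncomputable def rorb (k : ℝ) (n : ℕ) (p : ℝ × ℝ) : ℝ × ℝ := (rstep k)^[n] p

/-- a real point as a complex point -/
def toC (p : ℝ × ℝ) : ℂ × ℂ := ((p.1 : ℂ), (p.2 : ℂ))

theorem cstep_toC (k : ℝ) (p : ℝ × ℝ) : cstep k (toC p) = toC (rstep k p) := by
  unfold cstep toC rstep
  simp

theorem corb_toC (k : ℝ) (n : ℕ) (p : ℝ × ℝ) : corb k n (toC p) = toC (rorb k n p) := by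
  induction n generalizing p with
  | zero => rfl
  | succ n ih =>
    rw [corb_succ, cstep_toC, ih]
    rfl

theorem X_toC (k : ℝ) (n : ℕ) (p : ℝ × ℝ) : X k n (toC p) = ((rorb k n p).2 : ℂ) := by
  unfold X
  rw [corb_toC]
  rfl

theorem pr_rstep (k : ℝ) (p : ℝ × ℝ) : pr (rstep k p) = T k (pr p) := by
  unfold pr rstep T
  simp only [sk_coe]
  ext
  · simp
  · simp only [AddCircle.coe_add, AddCircle.coe_sub]
    rw [two_mul, AddCircle.coe_add]

theorem pr_rorb (k : ℝ) (n : ℕ) (p : ℝ × ℝ) : pr (rorb k n p) = (T k)^[n] (pr p) := by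
  induction n generalizing p with
  | zero => rfl
  | succ n ih =>
    have : rorb k (n + 1) p = rorb k n (rstep k p) := rfl
    rw [this, ih, pr_rstep, Function.iterate_succ_apply]

theorem cV_ofReal (k x : ℝ) : cV k (x : ℂ) = ((V k (x : UnitAddCircle) : ℝ) : ℂ) := by
  rw [V_coe]
  unfold cV
  simp

theorem cAm_toC (k : ℝ) (p : ℝ × ℝ) : cAm k (toC p) = (Am k (pr p)).map Complex.ofReal := by
  unfold cAm Am toC pr
  simp only [cV_ofReal]
  ext i j
  fin_cases i <;> fin_cases j <;> simp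

/-- at real points the complex cocycle is the real one -/
theorem Mc_toC (k : ℝ) (n : ℕ) (p : ℝ × ℝ) :
    Mc k n (toC p) = (Mn k n (pr p)).map Complex.ofReal := by
  induction n generalizing p with
  | zero =>
    simp [Matrix.map_one]
  | succ n ih =>
    rw [Mc_succ, Mn_succ, cstep_toC, ih, pr_rstep, cAm_toC]
    exact (Matrix.map_mul (f := Complex.ofRealHom)).symm

theorem Mc_toC_apply (k : ℝ) (n : ℕ) (p : ℝ × ℝ) (i j : Fin 2) :
    Mc k n (toC p) i j = ((Mn k n (pr p) i j : ℝ) : ℂ) := by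
  rw [Mc_toC]
  rfl

/-! ### reversibility -/

/-- the reversor `(a, b) ↦ (F b - a, b)...`: exchanging past and future.  If `(a, b)` are two
consecutive positions then `(b, a)` runs the orbit backwards. -/
theorem cstep_swap_cstep (k : ℝ) (p : ℂ × ℂ) : cstep k ((cstep k p).swap) = p.swap := by
  unfold cstep
  ext <;> simp

theorem corb_swap_corb (k : ℝ) (n : ℕ) (p : ℂ × ℂ) : corb k n ((corb k n p).swap) = p.swap := by
  induction n generalizing p with
  | zero => rfl
  | succ n ih =>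
    rw [corb_succ k n p, corb_succ', ih, cstep_swap_cstep]

end Crest.Agent.R128.Cell
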