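import Mathlib
import Crest.Agent.R128.CellOrb
import Crest.Agent.R128.CellA

set_option autoImplicit false

open MeasureTheory Filter Topology Metric
open Crest.Agent.R128 Crest.Agent.R128.Cell

/-!
Un-stretched discs and polydiscs of the complexified standard map (row 128, node CELL; helper421).

`y k c n t` : orbit with `x_0 = c`, `x_1 = t` (so `y (n+1) t = X k n (c, t)`), `yd` its derivative
in `t`.
-/

namespace Crest.Agent.R128.CellB

/-- the orbit of the curve `x_0 = c`, `x_1 = t` -/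
noncomputable def y (k : ℝ) (c : ℂ) : ℕ → ℂ → ℂ
  | 0, _ => c
  | 1, t => t
  | n + 2, t => 2 * y k c (n + 1) t + k * Complex.sin (2 * Real.pi * y k c (n + 1) t) - y k c n t

/-- the derivative of `y` with respect to `t` -/
noncomputable def yd (k : ℝ) (c : ℂ) : ℕ → ℂ → ℂ
  | 0, _ => 0
  | 1, _ => 1
  | n + 2, t => cV k (y k c (n + 1) t) * yd k c (n + 1) t - yd k c n t

@[simp] theorem y_zero (k : ℝ) (c t : ℂ) : y k c 0 t = c := rfl
@[simp] theorem y_one (k : ℝ) (c t : ℂ) : y k c 1 t = t := rfl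
theorem y_add_two (k : ℝ) (c : ℂ) (n : ℕ) (t : ℂ) : y k c (n + 2) t =
    2 * y k c (n + 1) t + k * Complex.sin (2 * Real.pi * y k c (n + 1) t) - y k c n t := rfl
@[simp] theorem yd_zero (k : ℝ) (c t : ℂ) : yd k c 0 t = 0 := rfl
@[simp] theorem yd_one (k : ℝ) (c t : ℂ) : yd k c 1 t = 1 := rfl
theorem yd_add_two (k : ℝ) (c : ℂ) (n : ℕ) (t : ℂ) : yd k c (n + 2) t =
    cV k (y k c (n + 1) t) * yd k c (n + 1) t - yd k c n t := rfl

theorem y_succ (k : ℝ) (c : ℂ) (n : ℕ) (t : ℂ) : y k c (n + 1) t = X k n (c, t) := by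
  induction n using Nat.strong_induction_on with
  | _ n ih =>
    match n with
    | 0 => rfl
    | 1 => rfl
    | n + 2 => rw [X_rec, y_add_two, ih (n + 1) (by omega), ih n (by omega)]

theorem hasDerivAt_y (k : ℝ) (c : ℂ) (n : ℕ) (t : ℂ) : HasDerivAt (y k c n) (yd k c n t) t := by
  induction n using Nat.strong_induction_on with
  | _ n ih =>
    match n with
    | 0 => exact hasDerivAt_const t c
    | 1 => exact hasDerivAt_id t
    | n + 2 =>
      have h1 := ih (n + 1) (by omega)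
      have h2 := ih n (by omega)
      have h3 := (hasDerivAt_sin2pi k (y k c (n + 1) t)).comp t h1
      exact h3.sub h2

theorem deriv_y (k : ℝ) (c : ℂ) (n : ℕ) (t : ℂ) : deriv (y k c n) t = yd k c n t :=
  (hasDerivAt_y k c n t).deriv

theorem differentiable_y (k : ℝ) (c : ℂ) (n : ℕ) : Differentiable ℂ (y k c n) :=
  fun t => (hasDerivAt_y k c n t).differentiableAt

/-- the derivative in `t` is the image of the vector `(0, 1)` -/
theorem yd_eq (k : ℝ) (c : ℂ) (n : ℕ) (t : ℂ) :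
    yd k c (n + 1) t = (cact (Mc k n (c, t)) (0, 1)).2 := by
  induction n using Nat.strong_induction_on with
  | _ n ih =>
    match n with
    | 0 => simp
    | 1 =>
      rw [cact_one_snd, yd_add_two]
      simp
    | n + 2 =>
      rw [cact_rec, yd_add_two, ih (n + 1) (by omega), ih n (by omega), y_succ]

theorem yd_eq_entry (k : ℝ) (c : ℂ) (n : ℕ) (t : ℂ) : yd k c (n + 1) t = Mc k n (c, t) 1 1 := by
  rw [yd_eq]
  simp [cact]

theorem yd_eq_entry' (k : ℝ) (c : ℂ) (n : ℕ) (t : ℂ) : yd k c n t = Mc k n (c, t) 0 1 := by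
  cases n with
  | zero => simp
  | succ n =>
    have h := cact_succ_fst k n (c, t) (0, 1)
    rw [yd_eq, ← h]
    simp [cact]

/-- real orbits -/
theorem y_ofReal (k c : ℝ) (n : ℕ) (t : ℝ) :
    y k c (n + 1) (t : ℂ) = ((rorb k n (c, t)).2 : ℂ) := by
  rw [y_succ, ← X_toC]
  rfl

theorem im_y_ofReal (k c : ℝ) (n : ℕ) (t : ℝ) : (y k c n (t : ℂ)).im = 0 := by
  cases n with
  | zero => simp
  | succ n => rw [y_ofReal]; simp

theorem yd_ofReal (k c : ℝ) (n : ℕ) (t : ℝ) :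
    yd k c n (t : ℂ) = ((Mn k n (pr (c, t)) 0 1 : ℝ) : ℂ) := by
  rw [yd_eq_entry', ← Mc_toC_apply]
  rfl

theorem yd_ofReal' (k c : ℝ) (n : ℕ) (t : ℝ) :
    yd k c (n + 1) (t : ℂ) = ((Mn k n (pr (c, t)) 1 1 : ℝ) : ℂ) := by
  rw [yd_eq_entry, ← Mc_toC_apply]
  rfl

/-- conjugation symmetry -/
theorem y_conj (k c : ℝ) (n : ℕ) (t : ℂ) :
    y k c n (starRingEnd ℂ t) = starRingEnd ℂ (y k c n t) := by
  cases n with
  | zero => simp
  | succ n =>
    rw [y_succ, y_succ, ← X_cj]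
    simp [cj]

/-! ### size of the coefficients in the strip -/

theorem norm_cos_le (z : ℂ) : ‖Complex.cos z‖ ≤ Real.exp |z.im| := by
  unfold Complex.cos
  rw [norm_div]
  have h1 : ‖Complex.exp (z * Complex.I)‖ ≤ Real.exp |z.im| := by
    rw [Complex.norm_exp]
    apply Real.exp_le_exp.mpr
    simp
    exact neg_le_abs _
  have h2 : ‖Complex.exp (-z * Complex.I)‖ ≤ Real.exp |z.im| := by
    rw [Complex.norm_exp]
    apply Real.exp_le_exp.mpr
    simp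
    exact le_abs_self _
  have h3 := norm_add_le (Complex.exp (z * Complex.I)) (Complex.exp (-z * Complex.I))
  have h4 : ‖(2 : ℂ)‖ = 2 := by simp
  rw [h4]
  linarith

theorem norm_sin_le (z : ℂ) : ‖Complex.sin z‖ ≤ Real.exp |z.im| := by
  have h := norm_cos_le (z - Real.pi / 2)
  rw [Complex.cos_sub_pi_div_two] at h
  have e : (z - (Real.pi : ℂ) / 2).im = z.im := by
    have : ((Real.pi : ℂ) / 2).im = 0 := by
      have : ((Real.pi : ℂ) / 2) = ((Real.pi / 2 : ℝ) : ℂ) := by push_cast; rfl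
      rw [this, Complex.ofReal_im]
    rw [Complex.sub_im, this, sub_zero]
  rwa [e] at h

/-- bound of `|V|` on the strip `|Im x| ≤ 1` -/
noncomputable def CV (k : ℝ) : ℝ := 2 + 2 * Real.pi * |k| * Real.exp (2 * Real.pi)

theorem CV_ge (k : ℝ) : 2 ≤ CV k := by
  unfold CV
  have : 0 ≤ 2 * Real.pi * |k| * Real.exp (2 * Real.pi) := by positivity
  linarith

theorem two_pi_im (z : ℂ) : (2 * (Real.pi : ℂ) * z).im = 2 * Real.pi * z.im := by
  have : (2 * (Real.pi : ℂ) * z) = ((2 * Real.pi : ℝ) : ℂ) * z := by push_cast; rfl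
  rw [this, Complex.im_ofReal_mul]

theorem norm_cV_le (k : ℝ) {z : ℂ} (hz : |z.im| ≤ 1) : ‖cV k z‖ ≤ CV k := by
  unfold cV CV
  have h1 := norm_cos_le (2 * Real.pi * z)
  rw [two_pi_im] at h1
  have h2 : |2 * Real.pi * z.im| ≤ 2 * Real.pi := by
    rw [abs_mul, abs_of_pos (by positivity : 0 < 2 * Real.pi)]
    have := Real.pi_pos
    nlinarith
  have h3 : ‖Complex.cos (2 * Real.pi * z)‖ ≤ Real.exp (2 * Real.pi) :=
    h1.trans (Real.exp_le_exp.mpr h2)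
  have h4 : ‖(2 : ℂ) + 2 * Real.pi * k * Complex.cos (2 * Real.pi * z)‖ ≤
      2 + ‖2 * (Real.pi : ℂ) * k * Complex.cos (2 * Real.pi * z)‖ := by
    refine (norm_add_le _ _).trans ?_
    simp
  refine h4.trans ?_
  rw [norm_mul]
  have h5 : ‖2 * (Real.pi : ℂ) * k‖ = 2 * Real.pi * |k| := by
    rw [norm_mul, norm_mul]
    simp [abs_of_pos Real.pi_pos]
  rw [h5]
  have h6 : 0 ≤ 2 * Real.pi * |k| := by positivity
  nlinarith [mul_le_mul_of_nonneg_left h3 h6]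

theorem hasDerivAt_cV (k : ℝ) (z : ℂ) :
    HasDerivAt (cV k) (-(4 * Real.pi ^ 2 * k * Complex.sin (2 * Real.pi * z))) z := by
  have h1 : HasDerivAt (fun x : ℂ => 2 * (Real.pi : ℂ) * x) (2 * Real.pi) z := by
    simpa using (hasDerivAt_id z).const_mul (2 * (Real.pi : ℂ))
  have h2 := (h1.ccos).const_mul (2 * (Real.pi : ℂ) * k)
  have h3 := h2.const_add 2
  refine h3.congr_deriv ?_
  ring

/-- Lipschitz constant of `V` on the strip -/
noncomputable def CL (k : ℝ) : ℝ := 4 * Real.pi ^ 2 * |k| * Real.exp (2 * Real.pi)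

theorem CL_nonneg (k : ℝ) : 0 ≤ CL k := by
  unfold CL
  positivity

theorem norm_deriv_cV_le (k : ℝ) {z : ℂ} (hz : |z.im| ≤ 1) :
    ‖-(4 * (Real.pi : ℂ) ^ 2 * k * Complex.sin (2 * Real.pi * z))‖ ≤ CL k := by
  unfold CL
  have h1 := norm_sin_le (2 * Real.pi * z)
  rw [two_pi_im] at h1
  have h2 : |2 * Real.pi * z.im| ≤ 2 * Real.pi := by
    rw [abs_mul, abs_of_pos (by positivity : 0 < 2 * Real.pi)]
    have := Real.pi_pos
    nlinarith
  have h3 : ‖Complex.sin (2 * Real.pi * z)‖ ≤ Real.exp (2 * Real.pi) :=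
    h1.trans (Real.exp_le_exp.mpr h2)
  rw [norm_neg, norm_mul]
  have h5 : ‖4 * (Real.pi : ℂ) ^ 2 * k‖ = 4 * Real.pi ^ 2 * |k| := by
    rw [norm_mul, norm_mul, norm_pow]
    simp [abs_of_pos Real.pi_pos]
  rw [h5]
  exact mul_le_mul_of_nonneg_left h3 (by positivity)

theorem convex_strip : Convex ℝ {z : ℂ | |z.im| ≤ 1} := by
  have : {z : ℂ | |z.im| ≤ 1} = Complex.imLm ⁻¹' (Set.Icc (-1) 1) := by
    ext z
    simp [abs_le]
  rw [this]
  exact (convex_Icc (-1 : ℝ) 1).linear_preimage _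

theorem norm_cV_sub_le (k : ℝ) {z w : ℂ} (hz : |z.im| ≤ 1) (hw : |w.im| ≤ 1) :
    ‖cV k z - cV k w‖ ≤ CL k * ‖z - w‖ := by
  have := convex_strip.norm_image_sub_le_of_norm_hasDerivWithin_le (f := cV k)
    (f' := fun z => -(4 * (Real.pi : ℂ) ^ 2 * k * Complex.sin (2 * Real.pi * z)))
    (fun x _ => (hasDerivAt_cV k x).hasDerivWithinAt) (fun x hx => norm_deriv_cV_le k hx)
    (show w ∈ {z : ℂ | |z.im| ≤ 1} from hw) (show z ∈ {z : ℂ | |z.im| ≤ 1} from hz)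
  exact this

/-! ### un-stretched discs -/

/-- the orbit of the disc `ball t₀ R` of the curve `x_0 = c` stays in `|Im| ≤ 1` up to time `n` -/
def unst (k : ℝ) (c : ℂ) (n : ℕ) (t₀ : ℂ) (R : ℝ) : Prop :=
  ∀ t ∈ ball t₀ R, ∀ m ≤ n, |(y k c m t).im| ≤ 1

theorem unst.mono {k : ℝ} {c : ℂ} {n m : ℕ} {t₀ : ℂ} {R : ℝ} (h : unst k c n t₀ R) (hm : m ≤ n) :
    unst k c m t₀ R := fun t ht j hj => h t ht j (hj.trans hm)

theorem unst.sub {k : ℝ} {c : ℂ} {n : ℕ} {t₀ t₁ : ℂ} {R R' : ℝ} (h : unst k c n t₀ R)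
    (hs : ball t₁ R' ⊆ ball t₀ R) : unst k c n t₁ R' := fun t ht j hj => h t (hs ht) j hj

theorem unst.yd_le {k : ℝ} {c : ℂ} {n : ℕ} {t₀ : ℂ} {R : ℝ} (h : unst k c n t₀ R) (hR : 0 < R)
    {m : ℕ} (hm : m ≤ n) {t : ℂ} (ht : ‖t - t₀‖ ≤ R / 2) : ‖yd k c m t‖ ≤ 8 / R := by
  have := CellA.norm_deriv_le_of_im_half (f := y k c m) hR one_pos
    (differentiable_y k c m).differentiableOn (fun z hz => h z hz m hm) ht
  rw [deriv_y] at this
  simpa using this

/-- at the exit time the derivative is at most `C k / R` -/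
theorem unst.yd_succ_le {k : ℝ} {c : ℂ} {n : ℕ} {t₀ : ℂ} {R : ℝ} (h : unst k c (n + 1) t₀ R)
    (hR : 0 < R) {t : ℂ} (ht : ‖t - t₀‖ ≤ R / 2) : ‖yd k c (n + 2) t‖ ≤ (CV k + 1) * (8 / R) := by
  have h1 := h.yd_le hR (le_refl (n + 1)) ht
  have h2 := h.yd_le hR (Nat.le_succ n) ht
  have htb : t ∈ ball t₀ R := by
    rw [mem_ball, dist_eq_norm]
    linarith
  have h3 := norm_cV_le k (h t htb (n + 1) le_rfl)
  rw [yd_add_two]
  refine (norm_sub_le _ _).trans ?_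
  rw [norm_mul]
  have h4 : 0 ≤ 8 / R := by positivity
  have := mul_le_mul h3 h1 (norm_nonneg _) (by linarith [CV_ge k] : 0 ≤ CV k)
  linarith

theorem unst.yd_sub_le {k : ℝ} {c : ℂ} {n : ℕ} {t₀ : ℂ} {R : ℝ} (h : unst k c n t₀ R) (hR : 0 < R)
    {m : ℕ} (hm : m ≤ n) {t s : ℂ} (ht : ‖t - t₀‖ ≤ R / 4) (hs : ‖s - t₀‖ ≤ R / 4) :
    ‖yd k c m t - yd k c m s‖ ≤ 32 / R ^ 2 * ‖t - s‖ := by
  have := CellA.norm_deriv_sub_le_of_im (f := y k c m) hR one_pos
    (differentiable_y k c m).differentiableOn (fun z hz => h z hz m hm) ht hs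
  rw [deriv_y, deriv_y] at this
  simpa using this

theorem unst.y_sub_le {k : ℝ} {c : ℂ} {n : ℕ} {t₀ : ℂ} {R : ℝ} (h : unst k c n t₀ R) (hR : 0 < R)
    {m : ℕ} (hm : m ≤ n) {t s : ℂ} (ht : ‖t - t₀‖ ≤ R / 2) (hs : ‖s - t₀‖ ≤ R / 2) :
    ‖y k c m t - y k c m s‖ ≤ 8 / R * ‖t - s‖ := by
  have hc : Convex ℝ (closedBall t₀ (R / 2)) := convex_closedBall _ _
  exact hc.norm_image_sub_le_of_norm_hasDerivWithin_le (f := y k c m) (f' := yd k c m)
    (fun x _ => (hasDerivAt_y k c m x).hasDerivWithinAt)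
    (fun x hx => h.yd_le hR hm (by simpa [dist_eq_norm] using hx))
    (by simpa [dist_eq_norm] using hs) (by simpa [dist_eq_norm] using ht)

/-- Lipschitz constant of the derivative at the exit time -/
theorem unst.yd_succ_sub_le {k : ℝ} {c : ℂ} {n : ℕ} {t₀ : ℂ} {R : ℝ}
    (h : unst k c (n + 1) t₀ R) (hR : 0 < R) {t s : ℂ} (ht : ‖t - t₀‖ ≤ R / 4)
    (hs : ‖s - t₀‖ ≤ R / 4) :
    ‖yd k c (n + 2) t - yd k c (n + 2) s‖ ≤ (32 * CV k + 64 * CL k + 32) / R ^ 2 * ‖t - s‖ := by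
  have a1 := h.yd_sub_le hR (le_refl (n + 1)) ht hs
  have a2 := h.yd_sub_le hR (Nat.le_succ n) ht hs
  have ht2 : ‖t - t₀‖ ≤ R / 2 := by linarith
  have hs2 : ‖s - t₀‖ ≤ R / 2 := by linarith
  have htb : t ∈ ball t₀ R := by rw [mem_ball, dist_eq_norm]; linarith
  have hsb : s ∈ ball t₀ R := by rw [mem_ball, dist_eq_norm]; linarith
  have a3 := norm_cV_le k (h t htb (n + 1) le_rfl)
  have a4 := norm_cV_sub_le k (h t htb (n + 1) le_rfl) (h s hsb (n + 1) le_rfl)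
  have a5 := h.y_sub_le hR (le_refl (n + 1)) ht2 hs2
  have a6 := h.yd_le hR (le_refl (n + 1)) hs2
  rw [yd_add_two, yd_add_two]
  have e : cV k (y k c (n + 1) t) * yd k c (n + 1) t - yd k c n t -
      (cV k (y k c (n + 1) s) * yd k c (n + 1) s - yd k c n s) =
      cV k (y k c (n + 1) t) * (yd k c (n + 1) t - yd k c (n + 1) s) +
      (cV k (y k c (n + 1) t) - cV k (y k c (n + 1) s)) * yd k c (n + 1) s -
      (yd k c n t - yd k c n s) := by ring
  rw [e]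
  have hCV : 0 ≤ CV k := by linarith [CV_ge k]
  have hCL := CL_nonneg k
  have b1 : ‖cV k (y k c (n + 1) t) * (yd k c (n + 1) t - yd k c (n + 1) s)‖ ≤
      CV k * (32 / R ^ 2 * ‖t - s‖) := by
    rw [norm_mul]
    exact mul_le_mul a3 a1 (norm_nonneg _) hCV
  have b2 : ‖(cV k (y k c (n + 1) t) - cV k (y k c (n + 1) s)) * yd k c (n + 1) s‖ ≤
      (CL k * (8 / R * ‖t - s‖)) * (8 / R) := by
    rw [norm_mul]
    refine mul_le_mul (a4.trans (mul_le_mul_of_nonneg_left a5 hCL)) a6 (norm_nonneg _) ?_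
    positivity
  refine (norm_sub_le _ _).trans ?_
  have b3 := norm_add_le (cV k (y k c (n + 1) t) * (yd k c (n + 1) t - yd k c (n + 1) s))
    ((cV k (y k c (n + 1) t) - cV k (y k c (n + 1) s)) * yd k c (n + 1) s)
  calc _ ≤ CV k * (32 / R ^ 2 * ‖t - s‖) + (CL k * (8 / R * ‖t - s‖)) * (8 / R) +
        32 / R ^ 2 * ‖t - s‖ := by linarith
    _ = (32 * CV k + 64 * CL k + 32) / R ^ 2 * ‖t - s‖ := by
        field_simp
        ring

/-- if the exit has not happened the disc can be continued: criterion by the derivative -/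
theorem unst_succ_of_small {k : ℝ} {c : ℂ} {n : ℕ} {t₀ : ℝ} {R r : ℝ} {cr : ℝ} (hc : c = cr)
    (h : unst k c n t₀ R) (hr : r ≤ R)
    (hd : ∀ t ∈ ball (t₀ : ℂ) r, ‖yd k c (n + 1) t‖ * r ≤ 1) : unst k c (n + 1) t₀ r := by
  intro t ht m hm
  rcases Nat.lt_or_ge m (n + 1) with h1 | h1
  · exact h t (ball_subset_ball hr ht) m (by omega)
  · have hm' : m = n + 1 := le_antisymm hm h1
    subst hm'
    have hr0 : 0 < r := lt_of_le_of_lt dist_nonneg ht
    have hcv : Convex ℝ (ball (t₀ : ℂ) r) := convex_ball _ _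
    have := hcv.norm_image_sub_le_of_norm_hasDerivWithin_le (f := y k c (n + 1))
      (f' := yd k c (n + 1)) (C := 1 / r)
      (fun x _ => (hasDerivAt_y k c (n + 1) x).hasDerivWithinAt)
      (fun x hx => by
        rw [le_div_iff₀ hr0]
        exact hd x hx)
      (mem_ball_self hr0) ht
    have h0 : (y k c (n + 1) (t₀ : ℂ)).im = 0 := by
      rw [hc]
      exact im_y_ofReal k cr (n + 1) t₀
    have h2 : |(y k c (n + 1) t - y k c (n + 1) (t₀ : ℂ)).im| ≤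
        ‖y k c (n + 1) t - y k c (n + 1) (t₀ : ℂ)‖ := Complex.abs_im_le_norm _
    rw [Complex.sub_im, h0, sub_zero] at h2
    refine h2.trans (this.trans ?_)
    rw [mem_ball, dist_eq_norm] at ht
    rw [div_mul_eq_mul_div, one_mul, div_le_one hr0]
    exact ht.le

/-! ### un-stretched polydiscs -/

/-- the orbit of the polydisc `ball p R` (sup norm of `ℂ × ℂ`) stays in `|Im| ≤ 1` up to time
`n` -/
def unst2 (k : ℝ) (n : ℕ) (p : ℂ × ℂ) (R : ℝ) : Prop :=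
  ∀ q ∈ ball p R, |q.1.im| ≤ 1 ∧ ∀ m ≤ n, |(X k m q).im| ≤ 1

theorem unst2.mono {k : ℝ} {n m : ℕ} {p : ℂ × ℂ} {R : ℝ} (h : unst2 k n p R) (hm : m ≤ n) :
    unst2 k m p R := fun q hq => ⟨(h q hq).1, fun j hj => (h q hq).2 j (hj.trans hm)⟩

theorem unst2.sub {k : ℝ} {n : ℕ} {p q : ℂ × ℂ} {R R' : ℝ} (h : unst2 k n p R)
    (hs : ball q R' ⊆ ball p R) : unst2 k n q R' := fun z hz => h z (hs hz)

/-- a polydisc contains its vertical disc -/
theorem unst2.unst {k : ℝ} {n : ℕ} {c t₀ : ℂ} {R : ℝ} (h : unst2 k n (c, t₀) R) (hR : 0 < R) :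
    unst k c (n + 1) t₀ R := by
  intro t ht m hm
  have hq : (c, t) ∈ ball (c, t₀) R := by
    rw [mem_ball, dist_eq_norm] at ht ⊢
    simpa [Prod.norm_def, hR] using ht
  cases m with
  | zero => exact (h _ hq).1
  | succ m =>
    rw [y_succ]
    exact (h _ hq).2 m (by omega)

theorem norm_entry_le_of_fderiv {k : ℝ} {n : ℕ} {q : ℂ × ℂ} {B : ℝ}
    (h : ‖fderiv ℂ (X k n) q‖ ≤ B) (j : Fin 2) : ‖Mc k n q 1 j‖ ≤ B := by
  have key : ∀ v : ℂ × ℂ, ‖v‖ ≤ 1 → ‖(cact (Mc k n q) v).2‖ ≤ B := by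
    intro v hv
    rw [← fderiv_X]
    refine ((fderiv ℂ (X k n) q).le_opNorm v).trans ?_
    have h0 : 0 ≤ ‖fderiv ℂ (X k n) q‖ := norm_nonneg _
    nlinarith
  fin_cases j
  · have := key (1, 0) (by simp [Prod.norm_def])
    simpa [cact] using this
  · have := key (0, 1) (by simp [Prod.norm_def])
    simpa [cact] using this

/-- all entries of the cocycle are `≤ 8/R` on the half polydisc (`R ≤ 8`) -/
theorem unst2.entry_le {k : ℝ} {n : ℕ} {p : ℂ × ℂ} {R : ℝ} (h : unst2 k n p R) (hR : 0 < R)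
    (hR8 : R ≤ 8) {m : ℕ} (hm : m ≤ n) {q : ℂ × ℂ} (hq : ‖q - p‖ ≤ R / 2) (i j : Fin 2) :
    ‖Mc k m q i j‖ ≤ 8 / R := by
  have hrow : ∀ m ≤ n, ∀ j, ‖Mc k m q 1 j‖ ≤ 8 / R := by
    intro m hm j
    have := CellA.norm_fderiv_le_of_im_half (F := X k m) hR one_pos
      (differentiable_X k m).differentiableOn (fun z hz => (h z hz).2 m hm) hq
    exact norm_entry_le_of_fderiv (by simpa using this) j
  have h1 : (1 : ℝ) ≤ 8 / R := by
    rw [le_div_iff₀ hR]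
    linarith
  fin_cases i
  · cases m with
    | zero =>
      rw [Mc_zero]
      fin_cases j
      · simpa using h1
      · simp
        positivity
    | succ m =>
      have e : Mc k (m + 1) q 0 j = Mc k m q 1 j := by
        rw [Mc_succ']
        simp [cAm, Matrix.mul_apply, Fin.sum_univ_two]
      have h2 := hrow m (by omega) j
      show ‖Mc k (m + 1) q 0 j‖ ≤ 8 / R
      rw [e]
      exact h2
  · exact hrow m hm j

/-- adjugate formula for the transfer matrix -/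
theorem transfer_eq (k : ℝ) (a b : ℕ) (hab : a ≤ b) (q : ℂ × ℂ) :
    Mc k (b - a) (corb k a q) = Mc k b q * (Mc k a q).adjugate := by
  have h1 : Mc k b q = Mc k (b - a) (corb k a q) * Mc k a q := by
    rw [← Mc_add, Nat.sub_add_cancel hab]
  rw [h1, Matrix.mul_assoc, Matrix.mul_adjugate, det_Mc, one_smul, mul_one]

/-- all transfer matrices inside the window are `≤ 128/R²` on the half polydisc -/
theorem unst2.transfer_le {k : ℝ} {n : ℕ} {p : ℂ × ℂ} {R : ℝ} (h : unst2 k n p R) (hR : 0 < R)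
    (hR8 : R ≤ 8) {a b : ℕ} (hab : a ≤ b) (hb : b ≤ n) {q : ℂ × ℂ} (hq : ‖q - p‖ ≤ R / 2)
    (i j : Fin 2) : ‖Mc k (b - a) (corb k a q) i j‖ ≤ 128 / R ^ 2 := by
  rw [transfer_eq k a b hab]
  have hA : ∀ i j, ‖(Mc k a q).adjugate i j‖ ≤ 8 / R := by
    intro i j
    rw [Matrix.adjugate_fin_two]
    have h0 := fun i j => h.entry_le hR hR8 (hab.trans hb) hq i j
    fin_cases i <;> fin_cases j <;> simp [norm_neg, h0]
  have hB : ∀ i j, ‖Mc k b q i j‖ ≤ 8 / R := fun i j => h.entry_le hR hR8 hb hq i j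
  rw [Matrix.mul_apply, Fin.sum_univ_two]
  refine (norm_add_le _ _).trans ?_
  rw [norm_mul, norm_mul]
  have h8 : 0 ≤ 8 / R := by positivity
  have e1 := mul_le_mul (hB i 0) (hA 0 j) (norm_nonneg _) h8
  have e2 := mul_le_mul (hB i 1) (hA 1 j) (norm_nonneg _) h8
  have e3 : 8 / R * (8 / R) + 8 / R * (8 / R) = 128 / R ^ 2 := by
    field_simp
    norm_num
  linarith

/-- some entry of a unimodular matrix is at least `1/√2`: sum of the squares is `≥ 2` -/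
theorem sumsq_ge_of_det (M : Matrix (Fin 2) (Fin 2) ℂ) (h : M.det = 1) :
    2 ≤ ‖M 0 0‖ ^ 2 + ‖M 0 1‖ ^ 2 + ‖M 1 0‖ ^ 2 + ‖M 1 1‖ ^ 2 := by
  rw [Matrix.det_fin_two] at h
  have h1 : (1 : ℝ) ≤ ‖M 0 0‖ * ‖M 1 1‖ + ‖M 0 1‖ * ‖M 1 0‖ := by
    have : ‖(1 : ℂ)‖ ≤ ‖M 0 0 * M 1 1‖ + ‖M 0 1 * M 1 0‖ := by
      rw [← h]
      exact norm_sub_le _ _
    simpa [norm_mul] using this
  nlinarith [sq_nonneg (‖M 0 0‖ - ‖M 1 1‖), sq_nonneg (‖M 0 1‖ - ‖M 1 0‖)]

theorem transfer_sumsq_ge (k : ℝ) (n : ℕ) (q : ℂ × ℂ) :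
    2 ≤ ‖Mc k n q 0 0‖ ^ 2 + ‖Mc k n q 0 1‖ ^ 2 + ‖Mc k n q 1 0‖ ^ 2 + ‖Mc k n q 1 1‖ ^ 2 :=
  sumsq_ge_of_det _ (det_Mc k n q)

end Crest.Agent.R128.CellB
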