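import Mathlib
import Crest.Agent.R128.CellB
import Crest.Agent.R128.CellA2

/-!
# Dyadic cells (row 128, node CELL-DYADIC; helper425)

The point `p = (x_{-1}, x_0)` is complexified in both coordinates.  `unst2 k n p R` (CellB) says
that the orbit of the polydisc of centre `p` and radius `R` has imaginary part at most `1` up to
time `n`.  `nex k N p R` is the last such time (at most `N`).  For a dyadic interval
`I = Iv j a = [a 2^-j, (a+1) 2^-j)` of the `t`-axis (`x_{-1} = c` fixed, `x_0 = t`) the polydisc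
has centre the midpoint and radius `4 |I|`; right side `t`, left side `kap k c - t`.
-/

set_option autoImplicit false

open Metric Set MeasureTheory
open Crest.Agent.R128

namespace Crest.Agent.R128.CellDy

open Crest.Agent.R128.Cell Crest.Agent.R128.CellB

/-! ### exit times of polydiscs -/

open Classical in
/-- last time at most `N` up to which the polydisc is un-stretched -/
noncomputable def nex (k : ℝ) (N : ℕ) (p : ℂ × ℂ) (R : ℝ) : ℕ :=
  Nat.findGreatest (fun n => unst2 k n p R) N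

theorem nex_le (k : ℝ) (N : ℕ) (p : ℂ × ℂ) (R : ℝ) : nex k N p R ≤ N := by
  classical
  exact Nat.findGreatest_le N

theorem unst2_nex {k : ℝ} {N : ℕ} {p : ℂ × ℂ} {R : ℝ} (h0 : unst2 k 0 p R) :
    unst2 k (nex k N p R) p R := by
  classical
  exact Nat.findGreatest_spec (P := fun n => unst2 k n p R) (Nat.zero_le N) h0

theorem le_nex {k : ℝ} {N n : ℕ} {p : ℂ × ℂ} {R : ℝ} (hn : n ≤ N) (h : unst2 k n p R) :
    n ≤ nex k N p R := by
  classical
  exact Nat.le_findGreatest hn h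

theorem not_unst2_of_nex_lt {k : ℝ} {N n : ℕ} {p : ℂ × ℂ} {R : ℝ} (h : nex k N p R < n)
    (hn : n ≤ N) : ¬ unst2 k n p R := by
  classical
  exact Nat.findGreatest_is_greatest h hn

/-- At the exit time the polydisc is stretched. -/
theorem exists_exit {k : ℝ} {N : ℕ} {p : ℂ × ℂ} {R : ℝ} (h0 : unst2 k 0 p R)
    (h : nex k N p R < N) : ∃ q ∈ ball p R, 1 < |(X k (nex k N p R + 1) q).im| := by
  have h1 := not_unst2_of_nex_lt (Nat.lt_succ_self (nex k N p R)) h
  have h2 := unst2_nex (N := N) h0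
  by_contra hcon
  push Not at hcon
  refine h1 fun q hq => ⟨(h2 q hq).1, fun m hm => ?_⟩
  rcases Nat.lt_or_ge m (nex k N p R + 1) with hm' | hm'
  · exact (h2 q hq).2 m (Nat.lt_succ_iff.1 hm')
  · have : m = nex k N p R + 1 := le_antisymm hm hm'
    rw [this]
    exact hcon q hq

theorem nex_mono {k : ℝ} {N : ℕ} {p p' : ℂ × ℂ} {R R' : ℝ} (hs : ball p' R' ⊆ ball p R) :
    nex k N p R ≤ nex k N p' R' := by
  classical
  rcases Nat.eq_zero_or_pos (nex k N p R) with h | h
  · rw [h]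
    exact Nat.zero_le _
  · refine le_nex (nex_le k N p R) ?_
    have : unst2 k (nex k N p R) p R := Nat.findGreatest_of_ne_zero (P := fun n => unst2 k n p R)
      (n := N) rfl h.ne'
    exact this.sub hs

theorem nex_mono_N {k : ℝ} {N N' : ℕ} {p : ℂ × ℂ} {R : ℝ} (hN : N ≤ N') :
    nex k N p R ≤ nex k N' p R := by
  classical
  rcases Nat.eq_zero_or_pos (nex k N p R) with h | h
  · rw [h]
    exact Nat.zero_le _
  · refine le_nex ((nex_le k N p R).trans hN) ?_
    exact Nat.findGreatest_of_ne_zero (P := fun n => unst2 k n p R) (n := N) rfl h.ne'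

/-- At time `0` a polydisc of radius `≤ 1` centred at a real point is un-stretched. -/
theorem unst2_zero {k : ℝ} {p : ℂ × ℂ} {R : ℝ} (hp1 : p.1.im = 0) (hp : p.2.im = 0) (hR : R ≤ 1) :
    unst2 k 0 p R := by
  intro q hq
  have key : ∀ z w : ℂ, w.im = 0 → dist z w < R → |z.im| ≤ 1 := by
    intro z w hw hd
    have h2 : |(z - w).im| ≤ ‖z - w‖ := Complex.abs_im_le_norm _
    rw [Complex.sub_im, hw, sub_zero] at h2
    rw [dist_eq_norm] at hd
    linarith
  refine ⟨key _ _ hp1 (lt_of_le_of_lt (le_max_left _ (dist q.2 p.2)) hq), fun m hm => ?_⟩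
  have hm0 : m = 0 := Nat.le_zero.1 hm
  subst hm0
  rw [X_zero]
  exact key _ _ hp (lt_of_le_of_lt (le_max_right (dist q.1 p.1) (dist q.2 p.2)) hq)

/-- At a real centre `Im X_n = 0`. -/
theorem im_X_toC (k : ℝ) (n : ℕ) (p : ℝ × ℝ) : (X k n (toC p)).im = 0 := by
  rw [X_toC]
  exact Complex.ofReal_im _

/-- Exit inequality: if the real-centred polydisc is stretched at time `n` then the derivative of
`X_n` has norm `> 1/R` somewhere in it. -/
theorem exists_fderiv_gt {k : ℝ} {n : ℕ} {p : ℝ × ℝ} {R : ℝ} {q : ℂ × ℂ}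
    (hq : q ∈ ball (toC p) R) (him : 1 < |(X k n q).im|) :
    ∃ z ∈ ball (toC p) R, 1 / R < ‖fderiv ℂ (X k n) z‖ := by
  by_contra hcon
  push Not at hcon
  have hR : 0 < R := lt_of_le_of_lt dist_nonneg hq
  have h1 := (convex_ball (toC p) R).norm_image_sub_le_of_norm_fderiv_le (𝕜 := ℂ) (f := X k n)
    (C := 1 / R) (fun z _ => (differentiable_X k n) z) hcon (mem_ball_self hR) hq
  have h2 : |(X k n q - X k n (toC p)).im| ≤ ‖X k n q - X k n (toC p)‖ := Complex.abs_im_le_norm _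
  rw [Complex.sub_im, im_X_toC, sub_zero] at h2
  rw [mem_ball, dist_eq_norm] at hq
  have h3 : 1 / R * ‖q - toC p‖ < 1 := by
    rw [div_mul_eq_mul_div, one_mul, div_lt_one hR]
    exact hq
  linarith

/-! ### dyadic intervals -/

/-- length of a dyadic interval of level `j` -/
noncomputable def len (j : ℕ) : ℝ := (1 / 2 : ℝ) ^ j

theorem len_pos (j : ℕ) : 0 < len j := by unfold len; positivity

theorem len_succ (j : ℕ) : len (j + 1) = len j / 2 := by
  unfold len
  rw [pow_succ]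
  ring

theorem len_zero : len 0 = 1 := by simp [len]

theorem len_le_one (j : ℕ) : len j ≤ 1 := pow_le_one₀ (by norm_num) (by norm_num)

theorem len_anti {i j : ℕ} (h : i ≤ j) : len j ≤ len i :=
  pow_le_pow_of_le_one (by norm_num) (by norm_num) h

/-- the dyadic interval `[a 2^-j, (a+1) 2^-j)` -/
def Iv (j : ℕ) (a : ℤ) : Set ℝ := Ico ((a : ℝ) * len j) (((a : ℝ) + 1) * len j)

/-- midpoint -/
noncomputable def mid (j : ℕ) (a : ℤ) : ℝ := ((a : ℝ) + 1 / 2) * len j

/-- index of the dyadic interval of level `j` containing `t` -/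
noncomputable def idx (j : ℕ) (t : ℝ) : ℤ := ⌊t / len j⌋

theorem mem_Iv_iff {j : ℕ} {a : ℤ} {t : ℝ} : t ∈ Iv j a ↔ idx j t = a := by
  have h := len_pos j
  unfold Iv idx
  rw [mem_Ico, Int.floor_eq_iff, ← le_div_iff₀ h, ← div_lt_iff₀ h]

theorem mem_Iv_idx (j : ℕ) (t : ℝ) : t ∈ Iv j (idx j t) := mem_Iv_iff.2 rfl

theorem Iv_disjoint {j : ℕ} {a b : ℤ} (h : a ≠ b) : Disjoint (Iv j a) (Iv j b) := by
  rw [Set.disjoint_left]
  intro t h1 h2
  exact h ((mem_Iv_iff.1 h1).symm.trans (mem_Iv_iff.1 h2))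

theorem measurableSet_Iv (j : ℕ) (a : ℤ) : MeasurableSet (Iv j a) := measurableSet_Ico

theorem volume_Iv (j : ℕ) (a : ℤ) : volume (Iv j a) = ENNReal.ofReal (len j) := by
  unfold Iv
  rw [Real.volume_Ico]
  congr 1
  ring

theorem measureReal_Iv (j : ℕ) (a : ℤ) : volume.real (Iv j a) = len j := by
  rw [measureReal_def, volume_Iv, ENNReal.toReal_ofReal (len_pos j).le]

/-- parent index -/
theorem idx_succ_div (j : ℕ) (t : ℝ) : idx (j + 1) t / 2 = idx j t := by
  have h := len_pos j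
  unfold idx
  rw [len_succ]
  have e : t / (len j / 2) = t / len j * 2 := by field_simp
  rw [e]
  have h1 := Int.floor_le (t / len j)
  have h2 := Int.lt_floor_add_one (t / len j)
  set m := ⌊t / len j⌋ with hm
  have h3 : 2 * m ≤ ⌊t / len j * 2⌋ := by
    rw [Int.le_floor]
    push_cast
    linarith
  have h4 : ⌊t / len j * 2⌋ < 2 * m + 2 := by
    rw [Int.floor_lt]
    push_cast
    linarith
  omega

theorem Iv_succ_subset (j : ℕ) (a : ℤ) : Iv (j + 1) a ⊆ Iv j (a / 2) := by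
  intro t ht
  rw [mem_Iv_iff] at ht ⊢
  rw [← ht, idx_succ_div]

theorem Iv_split (j : ℕ) (a : ℤ) : Iv j a = Iv (j + 1) (2 * a) ∪ Iv (j + 1) (2 * a + 1) := by
  ext t
  rw [mem_union, mem_Iv_iff, mem_Iv_iff, mem_Iv_iff, ← idx_succ_div]
  omega

theorem abs_sub_mid_le {j : ℕ} {a : ℤ} {t : ℝ} (ht : t ∈ Iv j a) : |t - mid j a| ≤ len j / 2 := by
  obtain ⟨h1, h2⟩ := ht
  unfold mid
  rw [abs_le]
  constructor <;> nlinarith

theorem abs_mid_sub_mid (j : ℕ) (a : ℤ) : |mid (j + 1) a - mid j (a / 2)| = len j / 4 := by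
  unfold mid
  rw [len_succ]
  have h := len_pos j
  rcases Int.emod_two_eq_zero_or_one a with h0 | h0
  · have e : (a : ℝ) = 2 * ((a / 2 : ℤ) : ℝ) := by
      have : a = 2 * (a / 2) := by omega
      exact_mod_cast this
    rw [e, show (2 * ((a / 2 : ℤ) : ℝ) + 1 / 2) * (len j / 2) - (((a / 2 : ℤ) : ℝ) + 1 / 2) * len j =
      -(len j / 4) by ring, abs_neg, abs_of_pos (by positivity)]
  · have e : (a : ℝ) = 2 * ((a / 2 : ℤ) : ℝ) + 1 := by
      have : a = 2 * (a / 2) + 1 := by omega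
      exact_mod_cast this
    rw [e, show (2 * ((a / 2 : ℤ) : ℝ) + 1 + 1 / 2) * (len j / 2) -
      (((a / 2 : ℤ) : ℝ) + 1 / 2) * len j = len j / 4 by ring, abs_of_pos (by positivity)]

/-! ### the two sides -/

/-- `x_{T-1} + x_{T+1}` as a function of `x_T = c` -/
noncomputable def kap (k c : ℝ) : ℝ := 2 * c + k * Real.sin (2 * Real.pi * c)

/-- side `true`: future (`x_{T+1} = t`); side `false`: past (`x_{T-1} = kap k c - t`) -/
noncomputable def sd (k c : ℝ) (s : Bool) (t : ℝ) : ℝ := if s then t else kap k c - t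

theorem abs_sd_sub (k c : ℝ) (s : Bool) (t u : ℝ) : |sd k c s t - sd k c s u| = |t - u| := by
  cases s
  · unfold sd
    simp only [Bool.false_eq_true, if_false]
    rw [show kap k c - t - (kap k c - u) = -(t - u) by ring, abs_neg]
  · simp [sd]

/-- centre of the polydisc of the dyadic interval -/
noncomputable def ctr (k c : ℝ) (s : Bool) (j : ℕ) (a : ℤ) : ℂ × ℂ := toC (c, sd k c s (mid j a))

/-- exit time of side `s` on the dyadic interval `Iv j a` -/
noncomputable def nx (k c : ℝ) (N : ℕ) (s : Bool) (j : ℕ) (a : ℤ) : ℕ :=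
  nex k N (ctr k c s j a) (4 * len j)

theorem norm_toC_sub (c t u : ℝ) : ‖toC (c, t) - toC (c, u)‖ = |t - u| := by
  have : toC (c, t) - toC (c, u) = ((0 : ℂ), ((t - u : ℝ) : ℂ)) := by
    unfold toC
    ext <;> simp
  rw [this, Prod.norm_def, norm_zero, max_eq_right (norm_nonneg _), Complex.norm_real,
    Real.norm_eq_abs]

theorem ball_ctr_subset (k c : ℝ) (s : Bool) (j : ℕ) (a : ℤ) :
    ball (ctr k c s (j + 1) a) (4 * len (j + 1)) ⊆ ball (ctr k c s j (a / 2)) (4 * len j) := by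
  refine ball_subset_ball' ?_
  rw [dist_eq_norm]
  unfold ctr
  rw [norm_toC_sub, abs_sd_sub, abs_mid_sub_mid, len_succ]
  have := len_pos j
  linarith

theorem nx_le (k c : ℝ) (N : ℕ) (s : Bool) (j : ℕ) (a : ℤ) : nx k c N s j a ≤ N := nex_le _ _ _ _

/-- exit times increase when the interval shrinks -/
theorem nx_mono (k c : ℝ) (N : ℕ) (s : Bool) (j : ℕ) (a : ℤ) :
    nx k c N s j (a / 2) ≤ nx k c N s (j + 1) a := nex_mono (ball_ctr_subset k c s j a)

theorem nx_idx_mono (k c : ℝ) (N : ℕ) (s : Bool) {i j : ℕ} (h : i ≤ j) (t : ℝ) :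
    nx k c N s i (idx i t) ≤ nx k c N s j (idx j t) := by
  induction j, h using Nat.le_induction with
  | base => exact le_rfl
  | succ j _ ih =>
    refine ih.trans ?_
    rw [← idx_succ_div]
    exact nx_mono k c N s j _

/-- `4 |I| ≤ 1` for `j ≥ 2` -/
theorem four_len_le {j : ℕ} (hj : 2 ≤ j) : 4 * len j ≤ 1 := by
  have := len_anti hj
  have e : len 2 = 1 / 4 := by norm_num [len]
  linarith

theorem unst2_nx {k c : ℝ} {N : ℕ} {s : Bool} {j : ℕ} {a : ℤ} (hj : 2 ≤ j) :
    unst2 k (nx k c N s j a) (ctr k c s j a) (4 * len j) :=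
  unst2_nex (unst2_zero (Complex.ofReal_im _) (Complex.ofReal_im _) (four_len_le hj))

theorem nx_exit {k c : ℝ} {N : ℕ} {s : Bool} {j : ℕ} {a : ℤ} (hj : 2 ≤ j)
    (h : nx k c N s j a < N) :
    ∃ z ∈ ball (ctr k c s j a) (4 * len j),
      1 / (4 * len j) < ‖fderiv ℂ (X k (nx k c N s j a + 1)) z‖ := by
  obtain ⟨q, hq, him⟩ := exists_exit
    (unst2_zero (k := k) (p := ctr k c s j a) (Complex.ofReal_im _) (Complex.ofReal_im _)
      (four_len_le hj)) h
  exact exists_fderiv_gt hq him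

/-- points of the interval lie deep inside the polydisc -/
theorem norm_sub_ctr_le {k c : ℝ} {s : Bool} {j : ℕ} {a : ℤ} {t : ℝ} (ht : t ∈ Iv j a) :
    ‖toC (c, sd k c s t) - ctr k c s j a‖ ≤ len j / 2 := by
  unfold ctr
  rw [norm_toC_sub, abs_sd_sub]
  exact abs_sub_mid_le ht

/-- complex disc of radius `3|I|/2` around a point of the interval: inside the half polydisc -/
theorem norm_sub_ctr_le' {k c : ℝ} {s : Bool} {j : ℕ} {a : ℤ} {t : ℝ} (ht : t ∈ Iv j a)
    {q : ℂ × ℂ} (hq : ‖q - toC (c, sd k c s t)‖ ≤ 3 / 2 * len j) :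
    ‖q - ctr k c s j a‖ ≤ (4 * len j) / 2 := by
  have h1 := norm_sub_ctr_le (k := k) (c := c) (s := s) ht
  have h2 := norm_sub_le_norm_sub_add_norm_sub q (toC (c, sd k c s t)) (ctr k c s j a)
  linarith

/-- **entries** up to the exit time: `≤ 2/|I|` on the disc of radius `3|I|/2` about each point -/
theorem entry_le {k c : ℝ} {N : ℕ} {s : Bool} {j : ℕ} {a : ℤ} (hj : 2 ≤ j) {t : ℝ}
    (ht : t ∈ Iv j a) {q : ℂ × ℂ} (hq : ‖q - toC (c, sd k c s t)‖ ≤ 3 / 2 * len j) {m : ℕ}
    (hm : m ≤ nx k c N s j a) (i i' : Fin 2) : ‖Mc k m q i i'‖ ≤ 2 / len j := by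
  have hl := len_pos j
  have h := (unst2_nx (k := k) (c := c) (N := N) (s := s) (a := a) hj).entry_le
    (by positivity) (by linarith [four_len_le hj]) hm (norm_sub_ctr_le' ht hq) i i'
  refine h.trans (le_of_eq ?_)
  field_simp
  norm_num

/-- **transfer matrices** up to the exit time: entries `≤ 8/|I|²` -/
theorem transfer_le {k c : ℝ} {N : ℕ} {s : Bool} {j : ℕ} {a : ℤ} (hj : 2 ≤ j) {t : ℝ}
    (ht : t ∈ Iv j a) {q : ℂ × ℂ} (hq : ‖q - toC (c, sd k c s t)‖ ≤ 3 / 2 * len j) {m n : ℕ}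
    (hmn : m ≤ n) (hn : n ≤ nx k c N s j a) (i i' : Fin 2) :
    ‖Mc k (n - m) (corb k m q) i i'‖ ≤ 8 / len j ^ 2 := by
  have hl := len_pos j
  have h := (unst2_nx (k := k) (c := c) (N := N) (s := s) (a := a) hj).transfer_le
    (by positivity) (by linarith [four_len_le hj]) hmn hn (norm_sub_ctr_le' ht hq) i i'
  refine h.trans (le_of_eq ?_)
  field_simp
  norm_num

end Crest.Agent.R128.CellDy
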