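import Crest.Agent.R128.CellB
import Crest.Agent.R128.CellDy
import Crest.Agent.R128.AlignLam

/-!
# Row 128, node V5-LOC: common definitions (helper548)

`c = x_0` fixed, `t = x_1` (`s = true`, forward side) resp. `x_{-1} = kap k c - t`
(`s = false`, backward side).  Everything is written on the complexified orbit of `CellB`.
-/

set_option autoImplicit false

open Metric MeasureTheory
open Crest.Agent.R128 Crest.Agent.R128.Cell Crest.Agent.R128.CellB Crest.Agent.R128.CellDy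

namespace Crest.Agent.R128.Loc

/-- starting point of the side `s` -/
noncomputable def sdC (k c : ℝ) (s : Bool) (z : ℂ) : ℂ := if s then z else (kap k c : ℂ) - z

/-- orbit coordinate number `n` of the side `s` -/
noncomputable def Y (k c : ℝ) (s : Bool) (n : ℕ) (z : ℂ) : ℂ := y k c n (sdC k c s z)

/-- its derivative with respect to the starting coordinate of the side (`= ± d/dt`) -/
noncomputable def D (k c : ℝ) (s : Bool) (n : ℕ) (z : ℂ) : ℂ := yd k c n (sdC k c s z)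

/-- digits of the side -/
noncomputable def dg (k c : ℝ) (s : Bool) (z : ℂ) (n : ℕ) : ℂ := cV k (Y k c s n z)

/-- the slope `-P_n/Q_n` of the side -/
noncomputable def mu (k c : ℝ) (s : Bool) (n : ℕ) (z : ℂ) : ℂ := Align.mu (dg k c s z) n

/-- the content cut at the times `n` (side `s`) and `n'` (other side) -/
noncomputable def cont (k c : ℝ) (s : Bool) (n n' : ℕ) (z : ℂ) : ℂ :=
  cV k c - mu k c s n z - mu k c (!s) n' z

theorem Q_dg (k c : ℝ) (s : Bool) (z : ℂ) (n : ℕ) : Align.Q (dg k c s z) n = D k c s n z := by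
  induction n using Nat.strong_induction_on with
  | _ n ih =>
    match n with
    | 0 => simp [D]
    | 1 => simp [D]
    | n + 2 =>
      rw [Align.Q_add_two, ih (n + 1) (by omega), ih n (by omega)]
      unfold D dg Y
      rw [yd_add_two]

theorem hasDerivAt_Y_true (k c : ℝ) (n : ℕ) (z : ℂ) :
    HasDerivAt (Y k c true n) (D k c true n z) z := by
  unfold Y D sdC
  simpa using hasDerivAt_y k c n z

theorem hasDerivAt_Y_false (k c : ℝ) (n : ℕ) (z : ℂ) :
    HasDerivAt (Y k c false n) (-(D k c false n z)) z := by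
  have h : HasDerivAt (fun w : ℂ => (kap k c : ℂ) - w) (-1) z := by
    simpa using (hasDerivAt_id z).const_sub (kap k c : ℂ)
  have h2 := (hasDerivAt_y k c n ((kap k c : ℂ) - z)).comp z h
  have e : (fun w => Y k c false n w) = (y k c n) ∘ (fun w : ℂ => (kap k c : ℂ) - w) := by
    funext w; simp [Y, sdC]
  change HasDerivAt (fun w => Y k c false n w) _ z
  rw [e]
  simpa [D, sdC] using h2

/-- the cell of the slower side (4 laps, complex radius 4): centre `m`, slope `R` of the exit digit number `n+1` of the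
side `s`; the exit digit number `n'+1` of the other side has slope `lam * R`; the old content (cut
at the two exits) is a real quadratic polynomial up to `1/16` in the units `1/(2 pi k R^2)`, on the
complex disc. -/
structure Cell3 (k c : ℝ) (s : Bool) (n n' : ℕ) (m R lam C1 q0 q1 q2 : ℝ) : Prop where
  hR : 1 ≤ R
  hlam : 1 ≤ |lam|
  slow : ∃ σ : ℝ, (σ = 1 ∨ σ = -1) ∧
    ∀ z ∈ ball (m : ℂ) (4 / R), ‖D k c s (n + 1) z - (σ * R : ℝ)‖ ≤ C1 * R / k
  slow0 : ∀ z ∈ ball (m : ℂ) (4 / R), ‖D k c s n z‖ ≤ C1 * R / k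
  fast : ∀ z ∈ ball (m : ℂ) (4 / R),
    ‖D k c (!s) (n' + 1) z - (lam * R : ℝ)‖ ≤ C1 * |lam| ^ 2 * R / k
  fast0 : ∀ z ∈ ball (m : ℂ) (4 / R), ‖D k c (!s) n' z‖ ≤ C1 * |lam| * R / k
  quad : ∀ z ∈ ball (m : ℂ) (4 / R),
    ‖(2 * Real.pi * k * R ^ 2 : ℝ) * cont k c s (n + 1) (n' + 1) z -
      (q0 + q1 * ((R : ℂ) * (z - m)) + q2 * ((R : ℂ) * (z - m)) ^ 2)‖ ≤ 1 / 16

/-- the point `t` is aligned at the next two levels, with regular digits -/
structure Good3 (k c : ℝ) (s : Bool) (n n' : ℕ) (R t : ℝ) : Prop where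
  reg : ∀ i < 3, k ^ (2 / 3 : ℝ) ≤ ‖dg k c s t (n + 1 + i)‖
  reg' : ∀ i < 3, k ^ (2 / 3 : ℝ) ≤ ‖dg k c (!s) t (n' + 1 + i)‖
  al1 : (2 * Real.pi * k * R ^ 2) * ‖cont k c s (n + 2) (n' + 2) t‖ ≤ 1 / 8
  al2 : (2 * Real.pi * k * (min ‖D k c s (n + 2) t‖ ‖D k c (!s) (n' + 2) t‖) ^ 2) *
    ‖cont k c s (n + 3) (n' + 3) t‖ ≤ 1 / 8

/-- **RA** (abstract core: `RoughAsm`): one of the next two levels is misaligned on a positive
fraction of the cell. -/
def RA : Prop :=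
  ∀ C1 : ℝ, ∃ c0 : ℝ, 0 < c0 ∧ ∃ k1 : ℝ, ∀ k : ℝ, k1 ≤ k →
    ∀ (c : ℝ) (s : Bool) (n n' : ℕ) (m R lam q0 q1 q2 : ℝ),
      |lam| ≤ C1 * Real.sqrt k → Cell3 k c s n n' m R lam C1 q0 q1 q2 →
      ENNReal.ofReal (c0 / R) ≤ volume {t : ℝ | |t - m| ≤ 2 / R ∧
        (1 / 4 < (2 * Real.pi * k * R ^ 2) * ‖cont k c s (n + 2) (n' + 2) t‖ ∨
         1 / 4 < (2 * Real.pi * k * (min ‖D k c s (n + 2) t‖ ‖D k c (!s) (n' + 2) t‖) ^ 2) *
            ‖cont k c s (n + 3) (n' + 3) t‖)}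

/-- **LocB** (owner 548, from `RA`): a positive fraction of the cell is far from all good
points. -/
def LocB : Prop :=
  ∀ C1 : ℝ, ∃ c0 : ℝ, 0 < c0 ∧ ∃ k1 : ℝ, ∀ k : ℝ, k1 ≤ k →
    ∀ (c : ℝ) (s : Bool) (n n' : ℕ) (m R lam q0 q1 q2 : ℝ),
      |lam| ≤ C1 * Real.sqrt k → Cell3 k c s n n' m R lam C1 q0 q1 q2 →
      ENNReal.ofReal (c0 / R) ≤ volume {t : ℝ | |t - m| ≤ 2 / R ∧
        ∀ u : ℝ, |u - t| ≤ 1 / (k ^ 6 * R) → ¬ Good3 k c s n n' R u}

end Crest.Agent.R128.Loc
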