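import Crest.Agent.R128.LocA1
import Crest.Agent.R128.LocDef

/-!
# LocA, the cell of the slower side (row 128, helper595)
-/

set_option autoImplicit false

open MeasureTheory Metric Set
open Crest.Agent.R128 Crest.Agent.R128.Cell Crest.Agent.R128.CellB

namespace Crest.Agent.R128.LocA

/-- derivative with the sign of the side -/
noncomputable def Ds (k c : ℝ) (s : Bool) (n : ℕ) (z : ℂ) : ℂ :=
  if s then Loc.D k c s n z else -(Loc.D k c s n z)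

theorem norm_Ds (k c : ℝ) (s : Bool) (n : ℕ) (z : ℂ) : ‖Ds k c s n z‖ = ‖Loc.D k c s n z‖ := by
  unfold Ds
  cases s <;> simp

theorem norm_Ds_sub (k c : ℝ) (s : Bool) (n : ℕ) (z w : ℂ) :
    ‖Ds k c s n z - Ds k c s n w‖ = ‖Loc.D k c s n z - Loc.D k c s n w‖ := by
  unfold Ds
  cases s with
  | true => simp
  | false =>
    simp only [Bool.false_eq_true, if_false]
    rw [← norm_neg]
    congr 1
    ring

theorem sdC_ofReal (k c : ℝ) (s : Bool) (x : ℝ) :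
    ∃ u : ℝ, Loc.sdC k c s (x : ℂ) = (u : ℂ) := by
  unfold Loc.sdC
  cases s with
  | true => exact ⟨x, by simp⟩
  | false => exact ⟨CellDy.kap k c - x, by simp⟩

theorem im_Y (k c : ℝ) (s : Bool) (n : ℕ) (x : ℝ) : (Loc.Y k c s n (x : ℂ)).im = 0 := by
  unfold Loc.Y
  obtain ⟨u, hu⟩ := sdC_ofReal k c s x
  rw [hu]
  exact im_y_ofReal k c n u

theorem im_D (k c : ℝ) (s : Bool) (n : ℕ) (x : ℝ) : (Loc.D k c s n (x : ℂ)).im = 0 := by
  unfold Loc.D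
  obtain ⟨u, hu⟩ := sdC_ofReal k c s x
  rw [hu, yd_ofReal]
  simp

theorem D_add_two (k c : ℝ) (s : Bool) (n : ℕ) (z : ℂ) :
    Loc.D k c s (n + 2) z = cV k (Loc.Y k c s (n + 1) z) * Loc.D k c s (n + 1) z - Loc.D k c s n z := by
  unfold Loc.D Loc.Y
  rw [yd_add_two]

theorem co_loc (k c : ℝ) (s : Bool) (S : Set ℂ) : CO k S (Loc.Y k c s) (Ds k c s) := by
  refine ⟨fun n t _ => ?_, fun n t _ => ?_, fun n x => im_Y k c s n x, fun n x => ?_⟩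
  · cases s with
    | true => simpa [Ds] using Loc.hasDerivAt_Y_true k c n t
    | false => simpa [Ds] using Loc.hasDerivAt_Y_false k c n t
  · unfold Ds
    rw [D_add_two]
    cases s with
    | true => simp
    | false => simp only [Bool.false_eq_true, if_false]; ring
  · unfold Ds
    cases s with
    | true => simpa using im_D k c true n x
    | false => simpa using im_D k c false n x

/-- Schwarz lemma for the derivative of a nearly affine curve -/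
theorem schwarz_D {k : ℝ} {Y D : ℕ → ℂ → ℂ} {n : ℕ} {t₁ r η : ℝ}
    (co : CO k (ball (t₁ : ℂ) r) Y D) (h : NA Y D n t₁ r η) {t : ℂ} (ht : t ∈ ball (t₁ : ℂ) r) :
    ‖D (n + 1) t - D (n + 1) t₁‖ ≤ η * ‖D (n + 1) t₁‖ / r * ‖t - t₁‖ := by
  have hY : DifferentiableOn ℂ (Y (n + 1)) (ball (t₁ : ℂ) r) := fun x hx =>
    (co.deriv (n + 1) x hx).differentiableAt.differentiableWithinAt
  have hD : DifferentiableOn ℂ (D (n + 1)) (ball (t₁ : ℂ) r) := by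
    refine (hY.deriv isOpen_ball).congr (fun x hx => ?_)
    exact (co.deriv (n + 1) x hx).deriv.symm
  have hm : MapsTo (D (n + 1)) (ball (t₁ : ℂ) r)
      (closedBall (D (n + 1) t₁) (η * ‖D (n + 1) t₁‖)) := by
    intro x hx
    rw [mem_closedBall, dist_eq_norm]
    exact h.close x hx
  have := Complex.dist_le_div_mul_dist_of_mapsTo_ball hD hm ht
  rwa [dist_eq_norm, dist_eq_norm] at this

/-- one side is good at the real point `t₁`: regular digits `≥ A` up to the exit digit (index `jS`),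
five macroscopic digits after it -/
structure SideOK (k c : ℝ) (s : Bool) (n0 jS : ℕ) (r0 ρ δ A t₁ : ℝ) : Prop where
  start : Start k (Loc.Y k c s) (Ds k c s) n0 t₁ r0 (1 / 1000) A (jS + 6)
  mac : ∀ i, 1 ≤ i → i ≤ 5 → k / 10 ^ 4 ≤ vv k (Loc.Y k c s) (n0 + 1 + (jS + i)) t₁
  lo : δ / 2 ≤ ‖Ds k c s (n0 + 1 + jS) t₁‖ * ρ
  hi : ‖Ds k c s (n0 + 1 + jS) t₁‖ * ρ ≤ 20 * k * δ
  old : 10 ^ 9 * k * (‖Ds k c s (n0 + 1) t₁‖ * ρ) ≤ (‖Ds k c s (n0 + 1) t₁‖ * r0) ^ 3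
  len : jS + 6 ≤ 100

/-- numerical relations -/
structure NumB (k A δ ρ : ℝ) : Prop where
  k_large : 10 ^ 130 ≤ k
  A5 : 10 ^ 60 * k ^ 2 * Real.sqrt k ≤ A ^ 5
  A2 : 10 ^ 40 * k ≤ A ^ 2
  A_le : A ≤ k / 10 ^ 4
  A_pos : 10 ^ 60 ≤ A
  δ_pos : 0 < δ
  δ_le : δ ≤ 1
  Aδ : 1 ≤ A * δ
  ρ_pos : 0 < ρ

variable {k c : ℝ} {s : Bool} {n0 jS : ℕ} {r0 ρ δ A t₁ : ℝ}

theorem SideOK.chain' (N : NumB k A δ ρ) (S : SideOK k c s n0 jS r0 ρ δ A t₁) :
    (∀ j ≤ jS + 6, NA (Loc.Y k c s) (Ds k c s) (n0 + j) t₁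
        (rad k (Loc.Y k c s) (Ds k c s) n0 r0 t₁ j) (1 / 100) ∧
      0 < ‖Ds k c s (n0 + 1 + j) t₁‖ ∧ 0 < rad k (Loc.Y k c s) (Ds k c s) n0 r0 t₁ j) ∧
    (∀ j < jS + 6, rad k (Loc.Y k c s) (Ds k c s) n0 r0 t₁ (j + 1) ≤
        rad k (Loc.Y k c s) (Ds k c s) n0 r0 t₁ j ∧
      (vv k (Loc.Y k c s) (n0 + 1 + j) t₁ - 1) * ‖Ds k c s (n0 + 1 + j) t₁‖ ≤
        ‖Ds k c s (n0 + 1 + (j + 1)) t₁‖ ∧
      ‖Ds k c s (n0 + 1 + (j + 1)) t₁‖ ≤
        (vv k (Loc.Y k c s) (n0 + 1 + j) t₁ + 1) * ‖Ds k c s (n0 + 1 + j) t₁‖ ∧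
      ∀ t ∈ ball (t₁ : ℂ) (rad k (Loc.Y k c s) (Ds k c s) n0 r0 t₁ (j + 1)),
        ‖Ds k c s (n0 + 1 + j) t‖ ≤
          2 / vv k (Loc.Y k c s) (n0 + 1 + j) t₁ * ‖Ds k c s (n0 + 1 + (j + 1)) t₁‖) := by
  have hk := N.k_large
  exact chain (by linarith) (by linarith [N.A2]) (by linarith [N.A_pos]) S.len S.start

/-- lower bound of the radius at a macroscopic exit -/
theorem SideOK.rad_ge (N : NumB k A δ ρ) (S : SideOK k c s n0 jS r0 ρ δ A t₁) {i : ℕ} (hi2 : 2 ≤ i)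
    (hi6 : i ≤ 6) (hb : 1 ≤ ‖Ds k c s (n0 + 1 + (jS + i)) t₁‖ * ρ) :
    k / (10 ^ 19 * ‖Ds k c s (n0 + 1 + (jS + i)) t₁‖) ≤
      rad k (Loc.Y k c s) (Ds k c s) n0 r0 t₁ (jS + i) := by
  obtain ⟨c1, c2⟩ := S.chain' N
  obtain ⟨j, rfl⟩ : ∃ j, i = j + 1 := ⟨i - 1, by omega⟩
  have hk := N.k_large
  have hk0 : 0 < k := by linarith
  have hρ := N.ρ_pos
  set b := ‖Ds k c s (n0 + 1 + (jS + (j + 1))) t₁‖ with hbd
  have hb0 : 0 < b := (c1 (jS + (j + 1)) (by omega)).2.1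
  have hd0 : 0 < ‖Ds k c s (n0 + 1) t₁‖ := by
    have := (c1 0 (by omega)).2.1
    simpa using this
  have hr0 := S.start.pos
  -- `r0` is large
  have h1 : k / (10 ^ 19 * b) ≤ r0 := by
    have hsm := S.start.small
    have hdr : ‖Ds k c s (n0 + 1) t₁‖ * r0 ≤ 1 := by
      have hAk := N.A_le
      have h2 : 10 ^ 10 * k * (‖Ds k c s (n0 + 1) t₁‖ * r0) ≤ k := by
        have : k / 10 ^ 4 ≤ k := div_le_self hk0.le (by norm_num)
        linarith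
      have h3 : k * (10 ^ 10 * (‖Ds k c s (n0 + 1) t₁‖ * r0)) ≤ k * 1 := by linarith
      have h4 := le_of_mul_le_mul_left h3 hk0
      have h5 : 0 ≤ ‖Ds k c s (n0 + 1) t₁‖ * r0 := by positivity
      linarith
    have hdr0 : 0 < ‖Ds k c s (n0 + 1) t₁‖ * r0 := by positivity
    have h2 : (‖Ds k c s (n0 + 1) t₁‖ * r0) ^ 3 ≤ ‖Ds k c s (n0 + 1) t₁‖ * r0 := by
      calc (‖Ds k c s (n0 + 1) t₁‖ * r0) ^ 3
          = (‖Ds k c s (n0 + 1) t₁‖ * r0) ^ 2 * (‖Ds k c s (n0 + 1) t₁‖ * r0) := by ring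
        _ ≤ 1 ^ 2 * (‖Ds k c s (n0 + 1) t₁‖ * r0) := by gcongr
        _ = _ := by ring
    have h3 := S.old.trans h2
    have h4 : ‖Ds k c s (n0 + 1) t₁‖ * (10 ^ 9 * k * ρ) ≤ ‖Ds k c s (n0 + 1) t₁‖ * r0 := by
      linarith
    have h5 := le_of_mul_le_mul_left h4 hd0
    refine le_trans ?_ h5
    rw [div_le_iff₀ (by positivity)]
    have h6 : k * 1 ≤ k * (b * ρ) := by gcongr
    nlinarith [mul_pos hk0 (mul_pos hb0 hρ)]
  -- the second branch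
  have hv := S.mac j (by omega) (by omega)
  set v := vv k (Loc.Y k c s) (n0 + 1 + (jS + j)) t₁ with hvd
  have hv0 : 0 < v := lt_of_lt_of_le (by positivity) hv
  have hg := (c2 (jS + j) (by omega)).2.1
  set d := ‖Ds k c s (n0 + 1 + (jS + j)) t₁‖ with hdd
  have hd : 0 < d := (c1 (jS + j) (by omega)).2.1
  have e1 : n0 + 1 + (jS + j + 1) = n0 + 1 + (jS + (j + 1)) := by omega
  rw [e1, ← hbd, ← hvd] at hg
  have hv2 : v / 2 * d ≤ b := by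
    refine le_trans ?_ hg
    gcongr
    have : 2 ≤ v := by
      have : 10 ^ 130 / 10 ^ 4 ≤ k / 10 ^ 4 := by gcongr
      norm_num at this ⊢
      linarith
    linarith
  have e2 : jS + (j + 1) = (jS + j) + 1 := by omega
  rw [e2]
  simp only [rad]
  refine le_min h1 ?_
  rw [← hvd, ← hdd, div_le_div_iff₀ (by positivity) (by positivity)]
  have h7 : k / 10 ^ 4 * (k / 10 ^ 4) ≤ v * v := by gcongr
  have h8 : v / 2 * (v * d) ≤ v * b := by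
    calc v / 2 * (v * d) = v * (v / 2 * d) := by ring
      _ ≤ v * b := by gcongr
  have h9 : k / 10 ^ 4 * (k / 10 ^ 4) * d ≤ v * v * d := by gcongr
  nlinarith

theorem SideOK.exit (N : NumB k A δ ρ) (S : SideOK k c s n0 jS r0 ρ δ A t₁) {i : ℕ} (hi2 : 2 ≤ i)
    (hi6 : i ≤ 6) (hb : 1 ≤ ‖Ds k c s (n0 + 1 + (jS + i)) t₁‖ * ρ) {t : ℂ}
    (ht : ‖t - t₁‖ < k / (10 ^ 19 * ‖Ds k c s (n0 + 1 + (jS + i)) t₁‖)) :
    ‖Ds k c s (n0 + 1 + (jS + i)) t - Ds k c s (n0 + 1 + (jS + i)) t₁‖ ≤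
      10 ^ 17 * ‖Ds k c s (n0 + 1 + (jS + i)) t₁‖ ^ 2 / k * ‖t - t₁‖ ∧
    ‖Ds k c s (n0 + (jS + i)) t‖ ≤ 10 ^ 5 * ‖Ds k c s (n0 + 1 + (jS + i)) t₁‖ / k := by
  have hrad := S.rad_ge N hi2 hi6 hb
  obtain ⟨c1, c2⟩ := S.chain' N
  have hk := N.k_large
  have hk0 : 0 < k := by linarith
  obtain ⟨hNA, hb0, -⟩ := c1 (jS + i) (by omega)
  set b := ‖Ds k c s (n0 + 1 + (jS + i)) t₁‖ with hbd
  have hNA' := hNA.mono hrad
  have e : n0 + (jS + i) + 1 = n0 + 1 + (jS + i) := by omega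
  constructor
  · have h1 := schwarz_D (co_loc k c s _) hNA' (t := t) (by rw [mem_ball, dist_eq_norm]; exact ht)
    rw [e, ← hbd] at h1
    refine h1.trans (le_of_eq ?_)
    field_simp
    norm_num
  · obtain ⟨j, rfl⟩ : ∃ j, i = j + 1 := ⟨i - 1, by omega⟩
    have h2 := (c2 (jS + j) (by omega)).2.2.2 t (by
      rw [mem_ball, dist_eq_norm]
      exact lt_of_lt_of_le ht hrad)
    have e1 : n0 + 1 + (jS + j + 1) = n0 + 1 + (jS + (j + 1)) := by omega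
    have e2 : n0 + (jS + (j + 1)) = n0 + 1 + (jS + j) := by omega
    rw [e1, ← hbd] at h2
    rw [e2]
    refine h2.trans ?_
    have hv := S.mac j (by omega) (by omega)
    have hv0 : 0 < k / 10 ^ 4 := by positivity
    calc 2 / vv k (Loc.Y k c s) (n0 + 1 + (jS + j)) t₁ * b ≤ 2 / (k / 10 ^ 4) * b := by gcongr
      _ = 2 * 10 ^ 4 * b / k := by field_simp
      _ ≤ 10 ^ 5 * b / k := by gcongr; norm_num

end Crest.Agent.R128.LocA
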