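import Mathlib
import Crest.Agent.R128.LocDef

set_option autoImplicit false

open Metric Set
open Crest.Agent.R128 Crest.Agent.R128.Cell Crest.Agent.R128.CellB Crest.Agent.R128.CellDy
open Crest.Agent.R128.Loc

/-!
Row 128, node NICE POINTS (helper223), part 1: discs on which the exit derivative of a side is nearly
constant (`UD`), and one step through a digit of size `V`.
-/

namespace Crest.Agent.R128.NicePts

theorem D_add_two (k c : ℝ) (s : Bool) (n : ℕ) (z : ℂ) :
    D k c s (n + 2) z = dg k c s z (n + 1) * D k c s (n + 1) z - D k c s n z := by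
  unfold D dg Y
  rw [yd_add_two]

theorem differentiable_cV (k : ℝ) : Differentiable ℂ (cV k) :=
  fun z => (hasDerivAt_cV k z).differentiableAt

theorem differentiable_yd (k : ℝ) (c : ℂ) (n : ℕ) : Differentiable ℂ (yd k c n) := by
  induction n using Nat.strong_induction_on with
  | _ n ih =>
    match n with
    | 0 => exact differentiable_const _
    | 1 => exact differentiable_const _
    | n + 2 =>
      have h1 := ((differentiable_cV k).comp (differentiable_y k c (n + 1))).mul (ih (n + 1) (by omega))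
      exact h1.sub (ih n (by omega))

theorem differentiable_sdC (k c : ℝ) (s : Bool) : Differentiable ℂ (sdC k c s) := by
  cases s
  · have : sdC k c false = fun z : ℂ => (kap k c : ℂ) - z := by funext z; simp [sdC]
    rw [this]
    exact (differentiable_const _).sub differentiable_id
  · have : sdC k c true = fun z : ℂ => z := by funext z; simp [sdC]
    rw [this]
    exact differentiable_id

theorem differentiable_D (k c : ℝ) (s : Bool) (n : ℕ) : Differentiable ℂ (D k c s n) :=
  (differentiable_yd k c n).comp (differentiable_sdC k c s)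

/-- sign of the side -/
noncomputable def sg (s : Bool) : ℂ := if s then 1 else -1

theorem norm_sg (s : Bool) : ‖sg s‖ = 1 := by
  cases s <;> simp [sg]

theorem hasDerivAt_Y (k c : ℝ) (s : Bool) (n : ℕ) (z : ℂ) :
    HasDerivAt (Y k c s n) (sg s * D k c s n z) z := by
  cases s
  · simpa [sg] using hasDerivAt_Y_false k c n z
  · simpa [sg] using hasDerivAt_Y_true k c n z

theorem sdC_ofReal (k c : ℝ) (s : Bool) (t : ℝ) : sdC k c s (t : ℂ) = ((sd k c s t : ℝ) : ℂ) := by
  cases s
  · simp [sdC, sd]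
  · simp [sdC, sd]

theorem im_Y_ofReal (k c : ℝ) (s : Bool) (n : ℕ) (t : ℝ) : (Y k c s n (t : ℂ)).im = 0 := by
  unfold Y
  rw [sdC_ofReal]
  exact im_y_ofReal k c n _

/-- numerical bound of the Lipschitz constant -/
theorem CL_le {k : ℝ} (hk : 1 ≤ k) : CL k ≤ 22227 * k := by
  unfold CL
  rw [abs_of_nonneg (by linarith : (0:ℝ) ≤ k)]
  have hpi := Real.pi_lt_d2
  have hpi0 := Real.pi_pos
  have he : Real.exp (2 * Real.pi) ≤ 560 := by
    have h1 : 2 * Real.pi ≤ 6.3 := by linarith
    have h2 : Real.exp (2 * Real.pi) ≤ Real.exp 6.3 := Real.exp_le_exp.2 h1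
    have h3 : Real.exp (6.3 : ℝ) = Real.exp (0.9) ^ 7 := by
      rw [← Real.exp_nat_mul]; norm_num
    have h4 : Real.exp (0.9 : ℝ) ≤ 2.461 := by
      have := Real.exp_bound' (x := 0.9) (by norm_num) (by norm_num) (n := 6) (by norm_num)
      refine this.trans ?_
      simp [Finset.sum_range_succ, Nat.factorial]
      norm_num
    rw [h3] at h2
    refine h2.trans ?_
    calc Real.exp (0.9 : ℝ) ^ 7 ≤ 2.461 ^ 7 := pow_le_pow_left₀ (Real.exp_pos _).le h4 7
      _ ≤ 560 := by norm_num
  have he0 := Real.exp_pos (2 * Real.pi)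
  have h5 : Real.pi ^ 2 ≤ 9.9225 := by nlinarith
  have : 4 * Real.pi ^ 2 * Real.exp (2 * Real.pi) ≤ 22227 := by nlinarith
  nlinarith

/-- disc of radius `R` around `t` on which the derivative of the digit number `n + 1` of the side `s` is
constant up to the relative error `η`; the image of the disc has size at least `a`. -/
structure UD (k c : ℝ) (s : Bool) (n : ℕ) (t R a η : ℝ) : Prop where
  hR : 0 < R
  ha : 0 < a
  hη : 0 < η
  near : ∀ z ∈ ball (t : ℂ) R, ‖D k c s (n + 1) z - D k c s (n + 1) t‖ ≤ η * ‖D k c s (n + 1) t‖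
  prev : ∀ z ∈ ball (t : ℂ) R, ‖D k c s n z‖ ≤ η * ‖D k c s (n + 1) t‖
  big : a ≤ ‖D k c s (n + 1) t‖ * R

variable {k c t R a η : ℝ} {s : Bool} {n : ℕ}

theorem UD.pos (h : UD k c s n t R a η) : 0 < ‖D k c s (n + 1) t‖ := by
  have h1 := h.hR
  have h2 := h.ha
  have h3 := h.big
  by_contra hc
  push Not at hc
  nlinarith

theorem UD.mono (h : UD k c s n t R a η) {R' a' η' : ℝ} (hR' : 0 < R') (hRR : R' ≤ R) (ha' : 0 < a')
    (haa : a' ≤ ‖D k c s (n + 1) t‖ * R') (hη : η ≤ η') : UD k c s n t R' a' η' := by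
  have hp := h.pos
  refine ⟨hR', ha', h.hη.trans_le hη, fun z hz => ?_, fun z hz => ?_, haa⟩
  · exact (h.near z (ball_subset_ball hRR hz)).trans (by nlinarith)
  · exact (h.prev z (ball_subset_ball hRR hz)).trans (by nlinarith)

/-- growth of the slope -/
theorem UD.slopes (h : UD k c s n t R a η) (hη : η ≤ 1 / 4) {V : ℝ}
    (hV : V = ‖dg k c s t (n + 1)‖) (hV8 : 8 ≤ V) :
    V / 2 * ‖D k c s (n + 1) t‖ ≤ ‖D k c s (n + 2) t‖ ∧
      ‖D k c s (n + 2) t‖ ≤ 2 * V * ‖D k c s (n + 1) t‖ ∧
      V * ‖D k c s (n + 1) t‖ ≤ 2 * ‖D k c s (n + 2) t‖ := by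
  have hp := h.pos
  have h0 := h.prev t (mem_ball_self h.hR)
  have e : D k c s (n + 2) (t : ℂ) = dg k c s t (n + 1) * D k c s (n + 1) t - D k c s n t :=
    D_add_two k c s n t
  have h1 := norm_sub_norm_le (dg k c s t (n + 1) * D k c s (n + 1) (t : ℂ)) (D k c s n t)
  have h2 := norm_sub_le (dg k c s t (n + 1) * D k c s (n + 1) (t : ℂ)) (D k c s n t)
  rw [← e, norm_mul, ← hV] at h1 h2
  set A := ‖D k c s (n + 1) (t : ℂ)‖
  have h3 : ‖D k c s n (t : ℂ)‖ ≤ 1 / 4 * A := h0.trans (by nlinarith)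
  refine ⟨?_, ?_, ?_⟩ <;> nlinarith

/-- **one step** through a digit of size `V` -/
theorem UD.step (h : UD k c s n t R a η) (hk : 1 ≤ k) (hη : η ≤ 1 / 4) {V : ℝ}
    (hV : V = ‖dg k c s t (n + 1)‖) (hV8 : 8 ≤ V) {M : ℝ} (hM : 0 < M) (hMa : 2 * M ≤ a * V)
    (hMV : 5 * M ≤ 2 * V) :
    UD k c s (n + 1) t (M / ‖D k c s (n + 2) t‖) M
      (140000 * k * M / V ^ 2 + 10 * η * M / (V * a) + 3 / V) := by
  have hR := h.hR
  have ha := h.ha
  have hη0 := h.hη
  have hA := h.pos
  have hbig := h.big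
  obtain ⟨hs1, hs2, hs3⟩ := h.slopes hη hV hV8
  set A := ‖D k c s (n + 1) (t : ℂ)‖ with hAdef
  set A' := ‖D k c s (n + 2) (t : ℂ)‖ with hA'def
  have hV0 : 0 < V := by linarith
  have hA' : 0 < A' := by nlinarith
  have hAle : A ≤ 2 * A' / V := by
    rw [le_div_iff₀ hV0]; linarith
  set ρ := M / A' with hρ
  have hρ0 : 0 < ρ := div_pos hM hA'
  have hρR : ρ ≤ R := by
    rw [hρ, div_le_iff₀ hA']
    have h1 : V / 2 * A * R ≤ A' * R := mul_le_mul_of_nonneg_right hs1 hR.le
    have h2 : V / 2 * a ≤ V / 2 * (A * R) := mul_le_mul_of_nonneg_left hbig (by linarith)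
    nlinarith
  have hRinv : 1 / R ≤ 2 * A' / (V * a) := by
    rw [div_le_div_iff₀ hR (by positivity)]
    have h1 : V / 2 * A * R ≤ A' * R := mul_le_mul_of_nonneg_right hs1 hR.le
    have h2 : V / 2 * a ≤ V / 2 * (A * R) := mul_le_mul_of_nonneg_left hbig (by linarith)
    nlinarith
  -- bounds on the small disc
  have hDle : ∀ z ∈ ball (t : ℂ) R, ‖D k c s (n + 1) z‖ ≤ 5 / 4 * A := by
    intro z hz
    have h1 := h.near z hz
    have h2 := norm_add_le (D k c s (n + 1) z - D k c s (n + 1) (t : ℂ)) (D k c s (n + 1) (t : ℂ))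
    rw [sub_add_cancel] at h2
    have h3 : η * A ≤ 1 / 4 * A := by nlinarith
    linarith
  have hnearL : ∀ z ∈ ball (t : ℂ) R, ‖D k c s (n + 1) z - D k c s (n + 1) t‖ ≤
      2 * η * A / R * ‖z - t‖ := by
    intro z hz
    have hmaps : MapsTo (D k c s (n + 1)) (ball (t : ℂ) R)
        (closedBall (D k c s (n + 1) (t : ℂ)) (2 * η * A)) := by
      intro w hw
      rw [mem_closedBall, dist_eq_norm]
      have := h.near w hw
      have h4 : η * A ≤ 2 * η * A := by nlinarith
      exact this.trans h4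
    have := Complex.dist_le_div_mul_dist_of_mapsTo_ball
      (differentiable_D k c s (n + 1)).differentiableOn hmaps hz
    rwa [dist_eq_norm, dist_eq_norm] at this
  have hprevL : ∀ z ∈ ball (t : ℂ) R, ‖D k c s n z - D k c s n t‖ ≤
      4 * η * A / R * ‖z - t‖ := by
    intro z hz
    have hmaps : MapsTo (D k c s n) (ball (t : ℂ) R)
        (closedBall (D k c s n (t : ℂ)) (4 * η * A)) := by
      intro w hw
      rw [mem_closedBall, dist_eq_norm]
      have h1 := h.prev w hw
      have h2 := h.prev t (mem_ball_self hR)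
      have h3 := norm_sub_le (D k c s n w) (D k c s n (t : ℂ))
      have h4 : 0 < η * A := by positivity
      linarith
    have := Complex.dist_le_div_mul_dist_of_mapsTo_ball
      (differentiable_D k c s n).differentiableOn hmaps hz
    rwa [dist_eq_norm, dist_eq_norm] at this
  have hY : ∀ z ∈ ball (t : ℂ) ρ, ‖Y k c s (n + 1) z - Y k c s (n + 1) t‖ ≤ 5 / 4 * A * ‖z - t‖ := by
    intro z hz
    have hz' : z ∈ ball (t : ℂ) R := ball_subset_ball hρR hz
    have := (convex_ball (t : ℂ) R).norm_image_sub_le_of_norm_hasDerivWithin_le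
      (f := Y k c s (n + 1)) (f' := fun w => sg s * D k c s (n + 1) w) (C := 5 / 4 * A)
      (fun x _ => (hasDerivAt_Y k c s (n + 1) x).hasDerivWithinAt)
      (fun x hx => by rw [norm_mul, norm_sg, one_mul]; exact hDle x hx)
      (mem_ball_self hR) hz'
    exact this
  have hAρ : A * ρ ≤ 2 * M / V := by
    rw [hρ, mul_div_assoc', div_le_div_iff₀ hA' hV0]
    nlinarith
  have him : ∀ z ∈ ball (t : ℂ) ρ, |(Y k c s (n + 1) z).im| ≤ 1 := by
    intro z hz
    have h1 := hY z hz
    have hzρ : ‖z - t‖ ≤ ρ := by rw [mem_ball, dist_eq_norm] at hz; exact hz.le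
    have h2 : |(Y k c s (n + 1) z - Y k c s (n + 1) (t : ℂ)).im| ≤
        ‖Y k c s (n + 1) z - Y k c s (n + 1) t‖ := Complex.abs_im_le_norm _
    rw [Complex.sub_im, im_Y_ofReal, sub_zero] at h2
    have h3 : 5 / 4 * A * ‖z - t‖ ≤ 5 / 4 * (A * ρ) := by nlinarith
    have h4 : 5 / 4 * (A * ρ) ≤ 5 / 4 * (2 * M / V) := by linarith
    have h5 : 5 / 4 * (2 * M / V) ≤ 1 := by
      rw [mul_div_assoc', div_le_one hV0]; linarith
    linarith
  have ht0 : |(Y k c s (n + 1) (t : ℂ)).im| ≤ 1 := by rw [im_Y_ofReal]; simp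
  have hηA : 0 < η * A := by positivity
  have hCL := CL_le hk
  have hCL0 := CL_nonneg k
  refine ⟨hρ0, hM, by positivity, fun z hz => ?_, fun z hz => ?_, ?_⟩
  · -- near
    have hz' : z ∈ ball (t : ℂ) R := ball_subset_ball hρR hz
    have hzρ : ‖z - t‖ ≤ ρ := by rw [mem_ball, dist_eq_norm] at hz; exact hz.le
    rw [D_add_two, D_add_two]
    have e : dg k c s z (n + 1) * D k c s (n + 1) z - D k c s n z -
        (dg k c s t (n + 1) * D k c s (n + 1) t - D k c s n t) =
        (dg k c s z (n + 1) - dg k c s t (n + 1)) * D k c s (n + 1) z +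
        dg k c s t (n + 1) * (D k c s (n + 1) z - D k c s (n + 1) t) -
        (D k c s n z - D k c s n t) := by ring
    rw [e]
    have b1 : ‖(dg k c s z (n + 1) - dg k c s t (n + 1)) * D k c s (n + 1) z‖ ≤
        CL k * (5 / 4 * A * ρ) * (5 / 4 * A) := by
      rw [norm_mul]
      refine mul_le_mul ?_ (hDle z hz') (norm_nonneg _) (by positivity)
      refine (norm_cV_sub_le k (him z hz) ht0).trans ?_
      refine mul_le_mul_of_nonneg_left ((hY z hz).trans ?_) hCL0
      exact mul_le_mul_of_nonneg_left hzρ (by positivity)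
    have b2 : ‖dg k c s t (n + 1) * (D k c s (n + 1) z - D k c s (n + 1) t)‖ ≤
        V * (2 * η * A / R * ρ) := by
      rw [norm_mul, ← hV]
      refine mul_le_mul_of_nonneg_left ((hnearL z hz').trans ?_) hV0.le
      exact mul_le_mul_of_nonneg_left hzρ (by positivity)
    have b3 : ‖D k c s n z - D k c s n t‖ ≤ 4 * η * A / R * ρ := by
      refine (hprevL z hz').trans ?_
      exact mul_le_mul_of_nonneg_left hzρ (by positivity)
    have c1 : CL k * (5 / 4 * A * ρ) * (5 / 4 * A) ≤ 140000 * k * M / V ^ 2 * A' := by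
      have d1 : CL k * (5 / 4 * A * ρ) * (5 / 4 * A) = CL k * (25 / 16) * (A * ρ) * A := by ring
      rw [d1]
      have d2 : CL k * (25 / 16) * (A * ρ) * A ≤ CL k * (25 / 16) * (2 * M / V) * (2 * A' / V) := by
        have : 0 ≤ CL k * (25 / 16) := by positivity
        have hAρ0 : 0 ≤ A * ρ := by positivity
        refine mul_le_mul (mul_le_mul_of_nonneg_left hAρ this) hAle hA.le (by positivity)
      refine d2.trans ?_
      have d3 : CL k * (25 / 16) * (2 * M / V) * (2 * A' / V) = CL k * (25 / 4) * (M / V ^ 2 * A') := by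
        field_simp
        ring
      have d4 : 140000 * k * M / V ^ 2 * A' = 140000 * k * (M / V ^ 2 * A') := by ring
      rw [d3, d4]
      refine mul_le_mul_of_nonneg_right ?_ (by positivity)
      linarith
    have c2 : V * (2 * η * A / R * ρ) ≤ 4 * η * (ρ / R) * A' := by
      have d1 : V * (2 * η * A / R * ρ) = 2 * η * (ρ / R) * (V * A) := by ring
      rw [d1]
      have : 0 ≤ 2 * η * (ρ / R) := by positivity
      nlinarith [mul_le_mul_of_nonneg_left hs3 this]
    have c3 : 4 * η * A / R * ρ ≤ η * (ρ / R) * A' := by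
      have d1 : 4 * η * A / R * ρ = η * (ρ / R) * (4 * A) := by ring
      rw [d1]
      refine mul_le_mul_of_nonneg_left ?_ (by positivity)
      nlinarith
    have c4 : 5 * η * (ρ / R) * A' ≤ 10 * η * M / (V * a) * A' := by
      refine mul_le_mul_of_nonneg_right ?_ hA'.le
      have d1 : ρ / R ≤ ρ * (2 * A' / (V * a)) := by
        rw [div_eq_mul_one_div]
        exact mul_le_mul_of_nonneg_left hRinv hρ0.le
      have d2 : ρ * (2 * A' / (V * a)) = 2 * M / (V * a) := by
        rw [hρ]; field_simp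
      rw [d2] at d1
      have d3 : 10 * η * M / (V * a) = 5 * η * (2 * M / (V * a)) := by ring
      rw [d3]
      exact mul_le_mul_of_nonneg_left d1 (by positivity)
    have c5 : 0 ≤ 3 / V * A' := by positivity
    calc _ ≤ ‖(dg k c s z (n + 1) - dg k c s t (n + 1)) * D k c s (n + 1) z‖ +
          ‖dg k c s t (n + 1) * (D k c s (n + 1) z - D k c s (n + 1) t)‖ +
          ‖D k c s n z - D k c s n t‖ :=
          (norm_sub_le _ _).trans (add_le_add (norm_add_le _ _) le_rfl)
      _ ≤ (140000 * k * M / V ^ 2 + 10 * η * M / (V * a) + 3 / V) * A' := by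
          have : (140000 * k * M / V ^ 2 + 10 * η * M / (V * a) + 3 / V) * A' =
            140000 * k * M / V ^ 2 * A' + 10 * η * M / (V * a) * A' + 3 / V * A' := by ring
          rw [this]
          have c6 : 4 * η * (ρ / R) * A' + η * (ρ / R) * A' = 5 * η * (ρ / R) * A' := by ring
          linarith
  · have hz' : z ∈ ball (t : ℂ) R := ball_subset_ball hρR hz
    refine (hDle z hz').trans ?_
    have d1 : 5 / 4 * A ≤ 3 / V * A' := by
      have : 5 / 4 * A ≤ 5 / 4 * (2 * A' / V) := by linarith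
      refine this.trans ?_
      have : 5 / 4 * (2 * A' / V) = (5 / 2) / V * A' := by ring
      rw [this]
      refine mul_le_mul_of_nonneg_right ?_ hA'.le
      exact div_le_div_of_nonneg_right (by norm_num) hV0.le
    refine d1.trans (mul_le_mul_of_nonneg_right ?_ hA'.le)
    have e1 : 0 ≤ 140000 * k * M / V ^ 2 := by positivity
    have e2 : 0 ≤ 10 * η * M / (V * a) := by positivity
    linarith
  · show M ≤ A' * ρ
    rw [hρ, mul_div_cancel₀ _ hA'.ne']

end Crest.Agent.R128.NicePts
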