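import Crest.Agent.R128.LocA1
import Crest.Agent.R128.LocA2
import Crest.Agent.R128.NiceUD

/-!
# Row 128, node LOCA-BASE (helper790)

From the start data of one side at the foot (`LocA.Start`, near affinity with tiny image, then regular
digits `≥ k^(2/3)`) to the base of the NICE node: `UD` on the ball of radius `4 r` at the first index
with at least `k^(-3/8)` laps on `[t0 - r, t0 + r]`.
-/

set_option autoImplicit false

open Metric Set
open Crest.Agent.R128 Crest.Agent.R128.Cell Crest.Agent.R128.CellB Crest.Agent.R128.CellDy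
open Crest.Agent.R128.Loc

namespace Crest.Agent.R128.Base790

open Crest.Agent.R128.NicePts (UD)

theorem norm_Ds_sub' (k c : ℝ) (s : Bool) (n : ℕ) (z w : ℂ) :
    ‖LocA.Ds k c s n z - LocA.Ds k c s n w‖ = ‖D k c s n z - D k c s n w‖ :=
  LocA.norm_Ds_sub k c s n z w

theorem vv_eq (k c : ℝ) (s : Bool) (n : ℕ) (t : ℝ) :
    LocA.vv k (Loc.Y k c s) n t = ‖dg k c s t n‖ := rfl

/-- numbers -/
theorem nums {k : ℝ} (hk : 10 ^ 300 ≤ k) :
    ∃ u : ℝ, u = k ^ (1 / 24 : ℝ) ∧ 10 ^ 12 ≤ u ∧ u ^ 24 = k ∧ k ^ (2 / 3 : ℝ) = u ^ 16 ∧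
      k ^ (-(3 / 8) : ℝ) = 1 / u ^ 9 ∧ k ^ (3 / 4 : ℝ) = u ^ 18 := by
  have hk0 : (0:ℝ) < k := lt_of_lt_of_le (by positivity) hk
  refine ⟨k ^ (1 / 24 : ℝ), rfl, ?_, ?_, ?_, ?_, ?_⟩
  · have h1 : ((10:ℝ) ^ 300) ^ (1 / 24 : ℝ) ≤ k ^ (1 / 24 : ℝ) :=
      Real.rpow_le_rpow (by positivity) hk (by norm_num)
    refine le_trans ?_ h1
    rw [← Real.rpow_natCast (10:ℝ) 300, ← Real.rpow_mul (by norm_num), ← Real.rpow_natCast (10:ℝ) 12]
    exact Real.rpow_le_rpow_of_exponent_le (by norm_num) (by norm_num)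
  · rw [← Real.rpow_natCast, ← Real.rpow_mul hk0.le]; norm_num
  · rw [← Real.rpow_natCast, ← Real.rpow_mul hk0.le]; norm_num
  · rw [one_div, ← Real.rpow_natCast, ← Real.rpow_mul hk0.le, ← Real.rpow_neg hk0.le]; norm_num
  · rw [← Real.rpow_natCast, ← Real.rpow_mul hk0.le]; norm_num

/-- **Base** of the NICE node from the start data of one side. -/
theorem base_of_start {k c : ℝ} {s : Bool} {n0 : ℕ} {t0 r0 A r : ℝ} {J : ℕ}
    (hk : 10 ^ 300 ≤ k) (hA : 16000 * k ≤ A ^ 2) (hA0 : 0 < A) (hJ : J ≤ 100)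
    (S : LocA.Start k (Loc.Y k c s) (LocA.Ds k c s) n0 t0 r0 (1 / 1000) A J)
    (dig : ∀ j < J, k ^ (2 / 3 : ℝ) ≤ ‖dg k c s t0 (n0 + 1 + j)‖)
    (hr : 0 < r) (h4 : 4 * r ≤ r0) (h0 : ‖D k c s (n0 + 1) t0‖ * r < k ^ (-(3 / 8) : ℝ))
    (hend : k ^ (-(3 / 8) : ℝ) ≤ ‖D k c s (n0 + 1 + J) t0‖ * r) :
    ∃ j, 1 ≤ j ∧ j ≤ J ∧
      UD k c s (n0 + j) t0 (4 * r) (‖D k c s (n0 + j + 1) t0‖ * (4 * r)) (1 / 80) ∧
      k ^ (-(3 / 8) : ℝ) ≤ ‖D k c s (n0 + j + 1) t0‖ * r ∧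
      ‖D k c s (n0 + j + 1) t0‖ * r ≤ k ^ (3 / 4 : ℝ) ∧
      ∀ i < j, ‖D k c s (n0 + 1 + i) t0‖ * r < k ^ (-(3 / 8) : ℝ) := by
  classical
  obtain ⟨u, -, hu, e24, e16, e9, e18⟩ := nums hk
  have hk12 : (10:ℝ) ^ 12 ≤ k := (pow_le_pow_right₀ (by norm_num) (by norm_num)).trans hk
  clear hk
  have hk1 : (1:ℝ) ≤ k := le_trans (by norm_num) hk12
  have hk0 : (0:ℝ) < k := by linarith
  have hu0 : 0 < u := lt_of_lt_of_le (by positivity) hu
  have hu1 : 1 ≤ u := le_trans (by norm_num) hu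
  obtain ⟨c1, c2⟩ := LocA.chain hk12 hA hA0 hJ S
  have hex : ∃ j, k ^ (-(3 / 8) : ℝ) ≤ ‖D k c s (n0 + 1 + j) t0‖ * r := ⟨J, hend⟩
  set j := Nat.find hex with hj
  have hspec := Nat.find_spec hex
  have hmin := fun i (hi : i < j) => Nat.find_min hex hi
  rw [← hj] at hspec
  have hjJ : j ≤ J := Nat.find_min' hex hend
  have hj1 : 1 ≤ j := by
    by_contra hcon
    have : j = 0 := by omega
    rw [this] at hspec
    simp only [add_zero] at hspec
    linarith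
  obtain ⟨i, hi⟩ : ∃ i, j = i + 1 := ⟨j - 1, by omega⟩
  have hiJ : i < J := by omega
  have hlt := hmin i (by omega)
  push Not at hlt
  obtain ⟨hNA, hDpos, hradpos⟩ := c1 j hjJ
  obtain ⟨hDi, hradi⟩ := (c1 i hiJ.le).2
  obtain ⟨-, hg1, hg2, hprev⟩ := c2 i hiJ
  have hV := dig i hiJ
  rw [← vv_eq] at hV
  have hVup : LocA.vv k (Loc.Y k c s) (n0 + 1 + i) t0 ≤ 8000 * k := LocA.vv_le hk1 S.co _ _
  set V := LocA.vv k (Loc.Y k c s) (n0 + 1 + i) t0 with hVdef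
  rw [e16] at hV
  rw [e9] at hlt hspec
  simp only [LocA.norm_Ds] at hDi hDpos hg1 hg2 hprev
  have en : n0 + 1 + j = n0 + j + 1 := by omega
  have en2 : n0 + 1 + (i + 1) = n0 + j + 1 := by omega
  rw [en] at hspec hDpos
  rw [en2] at hg1 hg2 hprev
  set d := ‖D k c s (n0 + 1 + i) (t0 : ℂ)‖ with hd
  set b := ‖D k c s (n0 + j + 1) (t0 : ℂ)‖ with hb
  have hV0 : 0 < V := lt_of_lt_of_le (by positivity) hV
  have hV160 : 160 ≤ V := by
    have : (160:ℝ) ≤ u ^ 16 := by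
      calc (160:ℝ) ≤ u := le_trans (by norm_num) hu
        _ = u ^ 1 := (pow_one u).symm
        _ ≤ u ^ 16 := pow_le_pow_right₀ hu1 (by norm_num)
    linarith
  -- the radius
  have hrad : 4 * r ≤ LocA.rad k (Loc.Y k c s) (LocA.Ds k c s) n0 r0 t0 j := by
    rw [hi]
    simp only [LocA.rad]
    refine le_min h4 ?_
    rw [LocA.norm_Ds, ← hVdef, ← hd, le_div_iff₀ (by positivity)]
    -- `4 r k d ≤ V / 10^10`
    have h1 : d * r * u ^ 9 ≤ 1 := by
      rw [lt_div_iff₀ (by positivity)] at hlt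
      exact hlt.le
    have h2 : 4 * r * (k * d) * (10 ^ 10) ≤ V := by
      have h3 : 4 * r * (k * d) * (10 ^ 10) = 4 * 10 ^ 10 * u ^ 15 * (d * r * u ^ 9) := by
        rw [← e24]; ring
      rw [h3]
      have h4 : 4 * 10 ^ 10 * u ^ 15 * (d * r * u ^ 9) ≤ 4 * 10 ^ 10 * u ^ 15 * 1 :=
        mul_le_mul_of_nonneg_left h1 (by positivity)
      have h5 : 4 * 10 ^ 10 * u ^ 15 * 1 ≤ u * u ^ 15 := by
        rw [mul_one]
        exact mul_le_mul_of_nonneg_right (le_trans (by norm_num) hu) (by positivity)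
      have h6 : u * u ^ 15 = u ^ 16 := by ring
      linarith
    linarith
  have hclose : ∀ z ∈ ball (t0 : ℂ) (4 * r), ‖D k c s (n0 + j + 1) z - D k c s (n0 + j + 1) t0‖ ≤
      1 / 80 * b := by
    intro z hz
    have h1 := hNA.close z (ball_subset_ball hrad hz)
    rw [norm_Ds_sub', LocA.norm_Ds, ← hb] at h1
    have hb0 : 0 ≤ b := norm_nonneg _
    linarith
  have hpr : ∀ z ∈ ball (t0 : ℂ) (4 * r), ‖D k c s (n0 + j) z‖ ≤ 1 / 80 * b := by
    intro z hz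
    rw [hi] at hrad
    have h1 := hprev z (ball_subset_ball hrad hz)
    have e : n0 + 1 + i = n0 + j := by omega
    rw [e] at h1
    refine h1.trans ?_
    have hb0 : 0 ≤ b := norm_nonneg _
    refine mul_le_mul_of_nonneg_right ?_ hb0
    rw [div_le_div_iff₀ hV0 (by norm_num)]
    linarith
  refine ⟨j, hj1, hjJ, ⟨by linarith, by positivity, by norm_num, hclose, hpr, le_rfl⟩, ?_, ?_, ?_⟩
  · rw [e9]; exact hspec
  · rw [e18]
    have h1 : b * r ≤ (V + 1) * (d * r) := by nlinarith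
    have h2 : (V + 1) * (d * r) ≤ (8001 * k) * (1 / u ^ 9) := by
      refine mul_le_mul (by linarith) hlt.le (by positivity) (by positivity)
    have h3 : (8001 * k) * (1 / u ^ 9) = 8001 * u ^ 15 := by
      rw [← e24]; field_simp
    have h4 : 8001 * u ^ 15 ≤ u * u ^ 15 :=
      mul_le_mul_of_nonneg_right (le_trans (by norm_num) hu) (by positivity)
    have h5 : u * u ^ 15 ≤ u ^ 18 := by
      have : u * u ^ 15 = u ^ 16 := by ring
      rw [this]
      exact pow_le_pow_right₀ hu1 (by norm_num)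
    linarith
  · intro i' hi'
    exact not_le.1 (hmin i' hi')

end Crest.Agent.R128.Base790
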