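import Mathlib

/-!
R128, node MARKOV (helper617): Markov type inequalities for polynomials on an interval,
with the constant `e^3` instead of `1`, proved by the Bernstein--Walsh growth bound
(Joukowski substitution + maximum principle) and Cauchy's estimate.
-/

set_option autoImplicit false

open Polynomial

namespace Crest.Agent.R128.Markov

/-- `w^m P((w+1/w)/2)` as a polynomial in `w`. -/
noncomputable def jou (P : Polynomial ℂ) (m : ℕ) : Polynomial ℂ :=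
  ∑ j ∈ Finset.range (m + 1), C (P.coeff j) * X ^ (m - j) * (C (1 / 2) * (X ^ 2 + 1)) ^ j

theorem eval_jou (P : Polynomial ℂ) (m : ℕ) (hP : P.natDegree ≤ m) (w : ℂ) (hw : w ≠ 0) :
    (jou P m).eval w = w ^ m * P.eval ((w + w⁻¹) / 2) := by
  rw [Polynomial.eval_eq_sum_range' (p := P) (n := m + 1) (by omega), jou,
    Polynomial.eval_finsetSum, Finset.mul_sum]
  refine Finset.sum_congr rfl fun j hj => ?_
  have hj' : j ≤ m := by
    have := Finset.mem_range.1 hj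
    omega
  have h1 : w ^ m = w ^ (m - j) * w ^ j := by rw [← pow_add]; congr 1; omega
  have h2 : (w + w⁻¹) / 2 = (1 / 2 * (w ^ 2 + 1)) / w := by field_simp
  simp only [eval_mul, eval_pow, eval_C, eval_X, eval_add, eval_one]
  rw [h2, h1, div_pow]
  field_simp

theorem norm_jou_le (P : Polynomial ℂ) (m : ℕ) (hP : P.natDegree ≤ m) (M : ℝ)
    (hM : ∀ x : ℝ, -1 ≤ x → x ≤ 1 → ‖P.eval (x : ℂ)‖ ≤ M) (w : ℂ) (hw : ‖w‖ ≤ 1) :
    ‖(jou P m).eval w‖ ≤ M := by
  refine Complex.norm_le_of_forall_mem_frontier_norm_le (U := Metric.ball (0 : ℂ) 1)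
    (f := fun w => (jou P m).eval w) Metric.isBounded_ball
    ((jou P m).differentiable.diffContOnCl) ?_ ?_
  · intro z hz
    rw [frontier_ball (0 : ℂ) one_ne_zero, mem_sphere_zero_iff_norm] at hz
    have hz0 : z ≠ 0 := by
      rintro rfl
      simp at hz
    have hinv : z⁻¹ = (starRingEnd ℂ) z := by
      rw [Complex.inv_def, Complex.normSq_eq_norm_sq, hz]
      simp
    have hre : (z + z⁻¹) / 2 = ((z.re : ℝ) : ℂ) := by
      rw [hinv, Complex.add_conj]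
      push_cast
      ring
    show ‖(jou P m).eval z‖ ≤ M
    rw [eval_jou P m hP z hz0, norm_mul, norm_pow, hz, one_pow, one_mul, hre]
    have habs := Complex.abs_re_le_norm z
    rw [hz] at habs
    exact hM _ (abs_le.1 habs).1 (abs_le.1 habs).2
  · rw [closure_ball (0 : ℂ) one_ne_zero]
    simpa using hw

/-- growth of `ρ^m` -/
theorem rho_pow_le (m : ℕ) (hm : 1 ≤ m) (ρ : ℝ) (hρ : 1 ≤ ρ)
    (h : ρ + ρ⁻¹ ≤ 2 + 2 / (m : ℝ) ^ 2) : ρ ^ m ≤ Real.exp 3 := by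
  have hm' : (1 : ℝ) ≤ m := by exact_mod_cast hm
  have hm0 : (0 : ℝ) < m := by linarith
  have hρ0 : 0 < ρ := by linarith
  have h1 : m * (ρ - 1) ≤ 3 := by
    by_contra hcon
    push Not at hcon
    have h2 : ρ ^ 2 + 1 ≤ (2 + 2 / (m : ℝ) ^ 2) * ρ := by
      have h3 := mul_le_mul_of_nonneg_right h hρ0.le
      have h4 : (ρ + ρ⁻¹) * ρ = ρ ^ 2 + 1 := by field_simp
      linarith
    have h5 : (m : ℝ) ^ 2 * (ρ ^ 2 + 1) ≤ (2 * (m : ℝ) ^ 2 + 2) * ρ := by
      have h6 := mul_le_mul_of_nonneg_left h2 (sq_nonneg (m : ℝ))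
      have h7 : (m : ℝ) ^ 2 * ((2 + 2 / (m : ℝ) ^ 2) * ρ) = (2 * (m : ℝ) ^ 2 + 2) * ρ := by
        field_simp
      linarith
    have h8 : (m * (ρ - 1)) ^ 2 ≤ 2 * ρ := by nlinarith
    have h9 : ρ - 1 ≤ m * (ρ - 1) := by nlinarith
    nlinarith
  have h2 : ρ ≤ Real.exp (3 / m) := by
    have h3 : ρ ≤ 3 / m + 1 := by
      rw [← sub_le_iff_le_add, le_div_iff₀ hm0]
      linarith
    exact h3.trans (Real.add_one_le_exp _)
  calc ρ ^ m ≤ (Real.exp (3 / m)) ^ m := pow_le_pow_left₀ hρ0.le h2 m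
    _ = Real.exp 3 := by
        rw [← Real.exp_nat_mul]
        congr 1
        field_simp

/-- Bernstein--Walsh near `[-1,1]`. -/
theorem growth_unit (P : Polynomial ℂ) (m : ℕ) (hm : 1 ≤ m) (hP : P.natDegree ≤ m) (M : ℝ)
    (hM : ∀ x : ℝ, -1 ≤ x → x ≤ 1 → ‖P.eval (x : ℂ)‖ ≤ M) (x : ℝ) (hx1 : -1 ≤ x) (hx2 : x ≤ 1)
    (z : ℂ) (hz : ‖z - x‖ ≤ 1 / (m : ℝ) ^ 2) : ‖P.eval z‖ ≤ Real.exp 3 * M := by
  have hM0 : 0 ≤ M := (norm_nonneg _).trans (hM x hx1 hx2)
  -- a root of w^2 - 2 z w + 1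
  obtain ⟨s, hs⟩ : ∃ s : ℂ, s ^ 2 = z ^ 2 - 1 := by
    obtain ⟨s, hs⟩ := IsAlgClosed.exists_pow_nat_eq (z ^ 2 - 1) (n := 2) (by norm_num)
    exact ⟨s, hs⟩
  have key : ∃ w : ℂ, w ≠ 0 ∧ ‖w‖ ≤ 1 ∧ (w + w⁻¹) / 2 = z := by
    have hprod : (z + s) * (z - s) = 1 := by
      have : (z + s) * (z - s) = z ^ 2 - s ^ 2 := by ring
      rw [this, hs]; ring
    have hne1 : z + s ≠ 0 := by
      intro h0
      rw [h0, zero_mul] at hprod
      exact zero_ne_one hprod
    have hne2 : z - s ≠ 0 := by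
      intro h0
      rw [h0, mul_zero] at hprod
      exact zero_ne_one hprod
    have hi1 : (z + s)⁻¹ = z - s := inv_eq_of_mul_eq_one_right hprod
    have hi2 : (z - s)⁻¹ = z + s := inv_eq_of_mul_eq_one_left hprod
    by_cases hle : ‖z + s‖ ≤ 1
    · exact ⟨z + s, hne1, hle, by rw [hi1]; ring⟩
    · refine ⟨z - s, hne2, ?_, by rw [hi2]; ring⟩
      have hn : ‖z + s‖ * ‖z - s‖ = 1 := by rw [← norm_mul, hprod, norm_one]
      push Not at hle
      nlinarith [norm_nonneg (z - s)]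
  obtain ⟨w, hw0, hw1, hwz⟩ := key
  have hwpos : 0 < ‖w‖ := norm_pos_iff.2 hw0
  have hJ := norm_jou_le P m hP M hM w hw1
  rw [eval_jou P m hP w hw0, hwz, norm_mul, norm_pow] at hJ
  -- ρ = ‖w‖⁻¹
  have hρ1 : 1 ≤ ‖w‖⁻¹ := (one_le_inv₀ hwpos).2 hw1
  have hsum : ‖z - 1‖ + ‖z + 1‖ = ‖w‖⁻¹ + (‖w‖⁻¹)⁻¹ := by
    have e1 : z - 1 = (w - 1) ^ 2 / (2 * w) := by
      rw [← hwz]; field_simp; ring
    have e2 : z + 1 = (w + 1) ^ 2 / (2 * w) := by
      rw [← hwz]; field_simp; ring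
    have e3 : ‖w - 1‖ ^ 2 + ‖w + 1‖ ^ 2 = 2 * ‖w‖ ^ 2 + 2 := by
      have := parallelogram_law_with_norm ℝ w 1
      simp only [norm_one] at this
      nlinarith [this]
    rw [e1, e2, norm_div, norm_div, norm_pow, norm_pow, norm_mul, inv_inv]
    have : ‖(2 : ℂ)‖ = 2 := by norm_num
    rw [this, ← add_div, e3]
    field_simp
    ring
  have hle : ‖z - 1‖ + ‖z + 1‖ ≤ 2 + 2 / (m : ℝ) ^ 2 := by
    have f1 : ‖z - 1‖ ≤ ‖z - x‖ + (1 - x) := by
      have : z - 1 = (z - x) + ((x - 1 : ℝ) : ℂ) := by push_cast; ring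
      rw [this]
      refine (norm_add_le _ _).trans ?_
      rw [Complex.norm_real, Real.norm_eq_abs, abs_of_nonpos (by linarith)]
      linarith
    have f2 : ‖z + 1‖ ≤ ‖z - x‖ + (1 + x) := by
      have : z + 1 = (z - x) + ((x + 1 : ℝ) : ℂ) := by push_cast; ring
      rw [this]
      refine (norm_add_le _ _).trans ?_
      rw [Complex.norm_real, Real.norm_eq_abs, abs_of_nonneg (by linarith)]
      linarith
    have : 2 / (m : ℝ) ^ 2 = 2 * (1 / (m : ℝ) ^ 2) := by ring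
    rw [this]
    linarith
  rw [hsum] at hle
  have hpow := rho_pow_le m hm _ hρ1 hle
  have hwm : 0 < ‖w‖ ^ m := pow_pos hwpos m
  calc ‖P.eval z‖ = (‖w‖⁻¹) ^ m * (‖w‖ ^ m * ‖P.eval z‖) := by
        rw [inv_pow]; field_simp
    _ ≤ Real.exp 3 * M := mul_le_mul hpow hJ (by positivity) (Real.exp_pos _).le

/-- (M1) growth near a general interval. -/
theorem growth (P : Polynomial ℂ) (m : ℕ) (hm : 1 ≤ m) (hP : P.natDegree ≤ m) (M x0 R : ℝ)
    (hR : 0 < R) (hM : ∀ x : ℝ, |x - x0| ≤ R → ‖P.eval (x : ℂ)‖ ≤ M) (x : ℝ)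
    (hx : |x - x0| ≤ R) (z : ℂ) (hz : ‖z - x‖ ≤ R / (m : ℝ) ^ 2) :
    ‖P.eval z‖ ≤ Real.exp 3 * M := by
  set Q : Polynomial ℂ := P.comp (C (R : ℂ) * X + C (x0 : ℂ)) with hQ
  have hRC : (R : ℂ) ≠ 0 := by exact_mod_cast hR.ne'
  have hQeval : ∀ u : ℂ, Q.eval u = P.eval (R * u + x0) := by
    intro u
    rw [hQ, Polynomial.eval_comp]
    simp
  have hQdeg : Q.natDegree ≤ m := by
    have h1 : (C (R : ℂ) * X + C (x0 : ℂ)).natDegree ≤ 1 := Polynomial.natDegree_linear_le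
    calc Q.natDegree ≤ P.natDegree * (C (R : ℂ) * X + C (x0 : ℂ)).natDegree :=
          Polynomial.natDegree_comp_le
      _ ≤ P.natDegree * 1 := Nat.mul_le_mul_left _ h1
      _ ≤ m := by omega
  have hz' : z = R * ((z - x0) / R) + x0 := by field_simp; ring
  rw [hz', ← hQeval]
  refine growth_unit Q m hm hQdeg M ?_ ((x - x0) / R) ?_ ?_ _ ?_
  · intro y hy1 hy2
    rw [hQeval]
    have : (R : ℂ) * (y : ℂ) + x0 = ((R * y + x0 : ℝ) : ℂ) := by push_cast; ring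
    rw [this]
    apply hM
    have : R * y + x0 - x0 = R * y := by ring
    rw [this, abs_mul, abs_of_pos hR]
    have hy : |y| ≤ 1 := abs_le.2 ⟨hy1, hy2⟩
    nlinarith
  · rw [le_div_iff₀ hR]
    have := (abs_le.1 hx).1
    linarith
  · rw [div_le_iff₀ hR]
    have := (abs_le.1 hx).2
    linarith
  · have : (z - x0) / R - (((x - x0) / R : ℝ) : ℂ) = (z - x) / R := by
      push_cast
      ring
    rw [this, norm_div, Complex.norm_real, Real.norm_eq_abs, abs_of_pos hR, div_le_iff₀ hR]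
    calc ‖z - x‖ ≤ R / (m : ℝ) ^ 2 := hz
      _ = 1 / (m : ℝ) ^ 2 * R := by ring

theorem iteratedDeriv_eval (P : Polynomial ℂ) (j : ℕ) :
    iteratedDeriv j (fun z => P.eval z) = fun z => (derivative^[j] P).eval z := by
  induction j with
  | zero => simp
  | succ j ih =>
    rw [iteratedDeriv_succ, ih]
    funext z
    rw [Polynomial.deriv, Function.iterate_succ_apply']

/-- (M2) Markov's inequality, all derivatives, constant `e^3 j!`. -/
theorem markov (P : Polynomial ℂ) (m : ℕ) (hm : 1 ≤ m) (hP : P.natDegree ≤ m) (M x0 R : ℝ)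
    (hR : 0 < R) (hM : ∀ x : ℝ, |x - x0| ≤ R → ‖P.eval (x : ℂ)‖ ≤ M) (x : ℝ)
    (hx : |x - x0| ≤ R) (j : ℕ) :
    ‖(derivative^[j] P).eval (x : ℂ)‖ ≤ Real.exp 3 * j.factorial * ((m : ℝ) ^ 2 / R) ^ j * M := by
  have hm0 : (0 : ℝ) < m := by exact_mod_cast hm
  have hr : 0 < R / (m : ℝ) ^ 2 := by positivity
  have h := Complex.norm_iteratedDeriv_le_of_forall_mem_sphere_norm_le (f := fun z => P.eval z)
    (c := (x : ℂ)) (R := R / (m : ℝ) ^ 2) (C := Real.exp 3 * M) j hr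
    (P.differentiable.diffContOnCl) (by
      intro z hz
      rw [mem_sphere_iff_norm] at hz
      exact growth P m hm hP M x0 R hR hM x hx z hz.le)
  rw [iteratedDeriv_eval] at h
  refine h.trans (le_of_eq ?_)
  rw [div_pow, div_pow]
  field_simp

/-- Markov for the Hasse derivatives (= Taylor coefficients). -/
theorem markov_hasse (P : Polynomial ℂ) (m : ℕ) (hm : 1 ≤ m) (hP : P.natDegree ≤ m)
    (M x0 R : ℝ) (hR : 0 < R) (hM : ∀ x : ℝ, |x - x0| ≤ R → ‖P.eval (x : ℂ)‖ ≤ M) (x : ℝ)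
    (hx : |x - x0| ≤ R) (j : ℕ) :
    ‖(taylor (x : ℂ) P).coeff j‖ ≤ Real.exp 3 * ((m : ℝ) ^ 2 / R) ^ j * M := by
  have h := markov P m hm hP M x0 R hR hM x hx j
  have h1 : (derivative^[j] P).eval (x : ℂ) = (j.factorial : ℂ) * (taylor (x : ℂ) P).coeff j := by
    rw [taylor_coeff, ← factorial_smul_hasseDeriv]
    simp [eval_smul, nsmul_eq_mul]
  rw [h1, norm_mul, Complex.norm_natCast] at h
  have hf : (0 : ℝ) < j.factorial := by exact_mod_cast j.factorial_pos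
  have h2 : (j.factorial : ℝ) * ‖(taylor (x : ℂ) P).coeff j‖ ≤
      (j.factorial : ℝ) * (Real.exp 3 * ((m : ℝ) ^ 2 / R) ^ j * M) := by
    calc _ ≤ _ := h
      _ = _ := by ring
  exact le_of_mul_le_mul_left h2 hf

/-- (M3) quadratic Taylor approximation: with `q = m^2 |x-y| / R`, the error is `≤ 22 e^3 q^3 M`. -/
theorem taylor_two (P : Polynomial ℂ) (m : ℕ) (hm : 1 ≤ m) (hP : P.natDegree ≤ m)
    (M x0 R : ℝ) (hR : 0 < R) (hM : ∀ x : ℝ, |x - x0| ≤ R → ‖P.eval (x : ℂ)‖ ≤ M) (x y : ℝ)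
    (hx : |x - x0| ≤ R) (hy : |y - x0| ≤ R) :
    ‖P.eval (x : ℂ) - (P.eval (y : ℂ) + (derivative P).eval (y : ℂ) * (x - y)
      + (derivative^[2] P).eval (y : ℂ) / 2 * (x - y) ^ 2)‖
      ≤ 22 * Real.exp 3 * ((m : ℝ) ^ 2 * |x - y| / R) ^ 3 * M := by
  have hM0 : 0 ≤ M := (norm_nonneg _).trans (hM x hx)
  have hm0 : (0 : ℝ) < m := by exact_mod_cast hm
  set q : ℝ := (m : ℝ) ^ 2 * |x - y| / R with hq
  have hq0 : 0 ≤ q := by positivity
  set T := taylor (y : ℂ) P with hT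
  have hc : ∀ j, ‖T.coeff j * ((x : ℂ) - y) ^ j‖ ≤ Real.exp 3 * q ^ j * M := by
    intro j
    have h := markov_hasse P m hm hP M x0 R hR hM y hy j
    rw [norm_mul, norm_pow]
    have e1 : ‖(x : ℂ) - y‖ = |x - y| := by
      rw [← Complex.ofReal_sub, Complex.norm_real, Real.norm_eq_abs]
    rw [e1]
    calc _ ≤ (Real.exp 3 * ((m : ℝ) ^ 2 / R) ^ j * M) * |x - y| ^ j :=
          mul_le_mul_of_nonneg_right h (by positivity)
      _ = _ := by
          rw [hq]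
          have : (m : ℝ) ^ 2 * |x - y| / R = ((m : ℝ) ^ 2 / R) * |x - y| := by ring
          rw [this, mul_pow]; ring
  have h0 : P.eval (y : ℂ) = T.coeff 0 := by rw [hT, taylor_coeff_zero]
  have h1 : (derivative P).eval (y : ℂ) = T.coeff 1 := by rw [hT, taylor_coeff_one]
  have h2 : (derivative^[2] P).eval (y : ℂ) / 2 = T.coeff 2 := by
    rw [hT, taylor_coeff]
    have := factorial_smul_hasseDeriv (R := ℂ) 2
    rw [← this]
    simp [eval_smul, nsmul_eq_mul, Nat.factorial]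
  have hPx : P.eval (x : ℂ) = T.eval ((x : ℂ) - y) := by
    rw [hT, taylor_eval]; congr 1; ring
  rw [h0, h1, h2]
  by_cases hq2 : q ≤ 1 / 2
  · -- power series tail
    have hdeg : T.natDegree < m + 1 := by
      rw [hT, natDegree_taylor]; omega
    have hsum : P.eval (x : ℂ) = ∑ j ∈ Finset.range (m + 3), T.coeff j * ((x : ℂ) - y) ^ j := by
      rw [hPx, Polynomial.eval_eq_sum_range' (n := m + 3) (by omega)]
    rw [hsum, Finset.sum_range_succ', Finset.sum_range_succ', Finset.sum_range_succ']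
    have hrew : (∑ k ∈ Finset.range m, T.coeff (k + 1 + 1 + 1) * ((x : ℂ) - y) ^ (k + 1 + 1 + 1)
        + T.coeff (0 + 1 + 1) * ((x : ℂ) - y) ^ (0 + 1 + 1) + T.coeff (0 + 1) * ((x : ℂ) - y) ^ (0 + 1)
        + T.coeff 0 * ((x : ℂ) - y) ^ 0) - (T.coeff 0 + T.coeff 1 * ((x : ℂ) - y)
        + T.coeff 2 * ((x : ℂ) - y) ^ 2)
        = ∑ k ∈ Finset.range m, T.coeff (k + 1 + 1 + 1) * ((x : ℂ) - y) ^ (k + 1 + 1 + 1) := by
      norm_num
      ring
    rw [hrew]
    refine (norm_sum_le _ _).trans ?_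
    calc ∑ k ∈ Finset.range m, ‖T.coeff (k + 1 + 1 + 1) * ((x : ℂ) - y) ^ (k + 1 + 1 + 1)‖
        ≤ ∑ k ∈ Finset.range m, (Real.exp 3 * q ^ 3 * M) * (1 / 2) ^ k := by
          refine Finset.sum_le_sum fun k _ => (hc _).trans ?_
          have : q ^ (k + 1 + 1 + 1) = q ^ 3 * q ^ k := by ring
          rw [this]
          have hk : q ^ k ≤ (1 / 2) ^ k := pow_le_pow_left₀ hq0 hq2 k
          have hp : 0 ≤ Real.exp 3 * q ^ 3 * M := by positivity
          calc Real.exp 3 * (q ^ 3 * q ^ k) * M = (Real.exp 3 * q ^ 3 * M) * q ^ k := by ring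
            _ ≤ _ := mul_le_mul_of_nonneg_left hk hp
      _ = (Real.exp 3 * q ^ 3 * M) * ∑ k ∈ Finset.range m, (1 / 2 : ℝ) ^ k := by
          rw [Finset.mul_sum]
      _ ≤ (Real.exp 3 * q ^ 3 * M) * 2 := by
          refine mul_le_mul_of_nonneg_left ?_ (by positivity)
          exact sum_geometric_two_le m
      _ ≤ 22 * Real.exp 3 * q ^ 3 * M := by
          have : 0 ≤ Real.exp 3 * q ^ 3 * M := by positivity
          linarith
  · push Not at hq2
    have hx' : ‖P.eval (x : ℂ)‖ ≤ M := hM x hx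
    have c0 := hc 0
    have c1 := hc 1
    have c2 := hc 2
    simp only [pow_zero, mul_one, pow_one] at c0 c1
    have hA : ‖P.eval (x : ℂ) - (T.coeff 0 + T.coeff 1 * ((x : ℂ) - y)
        + T.coeff 2 * ((x : ℂ) - y) ^ 2)‖ ≤ M + (Real.exp 3 * M + Real.exp 3 * q * M
          + Real.exp 3 * q ^ 2 * M) := by
      refine (norm_sub_le _ _).trans (add_le_add hx' ?_)
      refine (norm_add_le _ _).trans (add_le_add ?_ c2)
      exact (norm_add_le _ _).trans (add_le_add c0 c1)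
    refine hA.trans ?_
    have he : 1 ≤ Real.exp 3 := Real.one_le_exp (by norm_num)
    have q1 : 1 ≤ 8 * q ^ 3 := by nlinarith [sq_nonneg (q - 1 / 2), mul_pos (by linarith : (0:ℝ) < q) (by linarith : (0:ℝ) < q)]
    have q2 : q ≤ 4 * q ^ 3 := by nlinarith
    have q3 : q ^ 2 ≤ 2 * q ^ 3 := by nlinarith [sq_nonneg q]
    have hMe : M ≤ Real.exp 3 * M := by nlinarith
    have hEM : 0 ≤ Real.exp 3 * M := by positivity
    have t1 : Real.exp 3 * M ≤ 8 * (Real.exp 3 * M) * q ^ 3 := by nlinarith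
    have t2 : Real.exp 3 * q * M ≤ 4 * (Real.exp 3 * M) * q ^ 3 := by
      calc Real.exp 3 * q * M = (Real.exp 3 * M) * q := by ring
        _ ≤ (Real.exp 3 * M) * (4 * q ^ 3) := mul_le_mul_of_nonneg_left q2 hEM
        _ = _ := by ring
    have t3 : Real.exp 3 * q ^ 2 * M ≤ 2 * (Real.exp 3 * M) * q ^ 3 := by
      calc Real.exp 3 * q ^ 2 * M = (Real.exp 3 * M) * q ^ 2 := by ring
        _ ≤ (Real.exp 3 * M) * (2 * q ^ 3) := mul_le_mul_of_nonneg_left q3 hEM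
        _ = _ := by ring
    nlinarith

section real

variable (P : Polynomial ℝ) (m : ℕ)

theorem eval_map_ofReal (x : ℝ) : (P.map (algebraMap ℝ ℂ)).eval (x : ℂ) = ((P.eval x : ℝ) : ℂ) := by
  have h : (x : ℂ) = algebraMap ℝ ℂ x := rfl
  rw [h, Polynomial.eval_map_algebraMap, Polynomial.aeval_algebraMap_apply]
  simp

theorem norm_eval_map (x : ℝ) : ‖(P.map (algebraMap ℝ ℂ)).eval (x : ℂ)‖ = |P.eval x| := by
  rw [eval_map_ofReal, Complex.norm_real, Real.norm_eq_abs]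

/-- real form of (M2) -/
theorem markov_real (hm : 1 ≤ m) (hP : P.natDegree ≤ m) (M x0 R : ℝ)
    (hR : 0 < R) (hM : ∀ x : ℝ, |x - x0| ≤ R → |P.eval x| ≤ M) (x : ℝ)
    (hx : |x - x0| ≤ R) (j : ℕ) :
    |(derivative^[j] P).eval x| ≤ Real.exp 3 * j.factorial * ((m : ℝ) ^ 2 / R) ^ j * M := by
  have h := markov (P.map (algebraMap ℝ ℂ)) m hm (Polynomial.natDegree_map_le.trans hP) M x0 R hR
    (fun y hy => by rw [norm_eval_map]; exact hM y hy) x hx j
  rw [Polynomial.iterate_derivative_map, norm_eval_map] at h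
  exact h

/-- real form of (M3) -/
theorem taylor_two_real (hm : 1 ≤ m) (hP : P.natDegree ≤ m) (M x0 R : ℝ)
    (hR : 0 < R) (hM : ∀ x : ℝ, |x - x0| ≤ R → |P.eval x| ≤ M) (x y : ℝ)
    (hx : |x - x0| ≤ R) (hy : |y - x0| ≤ R) :
    |P.eval x - (P.eval y + (derivative P).eval y * (x - y)
      + (derivative^[2] P).eval y / 2 * (x - y) ^ 2)|
      ≤ 22 * Real.exp 3 * ((m : ℝ) ^ 2 * |x - y| / R) ^ 3 * M := by
  have h := taylor_two (P.map (algebraMap ℝ ℂ)) m hm (Polynomial.natDegree_map_le.trans hP) M x0 R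
    hR (fun y hy => by rw [norm_eval_map]; exact hM y hy) x y hx hy
  rw [Polynomial.iterate_derivative_map, Polynomial.derivative_map, eval_map_ofReal,
    eval_map_ofReal, eval_map_ofReal, eval_map_ofReal] at h
  have e : (((P.eval x : ℝ) : ℂ) - (((P.eval y : ℝ) : ℂ) + (((derivative P).eval y : ℝ) : ℂ)
      * ((x : ℂ) - y) + (((derivative^[2] P).eval y : ℝ) : ℂ) / 2 * ((x : ℂ) - y) ^ 2))
      = (((P.eval x - (P.eval y + (derivative P).eval y * (x - y)
      + (derivative^[2] P).eval y / 2 * (x - y) ^ 2)) : ℝ) : ℂ) := by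
    push_cast
    ring
  rw [e, Complex.norm_real, Real.norm_eq_abs] at h
  exact h

end real

end Crest.Agent.R128.Markov
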