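import Mathlib

/-!
# Remez / Cartan type estimates for bounded analytic functions (row 128 helper library)

All statements are about a function `f` on a complex disc `closedBall c R`, bounded by `M` there and of
modulus `≥ m` at the center, `M ≤ 2 ^ N * m`:

* `exists_factorization`: `f = h · ∏ (Blaschke factors)` with at most `N` factors and `h` zero free
  on the half disc;
* `card_zeros_le`: at most `N` zeros in the half disc;
* `remez`: the measure of `{x ∈ ℝ, |x - c| ≤ R/4, ‖f x‖ ≤ ε}` is at most `12 R (ε/m)^(1/(2N))`;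
* `sublevel_eq_iUnion`: a sublevel set of a continuous real function with at most `n` zeros is a
  union of at most `n + 1` intervals.
-/

set_option autoImplicit false

open Metric Set MeasureTheory
open scoped ComplexConjugate NNReal ENNReal

namespace Crest.Agent.R128.Remez

/-- Blaschke factor of the disc of radius `R` with zero `a`. -/
noncomputable def bl (R : ℝ) (a z : ℂ) : ℂ := R * (z - a) / ((R : ℂ) ^ 2 - conj a * z)

theorem bl_den_ne {R : ℝ} (hR : 0 < R) {a z : ℂ} (ha : ‖a‖ < R) (hz : ‖z‖ ≤ R) :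
    (R : ℂ) ^ 2 - conj a * z ≠ 0 := by
  intro h
  have h1 : (R : ℂ) ^ 2 = conj a * z := sub_eq_zero.1 h
  have h2 : R ^ 2 = ‖a‖ * ‖z‖ := by
    have := congrArg norm h1
    simpa [abs_of_pos hR] using this
  nlinarith [norm_nonneg a, norm_nonneg z]

theorem norm_bl_of_norm_eq {R : ℝ} (hR : 0 < R) {a z : ℂ} (ha : ‖a‖ < R) (hz : ‖z‖ = R) :
    ‖bl R a z‖ = 1 := by
  have h1 : (R : ℂ) ^ 2 - conj a * z = z * conj (z - a) := by
    have : (R : ℂ) ^ 2 = z * conj z := by
      rw [Complex.mul_conj, Complex.normSq_eq_norm_sq, hz]; push_cast; ring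
    rw [this, map_sub]; ring
  have hza : z - a ≠ 0 := by
    intro h
    have : z = a := sub_eq_zero.1 h
    rw [this] at hz; linarith
  rw [bl, h1, norm_div, norm_mul, norm_mul, Complex.norm_conj, hz]
  simp only [Complex.norm_real, Real.norm_eq_abs, abs_of_pos hR]
  have : ‖z - a‖ ≠ 0 := norm_ne_zero_iff.2 hza
  field_simp

/-- Lower bound of a Blaschke factor. -/
theorem le_norm_bl {R : ℝ} (hR : 0 < R) {a z : ℂ} (ha : ‖a‖ < R) (hz : ‖z‖ ≤ R) :
    ‖z - a‖ / (2 * R) ≤ ‖bl R a z‖ := by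
  have hden := bl_den_ne hR ha hz
  have hpos : 0 < ‖(R : ℂ) ^ 2 - conj a * z‖ := norm_pos_iff.2 hden
  have hle : ‖(R : ℂ) ^ 2 - conj a * z‖ ≤ 2 * R ^ 2 := by
    calc ‖(R : ℂ) ^ 2 - conj a * z‖ ≤ ‖(R : ℂ) ^ 2‖ + ‖conj a * z‖ := norm_sub_le _ _
      _ = R ^ 2 + ‖a‖ * ‖z‖ := by simp [abs_of_pos hR]
      _ ≤ 2 * R ^ 2 := by nlinarith [norm_nonneg a, norm_nonneg z]
  rw [bl, norm_div, norm_mul]
  simp only [Complex.norm_real, Real.norm_eq_abs, abs_of_pos hR]
  rw [div_le_div_iff₀ (by positivity) hpos]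
  calc ‖z - a‖ * ‖(R : ℂ) ^ 2 - conj a * z‖ ≤ ‖z - a‖ * (2 * R ^ 2) := by gcongr
    _ = R * ‖z - a‖ * (2 * R) := by ring

/-- Division by one Blaschke factor. -/
theorem blaschke_div {R M : ℝ} (hR : 0 < R) {f : ℂ → ℂ} (hf : DiffContOnCl ℂ f (ball 0 R))
    (hM : ∀ z ∈ closedBall (0 : ℂ) R, ‖f z‖ ≤ M) {a : ℂ} (ha : ‖a‖ < R) (hfa : f a = 0) :
    ∃ g : ℂ → ℂ, DiffContOnCl ℂ g (ball 0 R) ∧ (∀ z ∈ closedBall (0 : ℂ) R, ‖g z‖ ≤ M) ∧
      ∀ z ∈ closedBall (0 : ℂ) R, f z = g z * bl R a z := by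
  have haball : ball (0 : ℂ) R ∈ nhds a := isOpen_ball.mem_nhds (by simpa using ha)
  have hacl : closedBall (0 : ℂ) R ∈ nhds a := Filter.mem_of_superset haball ball_subset_closedBall
  have hda : DifferentiableAt ℂ f a := hf.differentiableOn.differentiableAt haball
  have hcl : closure (ball (0 : ℂ) R) = closedBall 0 R := closure_ball 0 hR.ne'
  set g : ℂ → ℂ := fun z => dslope f a z * (((R : ℂ) ^ 2 - conj a * z) / R) with hg
  have hRC : (R : ℂ) ≠ 0 := by exact_mod_cast hR.ne'
  have hfg : ∀ z ∈ closedBall (0 : ℂ) R, f z = g z * bl R a z := by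
    intro z hz
    have hz' : ‖z‖ ≤ R := by simpa using hz
    have hden := bl_den_ne hR ha hz'
    have h1 : (z - a) * dslope f a z = f z := by
      have := sub_smul_dslope f a z
      simpa [hfa, smul_eq_mul] using this
    rw [← h1]
    simp only [hg, bl]
    generalize (R : ℂ) ^ 2 - conj a * z = D at hden
    field_simp
  have hgd : DiffContOnCl ℂ g (ball 0 R) := by
    refine ⟨?_, ?_⟩
    · refine DifferentiableOn.mul ?_ ?_
      · exact (Complex.differentiableOn_dslope haball).2 hf.differentiableOn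
      · fun_prop
    · rw [hcl]
      refine ContinuousOn.mul ?_ ?_
      · refine (continuousOn_dslope hacl).2 ⟨?_, hda⟩
        have := hf.continuousOn
        rwa [hcl] at this
      · fun_prop
  refine ⟨g, hgd, ?_, hfg⟩
  intro z hz
  refine Complex.norm_le_of_forall_mem_frontier_norm_le isBounded_ball hgd (C := M) ?_
    (by rw [hcl]; exact hz)
  intro w hw
  rw [frontier_ball 0 hR.ne', mem_sphere_zero_iff_norm] at hw
  have hwm : w ∈ closedBall (0 : ℂ) R := by simp [hw]
  have h1 := hfg w hwm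
  have h2 := hM w hwm
  rw [h1, norm_mul, norm_bl_of_norm_eq hR ha hw, mul_one] at h2
  exact h2

theorem norm_bl_zero {R : ℝ} (hR : 0 < R) (a : ℂ) : ‖bl R a 0‖ = ‖a‖ / R := by
  rw [bl]
  simp only [zero_sub, mul_zero, sub_zero, norm_div, norm_mul, norm_neg, norm_pow,
    Complex.norm_real, Real.norm_eq_abs, abs_of_pos hR]
  field_simp

/-- Factorization of a bounded analytic function on a disc: at most `N` Blaschke factors, the rest is
zero free on the half disc. -/
theorem exists_factorization {R M : ℝ} (hR : 0 < R) (n : ℕ) :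
    ∀ {f : ℂ → ℂ}, DiffContOnCl ℂ f (ball 0 R) →
    (∀ z ∈ closedBall (0 : ℂ) R, ‖f z‖ ≤ M) → f 0 ≠ 0 → M < 2 ^ (n + 1) * ‖f 0‖ →
    ∃ (l : List ℂ) (h : ℂ → ℂ), l.length ≤ n ∧ (∀ a ∈ l, ‖a‖ ≤ R / 2) ∧
      DiffContOnCl ℂ h (ball 0 R) ∧ (∀ z ∈ closedBall (0 : ℂ) R, ‖h z‖ ≤ M) ∧
      (∀ z ∈ closedBall (0 : ℂ) (R / 2), h z ≠ 0) ∧ 2 ^ l.length * ‖f 0‖ ≤ ‖h 0‖ ∧
      ∀ z ∈ closedBall (0 : ℂ) R, f z = h z * (l.map (fun a => bl R a z)).prod := by
  induction n with
  | zero =>
    intro f hf hM h0 hlt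
    by_cases hz : ∀ z ∈ closedBall (0 : ℂ) (R / 2), f z ≠ 0
    · exact ⟨[], f, by simp, by simp, hf, hM, hz, by simp, by simp⟩
    · exfalso
      push Not at hz
      obtain ⟨a, ha, hfa⟩ := hz
      have ha' : ‖a‖ ≤ R / 2 := by simpa using ha
      obtain ⟨g, hg, hgM, hfg⟩ := blaschke_div hR hf hM (a := a) (by linarith) hfa
      have h1 := hfg 0 (by simp [hR.le])
      have h2 : ‖f 0‖ = ‖g 0‖ * (‖a‖ / R) := by rw [h1, norm_mul, norm_bl_zero hR]
      have h3 := hgM 0 (by simp [hR.le])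
      have h4 : ‖a‖ / R ≤ 1 / 2 := by rw [div_le_iff₀ hR]; linarith
      have h5 : ‖f 0‖ ≤ ‖g 0‖ * (1 / 2) := by rw [h2]; gcongr
      have : 0 < ‖f 0‖ := norm_pos_iff.2 h0
      norm_num at hlt
      linarith
  | succ n ih =>
    intro f hf hM h0 hlt
    by_cases hz : ∀ z ∈ closedBall (0 : ℂ) (R / 2), f z ≠ 0
    · exact ⟨[], f, by simp, by simp, hf, hM, hz, by simp, by simp⟩
    · push Not at hz
      obtain ⟨a, ha, hfa⟩ := hz
      have ha' : ‖a‖ ≤ R / 2 := by simpa using ha
      obtain ⟨g, hg, hgM, hfg⟩ := blaschke_div hR hf hM (a := a) (by linarith) hfa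
      have h1 := hfg 0 (by simp [hR.le])
      have h2 : ‖f 0‖ = ‖g 0‖ * (‖a‖ / R) := by rw [h1, norm_mul, norm_bl_zero hR]
      have h4 : ‖a‖ / R ≤ 1 / 2 := by rw [div_le_iff₀ hR]; linarith
      have h5 : ‖f 0‖ ≤ ‖g 0‖ * (1 / 2) := by rw [h2]; gcongr
      have h6 : 0 < ‖f 0‖ := norm_pos_iff.2 h0
      have hg0 : g 0 ≠ 0 := by
        intro h; rw [h] at h5; simp at h5; exact h0 h5
      have hlt' : M < 2 ^ (n + 1) * ‖g 0‖ := by
        calc M < 2 ^ (n + 1 + 1) * ‖f 0‖ := hlt
          _ ≤ 2 ^ (n + 1 + 1) * (‖g 0‖ * (1 / 2)) := by gcongr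
          _ = 2 ^ (n + 1) * ‖g 0‖ := by ring
      obtain ⟨l, h, hl, hla, hh, hhM, hhz, hh0, hfac⟩ := ih hg hgM hg0 hlt'
      refine ⟨a :: l, h, by simpa using hl, ?_, hh, hhM, hhz, ?_, ?_⟩
      · intro b hb
        rcases List.mem_cons.1 hb with rfl | hb
        · exact ha'
        · exact hla b hb
      · simp only [List.length_cons]
        calc 2 ^ (l.length + 1) * ‖f 0‖ ≤ 2 ^ (l.length + 1) * (‖g 0‖ * (1 / 2)) := by gcongr
          _ = 2 ^ l.length * ‖g 0‖ := by ring
          _ ≤ ‖h 0‖ := hh0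
      · intro z hz
        rw [hfg z hz, hfac z hz]
        simp only [List.map_cons, List.prod_cons]
        ring

/-- Harnack lower bound for a zero free bounded analytic function. -/
theorem harnack {r M : ℝ} (hr : 0 < r) (hM0 : 0 < M) {h : ℂ → ℂ}
    (hh : AnalyticOnNhd ℂ h (closedBall 0 r)) (hhM : ∀ z ∈ closedBall (0 : ℂ) r, ‖h z‖ ≤ M)
    (hhz : ∀ z ∈ closedBall (0 : ℂ) r, h z ≠ 0) {z : ℂ} (hz : ‖z‖ ≤ r / 2) :
    M * (‖h 0‖ / M) ^ 3 ≤ ‖h z‖ := by
  set u : ℂ → ℝ := fun w => Real.log M - Real.log ‖h w‖ with hu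
  have hharm0 : InnerProductSpace.HarmonicOnNhd (fun w => Real.log ‖h w‖) (closedBall 0 r) :=
    fun w hw => (hh w hw).harmonicAt_log_norm (hhz w hw)
  have hharm : InnerProductSpace.HarmonicOnNhd u (closedBall 0 r) := by
    intro w hw
    have hc : InnerProductSpace.HarmonicAt (fun _ : ℂ => Real.log M) w :=
      InnerProductSpace.harmonicAt_const _
    exact hc.sub (hharm0 w hw)
  have hu0 : ∀ w ∈ closedBall (0 : ℂ) r, 0 ≤ u w := by
    intro w hw
    have h1 : 0 < ‖h w‖ := norm_pos_iff.2 (hhz w hw)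
    have := Real.log_le_log h1 (hhM w hw)
    simp only [hu]; linarith
  have hzb : z ∈ ball (0 : ℂ) r := by simp; linarith
  have hP := InnerProductSpace.HarmonicOnNhd.circleAverage_re_herglotzRieszKernel_smul hharm hzb
  have hA : Real.circleAverage u 0 r = u 0 := by
    have : InnerProductSpace.HarmonicOnNhd u (closedBall 0 |r|) := by rwa [abs_of_pos hr]
    exact InnerProductSpace.HarmonicOnNhd.circleAverage_eq this
  have hucont : ContinuousOn u (closedBall 0 r) := by
    refine ContinuousOn.sub continuousOn_const ?_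
    refine ContinuousOn.log hh.continuousOn.norm ?_
    intro w hw
    exact (norm_pos_iff.2 (hhz w hw)).ne'
  have hsph : sphere (0 : ℂ) |r| ⊆ closedBall 0 r := by
    rw [abs_of_pos hr]; exact sphere_subset_closedBall
  have hci1 : CircleIntegrable (fun w => 3 * u w) 0 r := by
    apply ContinuousOn.circleIntegrable'
    exact (continuousOn_const.mul hucont).mono hsph
  have hci2 : CircleIntegrable ((Complex.re ∘ herglotzRieszKernel 0 z) • u) 0 r := by
    apply ContinuousOn.circleIntegrable'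
    refine ContinuousOn.smul ?_ (hucont.mono hsph)
    exact Complex.continuous_re.comp_continuousOn (continuousOn_herglotzRieszKernel_sphere hzb)
  have hle : Real.circleAverage ((Complex.re ∘ herglotzRieszKernel 0 z) • u) 0 r ≤
      Real.circleAverage (fun w => 3 * u w) 0 r := by
    refine Real.circleAverage_mono hci2 hci1 ?_
    intro w hw
    have hw' : w ∈ sphere (0 : ℂ) r := by rwa [abs_of_pos hr] at hw
    have h1 := re_herglotzRieszKernel_le hw' hzb
    have h2 : (herglotzRieszKernel 0 z w).re ≤ 3 := by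
      refine le_trans h1 ?_
      rw [sub_zero, div_le_iff₀ (by linarith)]
      linarith
    simp only [Pi.smul_apply', Function.comp_apply, smul_eq_mul]
    exact mul_le_mul_of_nonneg_right h2 (hu0 w (sphere_subset_closedBall hw'))
  rw [hP] at hle
  have h3 : Real.circleAverage (fun w => 3 * u w) 0 r = 3 * u 0 := by
    have := Real.circleAverage_fun_smul (a := (3 : ℝ)) (f := u) (c := 0) (R := r)
    simp only [smul_eq_mul] at this
    rw [this, hA]
  rw [h3] at hle
  have hz1 : z ∈ closedBall (0 : ℂ) r := ball_subset_closedBall hzb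
  have h01 : (0 : ℂ) ∈ closedBall (0 : ℂ) r := by simp [hr.le]
  have hz2 : 0 < ‖h z‖ := norm_pos_iff.2 (hhz z hz1)
  have h02 : 0 < ‖h 0‖ := norm_pos_iff.2 (hhz 0 h01)
  have hpos : 0 < M * (‖h 0‖ / M) ^ 3 := by positivity
  rw [← Real.log_le_log_iff hpos hz2, Real.log_mul hM0.ne' (by positivity), Real.log_pow,
    Real.log_div h02.ne' hM0.ne']
  simp only [hu] at hle
  push_cast
  linarith

/-! ### Cartan's estimate on the real line -/

theorem lint_rpow_neg_half {t : ℝ} (ht : 0 < t) :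
    ∫⁻ x in Icc 0 t, ENNReal.ofReal (x ^ (-(1 / 2) : ℝ)) = ENNReal.ofReal (2 * √t) := by
  have h1 : IntervalIntegrable (fun x : ℝ => x ^ (-(1 / 2) : ℝ)) volume 0 t :=
    intervalIntegral.intervalIntegrable_rpow' (by norm_num)
  have h2 : IntegrableOn (fun x : ℝ => x ^ (-(1 / 2) : ℝ)) (Icc 0 t) volume := by
    rw [integrableOn_Icc_iff_integrableOn_Ioc]
    exact (intervalIntegrable_iff_integrableOn_Ioc_of_le ht.le).1 h1
  rw [← ofReal_integral_eq_lintegral_ofReal h2]
  · congr 1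
    rw [integral_Icc_eq_integral_Ioc, ← intervalIntegral.integral_of_le ht.le,
      integral_rpow (Or.inl (by norm_num))]
    rw [Real.sqrt_eq_rpow]
    norm_num
    ring
  · refine (ae_restrict_iff' measurableSet_Icc).2 (Filter.Eventually.of_forall ?_)
    intro x hx
    exact Real.rpow_nonneg hx.1 _

/-- The truncated kernel `|y|^(-1/2)` on `|y| ≤ t`. -/
noncomputable def ker (t y : ℝ) : ℝ := if |y| ≤ t then |y| ^ (-(1 / 2) : ℝ) else 0

theorem ker_nonneg (t y : ℝ) : 0 ≤ ker t y := by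
  unfold ker; split_ifs
  · positivity
  · exact le_rfl

theorem measurable_ker (t : ℝ) : Measurable (ker t) := by
  unfold ker
  refine Measurable.ite ?_ ?_ measurable_const
  · exact measurableSet_le (by fun_prop) measurable_const
  · exact (measurable_id.abs).pow_const _

theorem lint_ker_le {t : ℝ} (ht : 0 < t) :
    ∫⁻ y, ENNReal.ofReal (ker t y) ≤ ENNReal.ofReal (4 * √t) := by
  set g : ℝ → ℝ≥0∞ := (Icc 0 t).indicator (fun x => ENNReal.ofReal (x ^ (-(1 / 2) : ℝ))) with hg
  have hgm : Measurable g := by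
    refine Measurable.indicator ?_ measurableSet_Icc
    exact (measurable_id.pow_const _).ennreal_ofReal
  have hle : ∀ y, ENNReal.ofReal (ker t y) ≤ g y + g (-y) := by
    intro y
    unfold ker
    split_ifs with h
    · rcases le_total 0 y with hy | hy
      · rw [abs_of_nonneg hy] at h
        have : g y = ENNReal.ofReal (|y| ^ (-(1 / 2) : ℝ)) := by
          rw [hg, indicator_of_mem (by exact ⟨hy, h⟩), abs_of_nonneg hy]
        rw [this]; exact le_self_add
      · rw [abs_of_nonpos hy] at h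
        have : g (-y) = ENNReal.ofReal (|y| ^ (-(1 / 2) : ℝ)) := by
          rw [hg, indicator_of_mem (by exact ⟨by linarith, h⟩), abs_of_nonpos hy]
        rw [this]; exact le_add_self
    · simp
  have hgi : ∫⁻ y, g y = ENNReal.ofReal (2 * √t) := by
    rw [hg, lintegral_indicator measurableSet_Icc, lint_rpow_neg_half ht]
  calc ∫⁻ y, ENNReal.ofReal (ker t y) ≤ ∫⁻ y, (g y + g (-y)) := lintegral_mono hle
    _ = (∫⁻ y, g y) + ∫⁻ y, g (-y) := lintegral_add_left hgm _
    _ = ENNReal.ofReal (2 * √t) + ENNReal.ofReal (2 * √t) := by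
        rw [lintegral_neg_eq_self, hgi]
    _ = ENNReal.ofReal (4 * √t) := by
        rw [← ENNReal.ofReal_add (by positivity) (by positivity)]; congr 1; ring

theorem am_gm_list {δ : ℝ} (hδ : 0 < δ) (l : List ℝ) (hl : ∀ t ∈ l, 0 < t) :
    δ ^ (-(1 / 2) : ℝ) * (l.length + (1 / 2) * (l.length * Real.log δ - Real.log l.prod)) ≤
      (l.map (fun t => t ^ (-(1 / 2) : ℝ))).sum := by
  induction l with
  | nil => simp
  | cons t l ih =>
    have ht : 0 < t := hl t (by simp)
    have hl' : ∀ s ∈ l, 0 < s := fun s hs => hl s (List.mem_cons_of_mem _ hs)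
    have ih' := ih hl'
    have hprod : 0 < l.prod := List.prod_pos hl'
    simp only [List.length_cons, List.prod_cons, List.map_cons, List.sum_cons]
    rw [Real.log_mul ht.ne' hprod.ne']
    have h1 : δ ^ (-(1 / 2) : ℝ) * (1 + (1 / 2) * (Real.log δ - Real.log t)) ≤
        t ^ (-(1 / 2) : ℝ) := by
      have h2 : t ^ (-(1 / 2) : ℝ) =
          δ ^ (-(1 / 2) : ℝ) * Real.exp ((1 / 2) * (Real.log δ - Real.log t)) := by
        rw [Real.rpow_def_of_pos ht, Real.rpow_def_of_pos hδ, ← Real.exp_add]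
        congr 1; ring
      rw [h2]
      refine mul_le_mul_of_nonneg_left ?_ (by positivity)
      have := Real.add_one_le_exp ((1 / 2) * (Real.log δ - Real.log t))
      linarith
    push_cast
    nlinarith [h1, ih']

/-- **Cartan's lemma on the line**: the set where a product of `k` distances is `≤ δ^k` has measure at most
`16 δ`. -/
theorem cartan_real {δ : ℝ} (hδ : 0 < δ) {l : List ℝ} (hl : l ≠ []) {T : Set ℝ}
    (hT : ∀ x ∈ T, (l.map (fun α => |x - α|)).prod ≤ δ ^ l.length) :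
    volume T ≤ ENNReal.ofReal (16 * δ) := by
  have hk : 0 < l.length := List.length_pos_iff.2 hl
  set F : ℝ → ℝ≥0∞ := fun x => (l.map (fun α => ENNReal.ofReal (ker (4 * δ) (x - α)))).sum with hF
  set b : ℝ := l.length * δ ^ (-(1 / 2) : ℝ) / 2 with hb
  have hbpos : 0 < b := by positivity
  have hsub : T ⊆ {x | x ∈ l} ∪ {x | ENNReal.ofReal b ≤ F x} := by
    intro x hx
    by_cases hxl : x ∈ l
    · exact Or.inl hxl
    · right
      have hpos : ∀ t ∈ l.map (fun α => |x - α|), 0 < t := by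
        intro t ht
        obtain ⟨α, hα, rfl⟩ := List.mem_map.1 ht
        refine abs_pos.2 (sub_ne_zero.2 ?_)
        rintro rfl; exact hxl hα
      have h1 := am_gm_list hδ _ hpos
      have hprod := List.prod_pos hpos
      have h2 : Real.log (l.map (fun α => |x - α|)).prod ≤ l.length * Real.log δ := by
        have := Real.log_le_log hprod (hT x hx)
        rwa [Real.log_pow] at this
      rw [List.length_map, List.map_map] at h1
      have h3 : l.length * δ ^ (-(1 / 2) : ℝ) ≤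
          (l.map ((fun t => t ^ (-(1 / 2) : ℝ)) ∘ fun α => |x - α|)).sum := by
        refine le_trans ?_ h1
        have : 0 ≤ δ ^ (-(1 / 2) : ℝ) := by positivity
        nlinarith [mul_nonneg this (sub_nonneg.2 h2)]
      have h4 : ∀ α : ℝ, |x - α| ^ (-(1 / 2) : ℝ) ≤
          ker (4 * δ) (x - α) + δ ^ (-(1 / 2) : ℝ) / 2 := by
        intro α
        unfold ker
        split_ifs with h
        · have : 0 ≤ δ ^ (-(1 / 2) : ℝ) := by positivity
          linarith
        · push Not at h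
          have h5 : |x - α| ^ (-(1 / 2) : ℝ) ≤ (4 * δ) ^ (-(1 / 2) : ℝ) :=
            Real.rpow_le_rpow_of_nonpos (by positivity) h.le (by norm_num)
          have h6 : (4 * δ) ^ (-(1 / 2) : ℝ) = δ ^ (-(1 / 2) : ℝ) / 2 := by
            rw [Real.mul_rpow (by norm_num) hδ.le]
            have : (4 : ℝ) ^ (-(1 / 2) : ℝ) = 1 / 2 := by
              rw [show (4 : ℝ) = 2 ^ (2 : ℝ) by norm_num, ← Real.rpow_mul (by norm_num)]
              norm_num
            rw [this]; ring
          linarith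
      have h7 : (l.map ((fun t => t ^ (-(1 / 2) : ℝ)) ∘ fun α => |x - α|)).sum ≤
          (l.map (fun α => ker (4 * δ) (x - α))).sum + l.length * (δ ^ (-(1 / 2) : ℝ) / 2) := by
        have : ∀ l' : List ℝ, (l'.map ((fun t => t ^ (-(1 / 2) : ℝ)) ∘ fun α => |x - α|)).sum ≤
          (l'.map (fun α => ker (4 * δ) (x - α))).sum + l'.length * (δ ^ (-(1 / 2) : ℝ) / 2) := by
          intro l'
          induction l' with
          | nil => simp
          | cons α l' ih =>
            simp only [List.map_cons, List.sum_cons, List.length_cons, Function.comp_apply]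
            push_cast
            have := h4 α
            simp only [Function.comp_def] at ih ⊢
            linarith
        exact this l
      have h8 : b ≤ (l.map (fun α => ker (4 * δ) (x - α))).sum := by
        rw [hb]; linarith
      have h9 : F x = ENNReal.ofReal (l.map (fun α => ker (4 * δ) (x - α))).sum := by
        rw [hF]
        have : ∀ l' : List ℝ, (l'.map (fun α => ENNReal.ofReal (ker (4 * δ) (x - α)))).sum =
            ENNReal.ofReal (l'.map (fun α => ker (4 * δ) (x - α))).sum := by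
          intro l'
          induction l' with
          | nil => simp
          | cons α l' ih =>
            simp only [List.map_cons, List.sum_cons]
            rw [ENNReal.ofReal_add (ker_nonneg _ _) ?_, ih]
            refine List.sum_nonneg ?_
            intro y hy
            obtain ⟨β, -, rfl⟩ := List.mem_map.1 hy
            exact ker_nonneg _ _
        exact this l
      show ENNReal.ofReal b ≤ F x
      rw [h9]
      exact ENNReal.ofReal_le_ofReal h8
  have hFint : ∫⁻ x, F x ≤ l.length * ENNReal.ofReal (4 * √(4 * δ)) := by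
    have : ∀ l' : List ℝ, (Measurable fun x =>
        (l'.map (fun α => ENNReal.ofReal (ker (4 * δ) (x - α)))).sum) ∧
        ∫⁻ x, (l'.map (fun α => ENNReal.ofReal (ker (4 * δ) (x - α)))).sum ≤
        l'.length * ENNReal.ofReal (4 * √(4 * δ)) := by
      intro l'
      induction l' with
      | nil => simp
      | cons α l' ih =>
        have hm : Measurable fun x => ENNReal.ofReal (ker (4 * δ) (x - α)) :=
          ((measurable_ker _).comp (measurable_id.sub_const α)).ennreal_ofReal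
        refine ⟨?_, ?_⟩
        · simp only [List.map_cons, List.sum_cons]
          exact hm.add ih.1
        · simp only [List.map_cons, List.sum_cons, List.length_cons]
          rw [lintegral_add_left hm]
          have h1 : ∫⁻ x, ENNReal.ofReal (ker (4 * δ) (x - α)) ≤ ENNReal.ofReal (4 * √(4 * δ)) := by
            rw [lintegral_sub_right_eq_self (fun y => ENNReal.ofReal (ker (4 * δ) y)) α]
            exact lint_ker_le (by positivity)
          calc _ ≤ ENNReal.ofReal (4 * √(4 * δ)) + l'.length * ENNReal.ofReal (4 * √(4 * δ)) :=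
                add_le_add h1 ih.2
            _ = _ := by push_cast; ring
    exact (this l).2
  have hFm : Measurable F := by
    have : ∀ l' : List ℝ, (Measurable fun x =>
        (l'.map (fun α => ENNReal.ofReal (ker (4 * δ) (x - α)))).sum) := by
      intro l'
      induction l' with
      | nil => simp
      | cons α l' ih =>
        have hm : Measurable fun x => ENNReal.ofReal (ker (4 * δ) (x - α)) :=
          ((measurable_ker _).comp (measurable_id.sub_const α)).ennreal_ofReal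
        simp only [List.map_cons, List.sum_cons]
        exact hm.add ih
    exact this l
  have hmark := meas_ge_le_lintegral_div (μ := volume) hFm.aemeasurable
    (ε := ENNReal.ofReal b) (by simpa using hbpos) ENNReal.ofReal_ne_top
  have hZ : volume {x : ℝ | x ∈ l} = 0 := (List.finite_toSet l).measure_zero _
  calc volume T ≤ volume ({x | x ∈ l} ∪ {x | ENNReal.ofReal b ≤ F x}) := measure_mono hsub
    _ ≤ volume {x : ℝ | x ∈ l} + volume {x | ENNReal.ofReal b ≤ F x} := measure_union_le _ _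
    _ ≤ 0 + (l.length * ENNReal.ofReal (4 * √(4 * δ))) / ENNReal.ofReal b := by
        rw [hZ]
        refine add_le_add le_rfl (hmark.trans ?_)
        exact ENNReal.div_le_div_right hFint _
    _ = ENNReal.ofReal (16 * δ) := by
        rw [zero_add, show (l.length : ℝ≥0∞) = ENNReal.ofReal (l.length : ℝ) by simp,
          ← ENNReal.ofReal_mul (by positivity), ← ENNReal.ofReal_div_of_pos hbpos]
        congr 1
        have h1 : √(4 * δ) = 2 * √δ := by
          rw [Real.sqrt_mul (by norm_num), show (4 : ℝ) = 2 ^ 2 by norm_num,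
            Real.sqrt_sq (by norm_num)]
        have h2 : δ ^ (-(1 / 2) : ℝ) = (√δ)⁻¹ := by
          rw [Real.rpow_neg hδ.le, Real.sqrt_eq_rpow]
        have h3 : 0 < √δ := Real.sqrt_pos.2 hδ
        have h4 : (l.length : ℝ) ≠ 0 := by exact_mod_cast hk.ne'
        rw [hb, h1, h2]
        field_simp
        rw [Real.sq_sqrt hδ.le]
        ring

/-! ### Consequences for bounded analytic functions on a disc with arbitrary center -/

/-- Pointwise lower bound by a product of distances, and all zeros of the half disc are in the list. -/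
theorem exists_list {R M m : ℝ} (hR : 0 < R) (hm : 0 < m) (N : ℕ) (hMN : M ≤ 2 ^ N * m) {c : ℂ}
    {f : ℂ → ℂ} (hf : DiffContOnCl ℂ f (ball c R))
    (hM : ∀ z ∈ closedBall c R, ‖f z‖ ≤ M) (hc : m ≤ ‖f c‖) :
    ∃ l : List ℂ, l.length ≤ N ∧ (∀ a ∈ l, ‖a - c‖ ≤ R / 2) ∧
      (∀ z ∈ closedBall c (R / 2), f z = 0 → z ∈ l) ∧
      ∀ z ∈ closedBall c (R / 4),
        m ^ 3 / M ^ 2 * (l.map (fun a => ‖z - a‖ / (2 * R))).prod ≤ ‖f z‖ := by
  have hM0 : 0 < M := lt_of_lt_of_le (lt_of_lt_of_le hm hc) (hM c (by simp [hR.le]))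
  set f' : ℂ → ℂ := fun w => f (c + w) with hf'
  have hmaps : MapsTo (fun w : ℂ => c + w) (ball 0 R) (ball c R) := by
    intro w hw
    simpa [mem_ball, dist_eq_norm] using hw
  have hf'd : DiffContOnCl ℂ f' (ball 0 R) := by
    refine hf.comp (g := fun w : ℂ => c + w) ?_ hmaps
    exact (by fun_prop : Differentiable ℂ (fun w : ℂ => c + w)).diffContOnCl
  have hf'M : ∀ z ∈ closedBall (0 : ℂ) R, ‖f' z‖ ≤ M := by
    intro z hz
    refine hM _ ?_
    simpa [mem_closedBall, dist_eq_norm] using hz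
  have hf'0 : m ≤ ‖f' 0‖ := by simpa [hf'] using hc
  have hne : f' 0 ≠ 0 := norm_pos_iff.1 (lt_of_lt_of_le hm hf'0)
  have hlt : M < 2 ^ (N + 1) * ‖f' 0‖ := by
    calc M ≤ 2 ^ N * m := hMN
      _ < 2 ^ (N + 1) * m := by
        rw [pow_succ]; nlinarith [pow_pos (show (0 : ℝ) < 2 by norm_num) N, mul_pos (pow_pos (show (0 : ℝ) < 2 by norm_num) N) hm]
      _ ≤ 2 ^ (N + 1) * ‖f' 0‖ := by gcongr
  obtain ⟨l, h, hl, hla, hh, hhM, hhz, hh0, hfac⟩ :=
    exists_factorization hR N hf'd hf'M hne hlt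
  refine ⟨l.map (fun a => c + a), by simpa using hl, ?_, ?_, ?_⟩
  · intro a ha
    obtain ⟨b, hb, rfl⟩ := List.mem_map.1 ha
    simpa using hla b hb
  · intro z hz hfz
    have hz' : ‖z - c‖ ≤ R / 2 := by simpa [dist_eq_norm] using hz
    have h1 : f' (z - c) = 0 := by simp [hf', hfz]
    have h2 := hfac (z - c) (by simp; linarith)
    rw [h1] at h2
    have h3 := hhz (z - c) (by simpa using hz')
    have h4 : (l.map (fun a => bl R a (z - c))).prod = 0 := by
      rcases mul_eq_zero.1 h2.symm with h | h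
      · exact absurd h h3
      · exact h
    rw [List.prod_eq_zero_iff] at h4
    obtain ⟨a, ha, hab⟩ := List.mem_map.1 h4
    have hlb := le_norm_bl hR (a := a) (z := z - c) (by linarith [hla a ha]) (by linarith)
    rw [hab, norm_zero] at hlb
    have h5 : ‖z - c - a‖ ≤ 0 := by
      rw [div_le_iff₀ (by positivity)] at hlb
      simpa using hlb
    have h6 : z - c - a = 0 := norm_le_zero_iff.1 h5
    refine List.mem_map.2 ⟨a, ha, ?_⟩
    linear_combination -h6
  · intro z hz
    have hz' : ‖z - c‖ ≤ R / 4 := by simpa [dist_eq_norm] using hz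
    have hfz : f z = f' (z - c) := by simp [hf']
    rw [hfz, hfac (z - c) (by simp; linarith), norm_mul]
    have hha : AnalyticOnNhd ℂ h (closedBall 0 (R / 2)) :=
      (hh.differentiableOn.analyticOnNhd isOpen_ball).mono (closedBall_subset_ball (by linarith))
    have hhar := harnack (r := R / 2) (by linarith) hM0 hha
      (fun w hw => hhM w (closedBall_subset_closedBall (by linarith) hw)) hhz
      (z := z - c) (by linarith)
    have hm0 : m ≤ ‖h 0‖ := by
      refine hf'0.trans (le_trans ?_ hh0)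
      have : (1 : ℝ) ≤ 2 ^ l.length := one_le_pow₀ (by norm_num)
      nlinarith [norm_nonneg (f' 0)]
    have h1 : m ^ 3 / M ^ 2 ≤ ‖h (z - c)‖ := by
      refine le_trans ?_ hhar
      rw [div_pow]
      have : m ^ 3 ≤ ‖h 0‖ ^ 3 := by gcongr
      calc m ^ 3 / M ^ 2 ≤ ‖h 0‖ ^ 3 / M ^ 2 := by gcongr
        _ = M * (‖h 0‖ ^ 3 / M ^ 3) := by field_simp
    have h2 : ((l.map (fun a => c + a)).map (fun a => ‖z - a‖ / (2 * R))).prod ≤
        ‖(l.map (fun a => bl R a (z - c))).prod‖ ∧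
        0 ≤ ((l.map (fun a => c + a)).map (fun a => ‖z - a‖ / (2 * R))).prod := by
      clear hfac hhar h1 hh0 hm0 hl
      induction l with
      | nil => simp
      | cons a l ih =>
        have ih' := ih (fun b hb => hla b (List.mem_cons_of_mem _ hb))
        have ha := hla a (by simp)
        have hb := le_norm_bl hR (a := a) (z := z - c) (by linarith) (by linarith)
        have h3 : ‖z - (c + a)‖ = ‖z - c - a‖ := by congr 1; ring
        simp only [List.map_cons, List.prod_cons, norm_mul]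
        refine ⟨?_, mul_nonneg (by positivity) ih'.2⟩
        rw [h3]
        exact mul_le_mul hb ih'.1 ih'.2 (norm_nonneg _)
    exact mul_le_mul h1 h2.1 h2.2 (norm_nonneg _)

/-- Jensen type bound on the number of zeros. -/
theorem card_zeros_le {R M m : ℝ} (hR : 0 < R) (hm : 0 < m) (N : ℕ) (hMN : M ≤ 2 ^ N * m) {c : ℂ}
    {f : ℂ → ℂ} (hf : DiffContOnCl ℂ f (ball c R))
    (hM : ∀ z ∈ closedBall c R, ‖f z‖ ≤ M) (hc : m ≤ ‖f c‖) (s : Finset ℂ)
    (hs : ∀ z ∈ s, ‖z - c‖ ≤ R / 2 ∧ f z = 0) : s.card ≤ N := by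
  classical
  obtain ⟨l, hl, -, hz, -⟩ := exists_list hR hm N hMN hf hM hc
  have : s ⊆ l.toFinset := by
    intro z hzs
    exact List.mem_toFinset.2 (hz z (by simpa [dist_eq_norm] using (hs z hzs).1) (hs z hzs).2)
  exact (Finset.card_le_card this).trans ((List.toFinset_card_le l).trans hl)

/-- **Remez inequality** for bounded analytic functions on a disc: the sublevel set on the real line. -/
theorem remez {R M m ε : ℝ} (hR : 0 < R) (hm : 0 < m) (hε : 0 < ε) {N : ℕ} (hN : 1 ≤ N)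
    (hMN : M ≤ 2 ^ N * m) {c : ℂ} {f : ℂ → ℂ} (hf : DiffContOnCl ℂ f (ball c R))
    (hM : ∀ z ∈ closedBall c R, ‖f z‖ ≤ M) (hc : m ≤ ‖f c‖) :
    volume {x : ℝ | ‖(x : ℂ) - c‖ ≤ R / 4 ∧ ‖f x‖ ≤ ε} ≤
      ENNReal.ofReal (128 * R * (ε / m) ^ (1 / N : ℝ)) := by
  have hM0 : 0 < M := lt_of_lt_of_le (lt_of_lt_of_le hm hc) (hM c (by simp [hR.le]))
  have hmM : m ≤ M := hc.trans (hM c (by simp [hR.le]))
  set η : ℝ := ε * M ^ 2 / m ^ 3 with hη
  have hη0 : 0 < η := by positivity
  have hNr : (0 : ℝ) < N := by exact_mod_cast hN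
  -- comparison of the right hand sides
  have hηle : η ^ (1 / N : ℝ) ≤ 4 * (ε / m) ^ (1 / N : ℝ) := by
    have h1 : η = (ε / m) * (M / m) ^ 2 := by rw [hη]; field_simp
    have h2 : (M / m) ^ 2 ≤ (4 : ℝ) ^ (N : ℕ) := by
      have : M / m ≤ 2 ^ N := by rw [div_le_iff₀ hm]; exact hMN
      calc (M / m) ^ 2 ≤ ((2 : ℝ) ^ N) ^ 2 := by gcongr
        _ = 4 ^ N := by rw [← pow_mul, mul_comm, pow_mul]; norm_num
    have h3 : ((4 : ℝ) ^ (N : ℕ)) ^ (1 / N : ℝ) = 4 := by
      rw [one_div, Real.pow_rpow_inv_natCast (by norm_num) (by omega)]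
    rw [h1, Real.mul_rpow (by positivity) (by positivity)]
    calc (ε / m) ^ (1 / N : ℝ) * ((M / m) ^ 2) ^ (1 / N : ℝ)
        ≤ (ε / m) ^ (1 / N : ℝ) * ((4 : ℝ) ^ (N : ℕ)) ^ (1 / N : ℝ) := by gcongr
      _ = 4 * (ε / m) ^ (1 / N : ℝ) := by rw [h3]; ring
  set T : Set ℝ := {x : ℝ | ‖(x : ℂ) - c‖ ≤ R / 4 ∧ ‖f x‖ ≤ ε} with hTdef
  suffices hsuff : volume T ≤ ENNReal.ofReal (32 * R * η ^ (1 / N : ℝ)) by
    refine hsuff.trans (ENNReal.ofReal_le_ofReal ?_)
    calc 32 * R * η ^ (1 / N : ℝ) ≤ 32 * R * (4 * (ε / m) ^ (1 / N : ℝ)) := by gcongr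
      _ = _ := by ring
  rcases le_or_gt 1 η with hη1 | hη1
  · -- trivial bound
    have hsub : T ⊆ Icc (c.re - R / 4) (c.re + R / 4) := by
      intro x hx
      have h1 : |x - c.re| ≤ R / 4 := by
        refine le_trans ?_ hx.1
        have := Complex.abs_re_le_norm ((x : ℂ) - c)
        simpa using this
      rw [abs_le] at h1
      constructor <;> linarith [h1.1, h1.2]
    calc volume T ≤ volume (Icc (c.re - R / 4) (c.re + R / 4)) := measure_mono hsub
      _ = ENNReal.ofReal (R / 2) := by rw [Real.volume_Icc]; congr 1; ring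
      _ ≤ _ := by
        refine ENNReal.ofReal_le_ofReal ?_
        have : 1 ≤ η ^ (1 / N : ℝ) := Real.one_le_rpow hη1 (by positivity)
        nlinarith
  · obtain ⟨l, hl, hla, -, hlow⟩ := exists_list hR hm N hMN hf hM hc
    have hprod : ∀ x ∈ T, (l.map (fun a => ‖(x : ℂ) - a‖ / (2 * R))).prod ≤ η := by
      intro x hx
      have h1 := hlow x (by simpa [dist_eq_norm] using hx.1)
      have h2 := h1.trans hx.2
      have h3 : 0 < m ^ 3 / M ^ 2 := by positivity
      rw [mul_comm, ← le_div_iff₀ h3] at h2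
      refine h2.trans (le_of_eq ?_)
      rw [hη]; field_simp
    by_cases hl0 : l = []
    · have : T = ∅ := by
        refine eq_empty_iff_forall_notMem.2 ?_
        intro x hx
        have := hprod x hx
        rw [hl0] at this
        simp at this
        linarith
      rw [this]; simp
    · have hk : 0 < l.length := List.length_pos_iff.2 hl0
      have hkr : (0 : ℝ) < l.length := by exact_mod_cast hk
      set δ : ℝ := 2 * R * η ^ (1 / l.length : ℝ) with hδ
      have hδ0 : 0 < δ := by positivity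
      have hcart := cartan_real hδ0 (l := l.map Complex.re) (by simpa using hl0) (T := T) ?_
      · refine hcart.trans (ENNReal.ofReal_le_ofReal ?_)
        have : η ^ (1 / l.length : ℝ) ≤ η ^ (1 / N : ℝ) := by
          refine Real.rpow_le_rpow_of_exponent_ge hη0 hη1.le ?_
          exact one_div_le_one_div_of_le hkr (by exact_mod_cast hl)
        rw [hδ]
        nlinarith
      · intro x hx
        have h1 := hprod x hx
        have h2 : (l.map (fun a => ‖(x : ℂ) - a‖ / (2 * R))).prod * (2 * R) ^ l.length =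
            (l.map (fun a => ‖(x : ℂ) - a‖)).prod := by
          clear h1 hprod hlow hla hl hl0 hk hkr hδ hδ0
          induction l with
          | nil => simp
          | cons a l ih =>
            simp only [List.map_cons, List.prod_cons, List.length_cons, pow_succ]
            rw [← ih]; field_simp
        have h3 : ((l.map Complex.re).map (fun α => |x - α|)).prod ≤
            (l.map (fun a => ‖(x : ℂ) - a‖)).prod ∧
            0 ≤ ((l.map Complex.re).map (fun α => |x - α|)).prod := by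
          clear h1 h2 hprod hlow hla hl hl0 hk hkr hδ hδ0
          induction l with
          | nil => simp
          | cons a l ih =>
            simp only [List.map_cons, List.prod_cons]
            refine ⟨?_, mul_nonneg (abs_nonneg _) ih.2⟩
            refine mul_le_mul ?_ ih.1 ih.2 (norm_nonneg _)
            have := Complex.abs_re_le_norm ((x : ℂ) - a)
            simpa using this
        refine h3.1.trans ?_
        have h4 : (η ^ (1 / l.length : ℝ)) ^ l.length = η := by
          rw [one_div]; exact Real.rpow_inv_natCast_pow hη0.le (by omega)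
        rw [← h2, List.length_map, hδ, mul_pow (2 * R), h4, mul_comm]
        exact mul_le_mul_of_nonneg_left h1 (by positivity)

/-- **Remez inequality**, real interval version: `f` is analytic and bounded by `M` on the disc of radius
`9 ρ` around `x₀` and `‖f z₀‖ ≥ m` at some point of the disc of radius `ρ`. -/
theorem remez_interval {ρ M m ε x₀ : ℝ} (hρ : 0 < ρ) (hm : 0 < m) (hε : 0 < ε) {N : ℕ}
    (hN : 1 ≤ N) (hMN : M ≤ 2 ^ N * m) {f : ℂ → ℂ}
    (hf : DifferentiableOn ℂ f (closedBall (x₀ : ℂ) (9 * ρ)))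
    (hM : ∀ z ∈ closedBall (x₀ : ℂ) (9 * ρ), ‖f z‖ ≤ M) {z₀ : ℂ} (hz₀ : ‖z₀ - x₀‖ ≤ ρ)
    (hc : m ≤ ‖f z₀‖) :
    volume {x : ℝ | |x - x₀| ≤ ρ ∧ ‖f x‖ ≤ ε} ≤
      ENNReal.ofReal (1024 * ρ * (ε / m) ^ (1 / N : ℝ)) := by
  have hsub : closedBall z₀ (8 * ρ) ⊆ closedBall (x₀ : ℂ) (9 * ρ) := by
    refine closedBall_subset_closedBall' ?_
    rw [dist_eq_norm]; linarith
  have hd : DiffContOnCl ℂ f (ball z₀ (8 * ρ)) := by
    refine DifferentiableOn.diffContOnCl ?_
    rw [closure_ball z₀ (by positivity : (8 * ρ) ≠ 0)]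
    exact hf.mono hsub
  have h := remez (R := 8 * ρ) (by positivity) hm hε hN hMN hd (fun z hz => hM z (hsub hz)) hc
  refine le_trans (measure_mono ?_) (h.trans (le_of_eq ?_))
  · intro x hx
    refine ⟨?_, hx.2⟩
    have h1 : ‖(x : ℂ) - x₀‖ ≤ ρ := by
      rw [← Complex.ofReal_sub, Complex.norm_real]; exact hx.1
    calc ‖(x : ℂ) - z₀‖ = ‖((x : ℂ) - x₀) - (z₀ - x₀)‖ := by congr 1; ring
      _ ≤ ‖(x : ℂ) - x₀‖ + ‖z₀ - x₀‖ := norm_sub_le _ _
      _ ≤ 8 * ρ / 4 := by linarith
  · congr 1; ring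

/-- Zero counting, interval version. -/
theorem card_zeros_interval_le {ρ M m x₀ : ℝ} (hρ : 0 < ρ) (hm : 0 < m) {N : ℕ}
    (hMN : M ≤ 2 ^ N * m) {f : ℂ → ℂ}
    (hf : DifferentiableOn ℂ f (closedBall (x₀ : ℂ) (5 * ρ)))
    (hM : ∀ z ∈ closedBall (x₀ : ℂ) (5 * ρ), ‖f z‖ ≤ M) {z₀ : ℂ} (hz₀ : ‖z₀ - x₀‖ ≤ ρ)
    (hc : m ≤ ‖f z₀‖) (s : Finset ℝ) (hs : ∀ x ∈ s, |x - x₀| ≤ ρ ∧ f x = 0) : s.card ≤ N := by
  have hsub : closedBall z₀ (4 * ρ) ⊆ closedBall (x₀ : ℂ) (5 * ρ) := by
    refine closedBall_subset_closedBall' ?_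
    rw [dist_eq_norm]; linarith
  have hd : DiffContOnCl ℂ f (ball z₀ (4 * ρ)) := by
    refine DifferentiableOn.diffContOnCl ?_
    rw [closure_ball z₀ (by positivity : (4 * ρ) ≠ 0)]
    exact hf.mono hsub
  have h := card_zeros_le (R := 4 * ρ) (by positivity) hm N hMN hd (fun z hz => hM z (hsub hz)) hc
    (s.map ⟨fun x : ℝ => (x : ℂ), Complex.ofReal_injective⟩) ?_
  · simpa using h
  · intro z hz
    simp only [Finset.mem_map, Function.Embedding.coeFn_mk] at hz
    obtain ⟨x, hx, rfl⟩ := hz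
    refine ⟨?_, (hs x hx).2⟩
    have h1 : ‖(x : ℂ) - x₀‖ ≤ ρ := by
      rw [← Complex.ofReal_sub, Complex.norm_real]; exact (hs x hx).1
    calc ‖(x : ℂ) - z₀‖ = ‖((x : ℂ) - x₀) - (z₀ - x₀)‖ := by congr 1; ring
      _ ≤ ‖(x : ℂ) - x₀‖ + ‖z₀ - x₀‖ := norm_sub_le _ _
      _ ≤ 4 * ρ / 2 := by linarith

/-! ### Components of sublevel sets -/

/-- A sublevel set `{G ≤ 0}` of a continuous function with zeros in the finite set `Z` is a union of intervals
indexed by `insert b Z`. -/
theorem sublevel_eq_iUnion {a b : ℝ} {G : ℝ → ℝ} (hG : ContinuousOn G (Icc a b)) (Z : Finset ℝ)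
    (hZ : ∀ x ∈ Icc a b, G x = 0 → x ∈ Z) :
    ∃ J : ℝ → Set ℝ, (∀ t, (J t).OrdConnected) ∧
      {x | x ∈ Icc a b ∧ G x ≤ 0} = ⋃ t ∈ insert b Z, J t := by
  refine ⟨fun t => {x | x ∈ Icc a b ∧ x ≤ t ∧ t ≤ b ∧ ∀ y ∈ Icc x t, G y ≤ 0}, ?_, ?_⟩
  · intro t
    refine ⟨fun x hx y hy z hz => ?_⟩
    refine ⟨⟨hx.1.1.trans hz.1, hz.2.trans hy.1.2⟩, hz.2.trans hy.2.1, hx.2.2.1, ?_⟩
    intro w hw
    exact hx.2.2.2 w ⟨hz.1.trans hw.1, hw.2⟩
  · ext x
    simp only [mem_ofPred_eq, mem_iUnion, exists_prop]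
    constructor
    · rintro ⟨hx, hGx⟩
      by_cases hall : ∀ y ∈ Icc x b, G y ≤ 0
      · exact ⟨b, by simp, hx, hx.2, le_rfl, hall⟩
      · push Not at hall
        obtain ⟨y, hy, hGy⟩ := hall
        have hzero : ∀ y' ∈ Icc x b, 0 < G y' → ∃ z ∈ Icc x y', G z = 0 := by
          intro y' hy' hGy'
          have hcont : ContinuousOn G (Icc x y') :=
            hG.mono (Icc_subset_Icc hx.1 hy'.2)
          have := intermediate_value_Icc hy'.1 hcont ⟨hGx, hGy'.le⟩
          obtain ⟨z, hz, hGz⟩ := this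
          exact ⟨z, hz, hGz⟩
        classical
        set Z' : Finset ℝ := Z.filter (fun z => z ∈ Icc x y ∧ G z = 0) with hZ'
        have hne : Z'.Nonempty := by
          obtain ⟨z, hz, hGz⟩ := hzero y hy hGy
          exact ⟨z, Finset.mem_filter.2
            ⟨hZ z ⟨hx.1.trans hz.1, hz.2.trans hy.2⟩ hGz, hz, hGz⟩⟩
        set z := Z'.min' hne with hzdef
        have hzm := Finset.min'_mem Z' hne
        rw [← hzdef] at hzm
        obtain ⟨hzZ, hzI, hGz⟩ := Finset.mem_filter.1 hzm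
        refine ⟨z, Finset.mem_insert_of_mem hzZ, hx, hzI.1, hzI.2.trans hy.2, ?_⟩
        intro y' hy'
        by_contra hcon
        push Not at hcon
        obtain ⟨w, hw, hGw⟩ := hzero y' ⟨hy'.1, hy'.2.trans (hzI.2.trans hy.2)⟩ hcon
        have hwZ : w ∈ Z' := Finset.mem_filter.2
          ⟨hZ w ⟨hx.1.trans hw.1, hw.2.trans (hy'.2.trans (hzI.2.trans hy.2))⟩ hGw,
            ⟨hw.1, hw.2.trans (hy'.2.trans hzI.2)⟩, hGw⟩
        have h1 : z ≤ w := Finset.min'_le _ _ hwZ
        have h2 : w = z := le_antisymm (hw.2.trans hy'.2) h1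
        have h3 : y' = z := le_antisymm hy'.2 (h2 ▸ hw.2)
        rw [h3, hGz] at hcon
        exact lt_irrefl _ hcon
    · rintro ⟨t, -, hx, hxt, -, h⟩
      exact ⟨hx, h x ⟨le_rfl, hxt⟩⟩

/-- `Fin`-indexed version. -/
theorem sublevel_eq_iUnion_fin {a b : ℝ} {G : ℝ → ℝ} (hG : ContinuousOn G (Icc a b)) {N : ℕ}
    (hN : ∀ s : Finset ℝ, (∀ x ∈ s, x ∈ Icc a b ∧ G x = 0) → s.card ≤ N) :
    ∃ J : Fin (N + 1) → Set ℝ, (∀ i, (J i).OrdConnected) ∧
      {x | x ∈ Icc a b ∧ G x ≤ 0} = ⋃ i, J i := by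
  classical
  have hfin : {x | x ∈ Icc a b ∧ G x = 0}.Finite := by
    by_contra hinf
    obtain ⟨s, hs, hcard⟩ := Set.Infinite.exists_subset_card_eq hinf (N + 1)
    have := hN s (fun x hx => hs hx)
    omega
  set Z : Finset ℝ := hfin.toFinset with hZdef
  have hZcard : Z.card ≤ N := hN Z (fun x hx => hfin.mem_toFinset.1 hx)
  obtain ⟨J, hJ, heq⟩ := sublevel_eq_iUnion hG Z
    (fun x hx h => hfin.mem_toFinset.2 ⟨hx, h⟩)
  have hcard : (insert b Z).card ≤ N + 1 := (Finset.card_insert_le _ _).trans (by omega)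
  set e := (insert b Z).equivFin with he
  refine ⟨fun i => if h : (i : ℕ) < (insert b Z).card then J (e.symm ⟨i, h⟩) else ∅, ?_, ?_⟩
  · intro i
    dsimp only
    split_ifs
    · exact hJ _
    · exact ordConnected_empty
  · rw [heq]
    ext x
    simp only [mem_iUnion, exists_prop]
    constructor
    · rintro ⟨t, ht, hx⟩
      set k := e ⟨t, ht⟩ with hk
      refine ⟨⟨k, lt_of_lt_of_le k.2 hcard⟩, ?_⟩
      rw [dif_pos k.2]
      have : e.symm ⟨(k : ℕ), k.2⟩ = ⟨t, ht⟩ := by
        rw [Fin.eta, hk, Equiv.symm_apply_apply]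
      simpa [this] using hx
    · rintro ⟨i, hi⟩
      split_ifs at hi with h
      · exact ⟨_, (e.symm ⟨i, h⟩).2, hi⟩
      · exact absurd hi (notMem_empty x)

/-- `z ↦ conj (f (conj z))` is analytic on discs centered on the real line. -/
theorem differentiableOn_conj_conj {x₀ r : ℝ} {f : ℂ → ℂ}
    (hf : DifferentiableOn ℂ f (ball (x₀ : ℂ) r)) :
    DifferentiableOn ℂ (fun z => conj (f (conj z))) (ball (x₀ : ℂ) r) := by
  intro z hz
  have hz' : conj z ∈ ball (x₀ : ℂ) r := by
    rw [mem_ball, dist_eq_norm] at hz ⊢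
    have : conj z - (x₀ : ℂ) = conj (z - x₀) := by simp
    rw [this, Complex.norm_conj]; exact hz
  have h1 : DifferentiableAt ℂ f (conj z) :=
    (hf _ hz').differentiableAt (isOpen_ball.mem_nhds hz')
  have h2 := h1.hasDerivAt.conj_conj
  rw [Complex.conj_conj] at h2
  exact h2.differentiableAt.differentiableWithinAt

/-- The set where a finite family of analytic functions has `∑ ‖f i x‖² ≤ B` is a union of at most
`N + 1` intervals. -/
theorem sublevel_sumsq {ι : Type*} (s : Finset ι) {ρ M m x₀ B : ℝ} (hρ : 0 < ρ) (hm : 0 < m) {N : ℕ}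
    (hMN : s.card * M ^ 2 + |B| ≤ 2 ^ N * m) {f : ι → ℂ → ℂ}
    (hf : ∀ i ∈ s, DifferentiableOn ℂ (f i) (ball (x₀ : ℂ) (6 * ρ)))
    (hM : ∀ i ∈ s, ∀ z ∈ ball (x₀ : ℂ) (6 * ρ), ‖f i z‖ ≤ M) {z₀ : ℝ} (hz₀ : |z₀ - x₀| ≤ ρ)
    (hc : m ≤ |∑ i ∈ s, ‖f i z₀‖ ^ 2 - B|) :
    ∃ J : Fin (N + 1) → Set ℝ, (∀ i, (J i).OrdConnected) ∧
      {x : ℝ | |x - x₀| ≤ ρ ∧ ∑ i ∈ s, ‖f i x‖ ^ 2 ≤ B} = ⋃ i, J i := by
  set g : ℂ → ℂ := fun z => ∑ i ∈ s, f i z * conj (f i (conj z)) - B with hg
  have hcc : ∀ z ∈ ball (x₀ : ℂ) (6 * ρ), conj z ∈ ball (x₀ : ℂ) (6 * ρ) := by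
    intro z hz
    rw [mem_ball, dist_eq_norm] at hz ⊢
    have : conj z - (x₀ : ℂ) = conj (z - x₀) := by simp
    rw [this, Complex.norm_conj]; exact hz
  have hgd : DifferentiableOn ℂ g (ball (x₀ : ℂ) (6 * ρ)) := by
    refine DifferentiableOn.sub_const ?_ _
    refine DifferentiableOn.fun_sum ?_
    intro i hi
    exact (hf i hi).mul (differentiableOn_conj_conj (hf i hi))
  have hsub : closedBall (x₀ : ℂ) (5 * ρ) ⊆ ball (x₀ : ℂ) (6 * ρ) :=
    closedBall_subset_ball (by linarith)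
  have hgM : ∀ z ∈ closedBall (x₀ : ℂ) (5 * ρ), ‖g z‖ ≤ s.card * M ^ 2 + |B| := by
    intro z hz
    have hz1 := hsub hz
    calc ‖g z‖ ≤ ‖∑ i ∈ s, f i z * conj (f i (conj z))‖ + ‖(B : ℂ)‖ := norm_sub_le _ _
      _ ≤ ∑ i ∈ s, ‖f i z * conj (f i (conj z))‖ + |B| := by
          refine add_le_add (norm_sum_le _ _) (le_of_eq ?_)
          simp
      _ ≤ ∑ i ∈ s, M ^ 2 + |B| := by
          refine add_le_add (Finset.sum_le_sum ?_) le_rfl
          intro i hi
          rw [norm_mul, Complex.norm_conj, sq]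
          have h1 := hM i hi z hz1
          have h2 := hM i hi _ (hcc z hz1)
          exact mul_le_mul h1 h2 (norm_nonneg _) ((norm_nonneg _).trans h1)
      _ = s.card * M ^ 2 + |B| := by simp
  have hreal : ∀ x : ℝ, g x = ((∑ i ∈ s, ‖f i x‖ ^ 2 - B : ℝ) : ℂ) := by
    intro x
    simp only [hg, Complex.conj_ofReal]
    push_cast
    congr 1
    refine Finset.sum_congr rfl ?_
    intro i _
    rw [Complex.mul_conj, Complex.normSq_eq_norm_sq]
    push_cast; rfl
  have hreal0 : ∀ x : ℝ, ∑ i ∈ s, ‖f i x‖ ^ 2 - B = 0 → g x = 0 := by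
    intro x hx; rw [hreal, hx]; simp
  have hIcc : ∀ x : ℝ, |x - x₀| ≤ ρ ↔ x ∈ Icc (x₀ - ρ) (x₀ + ρ) := by
    intro x; rw [abs_le, mem_Icc]; constructor <;> rintro ⟨h1, h2⟩ <;> constructor <;> linarith
  have hcont : ContinuousOn (fun x : ℝ => ∑ i ∈ s, ‖f i x‖ ^ 2 - B) (Icc (x₀ - ρ) (x₀ + ρ)) := by
    refine ContinuousOn.sub ?_ continuousOn_const
    refine continuousOn_finsetSum _ ?_
    intro i hi
    refine ContinuousOn.pow ?_ 2
    refine ContinuousOn.norm ?_
    refine (hf i hi).continuousOn.comp Complex.continuous_ofReal.continuousOn ?_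
    intro x hx
    have := (hIcc x).2 hx
    rw [mem_ball, dist_eq_norm, ← Complex.ofReal_sub, Complex.norm_real, Real.norm_eq_abs]
    linarith
  have hcount : ∀ t : Finset ℝ, (∀ x ∈ t, x ∈ Icc (x₀ - ρ) (x₀ + ρ) ∧
      ∑ i ∈ s, ‖f i x‖ ^ 2 - B = 0) → t.card ≤ N := by
    intro t ht
    refine card_zeros_interval_le (M := s.card * M ^ 2 + |B|) (z₀ := (z₀ : ℂ)) hρ hm hMN
      (hgd.mono hsub) hgM ?_ ?_ t ?_
    · rw [← Complex.ofReal_sub, Complex.norm_real]; exact hz₀
    · rw [hreal, Complex.norm_real]; exact hc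
    · intro x hx
      exact ⟨(hIcc x).2 (ht x hx).1, hreal0 x (ht x hx).2⟩
  obtain ⟨J, hJ, heq⟩ := sublevel_eq_iUnion_fin hcont hcount
  refine ⟨J, hJ, ?_⟩
  rw [← heq]
  ext x
  simp only [mem_ofPred_eq, hIcc, sub_nonpos]

end Crest.Agent.R128.Remez
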