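/-
R128, node P4-POLYC (helper796): sums of holomorphic blocks are polynomials of bounded degree up to
a small error on a much smaller disc; Remez inequality for polynomials of bounded degree on an
interval; the content is quadratic one level deeper.
-/
import Crest.Agent.R128.Remez
import Crest.Agent.R128.Markov

set_option autoImplicit false

open Complex Metric Set MeasureTheory

namespace Crest.Agent.R128.PolyC

/-- (T1) Taylor remainder `2 B (r/R)^(N+1)`. -/
theorem taylor_rem {f : ℂ → ℂ} {c : ℂ} {R B : ℝ} (hR : 0 < R)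
    (hf : DifferentiableOn ℂ f (closedBall c R))
    (hB : ∀ z ∈ closedBall c R, ‖f z‖ ≤ B) (N : ℕ) :
    ∃ P : Polynomial ℂ, P.natDegree ≤ N ∧
      ∀ r : ℝ, 2 * r ≤ R → ∀ z ∈ closedBall c r, ‖f z - P.eval z‖ ≤ 2 * B * (r / R) ^ (N + 1) := by
  classical
  have hB0 : 0 ≤ B := (norm_nonneg _).trans (hB c (mem_closedBall_self hR.le))
  have hcoef : ∀ n : ℕ, ‖iteratedDeriv n f c‖ ≤ n.factorial * B / R ^ n := fun n =>
    Complex.norm_iteratedDeriv_le_of_forall_mem_sphere_norm_le n hR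
      (by
        apply DifferentiableOn.diffContOnCl
        rw [closure_ball c hR.ne']
        exact hf)
      (fun z hz => hB z (sphere_subset_closedBall hz))
  set a : ℕ → ℂ := fun n => (n.factorial : ℂ)⁻¹ * iteratedDeriv n f c with ha
  have han : ∀ n, ‖a n‖ ≤ B / R ^ n := by
    intro n
    simp only [ha]
    rw [norm_mul, norm_inv, Complex.norm_natCast]
    have h1 := hcoef n
    have hfac : (0 : ℝ) < n.factorial := by exact_mod_cast n.factorial_pos
    calc (n.factorial : ℝ)⁻¹ * ‖iteratedDeriv n f c‖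
        ≤ (n.factorial : ℝ)⁻¹ * (n.factorial * B / R ^ n) := by gcongr
      _ = B / R ^ n := by field_simp
  refine ⟨∑ n ∈ Finset.range (N + 1), Polynomial.C (a n) * (Polynomial.X - Polynomial.C c) ^ n,
    ?_, ?_⟩
  · apply Polynomial.natDegree_sum_le_of_forall_le
    intro n hn
    refine (Polynomial.natDegree_C_mul_le _ _).trans ?_
    refine (Polynomial.natDegree_pow_le).trans ?_
    rw [Polynomial.natDegree_X_sub_C]
    have := Finset.mem_range.1 hn
    omega
  · intro r hr z hz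
    have hz' : ‖z - c‖ ≤ r := by rwa [mem_closedBall, dist_eq_norm] at hz
    have hr0 : 0 ≤ r := (norm_nonneg _).trans hz'
    set q : ℝ := r / R with hq
    have hq0 : 0 ≤ q := by positivity
    have hq1 : q ≤ 1 / 2 := by
      rw [hq, div_le_iff₀ hR]; linarith
    have hs : HasSum (fun n : ℕ => a n * (z - c) ^ n) (f z) := by
      have h0 := Complex.hasSum_taylorSeries_on_ball (r := R) (c := c) (z := z)
        (hf.mono ball_subset_closedBall) (by rw [mem_ball, dist_eq_norm]; linarith)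
      have he : (fun n : ℕ => a n * (z - c) ^ n) =
          (fun n : ℕ => (n.factorial : ℂ)⁻¹ • (z - c) ^ n • iteratedDeriv n f c) := by
        funext n
        rw [smul_eq_mul, smul_eq_mul]
        show (n.factorial : ℂ)⁻¹ * iteratedDeriv n f c * (z - c) ^ n = _
        ring
      rw [he]
      exact h0
    have heval : (∑ n ∈ Finset.range (N + 1),
        Polynomial.C (a n) * (Polynomial.X - Polynomial.C c) ^ n).eval z =
        ∑ n ∈ Finset.range (N + 1), a n * (z - c) ^ n := by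
      rw [Polynomial.eval_finsetSum]
      simp
    rw [heval]
    have hterm : ∀ n, ‖a n * (z - c) ^ n‖ ≤ B * q ^ n := by
      intro n
      rw [norm_mul, norm_pow]
      calc ‖a n‖ * ‖z - c‖ ^ n ≤ B / R ^ n * r ^ n := by
            gcongr
            exact han n
        _ = B * q ^ n := by
            rw [hq, div_pow]
            ring
    have hsplit := hs.summable.sum_add_tsum_nat_add (N + 1)
    rw [hs.tsum_eq] at hsplit
    rw [← hsplit, add_sub_cancel_left]
    have hgeo : HasSum (fun n : ℕ => B * q ^ (N + 1) * (1 / 2) ^ n)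
        (B * q ^ (N + 1) * 2) :=
      (hasSum_geometric_two).mul_left (B * q ^ (N + 1))
    have hb : ∀ n : ℕ, ‖a (n + (N + 1)) * (z - c) ^ (n + (N + 1))‖ ≤
        B * q ^ (N + 1) * (1 / 2) ^ n := by
      intro n
      refine (hterm (n + (N + 1))).trans ?_
      have h1 : q ^ n ≤ (1 / 2) ^ n := pow_le_pow_left₀ hq0 hq1 n
      calc B * q ^ (n + (N + 1)) = B * q ^ (N + 1) * q ^ n := by rw [pow_add]; ring
        _ ≤ _ := mul_le_mul_of_nonneg_left h1 (by positivity)
    have := tsum_of_norm_bounded hgeo hb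
    refine this.trans (le_of_eq ?_)
    ring

/-- real part polynomial -/
theorem exists_real_poly (P : Polynomial ℂ) :
    ∃ Q : Polynomial ℝ, Q.natDegree ≤ P.natDegree ∧
      ∀ x : ℝ, Q.eval x = (P.eval (x : ℂ)).re := by
  refine ⟨∑ n ∈ Finset.range (P.natDegree + 1),
    Polynomial.C (P.coeff n).re * Polynomial.X ^ n, ?_, ?_⟩
  · apply Polynomial.natDegree_sum_le_of_forall_le
    intro n hn
    refine (Polynomial.natDegree_C_mul_le _ _).trans ?_
    rw [Polynomial.natDegree_X_pow]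
    have := Finset.mem_range.1 hn
    omega
  · intro x
    rw [Polynomial.eval_eq_sum_range (p := P), Polynomial.eval_finsetSum, Complex.re_sum]
    refine Finset.sum_congr rfl fun n _ => ?_
    rw [Polynomial.eval_mul, Polynomial.eval_C, Polynomial.eval_pow, Polynomial.eval_X,
      ← Complex.ofReal_pow, Complex.re_mul_ofReal]

/-- (T2) a finite sum of holomorphic blocks is a real polynomial up to the sum of the Taylor
remainders. -/
theorem blocks {ι : Type*} (S : Finset ι) {g : ι → ℂ → ℂ} {x0 R : ℝ} {R' B : ι → ℝ}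
    (hR : 0 < R) (hR' : ∀ s ∈ S, 2 * R ≤ R' s)
    (hg : ∀ s ∈ S, DifferentiableOn ℂ (g s) (closedBall (x0 : ℂ) (R' s)))
    (hB : ∀ s ∈ S, ∀ z ∈ closedBall (x0 : ℂ) (R' s), ‖g s z‖ ≤ B s) (N : ℕ) :
    ∃ P : Polynomial ℝ, P.natDegree ≤ N ∧ ∀ x : ℝ, |x - x0| ≤ R →
      |(∑ s ∈ S, g s (x : ℂ)).re - P.eval x| ≤ ∑ s ∈ S, 2 * B s * (R / R' s) ^ (N + 1) := by
  classical
  have h : ∀ s : ι, ∃ P : Polynomial ℝ, P.natDegree ≤ N ∧ (s ∈ S → ∀ x : ℝ, |x - x0| ≤ R →
      |(g s (x : ℂ)).re - P.eval x| ≤ 2 * B s * (R / R' s) ^ (N + 1)) := by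
    intro s
    by_cases hs : s ∈ S
    · obtain ⟨P, hPd, hP⟩ := taylor_rem (by have := hR' s hs; linarith : 0 < R' s) (hg s hs)
        (hB s hs) N
      obtain ⟨Q, hQd, hQ⟩ := exists_real_poly P
      refine ⟨Q, hQd.trans hPd, fun _ x hx => ?_⟩
      have := hP R (hR' s hs) (x : ℂ) (by
        rw [mem_closedBall, dist_eq_norm, ← Complex.ofReal_sub, Complex.norm_real]
        exact hx)
      rw [hQ, ← Complex.sub_re]
      exact (Complex.abs_re_le_norm _).trans this
    · exact ⟨0, by simp, fun h => absurd h hs⟩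
  choose P hPd hP using h
  refine ⟨∑ s ∈ S, P s, Polynomial.natDegree_sum_le_of_forall_le _ _ fun s _ => hPd s, ?_⟩
  intro x hx
  rw [Complex.re_sum, Polynomial.eval_finsetSum, ← Finset.sum_sub_distrib]
  refine (Finset.abs_sum_le_sum_abs _ _).trans (Finset.sum_le_sum fun s hs => hP s hs x hx)

/-- (T2') the numeric form: blocks `s < l` of size `M k^(-2s)` on the disc of radius
`R k^(1+ε(l-s))`, degree `N` with `(N+1) ε ≥ 3`. -/
theorem numeric_sum {k ε M : ℝ} (hk : 2 ≤ k) (hM : 0 ≤ M) {N : ℕ}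
    (hN : 3 ≤ (N + 1 : ℝ) * ε) (l : ℕ) {R : ℝ} (hR : 0 < R) {R' B : ℕ → ℝ}
    (hR' : ∀ s ∈ Finset.range (l + 1), R * k ^ (1 + ε * ((l : ℝ) - s)) ≤ R' s)
    (hB : ∀ s ∈ Finset.range (l + 1), 0 ≤ B s ∧ B s ≤ M * k ^ (-2 * (s : ℝ))) :
    ∑ s ∈ Finset.range (l + 1), 2 * B s * (R / R' s) ^ (N + 1)
      ≤ 4 * M * k ^ (-2 * (l : ℝ) - (N + 1)) := by
  have hk0 : 0 < k := by linarith
  have hk1 : 1 ≤ k := by linarith
  have hterm : ∀ s ∈ Finset.range (l + 1), 2 * B s * (R / R' s) ^ (N + 1) ≤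
      2 * M * k ^ (-2 * (l : ℝ) - (N + 1)) * (1 / 2) ^ (l - s) := by
    intro s hs
    have hsl : s ≤ l := by have := Finset.mem_range.1 hs; omega
    have hsl' : (s : ℝ) ≤ l := by exact_mod_cast hsl
    obtain ⟨hB0, hB1⟩ := hB s hs
    have hR's := hR' s hs
    have hkp : 0 < k ^ (1 + ε * ((l : ℝ) - s)) := Real.rpow_pos_of_pos hk0 _
    have hR'0 : 0 < R' s := lt_of_lt_of_le (by positivity) hR's
    have hq : R / R' s ≤ k ^ (-(1 + ε * ((l : ℝ) - s))) := by
      rw [Real.rpow_neg hk0.le, div_le_iff₀ hR'0, inv_mul_eq_div, le_div_iff₀ hkp]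
      exact hR's
    have hq0 : 0 ≤ R / R' s := by positivity
    have h1 : (R / R' s) ^ (N + 1) ≤ k ^ (-((N + 1 : ℝ)) - 3 * ((l : ℝ) - s)) := by
      calc (R / R' s) ^ (N + 1) ≤ (k ^ (-(1 + ε * ((l : ℝ) - s)))) ^ (N + 1) :=
            pow_le_pow_left₀ hq0 hq _
        _ = k ^ (-(1 + ε * ((l : ℝ) - s)) * ((N + 1 : ℕ) : ℝ)) := by
            rw [Real.rpow_mul hk0.le, Real.rpow_natCast]
        _ ≤ _ := by
            apply Real.rpow_le_rpow_of_exponent_le hk1
            push_cast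
            have : 3 * ((l : ℝ) - s) ≤ (N + 1 : ℝ) * ε * ((l : ℝ) - s) :=
              mul_le_mul_of_nonneg_right hN (by linarith)
            nlinarith
    calc 2 * B s * (R / R' s) ^ (N + 1)
        ≤ 2 * (M * k ^ (-2 * (s : ℝ))) * k ^ (-((N + 1 : ℝ)) - 3 * ((l : ℝ) - s)) := by
          gcongr
      _ = 2 * M * k ^ (-2 * (l : ℝ) - (N + 1)) * k ^ (-((l : ℝ) - s)) := by
          rw [show -2 * (l : ℝ) - (N + 1) = -2 * (s : ℝ) + (-((N + 1 : ℝ)) - 3 * ((l : ℝ) - s))
            + ((l : ℝ) - s) by ring]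
          rw [Real.rpow_add hk0 _ ((l : ℝ) - s), Real.rpow_add hk0 (-2 * (s : ℝ)),
            Real.rpow_neg hk0.le]
          have : k ^ ((l : ℝ) - s) ≠ 0 := (Real.rpow_pos_of_pos hk0 _).ne'
          field_simp
      _ ≤ 2 * M * k ^ (-2 * (l : ℝ) - (N + 1)) * (1 / 2) ^ (l - s) := by
          have hp : 0 < k ^ (-2 * (l : ℝ) - (N + 1)) := Real.rpow_pos_of_pos hk0 _
          refine mul_le_mul_of_nonneg_left ?_ (by positivity)
          have : ((l : ℝ) - s) = ((l - s : ℕ) : ℝ) := by push_cast [hsl]; ring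
          rw [this, Real.rpow_neg hk0.le, Real.rpow_natCast, one_div, inv_pow]
          apply inv_anti₀ (by positivity)
          exact pow_le_pow_left₀ (by norm_num) hk _
  refine (Finset.sum_le_sum hterm).trans ?_
  rw [← Finset.mul_sum]
  have hgeo : ∑ s ∈ Finset.range (l + 1), (1 / 2 : ℝ) ^ (l - s) ≤ 2 := by
    have := Finset.sum_range_reflect (fun j => (1 / 2 : ℝ) ^ j) (l + 1)
    simp only [Nat.add_sub_cancel] at this
    rw [this]
    exact sum_geometric_two_le _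
  have hp : 0 < k ^ (-2 * (l : ℝ) - (N + 1)) := Real.rpow_pos_of_pos hk0 _
  calc 2 * M * k ^ (-2 * (l : ℝ) - (N + 1)) * ∑ s ∈ Finset.range (l + 1), (1 / 2 : ℝ) ^ (l - s)
      ≤ 2 * M * k ^ (-2 * (l : ℝ) - (N + 1)) * 2 := by
        refine mul_le_mul_of_nonneg_left hgeo (by positivity)
    _ = _ := by ring

/-- growth of a polynomial of degree `≤ m` from `|x - x0| ≤ R` to the complex disc of radius
`9 R`. -/
theorem growth_nine (P : Polynomial ℂ) (m : ℕ) (hm : 1 ≤ m) (hP : P.natDegree ≤ m) (M x0 R : ℝ)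
    (hR : 0 < R) (hM : ∀ x : ℝ, |x - x0| ≤ R → ‖P.eval (x : ℂ)‖ ≤ M) (z : ℂ)
    (hz : ‖z - x0‖ ≤ 9 * R) :
    ‖P.eval z‖ ≤ ((m : ℝ) + 1) * Real.exp 3 * (9 * (m : ℝ) ^ 2) ^ m * M := by
  have hM0 : 0 ≤ M := (norm_nonneg _).trans (hM x0 (by simpa using hR.le))
  have hm1 : (1 : ℝ) ≤ m := by exact_mod_cast hm
  have hx0 : |x0 - x0| ≤ R := by simpa using hR.le
  have hc : ∀ j, ‖(Polynomial.taylor (x0 : ℂ) P).coeff j‖ ≤
      Real.exp 3 * ((m : ℝ) ^ 2 / R) ^ j * M := fun j =>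
    Markov.markov_hasse P m hm hP M x0 R hR hM x0 hx0 j
  have hev : P.eval z = (Polynomial.taylor (x0 : ℂ) P).eval (z - x0) := by
    rw [Polynomial.taylor_eval]; congr 1; ring
  rw [hev, Polynomial.eval_eq_sum_range' (n := m + 1) (by
    rw [Polynomial.natDegree_taylor]; omega)]
  have hb : 1 ≤ 9 * (m : ℝ) ^ 2 := by nlinarith
  calc ‖∑ i ∈ Finset.range (m + 1), (Polynomial.taylor (x0 : ℂ) P).coeff i * (z - x0) ^ i‖
      ≤ ∑ i ∈ Finset.range (m + 1), Real.exp 3 * (9 * (m : ℝ) ^ 2) ^ m * M := by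
        refine (norm_sum_le _ _).trans (Finset.sum_le_sum fun i hi => ?_)
        have him : i ≤ m := by have := Finset.mem_range.1 hi; omega
        rw [norm_mul, norm_pow]
        calc ‖(Polynomial.taylor (x0 : ℂ) P).coeff i‖ * ‖z - x0‖ ^ i
            ≤ (Real.exp 3 * ((m : ℝ) ^ 2 / R) ^ i * M) * (9 * R) ^ i := by
              gcongr
              exact hc i
          _ = Real.exp 3 * (9 * (m : ℝ) ^ 2) ^ i * M := by
              rw [div_pow, mul_pow, mul_pow]
              field_simp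
          _ ≤ _ := by
              gcongr
    _ = _ := by
        rw [Finset.sum_const, Finset.card_range, nsmul_eq_mul]
        push_cast
        ring

/-- (T3) Remez inequality for real polynomials of degree `≤ N`, constant depending only on `N`
and the relative measure `c0`. -/
theorem remez_poly (N : ℕ) {c0 : ℝ} (hc0 : 0 < c0) :
    ∃ C : ℝ, 1 ≤ C ∧ ∀ (P : Polynomial ℝ) (x0 R A : ℝ), P.natDegree ≤ N → 0 < R → 0 ≤ A →
      ENNReal.ofReal (c0 * R) ≤ volume {x : ℝ | |x - x0| ≤ R ∧ |P.eval x| ≤ A} →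
      ∀ x, |x - x0| ≤ R → |P.eval x| ≤ C * A := by
  set m : ℕ := max N 1 with hmdef
  have hm : 1 ≤ m := le_max_right _ _
  set G : ℝ := ((m : ℝ) + 1) * Real.exp 3 * (9 * (m : ℝ) ^ 2) ^ m with hG
  obtain ⟨n0, hn0⟩ := pow_unbounded_of_one_lt G (by norm_num : (1 : ℝ) < 2)
  set n : ℕ := max n0 1 with hn
  have hn1 : 1 ≤ n := le_max_right _ _
  have hGn : G ≤ 2 ^ n := hn0.le.trans (pow_le_pow_right₀ (by norm_num) (le_max_left _ _))
  refine ⟨max 1 ((1024 / c0) ^ n), le_max_left _ _, ?_⟩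
  intro P x0 R A hPd hR hA hvol x hx
  set C : ℝ := max 1 ((1024 / c0) ^ n) with hC
  -- maximum of |P| on the interval
  have hcpt : IsCompact (Icc (x0 - R) (x0 + R)) := isCompact_Icc
  obtain ⟨xm, hxm, hmax⟩ := hcpt.exists_isMaxOn ⟨x0, by constructor <;> linarith⟩
    ((P.continuous.abs).continuousOn)
  set mx : ℝ := |P.eval xm| with hmx
  have hle : ∀ y : ℝ, |y - x0| ≤ R → |P.eval y| ≤ mx := fun y hy => hmax
    ⟨by linarith [(abs_le.1 hy).1], by linarith [(abs_le.1 hy).2]⟩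
  refine (hle x hx).trans ?_
  by_contra hcon
  push Not at hcon
  have hmx0 : 0 < mx := lt_of_le_of_lt (by positivity) hcon
  -- apply remez with ε slightly above A
  have hxm' : |xm - x0| ≤ R := abs_le.2 ⟨by linarith [hxm.1], by linarith [hxm.2]⟩
  set Pc : Polynomial ℂ := P.map (algebraMap ℝ ℂ) with hPc
  have hPcd : Pc.natDegree ≤ m := Polynomial.natDegree_map_le.trans (hPd.trans (le_max_left _ _))
  have hPcev : ∀ y : ℝ, ‖Pc.eval (y : ℂ)‖ = |P.eval y| := fun y => Markov.norm_eval_map P y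
  have hkey : ∀ ε : ℝ, 0 < ε → A ≤ ε → mx ≤ ε * (1024 / c0) ^ n := by
    intro ε hε hAε
    have h := Remez.remez_interval (ρ := R) (M := G * mx) (m := mx) (ε := ε) (x₀ := x0) hR hmx0 hε
      hn1 (mul_le_mul_of_nonneg_right hGn hmx0.le) (f := fun z => Pc.eval z)
      (Pc.differentiable.differentiableOn)
      (fun z hz => by
        rw [mem_closedBall, dist_eq_norm] at hz
        exact growth_nine Pc m hm hPcd mx x0 R hR (fun y hy => by
          rw [hPcev]; exact hle y hy) z hz)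
      (z₀ := (xm : ℂ)) (by
        rw [← Complex.ofReal_sub, Complex.norm_real]; exact hxm')
      (by show mx ≤ ‖Pc.eval (xm : ℂ)‖; rw [hPcev])
    have h2 : ENNReal.ofReal (c0 * R) ≤ ENNReal.ofReal (1024 * R * (ε / mx) ^ (1 / n : ℝ)) := by
      refine hvol.trans (le_trans (measure_mono ?_) h)
      intro y hy
      refine ⟨hy.1, ?_⟩
      show ‖Pc.eval (y : ℂ)‖ ≤ ε
      rw [hPcev]; exact hy.2.trans hAε
    have h3 : c0 * R ≤ 1024 * R * (ε / mx) ^ (1 / n : ℝ) :=
      (ENNReal.ofReal_le_ofReal_iff (by positivity)).1 h2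
    have h4 : c0 / 1024 ≤ (ε / mx) ^ (1 / n : ℝ) := by
      rw [div_le_iff₀ (by norm_num)]
      have : c0 * R ≤ ((ε / mx) ^ (1 / n : ℝ) * 1024) * R := by linarith
      exact le_of_mul_le_mul_right this hR
    have h5 : (c0 / 1024) ^ n ≤ ε / mx := by
      calc (c0 / 1024) ^ n ≤ ((ε / mx) ^ (1 / n : ℝ)) ^ n :=
            pow_le_pow_left₀ (by positivity) h4 _
        _ = ε / mx := by
            rw [one_div]
            exact Real.rpow_inv_natCast_pow (by positivity) (by omega)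
    rw [le_div_iff₀ hmx0] at h5
    have h6 : (1024 / c0) ^ n * (c0 / 1024) ^ n = 1 := by
      rw [← mul_pow]
      have : 1024 / c0 * (c0 / 1024) = 1 := by field_simp
      rw [this, one_pow]
    calc mx = (1024 / c0) ^ n * ((c0 / 1024) ^ n * mx) := by rw [← mul_assoc, h6, one_mul]
      _ ≤ (1024 / c0) ^ n * ε := mul_le_mul_of_nonneg_left h5 (by positivity)
      _ = _ := by ring
  rcases hA.eq_or_lt with hA0 | hA0
  · -- A = 0
    have := hkey (mx / (2 * (1024 / c0) ^ n)) (by positivity) (by rw [← hA0]; positivity)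
    have h7 : mx / (2 * (1024 / c0) ^ n) * (1024 / c0) ^ n = mx / 2 := by
      have : (1024 / c0) ^ n ≠ 0 := by positivity
      field_simp
    rw [h7] at this
    linarith
  · have h8 := hkey A hA0 le_rfl
    have h9 : A * (1024 / c0) ^ n ≤ C * A := by
      rw [mul_comm]
      exact mul_le_mul_of_nonneg_right (le_max_right _ _) hA
    linarith

/-- (T4) the content: close to a polynomial of degree `≤ N` on `|x - x0| ≤ R` and `≤ A` on a
proportion `c0` of it.  Then it is `≤ C (A + e)` everywhere and quadratic with the error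
`C (A + e) (|x-y|/R)^3 + e` around every `y`. -/
theorem content_quadratic (N : ℕ) {c0 : ℝ} (hc0 : 0 < c0) :
    ∃ C : ℝ, 1 ≤ C ∧ ∀ (F : ℝ → ℝ) (P : Polynomial ℝ) (x0 R A e : ℝ), P.natDegree ≤ N → 0 < R →
      0 ≤ A → 0 ≤ e → (∀ x, |x - x0| ≤ R → |F x - P.eval x| ≤ e) →
      ENNReal.ofReal (c0 * R) ≤ volume {x : ℝ | |x - x0| ≤ R ∧ |F x| ≤ A} →
      (∀ x, |x - x0| ≤ R → |F x| ≤ C * (A + e)) ∧
      ∀ y, |y - x0| ≤ R → ∃ q0 q1 q2 : ℝ, |q0| ≤ C * (A + e) ∧ |q1| ≤ C * (A + e) / R ∧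
        |q2| ≤ C * (A + e) / R ^ 2 ∧ ∀ x, |x - x0| ≤ R →
        |F x - (q0 + q1 * (x - y) + q2 * (x - y) ^ 2)| ≤ C * (A + e) * (|x - y| / R) ^ 3 + e := by
  obtain ⟨C1, hC1, hrem⟩ := remez_poly N hc0
  set m : ℕ := max N 1 with hmdef
  have hm : 1 ≤ m := le_max_right _ _
  have hm1 : (1 : ℝ) ≤ m := by exact_mod_cast hm
  have he3 : 1 ≤ Real.exp 3 := Real.one_le_exp (by norm_num)
  set C2 : ℝ := 22 * Real.exp 3 * ((m : ℝ) ^ 2) ^ 3 * C1 + 1 with hC2
  have hmp : (1 : ℝ) ≤ (m : ℝ) ^ 2 := one_le_pow₀ hm1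
  have hmp2 : (m : ℝ) ^ 2 ≤ ((m : ℝ) ^ 2) ^ 3 := by
    calc (m : ℝ) ^ 2 = ((m : ℝ) ^ 2) ^ 1 := (pow_one _).symm
      _ ≤ _ := pow_le_pow_right₀ hmp (by norm_num)
  have hmp3 : ((m : ℝ) ^ 2) ^ 2 ≤ ((m : ℝ) ^ 2) ^ 3 := pow_le_pow_right₀ hmp (by norm_num)
  have hmp4 : 1 ≤ ((m : ℝ) ^ 2) ^ 3 := one_le_pow₀ hmp
  have hC1' : 0 < C1 := by linarith
  have hC12 : C1 + 1 ≤ C2 := by
    have : C1 ≤ 22 * Real.exp 3 * ((m : ℝ) ^ 2) ^ 3 * C1 := by
      have h1 : 1 ≤ 22 * Real.exp 3 * ((m : ℝ) ^ 2) ^ 3 := by nlinarith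
      nlinarith
    linarith
  refine ⟨C2, by linarith, ?_⟩
  intro F P x0 R A e hPd hR hA he hFP hvol
  have hAe : 0 ≤ A + e := by linarith
  have hP : ∀ x, |x - x0| ≤ R → |P.eval x| ≤ C1 * (A + e) := by
    refine hrem P x0 R (A + e) hPd hR hAe (hvol.trans (measure_mono ?_))
    rintro x ⟨hx, hFx⟩
    refine ⟨hx, ?_⟩
    have h1 := hFP x hx
    have h2 : P.eval x = F x - (F x - P.eval x) := by ring
    rw [h2]
    exact (abs_sub _ _).trans (by linarith)
  refine ⟨fun x hx => ?_, fun y hy => ?_⟩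
  · have h1 := hFP x hx
    have h2 := hP x hx
    have h3 : F x = P.eval x + (F x - P.eval x) := by ring
    rw [h3]
    refine (abs_add_le _ _).trans ?_
    nlinarith
  · have hPd' : P.natDegree ≤ m := hPd.trans (le_max_left _ _)
    have hmk := fun j => Markov.markov_real P m hm hPd' (C1 * (A + e)) x0 R hR hP y hy j
    refine ⟨P.eval y, (Polynomial.derivative P).eval y,
      (Polynomial.derivative^[2] P).eval y / 2, ?_, ?_, ?_, ?_⟩
    · exact (hP y hy).trans (by nlinarith)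
    · have h1 := hmk 1
      simp only [Function.iterate_one, Nat.factorial_one, Nat.cast_one, mul_one, pow_one] at h1
      refine h1.trans ?_
      rw [le_div_iff₀ hR]
      have : Real.exp 3 * ((m : ℝ) ^ 2 / R) * (C1 * (A + e)) * R
          = Real.exp 3 * (m : ℝ) ^ 2 * C1 * (A + e) := by field_simp
      rw [this]
      refine mul_le_mul_of_nonneg_right ?_ hAe
      have h5 : Real.exp 3 * (m : ℝ) ^ 2 * C1 ≤ 22 * Real.exp 3 * ((m : ℝ) ^ 2) ^ 3 * C1 := by
        refine mul_le_mul_of_nonneg_right ?_ hC1'.le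
        nlinarith
      linarith
    · have h1 := hmk 2
      have hf : ((2 : ℕ).factorial : ℝ) = 2 := by norm_num [Nat.factorial]
      rw [hf] at h1
      rw [abs_div, abs_of_pos (by norm_num : (0 : ℝ) < 2), div_le_iff₀ (by norm_num)]
      refine h1.trans ?_
      rw [div_mul_eq_mul_div, le_div_iff₀ (by positivity)]
      have : Real.exp 3 * 2 * ((m : ℝ) ^ 2 / R) ^ 2 * (C1 * (A + e)) * R ^ 2
          = (Real.exp 3 * ((m : ℝ) ^ 2) ^ 2 * C1) * (A + e) * 2 := by field_simp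
      rw [this]
      refine mul_le_mul_of_nonneg_right (mul_le_mul_of_nonneg_right ?_ hAe) (by norm_num)
      have h5 : Real.exp 3 * ((m : ℝ) ^ 2) ^ 2 * C1 ≤ 22 * Real.exp 3 * ((m : ℝ) ^ 2) ^ 3 * C1 := by
        refine mul_le_mul_of_nonneg_right ?_ hC1'.le
        nlinarith
      linarith
    · intro x hx
      have h1 := Markov.taylor_two_real P m hm hPd' (C1 * (A + e)) x0 R hR hP x y hx hy
      have h2 := hFP x hx
      have h3 : F x - (P.eval y + (Polynomial.derivative P).eval y * (x - y)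
          + (Polynomial.derivative^[2] P).eval y / 2 * (x - y) ^ 2)
          = (F x - P.eval x) + (P.eval x - (P.eval y + (Polynomial.derivative P).eval y * (x - y)
          + (Polynomial.derivative^[2] P).eval y / 2 * (x - y) ^ 2)) := by ring
      rw [h3]
      refine (abs_add_le _ _).trans ?_
      have h4 : 22 * Real.exp 3 * ((m : ℝ) ^ 2 * |x - y| / R) ^ 3 * (C1 * (A + e))
          ≤ C2 * (A + e) * (|x - y| / R) ^ 3 := by
        have : 22 * Real.exp 3 * ((m : ℝ) ^ 2 * |x - y| / R) ^ 3 * (C1 * (A + e))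
            = (22 * Real.exp 3 * ((m : ℝ) ^ 2) ^ 3 * C1) * (A + e) * (|x - y| / R) ^ 3 := by
          rw [mul_div_assoc, mul_pow]; ring
        rw [this]
        refine mul_le_mul_of_nonneg_right (mul_le_mul_of_nonneg_right ?_ hAe) (by positivity)
        linarith
      linarith

end Crest.Agent.R128.PolyC
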