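/-
R128, node N6-CONTENT-FROM-CLEAN: complex discs and polynomial content from the real field.
-/
import Mathlib
import Crest.Agent.R128.Disp
import Crest.Agent.R128.CellB
import Crest.Agent.R128.Align
import Crest.Agent.R128.PolyC

set_option autoImplicit false

open Metric Finset Crest.Agent.R128 Crest.Agent.R128.Cell Crest.Agent.R128.CellB
  Crest.Agent.R128.TreeSum Crest.Agent.R128.Disp

namespace Crest.Agent.R128.ContClean

/-- quadratic remainder of `x ↦ 2x + k sin 2πx` in the strip -/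
theorem quad_rem (k : ℝ) {x z : ℂ} (hx : |x.im| ≤ 1) (hz : |z.im| ≤ 1) :
    ‖(2 * z + k * Complex.sin (2 * Real.pi * z)) - (2 * x + k * Complex.sin (2 * Real.pi * x)) -
      cV k x * (z - x)‖ ≤ CL k * ‖z - x‖ ^ 2 := by
  set s : Set ℂ := {w : ℂ | |w.im| ≤ 1} ∩ closedBall x ‖z - x‖ with hs
  have hconv : Convex ℝ s := convex_strip.inter (convex_closedBall _ _)
  have hxs : x ∈ s := ⟨hx, mem_closedBall_self (norm_nonneg _)⟩
  have hzs : z ∈ s := ⟨hz, by rw [mem_closedBall, dist_eq_norm]⟩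
  have := hconv.norm_image_sub_le_of_norm_hasDerivWithin_le
    (f := fun w => (2 * w + k * Complex.sin (2 * Real.pi * w)) - cV k x * w)
    (f' := fun w => cV k w - cV k x) (C := CL k * ‖z - x‖)
    (fun w _ => by
      have h1 := (hasDerivAt_sin2pi k w).sub ((hasDerivAt_id w).const_mul (cV k x))
      rw [mul_one] at h1
      exact h1.hasDerivWithinAt)
    (fun w hw => by
      have h1 := norm_cV_sub_le k hw.1 hx
      have h2 : ‖w - x‖ ≤ ‖z - x‖ := by
        have := hw.2
        rwa [mem_closedBall, dist_eq_norm] at this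
      exact h1.trans (mul_le_mul_of_nonneg_left h2 (CL_nonneg k))) hxs hzs
  have e : (2 * z + k * Complex.sin (2 * Real.pi * z)) - (2 * x + k * Complex.sin (2 * Real.pi * x)) -
      cV k x * (z - x) = ((2 * z + k * Complex.sin (2 * Real.pi * z)) - cV k x * z) -
        ((2 * x + k * Complex.sin (2 * Real.pi * x)) - cV k x * x) := by ring
  rw [e]
  calc _ ≤ CL k * ‖z - x‖ * ‖z - x‖ := this
    _ = _ := by ring

/-- the real digits `V (y_{m+1})` of the orbit `x_0 = c`, `x_1 = t` -/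
noncomputable def dg (k c t : ℝ) (m : ℕ) : ℝ := (cV k (y k c (m + 1) (t : ℂ))).re

/-- the real `t`-field `(y_m', y_{m+1}')` -/
noncomputable def wf (k c t : ℝ) (m : ℕ) : ℝ × ℝ :=
  ((yd k c m (t : ℂ)).re, (yd k c (m + 1) (t : ℂ)).re)

theorem cV_real (k c t : ℝ) (m : ℕ) : cV k (y k c (m + 1) (t : ℂ)) = (dg k c t m : ℂ) := by
  unfold dg
  rw [y_ofReal, cV_ofReal, Complex.ofReal_re]

theorem yd_real (k c t : ℝ) (m : ℕ) : yd k c m (t : ℂ) = ((wf k c t m).1 : ℂ) := by
  unfold wf
  rw [yd_ofReal, Complex.ofReal_re]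

theorem yd_real' (k c t : ℝ) (m : ℕ) : yd k c (m + 1) (t : ℂ) = ((wf k c t m).2 : ℂ) := by
  unfold wf
  rw [yd_ofReal', Complex.ofReal_re]

theorem wf_zero (k c t : ℝ) : wf k c t 0 = (0, 1) := by
  unfold wf
  simp

theorem nn_wf_zero (k c t : ℝ) : nn (wf k c t 0) = 1 := by
  rw [wf_zero]; unfold nn; norm_num

theorem isField_wf (k c t : ℝ) : IsField (dg k c t) (wf k c t) := by
  intro n
  unfold stp
  have h : yd k c (n + 2) (t : ℂ) = ((dg k c t n * (wf k c t n).2 - (wf k c t n).1 : ℝ) : ℂ) := by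
    rw [yd_add_two, cV_real, yd_real', yd_real]
    push_cast; ring
  ext
  · rfl
  · show (yd k c (n + 1 + 1) (t : ℂ)).re = _
    rw [show n + 1 + 1 = n + 2 from rfl, h, Complex.ofReal_re]

theorem dg_le (k c t : ℝ) (m : ℕ) : |dg k c t m| ≤ CV k := by
  have h := norm_cV_le k (z := y k c (m + 1) (t : ℂ)) (by rw [im_y_ofReal]; simp)
  rw [cV_real, Complex.norm_real] at h
  exact h

theorem nn_wf_pos (k c t : ℝ) (m : ℕ) : 0 < nn (wf k c t m) :=
  (isField_wf k c t).pos (Nat.zero_le m) (by rw [nn_wf_zero]; exact one_pos)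

/-- **Disc lemma.** -/
theorem disc {k c t0 : ℝ} {N : ℕ} {τ : ℂ}
    (h1 : ∀ m ≤ N, 2 * ‖τ‖ * nn (wf k c t0 m) ≤ 1)
    (h2 : 8 * CL k * (CV k + 3) * ‖τ‖ * Sg (wf k c t0) N ≤ 1) :
    ∀ m ≤ N, ‖y k c m (t0 + τ) - y k c m t0‖ ≤ 2 * ‖τ‖ * nn (wf k c t0 m) ∧
      ‖y k c (m + 1) (t0 + τ) - y k c (m + 1) t0‖ ≤ 2 * ‖τ‖ * nn (wf k c t0 m) ∧
      ‖yd k c m (t0 + τ) - yd k c m t0‖ ≤
        8 * CL k * (CV k + 3) * ‖τ‖ * Sg (wf k c t0) m * nn (wf k c t0 m) ∧
      ‖yd k c (m + 1) (t0 + τ) - yd k c (m + 1) t0‖ ≤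
        8 * CL k * (CV k + 3) * ‖τ‖ * Sg (wf k c t0) m * nn (wf k c t0 m) := by
  set w := wf k c t0 with hw
  have hF := isField_wf k c t0
  rw [← hw] at hF
  have h0 : 0 < nn (w 0) := nn_wf_pos k c t0 0
  have hCV := CV_ge k
  have hCL := CL_nonneg k
  have hB : ∀ m < N, |dg k c t0 m| + 2 ≤ CV k + 2 := fun m _ => by
    have := dg_le k c t0 m
    linarith
  set D : ℕ → ℂ × ℂ := fun m => (y k c m (t0 + τ) - y k c m t0,
    y k c (m + 1) (t0 + τ) - y k c (m + 1) t0) with hDdef
  set q : ℕ → ℂ := fun m =>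
    (2 * y k c (m + 1) (t0 + τ) + k * Complex.sin (2 * Real.pi * y k c (m + 1) (t0 + τ))) -
      (2 * y k c (m + 1) t0 + k * Complex.sin (2 * Real.pi * y k c (m + 1) t0)) -
      cV k (y k c (m + 1) t0) * (y k c (m + 1) (t0 + τ) - y k c (m + 1) t0) with hq
  have hD : ∀ m < N, D (m + 1) = stq (dg k c t0 m) (q m) (D m) := by
    intro m _
    unfold stq
    simp only [hDdef, hq]
    ext
    · rfl
    · show y k c (m + 2) (t0 + τ) - y k c (m + 2) t0 = _
      rw [y_add_two, y_add_two, ← cV_real]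
      ring
  have hD0 : D 0 = (τ * (w 0).1, τ * (w 0).2) := by
    simp only [hDdef, hw, wf_zero]
    simp
  have him : ∀ m ≤ N, ‖(D m).2‖ ≤ 2 * ‖τ‖ * nn (w m) → |(y k c (m + 1) (t0 + τ)).im| ≤ 1 := by
    intro m hm hd
    have e : (y k c (m + 1) (t0 + τ)).im = ((D m).2).im := by
      simp only [hDdef, Complex.sub_im]
      rw [im_y_ofReal, sub_zero]
    rw [e]
    exact (Complex.abs_im_le_norm _).trans (hd.trans (h1 m hm))
  have hdisp := disp_le hF h0 hB (by linarith) hD hD0 (M := CL k) hCL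
    (fun m hm hd => by
      have hz := him m hm.le hd
      have := quad_rem k (x := y k c (m + 1) t0) (z := y k c (m + 1) (t0 + τ))
        (by rw [im_y_ofReal]; simp) hz
      exact this) (by
      calc _ = 8 * CL k * (CV k + 3) * ‖τ‖ * Sg w N := by ring
        _ ≤ 1 := h2)
  -- the fields
  set E : ℕ → ℂ × ℂ := fun m => (yd k c m (t0 + τ), yd k c (m + 1) (t0 + τ)) with hE
  set e : ℕ → ℂ := fun m => cV k (y k c (m + 1) (t0 + τ)) - cV k (y k c (m + 1) t0) with he
  have hEr : ∀ m < N, E (m + 1) = ((E m).2, ((dg k c t0 m : ℂ) + e m) * (E m).2 - (E m).1) := by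
    intro m _
    simp only [hE, he]
    ext
    · rfl
    · show yd k c (m + 2) (t0 + τ) = _
      rw [yd_add_two, ← cV_real]
      ring
  have hE0 : E 0 = (((w 0).1 : ℂ), ((w 0).2 : ℂ)) := by
    simp only [hE, hw, wf_zero]
    simp
  have hfield := field_le hF h0 hB (by linarith) hEr hE0 (κ := 2 * CL k * ‖τ‖) (by positivity)
    (fun m hm => by
      obtain ⟨_, _, _, h4⟩ := hdisp m hm.le
      have hz := him m hm.le h4
      have h5 := norm_cV_sub_le k hz (w := y k c (m + 1) t0) (by rw [im_y_ofReal]; simp)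
      calc ‖e m‖ ≤ CL k * ‖(D m).2‖ := h5
        _ ≤ CL k * (2 * ‖τ‖ * nn (w m)) := by gcongr
        _ = _ := by ring) (by
      calc _ = 8 * CL k * (CV k + 3) * ‖τ‖ * Sg w N := by ring
        _ ≤ 1 := h2)
  intro m hm
  obtain ⟨_, _, h3, h4⟩ := hdisp m hm
  obtain ⟨h5, h6⟩ := hfield m hm
  refine ⟨h3, h4, ?_, ?_⟩
  · rw [yd_real k c t0 m]
    calc _ ≤ _ := h5
      _ = _ := by ring
  · rw [yd_real' k c t0 m]
    calc _ ≤ _ := h6
      _ = _ := by ring

/-! ### the content `mu` on complex discs -/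

open Crest.Agent.R128.Align in
/-- complex digits of the orbit `x_0 = c`, `x_1 = t` -/
noncomputable def aC (k : ℝ) (c : ℂ) (t : ℂ) (n : ℕ) : ℂ := cV k (y k c n t)

theorem Q_eq (k : ℝ) (c t : ℂ) : ∀ n, Align.Q (aC k c t) n = yd k c n t := by
  have key : ∀ n, Align.Q (aC k c t) n = yd k c n t ∧
      Align.Q (aC k c t) (n + 1) = yd k c (n + 1) t := by
    intro n
    induction n with
    | zero => simp
    | succ n ih =>
      refine ⟨ih.2, ?_⟩
      rw [Align.Q_add_two, ih.1, ih.2, yd_add_two]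
      rfl
  exact fun n => (key n).1

theorem differentiable_aC (k : ℝ) (c : ℂ) (n : ℕ) : Differentiable ℂ (fun t => aC k c t n) := by
  intro t
  exact ((hasDerivAt_cV k (y k c n t)).comp t (hasDerivAt_y k c n t)).differentiableAt

theorem differentiable_P (k : ℝ) (c : ℂ) : ∀ n, Differentiable ℂ (fun t => Align.P (aC k c t) n) := by
  have key : ∀ n, Differentiable ℂ (fun t => Align.P (aC k c t) n) ∧
      Differentiable ℂ (fun t => Align.P (aC k c t) (n + 1)) := by
    intro n
    induction n with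
    | zero =>
      constructor
      · simp
      · simp
    | succ n ih =>
      refine ⟨ih.2, ?_⟩
      have : (fun t => Align.P (aC k c t) (n + 1 + 1)) =
          fun t => aC k c t (n + 1) * Align.P (aC k c t) (n + 1) - Align.P (aC k c t) n := by
        funext t
        exact Align.P_add_two _ _
      rw [this]
      exact ((differentiable_aC k c (n + 1)).mul ih.2).sub ih.1
  exact fun n => (key n).1

theorem differentiable_Q (k : ℝ) (c : ℂ) (n : ℕ) : Differentiable ℂ (fun t => Align.Q (aC k c t) n) := by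
  have key : ∀ n, Differentiable ℂ (fun t => Align.Q (aC k c t) n) ∧
      Differentiable ℂ (fun t => Align.Q (aC k c t) (n + 1)) := by
    intro n
    induction n with
    | zero =>
      constructor
      · simp
      · simp
    | succ n ih =>
      refine ⟨ih.2, ?_⟩
      have : (fun t => Align.Q (aC k c t) (n + 1 + 1)) =
          fun t => aC k c t (n + 1) * Align.Q (aC k c t) (n + 1) - Align.Q (aC k c t) n := by
        funext t
        exact Align.Q_add_two _ _
      rw [this]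
      exact ((differentiable_aC k c (n + 1)).mul ih.2).sub ih.1
  exact (key n).1

/-- the numerator of `mu (s') - mu s` for consecutive choices of the index -/
theorem beta_eq {K : Type*} [Field K] (a : ℕ → K) {m s s' : ℕ} (hs : s = m ∨ s = m + 1)
    (hs' : s' = m + 1 ∨ s' = m + 1 + 1) :
    Align.P a s * Align.Q a s' - Align.P a s' * Align.Q a s = 0 ∨
    Align.P a s * Align.Q a s' - Align.P a s' * Align.Q a s = 1 ∨
    Align.P a s * Align.Q a s' - Align.P a s' * Align.Q a s = a (m + 1) := by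
  have h1 := Align.wronskian a m
  have h2 := Align.wronskian a (m + 1)
  rcases hs with rfl | rfl <;> rcases hs' with rfl | rfl
  · exact Or.inr (Or.inl h1)
  · right; right
    have e1 := Align.Q_add_two a s
    have e2 := Align.P_add_two a s
    rw [show s + 1 + 1 = s + 2 from rfl, e1, e2]
    linear_combination a (s + 1) * h1
  · left; ring
  · exact Or.inr (Or.inl h2)

/-- **Content lemma.** -/
theorem content {k c t0 σ : ℝ} {N : ℕ} {s : ℕ → ℕ} (hs : ∀ m ≤ N, s m = m ∨ s m = m + 1)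
    (hs0 : s 0 = 1) (hσ : 0 < σ) (hσ1 : σ ≤ 1)
    (hsσ : ∀ m ≤ N, σ * nn (wf k c t0 m) ≤ ‖yd k c (s m) t0‖) (rad : ℕ → ℝ) {R : ℝ} (hR : 0 < R)
    (hrad : ∀ m < N, 2 * R ≤ rad m)
    (h1 : ∀ m < N, ∀ j ≤ m + 1, 2 * rad m * nn (wf k c t0 j) ≤ 1)
    (h2 : ∀ m < N, 8 * CL k * (CV k + 3) * rad m * Sg (wf k c t0) (m + 1) ≤ σ / 2) (d : ℕ) :
    ∃ p : Polynomial ℝ, p.natDegree ≤ d ∧ ∀ t : ℝ, |t - t0| ≤ R →
      |(Align.mu (aC k c t) (s N)).re - p.eval t| ≤
        ∑ m ∈ range N, 2 * (4 * CV k / (σ ^ 2 * nn (wf k c t0 m) * nn (wf k c t0 (m + 1)))) *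
          (R / rad m) ^ (d + 1) := by
  have hCV := CV_ge k
  have hCL := CL_nonneg k
  have hpos : ∀ m, 0 < nn (wf k c t0 m) := nn_wf_pos k c t0
  have hradpos : ∀ m < N, 0 < rad m := fun m hm => by have := hrad m hm; linarith
  -- lower bound of `Q`
  have hdisc : ∀ m < N, ∀ z ∈ closedBall (t0 : ℂ) (rad m), ∀ j ≤ m + 1,
      ‖y k c (j + 1) z - y k c (j + 1) t0‖ ≤ 1 ∧
      ‖yd k c j z - yd k c j t0‖ ≤ σ / 2 * nn (wf k c t0 j) ∧
      ‖yd k c (j + 1) z - yd k c (j + 1) t0‖ ≤ σ / 2 * nn (wf k c t0 j) := by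
    intro m hm z hz j hj
    have hr := hradpos m hm
    have hτ : ‖z - t0‖ ≤ rad m := by rwa [mem_closedBall, dist_eq_norm] at hz
    have hnn : ∀ j, 0 ≤ nn (wf k c t0 j) := fun j => nn_nonneg _
    have hS0 : ∀ j, 0 ≤ Sg (wf k c t0) j := fun j => Sg_nonneg _ j
    have hA : ∀ j ≤ m + 1, 8 * CL k * (CV k + 3) * ‖z - t0‖ * Sg (wf k c t0) j ≤ σ / 2 := by
      intro j hj
      calc _ ≤ 8 * CL k * (CV k + 3) * rad m * Sg (wf k c t0) (m + 1) := by
            have := Sg_mono (wf k c t0) hj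
            have h3 : 0 ≤ 8 * CL k * (CV k + 3) := by
              have : 0 ≤ CV k + 3 := by linarith
              positivity
            have h4 := hS0 j
            gcongr
        _ ≤ σ / 2 := h2 m hm
    have hh1 : ∀ j ≤ m + 1, 2 * ‖z - t0‖ * nn (wf k c t0 j) ≤ 1 := by
      intro j hj
      calc _ ≤ 2 * rad m * nn (wf k c t0 j) := by
            have := hnn j
            gcongr
        _ ≤ 1 := h1 m hm j hj
    have hd := disc (k := k) (c := c) (t0 := t0) (N := m + 1) (τ := z - t0) hh1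
      ((hA (m + 1) le_rfl).trans (by linarith)) j hj
    rw [add_sub_cancel] at hd
    obtain ⟨_, hd2, hd3, hd4⟩ := hd
    refine ⟨hd2.trans (hh1 j hj), hd3.trans ?_, hd4.trans ?_⟩
    · exact mul_le_mul_of_nonneg_right (hA j hj) (hnn j)
    · exact mul_le_mul_of_nonneg_right (hA j hj) (hnn j)
  have hlow : ∀ m < N, ∀ z ∈ closedBall (t0 : ℂ) (rad m), ∀ j ≤ m + 1,
      σ / 2 * nn (wf k c t0 j) ≤ ‖Align.Q (aC k c z) (s j)‖ := by
    intro m hm z hz j hj
    rw [Q_eq]
    have hjN : j ≤ N := by omega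
    have hq := hsσ j hjN
    obtain ⟨_, h5, h6⟩ := hdisc m hm z hz j hj
    have h7 : ‖yd k c (s j) z - yd k c (s j) t0‖ ≤ σ / 2 * nn (wf k c t0 j) := by
      rcases hs j hjN with h | h <;> rw [h]
      · exact h5
      · exact h6
    have h8 := norm_sub_norm_le (yd k c (s j) t0) (yd k c (s j) z)
    rw [norm_sub_rev] at h8
    linarith
  set g : ℕ → ℂ → ℂ := fun m z => Align.mu (aC k c z) (s (m + 1)) - Align.mu (aC k c z) (s m) with hg
  have hgd : ∀ m ∈ range N, DifferentiableOn ℂ (g m) (closedBall (t0 : ℂ) (rad m)) := by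
    intro m hm z hz
    have hmN := mem_range.1 hm
    have hq1 : Align.Q (aC k c z) (s (m + 1)) ≠ 0 := by
      have := hlow m hmN z hz (m + 1) le_rfl
      have h3 : 0 < σ / 2 * nn (wf k c t0 (m + 1)) := by have := hpos (m + 1); positivity
      exact norm_pos_iff.1 (lt_of_lt_of_le h3 this)
    have hq0 : Align.Q (aC k c z) (s m) ≠ 0 := by
      have := hlow m hmN z hz m (by omega)
      have h3 : 0 < σ / 2 * nn (wf k c t0 m) := by have := hpos m; positivity
      exact norm_pos_iff.1 (lt_of_lt_of_le h3 this)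
    apply DifferentiableAt.differentiableWithinAt
    simp only [hg, Align.mu]
    apply DifferentiableAt.sub
    · exact ((differentiable_P k c _ z).neg).div (differentiable_Q k c _ z) hq1
    · exact ((differentiable_P k c _ z).neg).div (differentiable_Q k c _ z) hq0
  have hgB : ∀ m ∈ range N, ∀ z ∈ closedBall (t0 : ℂ) (rad m), ‖g m z‖ ≤
      4 * CV k / (σ ^ 2 * nn (wf k c t0 m) * nn (wf k c t0 (m + 1))) := by
    intro m hm z hz
    have hmN := mem_range.1 hm
    have hl1 := hlow m hmN z hz (m + 1) le_rfl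
    have hl0 := hlow m hmN z hz m (by omega)
    have hp1 := hpos (m + 1)
    have hp0 := hpos m
    have h31 : 0 < σ / 2 * nn (wf k c t0 (m + 1)) := by positivity
    have h30 : 0 < σ / 2 * nn (wf k c t0 m) := by positivity
    have hq1 : Align.Q (aC k c z) (s (m + 1)) ≠ 0 := norm_pos_iff.1 (lt_of_lt_of_le h31 hl1)
    have hq0 : Align.Q (aC k c z) (s m) ≠ 0 := norm_pos_iff.1 (lt_of_lt_of_le h30 hl0)
    have hb := beta_eq (aC k c z) (hs m (by omega)) (hs (m + 1) (by omega))
    have hbn : ‖Align.P (aC k c z) (s m) * Align.Q (aC k c z) (s (m + 1)) -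
        Align.P (aC k c z) (s (m + 1)) * Align.Q (aC k c z) (s m)‖ ≤ CV k := by
      rcases hb with h | h | h <;> rw [h]
      · simp; linarith
      · simp; linarith
      · have him : |(y k c (m + 1) z).im| ≤ 1 := by
          have h3 := (hdisc m hmN z hz m (by omega)).1
          have h4 : (y k c (m + 1) z).im = (y k c (m + 1) z - y k c (m + 1) t0).im := by
            rw [Complex.sub_im, im_y_ofReal, sub_zero]
          rw [h4]
          exact (Complex.abs_im_le_norm _).trans h3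
        exact norm_cV_le k him
    have e : g m z = (Align.P (aC k c z) (s m) * Align.Q (aC k c z) (s (m + 1)) -
        Align.P (aC k c z) (s (m + 1)) * Align.Q (aC k c z) (s m)) /
        (Align.Q (aC k c z) (s m) * Align.Q (aC k c z) (s (m + 1))) := by
      simp only [hg, Align.mu]
      field_simp
      ring
    rw [e, norm_div, norm_mul]
    have h5 : (σ / 2 * nn (wf k c t0 m)) * (σ / 2 * nn (wf k c t0 (m + 1))) ≤
        ‖Align.Q (aC k c z) (s m)‖ * ‖Align.Q (aC k c z) (s (m + 1))‖ :=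
      mul_le_mul hl0 hl1 h31.le (norm_nonneg _)
    calc _ ≤ CV k / ((σ / 2 * nn (wf k c t0 m)) * (σ / 2 * nn (wf k c t0 (m + 1)))) :=
          div_le_div₀ (by linarith) hbn (by positivity) h5
      _ = _ := by field_simp; ring
  obtain ⟨p, hpd, hp⟩ := PolyC.blocks (range N) (x0 := t0) hR
    (fun m hm => hrad m (mem_range.1 hm)) hgd hgB d
  refine ⟨p, hpd, fun t ht => ?_⟩
  have hsum : ∀ M ≤ N, Align.mu (aC k c (t : ℂ)) (s M) = ∑ m ∈ range M, g m (t : ℂ) := by
    intro M hM
    induction M with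
    | zero =>
      rw [hs0]
      simp [Align.mu]
    | succ M ih =>
      rw [sum_range_succ, ← ih (by omega)]
      simp only [hg]
      ring
  rw [hsum N le_rfl]
  exact hp t ht

end Crest.Agent.R128.ContClean
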