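import Mathlib
import Crest.Agent.R128.ContClean
import Crest.Agent.R128.LocDef

/-! Row 128, V5 chain (helper69): complex-disc version of 688's content lemma, with a REAL quadratic
polynomial, in the form of `Cell3.quad` of 548's LocDef. Sorry free. -/

set_option autoImplicit false

open Metric Finset Crest.Agent.R128 Crest.Agent.R128.Cell Crest.Agent.R128.CellB
  Crest.Agent.R128.CellDy Crest.Agent.R128.TreeSum Crest.Agent.R128.Disp
  Crest.Agent.R128.ContClean

namespace Crest.Agent.R128.ContCplx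

local notation "conj" => starRingEnd ℂ

/-- real coefficients for an approximant of a conjugation symmetric function -/
theorem real_coeffs {F : ℂ → ℂ} {x0 R E : ℝ} (P : Polynomial ℂ)
    (hF : ∀ z ∈ closedBall (x0 : ℂ) R, F (conj z) = conj (F z))
    (hP : ∀ z ∈ closedBall (x0 : ℂ) R, ‖F z - P.eval z‖ ≤ E) :
    ∃ Q : Polynomial ℝ, Q.natDegree ≤ P.natDegree ∧
      ∀ z ∈ closedBall (x0 : ℂ) R, ‖F z - (Q.map Complex.ofRealHom).eval z‖ ≤ E := by
  refine ⟨∑ n ∈ Finset.range (P.natDegree + 1),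
    Polynomial.C (P.coeff n).re * Polynomial.X ^ n, ?_, ?_⟩
  · apply Polynomial.natDegree_sum_le_of_forall_le
    intro n hn
    refine (Polynomial.natDegree_C_mul_le _ _).trans ?_
    rw [Polynomial.natDegree_X_pow]
    have := Finset.mem_range.1 hn
    omega
  · intro z hz
    have hz' : conj z ∈ closedBall (x0 : ℂ) R := by
      rw [mem_closedBall, dist_eq_norm] at hz ⊢
      have : conj z - (x0 : ℂ) = conj (z - x0) := by
        rw [map_sub, Complex.conj_ofReal]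
      rw [this, Complex.norm_conj]
      exact hz
    have e1 : ((∑ n ∈ Finset.range (P.natDegree + 1),
        Polynomial.C (P.coeff n).re * Polynomial.X ^ n).map Complex.ofRealHom).eval z =
        ∑ n ∈ Finset.range (P.natDegree + 1), (((P.coeff n).re : ℝ) : ℂ) * z ^ n := by
      rw [Polynomial.map_sum, Polynomial.eval_finsetSum]
      refine Finset.sum_congr rfl fun n _ => ?_
      simp
    have e2 : conj (P.eval (conj z)) =
        ∑ n ∈ Finset.range (P.natDegree + 1), conj (P.coeff n) * z ^ n := by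
      rw [Polynomial.eval_eq_sum_range (p := P), map_sum]
      refine Finset.sum_congr rfl fun n _ => ?_
      rw [map_mul, map_pow, Complex.conj_conj]
    have e3 : P.eval z = ∑ n ∈ Finset.range (P.natDegree + 1), P.coeff n * z ^ n :=
      Polynomial.eval_eq_sum_range z
    have e4 : ∑ n ∈ Finset.range (P.natDegree + 1), (((P.coeff n).re : ℝ) : ℂ) * z ^ n =
        (1 / 2 : ℂ) * (P.eval z + conj (P.eval (conj z))) := by
      rw [e2, e3, ← Finset.sum_add_distrib, Finset.mul_sum]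
      refine Finset.sum_congr rfl fun n _ => ?_
      have : (((P.coeff n).re : ℝ) : ℂ) = (1 / 2 : ℂ) * (P.coeff n + conj (P.coeff n)) := by
        rw [Complex.add_conj]; push_cast; ring
      rw [this]; ring
    rw [e1, e4]
    have e5 : F z - (1 / 2 : ℂ) * (P.eval z + conj (P.eval (conj z))) =
        (1 / 2 : ℂ) * ((F z - P.eval z) + conj (F (conj z) - P.eval (conj z))) := by
      rw [map_sub, hF z hz, Complex.conj_conj]; ring
    rw [e5, norm_mul]
    have h1 := hP z hz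
    have h2 := hP (conj z) hz'
    have h3 := norm_add_le (F z - P.eval z) (conj (F (conj z) - P.eval (conj z)))
    rw [Complex.norm_conj] at h3
    have h4 : ‖(1 / 2 : ℂ)‖ = 1 / 2 := by norm_num
    rw [h4]
    linarith

/-- complex version of `PolyC.blocks` -/
theorem blocksC {ι : Type*} (S : Finset ι) {g : ι → ℂ → ℂ} {x0 R : ℝ} {R' B : ι → ℝ}
    (hR : 0 < R) (hR' : ∀ s ∈ S, 2 * R ≤ R' s)
    (hg : ∀ s ∈ S, DifferentiableOn ℂ (g s) (closedBall (x0 : ℂ) (R' s)))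
    (hsym : ∀ s ∈ S, ∀ z, g s (conj z) = conj (g s z))
    (hB : ∀ s ∈ S, ∀ z ∈ closedBall (x0 : ℂ) (R' s), ‖g s z‖ ≤ B s) (N : ℕ) :
    ∃ P : Polynomial ℝ, P.natDegree ≤ N ∧ ∀ z ∈ closedBall (x0 : ℂ) R,
      ‖(∑ s ∈ S, g s z) - (P.map Complex.ofRealHom).eval z‖ ≤
        ∑ s ∈ S, 2 * B s * (R / R' s) ^ (N + 1) := by
  classical
  have h : ∀ s : ι, ∃ P : Polynomial ℝ, P.natDegree ≤ N ∧ (s ∈ S → ∀ z ∈ closedBall (x0 : ℂ) R,
      ‖g s z - (P.map Complex.ofRealHom).eval z‖ ≤ 2 * B s * (R / R' s) ^ (N + 1)) := by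
    intro s
    by_cases hs : s ∈ S
    · obtain ⟨P, hPd, hP⟩ := PolyC.taylor_rem (by have := hR' s hs; linarith : 0 < R' s) (hg s hs)
        (hB s hs) N
      obtain ⟨Q, hQd, hQ⟩ := real_coeffs P (fun z _ => hsym s hs z) (hP R (hR' s hs))
      exact ⟨Q, hQd.trans hPd, fun _ => hQ⟩
    · exact ⟨0, by simp, fun h => absurd h hs⟩
  choose P hPd hP using h
  refine ⟨∑ s ∈ S, P s, Polynomial.natDegree_sum_le_of_forall_le _ _ fun s _ => hPd s, ?_⟩
  intro z hz
  rw [Polynomial.map_sum, Polynomial.eval_finsetSum, ← Finset.sum_sub_distrib]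
  exact (norm_sum_le _ _).trans (Finset.sum_le_sum fun s hs => hP s hs z hz)

/-- degree `≤ 2`, recentred at any real point -/
theorem recentre {P : Polynomial ℝ} (hP : P.natDegree ≤ 2) (m : ℝ) :
    ∃ q0 q1 q2 : ℝ, ∀ z : ℂ, (P.map Complex.ofRealHom).eval z =
      q0 + q1 * (z - m) + q2 * (z - m) ^ 2 := by
  refine ⟨P.coeff 0 + P.coeff 1 * m + P.coeff 2 * m ^ 2, P.coeff 1 + 2 * P.coeff 2 * m,
    P.coeff 2, fun z => ?_⟩
  have h : (P.map Complex.ofRealHom).natDegree < 3 :=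
    lt_of_le_of_lt (Polynomial.natDegree_map_le) (by omega)
  rw [Polynomial.eval_eq_sum_range' h, Finset.sum_range_succ, Finset.sum_range_succ,
    Finset.sum_range_succ, Finset.sum_range_zero]
  simp only [Polynomial.coeff_map, Complex.ofRealHom_eq_coe]
  push_cast
  ring

/-! ### conjugation symmetry of the digits and slopes -/

theorem cV_conj (k : ℝ) (z : ℂ) : cV k (conj z) = conj (cV k z) := by
  unfold cV
  have h2 : conj (2 : ℂ) = 2 := Complex.conj_ofReal 2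
  simp [← Complex.cos_conj, h2]

theorem aC_conj (k c : ℝ) (z : ℂ) (n : ℕ) : aC k c (conj z) n = conj (aC k c z n) := by
  unfold aC
  rw [y_conj, cV_conj]

theorem sol_conj {a a' : ℕ → ℂ} (h : ∀ n, a' n = conj (a n)) (n : ℕ) :
    Align.P a' n = conj (Align.P a n) ∧ Align.Q a' n = conj (Align.Q a n) := by
  induction n using Nat.strong_induction_on with
  | _ n ih =>
    match n with
    | 0 => simp
    | 1 => simp
    | n + 2 =>
      have h1 := ih (n + 1) (by omega)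
      have h0 := ih n (by omega)
      rw [Align.P_add_two, Align.P_add_two, Align.Q_add_two, Align.Q_add_two, h1.1, h1.2, h0.1,
        h0.2, h]
      simp

theorem mu_conj (k c : ℝ) (z : ℂ) (n : ℕ) :
    Align.mu (aC k c (conj z)) n = conj (Align.mu (aC k c z) n) := by
  obtain ⟨h1, h2⟩ := sol_conj (a := aC k c z) (a' := aC k c (conj z)) (aC_conj k c z) n
  unfold Align.mu
  rw [h1, h2]
  simp

/-- **Content lemma, complex disc, real polynomial.** -/
theorem contentC {k c t0 σ : ℝ} {N : ℕ} {s : ℕ → ℕ} (hs : ∀ m ≤ N, s m = m ∨ s m = m + 1)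
    (hs0 : s 0 = 1) (hσ : 0 < σ) (hσ1 : σ ≤ 1)
    (hsσ : ∀ m ≤ N, σ * nn (wf k c t0 m) ≤ ‖yd k c (s m) t0‖) (rad : ℕ → ℝ) {R : ℝ} (hR : 0 < R)
    (hrad : ∀ m < N, 2 * R ≤ rad m)
    (h1 : ∀ m < N, ∀ j ≤ m + 1, 2 * rad m * nn (wf k c t0 j) ≤ 1)
    (h2 : ∀ m < N, 8 * CL k * (CV k + 3) * rad m * Sg (wf k c t0) (m + 1) ≤ σ / 2) (d : ℕ) :
    ∃ p : Polynomial ℝ, p.natDegree ≤ d ∧ ∀ z ∈ closedBall (t0 : ℂ) R,
      ‖Align.mu (aC k c z) (s N) - (p.map Complex.ofRealHom).eval z‖ ≤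
        ∑ m ∈ range N, 2 * (4 * CV k / (σ ^ 2 * nn (wf k c t0 m) * nn (wf k c t0 (m + 1)))) *
          (R / rad m) ^ (d + 1) := by
  have hCV := CV_ge k
  have hCL := CL_nonneg k
  have hpos : ∀ m, 0 < nn (wf k c t0 m) := nn_wf_pos k c t0
  have hradpos : ∀ m < N, 0 < rad m := fun m hm => by have := hrad m hm; linarith
  -- lower bound of `Q`
  have hdisc : ∀ m < N, ∀ z ∈ closedBall (t0 : ℂ) (rad m), ∀ j ≤ m + 1,
      ‖y k c (j + 1) z - y k c (j + 1) t0‖ ≤ 1 ∧
      ‖yd k c j z - yd k c j t0‖ ≤ σ / 2 * nn (wf k c t0 j) ∧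
      ‖yd k c (j + 1) z - yd k c (j + 1) t0‖ ≤ σ / 2 * nn (wf k c t0 j) := by
    intro m hm z hz j hj
    have hr := hradpos m hm
    have hτ : ‖z - t0‖ ≤ rad m := by rwa [mem_closedBall, dist_eq_norm] at hz
    have hnn : ∀ j, 0 ≤ nn (wf k c t0 j) := fun j => nn_nonneg _
    have hS0 : ∀ j, 0 ≤ Sg (wf k c t0) j := fun j => Sg_nonneg _ j
    have hA : ∀ j ≤ m + 1, 8 * CL k * (CV k + 3) * ‖z - t0‖ * Sg (wf k c t0) j ≤ σ / 2 := by
      intro j hj
      calc _ ≤ 8 * CL k * (CV k + 3) * rad m * Sg (wf k c t0) (m + 1) := by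
            have := Sg_mono (wf k c t0) hj
            have h3 : 0 ≤ 8 * CL k * (CV k + 3) := by
              have : 0 ≤ CV k + 3 := by linarith
              positivity
            have h4 := hS0 j
            gcongr
        _ ≤ σ / 2 := h2 m hm
    have hh1 : ∀ j ≤ m + 1, 2 * ‖z - t0‖ * nn (wf k c t0 j) ≤ 1 := by
      intro j hj
      calc _ ≤ 2 * rad m * nn (wf k c t0 j) := by
            have := hnn j
            gcongr
        _ ≤ 1 := h1 m hm j hj
    have hd := disc (k := k) (c := c) (t0 := t0) (N := m + 1) (τ := z - t0) hh1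
      ((hA (m + 1) le_rfl).trans (by linarith)) j hj
    rw [add_sub_cancel] at hd
    obtain ⟨_, hd2, hd3, hd4⟩ := hd
    refine ⟨hd2.trans (hh1 j hj), hd3.trans ?_, hd4.trans ?_⟩
    · exact mul_le_mul_of_nonneg_right (hA j hj) (hnn j)
    · exact mul_le_mul_of_nonneg_right (hA j hj) (hnn j)
  have hlow : ∀ m < N, ∀ z ∈ closedBall (t0 : ℂ) (rad m), ∀ j ≤ m + 1,
      σ / 2 * nn (wf k c t0 j) ≤ ‖Align.Q (aC k c z) (s j)‖ := by
    intro m hm z hz j hj
    rw [Q_eq]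
    have hjN : j ≤ N := by omega
    have hq := hsσ j hjN
    obtain ⟨_, h5, h6⟩ := hdisc m hm z hz j hj
    have h7 : ‖yd k c (s j) z - yd k c (s j) t0‖ ≤ σ / 2 * nn (wf k c t0 j) := by
      rcases hs j hjN with h | h <;> rw [h]
      · exact h5
      · exact h6
    have h8 := norm_sub_norm_le (yd k c (s j) t0) (yd k c (s j) z)
    rw [norm_sub_rev] at h8
    linarith
  set g : ℕ → ℂ → ℂ := fun m z => Align.mu (aC k c z) (s (m + 1)) - Align.mu (aC k c z) (s m) with hg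
  have hgd : ∀ m ∈ range N, DifferentiableOn ℂ (g m) (closedBall (t0 : ℂ) (rad m)) := by
    intro m hm z hz
    have hmN := mem_range.1 hm
    have hq1 : Align.Q (aC k c z) (s (m + 1)) ≠ 0 := by
      have := hlow m hmN z hz (m + 1) le_rfl
      have h3 : 0 < σ / 2 * nn (wf k c t0 (m + 1)) := by have := hpos (m + 1); positivity
      exact norm_pos_iff.1 (lt_of_lt_of_le h3 this)
    have hq0 : Align.Q (aC k c z) (s m) ≠ 0 := by
      have := hlow m hmN z hz m (by omega)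
      have h3 : 0 < σ / 2 * nn (wf k c t0 m) := by have := hpos m; positivity
      exact norm_pos_iff.1 (lt_of_lt_of_le h3 this)
    apply DifferentiableAt.differentiableWithinAt
    simp only [hg, Align.mu]
    apply DifferentiableAt.sub
    · exact ((differentiable_P k c _ z).neg).div (differentiable_Q k c _ z) hq1
    · exact ((differentiable_P k c _ z).neg).div (differentiable_Q k c _ z) hq0
  have hgB : ∀ m ∈ range N, ∀ z ∈ closedBall (t0 : ℂ) (rad m), ‖g m z‖ ≤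
      4 * CV k / (σ ^ 2 * nn (wf k c t0 m) * nn (wf k c t0 (m + 1))) := by
    intro m hm z hz
    have hmN := mem_range.1 hm
    have hl1 := hlow m hmN z hz (m + 1) le_rfl
    have hl0 := hlow m hmN z hz m (by omega)
    have hp1 := hpos (m + 1)
    have hp0 := hpos m
    have h31 : 0 < σ / 2 * nn (wf k c t0 (m + 1)) := by positivity
    have h30 : 0 < σ / 2 * nn (wf k c t0 m) := by positivity
    have hq1 : Align.Q (aC k c z) (s (m + 1)) ≠ 0 := norm_pos_iff.1 (lt_of_lt_of_le h31 hl1)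
    have hq0 : Align.Q (aC k c z) (s m) ≠ 0 := norm_pos_iff.1 (lt_of_lt_of_le h30 hl0)
    have hb := beta_eq (aC k c z) (hs m (by omega)) (hs (m + 1) (by omega))
    have hbn : ‖Align.P (aC k c z) (s m) * Align.Q (aC k c z) (s (m + 1)) -
        Align.P (aC k c z) (s (m + 1)) * Align.Q (aC k c z) (s m)‖ ≤ CV k := by
      rcases hb with h | h | h <;> rw [h]
      · simp; linarith
      · simp; linarith
      · have him : |(y k c (m + 1) z).im| ≤ 1 := by
          have h3 := (hdisc m hmN z hz m (by omega)).1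
          have h4 : (y k c (m + 1) z).im = (y k c (m + 1) z - y k c (m + 1) t0).im := by
            rw [Complex.sub_im, im_y_ofReal, sub_zero]
          rw [h4]
          exact (Complex.abs_im_le_norm _).trans h3
        exact norm_cV_le k him
    have e : g m z = (Align.P (aC k c z) (s m) * Align.Q (aC k c z) (s (m + 1)) -
        Align.P (aC k c z) (s (m + 1)) * Align.Q (aC k c z) (s m)) /
        (Align.Q (aC k c z) (s m) * Align.Q (aC k c z) (s (m + 1))) := by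
      simp only [hg, Align.mu]
      field_simp
      ring
    rw [e, norm_div, norm_mul]
    have h5 : (σ / 2 * nn (wf k c t0 m)) * (σ / 2 * nn (wf k c t0 (m + 1))) ≤
        ‖Align.Q (aC k c z) (s m)‖ * ‖Align.Q (aC k c z) (s (m + 1))‖ :=
      mul_le_mul hl0 hl1 h31.le (norm_nonneg _)
    calc _ ≤ CV k / ((σ / 2 * nn (wf k c t0 m)) * (σ / 2 * nn (wf k c t0 (m + 1)))) :=
          div_le_div₀ (by linarith) hbn (by positivity) h5
      _ = _ := by field_simp; ring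
  obtain ⟨p, hpd, hp⟩ := blocksC (range N) (x0 := t0) hR
    (fun m hm => hrad m (mem_range.1 hm)) hgd
    (fun m _ z => by
      simp only [hg]
      rw [mu_conj, mu_conj, map_sub]) hgB d
  refine ⟨p, hpd, fun t ht => ?_⟩
  have hsum : ∀ M ≤ N, Align.mu (aC k c t) (s M) = ∑ m ∈ range M, g m t := by
    intro M hM
    induction M with
    | zero =>
      rw [hs0]
      simp [Align.mu]
    | succ M ih =>
      rw [sum_range_succ, ← ih (by omega)]
      simp only [hg]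
      ring
  rw [hsum N le_rfl]
  exact hp t ht


/-- quadratic form of `contentC` -/
theorem contentQ {k c t0 σ : ℝ} {N : ℕ} {s : ℕ → ℕ} (hs : ∀ m ≤ N, s m = m ∨ s m = m + 1)
    (hs0 : s 0 = 1) (hσ : 0 < σ) (hσ1 : σ ≤ 1)
    (hsσ : ∀ m ≤ N, σ * nn (wf k c t0 m) ≤ ‖yd k c (s m) t0‖) (rad : ℕ → ℝ) {R : ℝ} (hR : 0 < R)
    (hrad : ∀ m < N, 2 * R ≤ rad m)
    (h1 : ∀ m < N, ∀ j ≤ m + 1, 2 * rad m * nn (wf k c t0 j) ≤ 1)
    (h2 : ∀ m < N, 8 * CL k * (CV k + 3) * rad m * Sg (wf k c t0) (m + 1) ≤ σ / 2) :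
    ∃ q0 q1 q2 : ℝ, ∀ z ∈ closedBall (t0 : ℂ) R,
      ‖Align.mu (aC k c z) (s N) - (q0 + q1 * (z - t0) + q2 * (z - t0) ^ 2)‖ ≤
        ∑ m ∈ range N, 2 * (4 * CV k / (σ ^ 2 * nn (wf k c t0 m) * nn (wf k c t0 (m + 1)))) *
          (R / rad m) ^ 3 := by
  obtain ⟨p, hpd, hp⟩ := contentC hs hs0 hσ hσ1 hsσ rad hR hrad h1 h2 2
  obtain ⟨q0, q1, q2, hq⟩ := recentre hpd t0
  exact ⟨q0, q1, q2, fun z hz => by rw [← hq]; exact hp z hz⟩

/-- the content of both sides: if on each side the slope is a real quadratic up to `E`, `E'` on the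
complex disc of radius `ρ` about the real point `t0` (resp. `kap k c - t0`), then 548's `cont` is,
on the disc of radius `ρ'` about the real point `m`, `|m - t0| + ρ' ≤ ρ`, a real quadratic in
`R (z - m)` up to `U (E + E')` after multiplication by `U`. -/
theorem cont_quad {k c t0 ρ ρ' m U R E E' : ℝ} {s : Bool} {n n' : ℕ} (hU : 0 ≤ U) (hR : R ≠ 0)
    (hm : |m - t0| + ρ' ≤ ρ)
    (h1 : ∃ q0 q1 q2 : ℝ, ∀ z ∈ closedBall (t0 : ℂ) ρ,
      ‖Loc.mu k c s n z - (q0 + q1 * (z - t0) + q2 * (z - t0) ^ 2)‖ ≤ E)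
    (h2 : ∃ q0 q1 q2 : ℝ, ∀ z ∈ closedBall (t0 : ℂ) ρ,
      ‖Loc.mu k c (!s) n' z - (q0 + q1 * (z - t0) + q2 * (z - t0) ^ 2)‖ ≤ E') :
    ∃ q0 q1 q2 : ℝ, ∀ z ∈ closedBall (m : ℂ) ρ',
      ‖(U : ℂ) * Loc.cont k c s n n' z -
        (q0 + q1 * ((R : ℂ) * (z - m)) + q2 * ((R : ℂ) * (z - m)) ^ 2)‖ ≤ U * (E + E') := by
  obtain ⟨a0, a1, a2, ha⟩ := h1
  obtain ⟨b0, b1, b2, hb⟩ := h2
  have hcV : cV k (c : ℂ) = (((cV k (c : ℂ)).re : ℝ) : ℂ) := by
    rw [cV_ofReal, Complex.ofReal_re]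
  set v : ℝ := (cV k (c : ℂ)).re with hv
  refine ⟨U * (v - (a0 + b0) - (a1 + b1) * (m - t0) - (a2 + b2) * (m - t0) ^ 2),
    U * (-(a1 + b1) - 2 * (a2 + b2) * (m - t0)) / R, -(U * (a2 + b2)) / R ^ 2, fun z hz => ?_⟩
  have hz' : z ∈ closedBall (t0 : ℂ) ρ := by
    rw [mem_closedBall, dist_eq_norm] at hz ⊢
    have h3 : ‖z - (t0 : ℂ)‖ ≤ ‖z - (m : ℂ)‖ + ‖(m : ℂ) - (t0 : ℂ)‖ := norm_sub_le_norm_sub_add_norm_sub _ _ _
    have h4 : ‖(m : ℂ) - (t0 : ℂ)‖ = |m - t0| := by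
      rw [← Complex.ofReal_sub, Complex.norm_real, Real.norm_eq_abs]
    linarith
  have e : (U : ℂ) * Loc.cont k c s n n' z -
      (((U * (v - (a0 + b0) - (a1 + b1) * (m - t0) - (a2 + b2) * (m - t0) ^ 2) : ℝ) : ℂ) +
        ((U * (-(a1 + b1) - 2 * (a2 + b2) * (m - t0)) / R : ℝ) : ℂ) * ((R : ℂ) * (z - m)) +
        ((-(U * (a2 + b2)) / R ^ 2 : ℝ) : ℂ) * ((R : ℂ) * (z - m)) ^ 2) =
      -(U : ℂ) * ((Loc.mu k c s n z - (a0 + a1 * (z - t0) + a2 * (z - t0) ^ 2)) +
        (Loc.mu k c (!s) n' z - (b0 + b1 * (z - t0) + b2 * (z - t0) ^ 2))) := by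
    have hRc : (R : ℂ) ≠ 0 := Complex.ofReal_ne_zero.2 hR
    unfold Loc.cont
    rw [hcV]
    push_cast
    field_simp
    ring
  rw [e, norm_mul, norm_neg, Complex.norm_real, Real.norm_eq_abs, abs_of_nonneg hU]
  refine mul_le_mul_of_nonneg_left ?_ hU
  exact (norm_add_le _ _).trans (add_le_add (ha z hz') (hb z hz'))

/-- side `true`: `Loc.mu` is `Align.mu (aC ..)` -/
theorem mu_true (k c : ℝ) (n : ℕ) (z : ℂ) : Loc.mu k c true n z = Align.mu (aC k c z) n := by
  unfold Loc.mu Loc.dg Loc.Y Loc.sdC aC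
  rfl

/-- side `false`: reflected starting point -/
theorem mu_false (k c : ℝ) (n : ℕ) (z : ℂ) :
    Loc.mu k c false n z = Align.mu (aC k c ((kap k c : ℂ) - z)) n := by
  unfold Loc.mu Loc.dg Loc.Y Loc.sdC aC
  rfl

/-- real starting point of the side `s` -/
noncomputable def sd (k c : ℝ) (s : Bool) (t : ℝ) : ℝ := if s then t else kap k c - t

/-- transport of the one-sided quadratic approximation to `Loc.mu`, both sides -/
theorem side_quad {k c t0 ρ E : ℝ} (s : Bool) {n : ℕ}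
    (h : ∃ q0 q1 q2 : ℝ, ∀ z ∈ closedBall ((sd k c s t0 : ℝ) : ℂ) ρ,
      ‖Align.mu (aC k c z) n - (q0 + q1 * (z - (sd k c s t0 : ℝ)) +
        q2 * (z - (sd k c s t0 : ℝ)) ^ 2)‖ ≤ E) :
    ∃ q0 q1 q2 : ℝ, ∀ z ∈ closedBall (t0 : ℂ) ρ,
      ‖Loc.mu k c s n z - (q0 + q1 * (z - t0) + q2 * (z - t0) ^ 2)‖ ≤ E := by
  obtain ⟨q0, q1, q2, hq⟩ := h
  cases s with
  | true =>
    refine ⟨q0, q1, q2, fun z hz => ?_⟩
    rw [mu_true]
    simpa [sd] using hq z (by simpa [sd] using hz)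
  | false =>
    refine ⟨q0, -q1, q2, fun z hz => ?_⟩
    rw [mu_false]
    have h1 : ((kap k c : ℂ) - z) ∈ closedBall ((sd k c false t0 : ℝ) : ℂ) ρ := by
      rw [mem_closedBall, dist_eq_norm] at hz ⊢
      have : (kap k c : ℂ) - z - ((sd k c false t0 : ℝ) : ℂ) = -(z - t0) := by
        simp [sd]
      rw [this, norm_neg]
      exact hz
    have h2 := hq _ h1
    have e : (q0 : ℂ) + q1 * ((kap k c : ℂ) - z - ((sd k c false t0 : ℝ) : ℂ)) +
        q2 * ((kap k c : ℂ) - z - ((sd k c false t0 : ℝ) : ℂ)) ^ 2 =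
        q0 + ((-q1 : ℝ) : ℂ) * (z - t0) + q2 * (z - t0) ^ 2 := by
      simp only [sd]
      push_cast
      simp
      ring
    rw [e] at h2
    exact h2

end Crest.Agent.R128.ContCplx
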