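import Mathlib
import Crest.Agent.R128.Disp
import Crest.Agent.R128.TreeVal

/-!
Row 128, node N6-CLEANDISC, numeric part (helper816).

`w` = field started at the tip (time `0`), `z` = the field which is seen from the end `n` of the
clean segment (`z n` has size about one); `Z_m = nn (z m)`, `R_m = nn (w m)`, `X = |wr (w 0) (z 0)|`.
Backward clean: `Z_j^(1-δ) ≤ Z_i` for `i ≤ j ≤ n` and `∑ Z_m^(-δ) ≤ K`.
-/

set_option autoImplicit false

open Finset

namespace Crest.Agent.R128.CleanNum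

open Crest.Agent.R128.TreeSum Crest.Agent.R128.Disp

/-- The data of a backward clean side. -/
structure Clean (a : ℕ → ℝ) (w z : ℕ → ℝ × ℝ) (n : ℕ) (δ K A c0 : ℝ) : Prop where
  hw : IsField a w
  hz : IsField a z
  w0 : 0 < nn (w 0)
  A1 : 1 ≤ A
  hA : ∀ j, |a j| + 2 ≤ A
  δ0 : 0 ≤ δ
  δ1 : δ ≤ 1 / 60
  K1 : 1 ≤ K
  c1 : 1 ≤ c0
  one : ∀ m ≤ n, 1 ≤ nn (z m)
  val : ∀ i j, i ≤ j → j ≤ n → nn (z j) ^ (1 - δ) ≤ nn (z i)
  dur : ∑ m ∈ range (n + 1), nn (z m) ^ (-δ) ≤ K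
  tr : nn (w 0) * nn (z 0) ≤ c0 * |wr (w 0) (z 0)|

variable {a : ℕ → ℝ} {w z : ℕ → ℝ × ℝ} {n : ℕ} {δ K A c0 : ℝ}

/-- `Z_i^{-c} ≤ Z_j^{-(1-δ) c}` for `i ≤ j`. -/
theorem Clean.rpow_le (h : Clean a w z n δ K A c0) {i j : ℕ} (hij : i ≤ j) (hj : j ≤ n) {c : ℝ}
    (hc : 0 ≤ c) : nn (z i) ^ (-c) ≤ nn (z j) ^ (-((1 - δ) * c)) := by
  have hj0 : 0 < nn (z j) := lt_of_lt_of_le one_pos (h.one j hj)
  have h1 : nn (z i) ^ (-c) ≤ (nn (z j) ^ (1 - δ)) ^ (-c) :=
    Real.rpow_le_rpow_of_nonpos (Real.rpow_pos_of_pos hj0 _) (h.val i j hij hj) (by linarith)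
  refine h1.trans (le_of_eq ?_)
  rw [← Real.rpow_mul hj0.le]
  congr 1
  ring

/-- partial sums of negative powers -/
theorem Clean.sum_le (h : Clean a w z n δ K A c0) {e : ℕ} (he : e ≤ n) {c : ℝ} (hc : δ ≤ c)
    {s : Finset ℕ} (hs : s ⊆ range (e + 1)) :
    ∑ m ∈ s, nn (z m) ^ (-c) ≤ K * nn (z e) ^ (-((1 - δ) * (c - δ))) := by
  have h0 : ∀ m, 0 ≤ nn (z m) ^ (-δ) := fun m => Real.rpow_nonneg (nn_nonneg _) _
  calc ∑ m ∈ s, nn (z m) ^ (-c)
      ≤ ∑ m ∈ s, nn (z m) ^ (-δ) * nn (z e) ^ (-((1 - δ) * (c - δ))) := by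
        refine Finset.sum_le_sum fun m hm => ?_
        have hme : m ≤ e := by have := Finset.mem_range.1 (hs hm); omega
        have hm0 : 0 < nn (z m) := lt_of_lt_of_le one_pos (h.one m (hme.trans he))
        have e1 : nn (z m) ^ (-c) = nn (z m) ^ (-δ) * nn (z m) ^ (-(c - δ)) := by
          rw [← Real.rpow_add hm0]; congr 1; ring
        rw [e1]
        exact mul_le_mul_of_nonneg_left (h.rpow_le hme he (by linarith)) (h0 m)
    _ = (∑ m ∈ s, nn (z m) ^ (-δ)) * nn (z e) ^ (-((1 - δ) * (c - δ))) := by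
        rw [Finset.sum_mul]
    _ ≤ K * nn (z e) ^ (-((1 - δ) * (c - δ))) := by
        refine mul_le_mul_of_nonneg_right ?_ (Real.rpow_nonneg (nn_nonneg _) _)
        refine (Finset.sum_le_sum_of_subset_of_nonneg ?_ fun m _ _ => h0 m).trans h.dur
        exact hs.trans (Finset.range_subset_range.2 (by omega))

theorem Clean.Xpos (h : Clean a w z n δ K A c0) : 0 < |wr (w 0) (z 0)| := by
  have h1 : 0 < nn (z 0) := lt_of_lt_of_le one_pos (h.one 0 (Nat.zero_le _))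
  have h2 : 0 < nn (w 0) * nn (z 0) := mul_pos h.w0 h1
  have h3 := h.tr
  have h4 := h.c1
  by_contra hc
  have h5 : |wr (w 0) (z 0)| = 0 := le_antisymm (not_lt.1 hc) (abs_nonneg _)
  rw [h5, mul_zero] at h3
  linarith

/-- `X ≤ R_m Z_m` -/
theorem Clean.X_le (h : Clean a w z n δ K A c0) (m : ℕ) :
    |wr (w 0) (z 0)| ≤ nn (w m) * nn (z m) := by
  have h1 : wr (w m) (z m) = wr (w 0) (z 0) := h.hw.wr_eq h.hz (Nat.zero_le m)
  rw [← h1]
  exact abs_wr_le _ _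

theorem Clean.Rpos (h : Clean a w z n δ K A c0) (m : ℕ) : 0 < nn (w m) :=
  h.hw.pos (Nat.zero_le m) h.w0

theorem Clean.Z_succ_le (h : Clean a w z n δ K A c0) (m : ℕ) : nn (z (m + 1)) ≤ A * nn (z m) := by
  rw [h.hz m]
  exact (nn_stp_le _ _).trans (mul_le_mul_of_nonneg_right (h.hA m) (nn_nonneg _))

theorem Clean.Z_le_succ (h : Clean a w z n δ K A c0) (m : ℕ) : nn (z m) ≤ A * nn (z (m + 1)) := by
  have := nn_le_stp (a m) (z m)
  rw [← h.hz m] at this
  exact this.trans (mul_le_mul_of_nonneg_right (h.hA m) (nn_nonneg _))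

/-- the constant `C1` -/
noncomputable def C1 (A K c0 : ℝ) : ℝ := c0 + A ^ 2 * K + 1

theorem C1_pos (h : Clean a w z n δ K A c0) : 1 ≤ C1 A K c0 := by
  have h1 := h.c1
  have h2 := h.K1
  unfold C1
  have : 0 ≤ A ^ 2 * K := mul_nonneg (sq_nonneg _) (by linarith)
  linarith

/-- **Upper bound of the field**: `R_m ≤ C1 X Z_m^{-(1-3δ)}`. -/
theorem Clean.R_le (h : Clean a w z n δ K A c0) {m : ℕ} (hm : m ≤ n) :
    nn (w m) ≤ C1 A K c0 * |wr (w 0) (z 0)| * nn (z m) ^ (-(1 - 3 * δ)) := by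
  have hX := h.Xpos
  set X := |wr (w 0) (z 0)| with hXdef
  have hδ0 := h.δ0
  have hδ1 := h.δ1
  have hK := h.K1
  have hc := h.c1
  have hZ1 : 1 ≤ nn (z m) := h.one m hm
  have hZ0 : 0 < nn (z m) := by linarith
  have hz01 : 1 ≤ nn (z 0) := h.one 0 (Nat.zero_le _)
  have hz00 : 0 < nn (z 0) := by linarith
  have hR0 := h.w0
  -- component along `z`
  have d1 : |lam (z m) (w m) - lam (z 0) (w 0)| ≤ |wr (z 0) (w 0)| * wt a z 0 m :=
    lam_diff h.hz h.hw (Nat.zero_le m) hz00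
  have hwrc : ∀ u v : ℝ × ℝ, |wr u v| = |wr v u| := by
    intro u v
    rw [show wr u v = -wr v u by unfold wr; ring, abs_neg]
  rw [hwrc (z 0) (w 0), ← hXdef] at d1
  have d2 : |lam (z 0) (w 0)| ≤ nn (w 0) / nn (z 0) := by
    unfold lam
    rw [abs_div, abs_of_pos (by positivity : 0 < nn (z 0) ^ 2),
      div_le_div_iff₀ (by positivity) hz00]
    have := abs_dt_le (w 0) (z 0)
    nlinarith
  have d3 : wt a z 0 m ≤ A ^ 2 * K * (nn (z m) ^ (1 - δ)) ^ (-(2 - δ)) := by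
    refine wt_le_of_valid h.hz h.hA (Real.one_le_rpow hZ1 (by linarith)) (by linarith) ?_ ?_
    · intro j hj
      rw [Finset.mem_Ico] at hj
      exact h.val j m hj.2.le hm
    · refine (Finset.sum_le_sum_of_subset_of_nonneg ?_ fun j _ _ =>
        Real.rpow_nonneg (nn_nonneg _) _).trans h.dur
      intro j hj
      rw [Finset.mem_Ico] at hj
      rw [Finset.mem_range]
      omega
  have d4 := nn_le_lam (z m) (w m) hZ0
  rw [show |wr (z m) (w m)| = X by
    rw [hwrc, h.hw.wr_eq h.hz (Nat.zero_le m)]] at d4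
  have d5 : |lam (z m) (w m)| ≤ nn (w 0) / nn (z 0) + X * wt a z 0 m := by
    have := abs_add_le (lam (z 0) (w 0)) (lam (z m) (w m) - lam (z 0) (w 0))
    rw [add_sub_cancel] at this
    linarith
  -- the three terms
  have hP : 0 < nn (z m) ^ (-(1 - 3 * δ)) := Real.rpow_pos_of_pos hZ0 _
  have e1 : nn (w 0) / nn (z 0) * nn (z m) ≤ c0 * X * nn (z m) ^ (-(1 - 3 * δ)) := by
    have f1 : nn (w 0) / nn (z 0) ≤ c0 * X / nn (z 0) ^ 2 := by
      rw [div_le_div_iff₀ hz00 (by positivity)]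
      have := h.tr
      calc nn (w 0) * nn (z 0) ^ 2 = nn (w 0) * nn (z 0) * nn (z 0) := by ring
        _ ≤ c0 * X * nn (z 0) := mul_le_mul_of_nonneg_right this hz00.le
    have f2 : (nn (z 0) ^ 2)⁻¹ ≤ nn (z m) ^ (-((1 - δ) * 2)) := by
      have := h.rpow_le (Nat.zero_le m) hm (c := 2) (by norm_num)
      rw [Real.rpow_neg hz00.le] at this
      rw [← Real.rpow_natCast]
      exact_mod_cast this
    have f3 : nn (z m) ^ (-((1 - δ) * 2)) * nn (z m) ≤ nn (z m) ^ (-(1 - 3 * δ)) := by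
      have : nn (z m) ^ (-((1 - δ) * 2)) * nn (z m) = nn (z m) ^ (-((1 - δ) * 2) + 1) := by
        rw [Real.rpow_add hZ0, Real.rpow_one]
      rw [this]
      exact Real.rpow_le_rpow_of_exponent_le hZ1 (by linarith)
    calc nn (w 0) / nn (z 0) * nn (z m) ≤ c0 * X / nn (z 0) ^ 2 * nn (z m) :=
          mul_le_mul_of_nonneg_right f1 hZ0.le
      _ = c0 * X * ((nn (z 0) ^ 2)⁻¹ * nn (z m)) := by rw [div_eq_mul_inv]; ring
      _ ≤ c0 * X * (nn (z m) ^ (-((1 - δ) * 2)) * nn (z m)) := by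
          have : 0 ≤ c0 * X := by positivity
          gcongr
      _ ≤ c0 * X * nn (z m) ^ (-(1 - 3 * δ)) := by
          have : 0 ≤ c0 * X := by positivity
          gcongr
  have e2 : X * wt a z 0 m * nn (z m) ≤ A ^ 2 * K * X * nn (z m) ^ (-(1 - 3 * δ)) := by
    have g1 : (nn (z m) ^ (1 - δ)) ^ (-(2 - δ)) * nn (z m) ≤ nn (z m) ^ (-(1 - 3 * δ)) := by
      have : (nn (z m) ^ (1 - δ)) ^ (-(2 - δ)) * nn (z m) =
          nn (z m) ^ ((1 - δ) * (-(2 - δ)) + 1) := by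
        rw [← Real.rpow_mul hZ0.le, Real.rpow_add hZ0, Real.rpow_one]
      rw [this]
      refine Real.rpow_le_rpow_of_exponent_le hZ1 ?_
      nlinarith
    calc X * wt a z 0 m * nn (z m)
        ≤ X * (A ^ 2 * K * (nn (z m) ^ (1 - δ)) ^ (-(2 - δ))) * nn (z m) := by gcongr
      _ = A ^ 2 * K * X * ((nn (z m) ^ (1 - δ)) ^ (-(2 - δ)) * nn (z m)) := by ring
      _ ≤ A ^ 2 * K * X * nn (z m) ^ (-(1 - 3 * δ)) := by
          have : 0 ≤ A ^ 2 * K * X := by positivity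
          gcongr
  have e3 : X / nn (z m) ≤ X * nn (z m) ^ (-(1 - 3 * δ)) := by
    rw [div_eq_mul_inv]
    refine mul_le_mul_of_nonneg_left ?_ hX.le
    rw [← Real.rpow_neg_one]
    exact Real.rpow_le_rpow_of_exponent_le hZ1 (by linarith)
  calc nn (w m) ≤ |lam (z m) (w m)| * nn (z m) + X / nn (z m) := d4
    _ ≤ (nn (w 0) / nn (z 0) + X * wt a z 0 m) * nn (z m) + X / nn (z m) := by gcongr
    _ = nn (w 0) / nn (z 0) * nn (z m) + X * wt a z 0 m * nn (z m) + X / nn (z m) := by ring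
    _ ≤ c0 * X * nn (z m) ^ (-(1 - 3 * δ)) + A ^ 2 * K * X * nn (z m) ^ (-(1 - 3 * δ)) +
        X * nn (z m) ^ (-(1 - 3 * δ)) := by linarith
    _ = C1 A K c0 * X * nn (z m) ^ (-(1 - 3 * δ)) := by unfold C1; ring

/-- `1/(R_m R_{m+1}) ≤ A Z_m^2 / X^2` -/
theorem Clean.inv_le (h : Clean a w z n δ K A c0) {m : ℕ} (hm : m < n) :
    1 / (nn (w m) * nn (w (m + 1))) ≤ A * nn (z m) ^ 2 / |wr (w 0) (z 0)| ^ 2 := by
  have hX := h.Xpos
  have h1 := h.X_le m
  have h2 := h.X_le (m + 1)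
  have h3 := h.Z_succ_le m
  have hR := h.Rpos m
  have hR1 := h.Rpos (m + 1)
  have hZ : 0 < nn (z m) := lt_of_lt_of_le one_pos (h.one m hm.le)
  rw [div_le_div_iff₀ (by positivity) (by positivity), one_mul]
  calc |wr (w 0) (z 0)| ^ 2 = |wr (w 0) (z 0)| * |wr (w 0) (z 0)| := by ring
    _ ≤ (nn (w m) * nn (z m)) * (nn (w (m + 1)) * nn (z (m + 1))) := by gcongr
    _ ≤ (nn (w m) * nn (z m)) * (nn (w (m + 1)) * (A * nn (z m))) := by gcongr
    _ = A * nn (z m) ^ 2 * (nn (w m) * nn (w (m + 1))) := by ring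

/-- the constant of the `Sg` bound -/
noncomputable def C2 (A K c0 : ℝ) : ℝ := C1 A K c0 ^ 3 * K ^ 2 * A

/-- **The displacement sum of a clean side**: `Sg w e ≤ C2 X Z_e^{-(1-15δ)}` for every `e ≤ n`. -/
theorem Clean.Sg_le (h : Clean a w z n δ K A c0) {e : ℕ} (he : e ≤ n) :
    Sg w e ≤ C2 A K c0 * |wr (w 0) (z 0)| * nn (z e) ^ (-(1 - 15 * δ)) := by
  have hX := h.Xpos
  set X := |wr (w 0) (z 0)| with hXdef
  have hδ0 := h.δ0
  have hδ1 := h.δ1
  have hK := h.K1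
  have hA1 := h.A1
  have hC := C1_pos h
  -- cubes
  have hcub : ∀ m ≤ n, cub w m ≤ (C1 A K c0 * X) ^ 3 * (K * nn (z m) ^ (-(3 - 13 * δ))) := by
    intro m hm
    have hZ1 := h.one m hm
    unfold cub
    calc ∑ l ∈ range (m + 1), nn (w l) ^ 3
        ≤ ∑ l ∈ range (m + 1), (C1 A K c0 * X) ^ 3 * nn (z l) ^ (-(3 - 9 * δ)) := by
          refine Finset.sum_le_sum fun l hl => ?_
          have hlm : l ≤ m := by have := Finset.mem_range.1 hl; omega
          have hl0 : 0 < nn (z l) := lt_of_lt_of_le one_pos (h.one l (hlm.trans hm))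
          have h1 := h.R_le (hlm.trans hm)
          calc nn (w l) ^ 3 ≤ (C1 A K c0 * X * nn (z l) ^ (-(1 - 3 * δ))) ^ 3 :=
                pow_le_pow_left₀ (nn_nonneg _) h1 3
            _ = (C1 A K c0 * X) ^ 3 * (nn (z l) ^ (-(1 - 3 * δ))) ^ 3 := by ring
            _ = (C1 A K c0 * X) ^ 3 * nn (z l) ^ (-(3 - 9 * δ)) := by
                congr 1
                rw [← Real.rpow_natCast, ← Real.rpow_mul hl0.le]
                congr 1
                push_cast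
                ring
      _ = (C1 A K c0 * X) ^ 3 * ∑ l ∈ range (m + 1), nn (z l) ^ (-(3 - 9 * δ)) := by
          rw [Finset.mul_sum]
      _ ≤ (C1 A K c0 * X) ^ 3 * (K * nn (z m) ^ (-((1 - δ) * ((3 - 9 * δ) - δ)))) := by
          refine mul_le_mul_of_nonneg_left ?_ (by positivity)
          exact h.sum_le hm (by linarith) (Finset.Subset.refl _)
      _ ≤ (C1 A K c0 * X) ^ 3 * (K * nn (z m) ^ (-(3 - 13 * δ))) := by
          have : nn (z m) ^ (-((1 - δ) * ((3 - 9 * δ) - δ))) ≤ nn (z m) ^ (-(3 - 13 * δ)) := by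
            refine Real.rpow_le_rpow_of_exponent_le hZ1 ?_
            nlinarith
          have hp : 0 ≤ (C1 A K c0 * X) ^ 3 := by positivity
          gcongr
  -- the terms
  have hterm : ∀ m < e, cub w m / (nn (w m) * nn (w (m + 1))) ≤
      C1 A K c0 ^ 3 * K * A * X * nn (z m) ^ (-(1 - 13 * δ)) := by
    intro m hme
    have hmn : m < n := by omega
    have hZ1 := h.one m hmn.le
    have hZ0 : 0 < nn (z m) := by linarith
    have h1 := hcub m hmn.le
    have h2 := h.inv_le hmn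
    rw [← hXdef] at h2
    have hR := h.Rpos m
    have hR1 := h.Rpos (m + 1)
    have hcn := cub_nonneg w m
    calc cub w m / (nn (w m) * nn (w (m + 1)))
        = cub w m * (1 / (nn (w m) * nn (w (m + 1)))) := by ring
      _ ≤ ((C1 A K c0 * X) ^ 3 * (K * nn (z m) ^ (-(3 - 13 * δ)))) *
          (A * nn (z m) ^ 2 / X ^ 2) := by
          have hp : 0 ≤ nn (z m) ^ (-(3 - 13 * δ)) := Real.rpow_nonneg hZ0.le _
          refine mul_le_mul h1 h2 (by positivity) (by positivity)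
      _ = C1 A K c0 ^ 3 * K * A * X * (nn (z m) ^ (-(3 - 13 * δ)) * nn (z m) ^ 2) := by
          field_simp
      _ = C1 A K c0 ^ 3 * K * A * X * nn (z m) ^ (-(1 - 13 * δ)) := by
          congr 1
          rw [← Real.rpow_natCast, ← Real.rpow_add hZ0]
          congr 1
          push_cast
          ring
  unfold Sg
  calc ∑ m ∈ range e, cub w m / (nn (w m) * nn (w (m + 1)))
      ≤ ∑ m ∈ range e, C1 A K c0 ^ 3 * K * A * X * nn (z m) ^ (-(1 - 13 * δ)) :=
        Finset.sum_le_sum fun m hm => hterm m (Finset.mem_range.1 hm)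
    _ = C1 A K c0 ^ 3 * K * A * X * ∑ m ∈ range e, nn (z m) ^ (-(1 - 13 * δ)) := by
        rw [Finset.mul_sum]
    _ ≤ C1 A K c0 ^ 3 * K * A * X * (K * nn (z e) ^ (-((1 - δ) * ((1 - 13 * δ) - δ)))) := by
        refine mul_le_mul_of_nonneg_left ?_ (by positivity)
        exact h.sum_le he (by linarith) (Finset.range_subset_range.2 (by omega))
    _ ≤ C1 A K c0 ^ 3 * K * A * X * (K * nn (z e) ^ (-(1 - 15 * δ))) := by
        have : nn (z e) ^ (-((1 - δ) * ((1 - 13 * δ) - δ))) ≤ nn (z e) ^ (-(1 - 15 * δ)) := by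
          refine Real.rpow_le_rpow_of_exponent_le (h.one e he) ?_
          nlinarith
        have hp : 0 ≤ C1 A K c0 ^ 3 * K * A * X := by positivity
        gcongr
    _ = C2 A K c0 * X * nn (z e) ^ (-(1 - 15 * δ)) := by unfold C2; ring

/-- the field at the times before `e` -/
theorem Clean.R_le' (h : Clean a w z n δ K A c0) {m e : ℕ} (hme : m ≤ e) (he : e ≤ n) :
    nn (w m) ≤ C1 A K c0 * |wr (w 0) (z 0)| * nn (z e) ^ (-(1 - 4 * δ)) := by
  have hX := h.Xpos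
  have hδ0 := h.δ0
  have hδ1 := h.δ1
  have hC := C1_pos h
  refine (h.R_le (hme.trans he)).trans ?_
  have h1 := h.rpow_le hme he (c := 1 - 3 * δ) (by linarith)
  have h2 : nn (z e) ^ (-((1 - δ) * (1 - 3 * δ))) ≤ nn (z e) ^ (-(1 - 4 * δ)) := by
    refine Real.rpow_le_rpow_of_exponent_le (h.one e he) ?_
    nlinarith
  exact mul_le_mul_of_nonneg_left (h1.trans h2) (by positivity)

/-- **The content sum of a clean side**:
`∑_{m<e} A/(R_m R_{m+1}) (Z_{m+1}^{-(1-15δ)})^3 ≤ A^4 K X^{-2} Z_e^{-(1-47δ)}`. -/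
theorem Clean.content_le (h : Clean a w z n δ K A c0) {e : ℕ} (he : e ≤ n) :
    ∑ m ∈ range e, 1 / (nn (w m) * nn (w (m + 1))) * (nn (z (m + 1)) ^ (-(1 - 15 * δ))) ^ 3 ≤
      A ^ 3 * K / |wr (w 0) (z 0)| ^ 2 * nn (z e) ^ (-(1 - 47 * δ)) := by
  have hX := h.Xpos
  set X := |wr (w 0) (z 0)| with hXdef
  have hδ0 := h.δ0
  have hδ1 := h.δ1
  have hK := h.K1
  have hA1 := h.A1
  have hterm : ∀ m < e, 1 / (nn (w m) * nn (w (m + 1))) *
      (nn (z (m + 1)) ^ (-(1 - 15 * δ))) ^ 3 ≤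
      A ^ 3 / X ^ 2 * nn (z (m + 1)) ^ (-(1 - 45 * δ)) := by
    intro m hme
    have hmn : m < n := by omega
    have hZ0 : 0 < nn (z m) := lt_of_lt_of_le one_pos (h.one m hmn.le)
    have hZ1 : 0 < nn (z (m + 1)) := lt_of_lt_of_le one_pos (h.one (m + 1) hmn)
    have h2 := h.inv_le hmn
    rw [← hXdef] at h2
    have h3 := h.Z_le_succ m
    have hp : 0 ≤ (nn (z (m + 1)) ^ (-(1 - 15 * δ))) ^ 3 := by
      have := Real.rpow_nonneg hZ1.le (-(1 - 15 * δ))
      positivity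
    calc 1 / (nn (w m) * nn (w (m + 1))) * (nn (z (m + 1)) ^ (-(1 - 15 * δ))) ^ 3
        ≤ (A * nn (z m) ^ 2 / X ^ 2) * (nn (z (m + 1)) ^ (-(1 - 15 * δ))) ^ 3 :=
          mul_le_mul_of_nonneg_right h2 hp
      _ ≤ (A * (A * nn (z (m + 1))) ^ 2 / X ^ 2) * (nn (z (m + 1)) ^ (-(1 - 15 * δ))) ^ 3 := by
          gcongr
      _ = A ^ 3 / X ^ 2 * (nn (z (m + 1)) ^ 2 * (nn (z (m + 1)) ^ (-(1 - 15 * δ))) ^ 3) := by
          ring
      _ = A ^ 3 / X ^ 2 * nn (z (m + 1)) ^ (-(1 - 45 * δ)) := by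
          congr 1
          rw [← Real.rpow_natCast, ← Real.rpow_natCast, ← Real.rpow_mul hZ1.le,
            ← Real.rpow_add hZ1]
          congr 1
          push_cast
          ring
  calc _ ≤ ∑ m ∈ range e, A ^ 3 / X ^ 2 * nn (z (m + 1)) ^ (-(1 - 45 * δ)) :=
        Finset.sum_le_sum fun m hm => hterm m (Finset.mem_range.1 hm)
    _ = A ^ 3 / X ^ 2 * ∑ m ∈ range e, nn (z (m + 1)) ^ (-(1 - 45 * δ)) := by
        rw [Finset.mul_sum]
    _ = A ^ 3 / X ^ 2 * ∑ m ∈ (range e).image (· + 1), nn (z m) ^ (-(1 - 45 * δ)) := by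
        rw [Finset.sum_image (by intro x _ y _ hxy; simpa using hxy)]
    _ ≤ A ^ 3 / X ^ 2 * (K * nn (z e) ^ (-((1 - δ) * ((1 - 45 * δ) - δ)))) := by
        refine mul_le_mul_of_nonneg_left ?_ (by positivity)
        refine h.sum_le he (by linarith) ?_
        intro m hm
        rw [Finset.mem_image] at hm
        obtain ⟨x, hx, rfl⟩ := hm
        rw [Finset.mem_range] at hx ⊢
        omega
    _ ≤ A ^ 3 / X ^ 2 * (K * nn (z e) ^ (-(1 - 47 * δ))) := by
        have : nn (z e) ^ (-((1 - δ) * ((1 - 45 * δ) - δ))) ≤ nn (z e) ^ (-(1 - 47 * δ)) := by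
          refine Real.rpow_le_rpow_of_exponent_le (h.one e he) ?_
          nlinarith
        have hp : 0 ≤ A ^ 3 / X ^ 2 := by positivity
        gcongr
    _ = _ := by ring

end Crest.Agent.R128.CleanNum
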