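import Mathlib
import Crest.Agent.R128.CleanNum
import Crest.Agent.R128.CellB
import Crest.Agent.R128.PolyC

/-!
Row 128, node N6-CLEANDISC (helper816): the complexified orbit and its fields on the disc of a
backward clean side; the content is quadratic.

`wf k c t0 m = (Q_m, Q_{m+1})` is the field of `(0,1)` at the real point `(c, t0)`;
`yd k c m t` (CellB) its complexification, `pd k c m t` the complex field of `(1,0)`.
-/

set_option autoImplicit false

open Finset Metric Topology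

namespace Crest.Agent.R128.CleanDisc

open Crest.Agent.R128 Crest.Agent.R128.Cell Crest.Agent.R128.CellB
open Crest.Agent.R128.TreeSum Crest.Agent.R128.Disp Crest.Agent.R128.CleanNum

/-- real digits along the orbit of `(c, t0)` -/
noncomputable def ra (k c t0 : ℝ) (m : ℕ) : ℝ := V k ((T k)^[m] (pr (c, t0))).2

/-- the field of the vector `(0,1)` at the real point `(c, t0)` -/
noncomputable def wf (k c t0 : ℝ) (m : ℕ) : ℝ × ℝ :=
  (Mn k m (pr (c, t0)) 0 1, Mn k m (pr (c, t0)) 1 1)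

theorem wf_fst (k c t0 : ℝ) (m : ℕ) : (((wf k c t0 m).1 : ℝ) : ℂ) = yd k c m (t0 : ℂ) :=
  (yd_ofReal k c m t0).symm

theorem wf_snd (k c t0 : ℝ) (m : ℕ) : (((wf k c t0 m).2 : ℝ) : ℂ) = yd k c (m + 1) (t0 : ℂ) :=
  (yd_ofReal' k c m t0).symm

theorem cV_y (k c t0 : ℝ) (m : ℕ) : cV k (y k c (m + 1) (t0 : ℂ)) = ((ra k c t0 m : ℝ) : ℂ) := by
  rw [y_ofReal, cV_ofReal]
  unfold ra
  rw [← pr_rorb]
  rfl

theorem isField_wf (k c t0 : ℝ) : IsField (ra k c t0) (wf k c t0) := by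
  intro m
  unfold stp
  have h1 : (((wf k c t0 (m + 1)).1 : ℝ) : ℂ) = (((wf k c t0 m).2 : ℝ) : ℂ) := by
    rw [wf_fst, wf_snd]
  have h2 : (((wf k c t0 (m + 1)).2 : ℝ) : ℂ) =
      ((ra k c t0 m * (wf k c t0 m).2 - (wf k c t0 m).1 : ℝ) : ℂ) := by
    rw [wf_snd, yd_add_two, cV_y]
    push_cast
    rw [wf_fst, wf_snd]
  ext
  · exact_mod_cast h1
  · exact_mod_cast h2

theorem wf_zero (k c t0 : ℝ) : wf k c t0 0 = (0, 1) := by
  have h1 : (((wf k c t0 0).1 : ℝ) : ℂ) = 0 := by rw [wf_fst, yd_zero]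
  have h2 : (((wf k c t0 0).2 : ℝ) : ℂ) = 1 := by rw [wf_snd, yd_one]
  ext
  · exact_mod_cast h1
  · exact_mod_cast h2

theorem nn_wf_zero (k c t0 : ℝ) : nn (wf k c t0 0) = 1 := by
  rw [wf_zero]; unfold nn; simp

/-- quadratic remainder of the map in the strip -/
theorem quad_rem {k : ℝ} {Y Y0 : ℂ} (h0 : Y0.im = 0) (h : ‖Y - Y0‖ ≤ 1) :
    ‖(2 * Y + k * Complex.sin (2 * Real.pi * Y)) - (2 * Y0 + k * Complex.sin (2 * Real.pi * Y0)) -
      cV k Y0 * (Y - Y0)‖ ≤ CL k * ‖Y - Y0‖ ^ 2 := by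
  have hcv : Convex ℝ (closedBall Y0 ‖Y - Y0‖) := convex_closedBall _ _
  have hd : ∀ z : ℂ, HasDerivAt (fun z : ℂ => 2 * z + k * Complex.sin (2 * Real.pi * z) -
      cV k Y0 * z) (cV k z - cV k Y0) z := by
    intro z
    have h1 := hasDerivAt_sin2pi k z
    have h2 := (hasDerivAt_id z).const_mul (cV k Y0)
    have h3 : HasDerivAt (fun z : ℂ => 2 * z + k * Complex.sin (2 * Real.pi * z) -
      cV k Y0 * z) (cV k z - cV k Y0 * 1) z := h1.sub h2
    rwa [mul_one] at h3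
  have hin : ∀ z ∈ closedBall Y0 ‖Y - Y0‖, |z.im| ≤ 1 := by
    intro z hz
    rw [mem_closedBall, dist_eq_norm] at hz
    have := Complex.abs_im_le_norm (z - Y0)
    rw [Complex.sub_im, h0, sub_zero] at this
    linarith
  have hY0 : |Y0.im| ≤ 1 := by rw [h0]; simp
  have := hcv.norm_image_sub_le_of_norm_hasDerivWithin_le
    (f := fun z : ℂ => 2 * z + k * Complex.sin (2 * Real.pi * z) - cV k Y0 * z)
    (f' := fun z => cV k z - cV k Y0) (C := CL k * ‖Y - Y0‖)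
    (fun z _ => (hd z).hasDerivWithinAt)
    (fun z hz => by
      refine (norm_cV_sub_le k (hin z hz) hY0).trans ?_
      rw [mem_closedBall, dist_eq_norm] at hz
      exact mul_le_mul_of_nonneg_left hz (CL_nonneg k))
    (mem_closedBall_self (norm_nonneg _) : Y0 ∈ closedBall Y0 ‖Y - Y0‖)
    (by rw [mem_closedBall, dist_eq_norm] : Y ∈ closedBall Y0 ‖Y - Y0‖)
  calc _ = ‖(2 * Y + k * Complex.sin (2 * Real.pi * Y) - cV k Y0 * Y) -
      (2 * Y0 + k * Complex.sin (2 * Real.pi * Y0) - cV k Y0 * Y0)‖ := by congr 1; ring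
    _ ≤ CL k * ‖Y - Y0‖ * ‖Y - Y0‖ := this
    _ = _ := by ring

/-- **The complex orbit on the disc.** -/
theorem orbit_disc {k c t0 A : ℝ} (hA : ∀ j, |ra k c t0 j| + 2 ≤ A) {N : ℕ} {t : ℂ}
    (hS : 8 * CL k * (A + 1) * ‖t - t0‖ * Sg (wf k c t0) N ≤ 1)
    (hR : ∀ m ≤ N, 2 * ‖t - t0‖ * nn (wf k c t0 m) ≤ 1) :
    ∀ m ≤ N, ‖y k c m t - y k c m t0 - (t - t0) * (wf k c t0 m).1‖ ≤
        ‖t - t0‖ * nn (wf k c t0 m) ∧
      ‖y k c (m + 1) t - y k c (m + 1) t0 - (t - t0) * (wf k c t0 m).2‖ ≤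
        ‖t - t0‖ * nn (wf k c t0 m) ∧
      ‖y k c m t - y k c m t0‖ ≤ 2 * ‖t - t0‖ * nn (wf k c t0 m) ∧
      ‖y k c (m + 1) t - y k c (m + 1) t0‖ ≤ 2 * ‖t - t0‖ * nn (wf k c t0 m) := by
  have hw := isField_wf k c t0
  have h0 : 0 < nn (wf k c t0 0) := by rw [nn_wf_zero]; exact one_pos
  have hA0 : 0 ≤ A := by
    have := hA 0
    have := abs_nonneg (ra k c t0 0)
    linarith
  set D : ℕ → ℂ × ℂ := fun m => (y k c m t - y k c m t0, y k c (m + 1) t - y k c (m + 1) t0)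
    with hDdef
  set q : ℕ → ℂ := fun m => (2 * y k c (m + 1) t + k * Complex.sin (2 * Real.pi * y k c (m + 1) t))
    - (2 * y k c (m + 1) t0 + k * Complex.sin (2 * Real.pi * y k c (m + 1) t0)) -
      cV k (y k c (m + 1) t0) * (y k c (m + 1) t - y k c (m + 1) t0) with hqdef
  have hD : ∀ m < N, D (m + 1) = stq (ra k c t0 m) (q m) (D m) := by
    intro m _
    rw [hDdef, hqdef]
    unfold stq
    simp only
    ext
    · rfl
    · simp only
      rw [y_add_two, y_add_two, cV_y]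
      ring
  have hD0 : D 0 = ((t - t0) * ((wf k c t0 0).1 : ℂ), (t - t0) * ((wf k c t0 0).2 : ℂ)) := by
    rw [wf_zero, hDdef]
    simp
  have hq : ∀ m < N, ‖(D m).2‖ ≤ 2 * ‖t - t0‖ * nn (wf k c t0 m) →
      ‖q m‖ ≤ CL k * ‖(D m).2‖ ^ 2 := by
    intro m hm h2
    exact quad_rem (im_y_ofReal k c (m + 1) t0) (h2.trans (hR m hm.le))
  intro m hm
  exact disp_le hw h0 (fun j _ => hA j) hA0 hD hD0 (CL_nonneg k) hq hS m hm

/-- **The complex field of `(0,1)` on the disc** (relative distortion). -/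
theorem field_disc {k c t0 A : ℝ} (hA : ∀ j, |ra k c t0 j| + 2 ≤ A) {N : ℕ} {t : ℂ}
    (hS : 8 * CL k * (A + 1) * ‖t - t0‖ * Sg (wf k c t0) N ≤ 1)
    (hR : ∀ m ≤ N, 2 * ‖t - t0‖ * nn (wf k c t0 m) ≤ 1) :
    ∀ m ≤ N, ‖yd k c m t - (wf k c t0 m).1‖ ≤
        8 * CL k * (A + 1) * ‖t - t0‖ * Sg (wf k c t0) m * nn (wf k c t0 m) ∧
      ‖yd k c (m + 1) t - (wf k c t0 m).2‖ ≤
        8 * CL k * (A + 1) * ‖t - t0‖ * Sg (wf k c t0) m * nn (wf k c t0 m) := by
  have hw := isField_wf k c t0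
  have h0 : 0 < nn (wf k c t0 0) := by rw [nn_wf_zero]; exact one_pos
  have hA0 : 0 ≤ A := by
    have := hA 0
    have := abs_nonneg (ra k c t0 0)
    linarith
  have horb := orbit_disc hA hS hR
  set D : ℕ → ℂ × ℂ := fun m => (yd k c m t, yd k c (m + 1) t) with hDdef
  set e : ℕ → ℂ := fun m => cV k (y k c (m + 1) t) - ra k c t0 m with hedef
  have hD : ∀ m < N, D (m + 1) = ((D m).2, ((ra k c t0 m : ℂ) + e m) * (D m).2 - (D m).1) := by
    intro m _
    rw [hDdef, hedef]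
    simp only
    ext
    · rfl
    · simp only
      rw [yd_add_two]
      ring
  have hD0 : D 0 = (((wf k c t0 0).1 : ℂ), ((wf k c t0 0).2 : ℂ)) := by
    rw [wf_zero, hDdef]
    simp
  have he : ∀ m < N, ‖e m‖ ≤ (2 * CL k * ‖t - t0‖) * nn (wf k c t0 m) := by
    intro m hm
    have h4 := (horb m hm.le).2.2.2
    have h5 := hR m hm.le
    have him0 : (y k c (m + 1) (t0 : ℂ)).im = 0 := im_y_ofReal k c (m + 1) t0
    have h6 : |(y k c (m + 1) t).im| ≤ 1 := by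
      have := Complex.abs_im_le_norm (y k c (m + 1) t - y k c (m + 1) t0)
      rw [Complex.sub_im, him0, sub_zero] at this
      linarith
    have h7 : |(y k c (m + 1) (t0 : ℂ)).im| ≤ 1 := by rw [him0]; simp
    have h8 := norm_cV_sub_le k h6 h7
    rw [cV_y] at h8
    rw [hedef]
    simp only
    refine h8.trans ?_
    calc CL k * ‖y k c (m + 1) t - y k c (m + 1) t0‖ ≤
        CL k * (2 * ‖t - t0‖ * nn (wf k c t0 m)) := mul_le_mul_of_nonneg_left h4 (CL_nonneg k)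
      _ = _ := by ring
  have hκ : 0 ≤ 2 * CL k * ‖t - t0‖ := by
    have := CL_nonneg k
    positivity
  have hmain := field_le hw h0 (fun j (_ : j < N) => hA j) hA0 hD hD0 hκ he (by
    calc 4 * (2 * CL k * ‖t - t0‖) * (A + 1) * Sg (wf k c t0) N
        = 8 * CL k * (A + 1) * ‖t - t0‖ * Sg (wf k c t0) N := by ring
      _ ≤ 1 := hS)
  intro m hm
  obtain ⟨h1, h2⟩ := hmain m hm
  refine ⟨h1.trans (le_of_eq (by ring)), h2.trans (le_of_eq (by ring))⟩

/-! ### the second field -/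

/-- the complex field of `(1, 0)` -/
noncomputable def pd (k : ℝ) (c : ℂ) : ℕ → ℂ → ℂ
  | 0, _ => 1
  | 1, _ => 0
  | n + 2, t => cV k (y k c (n + 1) t) * pd k c (n + 1) t - pd k c n t

@[simp] theorem pd_zero (k : ℝ) (c t : ℂ) : pd k c 0 t = 1 := rfl
@[simp] theorem pd_one (k : ℝ) (c t : ℂ) : pd k c 1 t = 0 := rfl
theorem pd_add_two (k : ℝ) (c : ℂ) (n : ℕ) (t : ℂ) : pd k c (n + 2) t =
    cV k (y k c (n + 1) t) * pd k c (n + 1) t - pd k c n t := rfl

theorem wronskian (k : ℝ) (c : ℂ) (m : ℕ) (t : ℂ) :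
    pd k c m t * yd k c (m + 1) t - pd k c (m + 1) t * yd k c m t = 1 := by
  induction m with
  | zero => simp
  | succ m ih =>
    rw [pd_add_two, yd_add_two]
    linear_combination ih

theorem differentiable_cV (k : ℝ) : Differentiable ℂ (cV k) :=
  fun z => (hasDerivAt_cV k z).differentiableAt

theorem differentiable_yd (k : ℝ) (c : ℂ) (m : ℕ) : Differentiable ℂ (yd k c m) := by
  induction m using Nat.strong_induction_on with
  | _ m ih =>
    match m with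
    | 0 => exact differentiable_const 0
    | 1 => exact differentiable_const 1
    | m + 2 =>
      exact (((differentiable_cV k).comp (differentiable_y k c (m + 1))).mul
        (ih (m + 1) (by omega))).sub (ih m (by omega))

theorem differentiable_pd (k : ℝ) (c : ℂ) (m : ℕ) : Differentiable ℂ (pd k c m) := by
  induction m using Nat.strong_induction_on with
  | _ m ih =>
    match m with
    | 0 => exact differentiable_const 1
    | 1 => exact differentiable_const 0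
    | m + 2 =>
      exact (((differentiable_cV k).comp (differentiable_y k c (m + 1))).mul
        (ih (m + 1) (by omega))).sub (ih m (by omega))

/-- `⟨w_m, Q(t)⟩` -/
noncomputable def den (k c t0 : ℝ) (m : ℕ) (t : ℂ) : ℂ :=
  (wf k c t0 m).1 * yd k c m t + (wf k c t0 m).2 * yd k c (m + 1) t

/-- `⟨w_m, P(t)⟩` -/
noncomputable def num (k c t0 : ℝ) (m : ℕ) (t : ℂ) : ℂ :=
  (wf k c t0 m).1 * pd k c m t + (wf k c t0 m).2 * pd k c (m + 1) t

/-- the holomorphic slope `⟨w_m, P(t)⟩ / ⟨w_m, Q(t)⟩` -/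
noncomputable def mu (k c t0 : ℝ) (m : ℕ) (t : ℂ) : ℂ := num k c t0 m t / den k c t0 m t

theorem mu_zero (k c t0 : ℝ) (t : ℂ) : mu k c t0 0 t = 0 := by
  unfold mu num den
  rw [wf_zero]
  simp

theorem differentiable_den (k c t0 : ℝ) (m : ℕ) : Differentiable ℂ (den k c t0 m) :=
  ((differentiable_yd k c m).const_mul _).add ((differentiable_yd k c (m + 1)).const_mul _)

theorem differentiable_num (k c t0 : ℝ) (m : ℕ) : Differentiable ℂ (num k c t0 m) :=
  ((differentiable_pd k c m).const_mul _).add ((differentiable_pd k c (m + 1)).const_mul _)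

/-- one step of the slope -/
theorem num_den_step (k c t0 : ℝ) (m : ℕ) (t : ℂ) :
    num k c t0 (m + 1) t * den k c t0 m t - num k c t0 m t * den k c t0 (m + 1) t =
      -((wf k c t0 (m + 1)).1 * (wf k c t0 m).1 +
        cV k (y k c (m + 1) t) * (wf k c t0 (m + 1)).2 * (wf k c t0 m).1 +
        (wf k c t0 (m + 1)).2 * (wf k c t0 m).2) := by
  unfold num den
  rw [pd_add_two, yd_add_two]
  have h := wronskian k c m t
  linear_combination (-((wf k c t0 (m + 1)).1 * (wf k c t0 m).1 +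
        cV k (y k c (m + 1) t) * (wf k c t0 (m + 1)).2 * (wf k c t0 m).1 +
        (wf k c t0 (m + 1)).2 * (wf k c t0 m).2) : ℂ) * h

/-- the denominator is close to `R_m^2` when the distortion is `≤ 1/10` -/
theorem den_ge {k c t0 : ℝ} {m : ℕ} {t : ℂ}
    (h1 : ‖yd k c m t - (wf k c t0 m).1‖ ≤ 1 / 10 * nn (wf k c t0 m))
    (h2 : ‖yd k c (m + 1) t - (wf k c t0 m).2‖ ≤ 1 / 10 * nn (wf k c t0 m)) :
    4 / 5 * nn (wf k c t0 m) ^ 2 ≤ ‖den k c t0 m t‖ := by
  have e : den k c t0 m t = ((nn (wf k c t0 m) ^ 2 : ℝ) : ℂ) +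
      (((wf k c t0 m).1 : ℂ) * (yd k c m t - (wf k c t0 m).1) +
        ((wf k c t0 m).2 : ℂ) * (yd k c (m + 1) t - (wf k c t0 m).2)) := by
    rw [nn_sq]
    unfold den
    push_cast
    ring
  have h3 : ‖((wf k c t0 m).1 : ℂ) * (yd k c m t - (wf k c t0 m).1) +
        ((wf k c t0 m).2 : ℂ) * (yd k c (m + 1) t - (wf k c t0 m).2)‖ ≤
      1 / 5 * nn (wf k c t0 m) ^ 2 := by
    refine (norm_add_le _ _).trans ?_
    rw [norm_mul, norm_mul]
    have a1 := norm_ofReal_fst_le (wf k c t0 m)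
    have a2 := norm_ofReal_snd_le (wf k c t0 m)
    have a0 := nn_nonneg (wf k c t0 m)
    calc _ ≤ nn (wf k c t0 m) * (1 / 10 * nn (wf k c t0 m)) +
          nn (wf k c t0 m) * (1 / 10 * nn (wf k c t0 m)) := by gcongr
      _ = _ := by ring
  have h4 : nn (wf k c t0 m) ^ 2 ≤ ‖den k c t0 m t‖ + 1 / 5 * nn (wf k c t0 m) ^ 2 := by
    have h5 : ‖((nn (wf k c t0 m) ^ 2 : ℝ) : ℂ)‖ = nn (wf k c t0 m) ^ 2 := by
      rw [Complex.norm_real, Real.norm_eq_abs, abs_of_nonneg (sq_nonneg _)]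
    rw [← h5]
    have h6 : ((nn (wf k c t0 m) ^ 2 : ℝ) : ℂ) = den k c t0 m t -
      (((wf k c t0 m).1 : ℂ) * (yd k c m t - (wf k c t0 m).1) +
        ((wf k c t0 m).2 : ℂ) * (yd k c (m + 1) t - (wf k c t0 m).2)) := by rw [e]; ring
    calc ‖((nn (wf k c t0 m) ^ 2 : ℝ) : ℂ)‖ ≤ ‖den k c t0 m t‖ +
        ‖((wf k c t0 m).1 : ℂ) * (yd k c m t - (wf k c t0 m).1) +
        ((wf k c t0 m).2 : ℂ) * (yd k c (m + 1) t - (wf k c t0 m).2)‖ := by
          rw [h6]; exact norm_sub_le _ _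
      _ ≤ ‖den k c t0 m t‖ + 1 / 5 * ‖((nn (wf k c t0 m) ^ 2 : ℝ) : ℂ)‖ := by
          rw [h5]
          linarith
  linarith

/-- one step of the slope is of size `1/(R_m R_{m+1})` -/
theorem step_le {k c t0 : ℝ} {m : ℕ} {t : ℂ} (hR : 0 < nn (wf k c t0 m))
    (hR1 : 0 < nn (wf k c t0 (m + 1)))
    (d0 : 4 / 5 * nn (wf k c t0 m) ^ 2 ≤ ‖den k c t0 m t‖)
    (d1 : 4 / 5 * nn (wf k c t0 (m + 1)) ^ 2 ≤ ‖den k c t0 (m + 1) t‖)
    (him : |(y k c (m + 1) t).im| ≤ 1) :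
    ‖mu k c t0 (m + 1) t - mu k c t0 m t‖ ≤
      2 * (CV k + 2) * (1 / (nn (wf k c t0 m) * nn (wf k c t0 (m + 1)))) := by
  have n0 : den k c t0 m t ≠ 0 := by
    intro h; rw [h, norm_zero] at d0
    have : 0 < nn (wf k c t0 m) ^ 2 := by positivity
    linarith
  have n1 : den k c t0 (m + 1) t ≠ 0 := by
    intro h; rw [h, norm_zero] at d1
    have : 0 < nn (wf k c t0 (m + 1)) ^ 2 := by positivity
    linarith
  unfold mu
  rw [div_sub_div _ _ n1 n0, mul_comm (den k c t0 (m + 1) t) (num k c t0 m t), num_den_step,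
    norm_div, norm_neg, norm_mul]
  have hCV := CV_ge k
  have b1 := norm_cV_le k him
  have a1 := norm_ofReal_fst_le (wf k c t0 m)
  have a2 := norm_ofReal_snd_le (wf k c t0 m)
  have a3 := norm_ofReal_fst_le (wf k c t0 (m + 1))
  have a4 := norm_ofReal_snd_le (wf k c t0 (m + 1))
  set R := nn (wf k c t0 m) with hRdef
  set R1 := nn (wf k c t0 (m + 1)) with hR1def
  have hnum : ‖((wf k c t0 (m + 1)).1 : ℂ) * (wf k c t0 m).1 +
        cV k (y k c (m + 1) t) * (wf k c t0 (m + 1)).2 * (wf k c t0 m).1 +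
        (wf k c t0 (m + 1)).2 * (wf k c t0 m).2‖ ≤ (CV k + 2) * (R * R1) := by
    refine (norm_add_le _ _).trans ?_
    have t1 : ‖((wf k c t0 (m + 1)).1 : ℂ) * (wf k c t0 m).1 +
        cV k (y k c (m + 1) t) * (wf k c t0 (m + 1)).2 * (wf k c t0 m).1‖ ≤
        R1 * R + CV k * R1 * R := by
      refine (norm_add_le _ _).trans ?_
      rw [norm_mul, norm_mul, norm_mul]
      gcongr
    have t2 : ‖((wf k c t0 (m + 1)).2 : ℂ) * (wf k c t0 m).2‖ ≤ R1 * R := by
      rw [norm_mul]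
      gcongr
    calc _ ≤ (R1 * R + CV k * R1 * R) + R1 * R := add_le_add t1 t2
      _ = _ := by ring
  have hdd : 16 / 25 * (R ^ 2 * R1 ^ 2) ≤ ‖den k c t0 (m + 1) t‖ * ‖den k c t0 m t‖ := by
    calc 16 / 25 * (R ^ 2 * R1 ^ 2) = (4 / 5 * R1 ^ 2) * (4 / 5 * R ^ 2) := by ring
      _ ≤ _ := mul_le_mul d1 d0 (by positivity) (norm_nonneg _)
  have hpos : 0 < ‖den k c t0 (m + 1) t‖ * ‖den k c t0 m t‖ := by positivity
  rw [mul_one_div, div_le_div_iff₀ hpos (by positivity)]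
  calc _ ≤ ((CV k + 2) * (R * R1)) * (R * R1) := by gcongr
    _ = (CV k + 2) * (R ^ 2 * R1 ^ 2) := by ring
    _ ≤ (CV k + 2) * (2 * (16 / 25 * (R ^ 2 * R1 ^ 2))) := by
        have : 0 ≤ R ^ 2 * R1 ^ 2 := by positivity
        have h2 : 0 ≤ CV k + 2 := by linarith
        apply mul_le_mul_of_nonneg_left _ h2
        linarith
    _ ≤ (CV k + 2) * (2 * (‖den k c t0 (m + 1) t‖ * ‖den k c t0 m t‖)) := by
        have h2 : 0 ≤ CV k + 2 := by linarith
        apply mul_le_mul_of_nonneg_left _ h2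
        linarith
    _ = _ := by ring

end Crest.Agent.R128.CleanDisc
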