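import Mathlib
import Crest.Agent.R128.CleanDisc
import Crest.Agent.R128.Align

/-!
Row 128, node N6-CLEANDISC, final statements (helper816).

For a backward clean side (`CleanNum.Clean`, real data at `t0` only):
`fields` : on the complex disc of radius `rho0 / X * Z_e^(1-15δ)` everything up to time `e` is
controlled;
`content_quad` : the slope `-P_{e+1}/Q_{e+1}` is a REAL QUADRATIC polynomial on complex discs of
radius `r ≤ rho0 / (2X)` up to `(rX/rho0)^3 X^{-2} Z_e^{-(1-47δ)}`.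
-/

set_option autoImplicit false

open Finset Metric Topology

namespace Crest.Agent.R128.CleanCont

open Crest.Agent.R128 Crest.Agent.R128.Cell Crest.Agent.R128.CellB
open Crest.Agent.R128.TreeSum Crest.Agent.R128.Disp Crest.Agent.R128.CleanNum
open Crest.Agent.R128.CleanDisc

/-! ### Taylor with real coefficients on complex discs -/

/-- quadratic Taylor polynomial with real coefficients of a real-symmetric function -/
theorem taylor_real {f : ℂ → ℂ} {x0 R B : ℝ} (hR : 0 < R)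
    (hf : DifferentiableOn ℂ f (closedBall (x0 : ℂ) R))
    (hB : ∀ z ∈ closedBall (x0 : ℂ) R, ‖f z‖ ≤ B)
    (hs : ∀ z, f (starRingEnd ℂ z) = starRingEnd ℂ (f z)) {r : ℝ} (hr : 2 * r ≤ R) :
    ∃ q0 q1 q2 : ℝ, ∀ z ∈ closedBall (x0 : ℂ) r,
      ‖f z - (q0 + q1 * z + q2 * z ^ 2)‖ ≤ 2 * B * (r / R) ^ 3 := by
  obtain ⟨P, hPd, hP⟩ := PolyC.taylor_rem hR hf hB 2
  have hev : ∀ z : ℂ, P.eval z = P.coeff 0 + P.coeff 1 * z + P.coeff 2 * z ^ 2 := by
    intro z
    rw [Polynomial.eval_eq_sum_range' (n := 3) (by omega) z, Finset.sum_range_succ,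
      Finset.sum_range_succ, Finset.sum_range_succ, Finset.sum_range_zero]
    ring
  refine ⟨(P.coeff 0).re, (P.coeff 1).re, (P.coeff 2).re, fun z hz => ?_⟩
  have h1 := hP r hr z hz
  have hz' : starRingEnd ℂ z ∈ closedBall (x0 : ℂ) r := by
    rw [mem_closedBall, dist_eq_norm] at hz ⊢
    have e : starRingEnd ℂ z - x0 = starRingEnd ℂ (z - x0) := by
      rw [map_sub, Complex.conj_ofReal]
    rw [e, RCLike.norm_conj]
    exact hz
  have h2 := hP r hr _ hz'
  have h3 : ‖starRingEnd ℂ (f (starRingEnd ℂ z) - P.eval (starRingEnd ℂ z))‖ ≤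
      2 * B * (r / R) ^ (2 + 1) := by rw [RCLike.norm_conj]; exact h2
  have hre : ∀ w : ℂ, ((w.re : ℝ) : ℂ) = (w + starRingEnd ℂ w) / 2 := by
    intro w
    rw [Complex.add_conj]
    push_cast
    ring
  have e2 : f z - (((P.coeff 0).re : ℂ) + ((P.coeff 1).re : ℂ) * z + ((P.coeff 2).re : ℂ) * z ^ 2) =
      ((f z - P.eval z) + starRingEnd ℂ (f (starRingEnd ℂ z) - P.eval (starRingEnd ℂ z))) / 2 := by
    rw [map_sub, ← hs, Complex.conj_conj, hev, hev, hre, hre, hre]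
    simp only [map_add, map_mul, map_pow, Complex.conj_conj]
    ring
  rw [e2, norm_div]
  have h4 : ‖(2 : ℂ)‖ = 2 := by simp
  rw [h4, div_le_iff₀ (by norm_num : (0:ℝ) < 2)]
  refine (norm_add_le _ _).trans ?_
  have e3 : (2 + 1 : ℕ) = 3 := rfl
  rw [e3] at h1 h3
  linarith

/-- the same for finite sums -/
theorem sum_taylor_real {ι : Type*} (S : Finset ι) {g : ι → ℂ → ℂ} {x0 r : ℝ} {R B : ι → ℝ}
    (hR : ∀ s ∈ S, 0 < R s) (hr : ∀ s ∈ S, 2 * r ≤ R s)
    (hg : ∀ s ∈ S, DifferentiableOn ℂ (g s) (closedBall (x0 : ℂ) (R s)))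
    (hB : ∀ s ∈ S, ∀ z ∈ closedBall (x0 : ℂ) (R s), ‖g s z‖ ≤ B s)
    (hs : ∀ s ∈ S, ∀ z, g s (starRingEnd ℂ z) = starRingEnd ℂ (g s z)) :
    ∃ q0 q1 q2 : ℝ, ∀ z ∈ closedBall (x0 : ℂ) r,
      ‖∑ s ∈ S, g s z - (q0 + q1 * z + q2 * z ^ 2)‖ ≤ ∑ s ∈ S, 2 * B s * (r / R s) ^ 3 := by
  classical
  induction S using Finset.induction_on with
  | empty =>
    refine ⟨0, 0, 0, fun z _ => ?_⟩
    simp
  | insert a S ha ih =>
    obtain ⟨p0, p1, p2, hp⟩ := ih (fun s hs' => hR s (Finset.mem_insert_of_mem hs'))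
      (fun s hs' => hr s (Finset.mem_insert_of_mem hs'))
      (fun s hs' => hg s (Finset.mem_insert_of_mem hs'))
      (fun s hs' => hB s (Finset.mem_insert_of_mem hs'))
      (fun s hs' => hs s (Finset.mem_insert_of_mem hs'))
    obtain ⟨q0, q1, q2, hq⟩ := taylor_real (hR a (Finset.mem_insert_self _ _))
      (hg a (Finset.mem_insert_self _ _)) (hB a (Finset.mem_insert_self _ _))
      (hs a (Finset.mem_insert_self _ _)) (hr a (Finset.mem_insert_self _ _))
    refine ⟨q0 + p0, q1 + p1, q2 + p2, fun z hz => ?_⟩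
    rw [Finset.sum_insert ha, Finset.sum_insert ha]
    have e : g a z + ∑ s ∈ S, g s z -
        (((q0 + p0 : ℝ) : ℂ) + ((q1 + p1 : ℝ) : ℂ) * z + ((q2 + p2 : ℝ) : ℂ) * z ^ 2) =
        (g a z - ((q0 : ℂ) + q1 * z + q2 * z ^ 2)) +
        (∑ s ∈ S, g s z - ((p0 : ℂ) + p1 * z + p2 * z ^ 2)) := by
      push_cast; ring
    rw [e]
    exact (norm_add_le _ _).trans (add_le_add (hq z hz) (hp z hz))

/-! ### conjugation symmetry -/

theorem cV_conj (k : ℝ) (z : ℂ) : cV k (starRingEnd ℂ z) = starRingEnd ℂ (cV k z) := by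
  have h2 : starRingEnd ℂ 2 = 2 := map_ofNat _ 2
  unfold cV
  simp only [map_add, map_mul, ← Complex.cos_conj, Complex.conj_ofReal, h2]

theorem yd_conj (k c : ℝ) (n : ℕ) (t : ℂ) :
    yd k c n (starRingEnd ℂ t) = starRingEnd ℂ (yd k c n t) := by
  induction n using Nat.strong_induction_on with
  | _ n ih =>
    match n with
    | 0 => simp
    | 1 => simp
    | n + 2 =>
      rw [yd_add_two, yd_add_two, ih (n + 1) (by omega), ih n (by omega), y_conj, cV_conj, map_sub,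
        map_mul]

theorem pd_conj (k c : ℝ) (n : ℕ) (t : ℂ) :
    pd k c n (starRingEnd ℂ t) = starRingEnd ℂ (pd k c n t) := by
  induction n using Nat.strong_induction_on with
  | _ n ih =>
    match n with
    | 0 => simp
    | 1 => simp
    | n + 2 =>
      rw [pd_add_two, pd_add_two, ih (n + 1) (by omega), ih n (by omega), y_conj, cV_conj, map_sub,
        map_mul]

theorem mu_conj (k c t0 : ℝ) (n : ℕ) (t : ℂ) :
    mu k c t0 n (starRingEnd ℂ t) = starRingEnd ℂ (mu k c t0 n t) := by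
  unfold mu num den
  rw [map_div₀, map_add, map_add, map_mul, map_mul, map_mul, map_mul, Complex.conj_ofReal,
    Complex.conj_ofReal, yd_conj, yd_conj, pd_conj, pd_conj]

/-! ### the radius -/

/-- the unit of the radius -/
noncomputable def rho0 (k A K c0 : ℝ) : ℝ := 1 / (80 * CL k * (A + 1) * C2 A K c0)

/-- the absolute Wronskian -/
noncomputable def XX (w z : ℕ → ℝ × ℝ) : ℝ := |wr (w 0) (z 0)|

theorem CL_ge {k : ℝ} (hk : 1 ≤ k) : 1 ≤ CL k := by
  unfold CL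
  have h1 : 1 ≤ Real.exp (2 * Real.pi) := Real.one_le_exp (by positivity)
  have h2 : 3 < Real.pi := Real.pi_gt_three
  rw [abs_of_nonneg (by linarith)]
  have h3 : (1:ℝ) ≤ 4 * Real.pi ^ 2 * k := by nlinarith
  nlinarith

section main

variable {k c t0 : ℝ} {z : ℕ → ℝ × ℝ} {n : ℕ} {δ K A c0 : ℝ}

theorem C2_ge {a : ℕ → ℝ} {w : ℕ → ℝ × ℝ} (h : Clean a w z n δ K A c0) :
    C1 A K c0 ≤ C2 A K c0 ∧ 1 ≤ C2 A K c0 := by
  have h1 := C1_pos h
  have h2 := h.K1
  have h3 := h.A1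
  have h4 : C1 A K c0 ≤ C1 A K c0 ^ 3 := le_self_pow₀ h1 (by norm_num)
  have h5 : 1 ≤ K ^ 2 := one_le_pow₀ h2
  have h6 : C1 A K c0 ≤ C2 A K c0 := by
    unfold C2
    calc C1 A K c0 ≤ C1 A K c0 ^ 3 := h4
      _ = C1 A K c0 ^ 3 * 1 * 1 := by ring
      _ ≤ C1 A K c0 ^ 3 * K ^ 2 * A := by gcongr
  exact ⟨h6, h1.trans h6⟩

theorem rho0_pos {a : ℕ → ℝ} {w : ℕ → ℝ × ℝ} (h : Clean a w z n δ K A c0) (hk : 1 ≤ k) :
    0 < rho0 k A K c0 := by
  have h1 := CL_ge hk
  have h2 := (C2_ge h).2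
  have h3 := h.A1
  unfold rho0
  positivity

/-- the two hypotheses of the disc lemmas at the radius `ε rho0 / X * Z_e^(1-15δ)`, `ε ≤ 1` -/
theorem hyp_disc (h : Clean (ra k c t0) (wf k c t0) z n δ K A c0) (hk : 1 ≤ k) {e : ℕ}
    (he : e ≤ n) {u : ℂ}
    (hu : ‖u - t0‖ ≤ rho0 k A K c0 / XX (wf k c t0) z * nn (z e) ^ (1 - 15 * δ)) :
    80 * CL k * (A + 1) * ‖u - t0‖ * Sg (wf k c t0) e ≤ 1 ∧
      ∀ m ≤ e, 2 * ‖u - t0‖ * nn (wf k c t0 m) ≤ 1 := by
  have hX : 0 < XX (wf k c t0) z := h.Xpos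
  have hρ := rho0_pos h hk
  have hCL := CL_ge hk
  obtain ⟨hC2a, hC2b⟩ := C2_ge h
  have hC1 := C1_pos h
  have hA1 := h.A1
  have hZ1 := h.one e he
  have hZ0 : 0 < nn (z e) := by linarith
  have hS := h.Sg_le he
  have hδ0 := h.δ0
  have hδ1 := h.δ1
  set X := XX (wf k c t0) z with hXdef
  have hXe : |wr (wf k c t0 0) (z 0)| = X := rfl
  rw [hXe] at hS
  have hSg := Sg_nonneg (wf k c t0) e
  have hcanc : nn (z e) ^ (1 - 15 * δ) * nn (z e) ^ (-(1 - 15 * δ)) = 1 := by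
    rw [← Real.rpow_add hZ0]; simp
  have hDpos : 0 < 80 * CL k * (A + 1) * C2 A K c0 := by positivity
  have hρe : 80 * CL k * (A + 1) * C2 A K c0 * rho0 k A K c0 = 1 := by
    unfold rho0
    rw [mul_one_div, div_self hDpos.ne']
  constructor
  · have hun := norm_nonneg (u - t0)
    have hp0 : 0 ≤ nn (z e) ^ (-(1 - 15 * δ)) := Real.rpow_nonneg hZ0.le _
    have hp1 : 0 ≤ nn (z e) ^ (1 - 15 * δ) := Real.rpow_nonneg hZ0.le _
    calc 80 * CL k * (A + 1) * ‖u - t0‖ * Sg (wf k c t0) e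
        ≤ 80 * CL k * (A + 1) * (rho0 k A K c0 / X * nn (z e) ^ (1 - 15 * δ)) *
          (C2 A K c0 * X * nn (z e) ^ (-(1 - 15 * δ))) := by gcongr
      _ = (80 * CL k * (A + 1) * C2 A K c0 * rho0 k A K c0) *
          (nn (z e) ^ (1 - 15 * δ) * nn (z e) ^ (-(1 - 15 * δ))) := by
          field_simp
      _ = 1 := by rw [hρe, hcanc, one_mul]
  · intro m hm
    have hR := h.R_le' hm he
    rw [hXe] at hR
    have hR0 := h.Rpos m
    have h2 : nn (z e) ^ (1 - 15 * δ) * nn (z e) ^ (-(1 - 4 * δ)) ≤ 1 := by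
      rw [← Real.rpow_add hZ0]
      exact Real.rpow_le_one_of_one_le_of_nonpos hZ1 (by linarith)
    have hρ1 : 2 * rho0 k A K c0 * C1 A K c0 ≤ 1 := by
      have : 2 * rho0 k A K c0 * C1 A K c0 ≤
          80 * CL k * (A + 1) * C2 A K c0 * rho0 k A K c0 := by
        have h5 : 2 * C1 A K c0 ≤ 80 * CL k * (A + 1) * C2 A K c0 := by
          have h6 : (2:ℝ) ≤ 80 * CL k * (A + 1) := by nlinarith
          calc 2 * C1 A K c0 ≤ 80 * CL k * (A + 1) * C1 A K c0 := by gcongr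
            _ ≤ _ := by gcongr
        nlinarith
      linarith
    have hp0 : 0 ≤ nn (z e) ^ (-(1 - 4 * δ)) := Real.rpow_nonneg hZ0.le _
    have hp1 : 0 ≤ nn (z e) ^ (1 - 15 * δ) := Real.rpow_nonneg hZ0.le _
    calc 2 * ‖u - t0‖ * nn (wf k c t0 m)
        ≤ 2 * (rho0 k A K c0 / X * nn (z e) ^ (1 - 15 * δ)) *
          (C1 A K c0 * X * nn (z e) ^ (-(1 - 4 * δ))) := by gcongr
      _ = (2 * rho0 k A K c0 * C1 A K c0) *
          (nn (z e) ^ (1 - 15 * δ) * nn (z e) ^ (-(1 - 4 * δ))) := by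
          field_simp
      _ ≤ 1 * 1 := by
          refine mul_le_mul hρ1 h2 (by positivity) (by norm_num)
      _ = 1 := one_mul _

/-- **Everything up to time `e` on the complex disc of radius `rho0 / X * Z_e^(1-15δ)`**: the
orbit stays in the strip and the field is `(1 + small)` times the field at `t0`, the relative error
being `(1/10) (|u - t0| X / rho0) Z_m^{-(1-15δ)}`. -/
theorem fields (h : Clean (ra k c t0) (wf k c t0) z n δ K A c0) (hk : 1 ≤ k) {e : ℕ}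
    (he : e ≤ n) {u : ℂ}
    (hu : ‖u - t0‖ ≤ rho0 k A K c0 / XX (wf k c t0) z * nn (z e) ^ (1 - 15 * δ)) :
    ∀ m ≤ e, ‖y k c m u - y k c m t0‖ ≤ 1 ∧ ‖y k c (m + 1) u - y k c (m + 1) t0‖ ≤ 1 ∧
      |(y k c m u).im| ≤ 1 ∧ |(y k c (m + 1) u).im| ≤ 1 ∧
      ‖y k c (m + 1) u - y k c (m + 1) t0‖ ≤ 2 * ‖u - t0‖ * nn (wf k c t0 m) ∧
      ‖yd k c m u - (wf k c t0 m).1‖ ≤ 1 / 10 * (‖u - t0‖ * XX (wf k c t0) z / rho0 k A K c0) *
        nn (z m) ^ (-(1 - 15 * δ)) * nn (wf k c t0 m) ∧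
      ‖yd k c (m + 1) u - (wf k c t0 m).2‖ ≤
        1 / 10 * (‖u - t0‖ * XX (wf k c t0) z / rho0 k A K c0) *
        nn (z m) ^ (-(1 - 15 * δ)) * nn (wf k c t0 m) ∧
      ‖yd k c m u - (wf k c t0 m).1‖ ≤ 1 / 10 * nn (wf k c t0 m) ∧
      ‖yd k c (m + 1) u - (wf k c t0 m).2‖ ≤ 1 / 10 * nn (wf k c t0 m) := by
  obtain ⟨h1, h2⟩ := hyp_disc h hk he hu
  have hCL := CL_ge hk
  have hA1 := h.A1
  have hun := norm_nonneg (u - t0)
  have hρ := rho0_pos h hk
  obtain ⟨hC2a, hC2b⟩ := C2_ge h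
  have h1' : 8 * CL k * (A + 1) * ‖u - t0‖ * Sg (wf k c t0) e ≤ 1 := by
    have := Sg_nonneg (wf k c t0) e
    have h4 : 0 ≤ CL k * (A + 1) * ‖u - t0‖ * Sg (wf k c t0) e := by positivity
    nlinarith
  have horb := orbit_disc h.hA h1' h2
  have hfld := field_disc h.hA h1' h2
  intro m hm
  obtain ⟨_, _, o3, o4⟩ := horb m hm
  obtain ⟨f1, f2⟩ := hfld m hm
  have hRm := h2 m hm
  have i0 : (y k c m (t0 : ℂ)).im = 0 := im_y_ofReal k c m t0
  have i1 : (y k c (m + 1) (t0 : ℂ)).im = 0 := im_y_ofReal k c (m + 1) t0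
  have a0 := Complex.abs_im_le_norm (y k c m u - y k c m t0)
  have a1 := Complex.abs_im_le_norm (y k c (m + 1) u - y k c (m + 1) t0)
  rw [Complex.sub_im, i0, sub_zero] at a0
  rw [Complex.sub_im, i1, sub_zero] at a1
  have hS := h.Sg_le (hm.trans he)
  have hXe : |wr (wf k c t0 0) (z 0)| = XX (wf k c t0) z := rfl
  rw [hXe] at hS
  have hRnn := nn_nonneg (wf k c t0 m)
  have hcoef : 8 * CL k * (A + 1) * C2 A K c0 = 1 / 10 / rho0 k A K c0 := by
    unfold rho0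
    field_simp
    norm_num
  have hb : 8 * CL k * (A + 1) * ‖u - t0‖ * Sg (wf k c t0) m * nn (wf k c t0 m) ≤
      1 / 10 * (‖u - t0‖ * XX (wf k c t0) z / rho0 k A K c0) *
        nn (z m) ^ (-(1 - 15 * δ)) * nn (wf k c t0 m) := by
    refine mul_le_mul_of_nonneg_right ?_ hRnn
    calc 8 * CL k * (A + 1) * ‖u - t0‖ * Sg (wf k c t0) m
        ≤ 8 * CL k * (A + 1) * ‖u - t0‖ *
          (C2 A K c0 * XX (wf k c t0) z * nn (z m) ^ (-(1 - 15 * δ))) := by gcongr
      _ = (8 * CL k * (A + 1) * C2 A K c0) * ‖u - t0‖ * XX (wf k c t0) z *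
          nn (z m) ^ (-(1 - 15 * δ)) := by ring
      _ = _ := by rw [hcoef]; ring
  have hb2 : 8 * CL k * (A + 1) * ‖u - t0‖ * Sg (wf k c t0) m * nn (wf k c t0 m) ≤
      1 / 10 * nn (wf k c t0 m) := by
    refine mul_le_mul_of_nonneg_right ?_ hRnn
    have hmono := Sg_mono (wf k c t0) hm
    have : 80 * CL k * (A + 1) * ‖u - t0‖ * Sg (wf k c t0) m ≤ 1 := by
      refine le_trans ?_ h1
      gcongr
    linarith
  exact ⟨o3.trans hRm, o4.trans hRm, a0.trans (o3.trans hRm), a1.trans (o4.trans hRm), o4,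
    f1.trans hb, f2.trans hb, f1.trans hb2, f2.trans hb2⟩

theorem sum_range_sub_mu (k c t0 : ℝ) (e : ℕ) (u : ℂ) :
    ∑ m ∈ range e, (mu k c t0 (m + 1) u - mu k c t0 m u) = mu k c t0 e u := by
  rw [Finset.sum_range_sub (fun m => mu k c t0 m u), mu_zero, sub_zero]

/-- **The content of a clean side is quadratic.** -/
theorem content_quad (h : Clean (ra k c t0) (wf k c t0) z n δ K A c0) (hk : 1 ≤ k) {e : ℕ}
    (he : e ≤ n) (hq : 1 / 2 * nn (wf k c t0 e) ≤ |(wf k c t0 e).2|) {r : ℝ} (hr0 : 0 ≤ r)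
    (hr : 2 * r ≤ rho0 k A K c0 / XX (wf k c t0) z) (mc : ℝ) :
    ∃ q0 q1 q2 : ℝ, ∀ u ∈ closedBall (t0 : ℂ) r,
      ‖Align.mu (fun j => cV k (y k c j u)) (e + 1) -
        (q0 + q1 * (u - mc) + q2 * (u - mc) ^ 2)‖ ≤
      (4 * (CV k + 2) * A ^ 3 * K + 8) * (r * XX (wf k c t0) z / rho0 k A K c0) ^ 3 /
        XX (wf k c t0) z ^ 2 * nn (z e) ^ (-(1 - 47 * δ)) := by
  have hX : 0 < XX (wf k c t0) z := h.Xpos
  have hρ := rho0_pos h hk
  have hδ0 := h.δ0
  have hδ1 := h.δ1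
  have hCV := CV_ge k
  have hK := h.K1
  have hA1 := h.A1
  set X := XX (wf k c t0) z with hXdef
  have hXe : |wr (wf k c t0 0) (z 0)| = X := rfl
  set ρ := rho0 k A K c0 with hρdef
  -- radii
  set rad : ℕ → ℝ := fun m => ρ / X * nn (z m) ^ (1 - 15 * δ) with hrad
  have hradge : ∀ m ≤ n, 2 * r ≤ rad m := by
    intro m hm
    have h1 : 1 ≤ nn (z m) ^ (1 - 15 * δ) := Real.one_le_rpow (h.one m hm) (by linarith)
    have h2 : 0 < ρ / X := by positivity
    calc 2 * r ≤ ρ / X := hr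
      _ = ρ / X * 1 := (mul_one _).symm
      _ ≤ ρ / X * nn (z m) ^ (1 - 15 * δ) := mul_le_mul_of_nonneg_left h1 h2.le
  have hradpos : ∀ m ≤ n, 0 < rad m := by
    intro m hm
    have h1 : 0 < nn (z m) := lt_of_lt_of_le one_pos (h.one m hm)
    simp only [hrad]
    positivity
  have hrr : ∀ m ≤ n, r / rad m = (r * X / ρ) * nn (z m) ^ (-(1 - 15 * δ)) := by
    intro m hm
    have h1 : 0 < nn (z m) := lt_of_lt_of_le one_pos (h.one m hm)
    simp only [hrad]
    rw [Real.rpow_neg h1.le]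
    have h2 : 0 < nn (z m) ^ (1 - 15 * δ) := Real.rpow_pos_of_pos h1 _
    field_simp
  have hball : ∀ m u, u ∈ closedBall (t0 : ℂ) (rad m) → ‖u - t0‖ ≤
      rho0 k A K c0 / XX (wf k c t0) z * nn (z m) ^ (1 - 15 * δ) := by
    intro m u hu
    rw [mem_closedBall, dist_eq_norm] at hu
    exact hu
  have hden : ∀ m ≤ n, ∀ u ∈ closedBall (t0 : ℂ) (rad m), ∀ j ≤ m,
      4 / 5 * nn (wf k c t0 j) ^ 2 ≤ ‖den k c t0 j u‖ := by
    intro m hm u hu j hj
    obtain ⟨_, _, _, _, _, _, _, g1, g2⟩ := fields h hk hm (hball m u hu) j hj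
    exact den_ge g1 g2
  have hden0 : ∀ m ≤ n, ∀ u ∈ closedBall (t0 : ℂ) (rad m), ∀ j ≤ m, den k c t0 j u ≠ 0 := by
    intro m hm u hu j hj h0
    have := hden m hm u hu j hj
    rw [h0, norm_zero] at this
    have hR := h.Rpos j
    have : 0 < nn (wf k c t0 j) ^ 2 := by positivity
    linarith
  -- the sum of the steps
  obtain ⟨p0, p1, p2, hp⟩ := sum_taylor_real (range e) (x0 := t0) (r := r)
    (g := fun m u => mu k c t0 (m + 1) u - mu k c t0 m u) (R := fun m => rad (m + 1))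
    (B := fun m => 2 * (CV k + 2) * (1 / (nn (wf k c t0 m) * nn (wf k c t0 (m + 1)))))
    (fun m hm => hradpos (m + 1) (by have := Finset.mem_range.1 hm; omega))
    (fun m hm => hradge (m + 1) (by have := Finset.mem_range.1 hm; omega))
    (fun m hm u hu => by
      have hme : m + 1 ≤ n := by have := Finset.mem_range.1 hm; omega
      have d1 := hden0 (m + 1) hme u hu (m + 1) le_rfl
      have d0 := hden0 (m + 1) hme u hu m (by omega)
      unfold mu
      exact (((differentiable_num k c t0 (m + 1)) u).div ((differentiable_den k c t0 (m + 1)) u)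
        d1 |>.sub (((differentiable_num k c t0 m) u).div ((differentiable_den k c t0 m) u)
        d0)).differentiableWithinAt)
    (fun m hm u hu => by
      have hme : m + 1 ≤ n := by have := Finset.mem_range.1 hm; omega
      obtain ⟨_, _, _, i1, _⟩ := fields h hk hme (hball (m + 1) u hu) m (by omega)
      exact step_le (h.Rpos m) (h.Rpos (m + 1)) (hden (m + 1) hme u hu m (by omega))
        (hden (m + 1) hme u hu (m + 1) le_rfl) i1)
    (fun m _ u => by rw [mu_conj, mu_conj, map_sub])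
  -- the last component switch
  have hRe := h.Rpos e
  have hZe : 0 < nn (z e) := lt_of_lt_of_le one_pos (h.one e he)
  set sw : ℂ → ℂ := fun u => (wf k c t0 e).1 / (yd k c (e + 1) u * den k c t0 e u) with hsw
  have hyd : ∀ u ∈ closedBall (t0 : ℂ) (rad e), 2 / 5 * nn (wf k c t0 e) ≤ ‖yd k c (e + 1) u‖ := by
    intro u hu
    obtain ⟨_, _, _, _, _, _, _, _, g2⟩ := fields h hk he (hball e u hu) e le_rfl
    have g3 : ‖(((wf k c t0 e).2 : ℝ) : ℂ)‖ ≤ ‖yd k c (e + 1) u‖ +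
        ‖yd k c (e + 1) u - (wf k c t0 e).2‖ := by
      have := norm_sub_le (yd k c (e + 1) u) (yd k c (e + 1) u - (wf k c t0 e).2)
      rwa [sub_sub_cancel] at this
    rw [Complex.norm_real, Real.norm_eq_abs] at g3
    linarith
  have hyd0 : ∀ u ∈ closedBall (t0 : ℂ) (rad e), yd k c (e + 1) u ≠ 0 := by
    intro u hu h0
    have := hyd u hu
    rw [h0, norm_zero] at this
    have : 0 < 2 / 5 * nn (wf k c t0 e) := by positivity
    linarith
  obtain ⟨s0, s1, s2, hs⟩ := taylor_real (f := sw) (x0 := t0) (R := rad e)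
    (B := 25 / 8 / nn (wf k c t0 e) ^ 2) (hradpos e he)
    (fun u hu => by
      have d1 := hyd0 u hu
      have d0 := hden0 e he u hu e le_rfl
      exact ((differentiableAt_const _).div (((differentiable_yd k c (e + 1)) u).mul
        ((differentiable_den k c t0 e) u)) (mul_ne_zero d1 d0)).differentiableWithinAt)
    (fun u hu => by
      have d1 := hyd u hu
      have d0 := hden e he u hu e le_rfl
      have a1 := norm_ofReal_fst_le (wf k c t0 e)
      simp only [hsw]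
      rw [norm_div, norm_mul]
      have hpos : 0 < ‖yd k c (e + 1) u‖ * ‖den k c t0 e u‖ :=
        mul_pos (lt_of_lt_of_le (by positivity) d1) (lt_of_lt_of_le (by positivity) d0)
      rw [div_le_div_iff₀ hpos (by positivity)]
      calc ‖((wf k c t0 e).1 : ℂ)‖ * nn (wf k c t0 e) ^ 2
          ≤ nn (wf k c t0 e) * nn (wf k c t0 e) ^ 2 := by gcongr
        _ = 25 / 8 * ((2 / 5 * nn (wf k c t0 e)) * (4 / 5 * nn (wf k c t0 e) ^ 2)) := by ring
        _ ≤ 25 / 8 * (‖yd k c (e + 1) u‖ * ‖den k c t0 e u‖) := by gcongr)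
    (fun u => by
      simp only [hsw]
      rw [map_div₀, map_mul, Complex.conj_ofReal, yd_conj]
      congr 2
      unfold den
      rw [map_add, map_mul, map_mul, Complex.conj_ofReal, Complex.conj_ofReal, yd_conj, yd_conj])
    (hradge e he)
  refine ⟨(s0 - p0) + (s1 - p1) * mc + (s2 - p2) * mc ^ 2, (s1 - p1) + 2 * (s2 - p2) * mc,
    s2 - p2, fun u hu => ?_⟩
  have hu' : u ∈ closedBall (t0 : ℂ) (rad e) :=
    closedBall_subset_closedBall (by have := hradge e he; linarith) hu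
  have hPQ : ∀ j, Align.Q (fun j => cV k (y k c j u)) j = yd k c j u ∧
      Align.P (fun j => cV k (y k c j u)) j = pd k c j u := by
    intro j
    induction j using Nat.strong_induction_on with
    | _ j ih =>
      match j with
      | 0 => exact ⟨by simp, by simp⟩
      | 1 => exact ⟨by simp, by simp⟩
      | j + 2 =>
        rw [Align.Q_add_two, Align.P_add_two, yd_add_two, pd_add_two, (ih (j + 1) (by omega)).1,
          (ih (j + 1) (by omega)).2, (ih j (by omega)).1, (ih j (by omega)).2]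
        exact ⟨rfl, rfl⟩
  have hmu : Align.mu (fun j => cV k (y k c j u)) (e + 1) = sw u - mu k c t0 e u := by
    unfold Align.mu
    rw [(hPQ (e + 1)).1, (hPQ (e + 1)).2]
    have d1 := hyd0 u hu'
    have d0 := hden0 e he u hu' e le_rfl
    simp only [hsw]
    unfold mu
    rw [div_sub_div _ _ (mul_ne_zero d1 d0) d0, div_eq_div_iff d1
      (mul_ne_zero (mul_ne_zero d1 d0) d0)]
    have hw := wronskian k c e u
    have hnd : (wf k c t0 e).1 + num k c t0 e u * -(yd k c (e + 1) u) =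
        -(pd k c (e + 1) u) * den k c t0 e u := by
      unfold num den
      linear_combination (-((wf k c t0 e).1 : ℂ)) * hw
    linear_combination (-(yd k c (e + 1) u) * den k c t0 e u) * hnd
  have hsum := hp u hu
  rw [sum_range_sub_mu] at hsum
  have hsu := hs u hu
  have e1 : Align.mu (fun j => cV k (y k c j u)) (e + 1) -
      (((((s0 - p0) + (s1 - p1) * mc + (s2 - p2) * mc ^ 2 : ℝ)) : ℂ) +
        (((s1 - p1) + 2 * (s2 - p2) * mc : ℝ) : ℂ) * (u - mc) + ((s2 - p2 : ℝ) : ℂ) * (u - mc) ^ 2) =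
      (sw u - (s0 + s1 * u + s2 * u ^ 2)) - (mu k c t0 e u - (p0 + p1 * u + p2 * u ^ 2)) := by
    rw [hmu]
    push_cast
    ring
  rw [e1]
  refine (norm_sub_le _ _).trans ?_
  -- the two numbers
  have hcont := h.content_le he
  rw [hXe] at hcont
  set q := r * X / ρ with hqdef
  have hq0 : 0 ≤ q := by positivity
  have n1 : ∑ m ∈ range e, 2 * (2 * (CV k + 2) *
      (1 / (nn (wf k c t0 m) * nn (wf k c t0 (m + 1))))) * (r / rad (m + 1)) ^ 3 ≤
      4 * (CV k + 2) * A ^ 3 * K * q ^ 3 / X ^ 2 * nn (z e) ^ (-(1 - 47 * δ)) := by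
    calc _ = 4 * (CV k + 2) * q ^ 3 * ∑ m ∈ range e,
          1 / (nn (wf k c t0 m) * nn (wf k c t0 (m + 1))) *
            (nn (z (m + 1)) ^ (-(1 - 15 * δ))) ^ 3 := by
          rw [Finset.mul_sum]
          refine Finset.sum_congr rfl fun m hm => ?_
          rw [hrr (m + 1) (by have := Finset.mem_range.1 hm; omega)]
          ring
      _ ≤ 4 * (CV k + 2) * q ^ 3 * (A ^ 3 * K / X ^ 2 * nn (z e) ^ (-(1 - 47 * δ))) := by
          refine mul_le_mul_of_nonneg_left hcont ?_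
          have : 0 ≤ CV k + 2 := by linarith
          positivity
      _ = _ := by ring
  have n2 : 2 * (25 / 8 / nn (wf k c t0 e) ^ 2) * (r / rad e) ^ 3 ≤
      8 * q ^ 3 / X ^ 2 * nn (z e) ^ (-(1 - 47 * δ)) := by
    have hXle := h.X_le e
    rw [hXe] at hXle
    have g1 : 1 / nn (wf k c t0 e) ^ 2 ≤ nn (z e) ^ 2 / X ^ 2 := by
      rw [div_le_div_iff₀ (by positivity) (by positivity), one_mul]
      calc X ^ 2 ≤ (nn (wf k c t0 e) * nn (z e)) ^ 2 := pow_le_pow_left₀ hX.le hXle 2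
        _ = _ := by ring
    have g2 : nn (z e) ^ 2 * (nn (z e) ^ (-(1 - 15 * δ))) ^ 3 ≤ nn (z e) ^ (-(1 - 47 * δ)) := by
      have : nn (z e) ^ 2 * (nn (z e) ^ (-(1 - 15 * δ))) ^ 3 = nn (z e) ^ (-(1 - 45 * δ)) := by
        rw [← Real.rpow_natCast, ← Real.rpow_natCast, ← Real.rpow_mul hZe.le,
          ← Real.rpow_add hZe]
        congr 1
        push_cast
        ring
      rw [this]
      exact Real.rpow_le_rpow_of_exponent_le (h.one e he) (by linarith)
    rw [hrr e he]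
    have hp3 : 0 ≤ (nn (z e) ^ (-(1 - 15 * δ))) ^ 3 := by
      have := Real.rpow_nonneg hZe.le (-(1 - 15 * δ))
      positivity
    calc 2 * (25 / 8 / nn (wf k c t0 e) ^ 2) * (q * nn (z e) ^ (-(1 - 15 * δ))) ^ 3
        = 25 / 4 * q ^ 3 * ((1 / nn (wf k c t0 e) ^ 2) * (nn (z e) ^ (-(1 - 15 * δ))) ^ 3) := by
          ring
      _ ≤ 25 / 4 * q ^ 3 * ((nn (z e) ^ 2 / X ^ 2) * (nn (z e) ^ (-(1 - 15 * δ))) ^ 3) := by
          gcongr
      _ = 25 / 4 * q ^ 3 / X ^ 2 * (nn (z e) ^ 2 * (nn (z e) ^ (-(1 - 15 * δ))) ^ 3) := by ring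
      _ ≤ 25 / 4 * q ^ 3 / X ^ 2 * nn (z e) ^ (-(1 - 47 * δ)) := by gcongr
      _ ≤ 8 * q ^ 3 / X ^ 2 * nn (z e) ^ (-(1 - 47 * δ)) := by
          have : 0 ≤ nn (z e) ^ (-(1 - 47 * δ)) := Real.rpow_nonneg hZe.le _
          gcongr
          norm_num
  calc _ ≤ 2 * (25 / 8 / nn (wf k c t0 e) ^ 2) * (r / rad e) ^ 3 +
        ∑ m ∈ range e, 2 * (2 * (CV k + 2) *
      (1 / (nn (wf k c t0 m) * nn (wf k c t0 (m + 1))))) * (r / rad (m + 1)) ^ 3 :=
        add_le_add hsu hsum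
    _ ≤ 8 * q ^ 3 / X ^ 2 * nn (z e) ^ (-(1 - 47 * δ)) +
        4 * (CV k + 2) * A ^ 3 * K * q ^ 3 / X ^ 2 * nn (z e) ^ (-(1 - 47 * δ)) :=
        add_le_add n2 n1
    _ = _ := by ring

end main

end Crest.Agent.R128.CleanCont
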