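import Crest.Agent.R128.AlignLam
import Crest.Agent.R128.CellB

/-!
# Row 128: dictionary between the tip language (`Align`, `AlignMn`, `AlignLam`) and the
complexified curve `x_0 = c`, `x_1 = t` (`CellB.y`, `CellB.yd`)  (helper220)

* `zt k c t` : the torus point `(x_{-1}, x_0)` with `x_0 = c`, `x_1 = t`;
* `tb k c t = x_{-1}`; `Rev k` : the reversor `(x_{-1}, x_0) ↦ (x_1, x_0)`;
* `ap_eq`, `am_eq` : digits; `Qp_eq`, `Qm_eq`, `Pp_eq`, `Pm_eq`, `mup_eq`, `mum_eq`;
* `pc` : derivative of the orbit in `c`; `cmu = - pc / yd` holomorphic slope.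
-/

set_option autoImplicit false
open Crest.Agent.R128 Crest.Agent.R128.Two Crest.Agent.R128.Acc Crest.Agent.R128.AlignMn
open Crest.Agent.R128.TreeSum Crest.Agent.R128.AlignLam Crest.Agent.R128.Cell
open Crest.Agent.R128.CellB

namespace Crest.Agent.R128.DictY

/-- `x_{-1}` as a function of `x_0 = c`, `x_1 = t` -/
noncomputable def tb (k c t : ℝ) : ℝ := 2 * c + k * Real.sin (2 * Real.pi * c) - t

theorem tb_tb (k c t : ℝ) : tb k c (tb k c t) = t := by
  unfold tb
  ring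

/-- the torus point `(x_{-1}, x_0)` -/
noncomputable def zt (k c t : ℝ) : Tor := pr (tb k c t, c)

/-- the reversor -/
noncomputable def Rev (k : ℝ) (z : Tor) : Tor := (z.2 + z.2 + sk k z.2 - z.1, z.2)

@[simp] theorem Rev_snd (k : ℝ) (z : Tor) : (Rev k z).2 = z.2 := rfl

theorem Rev_Rev (k : ℝ) (z : Tor) : Rev k (Rev k z) = z := by
  unfold Rev
  ext <;> simp

theorem T_Rev (k : ℝ) (z : Tor) : T k (Rev k z) = Rev k (Tinv k z) := by
  unfold T Rev Tinv
  ext <;> simp

theorem Tz_Rev_nat (k : ℝ) (n : ℕ) (z : Tor) :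
    Tz k n (Rev k z) = Rev k (Tz k (-(n : ℤ)) z) := by
  induction n with
  | zero => simp [Tz_zero]
  | succ n ih =>
    have e1 : ((n + 1 : ℕ) : ℤ) = 1 + (n : ℤ) := by push_cast; ring
    have e2 : -((n + 1 : ℕ) : ℤ) = -1 + -(n : ℤ) := by push_cast; ring
    rw [e2, e1, Tz_add, ih, Tz_one, T_Rev, Tz_add, Tz_neg_one]

theorem am_eq_ap (k : ℝ) (z : Tor) (n : ℕ) : am k z n = ap k (Rev k z) n := by
  unfold am ap dz
  rw [Tz_Rev_nat]
  rfl

theorem zt_snd (k c t : ℝ) : (zt k c t).2 = (c : UnitAddCircle) := rfl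

theorem Rev_zt (k c t : ℝ) : Rev k (zt k c t) = zt k c (tb k c t) := by
  unfold Rev zt pr
  ext
  · simp only [sk_coe]
    rw [← AddCircle.coe_add, ← AddCircle.coe_add, ← AddCircle.coe_sub, tb_tb]
    congr 1
    unfold tb
    ring
  · rfl

theorem T_zt (k c t : ℝ) : T k (zt k c t) = pr (c, t) := by
  unfold T zt pr
  ext
  · rfl
  · simp only [sk_coe]
    rw [← AddCircle.coe_add, ← AddCircle.coe_add, ← AddCircle.coe_sub]
    congr 1
    unfold tb
    ring

theorem ap_eq (k c t : ℝ) (n : ℕ) : ((ap k (zt k c t) n : ℝ) : ℂ) = cV k (y k c n t) := by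
  unfold ap dz
  cases n with
  | zero =>
    rw [Nat.cast_zero, Tz_zero, zt_snd, y_zero, cV_ofReal]
  | succ n =>
    rw [Tz_natCast, Function.iterate_succ_apply, T_zt, ← pr_rorb, y_ofReal, cV_ofReal]
    rfl

theorem am_eq (k c t : ℝ) (n : ℕ) :
    ((am k (zt k c t) n : ℝ) : ℂ) = cV k (y k c n (tb k c t : ℝ)) := by
  rw [am_eq_ap, Rev_zt, ap_eq]

/-- a real potential and a complex one -/
theorem sol_cast {a : ℕ → ℝ} {A : ℕ → ℂ} (h : ∀ n, ((a n : ℝ) : ℂ) = A n) (u v : ℝ) (n : ℕ) :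
    ((Align.sol a u v n : ℝ) : ℂ) = Align.sol A (u : ℂ) (v : ℂ) n := by
  induction n using Nat.strong_induction_on with
  | _ n ih =>
    match n with
    | 0 => rfl
    | 1 => rfl
    | n + 2 =>
      have h1 := ih (n + 1) (by omega)
      have h2 := ih n (by omega)
      change (((a (n + 1) * Align.sol a u v (n + 1) - Align.sol a u v n : ℝ)) : ℂ) =
        A (n + 1) * Align.sol A (u : ℂ) (v : ℂ) (n + 1) - Align.sol A (u : ℂ) (v : ℂ) n
      push_cast
      rw [h1, h2, h]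

/-- the complex digits along the curve -/
noncomputable def dc (k : ℝ) (c t : ℂ) (n : ℕ) : ℂ := cV k (y k c n t)

theorem yd_eq_Q (k : ℝ) (c t : ℂ) (n : ℕ) : yd k c n t = Align.Q (dc k c t) n := by
  induction n using Nat.strong_induction_on with
  | _ n ih =>
    match n with
    | 0 => rfl
    | 1 => rfl
    | n + 2 =>
      rw [yd_add_two, ih (n + 1) (by omega), ih n (by omega)]
      rfl

/-- derivative of the orbit in `c` at fixed `t` -/
noncomputable def pc (k : ℝ) (c : ℂ) (n : ℕ) (t : ℂ) : ℂ := Align.P (dc k c t) n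

theorem Qp_eq (k c t : ℝ) (n : ℕ) :
    ((Align.Q (ap k (zt k c t)) n : ℝ) : ℂ) = yd k c n t := by
  rw [yd_eq_Q]
  have := sol_cast (A := dc k c t) (fun n => ap_eq k c t n) 0 1 n
  rw [Complex.ofReal_zero, Complex.ofReal_one] at this
  exact this

theorem Pp_eq (k c t : ℝ) (n : ℕ) :
    ((Align.P (ap k (zt k c t)) n : ℝ) : ℂ) = pc k c n t := by
  have := sol_cast (A := dc k c t) (fun n => ap_eq k c t n) 1 0 n
  rw [Complex.ofReal_zero, Complex.ofReal_one] at this
  exact this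

theorem Qm_eq (k c t : ℝ) (n : ℕ) :
    ((Align.Q (am k (zt k c t)) n : ℝ) : ℂ) = yd k c n (tb k c t : ℝ) := by
  rw [yd_eq_Q]
  have := sol_cast (A := dc k c (tb k c t : ℝ)) (fun n => am_eq k c t n) 0 1 n
  rw [Complex.ofReal_zero, Complex.ofReal_one] at this
  exact this

theorem Pm_eq (k c t : ℝ) (n : ℕ) :
    ((Align.P (am k (zt k c t)) n : ℝ) : ℂ) = pc k c n (tb k c t : ℝ) := by
  have := sol_cast (A := dc k c (tb k c t : ℝ)) (fun n => am_eq k c t n) 1 0 n
  rw [Complex.ofReal_zero, Complex.ofReal_one] at this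
  exact this

/-- the holomorphic slope -/
noncomputable def cmu (k : ℝ) (c : ℂ) (n : ℕ) (t : ℂ) : ℂ := -(pc k c n t) / yd k c n t

theorem mup_eq (k c t : ℝ) (n : ℕ) :
    ((Align.mu (ap k (zt k c t)) n : ℝ) : ℂ) = cmu k c n t := by
  unfold Align.mu cmu
  push_cast
  rw [Pp_eq, Qp_eq]

theorem mum_eq (k c t : ℝ) (n : ℕ) :
    ((Align.mu (am k (zt k c t)) n : ℝ) : ℂ) = cmu k c n (tb k c t : ℝ) := by
  unfold Align.mu cmu
  push_cast
  rw [Pm_eq, Qm_eq]

theorem wronskian_c (k : ℝ) (c t : ℂ) (n : ℕ) :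
    pc k c n t * yd k c (n + 1) t - pc k c (n + 1) t * yd k c n t = 1 := by
  rw [yd_eq_Q, yd_eq_Q]
  exact Align.wronskian _ _

theorem cmu_succ_sub {k : ℝ} {c t : ℂ} {n : ℕ} (h0 : yd k c n t ≠ 0) (h1 : yd k c (n + 1) t ≠ 0) :
    cmu k c (n + 1) t - cmu k c n t = 1 / (yd k c n t * yd k c (n + 1) t) := by
  unfold cmu
  rw [div_sub_div _ _ h1 h0, div_eq_div_iff (mul_ne_zero h1 h0) (mul_ne_zero h0 h1)]
  linear_combination (yd k c n t * yd k c (n + 1) t) * wronskian_c k c t n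

theorem differentiable_cV (k : ℝ) : Differentiable ℂ (cV k) :=
  fun z => (hasDerivAt_cV k z).differentiableAt

theorem differentiable_yd (k : ℝ) (c : ℂ) (n : ℕ) : Differentiable ℂ (yd k c n) := by
  induction n using Nat.strong_induction_on with
  | _ n ih =>
    match n with
    | 0 => exact differentiable_const _
    | 1 => exact differentiable_const _
    | n + 2 =>
      have h1 := ih (n + 1) (by omega)
      have h2 := ih n (by omega)
      have h3 := (differentiable_cV k).comp (differentiable_y k c (n + 1))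
      exact (h3.mul h1).sub h2

theorem differentiable_pc (k : ℝ) (c : ℂ) (n : ℕ) : Differentiable ℂ (pc k c n) := by
  induction n using Nat.strong_induction_on with
  | _ n ih =>
    match n with
    | 0 => exact differentiable_const _
    | 1 => exact differentiable_const _
    | n + 2 =>
      have h1 := ih (n + 1) (by omega)
      have h2 := ih n (by omega)
      have h3 := (differentiable_cV k).comp (differentiable_y k c (n + 1))
      exact (h3.mul h1).sub h2

theorem differentiableOn_cmu {k : ℝ} {c : ℂ} {n : ℕ} {s : Set ℂ} (h : ∀ t ∈ s, yd k c n t ≠ 0) :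
    DifferentiableOn ℂ (cmu k c n) s := by
  unfold cmu
  exact ((differentiable_pc k c n).neg.differentiableOn).div
    (differentiable_yd k c n).differentiableOn h

/-- the complex error of cutting at `n` in the tip language -/
theorem TIP_digit_y {k h c t : ℝ} {N : ℕ} (H : TIP k h N (zt k c t)) :
    ∃ i j : ℕ, 0 < i ∧ i ≤ N ∧ j < N ∧ Real.exp h / 2 ≤ nn (Wq (ap k (zt k c t)) j) ∧
      Real.exp h / 2 ≤ nn (Wq (am k (zt k c t)) i) ∧
      ∀ n n' : ℕ, n ≤ j → n' ≤ i → yd k c n t ≠ 0 → yd k c (n + 1) t ≠ 0 →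
        yd k c n' (tb k c t : ℝ) ≠ 0 → yd k c (n' + 1) (tb k c t : ℝ) ≠ 0 →
        ‖cV k c - cmu k c n t - cmu k c n' (tb k c t : ℝ)
          - 1 / (yd k c n t * yd k c (n + 1) t)
          - 1 / (yd k c n' (tb k c t : ℝ) * yd k c (n' + 1) (tb k c t : ℝ))‖
          ≤ 8 * Real.exp (-(2 * h)) + err (ap k (zt k c t)) n j + err (am k (zt k c t)) n' i := by
  obtain ⟨i, j, hi, hiN, hj, h1, h2, h3⟩ := TIP_digit H
  refine ⟨i, j, hi, hiN, hj, h1, h2, ?_⟩
  intro n n' hn hn' q0 q1 q2 q3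
  have c0 : Align.Q (ap k (zt k c t)) n ≠ 0 := fun h0 => q0 (by rw [← Qp_eq, h0]; simp)
  have c1 : Align.Q (ap k (zt k c t)) (n + 1) ≠ 0 := fun h0 => q1 (by rw [← Qp_eq, h0]; simp)
  have c2 : Align.Q (am k (zt k c t)) n' ≠ 0 := fun h0 => q2 (by rw [← Qm_eq, h0]; simp)
  have c3 : Align.Q (am k (zt k c t)) (n' + 1) ≠ 0 := fun h0 => q3 (by rw [← Qm_eq, h0]; simp)
  have h4 := h3 n n' hn hn' c0 c1 c2 c3
  rw [← Real.norm_eq_abs, ← Complex.norm_real] at h4
  push_cast at h4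
  rw [mup_eq, mum_eq, Qp_eq, Qp_eq, Qm_eq, Qm_eq] at h4
  have e : ((V k (zt k c t).2 : ℝ) : ℂ) = cV k c := by rw [zt_snd, cV_ofReal]
  rw [e] at h4
  exact h4

end Crest.Agent.R128.DictY
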