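import Crest.Agent.R128.Lam0U
import Crest.Agent.R128.DictY
import Crest.Agent.R128.LocDef

/-!
# Row 128, node V5: definition of a (doubly) very fresh level (helper398)

`y = (x_{-1}, x_0)` is the tip, `x : ℕ → ℝ` a real solution of the linearised recurrence on one
side (`ap k y` = digits `V (x_n)`, other side = `Rev k y`).  `w` = foot, `ρ` = depth (nats), the
reversed start at the foot is `((T k)^[w] y).swap`.
-/

set_option autoImplicit false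
open Crest.Agent.R128 Crest.Agent.R128.AlignMn Crest.Agent.R128.DictY Crest.Agent.R128.Lam0

namespace Crest.Agent.R128.Good

/-- clean start (same exponents as `Skel.Val`; `Skel.Val k L z n → CVal k L z n` is immediate) -/
structure CVal (k : ℝ) (L : ℕ) (z : Tor) (n : ℕ) : Prop where
  cl : ∀ m, m < L → m < n → k ^ ((2 : ℝ) / 3) ≤ |V k ((T k)^[m] z).2|
  v2 : ∀ i j, L ≤ i → i ≤ j → j ≤ n → ‖fld k z i‖ ^ 99 ≤ ‖fld k z j‖ ^ 100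
  v3 : ∀ j, L ≤ j → j ≤ n → ∃ i, L ≤ i ∧ i ≤ j ∧ (j : ℝ) ^ 400 ≤ ‖fld k z i‖

/-- one side of a very fresh level of depth `ρ` (nats): `x` is the tip field on this side,
foot `w`, then a run of `M + 1` regular digits which contracts `x` by 80 more levels -/
structure Side (k : ℝ) (L : ℕ) (ρ : ℝ) (y : Tor) (x : ℕ → ℝ) (w M : ℕ) : Prop where
  hw : L < w
  val : CVal k L (((T k)^[w] y).swap) (w - 1)
  xrec : ∀ n, x (n + 2) = ap k y (n + 1) * x (n + 1) - x n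
  x0 : |x 0| = 1
  x1 : |x 1| ≤ 1
  lo : Real.exp (-ρ - 3 * Real.log k) ≤ max |x (w - 1)| |x w|
  hi : max |x (w - 1)| |x w| ≤ Real.exp (-ρ)
  hM : M ≤ 200
  run : ∀ n, w ≤ n → n ≤ w + M → k ^ ((2 : ℝ) / 3) ≤ |ap k y n|
  fin : max |x (w + M - 1)| |x (w + M)| ≤ Real.exp (-ρ - 80 * Real.log k)

/-- doubly very fresh level of depth `ρ` at the tip `y` -/
def VF (k : ℝ) (L : ℕ) (ρ : ℝ) (y : Tor) : Prop :=
  ∃ (xp xm : ℕ → ℝ) (w M w' M' : ℕ), Side k L ρ y xp w M ∧ Side k L ρ (Rev k y) xm w' M' ∧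
    xp 0 = xm 0 ∧ xp 1 + xm 1 = V k y.2 * xp 0

/-- the good event of the dyadic level `n` -/
def G (k : ℝ) (L n : ℕ) : Set Tor :=
  {y | |V k y.2| < 2 ∧ ∃ ρ : ℝ, n * Real.log 2 ≤ ρ ∧ ρ ≤ n * Real.log 2 + 2 * Real.log k ∧
    VF k L ρ y}

/-- **LocA** (owner 595; assembly here) -/
def LocA (L : ℕ) : Prop :=
  ∃ C1 : ℝ, 1 ≤ C1 ∧ ∃ k1 : ℝ, ∀ k : ℝ, k1 ≤ k → ∀ (c t0 : ℝ) (n : ℕ), zt k c t0 ∈ G k L n →
    ∃ N : Set ℝ, N ⊆ Set.Icc (t0 - 1 / (k ^ 60 * 2 ^ n)) (t0 + 1 / (k ^ 60 * 2 ^ n)) ∧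
      ENNReal.ofReal (1 / (k ^ 60 * 2 ^ n)) ≤ MeasureTheory.volume N ∧
      ∀ m ∈ N, ∃ (s : Bool) (n1 n1' : ℕ) (R lam q0 q1 q2 : ℝ),
        k ^ 60 * 2 ^ n ≤ R / 4 ∧ R ≤ k ^ 74 * 2 ^ n ∧ |lam| ≤ C1 * Real.sqrt k ∧
        Loc.Cell3 k c s n1 n1' m R lam C1 q0 q1 q2 ∧
        ∀ u : ℝ, |u - m| ≤ 3 / R → zt k c u ∈ G k L n → Loc.Good3 k c s n1 n1' R u

end Crest.Agent.R128.Good
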