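import Crest.Agent.R128.LocA0

/-!
# LocA, the chain of nearly affine curves (row 128, helper595)
-/

set_option autoImplicit false

open MeasureTheory Metric Set
open Crest.Agent.R128 Crest.Agent.R128.Cell Crest.Agent.R128.CellB

namespace Crest.Agent.R128.LocA

theorem exp_two_pi_le : Real.exp (2 * Real.pi) ≤ 1100 := by
  have h1 : 2 * Real.pi ≤ 7 := by
    have := Real.pi_lt_d2
    linarith
  have h2 : Real.exp (2 * Real.pi) ≤ Real.exp 7 := Real.exp_le_exp.mpr h1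
  have h3 : Real.exp 7 = Real.exp 1 ^ 7 := by
    rw [← Real.exp_nat_mul]; norm_num
  have h4 := Real.exp_one_lt_d9
  have h5 : Real.exp 1 ^ 7 ≤ 2.7182818286 ^ 7 := by
    have : 0 < Real.exp 1 := Real.exp_pos _
    gcongr
  have h6 : (2.7182818286 : ℝ) ^ 7 ≤ 1100 := by norm_num
  linarith

theorem CV_le {k : ℝ} (hk : 1 ≤ k) : CV k ≤ 8000 * k := by
  unfold CV
  rw [abs_of_pos (by linarith : 0 < k)]
  have h1 := exp_two_pi_le
  have h2 := Real.pi_lt_d2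
  have h3 := Real.pi_pos
  have h4 : 2 * Real.pi * k * Real.exp (2 * Real.pi) ≤ 2 * 3.15 * k * 1100 := by gcongr
  nlinarith

theorem CL_le {k : ℝ} (hk : 1 ≤ k) : CL k ≤ 44000 * k := by
  unfold CL
  rw [abs_of_pos (by linarith : 0 < k)]
  have h1 := exp_two_pi_le
  have h2 := Real.pi_lt_d2
  have h3 := Real.pi_pos
  have h5 : Real.pi ^ 2 ≤ 9.93 := by nlinarith
  have h4 : 4 * Real.pi ^ 2 * k * Real.exp (2 * Real.pi) ≤ 4 * 9.93 * k * 1100 := by gcongr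
  nlinarith

theorem vv_le {k : ℝ} (hk : 1 ≤ k) {Y D : ℕ → ℂ → ℂ} {S : Set ℂ} (co : CO k S Y D) (m : ℕ) (x : ℝ) :
    vv k Y m (x : ℂ) ≤ 8000 * k := by
  refine (norm_cV_le k ?_).trans (CV_le hk)
  rw [co.real m x]
  simp

/-- displacement of a nearly affine curve -/
theorem disp {k : ℝ} {Y D : ℕ → ℂ → ℂ} {n : ℕ} {t₁ r η : ℝ} (co : CO k (ball (t₁ : ℂ) r) Y D)
    (h : NA Y D n t₁ r η) {s t : ℂ} (hs : s ∈ ball (t₁ : ℂ) r) (ht : t ∈ ball (t₁ : ℂ) r) :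
    ‖Y (n + 1) t - Y (n + 1) s‖ ≤ (1 + η) * ‖D (n + 1) t₁‖ * ‖t - s‖ := by
  refine (convex_ball (t₁ : ℂ) r).norm_image_sub_le_of_norm_hasDerivWithin_le
    (f := Y (n + 1)) (f' := D (n + 1))
    (fun x hx => (co.deriv (n + 1) x hx).hasDerivWithinAt) (fun x hx => ?_) hs ht
  have h1 := h.close x hx
  have h2 : ‖D (n + 1) x‖ ≤ ‖D (n + 1) x - D (n + 1) t₁‖ + ‖D (n + 1) t₁‖ := by
    calc ‖D (n + 1) x‖ = ‖(D (n + 1) x - D (n + 1) t₁) + D (n + 1) t₁‖ := by ring_nf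
      _ ≤ _ := norm_add_le _ _
  linarith

theorem im_le_of_close {z w : ℂ} (hw : w.im = 0) (h : ‖z - w‖ ≤ 1) : |z.im| ≤ 1 := by
  have h1 := Complex.abs_im_le_norm (z - w)
  rw [Complex.sub_im, hw, sub_zero] at h1
  linarith

/-- variation of the digit along a nearly affine curve -/
theorem digit_var {k : ℝ} (hk : 1 ≤ k) {Y D : ℕ → ℂ → ℂ} {n : ℕ} {t₁ r η v : ℝ}
    (co : CO k (ball (t₁ : ℂ) r) Y D) (h : NA Y D n t₁ r η) (hη0 : 0 ≤ η) (hη : η ≤ 1 / 100)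
    (hv : v ≤ 8000 * k) (hr : 10 ^ 10 * k * (‖D (n + 1) t₁‖ * r) ≤ v) {t : ℂ}
    (ht : t ∈ ball (t₁ : ℂ) r) :
    ‖cV k (Y (n + 1) t) - cV k (Y (n + 1) t₁)‖ ≤ 1 / 10 ^ 5 * v := by
  have hk0 : 0 < k := by linarith
  have hr0 : 0 < r := by
    have := dist_nonneg.trans_lt (mem_ball.mp ht)
    exact this
  have ht1 : (t₁ : ℂ) ∈ ball (t₁ : ℂ) r := mem_ball_self hr0
  have h1 := disp co h ht1 ht
  have h2 : ‖t - t₁‖ ≤ r := by
    rw [← dist_eq_norm]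
    exact (mem_ball.mp ht).le
  have hd : ‖Y (n + 1) t - Y (n + 1) t₁‖ ≤ 1.01 * (‖D (n + 1) t₁‖ * r) := by
    refine h1.trans ?_
    calc (1 + η) * ‖D (n + 1) t₁‖ * ‖t - t₁‖ ≤ 1.01 * ‖D (n + 1) t₁‖ * r := by
          gcongr
          linarith
      _ = _ := by ring
  have hdr : ‖D (n + 1) t₁‖ * r ≤ v / (10 ^ 10 * k) := by
    rw [le_div_iff₀ (by positivity)]
    linarith
  have hdr2 : v / (10 ^ 10 * k) ≤ 1 / 10 ^ 6 := by
    rw [div_le_div_iff₀ (by positivity) (by norm_num)]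
    nlinarith
  have him1 : (Y (n + 1) (t₁ : ℂ)).im = 0 := co.real _ _
  have hclose : ‖Y (n + 1) t - Y (n + 1) t₁‖ ≤ 1 := by
    have : 1.01 * (‖D (n + 1) t₁‖ * r) ≤ 1 := by
      have := hdr.trans hdr2
      nlinarith
    linarith
  have h3 := norm_cV_sub_le k (z := Y (n + 1) t) (w := Y (n + 1) t₁) (im_le_of_close him1 hclose)
    (by rw [him1]; simp)
  refine h3.trans ?_
  have h4 := CL_le hk
  have h5 := CL_nonneg k
  calc CL k * ‖Y (n + 1) t - Y (n + 1) t₁‖ ≤ (44000 * k) * (1.01 * (v / (10 ^ 10 * k))) := by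
        refine mul_le_mul h4 (hd.trans ?_) (norm_nonneg _) (by positivity)
        gcongr
    _ = 44000 * 1.01 / 10 ^ 10 * v := by field_simp
    _ ≤ 1 / 10 ^ 5 * v := by
        have hv0 : 0 ≤ v := by
          have : 0 ≤ 10 ^ 10 * k * (‖D (n + 1) t₁‖ * r) := by positivity
          linarith
        exact mul_le_mul_of_nonneg_right (by norm_num) hv0

/-- one regular step -/
theorem cstep {k : ℝ} (hk : 1 ≤ k) {Y D : ℕ → ℂ → ℂ} {n : ℕ} {t₁ r η : ℝ} (hr0 : 0 < r)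
    (co : CO k (ball (t₁ : ℂ) r) Y D) (h : NA Y D n t₁ r η) (hη0 : 0 ≤ η) (hη : η ≤ 1 / 100)
    (hA : 10 ^ 6 ≤ vv k Y (n + 1) t₁) (hr : 10 ^ 10 * k * (‖D (n + 1) t₁‖ * r) ≤ vv k Y (n + 1) t₁) :
    NA Y D (n + 1) t₁ r (η + 4 / 10 ^ 5) ∧
      (∀ t ∈ ball (t₁ : ℂ) r, ‖D (n + 1) t‖ ≤ 2 / vv k Y (n + 1) t₁ * ‖D (n + 2) t₁‖) ∧
      (vv k Y (n + 1) t₁ - 1) * ‖D (n + 1) t₁‖ ≤ ‖D (n + 2) t₁‖ ∧
      ‖D (n + 2) t₁‖ ≤ (vv k Y (n + 1) t₁ + 1) * ‖D (n + 1) t₁‖ := by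
  set v := vv k Y (n + 1) t₁ with hv
  set d := ‖D (n + 1) t₁‖ with hd
  have hd0 : 0 ≤ d := norm_nonneg _
  have hvk : v ≤ 8000 * k := vv_le hk co _ _
  have hv0 : 0 < v := by linarith
  have ht1 : (t₁ : ℂ) ∈ ball (t₁ : ℂ) r := mem_ball_self hr0
  have hvn : ‖cV k (Y (n + 1) t₁)‖ = v := rfl
  have hst := co.step n (t₁ : ℂ) ht1
  have hpr := h.prev (t₁ : ℂ) ht1
  have hlow : (v - 1) * d ≤ ‖D (n + 2) t₁‖ := by
    rw [hst]
    have h2 := norm_sub_norm_le (cV k (Y (n + 1) t₁) * D (n + 1) t₁) (D n t₁)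
    rw [norm_mul, hvn] at h2
    linarith
  have hupp : ‖D (n + 2) t₁‖ ≤ (v + 1) * d := by
    rw [hst]
    have h2 := norm_sub_le (cV k (Y (n + 1) t₁) * D (n + 1) t₁) (D n t₁)
    rw [norm_mul, hvn] at h2
    linarith
  have hup : ∀ t ∈ ball (t₁ : ℂ) r, ‖D (n + 1) t‖ ≤ 1.01 * d := by
    intro t ht
    have h1 := h.close t ht
    have h2 : ‖D (n + 1) t‖ ≤ ‖D (n + 1) t - D (n + 1) t₁‖ + ‖D (n + 1) t₁‖ := by
      calc ‖D (n + 1) t‖ = ‖(D (n + 1) t - D (n + 1) t₁) + D (n + 1) t₁‖ := by ring_nf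
        _ ≤ _ := norm_add_le _ _
    have h3 : η * d ≤ 1 / 100 * d := by gcongr
    linarith
  have hprev : ∀ t ∈ ball (t₁ : ℂ) r, ‖D (n + 1) t‖ ≤ 2 / v * ‖D (n + 2) t₁‖ := by
    intro t ht
    refine (hup t ht).trans ?_
    rw [div_mul_eq_mul_div, le_div_iff₀ hv0]
    nlinarith
  refine ⟨⟨?_, ?_⟩, hprev, hlow, hupp⟩
  · intro t ht
    have e : D (n + 1 + 1) t - D (n + 1 + 1) t₁ =
        (cV k (Y (n + 1) t) - cV k (Y (n + 1) t₁)) * D (n + 1) t +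
        cV k (Y (n + 1) t₁) * (D (n + 1) t - D (n + 1) t₁) + (-(D n t) + D n t₁) := by
      have h1 : D (n + 1 + 1) t = _ := co.step n t ht
      have h2 : D (n + 1 + 1) t₁ = _ := hst
      rw [h1, h2]; ring
    have h1 : ‖(cV k (Y (n + 1) t) - cV k (Y (n + 1) t₁)) * D (n + 1) t‖ ≤
        1 / 10 ^ 5 * v * (1.01 * d) := by
      rw [norm_mul]
      exact mul_le_mul (digit_var hk co h hη0 hη hvk hr ht) (hup t ht) (norm_nonneg _)
        (by positivity)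
    have h2 : ‖cV k (Y (n + 1) t₁) * (D (n + 1) t - D (n + 1) t₁)‖ ≤ v * (η * d) := by
      rw [norm_mul, hvn]
      exact mul_le_mul_of_nonneg_left (h.close t ht) hv0.le
    have h3 : ‖-(D n t) + D n t₁‖ ≤ 2 * d := by
      refine (norm_add_le _ _).trans ?_
      rw [norm_neg]
      linarith [h.prev t ht]
    have h4 : ‖D (n + 1 + 1) t - D (n + 1 + 1) t₁‖ ≤
        1 / 10 ^ 5 * v * (1.01 * d) + v * (η * d) + 2 * d := by
      rw [e]
      refine (norm_add_le _ _).trans (add_le_add ((norm_add_le _ _).trans (add_le_add h1 h2)) h3)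
    refine h4.trans ?_
    have h5 : 1 / 10 ^ 5 * v * (1.01 * d) + v * (η * d) + 2 * d ≤
        (η + 4 / 10 ^ 5) * ((v - 1) * d) := by
      have : 1 / 10 ^ 5 * v * 1.01 + v * η + 2 ≤ (η + 4 / 10 ^ 5) * (v - 1) := by
        nlinarith
      nlinarith
    refine h5.trans ?_
    exact mul_le_mul_of_nonneg_left hlow (by positivity)
  · intro t ht
    refine (hprev t ht).trans ?_
    have : 2 / v ≤ 1 := by rw [div_le_one hv0]; linarith
    exact mul_le_of_le_one_left (norm_nonneg _) this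

theorem NA.mono {Y D : ℕ → ℂ → ℂ} {n : ℕ} {t₁ r r' η : ℝ} (h : NA Y D n t₁ r η) (hr : r' ≤ r) :
    NA Y D n t₁ r' η :=
  ⟨fun t ht => h.close t (ball_subset_ball hr ht), fun t ht => h.prev t (ball_subset_ball hr ht)⟩

theorem NA.weaken {Y D : ℕ → ℂ → ℂ} {n : ℕ} {t₁ r η η' : ℝ} (h : NA Y D n t₁ r η) (hη : η ≤ η') :
    NA Y D n t₁ r η' :=
  ⟨fun t ht => (h.close t ht).trans (by gcongr), h.prev⟩

theorem rad_le (k : ℝ) (Y D : ℕ → ℂ → ℂ) (n0 : ℕ) (r0 t₁ : ℝ) (j : ℕ) :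
    rad k Y D n0 r0 t₁ j ≤ r0 := by
  cases j with
  | zero => exact le_rfl
  | succ j => exact min_le_left _ _

/-- **the chain** of nearly affine curves along regular digits -/
theorem chain {k : ℝ} {Y D : ℕ → ℂ → ℂ} {n0 : ℕ} {t₁ r0 A : ℝ} {J : ℕ} (hk : 10 ^ 12 ≤ k)
    (hA : 16000 * k ≤ A ^ 2) (hA0 : 0 < A) (hJ : J ≤ 100)
    (S : Start k Y D n0 t₁ r0 (1 / 1000) A J) :
    (∀ j ≤ J, NA Y D (n0 + j) t₁ (rad k Y D n0 r0 t₁ j) (1 / 100) ∧ 0 < ‖D (n0 + 1 + j) t₁‖ ∧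
      0 < rad k Y D n0 r0 t₁ j) ∧
    (∀ j < J, rad k Y D n0 r0 t₁ (j + 1) ≤ rad k Y D n0 r0 t₁ j ∧
      (vv k Y (n0 + 1 + j) t₁ - 1) * ‖D (n0 + 1 + j) t₁‖ ≤ ‖D (n0 + 1 + (j + 1)) t₁‖ ∧
      ‖D (n0 + 1 + (j + 1)) t₁‖ ≤ (vv k Y (n0 + 1 + j) t₁ + 1) * ‖D (n0 + 1 + j) t₁‖ ∧
      ∀ t ∈ ball (t₁ : ℂ) (rad k Y D n0 r0 t₁ (j + 1)),
        ‖D (n0 + 1 + j) t‖ ≤ 2 / vv k Y (n0 + 1 + j) t₁ * ‖D (n0 + 1 + (j + 1)) t₁‖) := by
  have hk1 : 1 ≤ k := by linarith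
  have hk0 : 0 < k := by linarith
  have hA6 : 10 ^ 6 ≤ A := by
    by_contra hcon
    push Not at hcon
    have : A ^ 2 < (10 ^ 6) ^ 2 := by gcongr
    nlinarith
  -- invariants
  have key : ∀ j ≤ J, NA Y D (n0 + j) t₁ (rad k Y D n0 r0 t₁ j) (1 / 1000 + j * (4 / 10 ^ 5)) ∧
      0 < ‖D (n0 + 1 + j) t₁‖ ∧ 0 < rad k Y D n0 r0 t₁ j ∧
      (0 < j → vv k Y (n0 + 1 + (j - 1)) t₁ / 2 * ‖D (n0 + 1 + (j - 1)) t₁‖ ≤
        ‖D (n0 + 1 + j) t₁‖) ∧
      (∀ i, i + 1 = j → rad k Y D n0 r0 t₁ (i + 1) ≤ rad k Y D n0 r0 t₁ i ∧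
      (vv k Y (n0 + 1 + i) t₁ - 1) * ‖D (n0 + 1 + i) t₁‖ ≤ ‖D (n0 + 1 + (i + 1)) t₁‖ ∧
      ‖D (n0 + 1 + (i + 1)) t₁‖ ≤ (vv k Y (n0 + 1 + i) t₁ + 1) * ‖D (n0 + 1 + i) t₁‖ ∧
      ∀ t ∈ ball (t₁ : ℂ) (rad k Y D n0 r0 t₁ (i + 1)),
        ‖D (n0 + 1 + i) t‖ ≤ 2 / vv k Y (n0 + 1 + i) t₁ * ‖D (n0 + 1 + (i + 1)) t₁‖) := by
    intro j
    induction j with
    | zero =>
      intro _
      refine ⟨by simpa [rad] using S.na, ?_, by simpa [rad] using S.pos, fun h => absurd h (lt_irrefl 0),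
        fun i hi => absurd hi (by omega)⟩
      simpa using S.ne
    | succ j ih =>
      intro hj
      obtain ⟨i1, i2, i3, i4, -⟩ := ih (by omega)
      have hdj := S.dig j (by omega)
      have hv0 : 0 < vv k Y (n0 + 1 + j) t₁ := by linarith
      have hpos : 0 < rad k Y D n0 r0 t₁ (j + 1) := by
        simp only [rad]
        refine lt_min S.pos (by positivity)
      have hmono : rad k Y D n0 r0 t₁ (j + 1) ≤ rad k Y D n0 r0 t₁ j := by
        cases j with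
        | zero => exact min_le_left _ _
        | succ i =>
          simp only [rad]
          refine le_min (min_le_left _ _) ((min_le_right _ _).trans ?_)
          have h4 := i4 (by omega)
          have e : i + 1 - 1 = i := by omega
          rw [e] at h4
          have hdi := S.dig i (by omega)
          have hvi0 : 0 < vv k Y (n0 + 1 + i) t₁ := by linarith
          have hup : vv k Y (n0 + 1 + (i + 1)) t₁ ≤ 8000 * k := vv_le hk1 S.co _ _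
          have hdpos : 0 < ‖D (n0 + 1 + i) t₁‖ := by
            by_contra hcon
            have h0 : ‖D (n0 + 1 + i) t₁‖ = 0 := le_antisymm (not_lt.mp hcon) (norm_nonneg _)
            have hpr := i1.prev
            -- `D (n0+1+i)` vanishes at `t₁`; use the recursion bound
            have hub := (ih (by omega)).2.2.2.2 i rfl
            rw [h0, mul_zero] at hub
            linarith [hub.2.2.1]
          rw [div_le_div_iff₀ (by positivity) (by positivity)]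
          have h5 : vv k Y (n0 + 1 + (i + 1)) t₁ * ‖D (n0 + 1 + i) t₁‖ ≤
              vv k Y (n0 + 1 + i) t₁ * ‖D (n0 + 1 + (i + 1)) t₁‖ := by
            have h6 : 16000 * k ≤ vv k Y (n0 + 1 + i) t₁ ^ 2 :=
              hA.trans (by gcongr)
            calc vv k Y (n0 + 1 + (i + 1)) t₁ * ‖D (n0 + 1 + i) t₁‖
                ≤ 8000 * k * ‖D (n0 + 1 + i) t₁‖ := by gcongr
              _ ≤ (vv k Y (n0 + 1 + i) t₁ ^ 2 / 2) * ‖D (n0 + 1 + i) t₁‖ := by gcongr; linarith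
              _ = vv k Y (n0 + 1 + i) t₁ *
                  (vv k Y (n0 + 1 + i) t₁ / 2 * ‖D (n0 + 1 + i) t₁‖) := by ring
              _ ≤ _ := by gcongr
          nlinarith
      have e1 : n0 + 1 + j = n0 + j + 1 := by omega
      have e2 : n0 + 1 + (j + 1) = n0 + j + 2 := by omega
      have e3 : n0 + (j + 1) = n0 + j + 1 := by omega
      have hjr : (j : ℝ) ≤ 100 := by exact_mod_cast (by omega : j ≤ 100)
      have hst := cstep hk1 hpos (S.co.mono (ball_subset_ball (rad_le _ _ _ _ _ _ _)))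
        (i1.mono hmono) (by positivity) (by nlinarith) (by rw [← e1]; linarith) (by
          rw [← e1]
          have h7 : rad k Y D n0 r0 t₁ (j + 1) ≤
              1 / 10 ^ 10 * vv k Y (n0 + 1 + j) t₁ / (k * ‖D (n0 + 1 + j) t₁‖) := by
            simp only [rad]; exact min_le_right _ _
          rw [le_div_iff₀ (by positivity)] at h7
          nlinarith)
      rw [← e1] at hst
      rw [e3, e2]
      have hdd : vv k Y (n0 + 1 + j) t₁ / 2 * ‖D (n0 + 1 + j) t₁‖ ≤ ‖D (n0 + j + 2) t₁‖ := by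
        refine le_trans ?_ hst.2.2.1
        gcongr
        linarith
      refine ⟨?_, lt_of_lt_of_le (by positivity) hdd, hpos, fun _ => ?_, ?_⟩
      · have := hst.1.weaken (η' := 1 / 1000 + ((j + 1 : ℕ) : ℝ) * (4 / 10 ^ 5)) (by push_cast; linarith)
        rw [e1] at this
        exact this
      · have e : j + 1 - 1 = j := by omega
        rw [e]; exact hdd
      · intro i hi
        obtain rfl : i = j := by omega
        refine ⟨hmono, ?_, ?_, ?_⟩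
        · rw [e2]; exact hst.2.2.1
        · rw [e2]; exact hst.2.2.2
        · intro t ht
          rw [e2]; exact hst.2.1 t ht
  refine ⟨fun j hj => ?_, fun j hj => (key (j + 1) hj).2.2.2.2 j rfl⟩
  obtain ⟨h1, h2, h3, -⟩ := key j hj
  refine ⟨h1.weaken ?_, h2, h3⟩
  have hjr : (j : ℝ) ≤ 100 := by exact_mod_cast (by omega : j ≤ 100)
  linarith

end Crest.Agent.R128.LocA
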