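import Mathlib
import Crest.Agent.R128.Good
import Crest.Agent.R128.CleanCont
import Crest.Agent.R128.ValNorm2
import Crest.Agent.R128.Val
import Crest.Agent.R128.LocA1

/-!
# Row 128, node V5-LOC: from `Good.Side` to the disc data of one side (helper376)

`Side k L ρ (zt k c t0) x w M` (foot `w`, depth `ρ`) gives a `CleanNum.Clean` structure for the
`t`-field `wf k c t0` up to the time `w - 1`, the size of the slope `X = |Q_w|` at the foot, and the
complex disc of radius `k^(-12) / X` on which everything up to the foot is controlled.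
-/

set_option autoImplicit false

open Finset Metric

namespace Crest.Agent.R128.SideStart376

open Crest.Agent.R128 Crest.Agent.R128.Cell Crest.Agent.R128.CellB
open Crest.Agent.R128.TreeSum Crest.Agent.R128.Acc Crest.Agent.R128.AlignMn
open Crest.Agent.R128.DictY Crest.Agent.R128.Lam0 Crest.Agent.R128.Good
open Crest.Agent.R128.CleanNum Crest.Agent.R128.CleanDisc Crest.Agent.R128.CleanCont
open Crest.Agent.R128.ValNorm

theorem ap_nat (k : ℝ) (y : Tor) (n : ℕ) : ap k y n = V k ((T k)^[n] y).2 := by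
  unfold AlignMn.ap dz
  rw [Two.Tz_natCast]

theorem ap_succ_zt (k c t0 : ℝ) (n : ℕ) : ap k (zt k c t0) (n + 1) = ra k c t0 n := by
  rw [ap_nat, Function.iterate_succ_apply, T_zt]
  rfl

/-- digits of the reversed start at the foot -/
theorem digit_foot (k : ℝ) (y : Tor) {w j : ℕ} (hj : j < w) :
    V k ((T k)^[j] ((T k)^[w] y).swap).2 = ap k y (w - 1 - j) := by
  rw [T_iter_swap, ValNorm.Tinv_iter_T_iter k hj.le, ap_nat]
  have e : w - j = (w - 1 - j) + 1 := by omega
  rw [e, Function.iterate_succ_apply']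
  rfl

/-- `CVal` gives `ValD` with exponent `1/100` -/
theorem valD {k : ℝ} {L n : ℕ} {z : Tor} (h : CVal k L z n) (hL : L ≤ n) :
    ValD k (1 / 100) L n z where
  c1 := fun m hm => h.cl m hm (lt_of_lt_of_le hm hL)
  c2 := by
    intro i j hi hij hj
    have h1 := h.v2 i j hi hij hj
    unfold W
    have n1 := norm_nonneg (fld k z i)
    have n2 := norm_nonneg (fld k z j)
    have h2 : (‖fld k z i‖ ^ 99) ^ (1 / 100 : ℝ) ≤ (‖fld k z j‖ ^ 100) ^ (1 / 100 : ℝ) :=
      Real.rpow_le_rpow (pow_nonneg n1 _) h1 (by norm_num)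
    rw [← Real.rpow_natCast, ← Real.rpow_natCast, ← Real.rpow_mul n1, ← Real.rpow_mul n2] at h2
    norm_num at h2 ⊢
    exact h2
  c3 := by
    intro j hLj hj
    obtain ⟨i, _, hij, hi⟩ := h.v3 j hLj hj
    refine ⟨i, hij, ?_⟩
    unfold W
    have n1 := norm_nonneg (fld k z i)
    have h2 : ((j : ℝ) ^ 400) ^ (1 / 400 : ℝ) ≤ ‖fld k z i‖ ^ (1 / 400 : ℝ) :=
      Real.rpow_le_rpow (by positivity) hi (by norm_num)
    have h3 : ((j : ℝ) ^ 400) ^ (1 / 400 : ℝ) = (j : ℝ) := by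
      rw [← Real.rpow_natCast, ← Real.rpow_mul (Nat.cast_nonneg _)]
      norm_num
    rw [h3] at h2
    have e : (1 / 100 / 4 : ℝ) = 1 / 400 := by norm_num
    rw [e]
    exact h2

/-- the foot field, forward in time -/
noncomputable def zf (k c t0 : ℝ) (w : ℕ) : ℕ → ℝ × ℝ :=
  Crest.Agent.R128.Val.fld (ra k c t0) (fld k (((T k)^[w] (zt k c t0)).swap) (w - 1)).swap

theorem isField_zf (k c t0 : ℝ) (w : ℕ) : IsField (ra k c t0) (zf k c t0 w) :=
  Crest.Agent.R128.Val.fld_isField _ _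

theorem zf_eq (k c t0 : ℝ) {w : ℕ} (hw : 0 < w) : ∀ m ≤ w - 1,
    zf k c t0 w m = (fld k (((T k)^[w] (zt k c t0)).swap) (w - 1 - m)).swap := by
  intro m
  induction m with
  | zero => intro _; rfl
  | succ m ih =>
    intro hm
    have h := ih (by omega)
    rw [isField_zf k c t0 w m, h]
    have e1 : w - 1 - m = (w - 1 - (m + 1)) + 1 := by omega
    rw [e1, fld_succ, digit_foot k _ (by omega : w - 1 - (m + 1) < w)]
    have e2 : w - 1 - (w - 1 - (m + 1)) = m + 1 := by omega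
    rw [e2, ap_succ_zt]
    unfold stp
    ext
    · simp
    · simp

theorem nn_swap (v : ℝ × ℝ) : nn v.swap = nn v := by
  unfold nn
  rw [Prod.fst_swap, Prod.snd_swap, add_comm]

section foot

variable {k : ℝ} {L n : ℕ} {s : Tor}

theorem W_le_nn (k : ℝ) (s : Tor) (j : ℕ) : W k s j ≤ nn (fld k s j) := norm_le_nn _

theorem nn_le_W (k : ℝ) (s : Tor) (j : ℕ) : nn (fld k s j) ≤ 2 * W k s j := nn_le_norm _

theorem clean_nn (h : ValD k (1 / 100) L n s) (hk : 100 ≤ k) {j : ℕ} (hj : j < L) :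
    nn (fld k s j) ≤ W k s (j + 1) := by
  have h3 := ValD.three hk
  have h1 := clean_cone h3 h.c1 j hj.le
  have h2 := W_growth h3 h.c1 hj
  have h4 := h.c1 j hj
  have h5 := W_eq_snd h3 h.c1 hj.le
  have h6 := nn_le_add (fld k s j)
  have h7 := W_nonneg k s j
  nlinarith

theorem late_pow (h : ValD k (1 / 100) L n s) (hk : 100 ≤ k) (hL : 1000 ≤ L) {j : ℕ}
    (hLj : L ≤ j) (hj : j ≤ n) : (2 : ℝ) ^ 150 ≤ W k s j := by
  have h1 := h.c2 L j le_rfl hLj hj
  have h2 := h.W_L hk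
  have h3 := ten_le hk
  have h4 : (10 : ℝ) ^ 1000 ≤ W k s L := by
    calc (10 : ℝ) ^ 1000 ≤ (k ^ (1/2 : ℝ)) ^ 1000 := pow_le_pow_left₀ (by norm_num) h3 _
      _ ≤ (k ^ (1/2 : ℝ)) ^ L := pow_le_pow_right₀ (by linarith) hL
      _ ≤ _ := h2
  have h5 : ((10 : ℝ) ^ 1000) ^ (99 / 100 : ℝ) ≤ W k s L ^ (1 - 1 / 100 : ℝ) := by
    have e : (1 - 1 / 100 : ℝ) = 99 / 100 := by norm_num
    rw [e]
    exact Real.rpow_le_rpow (by positivity) h4 (by norm_num)
  have h6 : ((10 : ℝ) ^ 1000) ^ (99 / 100 : ℝ) = (10 : ℝ) ^ 990 := by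
    rw [← Real.rpow_natCast, ← Real.rpow_natCast, ← Real.rpow_mul (by norm_num)]
    norm_num
  rw [h6] at h5
  have h7 : (2 : ℝ) ^ 150 ≤ 10 ^ 990 := by
    calc (2 : ℝ) ^ 150 ≤ 10 ^ 150 := pow_le_pow_left₀ (by norm_num) (by norm_num) _
      _ ≤ 10 ^ 990 := pow_le_pow_right₀ (by norm_num) (by norm_num)
  exact h7.trans (h5.trans h1)

theorem nn_val (h : ValD k (1 / 100) L n s) (hk : 100 ≤ k) (hL : 1000 ≤ L) {i j : ℕ}
    (hij : i ≤ j) (hj : j ≤ n) : nn (fld k s i) ^ (1 - 1 / 60 : ℝ) ≤ nn (fld k s j) := by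
  have one : ∀ m ≤ n, 1 ≤ W k s m := fun m hm => h.one_le hk (by norm_num) hm
  have hF : ∀ m ≤ n, 1 ≤ nn (fld k s m) := fun m hm => (one m hm).trans (W_le_nn k s m)
  rcases Nat.eq_or_lt_of_le hij with heq | hlt
  · rw [← heq]
    calc nn (fld k s i) ^ (1 - 1 / 60 : ℝ) ≤ nn (fld k s i) ^ (1 : ℝ) :=
          Real.rpow_le_rpow_of_exponent_le (hF i (by omega)) (by norm_num)
      _ = _ := Real.rpow_one _
  · refine le_trans ?_ (W_le_nn k s j)
    rcases Nat.lt_or_ge i L with hi | hi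
    · have h1 := clean_nn h hk hi
      have h2 := one (i + 1) (by omega)
      calc nn (fld k s i) ^ (1 - 1 / 60 : ℝ) ≤ W k s (i + 1) ^ (1 - 1 / 60 : ℝ) :=
            Real.rpow_le_rpow (nn_nonneg _) h1 (by norm_num)
        _ ≤ W k s (i + 1) ^ (1 - 1 / 100 : ℝ) :=
            Real.rpow_le_rpow_of_exponent_le h2 (by norm_num)
        _ ≤ _ := h.all hk (by norm_num) (by norm_num) (by omega) hj
    · have h1 := nn_le_W k s i
      have h2 := late_pow h hk hL hi (by omega)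
      have h3 : (0 : ℝ) < W k s i := lt_of_lt_of_le (by positivity) h2
      have h4 : (2 : ℝ) ≤ W k s i ^ (1 / 150 : ℝ) := by
        have h5 : ((2 : ℝ) ^ 150) ^ (1 / 150 : ℝ) ≤ W k s i ^ (1 / 150 : ℝ) :=
          Real.rpow_le_rpow (by positivity) h2 (by norm_num)
        have h6 : ((2 : ℝ) ^ 150) ^ (1 / 150 : ℝ) = 2 := by
          rw [← Real.rpow_natCast, ← Real.rpow_mul (by norm_num)]
          norm_num
        linarith
      have h7 : (2 : ℝ) ^ (1 - 1 / 60 : ℝ) ≤ 2 := by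
        calc (2 : ℝ) ^ (1 - 1 / 60 : ℝ) ≤ 2 ^ (1 : ℝ) :=
              Real.rpow_le_rpow_of_exponent_le (by norm_num) (by norm_num)
          _ = 2 := Real.rpow_one _
      calc nn (fld k s i) ^ (1 - 1 / 60 : ℝ) ≤ (2 * W k s i) ^ (1 - 1 / 60 : ℝ) :=
            Real.rpow_le_rpow (nn_nonneg _) h1 (by norm_num)
        _ = 2 ^ (1 - 1 / 60 : ℝ) * W k s i ^ (1 - 1 / 60 : ℝ) :=
            Real.mul_rpow (by norm_num) h3.le
        _ ≤ W k s i ^ (1 / 150 : ℝ) * W k s i ^ (1 - 1 / 60 : ℝ) := by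
            apply mul_le_mul_of_nonneg_right (h7.trans h4) (Real.rpow_nonneg h3.le _)
        _ = W k s i ^ (1 - 1 / 100 : ℝ) := by
            rw [← Real.rpow_add h3]
            norm_num
        _ ≤ _ := h.all hk (by norm_num) (by norm_num) hij hj

theorem nn_dur (h : ValD k (1 / 100) L n s) (hk : 100 ≤ k) (hL : 1000 ≤ L) (hLn : L ≤ n) :
    ∑ j ∈ range (n + 1), nn (fld k s j) ^ (-(1 / 60) : ℝ) ≤ L + 1 := by
  have one : ∀ m ≤ n, 1 ≤ W k s m := fun m hm => h.one_le hk (by norm_num) hm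
  have hF : ∀ m ≤ n, 1 ≤ nn (fld k s m) := fun m hm => (one m hm).trans (W_le_nn k s m)
  rw [← Finset.sum_range_add_sum_Ico _ (by omega : L ≤ n + 1)]
  have h1 : ∑ j ∈ range L, nn (fld k s j) ^ (-(1 / 60) : ℝ) ≤ L := by
    calc ∑ j ∈ range L, nn (fld k s j) ^ (-(1 / 60) : ℝ) ≤ ∑ _j ∈ range L, (1 : ℝ) := by
          refine Finset.sum_le_sum fun j hj => ?_
          exact Real.rpow_le_one_of_one_le_of_nonpos
            (hF j (by rw [Finset.mem_range] at hj; omega)) (by norm_num)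
      _ = L := by simp
  have h2 : ∑ j ∈ Ico L (n + 1), nn (fld k s j) ^ (-(1 / 60) : ℝ) ≤ 1 := by
    rw [Finset.sum_Ico_eq_sum_range]
    have h3 : ∀ i ∈ range (n + 1 - L), nn (fld k s (L + i)) ^ (-(1 / 60) : ℝ) ≤
        1 / ((L + i : ℕ) : ℝ) ^ 2 := by
      intro i hi
      rw [Finset.mem_range] at hi
      have hLi : L + i ≤ n := by omega
      obtain ⟨i', hi'1, hi'2⟩ := h.c3 (L + i) (by omega) hLi
      have h4 := h.all hk (by norm_num) (by norm_num) hi'1 hLi
      have h5 := one i' (hi'1.trans hLi)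
      have hpos : (0 : ℝ) < ((L + i : ℕ) : ℝ) := by
        have : 0 < L + i := by omega
        exact_mod_cast this
      have h6 : ((L + i : ℕ) : ℝ) ^ 120 ≤ nn (fld k s (L + i)) := by
        calc ((L + i : ℕ) : ℝ) ^ 120 ≤ (W k s i' ^ (1 / 100 / 4 : ℝ)) ^ 120 :=
              pow_le_pow_left₀ hpos.le hi'2 _
          _ = W k s i' ^ (3 / 10 : ℝ) := by
              rw [← Real.rpow_natCast, ← Real.rpow_mul (by linarith)]
              norm_num
          _ ≤ W k s i' ^ (1 - 1 / 100 : ℝ) :=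
              Real.rpow_le_rpow_of_exponent_le h5 (by norm_num)
          _ ≤ _ := h4.trans (W_le_nn k s _)
      calc nn (fld k s (L + i)) ^ (-(1 / 60) : ℝ) ≤ (((L + i : ℕ) : ℝ) ^ 120) ^ (-(1 / 60) : ℝ) :=
            Real.rpow_le_rpow_of_nonpos (by positivity) h6 (by norm_num)
        _ = 1 / ((L + i : ℕ) : ℝ) ^ 2 := by
            rw [← Real.rpow_natCast _ 120, ← Real.rpow_mul hpos.le, one_div (_ ^ 2),
              ← Real.rpow_natCast _ 2, ← Real.rpow_neg hpos.le]
            norm_num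
    refine (Finset.sum_le_sum h3).trans ?_
    have h7 := sum_inv_sq L (n + 1 - L) (by omega)
    rw [← Finset.range_eq_Ico] at h7
    refine h7.trans ?_
    have : (1000 : ℝ) ≤ L := by exact_mod_cast hL
    rw [div_le_one (by linarith)]
    linarith
  linarith

end foot

/-- **The clean structure of a side.** -/
theorem clean_side {k ρ c t0 : ℝ} {L w M : ℕ} {x : ℕ → ℝ} (hk : 100 ≤ k) (hL : 1000 ≤ L)
    (hρ : 0 ≤ ρ) (S : Side k L ρ (zt k c t0) x w M) :
    Clean (ra k c t0) (wf k c t0) (zf k c t0 w) (w - 1) (1 / 60) (L + 1) (8 * k) 4 := by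
  have hw := S.hw
  have hw0 : 0 < w := by omega
  have hV := valD S.val (by omega : L ≤ w - 1)
  set s := ((T k)^[w] (zt k c t0)).swap with hs
  have one : ∀ m ≤ w - 1, 1 ≤ W k s m := fun m hm => hV.one_le hk (by norm_num) hm
  have hF : ∀ m ≤ w - 1, 1 ≤ nn (fld k s m) := fun m hm => (one m hm).trans (W_le_nn k s m)
  have hz : ∀ m ≤ w - 1, nn (zf k c t0 w m) = nn (fld k s (w - 1 - m)) := by
    intro m hm
    rw [zf_eq k c t0 hw0 m hm, nn_swap]
  have hLr : (1000 : ℝ) ≤ L := by exact_mod_cast hL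
  refine
    { hw := isField_wf k c t0
      hz := isField_zf k c t0 w
      w0 := by rw [nn_wf_zero]; exact one_pos
      A1 := by linarith
      hA := fun j => ?_
      δ0 := by norm_num
      δ1 := by norm_num
      K1 := by linarith
      c1 := by norm_num
      one := fun m hm => by rw [hz m hm]; exact hF _ (by omega)
      val := fun i j hij hj => ?_
      dur := ?_
      tr := ?_ }
  · exact abs_V_le (by linarith) _
  · rw [hz i (hij.trans hj), hz j hj]
    exact nn_val hV hk hL (by omega) (by omega)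
  · have e : ∑ m ∈ range (w - 1 + 1), nn (zf k c t0 w m) ^ (-(1 / 60) : ℝ) =
        ∑ m ∈ range (w - 1 + 1), nn (fld k s (w - 1 + 1 - 1 - m)) ^ (-(1 / 60) : ℝ) := by
      refine Finset.sum_congr rfl fun m hm => ?_
      rw [Finset.mem_range] at hm
      rw [hz m (by omega)]
      rfl
    rw [e, Finset.sum_range_reflect (fun j => nn (fld k s j) ^ (-(1 / 60) : ℝ))]
    exact nn_dur hV hk hL (by omega)
  · rw [nn_wf_zero, one_mul, wf_zero]
    have hz0 := zf_eq k c t0 hw0 0 (by omega)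
    have hzl := zf_eq k c t0 hw0 (w - 1) le_rfl
    rw [Nat.sub_self, fld_zero] at hzl
    rw [← hs, Nat.sub_zero] at hz0
    -- the Wronskian of `x` and the foot field
    have hxF : IsField (ra k c t0) (fun m => (x m, x (m + 1))) := by
      intro m
      unfold stp
      have := S.xrec m
      rw [ap_succ_zt] at this
      simp only
      rw [this]
    have hwr := hxF.wr_eq (isField_zf k c t0 w) (m := 0) (n := w - 1) (by omega)
    have hxw : |x w| ≤ 1 := by
      refine (le_max_right _ _).trans (S.hi.trans ?_)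
      exact Real.exp_le_one_iff.mpr (by linarith)
    have ew : w - 1 + 1 = w := by omega
    rw [hzl, ew] at hwr
    simp only [Prod.swap_prod_mk, zero_add] at hwr
    have hlate := (hV.late hk (by omega) (by norm_num) (by norm_num) (j := w - 1) (by omega)
      le_rfl).1
    have hWn : W k s (w - 1) = max |(zf k c t0 w 0).2| |(zf k c t0 w 0).1| := by
      rw [hz0]
      rfl
    have hnn : nn (zf k c t0 w 0) ≤ 2 * W k s (w - 1) := by
      rw [hz0, nn_swap]
      exact nn_le_W k s (w - 1)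
    set ζ0 := (zf k c t0 w 0).1 with hζ0
    set ζ1 := (zf k c t0 w 0).2 with hζ1
    have hwr2 : x 0 * ζ1 - x 1 * ζ0 = -x w := by
      have : wr (x (w - 1), x w) (1, 0) = -x w := by unfold wr; simp
      rw [this] at hwr
      have h2 : wr (x 0, x 1) (zf k c t0 w 0) = x 0 * ζ1 - x 1 * ζ0 := rfl
      rw [← h2, ← hwr]
    have h1 : |ζ1| ≤ |ζ0| + 1 := by
      have e1 : x 0 * ζ1 = x 1 * ζ0 - x w := by linarith
      have e2 : |ζ1| = |x 0 * ζ1| := by rw [abs_mul, S.x0, one_mul]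
      rw [e2, e1]
      refine (abs_sub _ _).trans ?_
      rw [abs_mul]
      have := mul_le_mul_of_nonneg_right S.x1 (abs_nonneg ζ0)
      linarith
    have h2 : W k s (w - 1) ≤ |ζ0| + 1 := by
      rw [hWn]
      exact max_le h1 (by linarith)
    have h3 : |wr ((0 : ℝ), (1 : ℝ)) (zf k c t0 w 0)| = |ζ0| := by
      unfold wr
      simp only [zero_mul, one_mul, zero_sub, abs_neg]
      rfl
    rw [h3]
    have h4 : (2 : ℝ) ≤ 64 * k ^ 2 := by nlinarith
    linarith

/-- slope number `m` at the base point (real) -/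
noncomputable def Qr (k c t0 : ℝ) (m : ℕ) : ℝ := |(wf k c t0 m).1|

theorem norm_yd (k c t0 : ℝ) (m : ℕ) : ‖yd k c m (t0 : ℂ)‖ = Qr k c t0 m := by
  rw [← wf_fst, Complex.norm_real]
  rfl

theorem wf_snd_eq (k c t0 : ℝ) (m : ℕ) : (wf k c t0 m).2 = (wf k c t0 (m + 1)).1 := by
  rw [isField_wf k c t0 m]
  rfl

theorem abs_wf_snd (k c t0 : ℝ) (m : ℕ) : |(wf k c t0 m).2| = Qr k c t0 (m + 1) := by
  rw [wf_snd_eq]
  rfl

theorem wf_rec (k c t0 : ℝ) (m : ℕ) : (wf k c t0 (m + 2)).1 =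
    ra k c t0 m * (wf k c t0 (m + 1)).1 - (wf k c t0 m).1 := by
  rw [← wf_snd_eq k c t0 (m + 1), isField_wf k c t0 m]
  rfl

theorem Qr_nonneg (k c t0 : ℝ) (m : ℕ) : 0 ≤ Qr k c t0 m := abs_nonneg _

theorem Qr_up (k c t0 : ℝ) (m : ℕ) : Qr k c t0 (m + 2) ≤
    |ra k c t0 m| * Qr k c t0 (m + 1) + Qr k c t0 m := by
  unfold Qr
  rw [wf_rec]
  refine (abs_sub _ _).trans ?_
  rw [abs_mul]

theorem Qr_dn (k c t0 : ℝ) (m : ℕ) : |ra k c t0 m| * Qr k c t0 (m + 1) - Qr k c t0 m ≤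
    Qr k c t0 (m + 2) := by
  unfold Qr
  rw [wf_rec]
  have := abs_sub_abs_le_abs_sub (ra k c t0 m * (wf k c t0 (m + 1)).1) (wf k c t0 m).1
  rw [abs_mul] at this
  exact this

theorem zf_last (k c t0 : ℝ) {w : ℕ} (hw : 0 < w) : zf k c t0 w (w - 1) = (1, 0) := by
  have h := zf_eq k c t0 hw (w - 1) le_rfl
  rw [Nat.sub_self, fld_zero] at h
  exact h

theorem XX_eq (k c t0 : ℝ) {w : ℕ} (hw : 0 < w) :
    XX (wf k c t0) (zf k c t0 w) = Qr k c t0 w := by
  have h := (isField_wf k c t0).wr_eq (isField_zf k c t0 w) (m := 0) (n := w - 1) (by omega)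
  unfold XX
  rw [← h, zf_last k c t0 hw]
  have e : wr (wf k c t0 (w - 1)) (1, 0) = -(wf k c t0 (w - 1)).2 := by unfold wr; simp
  rw [e, abs_neg, abs_wf_snd]
  congr 1
  omega

theorem nn_wf_le (k c t0 : ℝ) (m : ℕ) : nn (wf k c t0 m) ≤ Qr k c t0 m + Qr k c t0 (m + 1) := by
  have := nn_le_add (wf k c t0 m)
  rwa [abs_wf_snd] at this

theorem Qr_le_nn (k c t0 : ℝ) (m : ℕ) : Qr k c t0 m ≤ nn (wf k c t0 m) := abs_fst_le _

theorem Qr_succ_le_nn (k c t0 : ℝ) (m : ℕ) : Qr k c t0 (m + 1) ≤ nn (wf k c t0 m) := by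
  rw [← abs_wf_snd]
  exact abs_snd_le _

/-- numerical hypotheses -/
structure NumK (k : ℝ) (L : ℕ) : Prop where
  hk : (10 : ℝ) ^ 20 ≤ k
  hL : 1000 ≤ L
  hLk : 10 ^ 14 * ((L : ℝ) + 1) ^ 5 ≤ k

theorem NumK.k1 {k : ℝ} {L : ℕ} (h : NumK k L) : 1 ≤ k := le_trans (by norm_num) h.hk
theorem NumK.k100 {k : ℝ} {L : ℕ} (h : NumK k L) : 100 ≤ k := le_trans (by norm_num) h.hk

theorem NumK.C1_le {k : ℝ} {L : ℕ} (h : NumK k L) : C1 (8 * k) (L + 1) 4 ≤ 65 * k ^ 2 * (L + 1) := by
  have h1 := h.k100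
  have h2 : (1000 : ℝ) ≤ L := by exact_mod_cast h.hL
  unfold C1
  nlinarith [sq_nonneg k, mul_pos (by linarith : (0:ℝ) < k) (by linarith : (0:ℝ) < k)]

theorem NumK.rho0_ge {k : ℝ} {L : ℕ} (h : NumK k L) {a : ℕ → ℝ} {w z : ℕ → ℝ × ℝ} {n : ℕ}
    {δ : ℝ} (hc : Clean a w z n δ (L + 1) (8 * k) 4) :
    1 / k ^ 10 ≤ rho0 k (8 * k) (L + 1) 4 := by
  have hk1 := h.k1
  have hk0 : 0 < k := by linarith
  have hL0 : (0 : ℝ) ≤ L := Nat.cast_nonneg _
  have hCL := LocA.CL_le hk1
  have hCL0 := CL_ge hk1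
  have hC1 := h.C1_le
  have hC10 := C1_pos hc
  have hC20 := (C2_ge hc).2
  unfold rho0
  apply one_div_le_one_div_of_le
  · have := hc.A1
    positivity
  · have hC2 : C2 (8 * k) (L + 1) 4 ≤ 2197000 * k ^ 7 * ((L : ℝ) + 1) ^ 5 := by
      unfold C2
      calc C1 (8 * k) (L + 1) 4 ^ 3 * ((L : ℝ) + 1) ^ 2 * (8 * k)
          ≤ (65 * k ^ 2 * (L + 1)) ^ 3 * ((L : ℝ) + 1) ^ 2 * (8 * k) := by gcongr
        _ = 2197000 * k ^ 7 * ((L : ℝ) + 1) ^ 5 := by ring
    calc 80 * CL k * (8 * k + 1) * C2 (8 * k) (L + 1) 4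
        ≤ 80 * (44000 * k) * (9 * k) * (2197000 * k ^ 7 * ((L : ℝ) + 1) ^ 5) := by
          gcongr
          linarith
      _ = 69600960000000 * ((L : ℝ) + 1) ^ 5 * k ^ 9 := by ring
      _ ≤ 10 ^ 14 * ((L : ℝ) + 1) ^ 5 * k ^ 9 := by
          gcongr
          norm_num
      _ ≤ k * k ^ 9 := by
          apply mul_le_mul_of_nonneg_right h.hLk (by positivity)
      _ = k ^ 10 := by ring

/-- regular digits before the foot -/
theorem reg_before {k ρ c t0 : ℝ} {L w M : ℕ} {x : ℕ → ℝ} (S : Side k L ρ (zt k c t0) x w M)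
    {m : ℕ} (h1 : w ≤ m + 1 + L) (h2 : m + 2 ≤ w) : k ^ (2 / 3 : ℝ) ≤ |ra k c t0 m| := by
  have h := S.val.cl (w - 1 - (m + 1)) (by have := S.hw; omega) (by have := S.hw; omega)
  rw [digit_foot k _ (by omega : w - 1 - (m + 1) < w)] at h
  have e : w - 1 - (w - 1 - (m + 1)) = m + 1 := by omega
  rw [e, ap_succ_zt] at h
  exact h

/-- **The slope doubles at the foot.** -/
theorem foot_ratio {k ρ c t0 : ℝ} {L w M : ℕ} {x : ℕ → ℝ} (hN : NumK k L)
    (hρ : 0 ≤ ρ) (S : Side k L ρ (zt k c t0) x w M) :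
    2 * Qr k c t0 (w - 1) ≤ Qr k c t0 w := by
  have hk := hN.k100
  have hk0 : 0 < k := by linarith
  have hL := hN.hL
  have hw := S.hw
  have hC := clean_side hk hL hρ S
  have hX := XX_eq k c t0 (by omega : 0 < w)
  have hXpos : 0 < Qr k c t0 w := by rw [← hX]; exact hC.Xpos
  have hb := ValD.three hk
  -- the small field 21 steps before the foot
  have hsmall : nn (wf k c t0 (w - 21)) * (9 * k) < Qr k c t0 w := by
    have h1 := hC.R_le (m := w - 21) (by omega)
    have hXe : |wr (wf k c t0 0) (zf k c t0 w 0)| = Qr k c t0 w := hX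
    rw [hXe] at h1
    have hV := valD S.val (by omega : L ≤ w - 1)
    have h2 : (k ^ (1/2 : ℝ)) ^ 20 ≤ nn (zf k c t0 w (w - 21)) := by
      rw [zf_eq k c t0 (by omega) (w - 21) (by omega), nn_swap]
      have e : w - 1 - (w - 21) = 20 := by omega
      rw [e]
      exact (hV.W_clean hk (by omega)).trans (W_le_nn _ _ _)
    have h3 : (k ^ (1/2 : ℝ)) ^ 20 = k ^ 10 := by
      rw [← Real.rpow_natCast, ← Real.rpow_mul hk0.le, ← Real.rpow_natCast]
      norm_num
    rw [h3] at h2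
    have h4 : nn (zf k c t0 w (w - 21)) ^ (-(1 - 3 * (1 / 60)) : ℝ) ≤
        (k ^ 10) ^ (-(1 - 3 * (1 / 60)) : ℝ) :=
      Real.rpow_le_rpow_of_nonpos (by positivity) h2 (by norm_num)
    have h5 : (k ^ 10) ^ (-(1 - 3 * (1 / 60)) : ℝ) ≤ 1 / k ^ 9 := by
      rw [← Real.rpow_natCast, ← Real.rpow_mul hk0.le, one_div (k ^ 9), ← Real.rpow_natCast k 9,
        ← Real.rpow_neg hk0.le]
      apply Real.rpow_le_rpow_of_exponent_le (by linarith)
      norm_num
    have h6 := hN.C1_le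
    have hC1 := C1_pos hC
    have h7 : ((L : ℝ) + 1) ≤ k := by
      have hL0 : (1 : ℝ) ≤ (L : ℝ) + 1 := by
        have : (0 : ℝ) ≤ L := Nat.cast_nonneg _
        linarith
      calc ((L : ℝ) + 1) = ((L : ℝ) + 1) ^ 1 := (pow_one _).symm
        _ ≤ ((L : ℝ) + 1) ^ 5 := pow_le_pow_right₀ hL0 (by norm_num)
        _ = 1 * ((L : ℝ) + 1) ^ 5 := (one_mul _).symm
        _ ≤ 10 ^ 14 * ((L : ℝ) + 1) ^ 5 := by gcongr; norm_num
        _ ≤ k := hN.hLk
    calc nn (wf k c t0 (w - 21)) * (9 * k)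
        ≤ (C1 (8 * k) (L + 1) 4 * Qr k c t0 w *
            nn (zf k c t0 w (w - 21)) ^ (-(1 - 3 * (1 / 60)) : ℝ)) * (9 * k) := by gcongr
      _ ≤ (65 * k ^ 2 * k * Qr k c t0 w * (1 / k ^ 9)) * (9 * k) := by
          have h8 : C1 (8 * k) (L + 1) 4 ≤ 65 * k ^ 2 * k := by
            refine h6.trans ?_
            gcongr
          have h9 := h4.trans h5
          have h10 := Real.rpow_nonneg (nn_nonneg (zf k c t0 w (w - 21)))
            (-(1 - 3 * (1 / 60)) : ℝ)
          gcongr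
      _ = (585 / k ^ 5) * Qr k c t0 w := by
          field_simp
          ring
      _ < 1 * Qr k c t0 w := by
          apply mul_lt_mul_of_pos_right _ hXpos
          rw [div_lt_one (by positivity)]
          calc (585 : ℝ) < 100 ^ 5 := by norm_num
            _ ≤ k ^ 5 := pow_le_pow_left₀ (by norm_num) hk _
      _ = _ := one_mul _
  -- switch point
  have hsw : ∃ m, w - 20 ≤ m ∧ m + 2 ≤ w ∧ Qr k c t0 m ≤ Qr k c t0 (m + 1) := by
    by_contra hcon
    push Not at hcon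
    have hdec : ∀ j, j ≤ 19 → Qr k c t0 (w - 20 + j) ≤ Qr k c t0 (w - 20) := by
      intro j
      induction j with
      | zero => intro _; rfl
      | succ j ih =>
        intro hj
        have h1 := ih (by omega)
        have h2 := hcon (w - 20 + j) (by omega) (by omega)
        rw [← add_assoc]
        linarith
    have h1 := hdec 19 le_rfl
    have h2 := hdec 18 (by norm_num)
    have e1 : w - 20 + 19 = w - 1 := by omega
    have e2 : w - 20 + 18 = w - 2 := by omega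
    rw [e1] at h1
    rw [e2] at h2
    have h3 := Qr_up k c t0 (w - 2)
    have e3 : w - 2 + 2 = w := by omega
    have e4 : w - 2 + 1 = w - 1 := by omega
    rw [e3, e4] at h3
    have h4 := Qr_succ_le_nn k c t0 (w - 21)
    have e5 : w - 21 + 1 = w - 20 := by omega
    rw [e5] at h4
    have h5 := hC.hA (w - 2)
    have h6 := Qr_nonneg k c t0 (w - 20)
    have h7 := abs_nonneg (ra k c t0 (w - 2))
    have h8 : |ra k c t0 (w - 2)| * Qr k c t0 (w - 1) ≤ (8 * k - 2) * Qr k c t0 (w - 20) :=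
      mul_le_mul (by linarith) h1 (Qr_nonneg _ _ _ _) (by linarith)
    nlinarith
  obtain ⟨m, hm1, hm2, hm3⟩ := hsw
  have hgrow : ∀ j, m + 1 + j ≤ w - 1 → Qr k c t0 (m + j) ≤ Qr k c t0 (m + 1 + j) ∧
      2 * Qr k c t0 (m + 1 + j) ≤ Qr k c t0 (m + 2 + j) := by
    intro j
    induction j with
    | zero =>
      intro hj
      have h1 := Qr_dn k c t0 m
      have h2 := reg_before S (m := m) (by omega) (by omega)
      have h3 := Qr_nonneg k c t0 (m + 1)
      refine ⟨hm3, ?_⟩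
      have h4 := mul_le_mul_of_nonneg_right (hb.trans h2) h3
      simp only [add_zero]
      linarith
    | succ j ih =>
      intro hj
      obtain ⟨i1, i2⟩ := ih (by omega)
      have h1 := Qr_dn k c t0 (m + 1 + j)
      have h2 := reg_before S (m := m + 1 + j) (by omega) (by omega)
      have e1 : m + 1 + (j + 1) = m + 1 + j + 1 := by ring
      have e2 : m + (j + 1) = m + 1 + j := by ring
      have e3 : m + 2 + (j + 1) = m + 1 + j + 2 := by ring
      have e4 : m + 2 + j = m + 1 + j + 1 := by ring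
      rw [e1, e2, e3]
      rw [e4] at i2
      have h3 := Qr_nonneg k c t0 (m + 1 + j)
      have h4 := mul_le_mul_of_nonneg_right (hb.trans h2) (Qr_nonneg k c t0 (m + 1 + j + 1))
      constructor
      · linarith
      · linarith
  obtain ⟨_, h2⟩ := hgrow (w - 2 - m) (by omega)
  have e1 : m + 1 + (w - 2 - m) = w - 1 := by omega
  have e2 : m + 2 + (w - 2 - m) = w := by omega
  rw [e1, e2] at h2
  exact h2

section sizes

variable {k ρ c t0 : ℝ} {L w M n : ℕ} {x : ℕ → ℝ}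

/-- digits of the run -/
theorem run_dig (S : Side k L ρ (zt k c t0) x w M) {j : ℕ} (hj : j ≤ M) :
    k ^ (2 / 3 : ℝ) ≤ |ra k c t0 (w - 1 + j)| := by
  have h := S.run (w + j) (by omega) (by omega)
  have hw := S.hw
  have e : w + j = (w - 1 + j) + 1 := by omega
  rw [e, ap_succ_zt] at h
  exact h

theorem xrec' (S : Side k L ρ (zt k c t0) x w M) (m : ℕ) :
    x (m + 2) = ra k c t0 m * x (m + 1) - x m := by
  have := S.xrec m
  rwa [ap_succ_zt] at this

theorem wr_x (S : Side k L ρ (zt k c t0) x w M) (m : ℕ) :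
    |(wf k c t0 m).1 * x (m + 1) - (wf k c t0 (m + 1)).1 * x m| = 1 := by
  have hxF : IsField (ra k c t0) (fun m => (x m, x (m + 1))) := by
    intro m
    unfold stp
    simp only
    rw [xrec' S m]
  have h := (isField_wf k c t0).wr_eq hxF (m := 0) (n := m) (by omega)
  have e : wr (wf k c t0 m) (x m, x (m + 1)) =
      (wf k c t0 m).1 * x (m + 1) - (wf k c t0 (m + 1)).1 * x m := by
    rw [← wf_snd_eq]
    rfl
  rw [e, wf_zero] at h
  rw [h]
  unfold wr
  simp only [zero_mul, one_mul, zero_sub, abs_neg, zero_add]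
  exact S.x0

/-- `|x_w| ≤ |x_(w-1)|` -/
theorem x_dec (hk : 100 ≤ k) (S : Side k L ρ (zt k c t0) x w M) : |x w| ≤ |x (w - 1)| := by
  by_contra hcon
  push Not at hcon
  have hw := S.hw
  have hb := ValD.three hk
  have hlk : 0 < Real.log k := Real.log_pos (by linarith)
  have hgrow : ∀ j, j ≤ M → |x w| ≤ |x (w + j)| ∧ |x (w - 1 + j)| ≤ |x (w + j)| := by
    intro j
    induction j with
    | zero => intro _; exact ⟨le_rfl, by simpa using hcon.le⟩
    | succ j ih =>
      intro hj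
      obtain ⟨i1, i2⟩ := ih (by omega)
      have h1 := xrec' S (w - 1 + j)
      have h2 := run_dig S (j := j) (by omega)
      have e1 : w - 1 + j + 2 = w + (j + 1) := by omega
      have e2 : w - 1 + j + 1 = w + j := by omega
      have e3 : w - 1 + (j + 1) = w + j := by omega
      rw [e1, e2] at h1
      have h3 : |ra k c t0 (w - 1 + j)| * |x (w + j)| - |x (w - 1 + j)| ≤ |x (w + (j + 1))| := by
        rw [h1, ← abs_mul]
        exact abs_sub_abs_le_abs_sub _ _
      have h4 := mul_le_mul_of_nonneg_right (hb.trans h2) (abs_nonneg (x (w + j)))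
      have h5 := abs_nonneg (x (w + j))
      rw [e3]
      constructor
      · linarith
      · linarith
  have h1 := (hgrow M le_rfl).1
  have h2 := (le_max_right |x (w + M - 1)| |x (w + M)|).trans S.fin
  have h3 := S.lo
  rw [max_eq_right hcon.le] at h3
  have h4 : Real.exp (-ρ - 80 * Real.log k) < Real.exp (-ρ - 3 * Real.log k) :=
    Real.exp_lt_exp.mpr (by linarith)
  linarith

theorem X_upper (hN : NumK k L) (hρ : 0 ≤ ρ) (S : Side k L ρ (zt k c t0) x w M) :
    Qr k c t0 w ≤ 2 * k ^ 3 * Real.exp ρ := by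
  have hk := hN.k100
  have hk0 : 0 < k := by linarith
  have hw := S.hw
  have h1 := wr_x S (w - 1)
  have e : w - 1 + 1 = w := by omega
  rw [e] at h1
  have h2 := foot_ratio hN hρ S
  have h3 := x_dec hk S
  have h4 := S.lo
  rw [max_eq_left h3] at h4
  have h5 : Qr k c t0 w * |x (w - 1)| ≤ 1 + Qr k c t0 (w - 1) * |x w| := by
    have h6 := abs_sub_abs_le_abs_sub ((wf k c t0 w).1 * x (w - 1)) ((wf k c t0 (w - 1)).1 * x w)
    rw [abs_sub_comm, h1, abs_mul, abs_mul] at h6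
    have e1 : Qr k c t0 w = |(wf k c t0 w).1| := rfl
    have e2 : Qr k c t0 (w - 1) = |(wf k c t0 (w - 1)).1| := rfl
    rw [e1, e2]
    linarith
  have h7 : Qr k c t0 (w - 1) * |x w| ≤ 1 / 2 * Qr k c t0 w * |x (w - 1)| :=
    mul_le_mul (by linarith) h3 (abs_nonneg _) (by linarith [Qr_nonneg k c t0 w])
  have h8 : Qr k c t0 w * Real.exp (-ρ - 3 * Real.log k) ≤ 2 := by
    have := mul_le_mul_of_nonneg_left h4 (Qr_nonneg k c t0 w)
    linarith
  have h9 : Real.exp (-ρ - 3 * Real.log k) * (k ^ 3 * Real.exp ρ) = 1 := by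
    have e3 : k ^ 3 = Real.exp (3 * Real.log k) := by
      rw [show (3 : ℝ) * Real.log k = ((3 : ℕ) : ℝ) * Real.log k by norm_num, Real.exp_nat_mul,
        Real.exp_log hk0]
    rw [e3, ← Real.exp_add, ← Real.exp_add]
    rw [show -ρ - 3 * Real.log k + (3 * Real.log k + ρ) = 0 by ring, Real.exp_zero]
  calc Qr k c t0 w = Qr k c t0 w * (Real.exp (-ρ - 3 * Real.log k) * (k ^ 3 * Real.exp ρ)) := by
        rw [h9, mul_one]
    _ = (Qr k c t0 w * Real.exp (-ρ - 3 * Real.log k)) * (k ^ 3 * Real.exp ρ) := by ring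
    _ ≤ 2 * (k ^ 3 * Real.exp ρ) := by gcongr
    _ = _ := by ring

theorem X_lower (hN : NumK k L) (hρ : 0 ≤ ρ) (S : Side k L ρ (zt k c t0) x w M) :
    Real.exp ρ ≤ 3 / 2 * Qr k c t0 w := by
  have hk := hN.k100
  have hw := S.hw
  have h1 := wr_x S (w - 1)
  have e : w - 1 + 1 = w := by omega
  rw [e] at h1
  have h2 := foot_ratio hN hρ S
  have h3 := x_dec hk S
  have h4 := S.hi
  rw [max_eq_left h3] at h4
  have h5 : 1 ≤ Qr k c t0 (w - 1) * |x w| + Qr k c t0 w * |x (w - 1)| := by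
    rw [← h1]
    refine (abs_sub _ _).trans ?_
    rw [abs_mul, abs_mul]
    rfl
  have h7 : Qr k c t0 (w - 1) * |x w| ≤ 1 / 2 * Qr k c t0 w * |x (w - 1)| :=
    mul_le_mul (by linarith) h3 (abs_nonneg _) (by linarith [Qr_nonneg k c t0 w])
  have h8 : 1 ≤ 3 / 2 * Qr k c t0 w * Real.exp (-ρ) := by
    have := mul_le_mul_of_nonneg_left h4 (Qr_nonneg k c t0 w)
    linarith
  calc Real.exp ρ = 1 * Real.exp ρ := (one_mul _).symm
    _ ≤ (3 / 2 * Qr k c t0 w * Real.exp (-ρ)) * Real.exp ρ := by gcongr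
    _ = 3 / 2 * Qr k c t0 w * (Real.exp (-ρ) * Real.exp ρ) := by ring
    _ = _ := by rw [← Real.exp_add, neg_add_cancel, Real.exp_zero, mul_one]

/-- size of the slope at the end of the run -/
theorem run_big (hN : NumK k L) (hρ : 0 ≤ ρ) (S : Side k L ρ (zt k c t0) x w M) :
    k ^ 80 * Real.exp ρ ≤ 2 * Qr k c t0 (w + M) := by
  have hk := hN.k100
  have hk0 : 0 < k := by linarith
  have hw := S.hw
  have hb := ValD.three hk
  have h2 := foot_ratio hN hρ S
  have hgrow : ∀ j, j ≤ M → 2 * Qr k c t0 (w - 1 + j) ≤ Qr k c t0 (w + j) := by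
    intro j
    induction j with
    | zero => intro _; simpa using h2
    | succ j ih =>
      intro hj
      have i2 := ih (by omega)
      have h1 := Qr_dn k c t0 (w - 1 + j)
      have h3 := run_dig S (j := j) (by omega)
      have e1 : w - 1 + j + 2 = w + (j + 1) := by omega
      have e2 : w - 1 + j + 1 = w + j := by omega
      have e3 : w - 1 + (j + 1) = w + j := by omega
      rw [e1, e2] at h1
      rw [e3]
      have h4 := mul_le_mul_of_nonneg_right (hb.trans h3) (Qr_nonneg k c t0 (w + j))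
      have h5 := Qr_nonneg k c t0 (w + j)
      linarith
  have h3 := hgrow M le_rfl
  have h4 := wr_x S (w - 1 + M)
  have e : w - 1 + M + 1 = w + M := by omega
  rw [e] at h4
  have hfin := S.fin
  have e5 : w + M - 1 = w - 1 + M := by omega
  rw [e5] at hfin
  have h5 : 1 ≤ Qr k c t0 (w - 1 + M) * |x (w + M)| + Qr k c t0 (w + M) * |x (w - 1 + M)| := by
    rw [← h4]
    refine (abs_sub _ _).trans ?_
    rw [abs_mul, abs_mul]
    rfl
  have h6 := (le_max_left |x (w - 1 + M)| |x (w + M)|).trans hfin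
  have h7 := (le_max_right |x (w - 1 + M)| |x (w + M)|).trans hfin
  set E := Real.exp (-ρ - 80 * Real.log k) with hE
  have hQ := Qr_nonneg k c t0 (w + M)
  have hQ' := Qr_nonneg k c t0 (w - 1 + M)
  have h8 : Qr k c t0 (w - 1 + M) * |x (w + M)| ≤ Qr k c t0 (w + M) * E :=
    mul_le_mul (by linarith) h7 (abs_nonneg _) hQ
  have h9 : Qr k c t0 (w + M) * |x (w - 1 + M)| ≤ Qr k c t0 (w + M) * E :=
    mul_le_mul_of_nonneg_left h6 hQ
  have h10 : E * (k ^ 80 * Real.exp ρ) = 1 := by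
    have e3 : k ^ 80 = Real.exp (80 * Real.log k) := by
      rw [show (80 : ℝ) * Real.log k = ((80 : ℕ) : ℝ) * Real.log k by norm_num, Real.exp_nat_mul,
        Real.exp_log hk0]
    rw [hE, e3, ← Real.exp_add, ← Real.exp_add]
    rw [show -ρ - 80 * Real.log k + (80 * Real.log k + ρ) = 0 by ring, Real.exp_zero]
  have h11 : 1 ≤ 2 * Qr k c t0 (w + M) * E := by linarith
  have hp : 0 ≤ k ^ 80 * Real.exp ρ := by positivity
  calc k ^ 80 * Real.exp ρ = 1 * (k ^ 80 * Real.exp ρ) := (one_mul _).symm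
    _ ≤ (2 * Qr k c t0 (w + M) * E) * (k ^ 80 * Real.exp ρ) := mul_le_mul_of_nonneg_right h11 hp
    _ = 2 * Qr k c t0 (w + M) * (E * (k ^ 80 * Real.exp ρ)) := by ring
    _ = _ := by rw [h10, mul_one]

end sizes

end Crest.Agent.R128.SideStart376
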