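import Mathlib
import Crest.Agent.R128.SideStart376
import Crest.Agent.R128.ContCplx

/-!
# Row 128, node V5-LOC: `Good.VF` gives 595's base data of both sides and the old content (helper376)
-/

set_option autoImplicit false

open Finset Metric

namespace Crest.Agent.R128.BaseG376

open Crest.Agent.R128 Crest.Agent.R128.Cell Crest.Agent.R128.CellB Crest.Agent.R128.CellDy
open Crest.Agent.R128.TreeSum Crest.Agent.R128.Acc Crest.Agent.R128.AlignMn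
open Crest.Agent.R128.DictY Crest.Agent.R128.Lam0 Crest.Agent.R128.Good
open Crest.Agent.R128.CleanNum Crest.Agent.R128.CleanDisc Crest.Agent.R128.CleanCont
open Crest.Agent.R128.SideStart376 Crest.Agent.R128.ContCplx
open Crest.Agent.R128.ContClean (aC)

section one

variable {k ρ c t0 : ℝ} {L w M n : ℕ} {x : ℕ → ℝ}

theorem nn_e1 : nn ((1 : ℝ), (0 : ℝ)) = 1 := by unfold nn; simp

theorem Qr_pos (hN : NumK k L) (hρ : 0 ≤ ρ) (S : Side k L ρ (zt k c t0) x w M) :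
    0 < Qr k c t0 w := by
  have hw := S.hw
  rw [← XX_eq k c t0 (by omega : 0 < w)]
  exact (clean_side hN.k100 hN.hL hρ S).Xpos

theorem disc (hN : NumK k L) (hρ : 0 ≤ ρ) (S : Side k L ρ (zt k c t0) x w M) {u : ℂ}
    (hu : ‖u - t0‖ ≤ 2 / (k ^ 12 * Qr k c t0 w)) :
    ‖yd k c w u - yd k c w (t0 : ℂ)‖ ≤ 1 / 2500 * Qr k c t0 w ∧
      ‖yd k c (w - 1) u‖ ≤ 99 / 100 * Qr k c t0 w := by
  have hw := S.hw
  have hw0 : 0 < w := by omega
  have hC := clean_side hN.k100 hN.hL hρ S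
  have hX := XX_eq k c t0 hw0
  have hXpos := Qr_pos hN hρ S
  have hk := hN.k100
  have hk0 : 0 < k := by linarith
  have hr := hN.rho0_ge hC
  have hr0 := rho0_pos hC hN.k1
  have hzl : nn (zf k c t0 w (w - 1)) = 1 := by rw [zf_last k c t0 hw0, nn_e1]
  have hk2 : (100 : ℝ) ^ 2 ≤ k ^ 2 := pow_le_pow_left₀ (by norm_num) hk 2
  have hu2 : ‖u - t0‖ * Qr k c t0 w / rho0 k (8 * k) (L + 1) 4 ≤ 2 / k ^ 2 := by
    rw [div_le_iff₀ hr0]
    calc ‖u - t0‖ * Qr k c t0 w ≤ 2 / (k ^ 12 * Qr k c t0 w) * Qr k c t0 w := by gcongr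
      _ = 2 / k ^ 2 * (1 / k ^ 10) := by field_simp
      _ ≤ _ := by gcongr
  have hu' : ‖u - t0‖ ≤ rho0 k (8 * k) (L + 1) 4 / XX (wf k c t0) (zf k c t0 w) *
      nn (zf k c t0 w (w - 1)) ^ (1 - 15 * (1 / 60) : ℝ) := by
    rw [hzl, Real.one_rpow, mul_one, hX, le_div_iff₀ hXpos]
    rw [div_le_iff₀ hr0] at hu2
    refine hu2.trans ?_
    have : 2 / k ^ 2 ≤ 1 := by
      rw [div_le_one (by positivity)]
      linarith
    calc 2 / k ^ 2 * rho0 k (8 * k) (L + 1) 4 ≤ 1 * rho0 k (8 * k) (L + 1) 4 := by gcongr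
      _ = _ := one_mul _
  obtain ⟨-, -, -, -, -, f6, f7, -, -⟩ := fields hC hN.k1 le_rfl hu' (w - 1) le_rfl
  rw [hzl, Real.one_rpow, mul_one, hX] at f6 f7
  have hnn := nn_wf_le k c t0 (w - 1)
  have e : w - 1 + 1 = w := by omega
  rw [e] at hnn f7
  have hfr := foot_ratio hN hρ S
  have hnn0 := nn_nonneg (wf k c t0 (w - 1))
  have hb : 1 / 10 * (‖u - t0‖ * Qr k c t0 w / rho0 k (8 * k) (L + 1) 4) *
      nn (wf k c t0 (w - 1)) ≤ 1 / 2500 * Qr k c t0 w := by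
    calc 1 / 10 * (‖u - t0‖ * Qr k c t0 w / rho0 k (8 * k) (L + 1) 4) * nn (wf k c t0 (w - 1))
        ≤ 1 / 10 * (2 / k ^ 2) * (3 / 2 * Qr k c t0 w) := by
          gcongr
          linarith
      _ = (3 / 10) / k ^ 2 * Qr k c t0 w := by ring
      _ ≤ 1 / 2500 * Qr k c t0 w := by
          apply mul_le_mul_of_nonneg_right _ hXpos.le
          rw [div_le_div_iff₀ (by positivity) (by norm_num)]
          linarith
  have e2 : (((wf k c t0 (w - 1)).2 : ℝ) : ℂ) = yd k c w (t0 : ℂ) := by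
    rw [wf_snd, e]
  have e1 : (((wf k c t0 (w - 1)).1 : ℝ) : ℂ) = yd k c (w - 1) (t0 : ℂ) := wf_fst _ _ _ _
  rw [e1] at f6
  rw [e2] at f7
  refine ⟨f7.trans hb, ?_⟩
  have h1 : ‖yd k c (w - 1) u‖ ≤ ‖yd k c (w - 1) u - yd k c (w - 1) (t0 : ℂ)‖ +
      ‖yd k c (w - 1) (t0 : ℂ)‖ := by
    calc _ = ‖(yd k c (w - 1) u - yd k c (w - 1) (t0 : ℂ)) + yd k c (w - 1) (t0 : ℂ)‖ := by
          rw [sub_add_cancel]
      _ ≤ _ := norm_add_le _ _
  have h2 := f6.trans hb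
  rw [norm_yd] at h1
  linarith

theorem exp_bounds (hk0 : 0 < k) (h1 : n * Real.log 2 ≤ ρ)
    (h2 : ρ ≤ n * Real.log 2 + 2 * Real.log k) :
    (2 : ℝ) ^ n ≤ Real.exp ρ ∧ Real.exp ρ ≤ 2 ^ n * k ^ 2 ∧ 0 ≤ ρ := by
  have e1 : (2 : ℝ) ^ n = Real.exp (n * Real.log 2) := by
    rw [Real.exp_nat_mul, Real.exp_log (by norm_num)]
  have e2 : k ^ 2 = Real.exp (2 * Real.log k) := by
    rw [show (2 : ℝ) * Real.log k = ((2 : ℕ) : ℝ) * Real.log k by norm_num, Real.exp_nat_mul,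
      Real.exp_log hk0]
  refine ⟨?_, ?_, ?_⟩
  · rw [e1]; exact Real.exp_le_exp.mpr h1
  · rw [e1, e2, ← Real.exp_add]; exact Real.exp_le_exp.mpr h2
  · have : 0 ≤ Real.log 2 := Real.log_nonneg (by norm_num)
    have : 0 ≤ (n : ℝ) * Real.log 2 := by positivity
    linarith

theorem content (hN : NumK k L) (h1 : n * Real.log 2 ≤ ρ)
    (h2 : ρ ≤ n * Real.log 2 + 2 * Real.log k) (S : Side k L ρ (zt k c t0) x w M) :
    ∃ q0 q1 q2 : ℝ, ∀ u ∈ closedBall (t0 : ℂ) (2 / (k ^ 60 * 2 ^ n)),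
      ‖Align.mu (aC k c u) w - (q0 + q1 * (u - t0) + q2 * (u - t0) ^ 2)‖ ≤
        1 / (2 * k ^ 138 * (2 ^ n) ^ 2) := by
  have hw := S.hw
  have hw0 : 0 < w := by omega
  have hk := hN.k100
  have hk0 : 0 < k := by linarith
  obtain ⟨p1, p2, hρ⟩ := exp_bounds hk0 h1 h2
  have hC := clean_side hN.k100 hN.hL hρ S
  have hX := XX_eq k c t0 hw0
  have hXpos := Qr_pos hN hρ S
  have hr := hN.rho0_ge hC
  have hr0 := rho0_pos hC hN.k1
  have hzl : nn (zf k c t0 w (w - 1)) = 1 := by rw [zf_last k c t0 hw0, nn_e1]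
  have hfr := foot_ratio hN hρ S
  have e : w - 1 + 1 = w := by omega
  set P : ℝ := 2 ^ n with hP
  have hP0 : 0 < P := by positivity
  have hXu : Qr k c t0 w ≤ 2 * k ^ 5 * P := by
    have h3 := X_upper hN hρ S
    calc Qr k c t0 w ≤ 2 * k ^ 3 * Real.exp ρ := h3
      _ ≤ 2 * k ^ 3 * (P * k ^ 2) := by gcongr
      _ = _ := by ring
  set R0 := rho0 k (8 * k) (L + 1) 4 with hR0
  have hq : 1 / 2 * nn (wf k c t0 (w - 1)) ≤ |(wf k c t0 (w - 1)).2| := by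
    have h3 := nn_wf_le k c t0 (w - 1)
    rw [abs_wf_snd]
    rw [e] at h3 ⊢
    linarith
  have hrr : 2 * (2 / (k ^ 60 * P)) ≤ R0 / XX (wf k c t0) (zf k c t0 w) := by
    rw [hX, le_div_iff₀ hXpos]
    calc 2 * (2 / (k ^ 60 * P)) * Qr k c t0 w ≤ 2 * (2 / (k ^ 60 * P)) * (2 * k ^ 5 * P) := by
          gcongr
      _ = 8 / k ^ 45 * (1 / k ^ 10) := by field_simp; ring
      _ ≤ 1 * (1 / k ^ 10) := by
          apply mul_le_mul_of_nonneg_right _ (by positivity)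
          rw [div_le_one (by positivity)]
          calc (8 : ℝ) ≤ 100 ^ 45 := by norm_num
            _ ≤ k ^ 45 := pow_le_pow_left₀ (by norm_num) hk _
      _ = 1 / k ^ 10 := one_mul _
      _ ≤ R0 := hr
  obtain ⟨q0, q1, q2, hqq⟩ := content_quad hC hN.k1 (e := w - 1) le_rfl hq
    (r := 2 / (k ^ 60 * P)) (by positivity) hrr t0
  refine ⟨q0, q1, q2, fun u hu => ?_⟩
  have h3 := hqq u hu
  rw [e, hzl, Real.one_rpow, mul_one, hX] at h3
  refine h3.trans ?_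
  -- the numbers
  have hCV := LocA.CV_le hN.k1
  have hL0 : (1 : ℝ) ≤ (L : ℝ) + 1 := by
    have : (0 : ℝ) ≤ L := Nat.cast_nonneg _
    linarith
  have hL5 : 10 ^ 14 * ((L : ℝ) + 1) ≤ k := by
    refine le_trans ?_ hN.hLk
    have : ((L : ℝ) + 1) ^ 1 ≤ ((L : ℝ) + 1) ^ 5 := pow_le_pow_right₀ hL0 (by norm_num)
    rw [pow_one] at this
    linarith
  have hpref : 4 * (CV k + 2) * (8 * k) ^ 3 * (L + 1) + 8 ≤ k ^ 5 := by
    have hk3 : 0 < k ^ 3 := by positivity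
    have h5 : 4 * (CV k + 2) * (8 * k) ^ 3 * (L + 1) ≤ 4 * (8001 * k) * (8 * k) ^ 3 * (L + 1) := by
      gcongr
      linarith
    have h6 : 4 * (8001 * k) * (8 * k) ^ 3 * ((L : ℝ) + 1) = 16386048 * k ^ 4 * ((L : ℝ) + 1) := by
      ring
    have h7 : k ^ 4 * (10 ^ 14 * ((L : ℝ) + 1)) ≤ k ^ 4 * k :=
      mul_le_mul_of_nonneg_left hL5 (by positivity)
    have h8 : k ^ 4 * k = k ^ 5 := by ring
    have h9 : (8 : ℝ) ≤ k ^ 4 * ((L : ℝ) + 1) := by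
      have h10 : (1 : ℝ) ≤ k ^ 3 := one_le_pow₀ hN.k1
      have h11 : (100 : ℝ) ≤ k ^ 4 := by
        calc (100 : ℝ) ≤ k := hk
          _ = k ^ 1 := (pow_one k).symm
          _ ≤ k ^ 4 := pow_le_pow_right₀ hN.k1 (by norm_num)
      nlinarith
    nlinarith
  have hXr : (2 / (k ^ 60 * P) * Qr k c t0 w / R0) ^ 3 / Qr k c t0 w ^ 2 ≤
      16 / (k ^ 145 * P ^ 2) := by
    have h5 : (2 / (k ^ 60 * P) * Qr k c t0 w / R0) ^ 3 / Qr k c t0 w ^ 2 =
        (2 / (k ^ 60 * P)) ^ 3 * Qr k c t0 w * (1 / R0) ^ 3 := by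
      field_simp
    rw [h5]
    have h6 : 1 / R0 ≤ k ^ 10 := by
      rw [div_le_iff₀ hr0]
      have := mul_le_mul_of_nonneg_left hr (by positivity : (0:ℝ) ≤ k ^ 10)
      rw [mul_one_div, div_self (by positivity)] at this
      exact this
    calc (2 / (k ^ 60 * P)) ^ 3 * Qr k c t0 w * (1 / R0) ^ 3
        ≤ (2 / (k ^ 60 * P)) ^ 3 * (2 * k ^ 5 * P) * (k ^ 10) ^ 3 := by gcongr
      _ = 16 / (k ^ 145 * P ^ 2) := by
          field_simp
          ring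
  calc (4 * (CV k + 2) * (8 * k) ^ 3 * (L + 1) + 8) *
        (2 / (k ^ 60 * P) * Qr k c t0 w / R0) ^ 3 / Qr k c t0 w ^ 2
      = (4 * (CV k + 2) * (8 * k) ^ 3 * (L + 1) + 8) *
        ((2 / (k ^ 60 * P) * Qr k c t0 w / R0) ^ 3 / Qr k c t0 w ^ 2) := by ring
    _ ≤ k ^ 5 * (16 / (k ^ 145 * P ^ 2)) := by
        apply mul_le_mul hpref hXr _ (by positivity)
        positivity
    _ = 32 / k ^ 2 * (1 / (2 * k ^ 138 * P ^ 2)) := by
        field_simp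
        ring
    _ ≤ 1 * (1 / (2 * k ^ 138 * P ^ 2)) := by
        apply mul_le_mul_of_nonneg_right _ (by positivity)
        rw [div_le_one (by positivity)]
        nlinarith
    _ = _ := one_mul _

end one

end Crest.Agent.R128.BaseG376
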