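import Mathlib
import Crest.Agent.R128.CleanStart

/-!
Row 128, node V5 (helper816): the content cut at the feet, with numbers.
-/

set_option autoImplicit false

open Finset Metric Topology

namespace Crest.Agent.R128.StartNum

open Crest.Agent.R128 Crest.Agent.R128.Cell Crest.Agent.R128.CellB Crest.Agent.R128.CellDy
open Crest.Agent.R128.TreeSum Crest.Agent.R128.Disp Crest.Agent.R128.CleanNum
open Crest.Agent.R128.CleanDisc Crest.Agent.R128.CleanCont Crest.Agent.R128.CleanStart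

theorem exp_two_pi_le : Real.exp (2 * Real.pi) ≤ 1097 := by
  have h1 : 2 * Real.pi ≤ 7 := by have := Real.pi_lt_d2; linarith
  have h2 : Real.exp (2 * Real.pi) ≤ Real.exp 7 := Real.exp_le_exp.mpr h1
  have h3 : Real.exp 7 = Real.exp 1 ^ 7 := by rw [← Real.exp_nat_mul]; norm_num
  have h4 : Real.exp 1 ≤ 2.7183 := by have := Real.exp_one_lt_d9; linarith
  have h5 : Real.exp 1 ^ 7 ≤ 2.7183 ^ 7 := pow_le_pow_left₀ (Real.exp_pos 1).le h4 7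
  rw [h3] at h2
  norm_num at h5
  linarith

theorem CL_le {k : ℝ} (hk : 1 ≤ k) : CL k ≤ 2 ^ 16 * k := by
  unfold CL
  rw [abs_of_nonneg (by linarith)]
  have h1 := exp_two_pi_le
  have h2 := Real.pi_lt_d2
  have h3 : Real.pi ^ 2 ≤ 10 := by nlinarith [Real.pi_pos]
  have h4 := Real.exp_pos (2 * Real.pi)
  calc 4 * Real.pi ^ 2 * k * Real.exp (2 * Real.pi) ≤ 4 * 10 * k * 1097 := by gcongr
    _ ≤ 2 ^ 16 * k := by nlinarith

theorem CV_le {k : ℝ} (hk : 1 ≤ k) : CV k + 2 ≤ 2 ^ 13 * k := by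
  unfold CV
  rw [abs_of_nonneg (by linarith)]
  have h1 := exp_two_pi_le
  have h2 := Real.pi_lt_d2
  have h4 := Real.exp_pos (2 * Real.pi)
  have h5 : 2 * Real.pi * k * Real.exp (2 * Real.pi) ≤ 2 * 3.15 * k * 1097 := by
    have := Real.pi_pos
    gcongr
  nlinarith

theorem C1_le {k : ℝ} (hk : 4 ≤ k) : C1 (8 * k) 3 4 ≤ 2 ^ 8 * k ^ 2 := by
  unfold C1
  nlinarith

theorem C2_le {k : ℝ} (hk : 4 ≤ k) : C2 (8 * k) 3 4 ≤ 2 ^ 31 * k ^ 7 := by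
  have h1 := C1_le hk
  have h0 : 0 ≤ C1 (8 * k) 3 4 := by unfold C1; positivity
  unfold C2
  calc C1 (8 * k) 3 4 ^ 3 * 3 ^ 2 * (8 * k) ≤ (2 ^ 8 * k ^ 2) ^ 3 * 3 ^ 2 * (8 * k) := by gcongr
    _ = 2 ^ 24 * 72 * k ^ 7 := by ring
    _ ≤ 2 ^ 31 * k ^ 7 := by
        have : 0 ≤ k ^ 7 := by positivity
        nlinarith

theorem rho0_ge {k : ℝ} (hk : 4 ≤ k) : 1 / (2 ^ 58 * k ^ 9) ≤ rho0 k (8 * k) 3 4 := by
  have h1 := CL_le (k := k) (by linarith)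
  have h2 := C2_le hk
  have h0 := CL_ge (k := k) (by linarith)
  have h3 : 0 < C2 (8 * k) 3 4 := by
    have : 0 < C1 (8 * k) 3 4 := by unfold C1; positivity
    unfold C2; positivity
  unfold rho0
  apply one_div_le_one_div_of_le (by positivity)
  calc 80 * CL k * (8 * k + 1) * C2 (8 * k) 3 4
      ≤ 80 * (2 ^ 16 * k) * (16 * k) * (2 ^ 31 * k ^ 7) := by
        have : 8 * k + 1 ≤ 16 * k := by linarith
        gcongr
    _ = 80 * 16 * 2 ^ 47 * k ^ 9 := by ring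
    _ ≤ 2 ^ 58 * k ^ 9 := by
        have : 0 ≤ k ^ 9 := by positivity
        nlinarith

theorem rho0_pos' {k : ℝ} (hk : 4 ≤ k) : 0 < rho0 k (8 * k) 3 4 :=
  lt_of_lt_of_le (by positivity) (rho0_ge hk)

/-- the error of one side at the foot -/
theorem err_le {k r X δ : ℝ} (hk : 2 ^ 200 ≤ k) (hr : 0 ≤ r) (hX : 0 < X) :
    err k (8 * k) 3 4 δ r X 1 ≤ k ^ 32 * r ^ 3 * X := by
  have hk4 : (4:ℝ) ≤ k := le_trans (by norm_num) hk
  have hk0 : (0:ℝ) < k := by linarith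
  have hCV := CV_le (k := k) (by linarith)
  have hρ := rho0_ge hk4
  have hρ0 := rho0_pos' hk4
  have hCV0 := CV_ge k
  unfold err
  rw [Real.one_rpow, mul_one]
  have h1 : 4 * (CV k + 2) * (8 * k) ^ 3 * 3 + 8 ≤ 2 ^ 26 * k ^ 4 := by
    calc 4 * (CV k + 2) * (8 * k) ^ 3 * 3 + 8 ≤ 4 * (2 ^ 13 * k) * (8 * k) ^ 3 * 3 + 8 := by gcongr
      _ = 50331648 * k ^ 4 + 8 := by ring
      _ ≤ 2 ^ 26 * k ^ 4 := by
          have : 1 ≤ k ^ 4 := one_le_pow₀ (by linarith)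
          nlinarith
  have h2 : (r * X / rho0 k (8 * k) 3 4) ≤ r * X * (2 ^ 58 * k ^ 9) := by
    rw [div_le_iff₀ hρ0]
    have h3 : 1 ≤ 2 ^ 58 * k ^ 9 * rho0 k (8 * k) 3 4 := by
      rw [div_le_iff₀ (by positivity)] at hρ
      linarith
    have h4 : 0 ≤ r * X := by positivity
    nlinarith
  have h0 : 0 ≤ r * X / rho0 k (8 * k) 3 4 := by positivity
  calc (4 * (CV k + 2) * (8 * k) ^ 3 * 3 + 8) * (r * X / rho0 k (8 * k) 3 4) ^ 3 / X ^ 2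
      ≤ (2 ^ 26 * k ^ 4) * (r * X * (2 ^ 58 * k ^ 9)) ^ 3 / X ^ 2 := by gcongr
    _ = 2 ^ 200 * (k ^ 31 * r ^ 3 * X) := by field_simp
    _ ≤ k * (k ^ 31 * r ^ 3 * X) := by gcongr
    _ = k ^ 32 * r ^ 3 * X := by ring

/-- **The content cut at the feet** `w`, `w'` of two clean sides. -/
theorem content_foot {k c t0 : ℝ} (hk : 2 ^ 200 ≤ k) {w w' : ℕ} {E E' : ℕ → ℝ × ℝ} {δ : ℝ}
    (hw : 1 ≤ w) (hw' : 1 ≤ w')
    (h : Clean (ra k c t0) (wf k c t0) E (w - 1) δ 3 (8 * k) 4)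
    (h' : Clean (ra k c (kap k c - t0)) (wf k c (kap k c - t0)) E' (w' - 1) δ 3 (8 * k) 4)
    (hE : nn (E (w - 1)) = 1) (hE' : nn (E' (w' - 1)) = 1)
    (hc : 2 * |(wf k c t0 (w - 1)).1| ≤ |(wf k c t0 (w - 1)).2|)
    (hc' : 2 * |(wf k c (kap k c - t0) (w' - 1)).1| ≤ |(wf k c (kap k c - t0) (w' - 1)).2|)
    {r : ℝ} (hr : 0 ≤ r) (hr1 : 2 ^ 59 * k ^ 9 * r * XX (wf k c t0) E ≤ 1)
    (hr2 : 2 ^ 59 * k ^ 9 * r * XX (wf k c (kap k c - t0)) E' ≤ 1) (mc : ℝ) :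
    ∃ q0 q1 q2 : ℝ, ∀ u ∈ closedBall (t0 : ℂ) r,
      ‖Loc.cont k c true w w' u - (q0 + q1 * (u - mc) + q2 * (u - mc) ^ 2)‖ ≤
        k ^ 32 * r ^ 3 * (XX (wf k c t0) E + XX (wf k c (kap k c - t0)) E') := by
  have hk4 : (4:ℝ) ≤ k := le_trans (by norm_num) hk
  have hρ := rho0_ge hk4
  have hX : 0 < XX (wf k c t0) E := h.Xpos
  have hX' : 0 < XX (wf k c (kap k c - t0)) E' := h'.Xpos
  have key : ∀ X : ℝ, 0 < X → 2 ^ 59 * k ^ 9 * r * X ≤ 1 → 2 * r ≤ rho0 k (8 * k) 3 4 / X := by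
    intro X hX hb
    rw [le_div_iff₀ hX]
    refine le_trans ?_ hρ
    rw [le_div_iff₀ (by positivity)]
    calc 2 * r * X * (2 ^ 58 * k ^ 9) = 2 ^ 59 * k ^ 9 * r * X := by ring
      _ ≤ 1 := hb
  obtain ⟨q0, q1, q2, hq⟩ := cont_quad h h' (by linarith) (le_refl (w - 1)) (le_refl (w' - 1))
    (nn_le_of_cone hc) (nn_le_of_cone hc') hr (key _ hX hr1) (key _ hX' hr2) mc
  refine ⟨q0, q1, q2, fun u hu => ?_⟩
  have h1 := hq u hu
  rw [Nat.sub_add_cancel hw, Nat.sub_add_cancel hw', hE, hE'] at h1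
  refine h1.trans ?_
  have e1 := err_le (δ := δ) hk hr hX
  have e2 := err_le (δ := δ) hk hr hX'
  calc _ ≤ k ^ 32 * r ^ 3 * XX (wf k c t0) E +
        k ^ 32 * r ^ 3 * XX (wf k c (kap k c - t0)) E' := add_le_add e1 e2
    _ = _ := by ring

end Crest.Agent.R128.StartNum
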