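import Mathlib
import Crest.Agent.R128.StartNum

/-!
Row 128, node V5 / LocA (helper816): the fields of 595's `LocA.Base` from one clean side, with
numbers (start index at the foot, `n0 + 1 = w`).
-/

set_option autoImplicit false

open Finset Metric Topology

namespace Crest.Agent.R128.BaseNum

open Crest.Agent.R128 Crest.Agent.R128.Cell Crest.Agent.R128.CellB Crest.Agent.R128.CellDy
open Crest.Agent.R128.TreeSum Crest.Agent.R128.Disp Crest.Agent.R128.CleanNum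
open Crest.Agent.R128.CleanDisc Crest.Agent.R128.CleanCont Crest.Agent.R128.CleanStart
open Crest.Agent.R128.StartNum

/-- `Clean` is monotone in `K` and `c0` -/
theorem clean_mono {a : ℕ → ℝ} {w z : ℕ → ℝ × ℝ} {n : ℕ} {δ K K' A c0 c0' : ℝ}
    (h : Clean a w z n δ K A c0) (hK : K ≤ K') (hc : c0 ≤ c0') : Clean a w z n δ K' A c0' :=
  { hw := h.hw, hz := h.hz, w0 := h.w0, A1 := h.A1, hA := h.hA, δ0 := h.δ0, δ1 := h.δ1
    K1 := h.K1.trans hK, c1 := h.c1.trans hc, one := h.one, val := h.val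
    dur := h.dur.trans hK
    tr := h.tr.trans (mul_le_mul_of_nonneg_right hc (abs_nonneg _)) }

theorem sdC_real (k c : ℝ) (s : Bool) (t : ℝ) : Loc.sdC k c s (t : ℂ) = ((sd k c s t : ℝ) : ℂ) := by
  unfold Loc.sdC sd
  cases s <;> simp

theorem norm_sdC_sub (k c : ℝ) (s : Bool) (t : ℂ) (t0 : ℝ) :
    ‖Loc.sdC k c s t - ((sd k c s t0 : ℝ) : ℂ)‖ = ‖t - t0‖ := by
  unfold Loc.sdC sd
  cases s
  · simp only [Bool.false_eq_true, if_false]
    rw [show (kap k c : ℂ) - t - ((kap k c - t0 : ℝ) : ℂ) = -(t - t0) by push_cast; ring, norm_neg]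
  · simp

theorem norm_D_real (k c : ℝ) (s : Bool) (w : ℕ) (hw : 1 ≤ w) (t0 : ℝ) :
    ‖Loc.D k c s w (t0 : ℂ)‖ = |(wf k c (sd k c s t0) (w - 1)).2| := by
  unfold Loc.D
  rw [sdC_real]
  have h := wf_snd k c (sd k c s t0) (w - 1)
  rw [Nat.sub_add_cancel hw] at h
  rw [← h, Complex.norm_real, Real.norm_eq_abs]

/-- **The fields of `LocA.Base` at the foot.**  `n0 + 1 = w`. -/
theorem base_num {k c t0 : ℝ} (s : Bool) (hk : 2 ^ 200 ≤ k) {w : ℕ} (hw : 1 ≤ w)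
    {E : ℕ → ℝ × ℝ} {δ : ℝ}
    (h : Clean (ra k c (sd k c s t0)) (wf k c (sd k c s t0)) E (w - 1) δ 3 (8 * k) 4)
    (hX : XX (wf k c (sd k c s t0)) E = |(wf k c (sd k c s t0) (w - 1)).2|)
    (hc : 2 * |(wf k c (sd k c s t0) (w - 1)).1| ≤ |(wf k c (sd k c s t0) (w - 1)).2|)
    {r : ℝ} (_hr : 0 < r) (hXr : ‖Loc.D k c s w (t0 : ℂ)‖ * r ≤ 1 / k ^ 50) :
    ∃ r0 : ℝ, 0 < r0 ∧
      (∀ t ∈ ball (t0 : ℂ) (2 * r0), ‖Loc.D k c s w t - Loc.D k c s w t0‖ ≤
        1 / 2500 * ‖Loc.D k c s w t0‖) ∧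
      (∀ t ∈ ball (t0 : ℂ) (2 * r0), ‖Loc.D k c s (w - 1) t‖ ≤ 99 / 100 * ‖Loc.D k c s w t0‖) ∧
      Loc.D k c s w t0 ≠ 0 ∧
      10 ^ 11 * k * (‖Loc.D k c s w t0‖ * r0) ≤ k ^ ((3 : ℝ) / 5) ∧
      10 ^ 11 * k * (‖Loc.D k c s w t0‖ * r) ≤ (‖Loc.D k c s w t0‖ * r0) ^ 3 := by
  have hk4 : (4:ℝ) ≤ k := le_trans (by norm_num) hk
  have hk0 : (0:ℝ) < k := by linarith
  have hk1 : (1:ℝ) ≤ k := by linarith
  have hρ := rho0_ge hk4
  have hρ0 := rho0_pos' hk4
  have hXpos : 0 < XX (wf k c (sd k c s t0)) E := h.Xpos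
  have hD := norm_D_real k c s w hw t0
  set X := XX (wf k c (sd k c s t0)) E with hXdef
  have hDX : ‖Loc.D k c s w (t0 : ℂ)‖ = X := by rw [hD, hX]
  set ρ := rho0 k (8 * k) 3 4 with hρdef
  refine ⟨ρ / (10000 * X), by positivity, ?_, ?_, ?_, ?_, ?_⟩
  · intro t ht
    rw [mem_ball, dist_eq_norm] at ht
    have hu : ‖Loc.sdC k c s t - ((sd k c s t0 : ℝ) : ℂ)‖ ≤
        ρ / X * nn (E (w - 1)) ^ (1 - 15 * δ) := by
      rw [norm_sdC_sub]
      have h1 : 1 ≤ nn (E (w - 1)) ^ (1 - 15 * δ) :=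
        Real.one_le_rpow (h.one (w - 1) le_rfl) (by have := h.δ1; linarith)
      have h2 : 2 * (ρ / (10000 * X)) ≤ ρ / X := by
        rw [div_eq_mul_inv, div_eq_mul_inv, mul_inv]
        have : 0 < ρ * X⁻¹ := by positivity
        nlinarith
      have h3 : 0 < ρ / X := by positivity
      nlinarith
    obtain ⟨_, _, _, _, _, _, g2, _, _⟩ := fields h hk1 le_rfl hu (w - 1) le_rfl
    rw [Nat.sub_add_cancel hw, norm_sdC_sub] at g2
    have hw2 := wf_snd k c (sd k c s t0) (w - 1)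
    rw [Nat.sub_add_cancel hw] at hw2
    have hnn := nn_le_of_cone hc
    rw [← hX] at hnn
    have hz1 : nn (E (w - 1)) ^ (-(1 - 15 * δ)) ≤ 1 :=
      Real.rpow_le_one_of_one_le_of_nonpos (h.one (w - 1) le_rfl) (by have := h.δ1; linarith)
    have hq : ‖t - t0‖ * X / ρ ≤ 1 / 5000 := by
      rw [div_le_iff₀ hρ0]
      calc ‖t - t0‖ * X ≤ 2 * (ρ / (10000 * X)) * X := by gcongr
        _ = 1 / 5000 * ρ := by field_simp; ring
    have hq0 : 0 ≤ ‖t - t0‖ * X / ρ := by positivity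
    rw [hDX]
    unfold Loc.D
    rw [sdC_real, ← hw2]
    have hnn0 := nn_nonneg (wf k c (sd k c s t0) (w - 1))
    calc ‖yd k c w (Loc.sdC k c s t) - ((wf k c (sd k c s t0) (w - 1)).2 : ℂ)‖
        ≤ 1 / 10 * (‖t - t0‖ * X / ρ) * nn (E (w - 1)) ^ (-(1 - 15 * δ)) *
          nn (wf k c (sd k c s t0) (w - 1)) := g2
      _ ≤ 1 / 10 * (1 / 5000) * 1 * (2 * X) := by
          have : nn (wf k c (sd k c s t0) (w - 1)) ≤ 2 * X := by linarith
          have hp : 0 ≤ nn (E (w - 1)) ^ (-(1 - 15 * δ)) := Real.rpow_nonneg (nn_nonneg _) _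
          gcongr
      _ ≤ 1 / 2500 * X := by linarith
  · intro t ht
    rw [mem_ball, dist_eq_norm] at ht
    have hu : ‖Loc.sdC k c s t - ((sd k c s t0 : ℝ) : ℂ)‖ ≤
        ρ / X * nn (E (w - 1)) ^ (1 - 15 * δ) := by
      rw [norm_sdC_sub]
      have h1 : 1 ≤ nn (E (w - 1)) ^ (1 - 15 * δ) :=
        Real.one_le_rpow (h.one (w - 1) le_rfl) (by have := h.δ1; linarith)
      have h2 : 2 * (ρ / (10000 * X)) ≤ ρ / X := by
        rw [div_eq_mul_inv, div_eq_mul_inv, mul_inv]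
        have : 0 < ρ * X⁻¹ := by positivity
        nlinarith
      have h3 : 0 < ρ / X := by positivity
      nlinarith
    obtain ⟨_, _, _, _, _, _, _, g1, _⟩ := fields h hk1 le_rfl hu (w - 1) le_rfl
    have hnn := nn_le_of_cone hc
    rw [← hX] at hnn hc
    rw [hDX]
    unfold Loc.D
    calc ‖yd k c (w - 1) (Loc.sdC k c s t)‖
        = ‖(yd k c (w - 1) (Loc.sdC k c s t) - ((wf k c (sd k c s t0) (w - 1)).1 : ℂ)) +
          ((wf k c (sd k c s t0) (w - 1)).1 : ℂ)‖ := by ring_nf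
      _ ≤ ‖yd k c (w - 1) (Loc.sdC k c s t) - ((wf k c (sd k c s t0) (w - 1)).1 : ℂ)‖ +
          ‖((wf k c (sd k c s t0) (w - 1)).1 : ℂ)‖ := norm_add_le _ _
      _ ≤ 1 / 10 * nn (wf k c (sd k c s t0) (w - 1)) + |(wf k c (sd k c s t0) (w - 1)).1| := by
          rw [Complex.norm_real, Real.norm_eq_abs]
          linarith
      _ ≤ 99 / 100 * X := by linarith
  · intro h0
    rw [h0, norm_zero] at hDX
    linarith
  · rw [hDX]
    have e1 : X * (ρ / (10000 * X)) = ρ / 10000 := by field_simp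
    rw [e1]
    have hρle : k * ρ ≤ 1 := by
      have hCL := CL_ge hk1
      obtain ⟨_, hC2b⟩ := C2_ge h
      have hkCL : k ≤ CL k := by
        unfold CL
        have h1 : 1 ≤ Real.exp (2 * Real.pi) := Real.one_le_exp (by positivity)
        have h2 : 3 < Real.pi := Real.pi_gt_three
        rw [abs_of_nonneg (by linarith)]
        have h9 : 1 ≤ 4 * Real.pi ^ 2 := by nlinarith
        have h3 : k ≤ 4 * Real.pi ^ 2 * k := by nlinarith
        nlinarith
      have hden : 0 < 80 * CL k * (8 * k + 1) * C2 (8 * k) 3 4 := by positivity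
      rw [hρdef]
      unfold rho0
      rw [mul_one_div, div_le_one hden]
      calc k = 1 * k * 1 * 1 := by ring
        _ ≤ 80 * CL k * (8 * k + 1) * C2 (8 * k) 3 4 := by
            gcongr
            · norm_num
            · linarith
    have h5 : (10:ℝ) ^ 7 ≤ k ^ ((3 : ℝ) / 5) := by
      have h6 : ((2:ℝ) ^ 200) ^ ((3 : ℝ) / 5) ≤ k ^ ((3 : ℝ) / 5) :=
        Real.rpow_le_rpow (by positivity) hk (by norm_num)
      have h7 : ((2:ℝ) ^ 200) ^ ((3 : ℝ) / 5) = 2 ^ 120 := by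
        rw [← Real.rpow_natCast, ← Real.rpow_mul (by norm_num), ← Real.rpow_natCast]
        norm_num
      rw [h7] at h6
      refine le_trans ?_ h6
      norm_num
    calc 10 ^ 11 * k * (ρ / 10000) = 10 ^ 7 * (k * ρ) := by ring
      _ ≤ 10 ^ 7 * 1 := by gcongr
      _ = 10 ^ 7 := by ring
      _ ≤ _ := h5
  · have e1 : ‖Loc.D k c s w (t0 : ℂ)‖ * (ρ / (10000 * X)) = ρ / 10000 := by
      rw [hDX]; field_simp
    rw [e1]
    have h1 : 1 / (2 ^ 72 * k ^ 9) ≤ ρ / 10000 := by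
      have : 1 / (2 ^ 72 * k ^ 9) ≤ 1 / (2 ^ 58 * k ^ 9) / 10000 := by
        rw [div_div, div_le_div_iff₀ (by positivity) (by positivity)]
        have : 0 ≤ k ^ 9 := by positivity
        nlinarith
      refine this.trans ?_
      gcongr
    have h2 : (1 / (2 ^ 72 * k ^ 9)) ^ 3 ≤ (ρ / 10000) ^ 3 := pow_le_pow_left₀ (by positivity) h1 3
    refine le_trans ?_ h2
    calc 10 ^ 11 * k * (‖Loc.D k c s w (t0 : ℂ)‖ * r) ≤ 10 ^ 11 * k * (1 / k ^ 50) := by gcongr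
      _ = 10 ^ 11 * k / k ^ 50 := by ring
      _ ≤ (1 / (2 ^ 72 * k ^ 9)) ^ 3 := by
          rw [div_pow, one_pow, div_le_div_iff₀ (by positivity) (by positivity)]
          have h3 : (10:ℝ) ^ 11 * (2 ^ 72) ^ 3 ≤ k ^ 2 := by
            have h4 : ((2:ℝ) ^ 200) ^ 2 ≤ k ^ 2 := pow_le_pow_left₀ (by positivity) hk 2
            refine le_trans ?_ h4
            rw [← pow_mul, ← pow_mul]
            calc (10:ℝ) ^ 11 * 2 ^ (72 * 3) ≤ 2 ^ 37 * 2 ^ (72 * 3) := by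
                  gcongr
                  norm_num
              _ = 2 ^ 253 := by rw [← pow_add]
              _ ≤ 2 ^ (200 * 2) := pow_le_pow_right₀ (by norm_num) (by norm_num)
          calc 10 ^ 11 * k * (2 ^ 72 * k ^ 9) ^ 3 = (10 ^ 11 * (2 ^ 72) ^ 3) * k ^ 28 := by ring
            _ ≤ k ^ 2 * k ^ 28 := by gcongr
            _ = k ^ 30 := by ring
            _ ≤ k ^ 50 := pow_le_pow_right₀ hk1 (by norm_num)
            _ = 1 * k ^ 50 := by ring

end Crest.Agent.R128.BaseNum
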