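import Crest.Agent.R128.SideClean
import Crest.Agent.R128.CleanStart
import Crest.Agent.R128.Rev
import Crest.Agent.R128.Lam0U

/-!
# Row 128, node V5 (helper398): a very fresh side in the vocabulary of the complexified curve
-/

set_option autoImplicit false
open Finset
open Crest.Agent.R128 Crest.Agent.R128.TreeSum Crest.Agent.R128.SideClean
open Crest.Agent.R128.CleanDisc Crest.Agent.R128.DictY Crest.Agent.R128.AlignMn

namespace Crest.Agent.R128.SideSize

/-- threshold of regular digits -/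
noncomputable def kp (k : ℝ) : ℝ := k ^ ((2 : ℝ) / 3)

theorem four_le {k : ℝ} (hk : (2:ℝ) ^ 400 ≤ k) : (4:ℝ) ≤ k := by
  refine le_trans ?_ hk
  calc (4:ℝ) = 2 ^ 2 := by norm_num
    _ ≤ 2 ^ 400 := pow_le_pow_right₀ (by norm_num) (by norm_num)

theorem kp_ge {k : ℝ} (hk : (2:ℝ) ^ 400 ≤ k) : (2:ℝ) ^ 201 ≤ kp k := by
  unfold kp
  have h1 : ((2:ℝ) ^ 400) ^ ((2:ℝ) / 3) ≤ k ^ ((2:ℝ) / 3) :=
    Real.rpow_le_rpow (pow_nonneg (by norm_num) 400) hk (by norm_num)
  refine le_trans ?_ h1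
  rw [← Real.rpow_natCast 2 400, ← Real.rpow_mul (by norm_num), ← Real.rpow_natCast 2 201]
  exact Real.rpow_le_rpow_of_exponent_le (by norm_num) (by norm_num)

theorem kp_cube {k : ℝ} (hk : 0 < k) : kp k ^ 3 = k ^ 2 := by
  unfold kp
  rw [← Real.rpow_natCast, ← Real.rpow_mul hk.le]
  norm_num

theorem ap_eq_ra (k c t : ℝ) (m : ℕ) : ap k (zt k c t) (m + 1) = ra k c t m := by
  unfold ap dz ra
  rw [Two.Tz_natCast, Function.iterate_succ_apply, T_zt]

theorem ap_eq_iter (k : ℝ) (y : Tor) (m : ℕ) : ap k y m = V k ((T k)^[m] y).2 := by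
  unfold ap dz
  rw [Two.Tz_natCast]

/-- reversed digits -/
theorem rev_dig (k c t : ℝ) {w m : ℕ} (hm : m < w - 1) :
    ra k c t m = V k ((T k)^[w - 1 - 1 - m] (((T k)^[w] (zt k c t)).swap)).2 := by
  rw [Rev.digit_rev k (by omega), ← ap_eq_ra, ap_eq_iter]
  have e : w - (w - 1 - 1 - m) = (m + 1) + 1 := by omega
  rw [e, Rev.fst_iter_succ]

variable {k ρ c t : ℝ} {L w M : ℕ} {x : ℕ → ℝ}

theorem toRev (hk : (2:ℝ) ^ 400 ≤ k) (hL : 20 ≤ L) (h : Good.Side k L ρ (zt k c t) x w M) :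
    SideClean.Rev (kp k) L (w - 1)
      (fun m => V k ((T k)^[m] (((T k)^[w] (zt k c t)).swap)).2)
      (Lam0.fld k (((T k)^[w] (zt k c t)).swap)) where
  hκ := kp_ge hk
  hL := hL
  hLn := by have := h.hw; omega
  hF := Lam0.isField_fld k _
  F0 := Lam0.fld_zero k _
  cl := fun m hm => h.val.cl m hm (by have := h.hw; omega)
  v2 := h.val.v2
  v3 := h.val.v3

/-- tip vector as a field -/
def XF (x : ℕ → ℝ) (m : ℕ) : ℝ × ℝ := (x m, x (m + 1))

theorem isField_XF (h : Good.Side k L ρ (zt k c t) x w M) : IsField (ra k c t) (XF x) := by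
  intro m
  unfold XF stp
  ext
  · rfl
  · show x (m + 1 + 1) = ra k c t m * x (m + 1) - x m
    rw [← ap_eq_ra]
    exact h.xrec m

/-- the reversed field in the forward time -/
noncomputable def EF (k c t : ℝ) (w : ℕ) (m : ℕ) : ℝ × ℝ :=
  AlignLam.W (fun j => ap k (zt k c t) j)
    ((Lam0.fld k (((T k)^[w] (zt k c t)).swap) (w - 1)).2)
    ((Lam0.fld k (((T k)^[w] (zt k c t)).swap) (w - 1)).1) m

theorem isField_EF (k c t : ℝ) (w : ℕ) : IsField (ra k c t) (EF k c t w) := by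
  have h := AlignLam.isField_W (fun j => ap k (zt k c t) j)
    ((Lam0.fld k (((T k)^[w] (zt k c t)).swap) (w - 1)).2)
    ((Lam0.fld k (((T k)^[w] (zt k c t)).swap) (w - 1)).1)
  intro m
  have h2 := h m
  unfold AlignLam.sh at h2
  change _ = stp (ap k (zt k c t) (m + 1)) _ at h2
  rw [ap_eq_ra] at h2
  exact h2

theorem EF_zero (k c t : ℝ) (w : ℕ) :
    EF k c t w 0 = (Lam0.fld k (((T k)^[w] (zt k c t)).swap) (w - 1)).swap := by
  unfold EF AlignLam.W
  ext <;> simp [Align.sol]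

theorem exp_le_one (hρ : 0 ≤ ρ) : Real.exp (-ρ) ≤ 1 := by
  rw [Real.exp_le_one_iff]; linarith

theorem x_foot_le (hρ : 0 ≤ ρ) (h : Good.Side k L ρ (zt k c t) x w M) :
    |(XF x (w - 1)).2| ≤ 1 := by
  have h1 := (le_max_right |x (w - 1)| |x w|).trans (h.hi.trans (exp_le_one hρ))
  have e : w - 1 + 1 = w := by have := h.hw; omega
  show |x (w - 1 + 1)| ≤ 1
  rw [e]
  exact h1

/-- **816's clean structure for a very fresh side** -/
theorem clean (hk : (2:ℝ) ^ 400 ≤ k) (hL : 20 ≤ L) (hρ : 0 ≤ ρ)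
    (h : Good.Side k L ρ (zt k c t) x w M) :
    CleanNum.Clean (ra k c t) (wf k c t) (EF k c t w) (w - 1) (1 / 60) 3 (8 * k) 4 := by
  have hk4 : (4:ℝ) ≤ k := four_le hk
  exact Rev.toClean (toRev hk hL h) (isField_EF k c t w) (isField_wf k c t) (isField_XF h)
    (fun m hm => rev_dig k c t hm) (EF_zero k c t w) (wf_zero k c t)
    (by show |x 0| = 1; exact h.x0) (by show |x 1| ≤ 1; exact h.x1) (x_foot_le hρ h)
    (fun j => Lam0.abs_V_le hk4 _)

theorem EF_last (hk : (2:ℝ) ^ 400 ≤ k) (hL : 20 ≤ L) (h : Good.Side k L ρ (zt k c t) x w M) :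
    EF k c t w (w - 1) = (1, 0) := by
  have h1 := rev_field (isField_EF k c t w) (toRev hk hL h).hF (fun m hm => rev_dig k c t hm)
    (EF_zero k c t w) (w - 1) le_rfl
  rw [h1, Nat.sub_self, Lam0.fld_zero]
  rfl

/-- digits before the foot -/
theorem dig_before (h : Good.Side k L ρ (zt k c t) x w M) {m : ℕ}
    (h1 : w - 1 ≤ m + L) (h2 : m < w - 1) : kp k ≤ |ra k c t m| := by
  rw [rev_dig k c t h2]
  exact h.val.cl _ (by omega) (by omega)

/-- digits after the foot -/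
theorem dig_after (h : Good.Side k L ρ (zt k c t) x w M) {m : ℕ}
    (h1 : w ≤ m + 1) (h2 : m + 1 ≤ w + M) : kp k ≤ |ra k c t m| := by
  rw [← ap_eq_ra]
  exact h.run (m + 1) h1 h2

/-- digits around the foot -/
theorem dig_all (h : Good.Side k L ρ (zt k c t) x w M) {m : ℕ}
    (h1 : w - 1 ≤ m + L) (h2 : m + 1 ≤ w + M) : kp k ≤ |ra k c t m| := by
  rcases lt_or_ge m (w - 1) with h3 | h3
  · exact dig_before h h1 h3
  · exact dig_after h (by omega) h2

/-! ### sizes -/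

theorem kp_pos {k : ℝ} (hk : (2:ℝ) ^ 400 ≤ k) : 4 ≤ kp k := by
  refine le_trans ?_ (kp_ge hk)
  calc (4:ℝ) = 2 ^ 2 := by norm_num
    _ ≤ 2 ^ 201 := pow_le_pow_right₀ (by norm_num) (by norm_num)

theorem XX_eq (hk : (2:ℝ) ^ 400 ≤ k) (hL : 20 ≤ L) (h : Good.Side k L ρ (zt k c t) x w M) :
    (wf k c t (w - 1)).2 = (EF k c t w 0).1 ∧
      CleanCont.XX (wf k c t) (EF k c t w) = |(wf k c t (w - 1)).2| := by
  have h1 : wr (wf k c t (w - 1)) (EF k c t w (w - 1)) = wr (wf k c t 0) (EF k c t w 0) :=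
    (isField_wf k c t).wr_eq (isField_EF k c t w) (Nat.zero_le _)
  have h2 := wr_P0 (wf_zero k c t) (EF k c t w 0)
  rw [EF_last hk hL h, h2] at h1
  unfold wr at h1
  simp only [mul_zero, mul_one, zero_sub] at h1
  have h3 : (wf k c t (w - 1)).2 = (EF k c t w 0).1 := by linarith
  refine ⟨h3, ?_⟩
  unfold CleanCont.XX
  rw [h2, abs_neg, h3]

/-- the cone condition just before the foot -/
theorem cone_foot (hk : (2:ℝ) ^ 400 ≤ k) (hL : 20 ≤ L) (hρ : 0 ≤ ρ)
    (h : Good.Side k L ρ (zt k c t) x w M) :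
    (kp k - 1) * |(wf k c t (w - 1)).1| ≤ |(wf k c t (w - 1)).2| := by
  have hC := clean hk hL hρ h
  have hw := h.hw
  have hk4 := four_le hk
  have hk0 : 0 < k := lt_of_lt_of_le (by norm_num) hk4
  have hkp := kp_pos hk
  have hkp0 := kp_ge hk
  have hrev := rev_field (isField_EF k c t w) (toRev hk hL h).hF (fun m hm => rev_dig k c t hm)
    (EF_zero k c t w)
  clear hk
  refine CleanStart.cone' hC (b := kp k) hkp (m0 := w - 1 - 6) (s0 := 5) (by omega)
    (fun m hm1 hm2 => dig_before h (by omega) hm2) ?_ (w - 1) (by omega) le_rfl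
  have e : w - 1 - 6 + 5 = w - 1 - 1 := by omega
  rw [e, hrev (w - 1 - 1) (by omega), nn_swap]
  have e2 : w - 1 - (w - 1 - 1) = 1 := by omega
  rw [e2]
  have hnn : nn (Lam0.fld k (((T k)^[w] (zt k c t)).swap) 1) ≤ 8 * k := by
    have h1 := Lam0.fld_succ k (((T k)^[w] (zt k c t)).swap) 0
    rw [zero_add] at h1
    rw [h1]
    refine (nn_stp_le _ _).trans ?_
    rw [Lam0.fld_zero]
    have : nn ((0:ℝ), (1:ℝ)) = 1 := by unfold nn; norm_num
    rw [this, mul_one]
    exact Lam0.abs_V_le hk4 _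
  have hpow : nn (Lam0.fld k (((T k)^[w] (zt k c t)).swap) 1) ^ (4 * (1 / 60) : ℝ) ≤ 8 * k := by
    have h1 : nn (Lam0.fld k (((T k)^[w] (zt k c t)).swap) 1) ^ (4 * (1 / 60) : ℝ) ≤
        (8 * k) ^ (4 * (1 / 60) : ℝ) := Real.rpow_le_rpow (nn_nonneg _) hnn (by norm_num)
    refine h1.trans ?_
    calc (8 * k) ^ (4 * (1 / 60) : ℝ) ≤ (8 * k) ^ (1 : ℝ) :=
          Real.rpow_le_rpow_of_exponent_le (by linarith) (by norm_num)
      _ = _ := Real.rpow_one _
  have hC1 : CleanNum.C1 (8 * k) 3 4 ≤ 200 * k ^ 2 := by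
    unfold CleanNum.C1
    nlinarith [mul_self_le_mul_self (by norm_num : (0:ℝ) ≤ 4) hk4]
  have hC10 : 0 ≤ CleanNum.C1 (8 * k) 3 4 := by unfold CleanNum.C1; positivity
  have hkk : 2 * kp k / 3 ≤ kp k - 1 := by linarith
  have hcube := kp_cube hk0
  -- (kp-1)^5 ≥ (2/3 kp)^5, and k^3 = kp^4.5 ≤ kp^5 / 2^100
  have h3 : (2 * kp k / 3) ^ 5 ≤ (kp k - 1) ^ 5 := pow_le_pow_left₀ (by positivity) hkk 5
  refine lt_of_lt_of_le ?_ h3
  have h4 : 2 * CleanNum.C1 (8 * k) 3 4 *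
      nn (Lam0.fld k (((T k)^[w] (zt k c t)).swap) 1) ^ (4 * (1 / 60) : ℝ) ≤
      2 * (200 * k ^ 2) * (8 * k) := by
    apply mul_le_mul _ hpow (Real.rpow_nonneg (nn_nonneg _) _) (by positivity)
    linarith
  refine lt_of_le_of_lt h4 ?_
  -- 3200 k^3 < (2/3)^5 kp^5 ; square: k^6 = kp^9
  have h5 : (k ^ 3) ^ 2 = kp k ^ 9 := by
    have : kp k ^ 9 = (kp k ^ 3) ^ 3 := by ring
    rw [this, hcube]
    ring
  have h6 : (2 * (200 * k ^ 2) * (8 * k)) ^ 2 < ((2 * kp k / 3) ^ 5) ^ 2 := by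
    have e1 : (2 * (200 * k ^ 2) * (8 * k)) ^ 2 = 3200 ^ 2 * kp k ^ 9 := by
      rw [← h5]; ring
    have e2 : ((2 * kp k / 3) ^ 5) ^ 2 = (2 / 3) ^ 10 * kp k * kp k ^ 9 := by ring
    rw [e1, e2]
    apply mul_lt_mul_of_pos_right _ (by positivity)
    have : (2:ℝ) ^ 40 ≤ kp k := le_trans (pow_le_pow_right₀ (by norm_num) (by norm_num)) hkp0
    norm_num at this ⊢
    linarith
  exact lt_of_pow_lt_pow_left₀ 2 (by positivity) h6

/-- the tip vector is contracting at the foot -/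
theorem x_contr (hk : (2:ℝ) ^ 400 ≤ k) (h : Good.Side k L ρ (zt k c t) x w M) :
    |x w| ≤ |x (w - 1)| := by
  by_contra hcon
  push Not at hcon
  have hw := h.hw
  have hkp := kp_pos hk
  have hlog : 0 < Real.log k := Real.log_pos (lt_of_lt_of_le (by norm_num) (four_le hk))
  clear hk
  have e1 : w - 1 + 1 = w := by omega
  have hc := cone (isField_XF h) (κ := kp k) (by linarith) (i := w - 1) (n := w + M - 1)
    (by show |x (w - 1)| ≤ |x (w - 1 + 1)|; rw [e1]; exact hcon.le)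
    (fun j h1 h2 => dig_after h (by omega) (by omega))
  have hmono : ∀ j, w - 1 ≤ j → j ≤ w + M - 1 → |x w| ≤ |x (j + 1)| := by
    intro j hj
    induction j, hj using Nat.le_induction with
    | base => intro _; rw [e1]
    | succ j hj ih =>
      intro hj2
      have h1 := ih (by omega)
      have h2 := ((hc j hj (by omega)).2 (by omega)).1
      have h3 : (kp k - 1) * |x (j + 1)| ≤ |x (j + 1 + 1)| := h2
      have h4 := abs_nonneg (x (j + 1))
      nlinarith
  have h5 := hmono (w + M - 1) (by omega) le_rfl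
  have e2 : w + M - 1 + 1 = w + M := by omega
  rw [e2] at h5
  have h6 := (le_max_right |x (w + M - 1)| |x (w + M)|).trans h.fin
  have h7 := h.lo
  rw [max_eq_right hcon.le] at h7
  have h8 : Real.exp (-ρ - 80 * Real.log k) < Real.exp (-ρ - 3 * Real.log k) :=
    Real.exp_lt_exp.mpr (by linarith)
  linarith

/-- **sizes at the foot** -/
theorem sizes (hk : (2:ℝ) ^ 400 ≤ k) (hL : 20 ≤ L) (hρ : 0 ≤ ρ)
    (h : Good.Side k L ρ (zt k c t) x w M) :
    Real.exp ρ / 2 ≤ |(wf k c t (w - 1)).2| ∧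
      |(wf k c t (w - 1)).2| ≤ 2 * k ^ 3 * Real.exp ρ := by
  have hw := h.hw
  have hk0 : 0 < k := lt_of_lt_of_le (by norm_num) (four_le hk)
  have hkp := kp_pos hk
  have e1 : w - 1 + 1 = w := by omega
  have hwr : wr (XF x (w - 1)) (wf k c t (w - 1)) = wr (XF x 0) (wf k c t 0) :=
    (isField_XF h).wr_eq (isField_wf k c t) (Nat.zero_le _)
  have h0 : wr (XF x 0) (wf k c t 0) = x 0 := by
    rw [wf_zero]; unfold wr XF; simp
  rw [h0] at hwr
  unfold wr XF at hwr
  simp only [e1] at hwr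
  set p := |(wf k c t (w - 1)).2| with hp
  set p' := |(wf k c t (w - 1)).1| with hp'
  have hcone := cone_foot hk hL hρ h
  rw [← hp, ← hp'] at hcone
  have hp'0 : 0 ≤ p' := abs_nonneg _
  have hpp : 3 * p' ≤ p := by nlinarith
  have hx1 := h.x0
  have hcon := x_contr hk h
  have hhi := h.hi
  have hlo := h.lo
  rw [max_eq_left hcon] at hhi hlo
  have hxw : |x w| ≤ Real.exp (-ρ) := hcon.trans hhi
  have hexp : Real.exp ρ * Real.exp (-ρ) = 1 := by rw [← Real.exp_add]; simp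
  have he0 := Real.exp_pos ρ
  constructor
  · have h1 : 1 ≤ |x (w - 1)| * p + |x w| * p' := by
      rw [← hx1, ← hwr]
      refine (abs_sub _ _).trans ?_
      rw [abs_mul, abs_mul]
    have h2 : |x (w - 1)| * p + |x w| * p' ≤ Real.exp (-ρ) * p + Real.exp (-ρ) * p' := by
      gcongr
    have h3 : 1 ≤ Real.exp (-ρ) * (2 * p) := by
      have : Real.exp (-ρ) * p + Real.exp (-ρ) * p' ≤ Real.exp (-ρ) * (2 * p) := by
        have := Real.exp_pos (-ρ)
        nlinarith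
      linarith
    have h4 : Real.exp ρ * 1 ≤ Real.exp ρ * (Real.exp (-ρ) * (2 * p)) :=
      mul_le_mul_of_nonneg_left h3 he0.le
    rw [← mul_assoc, hexp, one_mul, mul_one] at h4
    linarith
  · have h1 : |x (w - 1)| * p - |x w| * p' ≤ 1 := by
      rw [← hx1, ← hwr]
      have := abs_sub_abs_le_abs_sub (x (w - 1) * (wf k c t (w - 1)).2)
        (x w * (wf k c t (w - 1)).1)
      rwa [abs_mul, abs_mul] at this
    have h2 : |x w| * p' ≤ |x (w - 1)| * p' := mul_le_mul_of_nonneg_right hcon hp'0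
    have h3 : |x (w - 1)| * p ≤ 2 := by
      have h4 : |x (w - 1)| * (3 * p') ≤ |x (w - 1)| * p :=
        mul_le_mul_of_nonneg_left hpp (abs_nonneg _)
      nlinarith
    have h4 : Real.exp (-ρ - 3 * Real.log k) * p ≤ 2 :=
      (mul_le_mul_of_nonneg_right hlo (abs_nonneg _)).trans h3
    have h5 : Real.exp (ρ + 3 * Real.log k) * Real.exp (-ρ - 3 * Real.log k) = 1 := by
      rw [← Real.exp_add]; ring_nf; simp
    have h6 : Real.exp (ρ + 3 * Real.log k) = Real.exp ρ * k ^ 3 := by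
      rw [Real.exp_add]
      congr 1
      rw [show (3:ℝ) * Real.log k = ((3:ℕ):ℝ) * Real.log k by norm_num, Real.exp_nat_mul,
        Real.exp_log hk0]
    have h7 := mul_le_mul_of_nonneg_left h4 (Real.exp_pos (ρ + 3 * Real.log k)).le
    rw [← mul_assoc, h5, one_mul, h6] at h7
    linarith

/-- growth of the tip field along the run -/
theorem growth (hk : (2:ℝ) ^ 400 ≤ k) (hL : 20 ≤ L) (hρ : 0 ≤ ρ)
    (h : Good.Side k L ρ (zt k c t) x w M) {m : ℕ} (h1 : w - 1 ≤ m) (h2 : m ≤ w + M) :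
    |(wf k c t m).1| ≤ |(wf k c t m).2| ∧
      (m < w + M → (kp k - 1) * |(wf k c t m).2| ≤ |(wf k c t (m + 1)).2|) := by
  have hkp := kp_pos hk
  have hcone := cone_foot hk hL hρ h
  have hc := cone (isField_wf k c t) (κ := kp k) (by linarith) (i := w - 1) (n := w + M)
    (by have := abs_nonneg (wf k c t (w - 1)).1; nlinarith)
    (fun j h1 h2 => dig_after h (by omega) (by omega))
  obtain ⟨a1, a2⟩ := hc m h1 h2
  exact ⟨a1, fun hlt => (a2 hlt).1⟩

end Crest.Agent.R128.SideSize
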