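import Mathlib
import Crest.Agent.R128.BaseNum
import Crest.Agent.R128.SideSize

/-!
Row 128, node V5 / LocA (helper816): a very fresh point `zt k c t0 ∈ Good.G k L n` gives the fields
of 595's `LocA.Base` on both sides (`n0 + 1 = w`, `r = 1/(k^60 2^n)`) and the quadratic content.
-/

set_option autoImplicit false

open Finset Metric Topology

namespace Crest.Agent.R128.BaseVF

open Crest.Agent.R128 Crest.Agent.R128.Cell Crest.Agent.R128.CellB Crest.Agent.R128.CellDy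
open Crest.Agent.R128.TreeSum Crest.Agent.R128.Disp Crest.Agent.R128.CleanNum
open Crest.Agent.R128.CleanDisc Crest.Agent.R128.CleanCont Crest.Agent.R128.CleanStart
open Crest.Agent.R128.StartNum Crest.Agent.R128.BaseNum Crest.Agent.R128.DictY
open Crest.Agent.R128.SideSize

variable {k ρ c t : ℝ} {L n w M : ℕ} {x : ℕ → ℝ}

theorem tb_eq (k c t : ℝ) : tb k c t = sd k c false t := by
  unfold tb sd kap
  simp

/-- the digit in the vocabulary of `LocDef` -/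
theorem dig_loc (k c : ℝ) (s : Bool) (t0 : ℝ) {m : ℕ} (hm : 1 ≤ m) :
    ‖cV k (Loc.Y k c s m (t0 : ℂ))‖ = |ra k c (sd k c s t0) (m - 1)| := by
  unfold Loc.Y
  rw [sdC_real]
  have h := cV_y k c (sd k c s t0) (m - 1)
  rw [Nat.sub_add_cancel hm] at h
  rw [h, Complex.norm_real, Real.norm_eq_abs]

theorem exp_rho_le {n : ℕ} (hk0 : 0 < k) (h2 : ρ ≤ n * Real.log 2 + 2 * Real.log k) :
    Real.exp ρ ≤ 2 ^ n * k ^ 2 := by
  have h3 : Real.exp (n * Real.log 2 + 2 * Real.log k) = 2 ^ n * k ^ 2 := by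
    rw [Real.exp_add, Real.exp_nat_mul, Real.exp_log (by norm_num : (0:ℝ) < 2),
      show (2:ℝ) * Real.log k = ((2:ℕ):ℝ) * Real.log k by norm_num, Real.exp_nat_mul,
      Real.exp_log hk0]
  rw [← h3]
  exact Real.exp_le_exp.mpr h2

theorem le_exp_rho {n : ℕ} (h1 : n * Real.log 2 ≤ ρ) : (2:ℝ) ^ n ≤ Real.exp ρ := by
  have h3 : Real.exp (n * Real.log 2) = (2:ℝ) ^ n := by
    rw [Real.exp_nat_mul, Real.exp_log (by norm_num : (0:ℝ) < 2)]
  rw [← h3]
  exact Real.exp_le_exp.mpr h1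

/-- upper bound of the size at the foot -/
theorem size_up (hk : (2:ℝ) ^ 400 ≤ k) (hL : 20 ≤ L) (hρ : 0 ≤ ρ)
    (h : Good.Side k L ρ (zt k c t) x w M) (h2 : ρ ≤ n * Real.log 2 + 2 * Real.log k) :
    |(wf k c t (w - 1)).2| ≤ 2 * k ^ 8 * 2 ^ n := by
  have hk4 := four_le hk
  have h1 := (sizes hk hL hρ h).2
  clear hk
  have hk0 : 0 < k := by linarith
  have hk1 : 1 ≤ k := by linarith
  have h3 := exp_rho_le hk0 h2
  refine h1.trans ?_
  have h4 : k ^ 3 ≤ k ^ 6 := pow_le_pow_right₀ hk1 (by norm_num)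
  have h5 : Real.exp ρ * k ^ 6 ≤ (2 ^ n * k ^ 2) * k ^ 6 := by gcongr
  have h6 := Real.exp_pos ρ
  nlinarith

/-- size at the end of the run -/
theorem size_end (hk : (2:ℝ) ^ 400 ≤ k) (hL : 20 ≤ L) (hρ : 0 ≤ ρ)
    (h : Good.Side k L ρ (zt k c t) x w M) :
    Real.exp ρ * k ^ 80 / 2 ≤ |(wf k c t (w + M - 1)).2| := by
  have hw := h.hw
  have hk4 := four_le hk
  have hg := (growth hk hL hρ h (m := w + M - 1) (by omega) (by omega)).1
  clear hk
  have hk0 : 0 < k := by linarith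
  have e1 : w + M - 1 + 1 = w + M := by omega
  have hwr : wr (XF x (w + M - 1)) (wf k c t (w + M - 1)) = wr (XF x 0) (wf k c t 0) :=
    (isField_XF h).wr_eq (isField_wf k c t) (Nat.zero_le _)
  have h0 : wr (XF x 0) (wf k c t 0) = x 0 := by
    rw [CleanDisc.wf_zero]; unfold wr XF; simp
  rw [h0] at hwr
  unfold wr XF at hwr
  simp only [e1] at hwr
  set p := |(wf k c t (w + M - 1)).2| with hp
  set p' := |(wf k c t (w + M - 1)).1| with hp'
  have hp0 : 0 ≤ p := abs_nonneg _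
  have hfin := h.fin
  have hf1 := (le_max_left |x (w + M - 1)| |x (w + M)|).trans hfin
  have hf2 := (le_max_right |x (w + M - 1)| |x (w + M)|).trans hfin
  have he0 := Real.exp_pos (-ρ - 80 * Real.log k)
  have h1 : 1 ≤ |x (w + M - 1)| * p + |x (w + M)| * p' := by
    rw [← h.x0, ← hwr]
    refine (abs_sub _ _).trans ?_
    rw [abs_mul, abs_mul]
  have h2 : |x (w + M - 1)| * p + |x (w + M)| * p' ≤
      Real.exp (-ρ - 80 * Real.log k) * p + Real.exp (-ρ - 80 * Real.log k) * p := by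
    gcongr
  have h3 : Real.exp ρ * k ^ 80 * Real.exp (-ρ - 80 * Real.log k) = 1 := by
    have h4 : k ^ 80 = Real.exp (80 * Real.log k) := by
      rw [show (80:ℝ) * Real.log k = ((80:ℕ):ℝ) * Real.log k by norm_num, Real.exp_nat_mul,
        Real.exp_log hk0]
    rw [h4, ← Real.exp_add, ← Real.exp_add]
    ring_nf
    simp
  have h5 : 0 < Real.exp ρ * k ^ 80 := by positivity
  have h6 : Real.exp ρ * k ^ 80 * 1 ≤
      Real.exp ρ * k ^ 80 * (2 * (Real.exp (-ρ - 80 * Real.log k) * p)) :=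
    mul_le_mul_of_nonneg_left (by linarith) h5.le
  have h7 : Real.exp ρ * k ^ 80 * (2 * (Real.exp (-ρ - 80 * Real.log k) * p)) = 2 * p := by
    calc _ = 2 * (Real.exp ρ * k ^ 80 * Real.exp (-ρ - 80 * Real.log k)) * p := by ring
      _ = 2 * p := by rw [h3, mul_one]
  linarith

theorem two200 {k : ℝ} (hk : (2:ℝ) ^ 400 ≤ k) : (2:ℝ) ^ 200 ≤ k :=
  (pow_le_pow_right₀ (by norm_num) (by norm_num)).trans hk

/-- **One side of a very fresh point gives all fields of `LocA.Base`** (`n0 + 1 = w`). -/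
theorem base_side (s : Bool) {t0 : ℝ} (hk : (2:ℝ) ^ 400 ≤ k) (hL : 20 ≤ L)
    (hρ1 : n * Real.log 2 ≤ ρ) (hρ2 : ρ ≤ n * Real.log 2 + 2 * Real.log k)
    (h : Good.Side k L ρ (zt k c (sd k c s t0)) x w M) :
    ∃ r0 : ℝ, 0 < r0 ∧
      (∀ u ∈ ball (t0 : ℂ) (2 * r0), ‖Loc.D k c s w u - Loc.D k c s w t0‖ ≤
        1 / 2500 * ‖Loc.D k c s w t0‖) ∧
      (∀ u ∈ ball (t0 : ℂ) (2 * r0), ‖Loc.D k c s (w - 1) u‖ ≤ 99 / 100 * ‖Loc.D k c s w t0‖) ∧
      Loc.D k c s w t0 ≠ 0 ∧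
      10 ^ 11 * k * (‖Loc.D k c s w t0‖ * r0) ≤ k ^ ((3 : ℝ) / 5) ∧
      10 ^ 11 * k * (‖Loc.D k c s w t0‖ * (1 / (k ^ 60 * 2 ^ n))) ≤
        (‖Loc.D k c s w t0‖ * r0) ^ 3 ∧
      1 ≤ k ^ 61 * (‖Loc.D k c s w t0‖ * (2 * (1 / (k ^ 60 * 2 ^ n)))) ∧
      (∀ j < M, k ^ ((2 : ℝ) / 3) ≤ ‖cV k (Loc.Y k c s (w + j) (t0 : ℂ))‖) ∧
      k ^ (-(7 / 20) : ℝ) ≤ ‖Loc.D k c s (w + M) t0‖ * (2 * (1 / (k ^ 60 * 2 ^ n))) := by
  have hlog2 : 0 ≤ Real.log 2 := Real.log_nonneg (by norm_num)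
  have hρ : 0 ≤ ρ := le_trans (by positivity) hρ1
  have hw := h.hw
  have hw1 : 1 ≤ w := by omega
  have hk4 := four_le hk
  have hcl := clean hk hL hρ h
  have hX := (XX_eq hk hL h).2
  have hcf := cone_foot hk hL hρ h
  have hkp := kp_pos hk
  have hup := size_up hk hL hρ h hρ2
  have hlo := (sizes hk hL hρ h).1
  have hend := size_end hk hL hρ h
  have hk200 := two200 hk
  have hD := norm_D_real k c s w hw1 t0
  have hDend := norm_D_real k c s (w + M) (by omega) t0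
  clear hk
  have hk0 : 0 < k := by linarith
  have hk1 : 1 ≤ k := by linarith
  have hn0 : (0:ℝ) < 2 ^ n := by positivity
  have hc : 2 * |(wf k c (sd k c s t0) (w - 1)).1| ≤ |(wf k c (sd k c s t0) (w - 1)).2| := by
    have := abs_nonneg (wf k c (sd k c s t0) (w - 1)).1
    nlinarith
  have hr : 0 < 1 / (k ^ 60 * 2 ^ n) := by positivity
  have hXr : ‖Loc.D k c s w (t0 : ℂ)‖ * (1 / (k ^ 60 * 2 ^ n)) ≤ 1 / k ^ 50 := by
    rw [hD, mul_one_div, div_le_div_iff₀ (by positivity) (by positivity)]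
    calc |(wf k c (sd k c s t0) (w - 1)).2| * k ^ 50 ≤ (2 * k ^ 8 * 2 ^ n) * k ^ 50 := by gcongr
      _ = 2 * (k ^ 58 * 2 ^ n) := by ring
      _ ≤ k ^ 2 * (k ^ 58 * 2 ^ n) := by
          have : (2:ℝ) ≤ k ^ 2 := by nlinarith
          gcongr
      _ = 1 * (k ^ 60 * 2 ^ n) := by ring
  obtain ⟨r0, b1, b2, b3, b4, b5, b6⟩ := base_num s hk200 hw1 hcl hX hc hr hXr
  refine ⟨r0, b1, b2, b3, b4, b5, b6, ?_, ?_, ?_⟩
  · rw [hD]
    have h1 := le_exp_rho hρ1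
    have h2 : (2:ℝ) ^ n / 2 ≤ |(wf k c (sd k c s t0) (w - 1)).2| := by linarith
    calc (1:ℝ) ≤ k := hk1
      _ = k ^ 61 * ((2:ℝ) ^ n / 2 * (2 * (1 / (k ^ 60 * 2 ^ n)))) := by field_simp
      _ ≤ _ := by gcongr
  · intro j hj
    rw [dig_loc k c s t0 (by omega : 1 ≤ w + j)]
    exact dig_after h (by omega) (by omega)
  · rw [hDend]
    have h1 := le_exp_rho hρ1
    have h2 : (2:ℝ) ^ n * k ^ 80 / 2 ≤ |(wf k c (sd k c s t0) (w + M - 1)).2| := by
      refine le_trans ?_ hend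
      gcongr
    have h3 : k ^ (-(7 / 20) : ℝ) ≤ 1 := Real.rpow_le_one_of_one_le_of_nonpos hk1 (by norm_num)
    calc k ^ (-(7 / 20) : ℝ) ≤ 1 := h3
      _ ≤ k ^ 20 := one_le_pow₀ hk1
      _ = (2:ℝ) ^ n * k ^ 80 / 2 * (2 * (1 / (k ^ 60 * 2 ^ n))) := by field_simp
      _ ≤ _ := by gcongr

/-- the two sides of a very fresh point -/
theorem sides_of_G {t0 : ℝ} (hG : zt k c t0 ∈ Good.G k L n) :
    ∃ ρ : ℝ, n * Real.log 2 ≤ ρ ∧ ρ ≤ n * Real.log 2 + 2 * Real.log k ∧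
      ∀ s : Bool, ∃ (x : ℕ → ℝ) (w M : ℕ), Good.Side k L ρ (zt k c (sd k c s t0)) x w M := by
  obtain ⟨_, ρ, h1, h2, xp, xm, w, M, w', M', hs, hs', _, _⟩ := hG
  refine ⟨ρ, h1, h2, fun s => ?_⟩
  cases s
  · refine ⟨xm, w', M', ?_⟩
    rw [Rev_zt, tb_eq] at hs'
    exact hs'
  · refine ⟨xp, w, M, ?_⟩
    have e : sd k c true t0 = t0 := by unfold sd; simp
    rw [e]
    exact hs

/-- **The content of a very fresh point cut at the feet.** -/
theorem content_side {t0 : ℝ} {x' : ℕ → ℝ} {w' M' : ℕ} (hk : (2:ℝ) ^ 400 ≤ k) (hL : 20 ≤ L)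
    (hρ1 : n * Real.log 2 ≤ ρ) (hρ2 : ρ ≤ n * Real.log 2 + 2 * Real.log k)
    (h : Good.Side k L ρ (zt k c (sd k c true t0)) x w M)
    (h' : Good.Side k L ρ (zt k c (sd k c false t0)) x' w' M') (mc : ℝ) :
    ∃ q0 q1 q2 : ℝ, ∀ u ∈ ball (t0 : ℂ) (2 * (1 / (k ^ 60 * 2 ^ n))),
      ‖Loc.cont k c true w w' u - (q0 + q1 * (u - mc) + q2 * (u - mc) ^ 2)‖ ≤
        (1 / (k ^ 60 * 2 ^ n)) ^ 2 / k ^ 18 := by
  have hlog2 : 0 ≤ Real.log 2 := Real.log_nonneg (by norm_num)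
  have hρ : 0 ≤ ρ := le_trans (by positivity) hρ1
  have e1 : sd k c true t0 = t0 := by unfold sd; simp
  have e2 : sd k c false t0 = kap k c - t0 := by unfold sd; simp
  rw [e1] at h
  rw [e2] at h'
  have hk4 := four_le hk
  have hkp := kp_pos hk
  have hcf := cone_foot hk hL hρ h
  have hcf' := cone_foot hk hL hρ h'
  have hc : 2 * |(wf k c t0 (w - 1)).1| ≤ |(wf k c t0 (w - 1)).2| := by
    have := abs_nonneg (wf k c t0 (w - 1)).1
    clear hk
    nlinarith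
  have hc' : 2 * |(wf k c (kap k c - t0) (w' - 1)).1| ≤ |(wf k c (kap k c - t0) (w' - 1)).2| := by
    have := abs_nonneg (wf k c (kap k c - t0) (w' - 1)).1
    clear hk
    nlinarith
  have hX := (XX_eq hk hL h).2
  have hX' := (XX_eq hk hL h').2
  have hup := size_up hk hL hρ h hρ2
  have hup' := size_up hk hL hρ h' hρ2
  rw [← hX] at hup
  rw [← hX'] at hup'
  have hE : nn (EF k c t0 w (w - 1)) = 1 := by
    rw [EF_last hk hL h]; unfold nn; simp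
  have hE' : nn (EF k c (kap k c - t0) w' (w' - 1)) = 1 := by
    rw [EF_last hk hL h']; unfold nn; simp
  have hcl := clean hk hL hρ h
  have hcl' := clean hk hL hρ h'
  have hk200 := two200 hk
  have hw := h.hw
  have hw' := h'.hw
  clear hk
  have hk0 : 0 < k := by linarith
  have hk1 : 1 ≤ k := by linarith
  have hbig : (2:ℝ) ^ 200 ≤ k := hk200
  have hn0 : (0:ℝ) < 2 ^ n := by positivity
  set r : ℝ := 1 / (k ^ 60 * 2 ^ n) with hr
  have hr0 : 0 < r := by positivity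
  have hrX : ∀ X : ℝ, X ≤ 2 * k ^ 8 * 2 ^ n → r * X ≤ 2 / k ^ 52 := by
    intro X hX
    calc r * X ≤ r * (2 * k ^ 8 * 2 ^ n) := by gcongr
      _ = 2 / k ^ 52 := by rw [hr]; field_simp
  have hb1 := hrX _ hup
  have hb2 := hrX _ hup'
  have hsm : ∀ X : ℝ, r * X ≤ 2 / k ^ 52 → 2 ^ 59 * k ^ 9 * (2 * r) * X ≤ 1 := by
    intro X hX
    calc 2 ^ 59 * k ^ 9 * (2 * r) * X = 2 ^ 60 * k ^ 9 * (r * X) := by ring
      _ ≤ 2 ^ 60 * k ^ 9 * (2 / k ^ 52) := by gcongr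
      _ = 2 ^ 61 * k ^ 9 / k ^ 52 := by ring
      _ ≤ 1 := by
          rw [div_le_one (by positivity)]
          have h61 : (2:ℝ) ^ 61 ≤ k := le_trans (by norm_num) hk200
          calc 2 ^ 61 * k ^ 9 ≤ k * k ^ 9 := by gcongr
            _ = k ^ 10 := by ring
            _ ≤ k ^ 52 := pow_le_pow_right₀ hk1 (by norm_num)
  obtain ⟨q0, q1, q2, hq⟩ := content_foot hk200 (by omega : 1 ≤ w) (by omega : 1 ≤ w') hcl hcl' hE hE'
    hc hc' (r := 2 * r) (by positivity) (hsm _ hb1) (hsm _ hb2) mc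
  refine ⟨q0, q1, q2, fun u hu => ?_⟩
  refine (hq u (ball_subset_closedBall hu)).trans ?_
  calc k ^ 32 * (2 * r) ^ 3 * (XX (wf k c t0) (EF k c t0 w) +
        XX (wf k c (kap k c - t0)) (EF k c (kap k c - t0) w'))
      = k ^ 32 * 8 * r ^ 2 * (r * XX (wf k c t0) (EF k c t0 w) +
        r * XX (wf k c (kap k c - t0)) (EF k c (kap k c - t0) w')) := by ring
    _ ≤ k ^ 32 * 8 * r ^ 2 * (2 / k ^ 52 + 2 / k ^ 52) := by gcongr
    _ = r ^ 2 / k ^ 18 * (32 / k ^ 2) := by field_simp; ring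
    _ ≤ r ^ 2 / k ^ 18 * 1 := by
        gcongr
        rw [div_le_one (by positivity)]
        have : (32:ℝ) ≤ k := le_trans (by norm_num) hk200
        nlinarith
    _ = r ^ 2 / k ^ 18 := mul_one _

end Crest.Agent.R128.BaseVF
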