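import Mathlib

/-! Row 128, V6 (helper415): deterministic block lemma for the levels of one top. Sorry free. -/

set_option autoImplicit false
open Finset

namespace Crest.Agent.R128.Blk

/-- Block lemma. `n` = number of levels (depths `1, …, n`) of one top, `NF` = set of its non-fresh
depths. Block `i` = depths in `[16^i Q, 16^(i+1) Q)`; it is fresh if at most a proportion `1/m` of its
depths is non-fresh. -/
theorem block {Q m : ℕ} (hQ : 1 ≤ Q) (n : ℕ) (NF : Finset ℕ) {I : ℕ}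
    (hI : n < 16 ^ (I + 1) * Q) :
    n ≤ 16 * Q + ∑ i ∈ (range I).filter (fun i => 16 ^ (i + 1) * Q ≤ n ∧
        m * (NF.filter fun d => 16 ^ i * Q ≤ d ∧ d < 16 ^ (i + 1) * Q).card ≤ 15 * (16 ^ i * Q)),
      256 * (16 ^ i * Q) + 18 * m * NF.card := by
  rcases lt_or_ge n (16 * Q) with h | h
  · omega
  -- the largest block inside
  have hex : ∃ i, i < I ∧ 16 ^ (i + 1) * Q ≤ n ∧ n < 16 ^ (i + 2) * Q := by
    induction I with
    | zero => exact absurd hI (by simpa using h)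
    | succ I ih =>
      rcases lt_or_ge n (16 ^ (I + 1) * Q) with h' | h'
      · obtain ⟨i, h1, h2, h3⟩ := ih h'
        exact ⟨i, by omega, h2, h3⟩
      · exact ⟨I, by omega, h', hI⟩
  obtain ⟨i, hiI, h1, h2⟩ := hex
  have h3 : n < 256 * (16 ^ i * Q) := by
    have : 16 ^ (i + 2) * Q = 256 * (16 ^ i * Q) := by ring
    omega
  by_cases hf : m * (NF.filter fun d => 16 ^ i * Q ≤ d ∧ d < 16 ^ (i + 1) * Q).card ≤
      15 * (16 ^ i * Q)
  · have hmem : i ∈ (range I).filter (fun i => 16 ^ (i + 1) * Q ≤ n ∧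
        m * (NF.filter fun d => 16 ^ i * Q ≤ d ∧ d < 16 ^ (i + 1) * Q).card ≤ 15 * (16 ^ i * Q)) := by
      rw [mem_filter, mem_range]
      exact ⟨hiI, h1, hf⟩
    have := Finset.single_le_sum (f := fun i => 256 * (16 ^ i * Q)) (fun _ _ => Nat.zero_le _) hmem
    omega
  · push Not at hf
    have h4 : (NF.filter fun d => 16 ^ i * Q ≤ d ∧ d < 16 ^ (i + 1) * Q).card ≤ NF.card :=
      card_filter_le _ _
    have h5 : m * (NF.filter fun d => 16 ^ i * Q ≤ d ∧ d < 16 ^ (i + 1) * Q).card ≤ m * NF.card :=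
      Nat.mul_le_mul_left _ h4
    have h6 : n ≤ 18 * m * NF.card := by
      have : 18 * m * NF.card = 18 * (m * NF.card) := by ring
      omega
    omega

/-- Sum over the tops of one orbit. `P` = set of pairs (top, depth) which is downward closed in the
depth; `NF` = non-fresh pairs; the number of pairs is at most
`16 Q #tops + 256 Σ_i 16^i Q #{tops with fresh block i} + 18 m #NF`. -/
theorem block_sum {α : Type*} {Q m : ℕ} (hQ : 1 ≤ Q) (tops : Finset α)
    (n : α → ℕ) (NF : α → Finset ℕ) {I : ℕ} (hI : ∀ t ∈ tops, n t < 16 ^ (I + 1) * Q) :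
    ∑ t ∈ tops, n t ≤ 16 * Q * tops.card +
      ∑ i ∈ range I, 256 * (16 ^ i * Q) * (tops.filter fun t => 16 ^ (i + 1) * Q ≤ n t ∧
        m * ((NF t).filter fun d => 16 ^ i * Q ≤ d ∧ d < 16 ^ (i + 1) * Q).card ≤
          15 * (16 ^ i * Q)).card +
      18 * m * ∑ t ∈ tops, (NF t).card := by
  have h1 : ∀ t ∈ tops, n t ≤ 16 * Q + ∑ i ∈ range I, (if 16 ^ (i + 1) * Q ≤ n t ∧
        m * ((NF t).filter fun d => 16 ^ i * Q ≤ d ∧ d < 16 ^ (i + 1) * Q).card ≤
          15 * (16 ^ i * Q) then 256 * (16 ^ i * Q) else 0) + 18 * m * (NF t).card := by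
    intro t ht
    have := block (m := m) hQ (n t) (NF t) (hI t ht)
    rw [Finset.sum_filter] at this
    exact this
  refine (Finset.sum_le_sum h1).trans ?_
  rw [Finset.sum_add_distrib, Finset.sum_add_distrib, Finset.sum_const, smul_eq_mul,
    Finset.sum_comm, ← Finset.mul_sum]
  refine Nat.add_le_add_right ?_ _
  refine Nat.add_le_add (by rw [Nat.mul_comm]) ?_
  refine le_of_eq (Finset.sum_congr rfl fun i _ => ?_)
  rw [← Finset.sum_filter, Finset.sum_const, smul_eq_mul, Nat.mul_comm]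

/-- Numeric dyadic induction of V6: `X (2 H) ≤ 2 X H`, `X H ≤ a + b (a + X H)^2` whenever finite,
`X H0 ≤ 2 a`, `16 b a ≤ 1` (so that `b (5 a)^2 ≤ a`...). -/
theorem dyadic {X : ℕ → ℝ} {a b : ℝ} (ha : 0 ≤ a) (hb : 0 ≤ b) (hab : 25 * b * a ≤ 1)
    (h0 : X 0 ≤ 2 * a) (hX : ∀ j, 0 ≤ X j) (hgrow : ∀ j, X (j + 1) ≤ 2 * X j)
    (hclose : ∀ j, X j ≤ a + b * (a + X j) ^ 2) : ∀ j, X j ≤ 2 * a := by
  intro j
  induction j with
  | zero => exact h0
  | succ j ih =>
    have h1 : X (j + 1) ≤ 4 * a := by linarith [hgrow j]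
    have h2 := hclose (j + 1)
    have h3 := hX (j + 1)
    have h4 : (a + X (j + 1)) ^ 2 ≤ (5 * a) ^ 2 := by
      apply pow_le_pow_left₀ (by linarith)
      linarith
    have h5 : b * (a + X (j + 1)) ^ 2 ≤ b * (5 * a) ^ 2 := mul_le_mul_of_nonneg_left h4 hb
    have h6 : b * (5 * a) ^ 2 ≤ a := by nlinarith
    linarith

end Crest.Agent.R128.Blk
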