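import Mathlib

/-! Row 128: non-recursive closing inequality, one inequality per block `Q = 16^j * Q0`. -/

namespace Crest.Agent.R128.Block

set_option linter.unusedVariables false

open MeasureTheory Set
open scoped ENNReal

variable {Ω : Type*} [MeasurableSpace Ω] {μ : Measure Ω}

/-- Payment on disjoint cells. -/
theorem cells_le {ι : Type*} [Countable ι] {S : ι → Set Ω} {E G : Set Ω} {lam : ℝ≥0∞}
    (hS : ∀ i, MeasurableSet (S i)) (hd : Pairwise (Function.onFun Disjoint S))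
    (hE : E ⊆ ⋃ i, S i) (hpay : ∀ i, μ (E ∩ S i) ≤ lam * μ (S i)) (hG : ∀ i, S i ⊆ G) :
    μ E ≤ lam * μ G := by
  calc μ E = μ (⋃ i, (E ∩ S i)) := by
        congr 1
        rw [← inter_iUnion]
        exact (inter_eq_left.mpr hE).symm
    _ ≤ ∑' i, μ (E ∩ S i) := measure_iUnion_le _
    _ ≤ ∑' i, lam * μ (S i) := ENNReal.tsum_le_tsum hpay
    _ = lam * ∑' i, μ (S i) := ENNReal.tsum_mul_left
    _ = lam * μ (⋃ i, S i) := by rw [measure_iUnion hd hS]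
    _ ≤ lam * μ G := by
        gcongr
        exact iUnion_subset hG

/-- `∑_j Q_j 1[Q_j ≤ X] ≤ (16/15) X` for `Q_j = 16^j Q0`, in a form with the constant `2`. -/
theorem sum_pow_le (Q0 X : ℝ≥0∞) (hQ0 : Q0 ≠ 0) (n : ℕ) :
    ∑ j ∈ Finset.range n, (if (16 : ℝ≥0∞) ^ j * Q0 ≤ X then (16 : ℝ≥0∞) ^ j * Q0 else 0) ≤ 2 * X := by
  induction n with
  | zero => simp
  | succ n ih =>
    rw [Finset.sum_range_succ]
    split_ifs with h
    · -- all the previous ones sum to at most `16^n Q0`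
      have hgeo : ∀ m : ℕ, ∑ j ∈ Finset.range m, (16 : ℝ≥0∞) ^ j * Q0 ≤ 16 ^ m * Q0 := by
        intro m
        induction m with
        | zero => simp
        | succ m ihm =>
          rw [Finset.sum_range_succ]
          calc _ ≤ 16 ^ m * Q0 + 16 ^ m * Q0 := by gcongr
            _ = 2 * (16 ^ m * Q0) := by ring
            _ ≤ 16 * (16 ^ m * Q0) := by gcongr; norm_num
            _ = 16 ^ (m + 1) * Q0 := by ring
      have h1 : ∑ j ∈ Finset.range n, (if (16 : ℝ≥0∞) ^ j * Q0 ≤ X then (16 : ℝ≥0∞) ^ j * Q0 else 0)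
          ≤ ∑ j ∈ Finset.range n, (16 : ℝ≥0∞) ^ j * Q0 := by
        apply Finset.sum_le_sum
        intro j _
        split_ifs
        · exact le_rfl
        · exact zero_le
      calc _ ≤ 16 ^ n * Q0 + 16 ^ n * Q0 := by
            gcongr
            exact h1.trans (hgeo n)
        _ ≤ X + X := by gcongr
        _ = 2 * X := by ring
    · simpa using ih

theorem tsum_pow_le (Q0 X : ℝ≥0∞) (hQ0 : Q0 ≠ 0) :
    ∑' j : ℕ, (if (16 : ℝ≥0∞) ^ j * Q0 ≤ X then (16 : ℝ≥0∞) ^ j * Q0 else 0) ≤ 2 * X := by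
  rw [ENNReal.tsum_eq_iSup_nat]
  exact iSup_le fun n => sum_pow_le Q0 X hQ0 n

/-- layer-cake over the blocks: `H ≤ 256 Q0 + 4096 ∑_j Q_j 1[256 Q_j ≤ H]` for finite `H`. -/
theorem le_blocks (Q0 H : ℝ≥0∞) (hQ0 : Q0 ≠ 0) (hQ0' : Q0 ≠ ∞) (hH : H ≠ ∞) :
    H ≤ 256 * Q0 + 4096 * ∑' j : ℕ, (if 256 * ((16 : ℝ≥0∞) ^ j * Q0) ≤ H then (16 : ℝ≥0∞) ^ j * Q0 else 0) := by
  by_cases h0 : 256 * Q0 ≤ H
  · -- last j with 256 * 16^j Q0 ≤ H
    have hex : ∃ n : ℕ, H < 256 * ((16 : ℝ≥0∞) ^ n * Q0) := by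
      have h1 : Filter.Tendsto (fun n : ℕ => ((16 : ℝ≥0∞) ^ n)) Filter.atTop (nhds ∞) :=
        ENNReal.tendsto_pow_atTop_nhds_top_iff.mpr (by norm_num)
      have h2 : H / (256 * Q0) < ∞ := by
        apply ENNReal.div_lt_top hH
        simp [hQ0]
      obtain ⟨n, hn⟩ := ((tendsto_order.1 h1).1 _ h2).exists
      refine ⟨n, ?_⟩
      have hne : (256 * Q0 : ℝ≥0∞) ≠ 0 := by simp [hQ0]
      have hnt : (256 * Q0 : ℝ≥0∞) ≠ ∞ := ENNReal.mul_ne_top (by norm_num) hQ0'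
      have h3 := (ENNReal.div_lt_iff (Or.inl hne) (Or.inl hnt)).1 hn
      calc H < 16 ^ n * (256 * Q0) := h3
        _ = 256 * (16 ^ n * Q0) := by ring
    classical
    let n := Nat.find hex
    have hn : H < 256 * ((16 : ℝ≥0∞) ^ n * Q0) := Nat.find_spec hex
    have hn0 : n ≠ 0 := by
      intro h
      have : H < 256 * Q0 := by
        have h5 := hn
        rw [h] at h5
        simpa using h5
      exact absurd h0 (not_le.mpr this)
    obtain ⟨m, hm⟩ := Nat.exists_eq_succ_of_ne_zero hn0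
    have hm' : 256 * ((16 : ℝ≥0∞) ^ m * Q0) ≤ H := by
      have : m < n := by omega
      exact not_lt.mp (Nat.find_min hex this)
    have hterm : (16 : ℝ≥0∞) ^ m * Q0 ≤
        ∑' j : ℕ, (if 256 * ((16 : ℝ≥0∞) ^ j * Q0) ≤ H then (16 : ℝ≥0∞) ^ j * Q0 else 0) := by
      have := ENNReal.le_tsum (f := fun j : ℕ =>
        (if 256 * ((16 : ℝ≥0∞) ^ j * Q0) ≤ H then (16 : ℝ≥0∞) ^ j * Q0 else 0)) m
      simpa [hm'] using this
    calc H ≤ 256 * ((16 : ℝ≥0∞) ^ n * Q0) := hn.le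
      _ = 4096 * ((16 : ℝ≥0∞) ^ m * Q0) := by
          rw [hm, pow_succ]
          rw [show (4096 : ℝ≥0∞) = 256 * 16 by norm_num]
          ring
      _ ≤ 4096 * ∑' j : ℕ, (if 256 * ((16 : ℝ≥0∞) ^ j * Q0) ≤ H then (16 : ℝ≥0∞) ^ j * Q0 else 0) := by
          gcongr
      _ ≤ _ := le_add_self
  · exact (not_le.mp h0).le.trans le_self_add

/-- **Block closing.** `μ{256 Q_j ≤ H} ≤ lam μ{Q_j ≤ 4 (H + C)} + μ (Hid j)` for all `j` implies
`∫ H ≤ 256 Q0 μ(univ) + 32768 lam (∫ H + C μ(univ)) + 4096 ∑_j Q_j μ(Hid j)`. -/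
theorem block_closing {H : Ω → ℝ≥0∞} (hH : Measurable H) (hfin : ∀ x, H x ≠ ∞)
    {Q0 C lam : ℝ≥0∞} (hQ0 : Q0 ≠ 0) (hQ0' : Q0 ≠ ∞) (hC : C ≠ ∞) {Hid : ℕ → Set Ω}
    (hstep : ∀ j, μ {x | 256 * ((16 : ℝ≥0∞) ^ j * Q0) ≤ H x} ≤
      lam * μ {x | (16 : ℝ≥0∞) ^ j * Q0 ≤ 4 * (H x + C)} + μ (Hid j)) :
    ∫⁻ x, H x ∂μ ≤ 256 * Q0 * μ univ + 32768 * lam * (∫⁻ x, H x ∂μ + C * μ univ)
      + 4096 * ∑' j : ℕ, (16 : ℝ≥0∞) ^ j * Q0 * μ (Hid j) := by
  have hms : ∀ j : ℕ, MeasurableSet {x | 256 * ((16 : ℝ≥0∞) ^ j * Q0) ≤ H x} := fun j =>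
    measurableSet_le measurable_const hH
  have hmt : ∀ j : ℕ, MeasurableSet {x | (16 : ℝ≥0∞) ^ j * Q0 ≤ 4 * (H x + C)} := fun j =>
    measurableSet_le measurable_const ((hH.add_const C).const_mul 4)
  have h1 : ∫⁻ x, H x ∂μ ≤ 256 * Q0 * μ univ + 4096 * ∑' j : ℕ,
      (16 : ℝ≥0∞) ^ j * Q0 * μ {x | 256 * ((16 : ℝ≥0∞) ^ j * Q0) ≤ H x} := by
    calc ∫⁻ x, H x ∂μ ≤ ∫⁻ x, (256 * Q0 + 4096 * ∑' j : ℕ,
          (if 256 * ((16 : ℝ≥0∞) ^ j * Q0) ≤ H x then (16 : ℝ≥0∞) ^ j * Q0 else 0)) ∂μ :=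
          lintegral_mono fun x => le_blocks Q0 (H x) hQ0 hQ0' (hfin x)
      _ = 256 * Q0 * μ univ + 4096 * ∑' j : ℕ, ∫⁻ x,
          (if 256 * ((16 : ℝ≥0∞) ^ j * Q0) ≤ H x then (16 : ℝ≥0∞) ^ j * Q0 else 0) ∂μ := by
          rw [lintegral_add_left measurable_const, lintegral_const, lintegral_const_mul' _ _ (by norm_num)]
          congr 2
          rw [lintegral_tsum]
          intro j
          exact (Measurable.ite (hms j) measurable_const measurable_const).aemeasurable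
      _ = _ := by
          congr 2
          apply tsum_congr
          intro j
          have : (fun x => (if 256 * ((16 : ℝ≥0∞) ^ j * Q0) ≤ H x then (16 : ℝ≥0∞) ^ j * Q0 else 0)) =
              indicator {x | 256 * ((16 : ℝ≥0∞) ^ j * Q0) ≤ H x} (fun _ => (16 : ℝ≥0∞) ^ j * Q0) := by
            funext x
            simp [indicator]
          rw [this, lintegral_indicator_const (hms j)]
  have h2 : ∑' j : ℕ, (16 : ℝ≥0∞) ^ j * Q0 * μ {x | (16 : ℝ≥0∞) ^ j * Q0 ≤ 4 * (H x + C)} ≤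
      8 * (∫⁻ x, H x ∂μ + C * μ univ) := by
    calc ∑' j : ℕ, (16 : ℝ≥0∞) ^ j * Q0 * μ {x | (16 : ℝ≥0∞) ^ j * Q0 ≤ 4 * (H x + C)}
        = ∑' j : ℕ, ∫⁻ x, (if (16 : ℝ≥0∞) ^ j * Q0 ≤ 4 * (H x + C) then (16 : ℝ≥0∞) ^ j * Q0 else 0) ∂μ := by
          apply tsum_congr
          intro j
          have : (fun x => (if (16 : ℝ≥0∞) ^ j * Q0 ≤ 4 * (H x + C) then (16 : ℝ≥0∞) ^ j * Q0 else 0)) =
              indicator {x | (16 : ℝ≥0∞) ^ j * Q0 ≤ 4 * (H x + C)} (fun _ => (16 : ℝ≥0∞) ^ j * Q0) := by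
            funext x
            simp [indicator]
          rw [this, lintegral_indicator_const (hmt j)]
      _ = ∫⁻ x, ∑' j : ℕ, (if (16 : ℝ≥0∞) ^ j * Q0 ≤ 4 * (H x + C) then (16 : ℝ≥0∞) ^ j * Q0 else 0) ∂μ := by
          rw [lintegral_tsum]
          intro j
          exact (Measurable.ite (hmt j) measurable_const measurable_const).aemeasurable
      _ ≤ ∫⁻ x, 2 * (4 * (H x + C)) ∂μ := lintegral_mono fun x => tsum_pow_le Q0 _ hQ0
      _ = 8 * (∫⁻ x, H x ∂μ + C * μ univ) := by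
          have : (fun x => 2 * (4 * (H x + C))) = fun x => 8 * (H x + C) := by
            funext x
            rw [← mul_assoc]
            norm_num
          rw [this, lintegral_const_mul' _ _ (by norm_num), lintegral_add_right _ measurable_const,
            lintegral_const]
  calc ∫⁻ x, H x ∂μ ≤ 256 * Q0 * μ univ + 4096 * ∑' j : ℕ,
        (16 : ℝ≥0∞) ^ j * Q0 * μ {x | 256 * ((16 : ℝ≥0∞) ^ j * Q0) ≤ H x} := h1
    _ ≤ 256 * Q0 * μ univ + 4096 * ∑' j : ℕ,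
        ((16 : ℝ≥0∞) ^ j * Q0 * (lam * μ {x | (16 : ℝ≥0∞) ^ j * Q0 ≤ 4 * (H x + C)}) +
          (16 : ℝ≥0∞) ^ j * Q0 * μ (Hid j)) := by
        gcongr with j
        rw [← mul_add]
        gcongr
        exact hstep j
    _ = 256 * Q0 * μ univ + 4096 * (lam * ∑' j : ℕ,
        (16 : ℝ≥0∞) ^ j * Q0 * μ {x | (16 : ℝ≥0∞) ^ j * Q0 ≤ 4 * (H x + C)} +
          ∑' j : ℕ, (16 : ℝ≥0∞) ^ j * Q0 * μ (Hid j)) := by
        rw [ENNReal.tsum_add]
        congr 3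
        rw [← ENNReal.tsum_mul_left]
        apply tsum_congr
        intro j
        ring
    _ ≤ 256 * Q0 * μ univ + 4096 * (lam * (8 * (∫⁻ x, H x ∂μ + C * μ univ)) +
          ∑' j : ℕ, (16 : ℝ≥0∞) ^ j * Q0 * μ (Hid j)) := by
        gcongr
    _ = _ := by
        rw [mul_add, ← add_assoc]
        congr 2
        rw [show (32768 : ℝ≥0∞) = 4096 * 8 by norm_num]
        ring

/-- absorbed form. -/
theorem block_closing' {H : Ω → ℝ≥0∞} (hH : Measurable H) (hfin : ∀ x, H x ≠ ∞)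
    (hint : ∫⁻ x, H x ∂μ ≠ ∞) (hμ : μ univ ≠ ∞)
    {Q0 C lam : ℝ≥0∞} (hQ0 : Q0 ≠ 0) (hQ0' : Q0 ≠ ∞) (hC : C ≠ ∞) {Hid : ℕ → Set Ω}
    (hlam : 2 * (32768 * lam) ≤ 1)
    (hstep : ∀ j, μ {x | 256 * ((16 : ℝ≥0∞) ^ j * Q0) ≤ H x} ≤
      lam * μ {x | (16 : ℝ≥0∞) ^ j * Q0 ≤ 4 * (H x + C)} + μ (Hid j)) :
    ∫⁻ x, H x ∂μ ≤ (512 * Q0 + C) * μ univ
      + 8192 * ∑' j : ℕ, (16 : ℝ≥0∞) ^ j * Q0 * μ (Hid j) := by
  have h := block_closing (μ := μ) hH hfin hQ0 hQ0' hC hstep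
  set I := ∫⁻ x, H x ∂μ with hI
  set S := ∑' j : ℕ, (16 : ℝ≥0∞) ^ j * Q0 * μ (Hid j) with hS
  have h3 : 2 * I ≤ 2 * (256 * Q0 * μ univ) + (I + C * μ univ) + 2 * (4096 * S) := by
    calc 2 * I ≤ 2 * (256 * Q0 * μ univ + 32768 * lam * (I + C * μ univ) + 4096 * S) := by gcongr
      _ = 2 * (256 * Q0 * μ univ) + (2 * (32768 * lam)) * (I + C * μ univ) + 2 * (4096 * S) := by ring
      _ ≤ 2 * (256 * Q0 * μ univ) + 1 * (I + C * μ univ) + 2 * (4096 * S) := by gcongr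
      _ = _ := by rw [one_mul]
  have h4 : I + I ≤ I + ((512 * Q0 + C) * μ univ + 8192 * S) := by
    calc I + I = 2 * I := by ring
      _ ≤ _ := h3
      _ = I + ((512 * Q0 + C) * μ univ + 8192 * S) := by
          rw [show (512 : ℝ≥0∞) = 2 * 256 by norm_num, show (8192 : ℝ≥0∞) = 2 * 4096 by norm_num]
          ring
  exact (ENNReal.add_le_add_iff_left hint).1 h4

end Crest.Agent.R128.Block
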