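import Mathlib

/-! Row 128: closing inequality for the antitone sequence `tau` (areas / weights), and the choice of
largest good dyadic cells. -/

namespace Crest.Agent.R128.BlockSeq

open MeasureTheory Set
open scoped ENNReal

/-- `Q_j = 16^j * Q0`, `128 ∣ Q0`. -/
theorem sum_disjoint_le {tau : ℕ → ℝ}
    (hanti : ∀ a b, 1 ≤ a → a ≤ b → tau b ≤ tau a) {q : ℕ} (J : ℕ) :
    ∑ j ∈ Finset.range J, (15 * (16 ^ j * q : ℕ) : ℝ) * tau (16 * (16 ^ j * q)) ≤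
      ∑ r ∈ Finset.Icc (q + 1) (16 ^ J * q), tau r := by
  induction J with
  | zero => simp
  | succ J ih =>
    rw [Finset.sum_range_succ]
    have hle : 16 ^ J * q ≤ 16 ^ (J + 1) * q := by
      apply Nat.mul_le_mul_right
      exact Nat.pow_le_pow_right (by norm_num) (Nat.le_succ J)
    have hqJ : q ≤ 16 ^ J * q := Nat.le_mul_of_pos_left _ (by positivity)
    have hsplit : Finset.Icc (q + 1) (16 ^ (J + 1) * q) =
        Finset.Icc (q + 1) (16 ^ J * q) ∪ Finset.Icc (16 ^ J * q + 1) (16 ^ (J + 1) * q) := by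
      ext x
      simp only [Finset.mem_Icc, Finset.mem_union]
      omega
    have hdisj : Disjoint (Finset.Icc (q + 1) (16 ^ J * q))
        (Finset.Icc (16 ^ J * q + 1) (16 ^ (J + 1) * q)) := by
      rw [Finset.disjoint_left]
      intro x hx hx'
      simp only [Finset.mem_Icc] at hx hx'
      omega
    rw [hsplit, Finset.sum_union hdisj]
    have hcard : (Finset.Icc (16 ^ J * q + 1) (16 ^ (J + 1) * q)).card = 15 * (16 ^ J * q) := by
      rw [Nat.card_Icc, pow_succ]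
      ring_nf
      omega
    have h2 : (15 * (16 ^ J * q : ℕ) : ℝ) * tau (16 * (16 ^ J * q)) ≤
        ∑ r ∈ Finset.Icc (16 ^ J * q + 1) (16 ^ (J + 1) * q), tau r := by
      have h3 : ∀ r ∈ Finset.Icc (16 ^ J * q + 1) (16 ^ (J + 1) * q),
          tau (16 * (16 ^ J * q)) ≤ tau r := by
        intro r hr
        simp only [Finset.mem_Icc] at hr
        apply hanti _ _ (by omega)
        calc r ≤ 16 ^ (J + 1) * q := hr.2
          _ = 16 * (16 ^ J * q) := by ring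
      have h4 := Finset.card_nsmul_le_sum _ _ _ h3
      rw [hcard, nsmul_eq_mul] at h4
      push_cast at h4 ⊢
      exact h4
    linarith

/-- The sum over the blocks `[256 Q_j, 256 Q_{j+1})`. -/
theorem sum_blocks_le {tau : ℕ → ℝ} (h0 : ∀ r, 1 ≤ r → 0 ≤ tau r)
    (hanti : ∀ a b, 1 ≤ a → a ≤ b → tau b ≤ tau a) {p : ℕ} (hp : 1 ≤ p) (J : ℕ) :
    ∑ r ∈ Finset.Icc 1 (16 ^ J * p - 1), tau r ≤
      (p : ℝ) * tau 1 + ∑ j ∈ Finset.range J, (15 * (16 ^ j * p : ℕ) : ℝ) * tau (16 ^ j * p) := by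
  induction J with
  | zero =>
    simp only [pow_zero, one_mul, Finset.range_zero, Finset.sum_empty, add_zero]
    have h3 : ∀ r ∈ Finset.Icc 1 (p - 1), tau r ≤ tau 1 := by
      intro r hr
      simp only [Finset.mem_Icc] at hr
      exact hanti _ _ le_rfl hr.1
    have h4 := Finset.sum_le_card_nsmul _ _ _ h3
    rw [Nat.card_Icc, nsmul_eq_mul] at h4
    refine h4.trans ?_
    have h1 := h0 1 le_rfl
    gcongr
    omega
  | succ J ih =>
    rw [Finset.sum_range_succ]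
    have hle : 16 ^ J * p ≤ 16 ^ (J + 1) * p := by
      apply Nat.mul_le_mul_right
      exact Nat.pow_le_pow_right (by norm_num) (Nat.le_succ J)
    have hpos : 1 ≤ 16 ^ J * p := Nat.one_le_iff_ne_zero.mpr (by positivity)
    have hsplit : Finset.Icc 1 (16 ^ (J + 1) * p - 1) =
        Finset.Icc 1 (16 ^ J * p - 1) ∪ Finset.Icc (16 ^ J * p) (16 ^ (J + 1) * p - 1) := by
      ext x
      simp only [Finset.mem_Icc, Finset.mem_union]
      omega
    have hdisj : Disjoint (Finset.Icc 1 (16 ^ J * p - 1))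
        (Finset.Icc (16 ^ J * p) (16 ^ (J + 1) * p - 1)) := by
      rw [Finset.disjoint_left]
      intro x hx hx'
      simp only [Finset.mem_Icc] at hx hx'
      omega
    rw [hsplit, Finset.sum_union hdisj]
    have hcard : (Finset.Icc (16 ^ J * p) (16 ^ (J + 1) * p - 1)).card = 15 * (16 ^ J * p) := by
      rw [Nat.card_Icc]
      have : 16 ^ (J + 1) * p = 16 * (16 ^ J * p) := by ring
      omega
    have h2 : ∑ r ∈ Finset.Icc (16 ^ J * p) (16 ^ (J + 1) * p - 1), tau r ≤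
        (15 * (16 ^ J * p : ℕ) : ℝ) * tau (16 ^ J * p) := by
      have h3 : ∀ r ∈ Finset.Icc (16 ^ J * p) (16 ^ (J + 1) * p - 1), tau r ≤ tau (16 ^ J * p) := by
        intro r hr
        simp only [Finset.mem_Icc] at hr
        exact hanti _ _ hpos hr.1
      have h4 := Finset.sum_le_card_nsmul _ _ _ h3
      rw [hcard, nsmul_eq_mul] at h4
      push_cast at h4 ⊢
      exact h4
    linarith

/-- **Closing inequality for sequences.** With `Q_j = 16^j * (128 q)`: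
`tau (256 Q_j) ≤ lam * tau (Q_j / 8) + h j` for `j < J` implies, for `L = ∑_{r < 256 Q_J} tau r`,
`L ≤ 256 Q_0 tau 1 + 32768 lam L + 3840 ∑_{j<J} Q_j h_j`. -/
theorem seq_closing {tau : ℕ → ℝ} (h0 : ∀ r, 1 ≤ r → 0 ≤ tau r)
    (hanti : ∀ a b, 1 ≤ a → a ≤ b → tau b ≤ tau a) {q : ℕ} (hq : 1 ≤ q) {lam : ℝ} (hlam : 0 ≤ lam)
    {h : ℕ → ℝ} {J : ℕ}
    (hstep : ∀ j < J, tau (256 * (16 ^ j * (128 * q))) ≤ lam * tau (16 * (16 ^ j * q)) + h j) :
    ∑ r ∈ Finset.Icc 1 (16 ^ J * (256 * (128 * q)) - 1), tau r ≤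
      (256 * (128 * q) : ℝ) * tau 1 +
      32768 * lam * ∑ r ∈ Finset.Icc 1 (16 ^ J * (256 * (128 * q)) - 1), tau r +
      3840 * ∑ j ∈ Finset.range J, (16 ^ j * (128 * q) : ℝ) * h j := by
  have h1 := sum_blocks_le h0 hanti (p := 256 * (128 * q)) (by omega) J
  have h2 := sum_disjoint_le hanti (q := q) J
  have h3 : ∑ j ∈ Finset.range J, (15 * (16 ^ j * (256 * (128 * q)) : ℕ) : ℝ) *
      tau (16 ^ j * (256 * (128 * q))) ≤
      ∑ j ∈ Finset.range J, ((32768 * lam) * ((15 * (16 ^ j * q : ℕ) : ℝ) * tau (16 * (16 ^ j * q))) +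
        3840 * ((16 ^ j * (128 * q) : ℝ) * h j)) := by
    apply Finset.sum_le_sum
    intro j hj
    have hj' := hstep j (Finset.mem_range.1 hj)
    have e1 : 16 ^ j * (256 * (128 * q)) = 256 * (16 ^ j * (128 * q)) := by ring
    rw [e1]
    push_cast
    have hc : (0 : ℝ) ≤ 15 * (256 * (16 ^ j * (128 * (q : ℝ)))) := by positivity
    calc 15 * (256 * (16 ^ j * (128 * (q : ℝ)))) * tau (256 * (16 ^ j * (128 * q)))
        ≤ 15 * (256 * (16 ^ j * (128 * (q : ℝ)))) * (lam * tau (16 * (16 ^ j * q)) + h j) :=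
          mul_le_mul_of_nonneg_left hj' hc
      _ = _ := by ring
  rw [Finset.sum_add_distrib, ← Finset.mul_sum, ← Finset.mul_sum] at h3
  have h4 : ∑ r ∈ Finset.Icc (q + 1) (16 ^ J * q), tau r ≤
      ∑ r ∈ Finset.Icc 1 (16 ^ J * (256 * (128 * q)) - 1), tau r := by
    apply Finset.sum_le_sum_of_subset_of_nonneg
    · intro x hx
      simp only [Finset.mem_Icc] at hx ⊢
      refine ⟨by omega, ?_⟩
      have : 16 ^ J * q + 1 ≤ 16 ^ J * (256 * (128 * q)) := by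
        have hp : 1 ≤ 16 ^ J * q := Nat.one_le_iff_ne_zero.mpr (by positivity)
        calc 16 ^ J * q + 1 ≤ 2 * (16 ^ J * q) := by omega
          _ ≤ 32768 * (16 ^ J * q) := by omega
          _ = 16 ^ J * (256 * (128 * q)) := by ring
      omega
    · intro i hi _
      simp only [Finset.mem_Icc] at hi
      exact h0 i hi.1
  have h5 : 32768 * lam * ∑ j ∈ Finset.range J, ((15 * (16 ^ j * q : ℕ) : ℝ) * tau (16 * (16 ^ j * q))) ≤
      32768 * lam * ∑ r ∈ Finset.Icc 1 (16 ^ J * (256 * (128 * q)) - 1), tau r :=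
    mul_le_mul_of_nonneg_left (h2.trans h4) (by positivity)
  push_cast at h1 h3 h5 ⊢
  linarith

/-! ### Largest good dyadic cells -/

/-- dyadic cell. -/
def cell (j : ℕ) (m : ℤ) : Set ℝ := {t | ⌊t * 2 ^ j⌋ = m}

theorem measurableSet_cell (j : ℕ) (m : ℤ) : MeasurableSet (cell j m) := by
  have : Measurable fun t : ℝ => ⌊t * 2 ^ j⌋ := Int.measurable_floor.comp (measurable_id.mul_const _)
  exact this (measurableSet_singleton m)

theorem cell_eq_Ico (j : ℕ) (m : ℤ) : cell j m = Ico ((m : ℝ) / 2 ^ j) (((m : ℝ) + 1) / 2 ^ j) := by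
  ext t
  have h2 : (0 : ℝ) < 2 ^ j := by positivity
  simp only [cell, Set.mem_ofPred_eq, Int.floor_eq_iff, mem_Ico, div_le_iff₀ h2, lt_div_iff₀ h2]

theorem floor_coarse (t : ℝ) {i j : ℕ} (hij : i ≤ j) :
    ⌊t * 2 ^ i⌋ = ⌊t * 2 ^ j⌋ / ((2 ^ (j - i) : ℕ) : ℤ) := by
  rw [← Int.floor_div_natCast]
  congr 1
  have h2 : (0 : ℝ) < 2 ^ (j - i) := by positivity
  push_cast
  rw [eq_div_iff h2.ne']
  rw [mul_assoc, ← pow_add]
  congr 2
  omega

/-- the largest good cells. -/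
def top (J0 J1 : ℕ) (good : ℕ → ℤ → Prop) (p : ℕ × ℤ) : Prop :=
  J0 ≤ p.1 ∧ p.1 ≤ J1 ∧ good p.1 p.2 ∧
    ∀ i, J0 ≤ i → i < p.1 → ¬ good i (p.2 / ((2 ^ (p.1 - i) : ℕ) : ℤ))

theorem exists_top {J0 J1 : ℕ} {good : ℕ → ℤ → Prop} {t : ℝ}
    (h : ∃ j, J0 ≤ j ∧ j ≤ J1 ∧ good j ⌊t * 2 ^ j⌋) :
    ∃ j, top J0 J1 good (j, ⌊t * 2 ^ j⌋) := by
  classical
  let j := Nat.find h
  have hj := Nat.find_spec h
  refine ⟨j, hj.1, hj.2.1, hj.2.2, ?_⟩
  intro i hi0 hij hg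
  have hmin := Nat.find_min h hij
  apply hmin
  refine ⟨hi0, hij.le.trans hj.2.1, ?_⟩
  rw [floor_coarse t hij.le]
  exact hg

theorem top_disjoint {J0 J1 : ℕ} {good : ℕ → ℤ → Prop} {p q : ℕ × ℤ}
    (hp : top J0 J1 good p) (hq : top J0 J1 good q) {t : ℝ} (ht : t ∈ cell p.1 p.2)
    (ht' : t ∈ cell q.1 q.2) : p = q := by
  have key : ∀ p q : ℕ × ℤ, top J0 J1 good p → top J0 J1 good q → t ∈ cell p.1 p.2 →
      t ∈ cell q.1 q.2 → ¬ p.1 < q.1 := by
    intro p q hp hq ht ht' hlt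
    have h1 : ⌊t * 2 ^ p.1⌋ = p.2 := ht
    have h2 : ⌊t * 2 ^ q.1⌋ = q.2 := ht'
    apply hq.2.2.2 p.1 hp.1 hlt
    rw [← h2, ← floor_coarse t hlt.le, h1]
    exact hp.2.2.1
  have h3 : p.1 = q.1 := le_antisymm (not_lt.1 (key q p hq hp ht' ht)) (not_lt.1 (key p q hp hq ht ht'))
  have h1 : ⌊t * 2 ^ p.1⌋ = p.2 := ht
  have h2 : ⌊t * 2 ^ q.1⌋ = q.2 := ht'
  ext
  · exact h3
  · rw [← h1, ← h2, h3]

/-- **Payment over the largest good dyadic cells**, weighted form: if on every good cell with scale in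
`[J0, J1]` one has `∫_cell f ≤ lam ∫_cell g`, then `∫_{t in some good cell} f ≤ lam ∫ g`. -/
theorem pay_dyadic {ν : Measure ℝ} {J0 J1 : ℕ} {good : ℕ → ℤ → Prop} {f g : ℝ → ℝ≥0∞} {lam : ℝ≥0∞}
    (hpay : ∀ j m, J0 ≤ j → j ≤ J1 → good j m → ∫⁻ t in cell j m, f t ∂ν ≤ lam * ∫⁻ t in cell j m, g t ∂ν) :
    ∫⁻ t in {t | ∃ j, J0 ≤ j ∧ j ≤ J1 ∧ good j ⌊t * 2 ^ j⌋}, f t ∂ν ≤ lam * ∫⁻ t, g t ∂ν := by
  classical
  let ι := {p : ℕ × ℤ // top J0 J1 good p}
  have hsub : {t : ℝ | ∃ j, J0 ≤ j ∧ j ≤ J1 ∧ good j ⌊t * 2 ^ j⌋} ⊆ ⋃ p : ι, cell p.1.1 p.1.2 := by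
    intro t ht
    obtain ⟨j, hj⟩ := exists_top ht
    exact mem_iUnion.2 ⟨⟨(j, ⌊t * 2 ^ j⌋), hj⟩, rfl⟩
  have hdisj : Pairwise (Function.onFun Disjoint fun p : ι => cell p.1.1 p.1.2) := by
    intro p q hpq
    rw [Function.onFun, Set.disjoint_left]
    intro t ht ht'
    exact hpq (Subtype.ext (top_disjoint p.2 q.2 ht ht'))
  calc ∫⁻ t in {t | ∃ j, J0 ≤ j ∧ j ≤ J1 ∧ good j ⌊t * 2 ^ j⌋}, f t ∂ν
      ≤ ∫⁻ t in ⋃ p : ι, cell p.1.1 p.1.2, f t ∂ν := lintegral_mono_set hsub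
    _ ≤ ∑' p : ι, ∫⁻ t in cell p.1.1 p.1.2, f t ∂ν := lintegral_iUnion_le _ _
    _ ≤ ∑' p : ι, lam * ∫⁻ t in cell p.1.1 p.1.2, g t ∂ν := by
        apply ENNReal.tsum_le_tsum
        intro p
        exact hpay _ _ p.2.1 p.2.2.1 p.2.2.2.1
    _ = lam * ∑' p : ι, ∫⁻ t in cell p.1.1 p.1.2, g t ∂ν := ENNReal.tsum_mul_left
    _ = lam * ∫⁻ t in ⋃ p : ι, cell p.1.1 p.1.2, g t ∂ν := by
        rw [lintegral_iUnion (fun p : ι => measurableSet_cell p.1.1 p.1.2) hdisj]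
    _ ≤ lam * ∫⁻ t, g t ∂ν := by
        gcongr
        exact Measure.restrict_le_self

/-- Set version: `ν (E ∩ {t in some good cell}) ≤ lam ν G`. -/
theorem pay_dyadic_set {ν : Measure ℝ} {J0 J1 : ℕ} {good : ℕ → ℤ → Prop} {E G : Set ℝ} {lam : ℝ≥0∞}
    (hE : MeasurableSet E) (hG : MeasurableSet G)
    (hpay : ∀ j m, J0 ≤ j → j ≤ J1 → good j m → ν (E ∩ cell j m) ≤ lam * ν (cell j m))
    (hcell : ∀ j m, J0 ≤ j → j ≤ J1 → good j m → cell j m ⊆ G) :
    ν (E ∩ {t | ∃ j, J0 ≤ j ∧ j ≤ J1 ∧ good j ⌊t * 2 ^ j⌋}) ≤ lam * ν G := by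
  have h := pay_dyadic (ν := ν) (J0 := J0) (J1 := J1) (good := good)
    (f := E.indicator 1) (g := G.indicator 1) (lam := lam) ?_
  · rw [lintegral_indicator_one hE, lintegral_indicator_one hG,
      Measure.restrict_apply hE] at h
    exact h
  · intro j m h1 h2 h3
    rw [lintegral_indicator_one hE, lintegral_indicator_one hG,
      Measure.restrict_apply hE, Measure.restrict_apply hG,
      inter_eq_right.mpr (hcell j m h1 h2 h3)]
    exact hpay j m h1 h2 h3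

end Crest.Agent.R128.BlockSeq
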