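import Mathlib

/-!
# Row 128: the block argument of the exploration (abstract form)

`alive l` = "the tip is aligned up to level `l`" (antitone in `l`), `Q j` = block ends,
`charge j` = charge of the arms attached in block `j`.  If every poor block costs a factor `lam`
(conditionally on the past, integrated form over sets measurable at time `j`) and
`B * lam <= 1/2`, where `Q (j+1) <= B * Q j`, then the expected height is bounded by a constant
plus a constant times the expected charge of the *true* children.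
-/

open MeasureTheory
open scoped ENNReal

namespace Crest.Agent.R128.Blocks

/-- `s ≤ x + s/2` with `s` finite gives `s ≤ 2x`. -/
theorem le_two_mul_of_le_add_half {s x : ℝ≥0∞} (hs : s ≠ ∞) (h : s ≤ x + s / 2) : s ≤ 2 * x := by
  by_cases hx : x = ∞
  · simp [hx]
  have h1 : s / 2 + s / 2 ≤ x + s / 2 := by rwa [ENNReal.add_halves]
  have h2 : s / 2 ≠ ∞ := (ENNReal.div_lt_top hs (by norm_num)).ne
  have h3 : s / 2 ≤ x := (ENNReal.add_le_add_iff_right h2).1 h1
  calc s = s / 2 + s / 2 := (ENNReal.add_halves s).symm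
    _ ≤ x + x := add_le_add h3 h3
    _ = 2 * x := (two_mul x).symm

/-- Purely numerical form. -/
theorem sum_blocks_le (a r q : ℕ → ℝ≥0∞) (lam B : ℝ≥0∞)
    (ha : ∀ j, a j ≠ ∞) (hqt : ∀ j, q j ≠ ∞)
    (hq : ∀ j, q (j + 1) ≤ B * q j) (hB : B * lam ≤ 1 / 2)
    (h : ∀ j, a (j + 1) ≤ r (j + 1) + lam * a j) (J : ℕ) :
    ∑ j ∈ Finset.range (J + 1), q j * a j
      ≤ 2 * (q 0 * a 0 + ∑ j ∈ Finset.range J, q (j + 1) * r (j + 1)) := by
  apply le_two_mul_of_le_add_half
  · exact (ENNReal.sum_lt_top.2 fun j _ => ENNReal.mul_lt_top (lt_top_iff_ne_top.2 (hqt j))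
      (lt_top_iff_ne_top.2 (ha j))).ne
  · rw [Finset.sum_range_succ']
    have h1 : ∀ j, q (j + 1) * a (j + 1) ≤ q (j + 1) * r (j + 1) + (1 / 2) * (q j * a j) := by
      intro j
      calc q (j + 1) * a (j + 1) ≤ q (j + 1) * (r (j + 1) + lam * a j) := by gcongr; exact h j
        _ = q (j + 1) * r (j + 1) + q (j + 1) * (lam * a j) := mul_add _ _ _
        _ ≤ q (j + 1) * r (j + 1) + (B * q j) * (lam * a j) := by gcongr; exact hq j
        _ = q (j + 1) * r (j + 1) + (B * lam) * (q j * a j) := by ring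
        _ ≤ q (j + 1) * r (j + 1) + (1 / 2) * (q j * a j) := by gcongr
    have h2 : ∑ j ∈ Finset.range J, q j * a j ≤ ∑ j ∈ Finset.range (J + 1), q j * a j :=
      Finset.sum_le_sum_of_subset (Finset.range_mono (Nat.le_succ J))
    calc (∑ j ∈ Finset.range J, q (j + 1) * a (j + 1)) + q 0 * a 0
        ≤ (∑ j ∈ Finset.range J, (q (j + 1) * r (j + 1) + (1 / 2) * (q j * a j))) + q 0 * a 0 := by
          gcongr with j _
          exact h1 j
      _ = q 0 * a 0 + (∑ j ∈ Finset.range J, q (j + 1) * r (j + 1))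
            + (1 / 2) * ∑ j ∈ Finset.range J, q j * a j := by
          rw [Finset.sum_add_distrib, Finset.mul_sum]; ring
      _ ≤ q 0 * a 0 + (∑ j ∈ Finset.range J, q (j + 1) * r (j + 1))
            + (1 / 2) * ∑ j ∈ Finset.range (J + 1), q j * a j := by gcongr
      _ = _ := by
          rw [← Finset.sum_range_succ' (fun j => q j * a j) J, ENNReal.div_eq_inv_mul,
            ENNReal.div_eq_inv_mul, mul_one]

/-- Recursion for the probability of being alive at the end of a block: rich or one payment. -/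
theorem alive_step {Ω : Type*} [MeasurableSpace Ω] (μ : Measure Ω)
    (F : ℕ → MeasurableSpace Ω) (A R : ℕ → Set Ω) (lam : ℝ≥0∞)
    (hA : ∀ j, A (j + 1) ⊆ A j) (hAm : ∀ j, MeasurableSet[F j] (A j))
    (hblock : ∀ j (S : Set Ω), MeasurableSet[F j] S → μ (S ∩ (A (j + 1) \ R (j + 1))) ≤ lam * μ S)
    (j : ℕ) : μ (A (j + 1)) ≤ μ (A (j + 1) ∩ R (j + 1)) + lam * μ (A j) := by
  calc μ (A (j + 1)) ≤ μ ((A (j + 1) ∩ R (j + 1)) ∪ (A j ∩ (A (j + 1) \ R (j + 1)))) := by
        apply measure_mono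
        intro x hx
        by_cases hR : x ∈ R (j + 1)
        · exact Or.inl ⟨hx, hR⟩
        · exact Or.inr ⟨hA j hx, hx, hR⟩
    _ ≤ μ (A (j + 1) ∩ R (j + 1)) + μ (A j ∩ (A (j + 1) \ R (j + 1))) := measure_union_le _ _
    _ ≤ μ (A (j + 1) ∩ R (j + 1)) + lam * μ (A j) := by gcongr; exact hblock j _ (hAm j)

/-- Markov's inequality on a set: `q * μ (A ∩ {θ q ≤ c}) ≤ θ⁻¹ ∫_A c`. -/
theorem mul_rich_le {Ω : Type*} [MeasurableSpace Ω] (μ : Measure Ω) {A : Set Ω}
    (c : Ω → ℝ≥0∞) (hc : Measurable c) (th q : ℝ≥0∞) (hth : th ≠ 0) (hth' : th ≠ ∞)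
    : q * μ (A ∩ {ω | th * q ≤ c ω}) ≤ th⁻¹ * ∫⁻ ω in A, c ω ∂μ := by
  have hset : MeasurableSet {ω | th * q ≤ c ω} := measurableSet_le measurable_const hc
  have h1 : (th * q) * μ (A ∩ {ω | th * q ≤ c ω}) ≤ ∫⁻ ω in A, c ω ∂μ := by
    have := mul_meas_ge_le_lintegral (μ := μ.restrict A) hc (th * q)
    rwa [Measure.restrict_apply hset, Set.inter_comm] at this
  calc q * μ (A ∩ {ω | th * q ≤ c ω})
      = th⁻¹ * ((th * q) * μ (A ∩ {ω | th * q ≤ c ω})) := by
        rw [← mul_assoc, ← mul_assoc, ENNReal.inv_mul_cancel hth hth', one_mul]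
    _ ≤ _ := by gcongr

/-- **The block theorem.**  `alive` antitone, `Q` nondecreasing block ends with `Q (j+1) ≤ B Q j`,
`charge j` the charge of the arms attached in block `j`; block `j` is poor if
`charge j < th * Q j`; every poor block costs `lam` conditionally on `F j`; `B * lam ≤ 1/2`. -/
theorem sum_alive_le {Ω : Type*} [MeasurableSpace Ω] (μ : Measure Ω) [IsFiniteMeasure μ]
    (F : ℕ → MeasurableSpace Ω) (alive : ℕ → Set Ω) (hanti : Antitone alive)
    (Q : ℕ → ℕ) (hQm : Monotone Q) (B : ℕ) (hQB : ∀ j, Q (j + 1) ≤ B * Q j)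
    (charge : ℕ → Ω → ℝ≥0∞) (hcm : ∀ j, Measurable (charge j))
    (th lam : ℝ≥0∞) (hth : th ≠ 0) (hth' : th ≠ ∞) (hB : (B : ℝ≥0∞) * lam ≤ 1 / 2)
    (hAm : ∀ j, MeasurableSet[F j] (alive (Q j)))
    (hblock : ∀ j (S : Set Ω), MeasurableSet[F j] S →
      μ (S ∩ (alive (Q (j + 1)) \ {ω | th * (Q (j + 1) : ℝ≥0∞) ≤ charge (j + 1) ω})) ≤ lam * μ S)
    (J : ℕ) :
    ∑ l ∈ Finset.range (Q J), μ (alive l)
      ≤ Q 0 * μ Set.univ + 2 * B * (Q 0 * μ (alive (Q 0))
        + th⁻¹ * ∑ j ∈ Finset.range J, ∫⁻ ω in alive (Q (j + 1)), charge (j + 1) ω ∂μ) := by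
  -- sum over levels by blocks
  have hsplit : ∀ J, ∑ l ∈ Finset.range (Q J), μ (alive l)
      ≤ Q 0 * μ Set.univ + ∑ j ∈ Finset.range J, (B : ℝ≥0∞) * (Q j * μ (alive (Q j))) := by
    intro J
    induction J with
    | zero =>
      simp only [Finset.range_zero, Finset.sum_empty, add_zero]
      calc ∑ l ∈ Finset.range (Q 0), μ (alive l) ≤ ∑ _l ∈ Finset.range (Q 0), μ Set.univ :=
            Finset.sum_le_sum fun l _ => measure_mono (Set.subset_univ _)
        _ = Q 0 * μ Set.univ := by simp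
    | succ J ih =>
      have h1 : ∑ l ∈ Finset.range (Q (J + 1)), μ (alive l)
          = ∑ l ∈ Finset.range (Q J), μ (alive l) + ∑ l ∈ Finset.Ico (Q J) (Q (J + 1)), μ (alive l) :=
        (Finset.sum_range_add_sum_Ico _ (hQm (Nat.le_succ J))).symm
      have h2 : ∑ l ∈ Finset.Ico (Q J) (Q (J + 1)), μ (alive l)
          ≤ (B : ℝ≥0∞) * (Q J * μ (alive (Q J))) := by
        calc ∑ l ∈ Finset.Ico (Q J) (Q (J + 1)), μ (alive l)
            ≤ ∑ _l ∈ Finset.Ico (Q J) (Q (J + 1)), μ (alive (Q J)) := by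
              apply Finset.sum_le_sum
              intro l hl
              exact measure_mono (hanti (Finset.mem_Ico.1 hl).1)
          _ = ((Q (J + 1) - Q J : ℕ) : ℝ≥0∞) * μ (alive (Q J)) := by simp
          _ ≤ ((B * Q J : ℕ) : ℝ≥0∞) * μ (alive (Q J)) := by
              gcongr
              exact (Nat.sub_le _ _).trans (hQB J)
          _ = _ := by push_cast; ring
      rw [h1, Finset.sum_range_succ, ← add_assoc]
      exact add_le_add ih h2
  refine (hsplit J).trans ?_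
  gcongr
  rw [← Finset.mul_sum, mul_comm (2 : ℝ≥0∞) (B : ℝ≥0∞), mul_assoc]
  gcongr
  -- numerical recursion
  have key := sum_blocks_le (fun j => μ (alive (Q j)))
    (fun j => μ (alive (Q j) ∩ {ω | th * (Q j : ℝ≥0∞) ≤ charge j ω}))
    (fun j => (Q j : ℝ≥0∞)) lam B (fun j => measure_ne_top _ _) (fun j => ENNReal.natCast_ne_top _)
    (fun j => by exact_mod_cast hQB j) hB
    (fun j => alive_step μ F (fun j => alive (Q j))
      (fun j => {ω | th * (Q j : ℝ≥0∞) ≤ charge j ω}) lam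
      (fun j => hanti (hQm (Nat.le_succ j))) hAm hblock j) J
  calc ∑ j ∈ Finset.range J, (Q j : ℝ≥0∞) * μ (alive (Q j))
      ≤ ∑ j ∈ Finset.range (J + 1), (Q j : ℝ≥0∞) * μ (alive (Q j)) :=
        Finset.sum_le_sum_of_subset (Finset.range_mono (Nat.le_succ J))
    _ ≤ 2 * (Q 0 * μ (alive (Q 0)) + ∑ j ∈ Finset.range J, (Q (j + 1) : ℝ≥0∞) *
          μ (alive (Q (j + 1)) ∩ {ω | th * (Q (j + 1) : ℝ≥0∞) ≤ charge (j + 1) ω})) := key
    _ ≤ 2 * (Q 0 * μ (alive (Q 0))
        + th⁻¹ * ∑ j ∈ Finset.range J, ∫⁻ ω in alive (Q (j + 1)), charge (j + 1) ω ∂μ) := by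
        rw [Finset.mul_sum]
        refine mul_le_mul_right ?_ _
        refine add_le_add le_rfl (Finset.sum_le_sum fun j _ => ?_)
        exact mul_rich_le μ (charge (j + 1)) (hcm (j + 1)) th _ hth hth'

end Crest.Agent.R128.Blocks
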