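import Mathlib

/-!
# Row 128, order of limits (helper438)

Bootstrap in the height `H` with the quantifier over the length `N` of the orbit inside,
and the limit lemma for the single cover.
-/

set_option autoImplicit false
open Finset MeasureTheory

namespace Crest.Agent.R128.BootAll

/-- bootstrap in `H`, all lengths `N` at the same time -/
theorem bootstrap_forall {L : ℕ → ℕ → ℝ} {h0 : ℕ} {d : ℝ}
    (hbase : ∀ N, L N h0 ≤ d) (hgrow : ∀ N H, h0 ≤ H → L N (H + 1) ≤ 2 * L N H)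
    (hstep : ∀ H, h0 ≤ H → (∀ N, L N H ≤ d) → ∀ N, L N H ≤ d / 2) :
    ∀ H, h0 ≤ H → ∀ N, L N H ≤ d / 2 := by
  intro H hH
  induction H, hH using Nat.le_induction with
  | base => exact hstep h0 le_rfl hbase
  | succ H hH ih =>
    refine hstep (H + 1) (by omega) fun N => ?_
    have h1 := hgrow N H hH
    have h2 := ih N
    linarith

/-- sums of an antitone sequence: `L (H+1) ≤ 2 L H` -/
theorem sum_succ_le {τ : ℕ → ℝ} (hanti : ∀ ⦃a b⦄, 1 ≤ a → a ≤ b → τ b ≤ τ a)
    (h0 : ∀ l, 1 ≤ l → 0 ≤ τ l) {H : ℕ} (hH : 1 ≤ H) :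
    ∑ l ∈ Icc 1 (H + 1), τ l ≤ 2 * ∑ l ∈ Icc 1 H, τ l := by
  rw [Finset.sum_Icc_succ_top (by omega)]
  have h1 : τ (H + 1) ≤ τ H := hanti hH (by omega)
  have h2 : τ H ≤ ∑ l ∈ Icc 1 H, τ l :=
    Finset.single_le_sum (f := τ) (fun i hi => h0 i (Finset.mem_Icc.mp hi).1)
      (Finset.mem_Icc.mpr ⟨hH, le_rfl⟩)
  linarith

/-- sums of an antitone sequence: `L (c H) ≤ c L H` -/
theorem sum_mul_le {τ : ℕ → ℝ} (hanti : ∀ ⦃a b⦄, 1 ≤ a → a ≤ b → τ b ≤ τ a)
    (c H : ℕ) : ∑ l ∈ Icc 1 (c * H), τ l ≤ c * ∑ l ∈ Icc 1 H, τ l := by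
  induction c with
  | zero => simp
  | succ c ih =>
    have e : Icc 1 ((c + 1) * H) = Icc 1 (c * H) ∪ (Icc 1 H).image (fun l => c * H + l) := by
      ext l
      simp only [Finset.mem_Icc, Finset.mem_union, Finset.mem_image]
      constructor
      · rintro ⟨h1, h2⟩
        rcases le_or_gt l (c * H) with h | h
        · exact Or.inl ⟨h1, h⟩
        · refine Or.inr ⟨l - c * H, ⟨by omega, ?_⟩, by omega⟩
          have : (c + 1) * H = c * H + H := by ring
          omega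
      · rintro (⟨h1, h2⟩ | ⟨l', ⟨h1, h2⟩, rfl⟩)
        · exact ⟨h1, h2.trans (by nlinarith)⟩
        · have : (c + 1) * H = c * H + H := by ring
          omega
    have hd : Disjoint (Icc 1 (c * H)) ((Icc 1 H).image (fun l => c * H + l)) := by
      rw [Finset.disjoint_left]
      intro l h1 h2
      simp only [Finset.mem_Icc, Finset.mem_image] at h1 h2
      obtain ⟨l', ⟨h3, h4⟩, rfl⟩ := h2
      omega
    rw [e, Finset.sum_union hd, Finset.sum_image (by intro a _ b _ h; simpa using h)]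
    have h2 : ∑ l ∈ Icc 1 H, τ (c * H + l) ≤ ∑ l ∈ Icc 1 H, τ l := by
      refine Finset.sum_le_sum fun l hl => ?_
      exact hanti (Finset.mem_Icc.mp hl).1 (by omega)
    push_cast
    linarith

/-- the bootstrap for `L N H = ∑_{l ≤ H} τ N l` -/
theorem bootstrap_sum {τ : ℕ → ℕ → ℝ} {h0 : ℕ} {d : ℝ} (hh0 : 1 ≤ h0)
    (hanti : ∀ N, ∀ ⦃a b⦄, 1 ≤ a → a ≤ b → τ N b ≤ τ N a) (hnn : ∀ N l, 1 ≤ l → 0 ≤ τ N l)
    (hbase : ∀ N, ∑ l ∈ Icc 1 h0, τ N l ≤ d)
    (hstep : ∀ H, h0 ≤ H → (∀ N, ∑ l ∈ Icc 1 H, τ N l ≤ d) →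
      ∀ N, ∑ l ∈ Icc 1 H, τ N l ≤ d / 2) :
    ∀ N R, ∑ l ∈ Icc 1 R, τ N l ≤ d / 2 := by
  intro N R
  have key := bootstrap_forall (L := fun N H => ∑ l ∈ Icc 1 H, τ N l) hbase
    (fun N H hH => sum_succ_le (hanti N) (hnn N) (hh0.trans hH)) hstep
  rcases le_or_gt h0 R with h | h
  · exact key R h N
  · refine le_trans ?_ (key h0 le_rfl N)
    exact Finset.sum_le_sum_of_subset_of_nonneg (Finset.Icc_subset_Icc le_rfl h.le)
      fun l hl _ => hnn N l (Finset.mem_Icc.mp hl).1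

/-- limit lemma of the single cover: count on `[0, N']`, let `N' → ∞` -/
theorem limit_le {x y C C' : ℝ} {M : ℕ}
    (h : ∀ N' : ℕ, 2 * M < N' → ((N' : ℝ) - 2 * M) * x ≤ C * N' * y + C') : x ≤ C * y := by
  by_contra hc
  push Not at hc
  have hpos : 0 < x - C * y := by linarith
  obtain ⟨n, hn⟩ := exists_nat_gt ((2 * M * x + C') / (x - C * y))
  rw [div_lt_iff₀ hpos] at hn
  have h1 := h (n + 2 * M + 1) (by omega)
  push_cast at h1
  have hM : (0 : ℝ) ≤ M := Nat.cast_nonneg M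
  nlinarith

/-- the same with the values `y N'` bounded by `y` -/
theorem limit_le' {x y C C' : ℝ} {M : ℕ} {Y : ℕ → ℝ} (hC : 0 ≤ C) (hY : ∀ N', Y N' ≤ y)
    (h : ∀ N' : ℕ, 2 * M < N' → ((N' : ℝ) - 2 * M) * x ≤ C * N' * Y N' + C') : x ≤ C * y := by
  refine limit_le (C' := C') (M := M) fun N' hN' => (h N' hN').trans ?_
  have : C * (N' : ℝ) * Y N' ≤ C * N' * y :=
    mul_le_mul_of_nonneg_left (hY N') (by positivity)
  linarith

section Area

variable {Ω : Type*} [MeasurableSpace Ω] {μ : Measure Ω}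

/-- counting the visits of a stationary set at the times in `[a, b)` -/
theorem lintegral_card {F : Ω → Ω} (hF : MeasurePreserving F μ μ) {S : Set Ω}
    (hS : MeasurableSet S) (a b : ℕ) [∀ z, DecidablePred fun n => F^[n] z ∈ S] :
    ∫⁻ z, (((Ico a b).filter (fun n => F^[n] z ∈ S)).card : ENNReal) ∂μ
      = ((b - a : ℕ) : ENNReal) * μ S := by
  have h1 : ∀ z, (((Ico a b).filter (fun n => F^[n] z ∈ S)).card : ENNReal)
      = ∑ n ∈ Ico a b, S.indicator (fun _ => (1 : ENNReal)) (F^[n] z) := by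
    intro z
    rw [Finset.card_filter]
    push_cast
    refine Finset.sum_congr rfl fun n _ => ?_
    by_cases h : F^[n] z ∈ S
    · rw [if_pos h, Set.indicator_of_mem h]
    · rw [if_neg h, Set.indicator_of_notMem h]
  simp_rw [h1]
  rw [lintegral_finsetSum' (Ico a b) (f := fun n z => S.indicator (fun _ => (1 : ENNReal)) (F^[n] z))
    fun n _ => ((measurable_const.indicator hS).comp (hF.iterate n).measurable).aemeasurable]
  have h2 : ∀ n, ∫⁻ z, S.indicator (fun _ => (1 : ENNReal)) (F^[n] z) ∂μ = μ S := by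
    intro n
    rw [(hF.iterate n).lintegral_comp (f := S.indicator fun _ => (1 : ENNReal))
      (measurable_const.indicator hS), lintegral_indicator hS]
    simp
  simp_rw [h2]
  rw [Finset.sum_const, Nat.card_Ico, nsmul_eq_mul]

/-- **single cover, limit form** (probability measure): if for every `N' > 2M` the number of
times in `[M, N'-M)` at which the orbit is in `S` is at most `X N' z`, with
`∫ X N' ≤ C N' y + C'`, then `μ S ≤ C y`. -/
theorem area_le [IsProbabilityMeasure μ] {F : Ω → Ω} (hF : MeasurePreserving F μ μ) {S : Set Ω}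
    (hS : MeasurableSet S) [∀ z, DecidablePred fun n => F^[n] z ∈ S] {M : ℕ} {C C' y : ℝ}
    {X : ℕ → Ω → ENNReal} (hC : 0 ≤ C) (hy : 0 ≤ y) (hC' : 0 ≤ C')
    (hX : ∀ N' z, (((Ico M (N' - M)).filter (fun n => F^[n] z ∈ S)).card : ENNReal) ≤ X N' z)
    (hI : ∀ N' : ℕ, 2 * M < N' → ∫⁻ z, X N' z ∂μ ≤ ENNReal.ofReal (C * N' * y + C')) :
    μ.real S ≤ C * y := by
  refine limit_le (C' := C') (M := M) fun N' hN' => ?_
  have h1 := lintegral_card hF hS M (N' - M)
  have h2 : ((N' - M - M : ℕ) : ENNReal) * μ S ≤ ENNReal.ofReal (C * N' * y + C') := by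
    rw [← h1]
    exact (lintegral_mono (hX N')).trans (hI N' hN')
  have h3 : (((N' - M - M : ℕ) : ENNReal) * μ S).toReal ≤ C * N' * y + C' := by
    refine ENNReal.toReal_le_of_le_ofReal (by positivity) h2
  rw [ENNReal.toReal_mul, ENNReal.toReal_natCast] at h3
  have h4 : ((N' - M - M : ℕ) : ℝ) = N' - 2 * M := by
    rw [Nat.sub_sub, Nat.cast_sub (by omega)]
    push_cast
    ring
  rw [h4] at h3
  exact h3

end Area

end Crest.Agent.R128.BootAll
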