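import Mathlib
import Crest.Agent.R128.NestedInst

set_option autoImplicit false
set_option linter.unusedVariables false

/-! Row 128, MASTER v2, V1: the leaves (P1) of helper337.  Written by helper550. Sorry free. -/

open Crest.AnalysisR.StandardFamily
open scoped Matrix.Norms.L2Operator

namespace Crest.Agent.R128.HypInst

open Crest.Agent.R128.Hyp Crest.Agent.R128.Acc Crest.Agent.R128.NestedInst

theorem norm_Am_le' {k : ℝ} (hk : 2 ≤ k) (y : Tor) : ‖Am k y‖ ≤ 8 * k := by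
  have h1 := dg_le k (by linarith) y 0
  unfold dg at h1
  simp only [Function.iterate_zero, id_eq] at h1
  have hpi := Real.pi_lt_d2
  have h2 : |V k y.2| + 1 ≤ 8 * k := by nlinarith
  have hV := abs_nonneg (V k y.2)
  apply norm_le_of_ap (by linarith)
  intro v
  have e : ap (Am k y) v = -rot v + (V k y.2 * v 1) • (!₂[0, 1] : E2) + 0 := by
    ext i
    rw [ap_apply]
    unfold Am rot
    fin_cases i
    · simp
    · simp
  have h3 : ‖(!₂[0, 1] : E2)‖ ≤ 1 := by
    have h5 := norm_sq (!₂[0, 1] : E2)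
    simp at h5
    rcases h5 with h5 | h5
    · exact h5.le
    · linarith
  have hv1 : |v 1| ≤ ‖v‖ := by
    apply abs_le_of_sq_le_sq _ (norm_nonneg _)
    rw [norm_sq]
    nlinarith [sq_nonneg (v 0)]
  rw [e, add_zero]
  calc ‖-rot v + (V k y.2 * v 1) • (!₂[0, 1] : E2)‖ ≤ ‖-rot v‖ + ‖(V k y.2 * v 1) • (!₂[0, 1] : E2)‖ :=
        norm_add_le _ _
    _ ≤ ‖v‖ + |V k y.2| * ‖v‖ := by
        rw [norm_neg, norm_rot, norm_smul, Real.norm_eq_abs, abs_mul]
        have : |V k y.2| * |v 1| * ‖(!₂[0, 1] : E2)‖ ≤ |V k y.2| * ‖v‖ * 1 := by gcongr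
        linarith
    _ = (|V k y.2| + 1) * ‖v‖ := by ring
    _ ≤ 8 * k * ‖v‖ := by gcongr

theorem det_Mn' (k : ℝ) (n : ℕ) (z : Tor) : (Mn k n z).det = 1 := det_Mn k n z

/-- (P1a) -/
theorem hyp_inst {k : ℝ} (hk : 4 ≤ k) (z : Tor) :
    Tips.IsHyp (Hyp.dist (fun n => Mn k n z)) (Real.log 2 / 2) (Real.log (8 * k)) := by
  apply isHyp (fun n => det_Mn k n z)
  intro n
  have e : Mn k (n + 1) z * (Mn k n z)⁻¹ = Am k ((T k)^[n] z) := by
    rw [Mn_succ', Matrix.mul_assoc, Matrix.mul_nonsing_inv _ (by rw [det_Mn]; exact isUnit_one),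
      Matrix.mul_one]
  rw [e]
  have h1 := norm_Am_le' (by linarith : (2:ℝ) ≤ k) ((T k)^[n] z)
  have h2 := one_le_norm (det_Am k ((T k)^[n] z))
  exact Real.log_le_log (by linarith) h1

theorem dist_zero (k : ℝ) (z : Tor) (m : ℕ) :
    Hyp.dist (fun n => Mn k n z) 0 m = Real.log ‖Mn k m z‖ := by
  unfold Hyp.dist
  simp

/-- (P1b) -/
theorem bt_dist (k : ℝ) (z : Tor) (m : ℕ) :
    |bt (rr k z) m - Hyp.dist (fun n => Mn k n z) 0 m| ≤ Real.log 2 := by
  rw [dist_zero]
  exact near_bt k m z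

/-- the profile seen from time `v` -/
theorem dist_fwd (k : ℝ) (z : Tor) (v n : ℕ) :
    Hyp.dist (fun n => Mn k n z) v (v + n) = Real.log ‖Mn k n ((T k)^[v] z)‖ := by
  unfold Hyp.dist
  have h := Two.Aij_eq k v ((v + n : ℕ) : ℤ) z
  rw [Two.Az_natCast, Two.Az_natCast] at h
  simp only []
  rw [← h]
  unfold Two.Aij
  rw [show ((v + n : ℕ) : ℤ) - v = n by push_cast; ring, Two.Az_natCast, Two.Tz_natCast]

/-- (P1c) time reversal in the window `[0, N]`, with truncated subtraction the steps beyond `N` are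
trivial -/
theorem rev_inst {d : ℕ → ℕ → ℝ} {δ B : ℝ} (h : Tips.IsHyp d δ B) (N : ℕ) (hB : 0 ≤ B) :
    Tips.IsHyp (fun i j => d (N - i) (N - j)) δ B where
  symm i j := h.symm _ _
  self i := h.self _
  nonneg i j := h.nonneg _ _
  tri i j l := h.tri _ _ _
  hyp i j l w := h.hyp _ _ _ _
  step i := by
    rcases Nat.lt_or_ge i N with h1 | h1
    · have h2 := h.step (N - (i + 1))
      rw [show N - (i + 1) + 1 = N - i by omega] at h2
      rw [h.symm]
      exact h2
    · rw [show N - i = N - (i + 1) by omega, h.self]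
      exact hB
  δ_nonneg := h.δ_nonneg

end Crest.Agent.R128.HypInst
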