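import Mathlib
import Crest.Agent.R128.AlignLam
import Crest.Agent.R128.AccRoot

/-!
Row 128, node V5-LINK (helper862): from the root contour `β n = bt (rr k z) n` to intrinsic data at
`y = (T k)^[t] z`.

* `root_field`: a two-sided Jacobi field `x` at `y` with `max |x (-1)| |x 0| = 1` which is dominated by
  the root contour at ALL times (one field for all levels of all components containing `t`);
* `root_field_top`: if `β (t-1) < β t` then `|x 0| = 1`, `|x (-1)| < 1`;
* `nu_of_field`, `digit_of_field`: 220's alignment and digit equations with EXPLICIT feet;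
* `comp_field`: one closed component `(i,j)` of level `L` with top `t`.
-/

set_option autoImplicit false
open MeasureTheory Filter Topology
open Crest.Agent.R128 Crest.Agent.R128.Two Crest.Agent.R128.Acc Crest.Agent.R128.AlignMn
open Crest.Agent.R128.TreeSum Crest.Agent.R128.AlignLam

namespace Crest.Agent.R128.Link

/-- the field at `y = T^t z` given by the vector `v0` at the root -/
theorem Az_root (k : ℝ) (z : Tor) (t : ℕ) (v0 : ℝ × ℝ) {m : ℤ} (hm : -(t : ℤ) ≤ m) :
    act (Az k m ((T k)^[t] z)) (act (Mn k t z) v0) = act (Mn k (m + t).toNat z) v0 := by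
  have e1 : (T k)^[t] z = Tz k t z := by rw [Tz_natCast]
  rw [e1, ← Az_natCast, ← act_mul, ← Az_add]
  have e2 : m + t = (((m + t).toNat : ℕ) : ℤ) := (Int.toNat_of_nonneg (by omega)).symm
  conv_lhs => rw [e2]
  rw [Az_natCast]

/-- **root field** -/
theorem root_field (k : ℝ) (z : Tor) (t : ℕ) : ∃ x : ℤ → ℝ,
    (∀ n, x (n + 1) = dz k ((T k)^[t] z) n * x n - x (n - 1)) ∧ max |x (-1)| |x 0| = 1 ∧
    ∀ m : ℤ, -(t : ℤ) ≤ m →
      max |x (m - 1)| |x m| ≤ Real.exp (bt (rr k z) (m + t).toNat - bt (rr k z) t) := by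
  obtain ⟨e, he1, he2⟩ := exists_max (Mn k t z)
  have hnm : max (rn (Mn k t z) 0) (rn (Mn k t z) 1) = nm k t z := by
    unfold nm
    rw [rr_succ]
    rfl
  rw [hnm] at he2
  have hp := nm_pos k t z
  have he3 : ‖act (Mn k t z) e‖ = nm k t z := by
    apply le_antisymm _ he2
    refine (norm_act_Mn_le k t z e).trans ?_
    nlinarith
  have key : ∀ m, ‖act (Mn k m z) ((nm k t z)⁻¹ • e)‖ ≤
      Real.exp (bt (rr k z) m - bt (rr k z) t) := by
    intro m
    rw [act_smul, norm_smul, Real.exp_sub, exp_bt, exp_bt, norm_inv, Real.norm_of_nonneg hp.le,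
      div_eq_inv_mul]
    apply mul_le_mul_of_nonneg_left _ (inv_nonneg.mpr hp.le)
    refine (norm_act_Mn_le k m z e).trans ?_
    have := (nm_pos k m z)
    nlinarith
  set v0 : ℝ × ℝ := (nm k t z)⁻¹ • e with hv0
  set y := (T k)^[t] z with hy
  set v := act (Mn k t z) v0 with hv
  have hnorm : ∀ m : ℤ, -(t : ℤ) ≤ m →
      max |xf k y v (m - 1)| |xf k y v m| = ‖act (Mn k (m + t).toNat z) v0‖ := by
    intro m hm
    rw [← norm_act_Az, hy, hv, Az_root k z t v0 hm]
  refine ⟨xf k y v, fun n => xf_succ k y v n, ?_, ?_⟩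
  · have h := hnorm 0 (by omega)
    rw [zero_sub, zero_add, Int.toNat_natCast] at h
    rw [h, hv0, act_smul, norm_smul, he3, norm_inv, Real.norm_of_nonneg hp.le,
      inv_mul_cancel₀ hp.ne']
  · intro m hm
    rw [hnorm m hm]
    exact key _

/-- at a strict (from the left) top the field is normalised at `0` -/
theorem root_field_top (k : ℝ) (z : Tor) {t : ℕ} (ht : 0 < t)
    (htop : bt (rr k z) (t - 1) < bt (rr k z) t) : ∃ x : ℤ → ℝ,
    (∀ n, x (n + 1) = dz k ((T k)^[t] z) n * x n - x (n - 1)) ∧ |x 0| = 1 ∧ |x (-1)| < 1 ∧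
    ∀ m : ℤ, -(t : ℤ) ≤ m →
      max |x (m - 1)| |x m| ≤ Real.exp (bt (rr k z) (m + t).toNat - bt (rr k z) t) := by
  obtain ⟨x, hx, h1, h2⟩ := root_field k z t
  have h3 : |x (-1)| < 1 := by
    have h := h2 (-1) (by omega)
    have e : ((-1 : ℤ) + t).toNat = t - 1 := by omega
    rw [e] at h
    refine (le_max_right _ _).trans_lt (h.trans_lt ?_)
    rw [← Real.exp_zero]
    exact Real.exp_lt_exp.mpr (by linarith)
  refine ⟨x, hx, ?_, h3, h2⟩
  rcases max_choice |x (-1)| |x 0| with h | h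
  · rw [h] at h1
    linarith
  · rw [h] at h1
    exact h1

/-- 220's alignment with explicit feet -/
theorem nu_of_field {k : ℝ} {y : Tor} {x : ℤ → ℝ}
    (hx : ∀ n, x (n + 1) = dz k y n * x n - x (n - 1)) (h0 : |x 0| = 1) {i j : ℕ} {e : ℝ}
    (he : 0 < e) (hj : max |x (j : ℤ)| |x ((j : ℤ) + 1)| ≤ e)
    (hi : max |x (-(i : ℤ) - 1)| |x (-(i : ℤ))| ≤ e) :
    1 / (2 * e) ≤ nn (Wq (ap k y) j) ∧ 1 / (2 * e) ≤ nn (Wq (am k y) i) ∧
      |V k y.2 + nu (ap k y) j + nu (am k y) i| ≤ 8 * e ^ 2 := by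
  have hx0 : x 0 ≠ 0 := by
    intro h'
    rw [h', abs_zero] at h0
    exact zero_ne_one h0
  have hrec : x 1 + x (-1) = V k y.2 * x 0 := by
    have := hx 0
    rw [dz_zero] at this
    norm_num at this
    linarith
  have r1 := right_sol hx j
  have r2 := right_sol hx (j + 1)
  have l1 := left_sol hx i
  have l2 := left_sol hx (i + 1)
  have key : ∀ p q : ℝ, |p| ≤ e → |q| ≤ e → nn (p, q) ≤ 2 * e := by
    intro p q hp hq
    have := nn_le_add (p, q)
    simp only at this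
    linarith
  have hS1 : nn (W (ap k y) (x 0) (x 1) j) ≤ 2 * e := by
    unfold W
    apply key
    · rw [← r1]; exact (le_max_left _ _).trans hj
    · rw [← r2]
      have e1 : (((j + 1 : ℕ) : ℤ)) = (j : ℤ) + 1 := by push_cast; ring
      rw [e1]
      exact (le_max_right _ _).trans hj
  have hS2 : nn (W (am k y) (x 0) (x (-1)) i) ≤ 2 * e := by
    unfold W
    apply key
    · rw [← l1]; exact (le_max_right _ _).trans hi
    · rw [← l2]
      have e1 : (-((i + 1 : ℕ) : ℤ)) = -(i : ℤ) - 1 := by push_cast; ring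
      rw [e1]
      exact (le_max_left _ _).trans hi
  obtain ⟨h1, h2, h3⟩ := alignment_nu hrec (by positivity) hx0 hS1 hS2
  rw [h0] at h1 h2 h3
  refine ⟨h1, h2, h3.trans (le_of_eq ?_)⟩
  ring

/-- 220's digit equation with explicit feet -/
theorem digit_of_field {k : ℝ} {y : Tor} {x : ℤ → ℝ}
    (hx : ∀ n, x (n + 1) = dz k y n * x n - x (n - 1)) (h0 : |x 0| = 1) {i j : ℕ} {e : ℝ}
    (he : 0 < e) (hj : max |x (j : ℤ)| |x ((j : ℤ) + 1)| ≤ e)
    (hi : max |x (-(i : ℤ) - 1)| |x (-(i : ℤ))| ≤ e) {n n' : ℕ} (hn : n ≤ j) (hn' : n' ≤ i)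
    (q0 : Align.Q (ap k y) n ≠ 0) (q1 : Align.Q (ap k y) (n + 1) ≠ 0)
    (q2 : Align.Q (am k y) n' ≠ 0) (q3 : Align.Q (am k y) (n' + 1) ≠ 0) :
    |V k y.2 - Align.mu (ap k y) n - Align.mu (am k y) n'
          - 1 / (Align.Q (ap k y) n * Align.Q (ap k y) (n + 1))
          - 1 / (Align.Q (am k y) n' * Align.Q (am k y) (n' + 1))|
          ≤ 8 * e ^ 2 + err (ap k y) n j + err (am k y) n' i := by
  obtain ⟨-, -, h3⟩ := nu_of_field hx h0 he hj hi
  have c1 := nu_cut hn q0 q1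
  have c2 := nu_cut hn' q2 q3
  have e : V k y.2 - Align.mu (ap k y) n - Align.mu (am k y) n'
          - 1 / (Align.Q (ap k y) n * Align.Q (ap k y) (n + 1))
          - 1 / (Align.Q (am k y) n' * Align.Q (am k y) (n' + 1))
      = (V k y.2 + nu (ap k y) j + nu (am k y) i)
        - (nu (ap k y) j + (Align.mu (ap k y) n +
            1 / (Align.Q (ap k y) n * Align.Q (ap k y) (n + 1))))
        - (nu (am k y) i + (Align.mu (am k y) n' +
            1 / (Align.Q (am k y) n' * Align.Q (am k y) (n' + 1)))) := by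
    ring
  rw [e]
  refine (abs_sub _ _).trans (add_le_add ((abs_sub _ _).trans (add_le_add h3 c1)) c2)

/-- the two ends of a closed component of the root contour, seen from its top: `i < t < j`,
`β i ≤ L`, `β j ≤ L` (any real level `L`).  The feet in the notation of `nu_of_field` are
`j - t - 1` (right) and `t - i` (left). -/
theorem comp_ends {k : ℝ} {z : Tor} {t : ℕ} {x : ℤ → ℝ}
    (h2 : ∀ m : ℤ, -(t : ℤ) ≤ m →
      max |x (m - 1)| |x m| ≤ Real.exp (bt (rr k z) (m + t).toNat - bt (rr k z) t))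
    {i j : ℕ} (hit : i < t) (htj : t < j) {L : ℝ} (hi : bt (rr k z) i ≤ L)
    (hj : bt (rr k z) j ≤ L) :
    max |x ((j - t - 1 : ℕ) : ℤ)| |x (((j - t - 1 : ℕ) : ℤ) + 1)| ≤
        Real.exp (-(bt (rr k z) t - L)) ∧
      max |x (-((t - i : ℕ) : ℤ) - 1)| |x (-((t - i : ℕ) : ℤ))| ≤
        Real.exp (-(bt (rr k z) t - L)) := by
  constructor
  · have h := h2 ((j : ℤ) - t) (by omega)
    have e1 : ((j : ℤ) - t + t).toNat = j := by omega
    have e2 : ((j - t - 1 : ℕ) : ℤ) = (j : ℤ) - t - 1 := by omega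
    rw [e1] at h
    rw [e2, sub_add_cancel]
    refine h.trans (Real.exp_le_exp.mpr (by linarith))
  · have h := h2 ((i : ℤ) - t) (by omega)
    have e1 : ((i : ℤ) - t + t).toNat = i := by omega
    have e2 : (-((t - i : ℕ) : ℤ)) = (i : ℤ) - t := by omega
    rw [e1] at h
    rw [e2]
    refine h.trans (Real.exp_le_exp.mpr (by linarith))

/-- inside a component with top `t` the field is bounded by one -/
theorem comp_inside {k : ℝ} {z : Tor} {t : ℕ} {x : ℤ → ℝ}
    (h2 : ∀ m : ℤ, -(t : ℤ) ≤ m →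
      max |x (m - 1)| |x m| ≤ Real.exp (bt (rr k z) (m + t).toNat - bt (rr k z) t))
    {i j : ℕ} (htop : ∀ m, i ≤ m → m ≤ j → bt (rr k z) m ≤ bt (rr k z) t)
    {m : ℤ} (hm : (i : ℤ) - t ≤ m) (hm' : m ≤ (j : ℤ) - t) : max |x (m - 1)| |x m| ≤ 1 := by
  refine (h2 m (by omega)).trans ?_
  rw [← Real.exp_zero]
  apply Real.exp_le_exp.mpr
  have := htop (m + t).toNat (by omega) (by omega)
  linarith

/-- **LINK**: one top `t` of the root contour, ALL its levels at once.  There is one field `x` at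
`y = T^t z`, `|x 0| = 1`, such that for every closed window `i < t < j` of level `L`
(`β i, β j ≤ L`) the digit equation holds with the explicit feet. -/
theorem link {k : ℝ} {z : Tor} {t : ℕ} (ht : 0 < t)
    (htop : bt (rr k z) (t - 1) < bt (rr k z) t) : ∃ x : ℤ → ℝ,
    (∀ n, x (n + 1) = dz k ((T k)^[t] z) n * x n - x (n - 1)) ∧ |x 0| = 1 ∧ |x (-1)| < 1 ∧
    (∀ m : ℤ, -(t : ℤ) ≤ m →
      max |x (m - 1)| |x m| ≤ Real.exp (bt (rr k z) (m + t).toNat - bt (rr k z) t)) ∧
    ∀ (i j : ℕ) (L : ℝ), i < t → t < j → bt (rr k z) i ≤ L → bt (rr k z) j ≤ L →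
      (∀ h, h = bt (rr k z) t - L →
        Real.exp h / 2 ≤ nn (Wq (ap k ((T k)^[t] z)) (j - t - 1)) ∧
        Real.exp h / 2 ≤ nn (Wq (am k ((T k)^[t] z)) (t - i)) ∧
        |V k ((T k)^[t] z).2 + nu (ap k ((T k)^[t] z)) (j - t - 1) +
          nu (am k ((T k)^[t] z)) (t - i)| ≤ 8 * Real.exp (-(2 * h))) := by
  obtain ⟨x, hx, h0, h1, h2⟩ := root_field_top k z ht htop
  refine ⟨x, hx, h0, h1, h2, ?_⟩
  intro i j L hit htj hi hj h hh
  obtain ⟨e1, e2⟩ := comp_ends h2 hit htj hi hj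
  rw [← hh] at e1 e2
  obtain ⟨a1, a2, a3⟩ := nu_of_field hx h0 (Real.exp_pos (-h)) e1 e2
  have e3 : 1 / (2 * Real.exp (-h)) = Real.exp h / 2 := by
    rw [Real.exp_neg]
    field_simp
  rw [e3] at a1 a2
  refine ⟨a1, a2, a3.trans (le_of_eq ?_)⟩
  rw [← Real.exp_nat_mul]
  congr 2
  push_cast
  ring

end Crest.Agent.R128.Link
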