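import Mathlib
import Crest.Agent.R128.Link
import Crest.Agent.R128.HypInst
import Crest.Agent.R128.ValClean
import Crest.Agent.R128.Skel

/-!
# Row 128, node V5-BRIDGE-LO (helper62)

Lower bound for the root field at the feet of a fresh component of the root contour: if
`β t ≤ 2 l κ` and the feet `i`, `j` of level `l` are fresh towards the top `t`, then every field `x`
at `T^t z` with `max |x (-1)| |x 0| = 1` which is `≤ exp (-β t)` at the root satisfies
`exp (β j - β t) / 4 ≤ max |x (j-t-1)| |x (j-t)|` and the same at `i`.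
-/

set_option autoImplicit false
open Crest.AnalysisR.StandardFamily
open scoped Matrix.Norms.L2Operator

namespace Crest.Agent.R128.BridgeLo

open Crest.Agent.R128 Crest.Agent.R128.Two Crest.Agent.R128.Acc Crest.Agent.R128.AlignMn

/-! ### vectors -/

/-- the determinant of two vectors -/
def cr (p q : ℝ × ℝ) : ℝ := p.1 * q.2 - p.2 * q.1

theorem cr_act {M : Matrix (Fin 2) (Fin 2) ℝ} (hM : M.det = 1) (p q : ℝ × ℝ) :
    cr (act M p) (act M q) = cr p q := by
  rw [Matrix.det_fin_two] at hM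
  unfold cr act
  simp only
  linear_combination (p.1 * q.2 - p.2 * q.1) * hM

theorem abs_cr_le (p q : ℝ × ℝ) : |cr p q| ≤ 2 * ‖p‖ * ‖q‖ := by
  have h1 : |p.1| ≤ ‖p‖ := by simpa using norm_fst_le p
  have h2 : |p.2| ≤ ‖p‖ := by simpa using norm_snd_le p
  have h3 : |q.1| ≤ ‖q‖ := by simpa using norm_fst_le q
  have h4 : |q.2| ≤ ‖q‖ := by simpa using norm_snd_le q
  unfold cr
  have a1 : |p.1 * q.2| ≤ ‖p‖ * ‖q‖ := by
    rw [abs_mul]
    exact mul_le_mul h1 h4 (abs_nonneg _) (norm_nonneg _)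
  have a2 : |p.2 * q.1| ≤ ‖p‖ * ‖q‖ := by
    rw [abs_mul]
    exact mul_le_mul h2 h3 (abs_nonneg _) (norm_nonneg _)
  have := abs_sub (p.1 * q.2) (p.2 * q.1)
  linarith

/-- decomposition of `U` along `P` -/
theorem decomp {P U : ℝ × ℝ} (hP : 0 < ‖P‖) : ∃ (c : ℝ) (r : ℝ × ℝ), U = c • P + r ∧
    ‖r‖ ≤ |cr P U| / ‖P‖ ∧ |c| * ‖P‖ ≤ 2 * ‖U‖ := by
  set s := P.1 ^ 2 + P.2 ^ 2 with hs
  have h1 : |P.1| ≤ ‖P‖ := by simpa using norm_fst_le P
  have h2 : |P.2| ≤ ‖P‖ := by simpa using norm_snd_le P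
  have h3 : |U.1| ≤ ‖U‖ := by simpa using norm_fst_le U
  have h4 : |U.2| ≤ ‖U‖ := by simpa using norm_snd_le U
  have hsq : ‖P‖ ^ 2 ≤ s := by
    rw [Prod.norm_def]
    rcases max_choice ‖P.1‖ ‖P.2‖ with h | h
    · rw [h, Real.norm_eq_abs, sq_abs]
      nlinarith [sq_nonneg P.2]
    · rw [h, Real.norm_eq_abs, sq_abs]
      nlinarith [sq_nonneg P.1]
  have hs0 : 0 < s := lt_of_lt_of_le (by positivity) hsq
  refine ⟨(U.1 * P.1 + U.2 * P.2) / s, (cr P U / s) • (-P.2, P.1), ?_, ?_, ?_⟩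
  · unfold cr
    ext
    · simp only [Prod.fst_add, Prod.smul_fst, smul_eq_mul]
      field_simp
      rw [hs]
      ring
    · simp only [Prod.snd_add, Prod.smul_snd, smul_eq_mul]
      field_simp
      rw [hs]
      ring
  · rw [norm_smul, Real.norm_eq_abs, abs_div, abs_of_pos hs0]
    have h5 : ‖((-P.2, P.1) : ℝ × ℝ)‖ ≤ ‖P‖ := by
      rw [Prod.norm_def]
      simp only [norm_neg, Real.norm_eq_abs]
      exact max_le h2 h1
    rw [div_mul_eq_mul_div, div_le_div_iff₀ hs0 hP]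
    have h6 := abs_nonneg (cr P U)
    calc |cr P U| * ‖((-P.2, P.1) : ℝ × ℝ)‖ * ‖P‖ ≤ |cr P U| * ‖P‖ * ‖P‖ := by gcongr
      _ = |cr P U| * ‖P‖ ^ 2 := by ring
      _ ≤ |cr P U| * s := by gcongr
  · rw [abs_div, abs_of_pos hs0, div_mul_eq_mul_div, div_le_iff₀ hs0]
    have h5 : |U.1 * P.1 + U.2 * P.2| ≤ 2 * ‖U‖ * ‖P‖ := by
      have a1 : |U.1 * P.1| ≤ ‖U‖ * ‖P‖ := by
        rw [abs_mul]
        exact mul_le_mul h3 h1 (abs_nonneg _) (norm_nonneg _)
      have a2 : |U.2 * P.2| ≤ ‖U‖ * ‖P‖ := by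
        rw [abs_mul]
        exact mul_le_mul h4 h2 (abs_nonneg _) (norm_nonneg _)
      have := abs_add_le (U.1 * P.1) (U.2 * P.2)
      linarith
    calc |U.1 * P.1 + U.2 * P.2| * ‖P‖ ≤ 2 * ‖U‖ * ‖P‖ * ‖P‖ := by gcongr
      _ = 2 * ‖U‖ * ‖P‖ ^ 2 := by ring
      _ ≤ 2 * ‖U‖ * s := by gcongr

theorem act_add (M : Matrix (Fin 2) (Fin 2) ℝ) (p q : ℝ × ℝ) :
    act M (p + q) = act M p + act M q := by
  unfold act
  ext
  · simp only [Prod.fst_add, Prod.snd_add]; ring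
  · simp only [Prod.fst_add, Prod.snd_add]; ring

/-- right foot, vector form: `t ≤ j` -/
theorem right_vec (k : ℝ) (z : Tor) {t m : ℕ} {p : ℝ × ℝ} (hp : ‖p‖ ≤ (nm k t z)⁻¹)
    (hP : ‖act (Mn k t z) p‖ = 1)
    (hdom : 4 * nm k m ((T k)^[t] z) ≤ nm k t z * nm k (t + m) z) :
    nm k (t + m) z ≤ 4 * nm k t z * ‖act (Mn k (t + m) z) p‖ := by
  obtain ⟨u, hu1, hu2⟩ := exists_max (Mn k (t + m) z)
  have hnm : max (rn (Mn k (t + m) z) 0) (rn (Mn k (t + m) z) 1) = nm k (t + m) z := by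
    unfold nm
    rw [rr_succ]
    rfl
  rw [hnm] at hu2
  have hσ := nm_pos k t z
  set P := act (Mn k t z) p with hPdef
  set U := act (Mn k t z) u with hUdef
  have hsplit : ∀ v, act (Mn k (t + m) z) v = act (Mn k m ((T k)^[t] z)) (act (Mn k t z) v) := by
    intro v
    rw [← act_mul, add_comm t m, Mn_add]
  have hcr : |cr P U| ≤ 2 * (nm k t z)⁻¹ := by
    rw [hPdef, hUdef, cr_act (det_Mn k t z)]
    refine (abs_cr_le p u).trans ?_
    have := norm_nonneg p
    calc 2 * ‖p‖ * ‖u‖ ≤ 2 * ‖p‖ * 1 := by gcongr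
      _ ≤ 2 * (nm k t z)⁻¹ := by linarith
  have hU : ‖U‖ ≤ nm k t z := by
    refine (norm_act_Mn_le k t z u).trans ?_
    nlinarith
  obtain ⟨c, r, h1, h2, h3⟩ := decomp (P := P) (U := U) (by rw [hP]; norm_num)
  rw [hP, div_one] at h2
  rw [hP, mul_one] at h3
  have e : act (Mn k (t + m) z) u = c • act (Mn k (t + m) z) p + act (Mn k m ((T k)^[t] z)) r := by
    rw [hsplit u, hsplit p, ← hUdef, ← hPdef, h1, act_add, act_smul]
  have h4 : ‖act (Mn k (t + m) z) u‖ ≤ |c| * ‖act (Mn k (t + m) z) p‖ +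
      nm k m ((T k)^[t] z) * ‖r‖ := by
    rw [e]
    refine (norm_add_le _ _).trans ?_
    rw [norm_smul, Real.norm_eq_abs]
    have := norm_act_Mn_le k m ((T k)^[t] z) r
    linarith
  have hA := nm_pos k m ((T k)^[t] z)
  have h5 : nm k m ((T k)^[t] z) * ‖r‖ ≤ nm k (t + m) z / 2 := by
    calc nm k m ((T k)^[t] z) * ‖r‖ ≤ nm k m ((T k)^[t] z) * (2 * (nm k t z)⁻¹) := by
          have := h2.trans hcr
          gcongr
      _ = (4 * nm k m ((T k)^[t] z)) * (nm k t z)⁻¹ / 2 := by ring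
      _ ≤ (nm k t z * nm k (t + m) z) * (nm k t z)⁻¹ / 2 := by
          have := inv_pos.mpr hσ
          gcongr
      _ = nm k (t + m) z / 2 := by field_simp
  have h6 : |c| * ‖act (Mn k (t + m) z) p‖ ≤ 2 * nm k t z * ‖act (Mn k (t + m) z) p‖ := by
    have := norm_nonneg (act (Mn k (t + m) z) p)
    have h7 : |c| ≤ 2 * nm k t z := by linarith
    gcongr
  linarith

/-- left foot, vector form: `i`, `t = i + m` -/
theorem left_vec (k : ℝ) (z : Tor) {i m : ℕ} {p : ℝ × ℝ} (hp : ‖p‖ ≤ (nm k (i + m) z)⁻¹)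
    (hP : ‖act (Mn k (i + m) z) p‖ = 1)
    (hdom : 4 * nm k m ((T k)^[i] z) ≤ nm k (i + m) z * nm k i z) :
    nm k i z ≤ 4 * nm k (i + m) z * ‖act (Mn k i z) p‖ := by
  obtain ⟨u, hu1, hu2⟩ := exists_max (Mn k i z)
  have hnm : max (rn (Mn k i z) 0) (rn (Mn k i z) 1) = nm k i z := by
    unfold nm
    rw [rr_succ]
    rfl
  rw [hnm] at hu2
  have hσ := nm_pos k (i + m) z
  have hσi := nm_pos k i z
  set q := act (Mn k i z) u with hqdef
  set p' := act (Mn k i z) p with hpdef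
  have hq0 : 0 < ‖q‖ := lt_of_lt_of_le hσi hu2
  have hsplit : ∀ v, act (Mn k (i + m) z) v = act (Mn k m ((T k)^[i] z)) (act (Mn k i z) v) := by
    intro v
    rw [← act_mul, add_comm i m, Mn_add]
  have hcr : |cr q p'| ≤ 2 * (nm k (i + m) z)⁻¹ := by
    rw [hpdef, hqdef, cr_act (det_Mn k i z)]
    refine (abs_cr_le u p).trans ?_
    have := norm_nonneg p
    calc 2 * ‖u‖ * ‖p‖ ≤ 2 * 1 * ‖p‖ := by gcongr
      _ ≤ 2 * (nm k (i + m) z)⁻¹ := by linarith
  obtain ⟨c, r, h1, h2, h3⟩ := decomp (P := q) (U := p') hq0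
  have hr : ‖r‖ ≤ 2 * (nm k (i + m) z)⁻¹ / nm k i z := by
    refine h2.trans ?_
    have := abs_nonneg (cr q p')
    have hi := inv_pos.mpr hσ
    gcongr
  have hBq : ‖act (Mn k m ((T k)^[i] z)) q‖ ≤ nm k (i + m) z := by
    rw [hqdef, ← hsplit u]
    refine (norm_act_Mn_le k (i + m) z u).trans ?_
    nlinarith
  have h4 : 1 ≤ |c| * nm k (i + m) z + nm k m ((T k)^[i] z) * ‖r‖ := by
    rw [← hP, hsplit p, ← hpdef, h1, act_add, act_smul]
    refine (norm_add_le _ _).trans ?_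
    rw [norm_smul, Real.norm_eq_abs]
    have a1 := norm_act_Mn_le k m ((T k)^[i] z) r
    have a2 : |c| * ‖act (Mn k m ((T k)^[i] z)) q‖ ≤ |c| * nm k (i + m) z := by
      have := abs_nonneg c
      gcongr
    linarith
  have hA := nm_pos k m ((T k)^[i] z)
  have h5 : nm k m ((T k)^[i] z) * ‖r‖ ≤ 1 / 2 := by
    calc nm k m ((T k)^[i] z) * ‖r‖ ≤
          nm k m ((T k)^[i] z) * (2 * (nm k (i + m) z)⁻¹ / nm k i z) := by gcongr
      _ = (4 * nm k m ((T k)^[i] z)) * ((nm k (i + m) z)⁻¹ / nm k i z) / 2 := by ring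
      _ ≤ (nm k (i + m) z * nm k i z) * ((nm k (i + m) z)⁻¹ / nm k i z) / 2 := by
          have := inv_pos.mpr hσ
          gcongr
      _ = 1 / 2 := by field_simp
  have h6 : 1 / 2 ≤ |c| * nm k (i + m) z := by linarith
  have h7 : |c| * nm k i z ≤ 2 * ‖p'‖ := by
    refine le_trans ?_ h3
    have := abs_nonneg c
    gcongr
  -- 1/2 * nm i ≤ |c| nm(i+m) nm i ≤ 2 nm(i+m) ‖p'‖
  have h8 : 1 / 2 * nm k i z ≤ |c| * nm k (i + m) z * nm k i z := by gcongr
  have h9 : |c| * nm k (i + m) z * nm k i z ≤ nm k (i + m) z * (2 * ‖p'‖) := by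
    calc |c| * nm k (i + m) z * nm k i z = nm k (i + m) z * (|c| * nm k i z) := by ring
      _ ≤ _ := by gcongr
  linarith

/-! ### the field of `Link` -/

/-- the root vector of a field at `T^t z` -/
theorem root_vec {k : ℝ} {z : Tor} {t : ℕ} {x : ℤ → ℝ}
    (hx : ∀ n, x (n + 1) = dz k ((T k)^[t] z) n * x n - x (n - 1)) :
    ∃ p : ℝ × ℝ, ∀ n : ℕ, ‖act (Mn k n z) p‖ = max |x ((n : ℤ) - t - 1)| |x ((n : ℤ) - t)| := by
  refine ⟨act (Az k (-(t : ℤ)) ((T k)^[t] z)) (x (-1), x 0), fun n => ?_⟩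
  have e : Tz k (-(t : ℤ)) ((T k)^[t] z) = z := by
    rw [← Tz_natCast, Tz_neg_cancel]
  have h := act_Mn_Tz k ((T k)^[t] z) (x (-1), x 0) t n
  rw [e] at h
  rw [h, norm_act_Az, ← eq_xf hx, ← eq_xf hx]

theorem lo_right_field {k : ℝ} {z : Tor} {t m : ℕ} {x : ℤ → ℝ}
    (hx : ∀ n, x (n + 1) = dz k ((T k)^[t] z) n * x n - x (n - 1))
    (h1 : max |x (-1)| |x 0| = 1)
    (h0 : max |x (-(t : ℤ) - 1)| |x (-(t : ℤ))| ≤ Real.exp (-bt (rr k z) t))
    (hdom : 4 * nm k m ((T k)^[t] z) ≤ nm k t z * nm k (t + m) z) :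
    Real.exp (bt (rr k z) (t + m) - bt (rr k z) t) / 4 ≤ max |x ((m : ℤ) - 1)| |x (m : ℤ)| := by
  obtain ⟨p, hp⟩ := root_vec hx
  have a0 := hp 0
  have at' := hp t
  have am := hp (t + m)
  rw [Mn_zero, act_one] at a0
  rw [show ((0 : ℕ) : ℤ) - t - 1 = -(t : ℤ) - 1 by push_cast; ring,
    show ((0 : ℕ) : ℤ) - t = -(t : ℤ) by push_cast; ring] at a0
  rw [sub_self, zero_sub, h1] at at'
  rw [show ((t + m : ℕ) : ℤ) - t - 1 = (m : ℤ) - 1 by push_cast; ring,
    show ((t + m : ℕ) : ℤ) - t = (m : ℤ) by push_cast; ring] at am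
  rw [Real.exp_neg, exp_bt] at h0
  have h := right_vec k z (p := p) (by rw [a0]; exact h0) at' hdom
  rw [am] at h
  rw [Real.exp_sub, exp_bt, exp_bt, div_div, div_le_iff₀ (by have := nm_pos k t z; positivity)]
  linarith

theorem lo_left_field {k : ℝ} {z : Tor} {i m : ℕ} {x : ℤ → ℝ}
    (hx : ∀ n, x (n + 1) = dz k ((T k)^[i + m] z) n * x n - x (n - 1))
    (h1 : max |x (-1)| |x 0| = 1)
    (h0 : max |x (-((i + m : ℕ) : ℤ) - 1)| |x (-((i + m : ℕ) : ℤ))| ≤
      Real.exp (-bt (rr k z) (i + m)))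
    (hdom : 4 * nm k m ((T k)^[i] z) ≤ nm k (i + m) z * nm k i z) :
    Real.exp (bt (rr k z) i - bt (rr k z) (i + m)) / 4 ≤ max |x (-(m : ℤ) - 1)| |x (-(m : ℤ))| := by
  obtain ⟨p, hp⟩ := root_vec hx
  have a0 := hp 0
  have at' := hp (i + m)
  have ai := hp i
  rw [Mn_zero, act_one] at a0
  rw [show ((0 : ℕ) : ℤ) - ((i + m : ℕ) : ℤ) - 1 = -((i + m : ℕ) : ℤ) - 1 by push_cast; ring,
    show ((0 : ℕ) : ℤ) - ((i + m : ℕ) : ℤ) = -((i + m : ℕ) : ℤ) by push_cast; ring] at a0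
  rw [sub_self, zero_sub, h1] at at'
  rw [show (i : ℤ) - ((i + m : ℕ) : ℤ) - 1 = -(m : ℤ) - 1 by push_cast; ring,
    show (i : ℤ) - ((i + m : ℕ) : ℤ) = -(m : ℤ) by push_cast; ring] at ai
  rw [Real.exp_neg, exp_bt] at h0
  have h := left_vec k z (p := p) (by rw [a0]; exact h0) at' hdom
  rw [ai] at h
  rw [Real.exp_sub, exp_bt, exp_bt, div_div, div_le_iff₀ (by have := nm_pos k (i + m) z; positivity)]
  linarith

/-! ### domination -/

theorem toD {k : ℝ} {L n : ℕ} {z : Tor} (h : Skel.Val k 1000 L z n) (hL : 1000 ≤ L)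
    (hn : L ≤ n) : ValNorm.ValD k (1 / 1000) L n z where
  c1 := fun m hm => h.cl m hm (hm.trans_le hn)
  c2 := by
    intro i j hi hij hj
    have h1 := h.v2 i j (hL.trans hi) hij hj
    have hi0 : 0 ≤ ValNorm.W k z i := ValNorm.W_nonneg _ _ _
    have hj0 : 0 ≤ ValNorm.W k z j := ValNorm.W_nonneg _ _ _
    have e1 : ValNorm.W k z i ^ (1 - 1 / 1000 : ℝ) = (ValNorm.W k z i ^ 999) ^ (1 / 1000 : ℝ) := by
      rw [← Real.rpow_natCast (ValNorm.W k z i) 999, ← Real.rpow_mul hi0]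
      norm_num
    have e2 : ValNorm.W k z j = (ValNorm.W k z j ^ 1000) ^ (1 / 1000 : ℝ) := by
      rw [← Real.rpow_natCast (ValNorm.W k z j) 1000, ← Real.rpow_mul hj0]
      norm_num
    rw [e1, e2]
    exact Real.rpow_le_rpow (pow_nonneg hi0 999) h1 (by norm_num)
  c3 := by
    intro j hj hjn
    obtain ⟨i, h1, h2, h3⟩ := h.v3 j (hL.trans hj) hjn
    refine ⟨i, h2, ?_⟩
    have hj0 : (0:ℝ) ≤ j := Nat.cast_nonneg j
    have e : ((j : ℝ) ^ 4000) ^ (1 / 1000 / 4 : ℝ) = (j : ℝ) := by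
      rw [← Real.rpow_natCast (j:ℝ) 4000, ← Real.rpow_mul hj0]
      have : (((4000 : ℕ) : ℝ) * (1 / 1000 / 4 : ℝ)) = 1 := by norm_num
      rw [this, Real.rpow_one]
    have h3' : (j : ℝ) ^ 4000 ≤ ValNorm.W k z i := h3
    have h4 : ((j : ℝ) ^ 4000) ^ (1 / 1000 / 4 : ℝ) ≤ ValNorm.W k z i ^ (1 / 1000 / 4 : ℝ) :=
      Real.rpow_le_rpow (pow_nonneg hj0 4000) h3' (by norm_num)
    rw [e] at h4
    exact h4

/-- numeric core: `D` distance from the foot to the top -/
theorem num {κ D X bt' bj B l2 : ℝ} (hκ : 100 ≤ κ) (hl2 : l2 < 0.6931471808) (hl2' : 0 < l2)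
    (hB : B = κ + 3 * l2) (hX : 3 * κ ≤ X) (hlow : bt' ≤ 2 * X)
    (hD : D ≤ bt' - X + 4 * l2 + 2 * B + 2 * (3 / 5 * (1 / 1000 / 4) * D + 3 + 1))
    (hj : X - B - 2 * l2 ≤ bj) : 2 * l2 + (D + l2) ≤ bt' + bj := by
  subst hB
  nlinarith

section dom

variable {k : ℝ} {z : Tor} {N i t j l L0 : ℕ}

theorem log_facts (hk : Real.exp 100 ≤ k) : 100 ≤ Real.log k ∧ 100 ≤ k ∧
    Real.log (8 * k) = Real.log k + 3 * Real.log 2 := by
  have hk0 : 0 < k := (Real.exp_pos _).trans_le hk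
  refine ⟨(Real.le_log_iff_exp_le hk0).mpr hk, ?_, ?_⟩
  · have := Real.add_one_le_exp 100
    linarith
  · rw [Real.log_mul (by norm_num) hk0.ne', show (8:ℝ) = 2 ^ 3 by norm_num, Real.log_pow]
    push_cast
    ring

/-- one step of the root contour, downwards -/
theorem bt_down (hk : Real.exp 100 ≤ k) (z : Tor) (n : ℕ) :
    bt (rr k z) n - Real.log (8 * k) - 2 * Real.log 2 ≤ bt (rr k z) (n + 1) := by
  obtain ⟨-, hk100, -⟩ := log_facts hk
  have H := HypInst.hyp_inst (by linarith : (4:ℝ) ≤ k) z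
  have h1 := abs_le.mp (HypInst.bt_dist k z n)
  have h2 := abs_le.mp (HypInst.bt_dist k z (n + 1))
  have h3 := H.tri 0 (n + 1) n
  have h4 := H.step n
  have h5 := H.symm (n + 1) n
  linarith

theorem bt_up (hk : Real.exp 100 ≤ k) (z : Tor) (n : ℕ) :
    bt (rr k z) (n + 1) ≤ bt (rr k z) n + Real.log (8 * k) + 2 * Real.log 2 := by
  obtain ⟨-, hk100, -⟩ := log_facts hk
  have H := HypInst.hyp_inst (by linarith : (4:ℝ) ≤ k) z
  have h1 := abs_le.mp (HypInst.bt_dist k z n)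
  have h2 := abs_le.mp (HypInst.bt_dist k z (n + 1))
  have h3 := H.tri 0 n (n + 1)
  have h4 := H.step n
  linarith

/-- from the logarithmic inequality to the norms -/
theorem dom_of_log {m t s : ℕ} {y : Tor} (D : ℝ)
    (hD : Real.log ‖Mn k m y‖ ≤ D)
    (h : 2 * Real.log 2 + (D + Real.log 2) ≤ bt (rr k z) t + bt (rr k z) s) :
    4 * nm k m y ≤ nm k t z * nm k s z := by
  have h1 := abs_le.mp (NestedInst.near_bt k m y)
  have h4 : (4:ℝ) = Real.exp (2 * Real.log 2) := by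
    rw [two_mul, Real.exp_add, Real.exp_log (by norm_num)]
    norm_num
  rw [← exp_bt, ← exp_bt k t, ← exp_bt k s, ← Real.exp_add, h4, ← Real.exp_add]
  apply Real.exp_le_exp.mpr
  linarith [h1.2]

/-- **domination, right foot** -/
theorem dom_right (hk : Real.exp 100 ≤ k) (hL : 1000 ≤ L0)
    (C : Close.Cmp (Close.bz k z) (Real.log k) N i t j l)
    (F : Skel.Val k 1000 L0 ((T k)^[j] z).swap (j - t)) (hjt : L0 ≤ j - t) (hl : 3 ≤ l)
    (hlow : Close.bz k z t ≤ 2 * l * Real.log k) :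
    4 * nm k (j - t) ((T k)^[t] z) ≤ nm k t z * nm k j z := by
  obtain ⟨hκ, hk100, hB⟩ := log_facts hk
  have hl2 := Real.log_two_lt_d9
  have hl2' : 0 < Real.log 2 := Real.log_pos one_lt_two
  have hBpos : 0 ≤ Real.log (8 * k) := by rw [hB]; linarith
  have H0 := HypInst.hyp_inst (by linarith : (4:ℝ) ≤ k) z
  have H := HypInst.rev_inst H0 j hBpos
  have hval := toD F hL hjt
  have CF := ValNorm.cleanF_backward (N := j) hval (Nat.sub_le _ _) le_rfl hk100 (by omega)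
    (by norm_num) (by norm_num) (c := 3) le_rfl
  rw [Nat.sub_self, Nat.zero_add] at CF
  have htj := C.tj
  have hnear : ∀ m, |bt (rr k z) (j - m) - (fun i i' => Hyp.dist (fun n => Mn k n z) (j - i) (j - i')) j m|
      ≤ Real.log 2 := by
    intro m
    simp only [Nat.sub_self]
    exact HypInst.bt_dist k z (j - m)
  have h1 := V1.height_le (f := fun m => bt (rr k z) (j - m)) (r := j) H hnear (v := 0) (m := j - t)
    (lam := l * Real.log k) (by omega) (by
      simp only [Nat.sub_zero]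
      exact C.right) (by
      intro s hs1 hs2
      exact C.above (j - s) (by have := C.it; omega) (by omega))
    (V1.ld (j - t - 0)) (V1.le_pow_ld _)
  have h2 := CF.dur H (by norm_num) (by norm_num) (by norm_num) (by norm_num) (by norm_num)
    (m := j - t) (by omega) le_rfl (by omega)
  simp only [Nat.sub_zero] at h1 h2
  rw [show j - (j - t) = t by omega] at h1 h2
  have hDd : Hyp.dist (fun n => Mn k n z) j t = Real.log ‖Mn k (j - t) ((T k)^[t] z)‖ := by
    have e1 := ValNorm.Dd_symm k z j t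
    have e2 := ValNorm.Dd_add k z t (j - t)
    rw [show t + (j - t) = j by omega] at e2
    rw [← ValNorm.Dd_eq, e1, e2]
  have hj : l * Real.log k - Real.log (8 * k) - 2 * Real.log 2 ≤ bt (rr k z) j := by
    have h3 := bt_down hk z (j - 1)
    rw [show j - 1 + 1 = j by omega] at h3
    have h4 := C.above (j - 1) (by have := C.it; omega) (by omega)
    unfold Close.bz at h4
    linarith
  have hlr : (3:ℝ) ≤ l := by exact_mod_cast hl
  have hX : 3 * Real.log k ≤ l * Real.log k := by nlinarith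
  unfold Close.bz at hlow
  refine dom_of_log (Hyp.dist (fun n => Mn k n z) j t) hDd.symm.le ?_
  exact num hκ hl2 hl2' hB hX (by linarith) (by nlinarith) hj

/-- **domination, left foot** -/
theorem dom_left (hk : Real.exp 100 ≤ k) (hL : 1000 ≤ L0)
    (C : Close.Cmp (Close.bz k z) (Real.log k) N i t j l)
    (F : Skel.Val k 1000 L0 ((T k)^[i] z) (t - i)) (hit : L0 ≤ t - i) (hl : 3 ≤ l)
    (hlow : Close.bz k z t ≤ 2 * l * Real.log k) :
    4 * nm k (t - i) ((T k)^[i] z) ≤ nm k t z * nm k i z := by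
  obtain ⟨hκ, hk100, hB⟩ := log_facts hk
  have hl2 := Real.log_two_lt_d9
  have hl2' : 0 < Real.log 2 := Real.log_pos one_lt_two
  have H := HypInst.hyp_inst (by linarith : (4:ℝ) ≤ k) z
  have hval := toD F hL hit
  have CF := ValNorm.cleanF_forward hval hk100 (by omega)
    (by norm_num) (by norm_num) (c := 3) le_rfl
  have hti := C.it
  rw [show i + (t - i) = t by omega] at CF
  have h1 := V1.height_le (f := bt (rr k z)) (r := 0) H (HypInst.bt_dist k z) (v := i) (m := t)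
    (lam := l * Real.log k) (by omega) C.left (by
      intro s hs1 hs2
      exact C.above s hs1 (by have := C.tj; omega))
    (V1.ld (t - i)) (V1.le_pow_ld _)
  have h2 := CF.dur H (by norm_num) (by norm_num) (by norm_num) (by norm_num) (by norm_num)
    (m := t) (by omega) le_rfl hti
  have hDd : Hyp.dist (fun n => Mn k n z) i t = Real.log ‖Mn k (t - i) ((T k)^[i] z)‖ := by
    have e2 := ValNorm.Dd_add k z i (t - i)
    rw [show i + (t - i) = t by omega] at e2
    rw [← ValNorm.Dd_eq, e2]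
  have hj : l * Real.log k - Real.log (8 * k) - 2 * Real.log 2 ≤ bt (rr k z) i := by
    have h3 := bt_up hk z i
    have h4 := C.above (i + 1) (by omega) (by have := C.tj; omega)
    unfold Close.bz at h4
    linarith
  have hlr : (3:ℝ) ≤ l := by exact_mod_cast hl
  have hX : 3 * Real.log k ≤ l * Real.log k := by nlinarith
  unfold Close.bz at hlow
  refine dom_of_log (Hyp.dist (fun n => Mn k n z) i t) hDd.symm.le ?_
  exact num hκ hl2 hl2' hB hX (by linarith) (by nlinarith) hj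

/-- number of steps from a foot to the top -/
theorem steps_le (hk : Real.exp 100 ≤ k) (z : Tor) {a b : ℕ} (hab : a ≤ b) :
    |bt (rr k z) b - bt (rr k z) a| ≤ (b - a : ℕ) * (2 * Real.log k) := by
  obtain ⟨hκ, -, hB⟩ := log_facts hk
  have hl2 := Real.log_two_lt_d9
  obtain ⟨m, rfl⟩ := Nat.exists_eq_add_of_le hab
  rw [Nat.add_sub_cancel_left]
  clear hab
  induction m with
  | zero => simp
  | succ m ih =>
    have h1 := bt_down hk z (a + m)
    have h2 := bt_up hk z (a + m)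
    rw [abs_le] at ih ⊢
    rw [← Nat.add_assoc]
    push_cast
    constructor <;> nlinarith [ih.1, ih.2]

end dom

/-- **LO, right foot**: field `lo` of `Good.Side` -/
theorem lo_right {k : ℝ} {z : Tor} {N i t j l L0 : ℕ} {x : ℤ → ℝ} (hk : Real.exp 100 ≤ k)
    (hL : 1000 ≤ L0) (C : Close.Cmp (Close.bz k z) (Real.log k) N i t j l)
    (F : Skel.Fresh k L0 z i j t) (hl : 3 ≤ l)
    (hlow : Close.bz k z t ≤ 2 * l * Real.log k)
    (hhigh : l * Real.log k + 2 * L0 * Real.log k ≤ Close.bz k z t)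
    (hx : ∀ n, x (n + 1) = dz k ((T k)^[t] z) n * x n - x (n - 1))
    (h1 : max |x (-1)| |x 0| = 1)
    (h0 : max |x (-(t : ℤ) - 1)| |x (-(t : ℤ))| ≤ Real.exp (-bt (rr k z) t)) :
    Real.exp (-(Close.bz k z t - l * Real.log k) - 2 * Real.log k) ≤
      max |x ((j - t : ℕ) - 1)| |x (j - t : ℕ)| := by
  obtain ⟨hκ, hk100, hB⟩ := log_facts hk
  have hl2 := Real.log_two_lt_d9
  have htj := C.tj
  have hr := C.right
  unfold Close.bz at hr hhigh hlow
  have hjt : L0 ≤ j - t := by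
    have h2 := steps_le hk z htj.le
    have h3 := abs_le.mp h2
    have h4 : (2 * L0 : ℝ) * Real.log k ≤ (j - t : ℕ) * (2 * Real.log k) := by linarith [h3.1]
    have h5 : (L0 : ℝ) ≤ (j - t : ℕ) := by
      by_contra hcon
      push Not at hcon
      nlinarith
    exact_mod_cast h5
  have hd := dom_right hk hL C F.2 hjt hl hlow
  have e : t + (j - t) = j := by omega
  have h2 := lo_right_field (m := j - t) hx h1 h0 (by rw [e]; exact hd)
  refine le_trans ?_ h2
  rw [e]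
  have hj : l * Real.log k - Real.log (8 * k) - 2 * Real.log 2 ≤ bt (rr k z) j := by
    have h3 := bt_down hk z (j - 1)
    rw [show j - 1 + 1 = j by omega] at h3
    have h4 := C.above (j - 1) (by have := C.it; omega) (by omega)
    unfold Close.bz at h4
    linarith
  have h4 : (4:ℝ) = Real.exp (2 * Real.log 2) := by
    rw [two_mul, Real.exp_add, Real.exp_log (by norm_num)]
    norm_num
  rw [h4, ← Real.exp_sub]
  apply Real.exp_le_exp.mpr
  unfold Close.bz
  linarith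

/-- **LO, left foot** -/
theorem lo_left {k : ℝ} {z : Tor} {N i t j l L0 : ℕ} {x : ℤ → ℝ} (hk : Real.exp 100 ≤ k)
    (hL : 1000 ≤ L0) (C : Close.Cmp (Close.bz k z) (Real.log k) N i t j l)
    (F : Skel.Fresh k L0 z i j t) (hl : 3 ≤ l)
    (hlow : Close.bz k z t ≤ 2 * l * Real.log k)
    (hhigh : l * Real.log k + 2 * L0 * Real.log k ≤ Close.bz k z t)
    (hx : ∀ n, x (n + 1) = dz k ((T k)^[t] z) n * x n - x (n - 1))
    (h1 : max |x (-1)| |x 0| = 1)
    (h0 : max |x (-(t : ℤ) - 1)| |x (-(t : ℤ))| ≤ Real.exp (-bt (rr k z) t)) :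
    Real.exp (-(Close.bz k z t - l * Real.log k) - 2 * Real.log k) ≤
      max |x (-(t - i : ℕ) - 1)| |x (-(t - i : ℕ))| := by
  obtain ⟨hκ, hk100, hB⟩ := log_facts hk
  have hl2 := Real.log_two_lt_d9
  have hit' := C.it
  have hr := C.left
  unfold Close.bz at hr hhigh hlow
  have hit : L0 ≤ t - i := by
    have h2 := steps_le hk z hit'.le
    have h3 := abs_le.mp h2
    have h4 : (2 * L0 : ℝ) * Real.log k ≤ (t - i : ℕ) * (2 * Real.log k) := by linarith [h3.2]
    have h5 : (L0 : ℝ) ≤ (t - i : ℕ) := by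
      by_contra hcon
      push Not at hcon
      nlinarith
    exact_mod_cast h5
  have hd := dom_left hk hL C F.1 hit hl hlow
  have e : i + (t - i) = t := by omega
  have h2 := lo_left_field (i := i) (m := t - i) (by rw [e]; exact hx) h1
    (by rw [e]; exact h0) (by rw [e]; exact hd)
  rw [e] at h2
  refine le_trans ?_ h2
  have hj : l * Real.log k - Real.log (8 * k) - 2 * Real.log 2 ≤ bt (rr k z) i := by
    have h3 := bt_up hk z i
    have h4 := C.above (i + 1) (by omega) (by have := C.tj; omega)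
    unfold Close.bz at h4
    linarith
  have h4 : (4:ℝ) = Real.exp (2 * Real.log 2) := by
    rw [two_mul, Real.exp_add, Real.exp_log (by norm_num)]
    norm_num
  rw [h4, ← Real.exp_sub]
  apply Real.exp_le_exp.mpr
  unfold Close.bz
  linarith

end Crest.Agent.R128.BridgeLo
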