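import Crest.Agent.R128.Good
import Crest.Agent.R128.Meas
import Crest.Agent.R128.Align

/-!
# Row 128, node V5-G-MEAS (helper365)

The good event `Good.G k L n` is a Borel set: it is a countable union (over the feet `w, w'` and the
run lengths `M, M'`) of intersections of an open condition, finitely or countably many conditions
which are measurable in `y`, and the projection of a compact subset of
`Tor × [n log 2, n log 2 + 2 log k] × [-1,1]²` (depth and initial data of the tip field).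
-/

set_option autoImplicit false

open MeasureTheory Filter Topology
open Crest.Agent.R128 Crest.Agent.R128.AlignMn Crest.Agent.R128.DictY Crest.Agent.R128.Lam0
open Crest.Agent.R128.Good

namespace Crest.Agent.R128.GMeas

open Crest.Agent.R128.Align (sol sol_zero sol_one sol_add_two eq_sol)

/-- projection of a closed set along a compact set -/
theorem isClosed_ex {Y P : Type*} [TopologicalSpace Y] [CompactSpace Y] [T2Space Y]
    [TopologicalSpace P] {K : Set P} (hK : IsCompact K) {C : Set (Y × P)} (hC : IsClosed C) :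
    IsClosed {y | ∃ p ∈ K, (y, p) ∈ C} := by
  have h1 : IsCompact ((Set.univ ×ˢ K) ∩ C) := (isCompact_univ.prod hK).inter_right hC
  have h2 := (h1.image continuous_fst).isClosed
  convert h2 using 1
  ext y
  constructor
  · rintro ⟨p, hp, hc⟩
    exact ⟨(y, p), ⟨⟨trivial, hp⟩, hc⟩, rfl⟩
  · rintro ⟨⟨y', p⟩, ⟨⟨_, hp⟩, hc⟩, rfl⟩
    exact ⟨p, hp, hc⟩

/-- solutions depend continuously on digits and initial data -/
theorem continuous_sol {X : Type*} [TopologicalSpace X] {a : ℕ → X → ℝ}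
    (ha : ∀ n, Continuous (a n)) {u v : X → ℝ} (hu : Continuous u) (hv : Continuous v) (n : ℕ) :
    Continuous fun x => sol (fun i => a i x) (u x) (v x) n := by
  have key : ∀ n, (Continuous fun x => sol (fun i => a i x) (u x) (v x) n) ∧
      Continuous fun x => sol (fun i => a i x) (u x) (v x) (n + 1) := by
    intro n
    induction n with
    | zero => exact ⟨hu, hv⟩
    | succ n ih =>
      refine ⟨ih.2, ?_⟩
      have e : (fun x => sol (fun i => a i x) (u x) (v x) (n + 1 + 1)) = fun x =>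
          a (n + 1) x * sol (fun i => a i x) (u x) (v x) (n + 1) -
            sol (fun i => a i x) (u x) (v x) n := by
        funext x
        rw [sol_add_two]
      rw [e]
      exact ((ha (n + 1)).mul ih.2).sub ih.1
  exact (key n).1

theorem continuous_Rev (k : ℝ) : Continuous (Rev k) := by
  have h1 : Continuous fun z : Tor => (z.2 + z.2 + sk k z.2 - z.1, z.2) :=
    (((continuous_snd.add continuous_snd).add ((continuous_sk k).comp continuous_snd)).sub
      continuous_fst).prodMk continuous_snd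
  exact h1

theorem ap_eq (k : ℝ) (z : Tor) (n : ℕ) : ap k z n = V k ((T k)^[n] z).2 := by
  unfold ap dz
  rw [Crest.Agent.R128.Two.Tz_natCast]

theorem continuous_ap (k : ℝ) (n : ℕ) : Continuous fun z : Tor => ap k z n := by
  have e : (fun z : Tor => ap k z n) = fun z => V k ((T k)^[n] z).2 := by
    funext z
    exact ap_eq k z n
  rw [e]
  exact Meas.continuous_V_iter k n

/-! ### the parts of `Side` -/

/-- the part which only depends on `y` -/
def VR (k : ℝ) (L w M : ℕ) (y : Tor) : Prop :=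
  CVal k L (((T k)^[w] y).swap) (w - 1) ∧
    ∀ n, w ≤ n → n ≤ w + M → k ^ ((2 : ℝ) / 3) ≤ |ap k y n|

/-- the part which only depends on the field (the numerical constants of `Side` are parameters, so
that this file does not depend on their values) -/
def FC (cl cf k ρ : ℝ) (w M : ℕ) (x : ℕ → ℝ) : Prop :=
  |x 0| = 1 ∧ |x 1| ≤ 1 ∧ Real.exp (-ρ - cl * Real.log k) ≤ max |x (w - 1)| |x w| ∧
    max |x (w - 1)| |x w| ≤ Real.exp (-ρ) ∧
    max |x (w + M - 1)| |x (w + M)| ≤ Real.exp (-ρ - cf * Real.log k)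

theorem side_iff (k : ℝ) (L : ℕ) : ∃ (cl cf : ℝ) (cM : ℕ), ∀ (ρ : ℝ) (y : Tor) (x : ℕ → ℝ)
    (w M : ℕ), Side k L ρ y x w M ↔ (L < w ∧ M ≤ cM) ∧ VR k L w M y ∧ FC cl cf k ρ w M x ∧
      ∀ n, x (n + 2) = ap k y (n + 1) * x (n + 1) - x n := by
  refine ⟨_, _, _, fun ρ y x w M => ⟨fun h => ⟨⟨h.hw, h.hM⟩, ⟨h.val, h.run⟩,
    ⟨h.x0, h.x1, h.lo, h.hi, h.fin⟩, h.xrec⟩, ?_⟩⟩
  rintro ⟨⟨h1, h2⟩, ⟨h3, h4⟩, ⟨h5, h6, h7, h8, h9⟩, h10⟩
  exact ⟨h1, h3, h10, h5, h6, h7, h8, h2, h4, h9⟩

theorem measurableSet_CVal (k : ℝ) (L n : ℕ) : MeasurableSet {z : Tor | CVal k L z n} := by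
  have e : {z : Tor | CVal k L z n} = {z : Tor |
      (∀ m, m < L → m < n → k ^ ((2 : ℝ) / 3) ≤ |V k ((T k)^[m] z).2|) ∧
      (∀ i j, L ≤ i → i ≤ j → j ≤ n → ‖fld k z i‖ ^ 99 ≤ ‖fld k z j‖ ^ 100) ∧
      (∀ j, L ≤ j → j ≤ n → ∃ i, L ≤ i ∧ i ≤ j ∧ (j : ℝ) ^ 400 ≤ ‖fld k z i‖)} := by
    ext z
    constructor
    · intro h
      exact ⟨h.cl, h.v2, h.v3⟩
    · rintro ⟨h1, h2, h3⟩
      exact ⟨h1, h2, h3⟩
  rw [e]
  have hf : ∀ i, Continuous fun z : Tor => ‖fld k z i‖ := fun i =>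
    Meas.continuous_norm_W k i (0, 1)
  refine Meas.ms_and ?_ (Meas.ms_and ?_ ?_)
  · exact Meas.ms_forall fun m => Meas.ms_const_imp fun _ => Meas.ms_const_imp fun _ =>
      Meas.ms_le measurable_const (Meas.continuous_V_iter k m).abs.measurable
  · exact Meas.ms_forall fun i => Meas.ms_forall fun j => Meas.ms_const_imp fun _ =>
      Meas.ms_const_imp fun _ => Meas.ms_const_imp fun _ =>
      Meas.ms_le ((hf i).pow 99).measurable ((hf j).pow 100).measurable
  · exact Meas.ms_forall fun j => Meas.ms_const_imp fun _ => Meas.ms_const_imp fun _ =>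
      Meas.ms_exists fun i => Meas.ms_const_and fun _ => Meas.ms_const_and fun _ =>
      Meas.ms_le measurable_const (hf i).measurable

theorem measurableSet_VR (k : ℝ) (L w M : ℕ) : MeasurableSet {y : Tor | VR k L w M y} := by
  refine Meas.ms_and ?_ ?_
  · have hc : Continuous fun y : Tor => ((T k)^[w] y).swap :=
      continuous_swap.comp (Meas.continuous_T_iter k w)
    exact hc.measurable (measurableSet_CVal k L (w - 1))
  · exact Meas.ms_forall fun n => Meas.ms_const_imp fun _ => Meas.ms_const_imp fun _ =>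
      Meas.ms_le measurable_const (continuous_ap k n).abs.measurable

/-- closedness of the field conditions -/
theorem isClosed_FC {X : Type*} [TopologicalSpace X] (cl cf k : ℝ) (w M : ℕ) {ρ : X → ℝ}
    (hρ : Continuous ρ) {x : X → ℕ → ℝ} (hx : ∀ n, Continuous fun q => x q n) :
    IsClosed {q : X | FC cl cf k (ρ q) w M (x q)} := by
  have e : {q : X | FC cl cf k (ρ q) w M (x q)} = {q | |x q 0| = 1} ∩ ({q | |x q 1| ≤ 1} ∩
      ({q | Real.exp (-(ρ q) - cl * Real.log k) ≤ max |x q (w - 1)| |x q w|} ∩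
      ({q | max |x q (w - 1)| |x q w| ≤ Real.exp (-(ρ q))} ∩
      {q | max |x q (w + M - 1)| |x q (w + M)| ≤ Real.exp (-(ρ q) - cf * Real.log k)}))) := by
    ext q
    exact Iff.rfl
  rw [e]
  have ha : ∀ n, Continuous fun q => |x q n| := fun n => (hx n).abs
  refine IsClosed.inter (isClosed_eq (ha 0) continuous_const) (IsClosed.inter
    (isClosed_le (ha 1) continuous_const) (IsClosed.inter (isClosed_le ?_ ((ha (w - 1)).max (ha w)))
    (IsClosed.inter (isClosed_le ((ha (w - 1)).max (ha w)) ?_)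
    (isClosed_le ((ha (w + M - 1)).max (ha (w + M))) ?_))))
  · exact Real.continuous_exp.comp (hρ.neg.sub continuous_const)
  · exact Real.continuous_exp.comp hρ.neg
  · exact Real.continuous_exp.comp (hρ.neg.sub continuous_const)

/-- the closed condition on `(y, ρ, a0, a1)` -/
def CC (cl cf k : ℝ) (w M w' M' : ℕ) : Set (Tor × (ℝ × ℝ × ℝ)) :=
  {q | FC cl cf k q.2.1 w M (sol (fun i => ap k q.1 i) q.2.2.1 q.2.2.2) ∧
    FC cl cf k q.2.1 w' M'
      (sol (fun i => ap k (Rev k q.1) i) q.2.2.1 (V k q.1.2 * q.2.2.1 - q.2.2.2))}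

theorem isClosed_CC (cl cf k : ℝ) (w M w' M' : ℕ) : IsClosed (CC cl cf k w M w' M') := by
  have hρ : Continuous fun q : Tor × (ℝ × ℝ × ℝ) => q.2.1 := continuous_fst.comp continuous_snd
  have h0 : Continuous fun q : Tor × (ℝ × ℝ × ℝ) => q.2.2.1 :=
    continuous_fst.comp (continuous_snd.comp continuous_snd)
  have h1 : Continuous fun q : Tor × (ℝ × ℝ × ℝ) => q.2.2.2 :=
    continuous_snd.comp (continuous_snd.comp continuous_snd)
  have hV : Continuous fun q : Tor × (ℝ × ℝ × ℝ) => V k q.1.2 :=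
    (continuous_V k).comp (continuous_snd.comp continuous_fst)
  have hA : IsClosed {q : Tor × (ℝ × ℝ × ℝ) |
      FC cl cf k q.2.1 w M (sol (fun i => ap k q.1 i) q.2.2.1 q.2.2.2)} :=
    isClosed_FC cl cf k w M hρ fun n => continuous_sol
      (a := fun i (q : Tor × (ℝ × ℝ × ℝ)) => ap k q.1 i)
      (fun i => (continuous_ap k i).comp continuous_fst) h0 h1 n
  have hB : IsClosed {q : Tor × (ℝ × ℝ × ℝ) | FC cl cf k q.2.1 w' M'
      (sol (fun i => ap k (Rev k q.1) i) q.2.2.1 (V k q.1.2 * q.2.2.1 - q.2.2.2))} :=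
    isClosed_FC cl cf k w' M' hρ fun n => continuous_sol
      (a := fun i (q : Tor × (ℝ × ℝ × ℝ)) => ap k (Rev k q.1) i)
      (fun i => (continuous_ap k i).comp ((continuous_Rev k).comp continuous_fst)) h0
      ((hV.mul h0).sub h1) n
  exact hA.inter hB

/-- the compact box of parameters -/
def KK (k : ℝ) (n : ℕ) : Set (ℝ × ℝ × ℝ) :=
  Set.Icc ((n : ℝ) * Real.log 2) (n * Real.log 2 + 2 * Real.log k) ×ˢ
    (Set.Icc (-1 : ℝ) 1 ×ˢ Set.Icc (-1 : ℝ) 1)

theorem isCompact_KK (k : ℝ) (n : ℕ) : IsCompact (KK k n) :=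
  isCompact_Icc.prod (isCompact_Icc.prod isCompact_Icc)

/-- description of the good event -/
theorem mem_G_iff (k : ℝ) (L n : ℕ) : ∃ (cl cf : ℝ) (cM : ℕ), ∀ y : Tor,
    y ∈ G k L n ↔ |V k y.2| < 2 ∧
    ∃ w M w' M' : ℕ, (L < w ∧ M ≤ cM) ∧ (L < w' ∧ M' ≤ cM) ∧ VR k L w M y ∧
      VR k L w' M' (Rev k y) ∧ ∃ p ∈ KK k n, (y, p) ∈ CC cl cf k w M w' M' := by
  obtain ⟨cl, cf, cM, hs⟩ := side_iff k L
  refine ⟨cl, cf, cM, fun y => ?_⟩
  constructor
  · rintro ⟨hV, ρ, h1, h2, xp, xm, w, M, w', M', hp, hm, h0, h3⟩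
    rw [hs] at hp hm
    obtain ⟨a1, a2, a3, a4⟩ := hp
    obtain ⟨b1, b2, b3, b4⟩ := hm
    have ep : xp = sol (fun i => ap k y i) (xp 0) (xp 1) := by
      funext j
      exact eq_sol (a := fun i => ap k y i) (s := xp) (N := j) (fun m _ => a4 m) j le_rfl
    have em : xm = sol (fun i => ap k (Rev k y) i) (xp 0) (V k y.2 * xp 0 - xp 1) := by
      funext j
      have h5 := eq_sol (a := fun i => ap k (Rev k y) i) (s := xm) (N := j) (fun m _ => b4 m) j
        le_rfl
      rw [h5, h0, ← h0]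
      congr 1
      linarith
    refine ⟨hV, w, M, w', M', a1, b1, a2, b2, (ρ, xp 0, xp 1), ⟨⟨h1, h2⟩, ?_, ?_⟩, ?_, ?_⟩
    · exact abs_le.1 a3.1.le
    · exact abs_le.1 a3.2.1
    · show FC cl cf k ρ w M (sol (fun i => ap k y i) (xp 0) (xp 1))
      rw [← ep]
      exact a3
    · show FC cl cf k ρ w' M'
        (sol (fun i => ap k (Rev k y) i) (xp 0) (V k y.2 * xp 0 - xp 1))
      rw [← em]
      exact b3
  · rintro ⟨hV, w, M, w', M', a1, b1, a2, b2, ⟨ρ, u, v⟩, ⟨⟨h1, h2⟩, _⟩, hc, hc'⟩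
    refine ⟨hV, ρ, h1, h2, sol (fun i => ap k y i) u v,
      sol (fun i => ap k (Rev k y) i) u (V k y.2 * u - v), w, M, w', M', ?_, ?_, ?_, ?_⟩
    · rw [hs]
      exact ⟨a1, a2, hc, fun n => sol_add_two _ _ _ n⟩
    · rw [hs]
      exact ⟨b1, b2, hc', fun n => sol_add_two _ _ _ n⟩
    · rw [sol_zero, sol_zero]
    · rw [sol_zero, sol_one, sol_one]
      ring

/-- **the good event is a Borel set** -/
theorem measurableSet_G (k : ℝ) (L n : ℕ) : MeasurableSet (G k L n) := by
  obtain ⟨cl, cf, cM, hG⟩ := mem_G_iff k L n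
  have e : G k L n = {y : Tor | |V k y.2| < 2 ∧
      ∃ w M w' M' : ℕ, (L < w ∧ M ≤ cM) ∧ (L < w' ∧ M' ≤ cM) ∧ VR k L w M y ∧
      VR k L w' M' (Rev k y) ∧ ∃ p ∈ KK k n, (y, p) ∈ CC cl cf k w M w' M'} := by
    ext y
    exact hG y
  rw [e]
  refine Meas.ms_and ?_ ?_
  · exact Meas.ms_lt ((continuous_V k).comp continuous_snd).abs.measurable measurable_const
  refine Meas.ms_exists fun w => Meas.ms_exists fun M => Meas.ms_exists fun w' =>
    Meas.ms_exists fun M' => Meas.ms_const_and fun _ => Meas.ms_const_and fun _ =>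
    Meas.ms_and (measurableSet_VR k L w M) (Meas.ms_and ?_ ?_)
  · exact (continuous_Rev k).measurable (measurableSet_VR k L w' M')
  · exact (isClosed_ex (isCompact_KK k n) (isClosed_CC cl cf k w M w' M')).measurableSet

/-- `(c, t) ↦ zt k c t` is continuous -/
theorem continuous_zt2 (k : ℝ) : Continuous fun p : ℝ × ℝ => zt k p.1 p.2 := by
  have h1 : Continuous fun p : ℝ × ℝ => tb k p.1 p.2 := by
    unfold tb
    fun_prop
  have h2 : Continuous fun x : ℝ => (x : UnitAddCircle) := AddCircle.continuous_mk' 1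
  exact (h2.comp h1).prodMk (h2.comp continuous_fst)

theorem continuous_zt (k c : ℝ) : Continuous fun t : ℝ => zt k c t :=
  (continuous_zt2 k).comp (continuous_const.prodMk continuous_id)

/-- the good event in the plane `(x_0, x_1)` -/
theorem measurableSet_zt2_G (k : ℝ) (L n : ℕ) :
    MeasurableSet {p : ℝ × ℝ | zt k p.1 p.2 ∈ G k L n} :=
  (continuous_zt2 k).measurable (measurableSet_G k L n)

/-- the good event on the fibre `x_0 = c`, coordinate `t = x_1` -/
theorem measurableSet_zt_G (k c : ℝ) (L n : ℕ) : MeasurableSet {t : ℝ | zt k c t ∈ G k L n} :=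
  (continuous_zt k c).measurable (measurableSet_G k L n)

/-- the good event on the fibre `x_0 = c` of the torus, coordinate `x_{-1}` -/
theorem measurableSet_fib_G (k : ℝ) (c : UnitAddCircle) (L n : ℕ) :
    MeasurableSet {b : UnitAddCircle | (b, c) ∈ G k L n} :=
  measurable_prodMk_right (measurableSet_G k L n)

/-- the reflected good event -/
theorem measurableSet_Rev_G (k : ℝ) (L n : ℕ) : MeasurableSet {y : Tor | Rev k y ∈ G k L n} :=
  (continuous_Rev k).measurable (measurableSet_G k L n)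

/-! ### symmetry under the reversor -/

theorem VF_Rev {k : ℝ} {L : ℕ} {ρ : ℝ} {y : Tor} (h : VF k L ρ y) : VF k L ρ (Rev k y) := by
  obtain ⟨xp, xm, w, M, w', M', hp, hm, h0, h1⟩ := h
  refine ⟨xm, xp, w', M', w, M, hm, ?_, h0.symm, ?_⟩
  · rw [Rev_Rev]
    exact hp
  · rw [Rev_snd, ← h0, ← h1]
    ring

theorem Rev_mem_G {k : ℝ} {L n : ℕ} {y : Tor} : Rev k y ∈ G k L n ↔ y ∈ G k L n := by
  have key : ∀ y : Tor, y ∈ G k L n → Rev k y ∈ G k L n := by
    rintro y ⟨hV, ρ, h1, h2, h3⟩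
    refine ⟨?_, ρ, h1, h2, VF_Rev h3⟩
    rw [Rev_snd]
    exact hV
  refine ⟨fun h => ?_, key y⟩
  have h5 := key _ h
  rwa [Rev_Rev] at h5

/-- the reflection `x_1 ↔ x_{-1}` of the fibre preserves the good event -/
theorem zt_tb_mem_G {k c t : ℝ} {L n : ℕ} : zt k c (tb k c t) ∈ G k L n ↔ zt k c t ∈ G k L n := by
  rw [← Rev_zt]
  exact Rev_mem_G

end Crest.Agent.R128.GMeas
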