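import Mathlib

/-! Row 128, P4-ITER (helper415): iteration of attempts on dyadic cells. Sorry free.

`cell n m = [m / 2^n, (m+1) / 2^n)`. `E` is an arbitrary set of points, `G t n` says that the dyadic
level `n` is good (an attempt) for `t`. If at every attempt at least a proportion `1 - q` of the cell
is covered by cells of level `n + g` without points of `E`, and every point of `E` has at least
`M * g` good levels, then `volume E ≤ q ^ M * volume (cell)`. -/

set_option autoImplicit false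
open MeasureTheory Set
open scoped ENNReal

namespace Crest.Agent.R128.Iter

/-- dyadic cell of level `n` -/
def cell (n : ℕ) (m : ℤ) : Set ℝ := Ico ((m : ℝ) / 2 ^ n) (((m : ℝ) + 1) / 2 ^ n)

theorem measurableSet_cell (n : ℕ) (m : ℤ) : MeasurableSet (cell n m) := measurableSet_Ico

theorem volume_cell (n : ℕ) (m : ℤ) : volume (cell n m) = ENNReal.ofReal (1 / 2 ^ n) := by
  unfold cell
  rw [Real.volume_Ico]
  congr 1
  ring

theorem volume_cell_ne_top (n : ℕ) (m : ℤ) : volume (cell n m) ≠ ∞ := by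
  rw [volume_cell]
  exact ENNReal.ofReal_ne_top

/-- index of the cell of level `n` containing `t` -/
noncomputable def idx (n : ℕ) (t : ℝ) : ℤ := ⌊t * 2 ^ n⌋

theorem mem_cell_iff (n : ℕ) (m : ℤ) (t : ℝ) : t ∈ cell n m ↔ idx n t = m := by
  have h2 : (0:ℝ) < 2 ^ n := by positivity
  unfold cell idx
  rw [mem_Ico, Int.floor_eq_iff, div_le_iff₀ h2, lt_div_iff₀ h2]

theorem mem_cell_idx (n : ℕ) (t : ℝ) : t ∈ cell n (idx n t) := (mem_cell_iff n _ t).2 rfl

theorem cell_disjoint (n : ℕ) {m m' : ℤ} (h : m ≠ m') : Disjoint (cell n m) (cell n m') := by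
  rw [Set.disjoint_left]
  intro t ht ht'
  exact h (((mem_cell_iff n m t).1 ht).symm.trans ((mem_cell_iff n m' t).1 ht'))

/-- cells of level `n + g` inside a cell of level `n` -/
theorem cell_subset {n g : ℕ} {m : ℤ} {m' : ℤ} (h1 : m * 2 ^ g ≤ m') (h2 : m' < (m + 1) * 2 ^ g) :
    cell (n + g) m' ⊆ cell n m := by
  have hn : (0:ℝ) < 2 ^ n := by positivity
  have hg : (0:ℝ) < 2 ^ g := by positivity
  have h1' : (m : ℝ) * 2 ^ g ≤ m' := by exact_mod_cast h1
  have h2' : (m' : ℝ) + 1 ≤ ((m : ℝ) + 1) * 2 ^ g := by exact_mod_cast h2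
  rintro t ⟨ht1, ht2⟩
  rw [div_le_iff₀ (by positivity)] at ht1
  rw [lt_div_iff₀ (by positivity)] at ht2
  rw [pow_add] at ht1 ht2
  constructor
  · rw [div_le_iff₀ hn]
    have : (m : ℝ) * 2 ^ g ≤ t * 2 ^ n * 2 ^ g := by linarith [mul_assoc t ((2:ℝ) ^ n) (2 ^ g)]
    exact le_of_mul_le_mul_right this hg
  · rw [lt_div_iff₀ hn]
    have : t * 2 ^ n * 2 ^ g < ((m : ℝ) + 1) * 2 ^ g := by
      linarith [mul_assoc t ((2:ℝ) ^ n) (2 ^ g)]
    exact lt_of_mul_lt_mul_right this hg.le

theorem idx_bounds {n g : ℕ} {m : ℤ} {t : ℝ} (ht : t ∈ cell n m) :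
    m * 2 ^ g ≤ idx (n + g) t ∧ idx (n + g) t < (m + 1) * 2 ^ g := by
  have hg : (0:ℝ) < 2 ^ g := by positivity
  have hn : (0:ℝ) < 2 ^ n := by positivity
  obtain ⟨h1, h2⟩ := ht
  rw [div_le_iff₀ hn] at h1
  rw [lt_div_iff₀ hn] at h2
  unfold idx
  constructor
  · rw [Int.le_floor]
    push_cast
    rw [pow_add, ← mul_assoc]
    exact mul_le_mul_of_nonneg_right h1 hg.le
  · rw [Int.floor_lt]
    push_cast
    rw [pow_add, ← mul_assoc]
    exact mul_lt_mul_of_pos_right h2 hg

/-- indices of the cells of level `n + g` inside the cell `(n, m)` which meet `E` -/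
noncomputable def kids (E : Set ℝ) (n g : ℕ) (m : ℤ) : Finset ℤ := by
  classical
  exact (Finset.Ico (m * 2 ^ g) ((m + 1) * 2 ^ g)).filter fun m' => (cell (n + g) m' ∩ E).Nonempty

theorem mem_kids {E : Set ℝ} {n g : ℕ} {m m' : ℤ} : m' ∈ kids E n g m ↔
    (m * 2 ^ g ≤ m' ∧ m' < (m + 1) * 2 ^ g) ∧ (cell (n + g) m' ∩ E).Nonempty := by
  classical
  unfold kids
  rw [Finset.mem_filter, Finset.mem_Ico]

/-- union of the cells of level `n` meeting `E` -/
def hull (n : ℕ) (E : Set ℝ) : Set ℝ := {t | (cell n (idx n t) ∩ E).Nonempty}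

theorem subset_hull (n : ℕ) (E : Set ℝ) : E ⊆ hull n E := fun t ht => ⟨t, mem_cell_idx n t, ht⟩

theorem hull_inter_cell (E : Set ℝ) (n g : ℕ) (m : ℤ) :
    hull (n + g) E ∩ cell n m = ⋃ m' ∈ kids E n g m, cell (n + g) m' := by
  ext t
  constructor
  · rintro ⟨h1, h2⟩
    rw [mem_iUnion₂]
    exact ⟨idx (n + g) t, mem_kids.2 ⟨idx_bounds h2, h1⟩, mem_cell_idx _ _⟩
  · intro h
    obtain ⟨m', hm', ht⟩ := mem_iUnion₂.1 h
    obtain ⟨⟨h1, h2⟩, h3⟩ := mem_kids.1 hm'
    refine ⟨?_, cell_subset h1 h2 ht⟩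
    have := (mem_cell_iff (n + g) m' t).1 ht
    unfold hull
    rw [mem_ofPred_eq, this]
    exact h3

theorem volume_hull_inter_cell (E : Set ℝ) (n g : ℕ) (m : ℤ) :
    volume (hull (n + g) E ∩ cell n m) =
      (kids E n g m).card * ENNReal.ofReal (1 / 2 ^ (n + g)) := by
  rw [hull_inter_cell, measure_biUnion_finset (fun a _ b _ hab => cell_disjoint _ hab)
    (fun m' _ => measurableSet_cell _ _)]
  simp only [volume_cell]
  rw [Finset.sum_const, nsmul_eq_mul]

/-- The iteration. -/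
theorem iter {E : Set ℝ} {G : ℝ → ℕ → Prop} {g : ℕ} (hg : 1 ≤ g) {q : ℝ≥0∞}
    {n₀ n₁ : ℕ}
    (hatt : ∀ n m, n₀ ≤ n → n ≤ n₁ → (∃ t ∈ E ∩ cell n m, G t n) →
      volume (hull (n + g) E ∩ cell n m) ≤ q * volume (cell n m)) :
    ∀ (d n : ℕ) (_ : n₁ < n + d) (_ : n₀ ≤ n) (m : ℤ) (M : ℕ) (E' : Set ℝ), E' ⊆ E ∩ cell n m →
      (∀ t ∈ E', ∃ s : Finset ℕ, M * g ≤ s.card ∧ ∀ i ∈ s, n ≤ i ∧ i ≤ n₁ ∧ G t i) →
      volume E' ≤ q ^ M * volume (cell n m) := by
  intro d
  induction d using Nat.strong_induction_on with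
  | _ d ih =>
    intro n hd hn m M E' hE' hs
    -- trivial cases
    rcases E'.eq_empty_or_nonempty with rfl | ⟨t₀, ht₀⟩
    · simp
    rcases Nat.eq_zero_or_pos M with rfl | hM
    · rw [pow_zero, one_mul]
      exact measure_mono fun t ht => (hE' ht).2
    have hnn : n ≤ n₁ := by
      obtain ⟨s, hs1, hs2⟩ := hs t₀ ht₀
      have : 0 < s.card := lt_of_lt_of_le (Nat.mul_pos hM hg) hs1
      obtain ⟨i, hi⟩ := Finset.card_pos.1 this
      exact (hs2 i hi).1.trans (hs2 i hi).2.1
    by_cases hgood : ∃ t ∈ E', G t n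
    · -- an attempt at level `n`
      obtain ⟨t, htE, htG⟩ := hgood
      have hh := hatt n m hn hnn ⟨t, hE' htE, htG⟩
      obtain ⟨M', rfl⟩ : ∃ M', M = M' + 1 := ⟨M - 1, by omega⟩
      have hcov : E' ⊆ ⋃ m' ∈ kids E n g m, (E' ∩ cell (n + g) m') := by
        intro u hu
        have hu' := hE' hu
        rw [mem_iUnion₂]
        exact ⟨idx (n + g) u, mem_kids.2 ⟨idx_bounds hu'.2, ⟨u, mem_cell_idx _ _, hu'.1⟩⟩,
          hu, mem_cell_idx _ _⟩
      have hkid : ∀ m' ∈ kids E n g m, volume (E' ∩ cell (n + g) m') ≤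
          q ^ M' * ENNReal.ofReal (1 / 2 ^ (n + g)) := by
        intro m' _
        rw [← volume_cell (n + g) m']
        refine ih (d - g) (by omega) (n + g) (by omega) (by omega) m' M' _ ?_ ?_
        · rintro u ⟨hu, hu'⟩
          exact ⟨(hE' hu).1, hu'⟩
        · rintro u ⟨hu, -⟩
          obtain ⟨s, hs1, hs2⟩ := hs u hu
          refine ⟨s.filter fun i => n + g ≤ i, ?_, ?_⟩
          · have hsub : (s.filter fun i => ¬ (n + g ≤ i)) ⊆ Finset.Ico n (n + g) := by
              intro i hi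
              rw [Finset.mem_filter] at hi
              rw [Finset.mem_Ico]
              exact ⟨(hs2 i hi.1).1, by omega⟩
            have h1 := Finset.card_le_card hsub
            rw [Nat.card_Ico] at h1
            have h2 := Finset.card_filter_add_card_filter_not (s := s) (fun i => n + g ≤ i)
            have h3 : (M' + 1) * g = M' * g + g := by ring
            omega
          · intro i hi
            rw [Finset.mem_filter] at hi
            exact ⟨hi.2, (hs2 i hi.1).2⟩
      calc volume E' ≤ volume (⋃ m' ∈ kids E n g m, (E' ∩ cell (n + g) m')) := measure_mono hcov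
        _ ≤ ∑ m' ∈ kids E n g m, volume (E' ∩ cell (n + g) m') := measure_biUnion_finset_le _ _
        _ ≤ ∑ _m' ∈ kids E n g m, q ^ M' * ENNReal.ofReal (1 / 2 ^ (n + g)) :=
            Finset.sum_le_sum hkid
        _ = q ^ M' * volume (hull (n + g) E ∩ cell n m) := by
            rw [Finset.sum_const, nsmul_eq_mul, volume_hull_inter_cell]
            ring
        _ ≤ q ^ M' * (q * volume (cell n m)) := by gcongr
        _ = q ^ (M' + 1) * volume (cell n m) := by rw [pow_succ]; ring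
    · -- no attempt at level `n`: split into the two halves
      push Not at hgood
      have hcov : E' ⊆ ⋃ m' ∈ Finset.Ico (m * 2) ((m + 1) * 2), (E' ∩ cell (n + 1) m') := by
        intro u hu
        have hu' := hE' hu
        have hb := idx_bounds (g := 1) hu'.2
        rw [mem_iUnion₂]
        refine ⟨idx (n + 1) u, ?_, hu, mem_cell_idx _ _⟩
        rw [Finset.mem_Ico]
        simpa using hb
      have hkid : ∀ m' ∈ Finset.Ico (m * 2) ((m + 1) * 2), volume (E' ∩ cell (n + 1) m') ≤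
          q ^ M * ENNReal.ofReal (1 / 2 ^ (n + 1)) := by
        intro m' _
        rw [← volume_cell (n + 1) m']
        refine ih (d - 1) (by omega) (n + 1) (by omega) (by omega) m' M _ ?_ ?_
        · rintro u ⟨hu, hu'⟩
          exact ⟨(hE' hu).1, hu'⟩
        · rintro u ⟨hu, -⟩
          obtain ⟨s, hs1, hs2⟩ := hs u hu
          refine ⟨s, hs1, fun i hi => ⟨?_, (hs2 i hi).2⟩⟩
          have h1 := (hs2 i hi).1
          rcases Nat.eq_or_lt_of_le h1 with h | h
          · exact absurd (h ▸ (hs2 i hi).2.2) (hgood u hu)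
          · exact h
      calc volume E' ≤ volume (⋃ m' ∈ Finset.Ico (m * 2) ((m + 1) * 2), (E' ∩ cell (n + 1) m')) :=
            measure_mono hcov
        _ ≤ ∑ m' ∈ Finset.Ico (m * 2) ((m + 1) * 2), volume (E' ∩ cell (n + 1) m') :=
            measure_biUnion_finset_le _ _
        _ ≤ ∑ _m' ∈ Finset.Ico (m * 2) ((m + 1) * 2), q ^ M * ENNReal.ofReal (1 / 2 ^ (n + 1)) :=
            Finset.sum_le_sum hkid
        _ = q ^ M * volume (cell n m) := by
            rw [Finset.sum_const, Int.card_Ico, volume_cell, nsmul_eq_mul]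
            have : ((m + 1) * 2 - m * 2).toNat = 2 := by
              have : (m + 1) * 2 - m * 2 = 2 := by ring
              rw [this]
              rfl
            rw [this, mul_left_comm]
            congr 1
            rw [show (1:ℝ) / 2 ^ n = 2 * (1 / 2 ^ (n + 1)) by rw [pow_succ]; field_simp,
              ENNReal.ofReal_mul (by norm_num)]
            norm_num

/-- Main form: if every point of `E ∩ cell n₀ m` has at least `M * g` good levels in `[n₀, n₁]`, then
`volume (E ∩ cell n₀ m) ≤ q ^ M * volume (cell n₀ m)`. -/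
theorem attempts {E : Set ℝ} {G : ℝ → ℕ → Prop} {g : ℕ} (hg : 1 ≤ g) {q : ℝ≥0∞}
    {n₀ n₁ : ℕ}
    (hatt : ∀ n m, n₀ ≤ n → n ≤ n₁ → (∃ t ∈ E ∩ cell n m, G t n) →
      volume (hull (n + g) E ∩ cell n m) ≤ q * volume (cell n m)) (m : ℤ) (M : ℕ)
    (hs : ∀ t ∈ E ∩ cell n₀ m, ∃ s : Finset ℕ, M * g ≤ s.card ∧ ∀ i ∈ s, n₀ ≤ i ∧ i ≤ n₁ ∧ G t i) :
    volume (E ∩ cell n₀ m) ≤ q ^ M * volume (cell n₀ m) :=
  iter hg hatt (n₁ + 1) n₀ (by omega) le_rfl m M _ Subset.rfl hs

/-- the attempt hypothesis from dead sub-cells: a measurable part `D` of the cell of volume at least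
`δ * volume`, such that no cell of level `n + g` meeting `D` meets `E`. -/
theorem hull_le_of_dead {E D : Set ℝ} {n g : ℕ} {m : ℤ} {δ : ℝ≥0∞} (hδ : δ ≤ 1)
    (hD : D ⊆ cell n m) (hDv : δ * volume (cell n m) ≤ volume D)
    (hdead : ∀ t ∈ D, ¬ (cell (n + g) (idx (n + g) t) ∩ E).Nonempty) :
    volume (hull (n + g) E ∩ cell n m) ≤ (1 - δ) * volume (cell n m) := by
  have hmeas : MeasurableSet (hull (n + g) E ∩ cell n m) := by
    rw [hull_inter_cell]
    exact Finset.measurableSet_biUnion _ fun m' _ => measurableSet_cell _ _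
  have hsub : D ⊆ cell n m \ (hull (n + g) E ∩ cell n m) := by
    intro t ht
    exact ⟨hD ht, fun h => hdead t ht h.1⟩
  have h1 := measure_mono (μ := volume) hsub
  rw [measure_sdiff inter_subset_right hmeas.nullMeasurableSet
    (ne_top_of_le_ne_top (volume_cell_ne_top n m) (measure_mono inter_subset_right))] at h1
  have h2 : volume (hull (n + g) E ∩ cell n m) ≤ volume (cell n m) := measure_mono inter_subset_right
  have h3 : δ * volume (cell n m) + volume (hull (n + g) E ∩ cell n m) ≤ volume (cell n m) := by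
    calc δ * volume (cell n m) + volume (hull (n + g) E ∩ cell n m)
        ≤ (volume (cell n m) - volume (hull (n + g) E ∩ cell n m)) +
            volume (hull (n + g) E ∩ cell n m) := by gcongr; exact hDv.trans h1
      _ = volume (cell n m) := tsub_add_cancel_of_le h2
  have h4 : δ * volume (cell n m) ≠ ∞ :=
    ENNReal.mul_ne_top (ne_top_of_le_ne_top ENNReal.one_ne_top hδ) (volume_cell_ne_top n m)
  rw [ENNReal.sub_mul (fun _ _ => volume_cell_ne_top n m), one_mul]
  exact ENNReal.le_sub_of_add_le_left h4 h3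

end Crest.Agent.R128.Iter
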