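import Mathlib
import Crest.Agent.R128.Iter

/-! Row 128 (helper284): V5-VITALI. Local cells `J(t)` around the good points of a dyadic cell, each
of which has a definite proportion free of the hull of the good points, give the attempt hypothesis
of `Iter.attempts` / `Pattern` on the dyadic cell. Sorry free. -/

set_option autoImplicit false
open MeasureTheory Set Metric
open scoped ENNReal

namespace Crest.Agent.R128.Vit

open Crest.Agent.R128.Iter

/-- cells have diameter `2^-n` -/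
theorem dist_of_cell {n : ℕ} {m : ℤ} {s t : ℝ} (hs : s ∈ cell n m) (ht : t ∈ cell n m) :
    |s - t| ≤ 1 / 2 ^ n := by
  obtain ⟨h1, h2⟩ := hs
  obtain ⟨h3, h4⟩ := ht
  have e : ((m : ℝ) + 1) / 2 ^ n = (m : ℝ) / 2 ^ n + 1 / 2 ^ n := by ring
  rw [e] at h2 h4
  rw [abs_le]
  constructor <;> linarith

theorem measurableSet_hull_inter (A : Set ℝ) (n g : ℕ) (m : ℤ) :
    MeasurableSet (hull (n + g) A ∩ cell n m) := by
  rw [hull_inter_cell]
  exact Finset.measurableSet_biUnion _ fun _ _ => measurableSet_cell _ _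

theorem measurableSet_hull (A : Set ℝ) (n : ℕ) : MeasurableSet (hull n A) := by
  have : hull n A = ⋃ m : ℤ, (hull (n + 0) A ∩ cell n m) := by
    ext t
    constructor
    · intro h
      exact mem_iUnion.2 ⟨idx n t, h, mem_cell_idx n t⟩
    · intro h
      obtain ⟨m, h1, _⟩ := mem_iUnion.1 h
      exact h1
  rw [this]
  exact MeasurableSet.iUnion fun m => measurableSet_hull_inter A n 0 m

/-- the hull is contained in a thickening -/
theorem hull_subset_cthickening (n : ℕ) (A : Set ℝ) :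
    hull n A ⊆ cthickening (1 / 2 ^ n) A := by
  intro t ht
  obtain ⟨s, hs, hsA⟩ := ht
  refine mem_cthickening_of_dist_le t s _ _ hsA ?_
  rw [Real.dist_eq]
  exact dist_of_cell (mem_cell_idx n t) hs

/-- **Vitali.** -/
theorem vitali {A : Set ℝ} {n g : ℕ} {m : ℤ} {c₀ ε : ℝ} (hc₀ : 0 < c₀) (hε : 0 ≤ ε)
    (hJ : ∀ t ∈ A, t ∈ cell n m → ∃ a b : ℝ, a ≤ t ∧ t ≤ b ∧
      (m : ℝ) / 2 ^ n - ε / 2 ^ n ≤ a ∧ b ≤ ((m : ℝ) + 1) / 2 ^ n + ε / 2 ^ n ∧
      2 / 2 ^ (n + g) ≤ b - a ∧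
      ENNReal.ofReal (c₀ * (b - a)) ≤ volume (Icc a b \ hull (n + g) A)) :
    volume (hull (n + g) A ∩ cell n m) ≤
      ENNReal.ofReal ((1 + 2 * ε) / (1 + c₀ / 5)) * volume (cell n m) := by
  classical
  have h2n : (0:ℝ) < 2 ^ n := by positivity
  have h2g : (0:ℝ) < 2 ^ (n + g) := by positivity
  -- choose the points
  have hch : ∀ m' ∈ kids A n g m, ∃ t a b : ℝ, t ∈ cell (n + g) m' ∧ a ≤ t ∧ t ≤ b ∧
      (m : ℝ) / 2 ^ n - ε / 2 ^ n ≤ a ∧ b ≤ ((m : ℝ) + 1) / 2 ^ n + ε / 2 ^ n ∧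
      2 / 2 ^ (n + g) ≤ b - a ∧
      ENNReal.ofReal (c₀ * (b - a)) ≤ volume (Icc a b \ hull (n + g) A) := by
    intro m' hm'
    obtain ⟨⟨h1, h2⟩, t, ht, htA⟩ := mem_kids.1 hm'
    obtain ⟨a, b, h⟩ := hJ t htA (cell_subset h1 h2 ht)
    exact ⟨t, a, b, ht, h⟩
  choose! T a b hT hat htb hal hbr hlen hvol using hch
  obtain ⟨u, hu, hdisj, hcov⟩ := Vitali.exists_disjoint_subfamily_covering_enlargement_closedBall
    (↑(kids A n g m) : Set ℤ) (fun i => (a i + b i) / 2) (fun i => (b i - a i) / 2)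
    ((1 + 2 * ε) / 2 ^ n) (by
      intro i hi
      have h1 := hal i hi
      have h2 := hbr i hi
      have e : ((m : ℝ) + 1) / 2 ^ n = (m : ℝ) / 2 ^ n + 1 / 2 ^ n := by ring
      have e2 : (1 + 2 * ε) / 2 ^ n = 1 / 2 ^ n + 2 * (ε / 2 ^ n) := by ring
      have e3 : (0:ℝ) ≤ ε / 2 ^ n := by positivity
      have e4 : (0:ℝ) ≤ 1 / 2 ^ n := by positivity
      rw [e] at h2
      rw [e2]
      linarith) 4 (by norm_num)
  have hIcc : ∀ i, closedBall ((a i + b i) / 2) ((b i - a i) / 2) = Icc (a i) (b i) := by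
    intro i
    rw [Real.closedBall_eq_Icc]
    congr 1 <;> ring
  have hufin : u.Finite := (kids A n g m).finite_toSet.subset hu
  set U : Finset ℤ := hufin.toFinset with hU
  have hmemU : ∀ i, i ∈ U ↔ i ∈ u := by
    intro i
    rw [hU, Set.Finite.mem_toFinset]
  set S : ℝ := ∑ i ∈ U, (b i - a i) with hS
  have hlen' : ∀ i ∈ U, 0 ≤ b i - a i := by
    intro i hi
    have h1 := hlen i (hu ((hmemU i).1 hi))
    have : (0:ℝ) ≤ 2 / 2 ^ (n + g) := by positivity
    linarith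
  have hS0 : 0 ≤ S := Finset.sum_nonneg hlen'
  -- cover
  have hcover : hull (n + g) A ∩ cell n m ⊆
      ⋃ i ∈ U, closedBall ((a i + b i) / 2) (4 * ((b i - a i) / 2) + 1 / 2 ^ (n + g)) := by
    rw [hull_inter_cell]
    intro s hs
    obtain ⟨m', hm', hs'⟩ := mem_iUnion₂.1 hs
    obtain ⟨i, hi, hsub⟩ := hcov m' hm'
    refine mem_iUnion₂.2 ⟨i, (hmemU i).2 hi, ?_⟩
    have ht : T m' ∈ closedBall ((a i + b i) / 2) (4 * ((b i - a i) / 2)) := by
      apply hsub
      simp only [hIcc]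
      exact ⟨hat m' hm', htb m' hm'⟩
    rw [mem_closedBall, Real.dist_eq] at ht ⊢
    have h3 := dist_of_cell hs' (hT m' hm')
    calc |s - (a i + b i) / 2| = |(s - T m') + (T m' - (a i + b i) / 2)| := by ring_nf
      _ ≤ |s - T m'| + |T m' - (a i + b i) / 2| := abs_add_le _ _
      _ ≤ _ := by linarith
  have hub : volume (hull (n + g) A ∩ cell n m) ≤ ENNReal.ofReal (5 * S) := by
    calc volume (hull (n + g) A ∩ cell n m)
        ≤ volume (⋃ i ∈ U, closedBall ((a i + b i) / 2)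
            (4 * ((b i - a i) / 2) + 1 / 2 ^ (n + g))) := measure_mono hcover
      _ ≤ ∑ i ∈ U, volume (closedBall ((a i + b i) / 2)
            (4 * ((b i - a i) / 2) + 1 / 2 ^ (n + g))) := measure_biUnion_finset_le _ _
      _ ≤ ∑ i ∈ U, ENNReal.ofReal (5 * (b i - a i)) := by
          refine Finset.sum_le_sum fun i hi => ?_
          rw [Real.volume_closedBall]
          refine ENNReal.ofReal_le_ofReal ?_
          have h1 := hlen i (hu ((hmemU i).1 hi))
          have e : (2:ℝ) / 2 ^ (n + g) = 2 * (1 / 2 ^ (n + g)) := by ring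
          rw [e] at h1
          linarith
      _ = ENNReal.ofReal (5 * S) := by
          rw [← ENNReal.ofReal_sum_of_nonneg (fun i hi => by have := hlen' i hi; linarith),
            ← Finset.mul_sum]
  -- dead parts
  have hdead : ENNReal.ofReal (c₀ * S) + volume (hull (n + g) A ∩ cell n m) ≤
      ENNReal.ofReal ((1 + 2 * ε) / 2 ^ n) := by
    have hd : Disjoint (⋃ i ∈ U, (Icc (a i) (b i) \ hull (n + g) A))
        (hull (n + g) A ∩ cell n m) := by
      rw [Set.disjoint_left]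
      intro s hs hs2
      obtain ⟨i, _, hs'⟩ := mem_iUnion₂.1 hs
      exact hs'.2 hs2.1
    have hsum : ENNReal.ofReal (c₀ * S) ≤ volume (⋃ i ∈ U, (Icc (a i) (b i) \ hull (n + g) A)) := by
      rw [measure_biUnion_finset]
      · calc ENNReal.ofReal (c₀ * S) = ∑ i ∈ U, ENNReal.ofReal (c₀ * (b i - a i)) := by
              rw [← ENNReal.ofReal_sum_of_nonneg
                (fun i hi => mul_nonneg hc₀.le (hlen' i hi)), ← Finset.mul_sum]
          _ ≤ _ := Finset.sum_le_sum fun i hi => hvol i (hu ((hmemU i).1 hi))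
      · intro i hi j hj hij
        have := hdisj ((hmemU i).1 hi) ((hmemU j).1 hj) hij
        simp only [Function.onFun, hIcc] at this
        exact this.mono sdiff_subset sdiff_subset
      · intro i _
        exact measurableSet_Icc.diff (measurableSet_hull A _)
    calc ENNReal.ofReal (c₀ * S) + volume (hull (n + g) A ∩ cell n m)
        ≤ volume (⋃ i ∈ U, (Icc (a i) (b i) \ hull (n + g) A))
          + volume (hull (n + g) A ∩ cell n m) := add_le_add_left hsum _
      _ = volume ((⋃ i ∈ U, (Icc (a i) (b i) \ hull (n + g) A)) ∪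
            (hull (n + g) A ∩ cell n m)) :=
          (measure_union hd (measurableSet_hull_inter A n g m)).symm
      _ ≤ volume (Icc ((m : ℝ) / 2 ^ n - ε / 2 ^ n) (((m : ℝ) + 1) / 2 ^ n + ε / 2 ^ n)) := by
          refine measure_mono (union_subset ?_ ?_)
          · refine iUnion₂_subset fun i hi => ?_
            have hk := hu ((hmemU i).1 hi)
            intro s hs
            exact ⟨(hal i hk).trans hs.1.1, hs.1.2.trans (hbr i hk)⟩
          · intro s hs
            obtain ⟨h1, h2⟩ := hs.2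
            have e3 : (0:ℝ) ≤ ε / 2 ^ n := by positivity
            exact ⟨by linarith, by linarith⟩
      _ = ENNReal.ofReal ((1 + 2 * ε) / 2 ^ n) := by
          rw [Real.volume_Icc]
          congr 1
          ring
  -- conclusion
  have hfin : volume (hull (n + g) A ∩ cell n m) ≠ ∞ :=
    (lt_of_le_of_lt hub ENNReal.ofReal_lt_top).ne
  obtain ⟨x, hx⟩ : ∃ x : ℝ, x = (volume (hull (n + g) A ∩ cell n m)).toReal := ⟨_, rfl⟩
  have hx0 : 0 ≤ x := by rw [hx]; exact ENNReal.toReal_nonneg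
  have hxe : volume (hull (n + g) A ∩ cell n m) = ENNReal.ofReal x := by
    rw [hx, ENNReal.ofReal_toReal hfin]
  rw [hxe] at hub hdead ⊢
  rw [ENNReal.ofReal_le_ofReal_iff (by positivity)] at hub
  rw [← ENNReal.ofReal_add (by positivity) hx0, ENNReal.ofReal_le_ofReal_iff (by positivity)]
    at hdead
  rw [volume_cell, ← ENNReal.ofReal_mul (by positivity)]
  refine ENNReal.ofReal_le_ofReal ?_
  have h5 : 0 < 1 + c₀ / 5 := by positivity
  have e : (1 + 2 * ε) / (1 + c₀ / 5) * (1 / 2 ^ n) = ((1 + 2 * ε) / 2 ^ n) / (1 + c₀ / 5) := by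
    field_simp
  rw [e, le_div_iff₀ h5]
  nlinarith [mul_le_mul_of_nonneg_left hub (by positivity : (0:ℝ) ≤ c₀ / 5)]

/-- `vitali` with a thickening instead of the hull -/
theorem vitali_thick {A : Set ℝ} {n g : ℕ} {m : ℤ} {c₀ ε : ℝ} (hc₀ : 0 < c₀) (hε : 0 ≤ ε)
    (hJ : ∀ t ∈ A, t ∈ cell n m → ∃ a b : ℝ, a ≤ t ∧ t ≤ b ∧
      (m : ℝ) / 2 ^ n - ε / 2 ^ n ≤ a ∧ b ≤ ((m : ℝ) + 1) / 2 ^ n + ε / 2 ^ n ∧
      2 / 2 ^ (n + g) ≤ b - a ∧
      ENNReal.ofReal (c₀ * (b - a)) ≤ volume (Icc a b \ cthickening (1 / 2 ^ (n + g)) A)) :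
    volume (hull (n + g) A ∩ cell n m) ≤
      ENNReal.ofReal ((1 + 2 * ε) / (1 + c₀ / 5)) * volume (cell n m) := by
  refine vitali hc₀ hε fun t ht htc => ?_
  obtain ⟨a, b, h1, h2, h3, h4, h5, h6⟩ := hJ t ht htc
  refine ⟨a, b, h1, h2, h3, h4, h5, h6.trans (measure_mono ?_)⟩
  exact sdiff_subset_sdiff_right (hull_subset_cthickening _ _)

/-- the constant is `< 1` when `ε` is small against `c₀` -/
theorem const_le {c₀ ε : ℝ} (hc₀ : 0 < c₀) (hc1 : c₀ ≤ 1) (hε : ε ≤ c₀ / 40) :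
    (1 + 2 * ε) / (1 + c₀ / 5) ≤ 1 - c₀ / 10 := by
  rw [div_le_iff₀ (by positivity)]
  nlinarith

end Crest.Agent.R128.Vit
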