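import Mathlib
import Crest.Agent.R128.Vit
import Crest.Agent.R128.LocDef

/-! Row 128 (helper284): LocC. From the 3-lap cells (`Cell3`, `Good3`, `LocB` of `LocDef`) to the
attempt hypothesis on dyadic cells. Sorry free. -/

set_option autoImplicit false
open MeasureTheory Set Metric
open scoped ENNReal

namespace Crest.Agent.R128.LocC

open Crest.Agent.R128.Iter Crest.Agent.R128.Vit

/-- dead part of an interval: Vitali inside -/
theorem dead_of_cells {A N : Set ℝ} {t₀ r c₀ : ℝ} {n : ℕ} (hc₀ : 0 < c₀) (hr : 0 < r)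
    (hN : N ⊆ Icc (t₀ - r) (t₀ + r)) (hvN : ENNReal.ofReal r ≤ volume N)
    (h : ∀ x ∈ N, ∃ R : ℝ, 0 < R ∧ 2 / R ≤ r ∧
      ENNReal.ofReal (c₀ / R) ≤
        volume {t : ℝ | |t - x| ≤ 2 / R ∧ ∀ u ∈ A, ¬ |u - t| ≤ 1 / 2 ^ n}) :
    ENNReal.ofReal (c₀ / 64 * (4 * r)) ≤
      volume (Icc (t₀ - 2 * r) (t₀ + 2 * r) \ hull n A) := by
  choose! R hR hRr hvol using h
  obtain ⟨u, hu, hdisj, hcov⟩ := Vitali.exists_disjoint_subfamily_covering_enlargement_closedBall
    N (fun x => x) (fun x => 2 / R x) r hRr 4 (by norm_num)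
  have hcount : u.Countable := by
    have hd' : u.PairwiseDisjoint fun x => ball x (2 / R x) := by
      intro x hx y hy hxy
      exact (hdisj hx hy hxy).mono ball_subset_closedBall ball_subset_closedBall
    refine hd'.countable_of_isOpen (fun x _ => isOpen_ball) ?_
    intro x hx
    exact ⟨x, mem_ball_self (div_pos two_pos (hR x (hu hx)))⟩
  have hcover : N ⊆ ⋃ x ∈ u, closedBall x (4 * (2 / R x)) := by
    intro x hx
    obtain ⟨y, hy, hsub⟩ := hcov x hx
    exact mem_iUnion₂.2 ⟨y, hy, hsub (mem_closedBall_self (div_pos two_pos (hR x hx)).le)⟩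
  have h1 : volume N ≤ ∑' x : u, ENNReal.ofReal (16 / R x) := by
    calc volume N ≤ volume (⋃ x ∈ u, closedBall x (4 * (2 / R x))) := measure_mono hcover
      _ ≤ ∑' x : u, volume (closedBall (x : ℝ) (4 * (2 / R x))) := by
          exact measure_biUnion_le volume hcount _
      _ = _ := by
          congr 1
          funext x
          rw [Real.volume_closedBall]
          congr 1
          ring
  have hdead : ∀ x ∈ u, ENNReal.ofReal (c₀ / R x) ≤
      volume (closedBall x (2 / R x) \ hull n A) := by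
    intro x hx
    refine (hvol x (hu hx)).trans (measure_mono ?_)
    rintro t ⟨ht1, ht2⟩
    refine ⟨by rw [mem_closedBall, Real.dist_eq]; exact ht1, ?_⟩
    intro hth
    obtain ⟨v, hv, hvA⟩ := hth
    exact ht2 v hvA (dist_of_cell hv (mem_cell_idx n t))
  have h2 : volume (⋃ x ∈ u, (closedBall x (2 / R x) \ hull n A)) =
      ∑' x : u, volume (closedBall (x : ℝ) (2 / R x) \ hull n A) := by
    refine measure_biUnion hcount ?_ ?_
    · intro x hx y hy hxy
      exact (hdisj hx hy hxy).mono sdiff_subset sdiff_subset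
    · intro x _
      exact measurableSet_closedBall.diff (measurableSet_hull A n)
  have h3 : (⋃ x ∈ u, (closedBall x (2 / R x) \ hull n A)) ⊆
      Icc (t₀ - 2 * r) (t₀ + 2 * r) \ hull n A := by
    refine iUnion₂_subset fun x hx => ?_
    rintro t ⟨ht1, ht2⟩
    refine ⟨?_, ht2⟩
    rw [mem_closedBall, Real.dist_eq, abs_le] at ht1
    obtain ⟨h4, h5⟩ := hN (hu hx)
    have h6 := hRr x (hu hx)
    exact ⟨by linarith [ht1.1], by linarith [ht1.2]⟩
  calc ENNReal.ofReal (c₀ / 64 * (4 * r)) = ENNReal.ofReal (c₀ / 16) * ENNReal.ofReal r := by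
        rw [← ENNReal.ofReal_mul (by positivity)]
        congr 1
        ring
    _ ≤ ENNReal.ofReal (c₀ / 16) * ∑' x : u, ENNReal.ofReal (16 / R x) := by
        gcongr
        exact hvN.trans h1
    _ = ∑' x : u, ENNReal.ofReal (c₀ / R x) := by
        rw [← ENNReal.tsum_mul_left]
        congr 1
        funext x
        rw [← ENNReal.ofReal_mul (by positivity)]
        congr 1
        ring
    _ ≤ ∑' x : u, volume (closedBall (x : ℝ) (2 / R x) \ hull n A) :=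
        ENNReal.tsum_le_tsum fun x => hdead x x.2
    _ = volume (⋃ x ∈ u, (closedBall x (2 / R x) \ hull n A)) := h2.symm
    _ ≤ _ := measure_mono h3

/-- **abstract LocC** -/
theorem loc_of_cells {A : Set ℝ} {n g : ℕ} {m : ℤ} {c₀ ε r : ℝ} (hc₀ : 0 < c₀) (hr : 0 < r)
    (hrε : 2 * r ≤ ε / 2 ^ n) (hgr : 1 / 2 ^ (n + g) ≤ r)
    (h : ∀ t₀ ∈ A, t₀ ∈ cell n m → ∃ N : Set ℝ, N ⊆ Icc (t₀ - r) (t₀ + r) ∧
      ENNReal.ofReal r ≤ volume N ∧ ∀ x ∈ N, ∃ R : ℝ, 0 < R ∧ 2 / R ≤ r ∧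
      ENNReal.ofReal (c₀ / R) ≤
        volume {t : ℝ | |t - x| ≤ 2 / R ∧ ∀ u ∈ A, ¬ |u - t| ≤ 1 / 2 ^ (n + g)}) :
    volume (hull (n + g) A ∩ cell n m) ≤
      ENNReal.ofReal ((1 + 2 * ε) / (1 + c₀ / 320)) * volume (cell n m) := by
  have h2n : (0:ℝ) < 2 ^ n := by positivity
  have hε : 0 ≤ ε := by
    by_contra hcon
    have : ε / 2 ^ n < 0 := div_neg_of_neg_of_pos (not_le.1 hcon) h2n
    linarith
  have e : c₀ / 320 = (c₀ / 64) / 5 := by ring
  rw [e]
  refine vitali (by positivity) hε fun t₀ ht₀ htc => ?_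
  obtain ⟨N, hN, hvN, hx⟩ := h t₀ ht₀ htc
  have hd := dead_of_cells hc₀ hr hN hvN hx
  obtain ⟨h1, h2⟩ := htc
  refine ⟨t₀ - 2 * r, t₀ + 2 * r, by linarith, by linarith, by linarith, by linarith, ?_, ?_⟩
  · have e2 : (2:ℝ) / 2 ^ (n + g) = 2 * (1 / 2 ^ (n + g)) := by ring
    rw [e2]
    linarith
  · have e3 : t₀ + 2 * r - (t₀ - 2 * r) = 4 * r := by ring
    rw [e3]
    exact hd

theorem hull_mono {n : ℕ} {A B : Set ℝ} (h : A ⊆ B) : hull n A ⊆ hull n B := by
  rintro t ⟨s, hs, hsA⟩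
  exact ⟨s, hs, h hsA⟩

open Crest.Agent.R128.Loc

/-- The statement `LocA` (helper398, helper595) for an arbitrary family of good sets
`GG k c n ⊆ ℝ`, an arbitrary condition `P k c` and arbitrary exponents `a < b ≤ B`. -/
def LocAy (a b B : ℕ) (GG : ℝ → ℝ → ℕ → Set ℝ) (P : ℝ → ℝ → Prop) : Prop :=
  ∃ C1 : ℝ, ∃ k1 : ℝ, ∀ k : ℝ, k1 ≤ k → ∀ c : ℝ, P k c → ∀ (n : ℕ) (t₀ : ℝ), t₀ ∈ GG k c n →
    ∃ N : Set ℝ, N ⊆ Icc (t₀ - 1 / (2 ^ n * k ^ a)) (t₀ + 1 / (2 ^ n * k ^ a)) ∧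
      ENNReal.ofReal (1 / (2 ^ n * k ^ a)) ≤ volume N ∧
      ∀ m ∈ N, ∃ (s : Bool) (n1 n1' : ℕ) (R lam q0 q1 q2 : ℝ),
        2 ^ n * k ^ b ≤ R ∧ R ≤ 2 ^ n * k ^ B ∧ |lam| ≤ C1 * Real.sqrt k ∧
        Cell3 k c s n1 n1' m R lam C1 q0 q1 q2 ∧
        ∀ u ∈ GG k c n, |u - t₀| ≤ 2 / (2 ^ n * k ^ a) → |u - m| ≤ 3 / R →
          Good3 k c s n1 n1' R u

/-- **LocC** with arbitrary exponents -/
theorem locC_exp {a b B : ℕ} (ha : 1 ≤ a) (hab : a + 1 ≤ b) (hbB : b ≤ B) {GG : ℝ → ℝ → ℕ → Set ℝ} {P : ℝ → ℝ → Prop} (hA : LocAy a b B GG P) (hB : LocB) :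
    ∃ c₀ : ℝ, 0 < c₀ ∧ c₀ < 1 ∧ ∃ k1 : ℝ, ∀ k : ℝ, k1 ≤ k → ∀ c : ℝ, P k c →
      ∀ (n g : ℕ) (m : ℤ), k ^ (B + 6) ≤ 2 ^ g → ∀ A : Set ℝ, A ⊆ GG k c n →
        volume (hull (n + g) A ∩ cell n m) ≤ ENNReal.ofReal (1 - c₀) * volume (cell n m) := by
  obtain ⟨C1, ka, hA⟩ := hA
  obtain ⟨c₀', hc₀', kb, hB⟩ := hB C1
  -- reduce to a small constant
  obtain ⟨c₀, hc₀, hc1, hcc⟩ : ∃ c₀ : ℝ, 0 < c₀ ∧ c₀ ≤ 1 ∧ c₀ ≤ c₀' :=
    ⟨min c₀' 1, lt_min hc₀' one_pos, min_le_right _ _, min_le_left _ _⟩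
  refine ⟨c₀ / 1000, by positivity, by linarith, max (max ka kb) (max 4 (8000 / c₀)), ?_⟩
  intro k hk c hP n g m hg A hAG
  have hka : ka ≤ k := (le_max_left _ _).trans ((le_max_left _ _).trans hk)
  have hkb : kb ≤ k := (le_max_right _ _).trans ((le_max_left _ _).trans hk)
  have hk4 : 4 ≤ k := (le_max_left _ _).trans ((le_max_right _ _).trans hk)
  have hkc : 8000 / c₀ ≤ k := (le_max_right _ _).trans ((le_max_right _ _).trans hk)
  have hk1 : 1 ≤ k := by linarith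
  have hk0 : 0 < k := by linarith
  have h2n : (0:ℝ) < 2 ^ n := by positivity
  have h2g : (0:ℝ) < 2 ^ g := by positivity
  have key := loc_of_cells (A := GG k c n) (n := n) (g := g) (m := m) (c₀ := c₀)
    (ε := 2 / k ^ a) (r := 1 / (2 ^ n * k ^ a)) hc₀ (by positivity)
    (by apply le_of_eq; field_simp) (by
      rw [pow_add]
      apply one_div_le_one_div_of_le (by positivity)
      have : k ^ a ≤ 2 ^ g := (pow_le_pow_right₀ hk1 (by omega : a ≤ B + 6)).trans hg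
      exact mul_le_mul_of_nonneg_left this h2n.le) (by
      intro t₀ ht₀ _
      obtain ⟨N, hN, hvN, hx⟩ := hA k hka c hP n t₀ ht₀
      refine ⟨N, hN, hvN, fun x hxN => ?_⟩
      obtain ⟨s, n1, n1', R, lam, q0, q1, q2, hR1, hR2, hlam, hcell, hgood⟩ := hx x hxN
      have hR0 : 0 < R := lt_of_lt_of_le (by positivity) hR1
      have hRr : 4 / R ≤ 1 / (2 ^ n * k ^ a) := by
        rw [div_le_div_iff₀ hR0 (by positivity)]
        calc 4 * (2 ^ n * k ^ a) ≤ k * (2 ^ n * k ^ a) :=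
              mul_le_mul_of_nonneg_right hk4 (by positivity)
          _ = 2 ^ n * k ^ (a + 1) := by ring
          _ ≤ 2 ^ n * k ^ b :=
              mul_le_mul_of_nonneg_left (pow_le_pow_right₀ hk1 hab) h2n.le
          _ ≤ 1 * R := by linarith
      refine ⟨R, hR0, ?_, ?_⟩
      · refine le_trans ?_ hRr
        exact div_le_div_of_nonneg_right (by norm_num) hR0.le
      · refine le_trans ?_ ((hB k hkb c s n1 n1' x R lam q0 q1 q2 hlam hcell).trans
          (measure_mono ?_))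
        · exact ENNReal.ofReal_le_ofReal (div_le_div_of_nonneg_right hcc hR0.le)
        · rintro t ⟨ht1, ht2⟩
          refine ⟨ht1, fun u hu hut => ?_⟩
          have hsmall : 1 / 2 ^ (n + g) ≤ 1 / (k ^ 6 * R) := by
            apply one_div_le_one_div_of_le (by positivity)
            calc k ^ 6 * R ≤ k ^ 6 * (2 ^ n * k ^ B) :=
                  mul_le_mul_of_nonneg_left hR2 (by positivity)
              _ = 2 ^ n * k ^ (B + 6) := by ring
              _ ≤ 2 ^ n * 2 ^ g := mul_le_mul_of_nonneg_left hg h2n.le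
              _ = 2 ^ (n + g) := (pow_add _ _ _).symm
          have h6 : 1 / (k ^ 6 * R) ≤ 1 / R := by
            apply one_div_le_one_div_of_le hR0
            have : 1 ≤ k ^ 6 := one_le_pow₀ hk1
            nlinarith
          have hx0 : |x - t₀| ≤ 1 / (2 ^ n * k ^ a) := by
            obtain ⟨h7, h8⟩ := hN hxN
            rw [abs_le]
            constructor <;> linarith
          have hux : |u - x| ≤ 3 / R := by
            calc |u - x| = |(u - t) + (t - x)| := by ring_nf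
              _ ≤ |u - t| + |t - x| := abs_add_le _ _
              _ ≤ 1 / R + 2 / R := by linarith
              _ = 3 / R := by ring
          refine ht2 u (hut.trans hsmall) (hgood u hu ?_ hux)
          have h9 : 3 / R ≤ 1 / (2 ^ n * k ^ a) :=
            (div_le_div_of_nonneg_right (by norm_num) hR0.le).trans hRr
          calc |u - t₀| = |(u - x) + (x - t₀)| := by ring_nf
            _ ≤ |u - x| + |x - t₀| := abs_add_le _ _
            _ ≤ 1 / (2 ^ n * k ^ a) + 1 / (2 ^ n * k ^ a) := by linarith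
            _ = 2 / (2 ^ n * k ^ a) := by ring)
  refine (measure_mono (inter_subset_inter_left _ (hull_mono hAG))).trans (key.trans ?_)
  gcongr
  -- numeric
  have hk8 : k ≤ k ^ a := le_self_pow₀ hk1 (by omega)
  have h10 : 2 / k ^ a ≤ c₀ / 4000 := by
    rw [div_le_div_iff₀ (by positivity) (by norm_num)]
    rw [div_le_iff₀ hc₀] at hkc
    nlinarith
  rw [div_le_iff₀ (by positivity)]
  nlinarith

/-- the exponents of helper398 (20:37) -/
def LocAx (GG : ℝ → ℝ → ℕ → Set ℝ) (P : ℝ → ℝ → Prop) : Prop := LocAy 8 12 20 GG P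

/-- **LocC** -/
theorem locC {GG : ℝ → ℝ → ℕ → Set ℝ} {P : ℝ → ℝ → Prop} (hA : LocAx GG P) (hB : LocB) :
    ∃ c₀ : ℝ, 0 < c₀ ∧ c₀ < 1 ∧ ∃ k1 : ℝ, ∀ k : ℝ, k1 ≤ k → ∀ c : ℝ, P k c →
      ∀ (n g : ℕ) (m : ℤ), k ^ 26 ≤ 2 ^ g → ∀ A : Set ℝ, A ⊆ GG k c n →
        volume (hull (n + g) A ∩ cell n m) ≤ ENNReal.ofReal (1 - c₀) * volume (cell n m) :=
  locC_exp (by norm_num) (by norm_num) (by norm_num) hA hB

end Crest.Agent.R128.LocC
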