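import Mathlib
import Crest.Agent.R128.Iter

/-! Row 128 (helper555): counting of good levels. Only the GOOD points of a cell have to be covered
by a proportion `q` of the sub-cells (`hatt`), the other points of the cell are not looked at.
For a fixed finite `g`-separated set `S` of levels, `volume {t ∈ cell | all levels of S good} ≤
q ^ |S| volume (cell)`; union bound over the subsets of a set `P` of levels; numeric corollary. -/

set_option autoImplicit false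
open MeasureTheory Set
open scoped ENNReal

namespace Crest.Agent.R128.IterG

open Crest.Agent.R128.Iter

/-- a cell of level `n` is the union of its sub-cells of level `n + d` -/
theorem cell_subset_biUnion (n d : ℕ) (m : ℤ) :
    cell n m ⊆ ⋃ m' ∈ Finset.Ico (m * 2 ^ d) ((m + 1) * 2 ^ d), cell (n + d) m' := by
  intro t ht
  rw [mem_iUnion₂]
  have hb := idx_bounds (g := d) ht
  exact ⟨idx (n + d) t, Finset.mem_Ico.2 hb, mem_cell_idx _ _⟩

theorem sum_volume_cell (n d : ℕ) (m : ℤ) :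
    ∑ m' ∈ Finset.Ico (m * 2 ^ d) ((m + 1) * 2 ^ d), volume (cell (n + d) m') =
      volume (cell n m) := by
  simp only [volume_cell]
  rw [Finset.sum_const, Int.card_Ico, nsmul_eq_mul]
  have h1 : (m + 1) * 2 ^ d - m * 2 ^ d = ((2 ^ d : ℕ) : ℤ) := by push_cast; ring
  rw [h1, Int.toNat_natCast]
  have h2 : (((2 ^ d : ℕ) : ℕ) : ℝ≥0∞) = ENNReal.ofReal ((2:ℝ) ^ d) := by
    rw [ENNReal.ofReal_pow (by norm_num)]
    norm_num
  rw [h2, ← ENNReal.ofReal_mul (by positivity)]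
  congr 1
  rw [pow_add]
  field_simp

/-- For a fixed `g`-separated set `S` of levels. -/
theorem fixed {G : ℝ → ℕ → Prop} {g : ℕ} {q : ℝ≥0∞} {n₀ n₁ : ℕ}
    (hatt : ∀ n m, n₀ ≤ n → n ≤ n₁ →
      volume (hull (n + g) {t | t ∈ cell n m ∧ G t n} ∩ cell n m) ≤ q * volume (cell n m)) :
    ∀ (M : ℕ) (S : Finset ℕ), S.card = M → (∀ i ∈ S, n₀ ≤ i ∧ i ≤ n₁) →
      (∀ i ∈ S, ∀ j ∈ S, i < j → i + g ≤ j) → ∀ (n : ℕ) (m : ℤ), (∀ i ∈ S, n ≤ i) →
      volume {t | t ∈ cell n m ∧ ∀ i ∈ S, G t i} ≤ q ^ M * volume (cell n m) := by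
  intro M
  induction M with
  | zero =>
    intro S hS _ _ n m _
    rw [pow_zero, one_mul]
    exact measure_mono fun t ht => ht.1
  | succ M ih =>
    intro S hS hb hsep n m hn
    have hne : S.Nonempty := by
      rw [← Finset.card_pos, hS]
      exact Nat.succ_pos _
    set s := S.min' hne with hs
    have hsS : s ∈ S := Finset.min'_mem _ _
    have hmin : ∀ i ∈ S, s ≤ i := fun i hi => Finset.min'_le _ _ hi
    obtain ⟨d, hd⟩ : ∃ d, s = n + d := ⟨s - n, by have := hn s hsS; omega⟩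
    -- one cell of level `s`
    have hcell : ∀ m' : ℤ, volume {t | t ∈ cell s m' ∧ ∀ i ∈ S, G t i} ≤
        q ^ (M + 1) * volume (cell s m') := by
      intro m'
      have hh := hatt s m' (hb s hsS).1 (hb s hsS).2
      set A : Set ℝ := {t | t ∈ cell s m' ∧ G t s} with hA
      have hcov : {t | t ∈ cell s m' ∧ ∀ i ∈ S, G t i} ⊆
          ⋃ k ∈ kids A s g m', {t | t ∈ cell (s + g) k ∧ ∀ i ∈ S.erase s, G t i} := by
        rintro t ⟨ht, htG⟩
        rw [mem_iUnion₂]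
        refine ⟨idx (s + g) t, mem_kids.2 ⟨idx_bounds ht, ⟨t, mem_cell_idx _ _, ht, htG s hsS⟩⟩,
          mem_cell_idx _ _, fun i hi => htG i (Finset.mem_of_mem_erase hi)⟩
      have hkid : ∀ k ∈ kids A s g m',
          volume {t | t ∈ cell (s + g) k ∧ ∀ i ∈ S.erase s, G t i} ≤
            q ^ M * ENNReal.ofReal (1 / 2 ^ (s + g)) := by
        intro k _
        rw [← volume_cell (s + g) k]
        refine ih (S.erase s) ?_ ?_ ?_ (s + g) k ?_
        · rw [Finset.card_erase_of_mem hsS, hS]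
          rfl
        · intro i hi
          exact hb i (Finset.mem_of_mem_erase hi)
        · intro i hi j hj hij
          exact hsep i (Finset.mem_of_mem_erase hi) j (Finset.mem_of_mem_erase hj) hij
        · intro i hi
          have hi' := Finset.mem_of_mem_erase hi
          have hne' := Finset.ne_of_mem_erase hi
          exact hsep s hsS i hi' (lt_of_le_of_ne (hmin i hi') (Ne.symm hne'))
      calc volume {t | t ∈ cell s m' ∧ ∀ i ∈ S, G t i}
          ≤ volume (⋃ k ∈ kids A s g m', {t | t ∈ cell (s + g) k ∧ ∀ i ∈ S.erase s, G t i}) :=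
            measure_mono hcov
        _ ≤ ∑ k ∈ kids A s g m', volume {t | t ∈ cell (s + g) k ∧ ∀ i ∈ S.erase s, G t i} :=
            measure_biUnion_finset_le _ _
        _ ≤ ∑ _k ∈ kids A s g m', q ^ M * ENNReal.ofReal (1 / 2 ^ (s + g)) :=
            Finset.sum_le_sum hkid
        _ = q ^ M * volume (hull (s + g) A ∩ cell s m') := by
            rw [Finset.sum_const, nsmul_eq_mul, volume_hull_inter_cell]
            ring
        _ ≤ q ^ M * (q * volume (cell s m')) := by gcongr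
        _ = q ^ (M + 1) * volume (cell s m') := by rw [pow_succ]; ring
    have hcov : {t | t ∈ cell n m ∧ ∀ i ∈ S, G t i} ⊆
        ⋃ m' ∈ Finset.Ico (m * 2 ^ d) ((m + 1) * 2 ^ d),
          {t | t ∈ cell s m' ∧ ∀ i ∈ S, G t i} := by
      rintro t ⟨ht, htG⟩
      obtain ⟨m', hm', ht'⟩ := mem_iUnion₂.1 (cell_subset_biUnion n d m ht)
      rw [mem_iUnion₂]
      exact ⟨m', hm', hd ▸ ht', htG⟩
    calc volume {t | t ∈ cell n m ∧ ∀ i ∈ S, G t i}
        ≤ volume (⋃ m' ∈ Finset.Ico (m * 2 ^ d) ((m + 1) * 2 ^ d),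
            {t | t ∈ cell s m' ∧ ∀ i ∈ S, G t i}) := measure_mono hcov
      _ ≤ ∑ m' ∈ Finset.Ico (m * 2 ^ d) ((m + 1) * 2 ^ d),
            volume {t | t ∈ cell s m' ∧ ∀ i ∈ S, G t i} := measure_biUnion_finset_le _ _
      _ ≤ ∑ m' ∈ Finset.Ico (m * 2 ^ d) ((m + 1) * 2 ^ d), q ^ (M + 1) * volume (cell s m') :=
            Finset.sum_le_sum fun m' _ => hcell m'
      _ = q ^ (M + 1) * volume (cell n m) := by
            rw [← Finset.mul_sum, hd, sum_volume_cell]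

/-- Union bound over the subsets of a `g`-separated set `P` of levels: the set of the points of the
cell with at least `M` good levels in `P`. -/
theorem card_ge {G : ℝ → ℕ → Prop} {g : ℕ} {q : ℝ≥0∞} {n₀ n₁ : ℕ}
    (hatt : ∀ n m, n₀ ≤ n → n ≤ n₁ →
      volume (hull (n + g) {t | t ∈ cell n m ∧ G t n} ∩ cell n m) ≤ q * volume (cell n m))
    (P : Finset ℕ) (hP : ∀ i ∈ P, n₀ ≤ i ∧ i ≤ n₁)
    (hsep : ∀ i ∈ P, ∀ j ∈ P, i < j → i + g ≤ j) (n : ℕ) (m : ℤ) (hn : ∀ i ∈ P, n ≤ i) (M : ℕ) :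
    volume {t | t ∈ cell n m ∧ ∃ s ⊆ P, M ≤ s.card ∧ ∀ i ∈ s, G t i} ≤
      (P.card.choose M : ℝ≥0∞) * q ^ M * volume (cell n m) := by
  have hcov : {t | t ∈ cell n m ∧ ∃ s ⊆ P, M ≤ s.card ∧ ∀ i ∈ s, G t i} ⊆
      ⋃ S ∈ P.powersetCard M, {t | t ∈ cell n m ∧ ∀ i ∈ S, G t i} := by
    rintro t ⟨ht, s, hs, hM, hG⟩
    obtain ⟨S, hS, hcard⟩ := Finset.exists_subset_card_eq hM
    rw [mem_iUnion₂]
    exact ⟨S, Finset.mem_powersetCard.2 ⟨hS.trans hs, hcard⟩, ht, fun i hi => hG i (hS hi)⟩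
  calc volume {t | t ∈ cell n m ∧ ∃ s ⊆ P, M ≤ s.card ∧ ∀ i ∈ s, G t i}
      ≤ volume (⋃ S ∈ P.powersetCard M, {t | t ∈ cell n m ∧ ∀ i ∈ S, G t i}) := measure_mono hcov
    _ ≤ ∑ S ∈ P.powersetCard M, volume {t | t ∈ cell n m ∧ ∀ i ∈ S, G t i} :=
        measure_biUnion_finset_le _ _
    _ ≤ ∑ _S ∈ P.powersetCard M, q ^ M * volume (cell n m) := by
        refine Finset.sum_le_sum fun S hS => ?_
        obtain ⟨h1, h2⟩ := Finset.mem_powersetCard.1 hS
        exact fixed hatt M S h2 (fun i hi => hP i (h1 hi))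
          (fun i hi j hj => hsep i (h1 hi) j (h1 hj)) n m (fun i hi => hn i (h1 hi))
    _ = (P.card.choose M : ℝ≥0∞) * q ^ M * volume (cell n m) := by
        rw [Finset.sum_const, Finset.card_powersetCard, nsmul_eq_mul, mul_assoc]

/-- Numeric part: for `q < 1` there is `η > 0` such that `binom (R, M) q ^ M ≤ (q ^ (1/4)) ^ R` as
soon as `(1 - η) R ≤ M ≤ R`. -/
theorem exists_eta {q : ℝ} (hq0 : 0 < q) (hq1 : q < 1) :
    ∃ η : ℝ, 0 < η ∧ η ≤ 1 / 4 ∧ ∀ R M : ℕ, M ≤ R → (1 - η) * R ≤ M →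
      (R.choose M : ℝ) * q ^ M ≤ (q ^ (1 / 4 : ℝ)) ^ R := by
  -- `r = q ^ (1/4)`
  set r : ℝ := q ^ (1 / 4 : ℝ) with hr
  have hr0 : 0 < r := Real.rpow_pos_of_pos hq0 _
  have hr1 : r < 1 := Real.rpow_lt_one hq0.le hq1 (by norm_num)
  have hr4 : r ^ 4 = q := by
    rw [hr, ← Real.rpow_natCast, ← Real.rpow_mul hq0.le]
    norm_num
  -- `x` with `(1 + x) r ≤ 1`, `x < 1`
  obtain ⟨x, hx0, hx1, hx⟩ : ∃ x : ℝ, 0 < x ∧ x < 1 ∧ (1 + x) * r ≤ 1 := by
    refine ⟨(1 - r) / 2, by linarith, by linarith, ?_⟩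
    nlinarith
  -- `η` with `x ^ (-η) r ≤ 1`
  have hlx : Real.log x < 0 := Real.log_neg hx0 hx1
  have hlr : Real.log r < 0 := Real.log_neg hr0 hr1
  set η : ℝ := min (1 / 4) (Real.log r / Real.log x) with hη
  have hη0 : 0 < η := lt_min (by norm_num) (div_pos_of_neg_of_neg hlr hlx)
  have hη4 : η ≤ 1 / 4 := min_le_left _ _
  have hηr : η ≤ Real.log r / Real.log x := min_le_right _ _
  refine ⟨η, hη0, hη4, ?_⟩
  intro R M hMR hM
  set j := R - M with hj
  have hjM : (j : ℝ) = R - M := by rw [hj, Nat.cast_sub hMR]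
  have hjη : (j : ℝ) ≤ η * R := by rw [hjM]; linarith
  -- binomial bound
  have h1 : (R.choose M : ℝ) * x ^ j ≤ (1 + x) ^ R := by
    have h := add_pow (1:ℝ) x R
    rw [h]
    have hmem : M ∈ Finset.range (R + 1) := Finset.mem_range.2 (by omega)
    have hle := Finset.single_le_sum (f := fun m => (1:ℝ) ^ m * x ^ (R - m) * (R.choose m : ℝ))
      (fun i _ => by positivity) hmem
    simpa [hj, mul_comm] using hle
  -- `r ^ R ≤ x ^ j`
  have h2 : r ^ R ≤ x ^ j := by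
    have hlog : (R : ℝ) * Real.log r ≤ j * Real.log x := by
      have e1 : (j : ℝ) * Real.log x ≥ (η * R) * Real.log x :=
        mul_le_mul_of_nonpos_right hjη hlx.le
      have e2 : η * Real.log x ≥ Real.log r := by
        have := mul_le_mul_of_nonpos_right hηr hlx.le
        rwa [div_mul_cancel₀ _ hlx.ne] at this
      have hR : (0:ℝ) ≤ R := Nat.cast_nonneg R
      nlinarith
    have := Real.exp_le_exp.2 hlog
    rwa [mul_comm (R:ℝ), mul_comm (j:ℝ), Real.exp_mul, Real.exp_mul, Real.exp_log hr0,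
      Real.exp_log hx0, Real.rpow_natCast, Real.rpow_natCast] at this
  -- `q ^ M ≤ r ^ (3 R)`
  have h3 : q ^ M ≤ r ^ (3 * R) := by
    rw [← hr4, ← pow_mul]
    refine pow_le_pow_of_le_one hr0.le hr1.le ?_
    have : (3 / 4 : ℝ) * R ≤ M := by
      have hR : (0:ℝ) ≤ R := Nat.cast_nonneg R
      nlinarith
    have h' : (3 * R : ℝ) ≤ 4 * M := by linarith
    exact_mod_cast h'
  have hxj : 0 < x ^ j := pow_pos hx0 _
  have h4 : (R.choose M : ℝ) * q ^ M * x ^ j ≤ r ^ R * x ^ j := by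
    calc (R.choose M : ℝ) * q ^ M * x ^ j = ((R.choose M : ℝ) * x ^ j) * q ^ M := by ring
      _ ≤ (1 + x) ^ R * r ^ (3 * R) := mul_le_mul h1 h3 (by positivity) (by positivity)
      _ = ((1 + x) * r) ^ R * (r ^ R * r ^ R) := by rw [mul_pow]; ring
      _ ≤ 1 * (r ^ R * r ^ R) := by
          refine mul_le_mul_of_nonneg_right (pow_le_one₀ (by positivity) hx) (by positivity)
      _ ≤ 1 * (r ^ R * x ^ j) := by gcongr
      _ = r ^ R * x ^ j := one_mul _
  exact le_of_mul_le_mul_right h4 hxj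

/-- Final form: at least `(1 - η) |P|` levels of `P` good. -/
theorem good_le {q : ℝ} (hq0 : 0 < q) (hq1 : q < 1) :
    ∃ η : ℝ, 0 < η ∧ η ≤ 1 / 4 ∧ ∀ {G : ℝ → ℕ → Prop} {g n₀ n₁ : ℕ}
      (_ : ∀ n m, n₀ ≤ n → n ≤ n₁ →
        volume (hull (n + g) {t | t ∈ cell n m ∧ G t n} ∩ cell n m) ≤
          ENNReal.ofReal q * volume (cell n m))
      (P : Finset ℕ) (_ : ∀ i ∈ P, n₀ ≤ i ∧ i ≤ n₁)
      (_ : ∀ i ∈ P, ∀ j ∈ P, i < j → i + g ≤ j) (n : ℕ) (m : ℤ) (_ : ∀ i ∈ P, n ≤ i),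
      volume {t | t ∈ cell n m ∧ ∃ s ⊆ P, (1 - η) * P.card ≤ s.card ∧ ∀ i ∈ s, G t i} ≤
        ENNReal.ofReal ((q ^ (1 / 4 : ℝ)) ^ P.card) * volume (cell n m) := by
  obtain ⟨η, hη0, hη4, hη⟩ := exists_eta hq0 hq1
  refine ⟨η, hη0, hη4, ?_⟩
  intro G g n₀ n₁ hatt P hP hsep n m hn
  set R := P.card with hR
  set M := ⌈(1 - η) * R⌉₊ with hM
  have hRn : (0:ℝ) ≤ R := Nat.cast_nonneg R
  have hMR : M ≤ R := by
    rw [hM, Nat.ceil_le]
    nlinarith
  have hMge : (1 - η) * R ≤ M := Nat.le_ceil _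
  have hsub : {t | t ∈ cell n m ∧ ∃ s ⊆ P, (1 - η) * (R:ℝ) ≤ s.card ∧ ∀ i ∈ s, G t i} ⊆
      {t | t ∈ cell n m ∧ ∃ s ⊆ P, M ≤ s.card ∧ ∀ i ∈ s, G t i} := by
    rintro t ⟨ht, s, hs, hc, hG⟩
    exact ⟨ht, s, hs, Nat.ceil_le.2 hc, hG⟩
  calc volume {t | t ∈ cell n m ∧ ∃ s ⊆ P, (1 - η) * (R:ℝ) ≤ s.card ∧ ∀ i ∈ s, G t i}
      ≤ volume {t | t ∈ cell n m ∧ ∃ s ⊆ P, M ≤ s.card ∧ ∀ i ∈ s, G t i} := measure_mono hsub
    _ ≤ (R.choose M : ℝ≥0∞) * ENNReal.ofReal q ^ M * volume (cell n m) :=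
        card_ge hatt P hP hsep n m hn M
    _ = ENNReal.ofReal ((R.choose M : ℝ) * q ^ M) * volume (cell n m) := by
        rw [ENNReal.ofReal_mul (by positivity), ENNReal.ofReal_pow hq0.le, ENNReal.ofReal_natCast]
    _ ≤ ENNReal.ofReal ((q ^ (1 / 4 : ℝ)) ^ R) * volume (cell n m) := by
        gcongr
        exact hη R M hMR hMge

end Crest.Agent.R128.IterG
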