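import Mathlib
import Crest.Agent.R128.IterG
import Crest.Agent.R128.Near

/-! Row 128, V5-AREA (helper675): from the local statement on the dyadic cells of the fibres
`x_{-1} = t`, `x_0 = c` to the area of the set of points with many good levels; measurability of sets
of the form `{z | ∃ v, P z v}` for Boolean combinations `P` of continuous inequalities. -/

set_option autoImplicit false
open MeasureTheory Set
open scoped ENNReal

namespace Crest.Agent.R128.PayArea

open Crest.Agent.R128 Crest.Agent.R128.Iter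

/-! ## Fibres -/

theorem volume_circle {S : Set UnitAddCircle} (hS : MeasurableSet S) :
    volume S = volume {t : ℝ | t ∈ cell 0 0 ∧ (t : UnitAddCircle) ∈ S} := by
  have h := UnitAddCircle.measurePreserving_mk 0
  rw [← h.measure_preimage hS.nullMeasurableSet, zero_add, ← restrict_Ico_eq_restrict_Ioc,
    Measure.restrict_apply (h.measurable hS)]
  congr 1
  ext t
  unfold cell
  simp only [mem_inter_iff, mem_preimage, mem_ofPred_eq, pow_zero, div_one, Int.cast_zero, zero_add,
    mem_Ico]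
  tauto

/-- fibrewise bound on the `t`-circle over every `c` -/
theorem area_le_of_fibre {A : Set Tor} (hA : MeasurableSet A) {B : Set UnitAddCircle}
    (hB : MeasurableSet B) {e : ℝ≥0∞} (hsub : ∀ z ∈ A, z.2 ∈ B)
    (h : ∀ c ∈ B, volume {t : ℝ | t ∈ cell 0 0 ∧ ((t : UnitAddCircle), c) ∈ A} ≤ e) :
    volume A ≤ e * volume B := by
  rw [Measure.volume_eq_prod, Measure.prod_apply_symm hA]
  calc ∫⁻ c, volume ((fun x : UnitAddCircle => (x, c)) ⁻¹' A)
      ≤ ∫⁻ c, B.indicator (fun _ => e) c := by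
        refine lintegral_mono fun c => ?_
        by_cases hc : c ∈ B
        · rw [indicator_of_mem hc, volume_circle (measurable_prodMk_right hA)]
          exact h c hc
        · rw [indicator_of_notMem hc]
          have : (fun x : UnitAddCircle => (x, c)) ⁻¹' A = ∅ := by
            rw [eq_empty_iff_forall_notMem]
            intro x hx
            exact hc (hsub _ hx)
          rw [this, measure_empty]
    _ = e * volume B := by
        rw [lintegral_indicator_const hB]

/-- `B` the near critical digits -/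
theorem area_le_V {k r : ℝ} (hk : 1 ≤ k) (hr : 0 ≤ r) {A : Set Tor} (hA : MeasurableSet A) {e : ℝ}
    (he : 0 ≤ e) (hsub : ∀ z ∈ A, |V k z.2| ≤ r)
    (h : ∀ c : UnitAddCircle, |V k c| ≤ r →
      volume {t : ℝ | t ∈ cell 0 0 ∧ ((t : UnitAddCircle), c) ∈ A} ≤ ENNReal.ofReal e) :
    volume A ≤ ENNReal.ofReal (r / k * e) := by
  have hBm : MeasurableSet {c : UnitAddCircle | |V k c| ≤ r} :=
    (isClosed_le (continuous_V k).abs continuous_const).measurableSet
  have h1 := area_le_of_fibre hA hBm hsub h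
  refine h1.trans ?_
  have h2 : volume {c : UnitAddCircle | |V k c| ≤ r} ≤ ENNReal.ofReal (r / k) := by
    rw [← volume_Tor_snd]
    have h3 := volumeReal_V_le hk hr
    rw [measureReal_def] at h3
    rw [ENNReal.le_ofReal_iff_toReal_le (measure_ne_top _ _) (by positivity)]
    exact h3
  calc ENNReal.ofReal e * volume {c : UnitAddCircle | |V k c| ≤ r}
      ≤ ENNReal.ofReal e * ENNReal.ofReal (r / k) := by gcongr
    _ = ENNReal.ofReal (r / k * e) := by
        rw [← ENNReal.ofReal_mul he, mul_comm]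

/-! ## Many good levels -/

/-- at least a proportion `1 - η` of the levels of `P` is good -/
def Many (η : ℝ) (G : ℕ → Set Tor) (P : Finset ℕ) : Set Tor :=
  {z | ∃ s ⊆ P, (1 - η) * P.card ≤ s.card ∧ ∀ i ∈ s, z ∈ G i}

theorem measurableSet_Many (η : ℝ) {G : ℕ → Set Tor} (hG : ∀ n, MeasurableSet (G n)) (P : Finset ℕ) :
    MeasurableSet (Many η G P) := by
  classical
  have e : Many η G P = ⋃ s ∈ P.powerset.filter (fun s => (1 - η) * P.card ≤ (s.card : ℝ)),
      ⋂ i ∈ s, G i := by
    ext z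
    unfold Many
    simp only [mem_ofPred_eq, mem_iUnion, Finset.mem_filter, Finset.mem_powerset, mem_iInter,
      exists_prop]
    constructor
    · rintro ⟨s, h1, h2, h3⟩
      exact ⟨s, ⟨h1, h2⟩, h3⟩
    · rintro ⟨s, ⟨h1, h2⟩, h3⟩
      exact ⟨s, h1, h2, h3⟩
  rw [e]
  exact Finset.measurableSet_biUnion _ fun s _ => Finset.measurableSet_biInter _ fun i _ => hG i

/-- counting form: `Many` holds as soon as the good levels in `P` are at least `(1 - η) |P|` -/
theorem mem_Many_of_card {η : ℝ} {G : ℕ → Set Tor} {P : Finset ℕ} {z : Tor} (s : Finset ℕ)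
    (hs : ∀ i ∈ s, z ∈ G i) (hc : (1 - η) * P.card ≤ (s ∩ P).card) : z ∈ Many η G P := by
  classical
  exact ⟨s ∩ P, Finset.inter_subset_right, hc, fun i hi => hs i (Finset.mem_inter.1 hi).1⟩

/-- **V5, area form.** -/
theorem area_good {q : ℝ} (hq0 : 0 < q) (hq1 : q < 1) :
    ∃ η : ℝ, 0 < η ∧ η ≤ 1 / 4 ∧ ∀ {k r : ℝ} (_ : 1 ≤ k) (_ : 0 ≤ r) {G : ℕ → Set Tor}
      (_ : ∀ n, MeasurableSet (G n)) {g n₀ n₁ : ℕ}
      (_ : ∀ c : UnitAddCircle, |V k c| ≤ r → ∀ n m, n₀ ≤ n → n ≤ n₁ →
        volume (hull (n + g) {t | t ∈ cell n m ∧ ((t : UnitAddCircle), c) ∈ G n} ∩ cell n m) ≤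
          ENNReal.ofReal q * volume (cell n m))
      (P : Finset ℕ) (_ : ∀ i ∈ P, n₀ ≤ i ∧ i ≤ n₁)
      (_ : ∀ i ∈ P, ∀ j ∈ P, i < j → i + g ≤ j),
      volume ({z : Tor | |V k z.2| ≤ r} ∩ Many η G P) ≤
        ENNReal.ofReal (r / k * (q ^ (1 / 4 : ℝ)) ^ P.card) := by
  obtain ⟨η, h0, h4, H⟩ := IterG.good_le hq0 hq1
  refine ⟨η, h0, h4, ?_⟩
  intro k r hk hr G hG g n₀ n₁ hloc P hP hsep
  have hVm : MeasurableSet {z : Tor | |V k z.2| ≤ r} :=
    (isClosed_le ((continuous_V k).comp continuous_snd).abs continuous_const).measurableSet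
  refine area_le_V hk hr (hVm.inter (measurableSet_Many η hG P)) (by positivity)
    (fun z hz => hz.1) ?_
  intro c hc
  have h1 := H (G := fun t n => ((t : UnitAddCircle), c) ∈ G n) (hloc c hc) P hP hsep 0 0
    (fun i _ => Nat.zero_le i)
  have h2 : volume (cell 0 0) = 1 := by
    rw [volume_cell]
    simp
  rw [h2, mul_one] at h1
  refine (measure_mono ?_).trans h1
  rintro t ⟨ht, -, s, hs, hc', hG'⟩
  exact ⟨ht, s, hs, hc', hG'⟩

/-! ## Measurability of `∃ v, P z v` -/

section Meas

variable {X : Type*} [TopologicalSpace X]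

/-- the set and its complement are `σ`-compact -/
def D2 (S : Set X) : Prop := IsSigmaCompact S ∧ IsSigmaCompact Sᶜ

theorem sc_union {S S' : Set X} (h : IsSigmaCompact S) (h' : IsSigmaCompact S') :
    IsSigmaCompact (S ∪ S') := by
  have e : S ∪ S' = ⋃ b : Bool, cond b S S' := by
    rw [union_eq_iUnion]
  rw [e]
  exact isSigmaCompact_iUnion _ fun b => by cases b <;> assumption

theorem sc_inter [T2Space X] {S S' : Set X} (h : IsSigmaCompact S) (h' : IsSigmaCompact S') :
    IsSigmaCompact (S ∩ S') := by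
  obtain ⟨K, hK, rfl⟩ := h
  obtain ⟨K', hK', rfl⟩ := h'
  rw [iUnion_inter_iUnion]
  refine isSigmaCompact_iUnion _ fun i => isSigmaCompact_iUnion _ fun j => ?_
  exact ((hK i).inter (hK' j)).isSigmaCompact

theorem D2.compl {S : Set X} (h : D2 S) : D2 Sᶜ := ⟨h.2, by rw [compl_compl]; exact h.1⟩

theorem D2.union [T2Space X] {S S' : Set X} (h : D2 S) (h' : D2 S') : D2 (S ∪ S') :=
  ⟨sc_union h.1 h'.1, by rw [compl_union]; exact sc_inter h.2 h'.2⟩

theorem D2.inter [T2Space X] {S S' : Set X} (h : D2 S) (h' : D2 S') : D2 (S ∩ S') :=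
  ⟨sc_inter h.1 h'.1, by rw [compl_inter]; exact sc_union h.2 h'.2⟩

theorem D2.of_isClosed {X : Type*} [PseudoEMetricSpace X] [SigmaCompactSpace X] {S : Set X}
    (h : IsClosed S) : D2 S := by
  constructor
  · exact isSigmaCompact_univ.of_isClosed_subset h (subset_univ _)
  · obtain ⟨F, hF, -, hU, -⟩ := h.isOpen_compl.exists_iUnion_isClosed
    rw [← hU]
    exact isSigmaCompact_iUnion _ fun n =>
      isSigmaCompact_univ.of_isClosed_subset (hF n) (subset_univ _)

theorem D2.and [T2Space X] {p q : X → Prop} (h : D2 {x | p x}) (h' : D2 {x | q x}) :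
    D2 {x | p x ∧ q x} := h.inter h'

theorem D2.or [T2Space X] {p q : X → Prop} (h : D2 {x | p x}) (h' : D2 {x | q x}) :
    D2 {x | p x ∨ q x} := h.union h'

theorem D2.not {p : X → Prop} (h : D2 {x | p x}) : D2 {x | ¬ p x} := h.compl

theorem D2.imp [T2Space X] {p q : X → Prop} (h : D2 {x | p x}) (h' : D2 {x | q x}) :
    D2 {x | p x → q x} := by
  have e : {x | p x → q x} = {x | ¬ p x ∨ q x} := by
    ext x
    exact imp_iff_not_or
  rw [e]
  exact h.not.or h'

theorem D2.const [SigmaCompactSpace X] (p : Prop) : D2 {_x : X | p} := by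
  by_cases hp : p
  · have e : {_x : X | p} = univ := by
      ext x
      simp [hp]
    rw [e]
    exact ⟨isSigmaCompact_univ, by rw [compl_univ]; exact isSigmaCompact_empty⟩
  · have e : {_x : X | p} = ∅ := by
      ext x
      simp [hp]
    rw [e]
    exact ⟨isSigmaCompact_empty, by rw [compl_empty]; exact isSigmaCompact_univ⟩

theorem D2.forall_mem [T2Space X] [SigmaCompactSpace X] {ι : Type*} (s : Finset ι)
    {p : ι → X → Prop} (h : ∀ i ∈ s, D2 {x | p i x}) : D2 {x | ∀ i ∈ s, p i x} := by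
  classical
  induction s using Finset.induction_on with
  | empty =>
    have e : {x : X | ∀ i ∈ (∅ : Finset ι), p i x} = {_x : X | True} := by
      ext x
      simp
    rw [e]
    exact D2.const True
  | insert a s ha ih =>
    have e : {x | ∀ i ∈ insert a s, p i x} = {x | p a x ∧ ∀ i ∈ s, p i x} := by
      ext x
      simp
    rw [e]
    exact (h a (Finset.mem_insert_self _ _)).and
      (ih fun i hi => h i (Finset.mem_insert_of_mem hi))

theorem D2.exists_mem [T2Space X] [SigmaCompactSpace X] {ι : Type*} (s : Finset ι)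
    {p : ι → X → Prop} (h : ∀ i ∈ s, D2 {x | p i x}) : D2 {x | ∃ i ∈ s, p i x} := by
  have e : {x | ∃ i ∈ s, p i x} = {x | ¬ ∀ i ∈ s, ¬ p i x} := by
    ext x
    simp
  rw [e]
  exact (D2.forall_mem s fun i hi => (h i hi).not).not

theorem D2.forall_le [T2Space X] [SigmaCompactSpace X] {n : ℕ} {p : ℕ → X → Prop}
    (h : ∀ i, D2 {x | p i x}) : D2 {x | ∀ i, i ≤ n → p i x} := by
  have e : {x | ∀ i, i ≤ n → p i x} = {x | ∀ i ∈ Finset.range (n + 1), p i x} := by
    ext x
    simp [Finset.mem_range]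
  rw [e]
  exact D2.forall_mem _ fun i _ => h i

theorem D2.forall_lt [T2Space X] [SigmaCompactSpace X] {n : ℕ} {p : ℕ → X → Prop}
    (h : ∀ i, D2 {x | p i x}) : D2 {x | ∀ i, i < n → p i x} := by
  have e : {x | ∀ i, i < n → p i x} = {x | ∀ i ∈ Finset.range n, p i x} := by
    ext x
    simp [Finset.mem_range]
  rw [e]
  exact D2.forall_mem _ fun i _ => h i

theorem D2.exists_le [T2Space X] [SigmaCompactSpace X] {n : ℕ} {p : ℕ → X → Prop}
    (h : ∀ i, D2 {x | p i x}) : D2 {x | ∃ i, i ≤ n ∧ p i x} := by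
  have e : {x | ∃ i, i ≤ n ∧ p i x} = {x | ∃ i ∈ Finset.range (n + 1), p i x} := by
    ext x
    simp [Finset.mem_range]
  rw [e]
  exact D2.exists_mem _ fun i _ => h i

end Meas

section Ineq

variable {X : Type*} [PseudoEMetricSpace X] [SigmaCompactSpace X] {f g : X → ℝ}

theorem D2.le (hf : Continuous f) (hg : Continuous g) : D2 {x | f x ≤ g x} :=
  D2.of_isClosed (isClosed_le hf hg)

theorem D2.eq (hf : Continuous f) (hg : Continuous g) : D2 {x | f x = g x} :=
  D2.of_isClosed (isClosed_eq hf hg)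

theorem D2.lt (hf : Continuous f) (hg : Continuous g) : D2 {x | f x < g x} := by
  have e : {x | f x < g x} = {x | g x ≤ f x}ᶜ := by
    ext x
    simp
  rw [e]
  exact (D2.le hg hf).compl

end Ineq

/-- a `σ`-compact set in a Hausdorff space is measurable -/
theorem measurableSet_of_sc {X : Type*} [TopologicalSpace X] [T2Space X] [MeasurableSpace X]
    [OpensMeasurableSpace X] {S : Set X} (h : IsSigmaCompact S) : MeasurableSet S := by
  obtain ⟨K, hK, rfl⟩ := h
  exact MeasurableSet.iUnion fun n => (hK n).isClosed.measurableSet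

theorem D2.measurableSet {X : Type*} [TopologicalSpace X] [T2Space X] [MeasurableSpace X]
    [OpensMeasurableSpace X] {S : Set X} (h : D2 S) : MeasurableSet S := measurableSet_of_sc h.1

/-- **projection along the vectors** -/
theorem measurableSet_exists {P : Tor → ℝ × ℝ → Prop}
    (h : D2 {p : Tor × (ℝ × ℝ) | P p.1 p.2}) : MeasurableSet {z | ∃ v, P z v} := by
  have e : {z | ∃ v, P z v} = Prod.fst '' {p : Tor × (ℝ × ℝ) | P p.1 p.2} := by
    ext z
    simp
  rw [e]
  exact measurableSet_of_sc (h.1.image continuous_fst)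

theorem measurableSet_exists_vec {P : Tor → ℝ × ℝ → Prop} {k : ℝ} (i : ℕ)
    (h : D2 {p : Tor × (ℝ × ℝ) | P p.1 p.2}) :
    MeasurableSet {z | ∃ v, P ((T k)^[i] z) v} := by
  have h1 := measurableSet_exists h
  exact ((continuous_T k).iterate i).measurable h1

end Crest.Agent.R128.PayArea
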