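import Mathlib
import Crest.Agent.R128.LocC
import Crest.Agent.R128.Good
import Crest.Agent.R128.PayArea

/-! Row 128 (helper284): `LocA` + `LocB` give the attempt hypothesis on the dyadic cells of the
coordinate `x_{-1}` for the good events `Good.G`, and the area bound of `PayArea`. Sorry free. -/

set_option autoImplicit false
open MeasureTheory Set Metric
open scoped ENNReal

namespace Crest.Agent.R128.LocG

open Crest.Agent.R128 Crest.Agent.R128.Iter Crest.Agent.R128.Vit Crest.Agent.R128.LocC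
open Crest.Agent.R128.Loc Crest.Agent.R128.DictY Crest.Agent.R128.Good

/-- `Good.LocA` with the constant `C1` outside -/
def LocAC (C1 : ℝ) (L : ℕ) : Prop :=
  ∃ k1 : ℝ, ∀ k : ℝ, k1 ≤ k → ∀ (c t0 : ℝ) (n : ℕ), zt k c t0 ∈ G k L n →
    ∃ N : Set ℝ, N ⊆ Set.Icc (t0 - 1 / (k ^ 60 * 2 ^ n)) (t0 + 1 / (k ^ 60 * 2 ^ n)) ∧
      ENNReal.ofReal (1 / (k ^ 60 * 2 ^ n)) ≤ MeasureTheory.volume N ∧
      ∀ m ∈ N, ∃ (s : Bool) (n1 n1' : ℕ) (R lam q0 q1 q2 : ℝ),
        k ^ 60 * 2 ^ n ≤ R / 4 ∧ R ≤ k ^ 74 * 2 ^ n ∧ |lam| ≤ C1 * Real.sqrt k ∧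
        Loc.Cell3 k c s n1 n1' m R lam C1 q0 q1 q2 ∧
        ∀ u : ℝ, |u - m| ≤ 3 / R → zt k c u ∈ G k L n → Loc.Good3 k c s n1 n1' R u

theorem locA_iff (L : ℕ) : Good.LocA L ↔ ∃ C1 : ℝ, 1 ≤ C1 ∧ LocAC C1 L := Iff.rfl

/-- reflection preserves the measure of every set -/
theorem volume_refl (κ : ℝ) (s : Set ℝ) : volume ((fun t : ℝ => κ - t) ⁻¹' s) = volume s := by
  have h : MeasurePreserving (MeasurableEquiv.subLeft κ) (volume : Measure ℝ) volume :=
    Measure.measurePreserving_sub_left volume κ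
  exact h.measure_preimage_equiv s

/-- **LOC** on the fibre `x_0 = c`, coordinate `x_{-1}`. -/
theorem hloc {C1 : ℝ} (hB : LocB) : ∃ c₀ : ℝ, 0 < c₀ ∧ c₀ < 1 ∧ ∀ L : ℕ, LocAC C1 L →
    ∃ k1 : ℝ, ∀ k : ℝ, k1 ≤ k → ∀ (n g : ℕ), k ^ 80 ≤ 2 ^ g → ∀ (c : UnitAddCircle) (m : ℤ),
      volume (hull (n + g) {t | t ∈ cell n m ∧ ((t : UnitAddCircle), c) ∈ G k L n} ∩ cell n m) ≤
        ENNReal.ofReal (1 - c₀) * volume (cell n m) := by
  obtain ⟨c₀', hc₀', kb, hB⟩ := hB C1
  obtain ⟨c₀, hc₀, hc1, hcc⟩ : ∃ c₀ : ℝ, 0 < c₀ ∧ c₀ ≤ 1 ∧ c₀ ≤ c₀' :=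
    ⟨min c₀' 1, lt_min hc₀' one_pos, min_le_right _ _, min_le_left _ _⟩
  refine ⟨c₀ / 1000, by positivity, by linarith, fun L hA => ?_⟩
  obtain ⟨ka, hA⟩ := hA
  refine ⟨max (max ka kb) (max 4 (8000 / c₀)), ?_⟩
  intro k hk n g hg c m
  obtain ⟨c', rfl⟩ := QuotientAddGroup.mk_surjective c
  have hka : ka ≤ k := (le_max_left _ _).trans ((le_max_left _ _).trans hk)
  have hkb : kb ≤ k := (le_max_right _ _).trans ((le_max_left _ _).trans hk)
  have hk4 : 4 ≤ k := (le_max_left _ _).trans ((le_max_right _ _).trans hk)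
  have hkc : 8000 / c₀ ≤ k := (le_max_right _ _).trans ((le_max_right _ _).trans hk)
  have hk1 : 1 ≤ k := by linarith
  have hk0 : 0 < k := by linarith
  have h2n : (0:ℝ) < 2 ^ n := by positivity
  have h2g : (0:ℝ) < 2 ^ g := by positivity
  set κ : ℝ := 2 * c' + k * Real.sin (2 * Real.pi * c') with hκ
  set A : Set ℝ := {t | t ∈ cell n m ∧ ((t : UnitAddCircle), (c' : UnitAddCircle)) ∈ G k L n}
    with hAdef
  have hzt : ∀ t : ℝ, zt k c' (κ - t) = ((t : UnitAddCircle), (c' : UnitAddCircle)) := by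
    intro t
    unfold zt tb pr
    have : 2 * c' + k * Real.sin (2 * Real.pi * c') - (κ - t) = t := by rw [hκ]; ring
    rw [this]
  have key := loc_of_cells (A := A) (n := n) (g := g) (m := m) (c₀ := c₀)
    (ε := 2 / k ^ 60) (r := 1 / (k ^ 60 * 2 ^ n)) hc₀ (by positivity)
    (by apply le_of_eq; field_simp) (by
      rw [pow_add, mul_comm (k ^ 60)]
      apply one_div_le_one_div_of_le (by positivity)
      have : k ^ 60 ≤ 2 ^ g := (pow_le_pow_right₀ hk1 (by norm_num : 60 ≤ 80)).trans hg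
      exact mul_le_mul_of_nonneg_left this h2n.le) (by
      intro t₀ ht₀ _
      have ht₀' : zt k c' (κ - t₀) ∈ G k L n := by
        rw [hzt]
        exact ht₀.2
      obtain ⟨N, hN, hvN, hx⟩ := hA k hka c' (κ - t₀) n ht₀'
      refine ⟨(fun t : ℝ => κ - t) ⁻¹' N, ?_, ?_, fun x hxN => ?_⟩
      · intro x hxN
        obtain ⟨h7, h8⟩ := hN hxN
        constructor <;> linarith
      · rw [volume_refl]
        exact hvN
      · obtain ⟨s, n1, n1', R, lam, q0, q1, q2, hR1, hR2, hlam, hcell, hgood⟩ := hx (κ - x) hxN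
        have hR0 : 0 < R := by
          have : 0 < k ^ 60 * 2 ^ n := by positivity
          linarith
        have hRr : 4 / R ≤ 1 / (k ^ 60 * 2 ^ n) := by
          rw [div_le_div_iff₀ hR0 (by positivity)]
          linarith
        refine ⟨R, hR0, ?_, ?_⟩
        · refine le_trans ?_ hRr
          exact div_le_div_of_nonneg_right (by norm_num) hR0.le
        · have hv := hB k hkb c' s n1 n1' (κ - x) R lam q0 q1 q2 hlam hcell
          rw [← volume_refl κ] at hv
          refine le_trans ?_ (hv.trans (measure_mono ?_))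
          · exact ENNReal.ofReal_le_ofReal (div_le_div_of_nonneg_right hcc hR0.le)
          · rintro t ⟨ht1, ht2⟩
            have ht1' : |t - x| ≤ 2 / R := by
              have e : κ - t - (κ - x) = -(t - x) := by ring
              rwa [e, abs_neg] at ht1
            refine ⟨ht1', fun u hu hut => ?_⟩
            have hsmall : 1 / 2 ^ (n + g) ≤ 1 / (k ^ 6 * R) := by
              apply one_div_le_one_div_of_le (by positivity)
              calc k ^ 6 * R ≤ k ^ 6 * (k ^ 74 * 2 ^ n) :=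
                    mul_le_mul_of_nonneg_left hR2 (by positivity)
                _ = 2 ^ n * k ^ 80 := by ring
                _ ≤ 2 ^ n * 2 ^ g := mul_le_mul_of_nonneg_left hg h2n.le
                _ = 2 ^ (n + g) := (pow_add _ _ _).symm
            have h6 : 1 / (k ^ 6 * R) ≤ 1 / R := by
              apply one_div_le_one_div_of_le hR0
              have : 1 ≤ k ^ 6 := one_le_pow₀ hk1
              nlinarith
            have hux : |u - x| ≤ 3 / R := by
              calc |u - x| = |(u - t) + (t - x)| := by ring_nf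
                _ ≤ |u - t| + |t - x| := abs_add_le _ _
                _ ≤ 1 / R + 2 / R := by linarith
                _ = 3 / R := by ring
            have e1 : κ - u - (κ - t) = -(u - t) := by ring
            have e2 : κ - u - (κ - x) = -(u - x) := by ring
            refine ht2 (κ - u) ?_ (hgood (κ - u) ?_ ?_)
            · rw [e1, abs_neg]
              exact hut.trans hsmall
            · rw [e2, abs_neg]
              exact hux
            · rw [hzt]
              exact hu.2)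
  refine key.trans ?_
  gcongr
  -- numeric
  have hk8 : k ≤ k ^ 60 := le_self_pow₀ hk1 (by norm_num)
  have h10 : 2 / k ^ 60 ≤ c₀ / 4000 := by
    rw [div_le_div_iff₀ (by positivity) (by norm_num)]
    rw [div_le_iff₀ hc₀] at hkc
    nlinarith
  rw [div_le_iff₀ (by positivity)]
  nlinarith

/-- **V5, area form, for the good events `Good.G`.** The constants `η, θ` depend only on `C1`. -/
theorem area (C1 : ℝ) (hB : LocB) : ∃ η θ : ℝ, 0 < η ∧ η ≤ 1 / 4 ∧ 0 < θ ∧ θ < 1 ∧
    ∀ L : ℕ, LocAC C1 L → ∃ k1 : ℝ, ∀ k : ℝ, k1 ≤ k → (∀ n, MeasurableSet (G k L n)) →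
      ∀ g : ℕ, k ^ 80 ≤ 2 ^ g → ∀ P : Finset ℕ, (∀ i ∈ P, ∀ j ∈ P, i < j → i + g ≤ j) →
        volume ({z : Tor | |V k z.2| ≤ 2} ∩ PayArea.Many η (G k L) P) ≤
          ENNReal.ofReal (2 / k * θ ^ P.card) := by
  obtain ⟨c₀, h0, h1, H⟩ := hloc (C1 := C1) hB
  obtain ⟨η, hη0, hη1, HA⟩ := PayArea.area_good (q := 1 - c₀) (by linarith) (by linarith)
  refine ⟨η, (1 - c₀) ^ (1 / 4 : ℝ), hη0, hη1, Real.rpow_pos_of_pos (by linarith) _,
    Real.rpow_lt_one (by linarith) (by linarith) (by norm_num), fun L hA => ?_⟩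
  obtain ⟨k1, H⟩ := H L hA
  refine ⟨max k1 1, fun k hk hGm g hg P hP => ?_⟩
  exact HA (le_of_max_le_right hk) (by norm_num) hGm (n₀ := 0) (n₁ := P.sup id)
    (fun c _ n m _ _ => H k (le_of_max_le_left hk) n g hg c m) P
    (fun i hi => ⟨Nat.zero_le _, Finset.le_sup (f := id) hi⟩) hP

end Crest.Agent.R128.LocG
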