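import Mathlib
import Crest.Agent.R128.Skel
import Crest.Agent.R128.LocG
import Crest.Agent.R128.GMeas

/-!
# Row 128, node V5-FINAL (helper183)

`Skel.V5` (fresh tips) from the area estimate (284's `LocG.area`) and the bridge `Brid` (root
contour: run of fresh levels `⟹` good event `G k n` of the dyadic level `n`): counting.
-/

set_option autoImplicit false
open MeasureTheory Filter Topology Set
open scoped ENNReal NNReal

namespace Crest.Agent.R128.V5Fin

open Crest.Agent.R128 Crest.Agent.R128.Acc Crest.Agent.R128.Skel Crest.Agent.R128.Close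
  Crest.Agent.R128.PayArea Crest.Agent.R128.Iter

theorem ceil_mul_le {x lg : ℝ} (hx : 0 ≤ x) (hlg : 0 < lg) : (⌈x / lg⌉₊ : ℝ) * lg ≤ x + lg := by
  have h1 := (Nat.ceil_lt_add_one (a := x / lg) (div_nonneg hx hlg.le)).le
  have h2 := mul_le_mul_of_nonneg_right h1 hlg.le
  have h3 : (x / lg + 1) * lg = x + lg := by
    field_simp
  rwa [h3] at h2

theorem le_ceil_mul {x lg : ℝ} (hlg : 0 < lg) : x ≤ (⌈x / lg⌉₊ : ℝ) * lg := by
  have := Nat.le_ceil (x / lg)
  rwa [div_le_iff₀ hlg] at this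

/-- the bridge at one dyadic level: a run of `A + 1` consecutive fresh levels `l, l-1, .., l-A` of the
first top `t`, with depth of `l` in `[n log 2, n log 2 + 2 log k]` -/
def Brid (k : ℝ) (L0 A X : ℕ) (G : ℕ → Set Tor) : Prop :=
  ∀ (N : ℕ) (z : Tor) (t n l : ℕ), (X : ℝ) * Real.log k ≤ n * Real.log 2 →
    n * Real.log 2 ≤ bz k z t - l * Real.log k →
    bz k z t - l * Real.log k ≤ n * Real.log 2 + 2 * Real.log k →
    A ≤ l → bz k z t ≤ 2 * ((l : ℝ) - A) * Real.log k →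
    (∀ s, s ≤ A → ¬ nf k L0 N z t (l - s)) → (T k)^[t] z ∈ G n

/-- separation of the grid (in dyadic levels) -/
noncomputable def gs (k : ℝ) (E A : ℕ) : ℕ := ⌈((E : ℝ) + A + 2) * Real.log k / Real.log 2⌉₊

/-- first level of the grid -/
noncomputable def ns (k : ℝ) (A Q : ℕ) : ℕ := ⌈((Q : ℝ) + A) * Real.log k / Real.log 2⌉₊

/-- the grid -/
noncomputable def grid (k : ℝ) (E A Q : ℕ) : Finset ℕ :=
  (Finset.range (Q / (E + A + 3))).image (fun i => ns k A Q + gs k E A * i)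

section grid

variable {k : ℝ} {E A Q : ℕ}

theorem lg_pos : 0 < Real.log 2 := Real.log_pos (by norm_num)

theorem lg_le (hk : 2 ≤ k) : Real.log 2 ≤ Real.log k := Real.log_le_log (by norm_num) hk

theorem gs_ge : ((E : ℝ) + A + 2) * Real.log k ≤ gs k E A * Real.log 2 := le_ceil_mul lg_pos

theorem gs_le (hk : 2 ≤ k) : (gs k E A : ℝ) * Real.log 2 ≤ ((E : ℝ) + A + 3) * Real.log k := by
  have hκ : 0 < Real.log k := lt_of_lt_of_le lg_pos (lg_le hk)
  have h := ceil_mul_le (x := ((E : ℝ) + A + 2) * Real.log k) (by positivity) lg_pos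
  have h2 := lg_le hk
  unfold gs
  linarith

theorem ns_ge : ((Q : ℝ) + A) * Real.log k ≤ ns k A Q * Real.log 2 := le_ceil_mul lg_pos

theorem ns_le (hk : 2 ≤ k) : (ns k A Q : ℝ) * Real.log 2 ≤ ((Q : ℝ) + A + 1) * Real.log k := by
  have hκ : 0 < Real.log k := lt_of_lt_of_le lg_pos (lg_le hk)
  have h := ceil_mul_le (x := ((Q : ℝ) + A) * Real.log k) (by positivity) lg_pos
  have h2 := lg_le hk
  unfold ns
  linarith

theorem gs_pos (hk : 2 ≤ k) : 0 < gs k E A := by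
  have hκ : 0 < Real.log k := lt_of_lt_of_le lg_pos (lg_le hk)
  have h1 : (0 : ℝ) < gs k E A * Real.log 2 := lt_of_lt_of_le (by positivity) gs_ge
  have h2 : (0 : ℝ) < gs k E A := (mul_pos_iff_of_pos_right lg_pos).1 h1
  exact_mod_cast h2

theorem card_grid (hk : 2 ≤ k) : (grid k E A Q).card = Q / (E + A + 3) := by
  have hinj : Function.Injective (fun i : ℕ => ns k A Q + gs k E A * i) := by
    intro a b hab
    simp only [Nat.add_left_cancel_iff] at hab
    exact Nat.eq_of_mul_eq_mul_left (gs_pos hk) hab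
  unfold grid
  rw [Finset.card_image_of_injective _ hinj, Finset.card_range]

theorem grid_ge {n : ℕ} (hn : n ∈ grid k E A Q) :
    ((Q : ℝ) + A) * Real.log k ≤ n * Real.log 2 := by
  unfold grid at hn
  rw [Finset.mem_image] at hn
  obtain ⟨i, -, rfl⟩ := hn
  push_cast
  have h0 : (0 : ℝ) ≤ gs k E A * i * Real.log 2 :=
    mul_nonneg (mul_nonneg (Nat.cast_nonneg _) (Nat.cast_nonneg _)) lg_pos.le
  have h1 := ns_ge (k := k) (A := A) (Q := Q)
  linarith

theorem grid_le {n : ℕ} (hk : 2 ≤ k) (hn : n ∈ grid k E A Q) :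
    (n : ℝ) * Real.log 2 ≤ (2 * (Q : ℝ) + A + 1) * Real.log k := by
  have hκ : 0 < Real.log k := lt_of_lt_of_le lg_pos (lg_le hk)
  unfold grid at hn
  rw [Finset.mem_image] at hn
  obtain ⟨i, hi, rfl⟩ := hn
  rw [Finset.mem_range] at hi
  push_cast
  have h1 := ns_le (k := k) (A := A) (Q := Q) hk
  have h2 := gs_le (k := k) (E := E) (A := A) hk
  have hi0 : (0 : ℝ) ≤ i := Nat.cast_nonneg _
  have h3 : ((E : ℝ) + A + 3) * i ≤ Q := by
    have h4 : (E + A + 3) * i ≤ Q := by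
      calc (E + A + 3) * i ≤ (E + A + 3) * (Q / (E + A + 3)) := Nat.mul_le_mul_left _ hi.le
        _ ≤ Q := Nat.mul_div_le _ _
    exact_mod_cast h4
  have h5 : (gs k E A : ℝ) * i * Real.log 2 ≤ Q * Real.log k := by
    calc (gs k E A : ℝ) * i * Real.log 2 = (gs k E A * Real.log 2) * i := by ring
      _ ≤ (((E : ℝ) + A + 3) * Real.log k) * i := mul_le_mul_of_nonneg_right h2 hi0
      _ = (((E : ℝ) + A + 3) * i) * Real.log k := by ring
      _ ≤ Q * Real.log k := mul_le_mul_of_nonneg_right h3 hκ.le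
  linarith

theorem grid_sep {i j : ℕ} (hi : i ∈ grid k E A Q) (hj : j ∈ grid k E A Q)
    (hij : i < j) : i + gs k E A ≤ j := by
  unfold grid at hi hj
  rw [Finset.mem_image] at hi hj
  obtain ⟨a, -, rfl⟩ := hi
  obtain ⟨b, -, rfl⟩ := hj
  have hab : a < b := by
    by_contra hc
    push Not at hc
    have := Nat.mul_le_mul_left (gs k E A) hc
    omega
  have h1 : gs k E A * (a + 1) ≤ gs k E A * b := Nat.mul_le_mul_left _ hab
  have h2 : gs k E A * (a + 1) = gs k E A * a + gs k E A := by ring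
  omega

end grid

set_option maxHeartbeats 2000000 in
open Classical in
/-- **Counting.** A top with a fresh block is a good point for most of the levels of the grid. -/
theorem sub_many {k : ℝ} {L0 A X E R Q : ℕ} {η : ℝ} {G : ℕ → Set Tor} (hk : 2 ≤ k)
    (hη : 0 < η) (hR : 2 * ((E : ℝ) + A + 3) ≤ η * R) (hQ : 2 * (E + A + 3) + 2 ≤ Q) (hX : X ≤ Q)
    (hbr : Brid k L0 A X G) {z : Tor} {t N : ℕ} (hF : FBR k L0 R N z t Q) :
    (T k)^[t] z ∈ {z : Tor | |V k z.2| ≤ 2} ∩ Many η G (grid k E A Q) := by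
  obtain ⟨hmt, hcard⟩ := hF
  set κ : ℝ := Real.log k with hκ
  set lg : ℝ := Real.log 2 with hlg
  have hlg0 : 0 < lg := lg_pos
  have hlgκ : lg ≤ κ := lg_le hk
  have hκ0 : 0 < κ := lt_of_lt_of_le hlg0 hlgκ
  set β : ℝ := bz k z t with hβ
  set c : ℕ := ⌈β / κ⌉₊ with hc
  have hA0 : (0 : ℝ) ≤ A := Nat.cast_nonneg _
  have hE0 : (0 : ℝ) ≤ E := Nat.cast_nonneg _
  have hQr : 2 * ((E : ℝ) + A + 3) + 2 ≤ Q := by exact_mod_cast hQ
  have hmc : 16 * Q ≤ c := hmt.trans mt_le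
  have hcβ : (c : ℝ) * κ < β + κ := by
    have hpos : 0 < β / κ := by
      by_contra hcon
      push Not at hcon
      have h0 : c = 0 := Nat.ceil_eq_zero.2 hcon
      omega
    have h1 := Nat.ceil_lt_add_one hpos.le
    have h2 := mul_lt_mul_of_pos_right h1 hκ0
    have h3 : (β / κ + 1) * κ = β + κ := by field_simp
    rwa [h3] at h2
  have hβc : β ≤ c * κ := by
    have h1 := Nat.le_ceil (β / κ)
    rwa [div_le_iff₀ hκ0] at h1
  have hmcr : 16 * (Q : ℝ) ≤ c := by exact_mod_cast hmc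
  have hβ16 : (16 * (Q : ℝ) - 1) * κ < β := by nlinarith
  refine ⟨?_, ?_⟩
  · -- near critical
    have h1 : mt (bz k z) κ N t ≠ 0 := by omega
    obtain ⟨l, hl⟩ := comp_of_mt_pos h1
    exact crit_of_comp hl
  · -- the level used for `n`
    set lf : ℕ → ℕ := fun n => ⌊(β - n * lg) / κ⌋₊ with hlf
    have hl1 : ∀ n ∈ grid k E A Q, (lf n : ℝ) * κ ≤ β - n * lg ∧ β - n * lg < (lf n + 1) * κ := by
      intro n hn
      have h1 := grid_le hk hn
      have h2 : 0 ≤ (β - n * lg) / κ := by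
        apply div_nonneg _ hκ0.le
        nlinarith
      have h3 := Nat.floor_le h2
      have h4 := Nat.lt_floor_add_one ((β - n * lg) / κ)
      rw [le_div_iff₀ hκ0] at h3
      rw [div_lt_iff₀ hκ0] at h4
      exact ⟨h3, h4⟩
    have hAl : ∀ n ∈ grid k E A Q, A ≤ lf n := by
      intro n hn
      obtain ⟨h1, h2⟩ := hl1 n hn
      have h3 := grid_le hk hn
      have h4 : (A : ℝ) * κ < (lf n + 1) * κ := by nlinarith
      have h5 : (A : ℝ) < lf n + 1 := lt_of_mul_lt_mul_right h4 hκ0.le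
      have h6 : A < lf n + 1 := by exact_mod_cast h5
      omega
    -- depth bounds
    have hdep1 : ∀ n ∈ grid k E A Q, lf n + (Q + A) ≤ c := by
      intro n hn
      obtain ⟨h1, h2⟩ := hl1 n hn
      have h3 := grid_ge hn
      have h4 : ((lf n : ℝ) + (Q + A)) * κ ≤ c * κ := by nlinarith
      have h5 := le_of_mul_le_mul_right h4 hκ0
      exact_mod_cast h5
    have hdep2 : ∀ n ∈ grid k E A Q, c < lf n + (2 * Q + A + 3) := by
      intro n hn
      obtain ⟨h1, h2⟩ := hl1 n hn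
      have h3 := grid_le hk hn
      have h4 : (c : ℝ) * κ < ((lf n : ℝ) + (2 * Q + A + 3)) * κ := by nlinarith
      have h5 := lt_of_mul_lt_mul_right h4 hκ0.le
      exact_mod_cast h5
    set good : Finset ℕ := (grid k E A Q).filter (fun n => (T k)^[t] z ∈ G n) with hgood
    set bad : Finset ℕ := (grid k E A Q).filter (fun n => ¬ ((T k)^[t] z ∈ G n)) with hbad
    have hsum : good.card + bad.card = (grid k E A Q).card :=
      Finset.card_filter_add_card_filter_not _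
    refine ⟨good, Finset.filter_subset _ _, ?_, fun i hi => (Finset.mem_filter.1 hi).2⟩
    have hex : ∀ n ∈ bad, ∃ s, s ≤ A ∧ nf k L0 N z t (lf n - s) := by
      intro n hn
      rw [hbad, Finset.mem_filter] at hn
      by_contra hcon
      push Not at hcon
      apply hn.2
      obtain ⟨h1, h2⟩ := hl1 n hn.1
      have h3 := grid_le hk hn.1
      have h4 := grid_ge hn.1
      have hXr : (X : ℝ) ≤ Q := by exact_mod_cast hX
      refine hbr N z t n (lf n) ?_ ?_ ?_ (hAl n hn.1) ?_ hcon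
      · nlinarith
      · linarith
      · nlinarith
      · nlinarith
    choose! sf hs1 hs2 using hex
    set rf : ℕ → ℕ := fun n => c - (lf n - sf n) with hrf
    have hinj : Set.InjOn rf (bad : Set ℕ) := by
      intro a ha b hb hab
      by_contra hne
      have ha' : a ∈ grid k E A Q := (Finset.mem_filter.1 (Finset.mem_coe.1 ha)).1
      have hb' : b ∈ grid k E A Q := (Finset.mem_filter.1 (Finset.mem_coe.1 hb)).1
      have ha1 := hdep1 a ha'
      have hb1 := hdep1 b hb'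
      have hsa := hs1 a ha
      have hsb := hs1 b hb
      have hAa := hAl a ha'
      have hAb := hAl b hb'
      have hab' : c - (lf a - sf a) = c - (lf b - sf b) := hab
      have h1 : lf a - sf a = lf b - sf b := by omega
      have h2 : lf a ≤ lf b + A := by omega
      have h3 : lf b ≤ lf a + A := by omega
      have h2r : (lf a : ℝ) ≤ lf b + A := by exact_mod_cast h2
      have h3r : (lf b : ℝ) ≤ lf a + A := by exact_mod_cast h3
      obtain ⟨ka, kb⟩ := hl1 a ha'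
      obtain ⟨kc, kd⟩ := hl1 b hb'
      have hgs := gs_ge (k := k) (E := E) (A := A)
      rcases lt_or_gt_of_ne hne with h | h
      · have h4 := grid_sep ha' hb' h
        have h5 : (a : ℝ) + gs k E A ≤ b := by exact_mod_cast h4
        have h6 : ((a : ℝ) + gs k E A) * lg ≤ b * lg := mul_le_mul_of_nonneg_right h5 hlg0.le
        have h7 : (lf a : ℝ) * κ ≤ (lf b + A) * κ := mul_le_mul_of_nonneg_right h2r hκ0.le
        have h8 : 0 ≤ (E : ℝ) * κ := mul_nonneg hE0 hκ0.le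
        nlinarith
      · have h4 := grid_sep hb' ha' h
        have h5 : (b : ℝ) + gs k E A ≤ a := by exact_mod_cast h4
        have h6 : ((b : ℝ) + gs k E A) * lg ≤ a * lg := mul_le_mul_of_nonneg_right h5 hlg0.le
        have h7 : (lf b : ℝ) * κ ≤ (lf a + A) * κ := mul_le_mul_of_nonneg_right h3r hκ0.le
        have h8 : 0 ≤ (E : ℝ) * κ := mul_nonneg hE0 hκ0.le
        nlinarith
    have hbadc : bad.card ≤
        ((Finset.Ico Q (16 * Q)).filter (fun r => nf k L0 N z t (lv k z t r))).card := by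
      rw [← Finset.card_image_of_injOn hinj]
      apply Finset.card_le_card
      intro r hr
      rw [Finset.mem_image] at hr
      obtain ⟨n, hn, rfl⟩ := hr
      have hn' : n ∈ grid k E A Q := (Finset.mem_filter.1 hn).1
      have h1 := hdep1 n hn'
      have h2 := hdep2 n hn'
      have h3 := hs1 n hn
      have h4 := hAl n hn'
      rw [Finset.mem_filter, Finset.mem_Ico]
      refine ⟨⟨?_, ?_⟩, ?_⟩
      · show Q ≤ c - (lf n - sf n)
        omega
      · show c - (lf n - sf n) < 16 * Q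
        omega
      · have h5 : lv k z t (rf n) = lf n - sf n := by
          show c - (c - (lf n - sf n)) = lf n - sf n
          omega
        rw [h5]
        exact hs2 n hn
    -- arithmetic
    have hcg : (grid k E A Q).card = Q / (E + A + 3) := card_grid hk
    have hB0 : 0 < E + A + 3 := by omega
    have hM2 : (Q : ℝ) ≤ ((Q / (E + A + 3) : ℕ) : ℝ) * (2 * ((E : ℝ) + A + 3)) := by
      have h1 : Q < (E + A + 3) * (Q / (E + A + 3) + 1) := by
        simpa using Nat.lt_mul_div_succ Q hB0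
      have h2 : (Q : ℝ) < ((E : ℝ) + A + 3) * (((Q / (E + A + 3) : ℕ) : ℝ) + 1) := by
        exact_mod_cast h1
      nlinarith
    have hRb : (R : ℝ) * bad.card ≤ Q := by
      have h1 : R * bad.card ≤ Q := (Nat.mul_le_mul_left R hbadc).trans hcard.le
      exact_mod_cast h1
    have hbM : (bad.card : ℝ) ≤ η * ((Q / (E + A + 3) : ℕ) : ℝ) := by
      have hRpos : (0 : ℝ) < R := by
        have h1 : 0 < η * R := lt_of_lt_of_le (by positivity) hR
        exact (mul_pos_iff_of_pos_left hη).1 h1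
      have h2 : (R : ℝ) * bad.card ≤ R * (η * ((Q / (E + A + 3) : ℕ) : ℝ)) := by
        calc (R : ℝ) * bad.card ≤ Q := hRb
          _ ≤ ((Q / (E + A + 3) : ℕ) : ℝ) * (2 * ((E : ℝ) + A + 3)) := hM2
          _ ≤ ((Q / (E + A + 3) : ℕ) : ℝ) * (η * R) :=
              mul_le_mul_of_nonneg_left hR (Nat.cast_nonneg _)
          _ = R * (η * ((Q / (E + A + 3) : ℕ) : ℝ)) := by ring
      exact le_of_mul_le_mul_left h2 hRpos
    have h6 : (good.card : ℝ) + bad.card = ((Q / (E + A + 3) : ℕ) : ℝ) := by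
      rw [← hcg]; exact_mod_cast hsum
    rw [hcg]
    linarith

/-- the power of two of the separation -/
theorem pow_gs {k : ℝ} {E A : ℕ} (hk : 2 ≤ k) : k ^ E ≤ 2 ^ gs k E A := by
  have hκ : 0 < Real.log k := lt_of_lt_of_le lg_pos (lg_le hk)
  have h1 := gs_ge (k := k) (E := E) (A := A)
  have hA0 : (0 : ℝ) ≤ A := Nat.cast_nonneg _
  rw [← Real.log_le_log_iff (by positivity) (by positivity), Real.log_pow, Real.log_pow]
  nlinarith

/-- **V5 for one `L0`** (all constants may depend on `L0`). -/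
theorem v5_L {L0 : ℕ} {G : ℝ → ℕ → Set Tor}
    (H : ∃ η θ : ℝ, 0 < η ∧ 0 < θ ∧ θ < 1 ∧ ∃ (A E X : ℕ) (k₁ : ℝ), ∀ k, k₁ ≤ k →
      (∀ g : ℕ, k ^ E ≤ 2 ^ g → ∀ P : Finset ℕ, (∀ i ∈ P, ∀ j ∈ P, i < j → i + g ≤ j) →
        (∀ n ∈ P, (X : ℝ) * Real.log k ≤ n * Real.log 2) →
        volume ({z : Tor | |V k z.2| ≤ 2} ∩ Many η (G k) P) ≤
          ENNReal.ofReal (2 / k * θ ^ P.card)) ∧
      Brid k L0 A X (G k)) :
    ∃ R Q1 : ℕ, ∃ C θ : ℝ, 0 < C ∧ 0 < θ ∧ θ < 1 ∧ ∃ k₁ : ℝ,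
      ∀ k, k₁ ≤ k → ∀ Q : ℕ, Q1 ≤ Q →
      volume {y : Tor | ∃ z t N, (T k)^[t] z = y ∧ FBR k L0 R N z t Q} ≤
        ENNReal.ofReal (C / k * θ ^ Q) := by
  obtain ⟨η, θ, hη, hθ0, hθ1, A, E, X, k₁, H⟩ := H
  have hB : (0 : ℝ) < 2 * ((E : ℝ) + A + 3) := by positivity
  refine ⟨⌈2 * ((E : ℝ) + A + 3) / η⌉₊, max X (2 * (E + A + 3) + 2), 2,
    θ ^ (1 / (2 * ((E : ℝ) + A + 3))), by norm_num, by positivity,
    Real.rpow_lt_one hθ0.le hθ1 (by positivity), max k₁ 2, ?_⟩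
  intro k hk Q hQ
  obtain ⟨harea, hbr⟩ := H k ((le_max_left _ _).trans hk)
  have hk2 : 2 ≤ k := (le_max_right _ _).trans hk
  have hκ : 0 < Real.log k := lt_of_lt_of_le lg_pos (lg_le hk2)
  have hXQ : X ≤ Q := (le_max_left _ _).trans hQ
  have hBQ : 2 * (E + A + 3) + 2 ≤ Q := (le_max_right _ _).trans hQ
  have hR : 2 * ((E : ℝ) + A + 3) ≤ η * (⌈2 * ((E : ℝ) + A + 3) / η⌉₊ : ℕ) := by
    have h1 := Nat.le_ceil (2 * ((E : ℝ) + A + 3) / η)
    rw [div_le_iff₀ hη] at h1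
    linarith
  have hsub : {y : Tor | ∃ z t N, (T k)^[t] z = y ∧
      FBR k L0 ⌈2 * ((E : ℝ) + A + 3) / η⌉₊ N z t Q} ⊆
      {z : Tor | |V k z.2| ≤ 2} ∩ Many η (G k) (grid k E A Q) := by
    rintro y ⟨z, t, N, rfl, hF⟩
    exact sub_many hk2 hη hR hBQ hXQ hbr hF
  have hQr : (X : ℝ) ≤ Q := by exact_mod_cast hXQ
  have hA0 : (0 : ℝ) ≤ A := Nat.cast_nonneg _
  refine (measure_mono hsub).trans ((harea (gs k E A) (pow_gs hk2) (grid k E A Q)
    (fun i hi j hj hij => grid_sep hi hj hij) ?_).trans ?_)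
  · intro n hn
    refine le_trans ?_ (grid_ge hn)
    exact mul_le_mul_of_nonneg_right (by linarith) hκ.le
  · apply ENNReal.ofReal_le_ofReal
    apply mul_le_mul_of_nonneg_left _ (by positivity)
    rw [card_grid hk2, ← Real.rpow_natCast, ← Real.rpow_natCast, ← Real.rpow_mul hθ0.le]
    apply Real.rpow_le_rpow_of_exponent_ge hθ0 hθ1.le
    rw [div_mul_eq_mul_div, one_mul, div_le_iff₀ hB]
    have hB0 : 0 < E + A + 3 := by omega
    have h1 : Q < (E + A + 3) * (Q / (E + A + 3) + 1) := by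
      simpa using Nat.lt_mul_div_succ Q hB0
    have h2 : (Q : ℝ) < ((E : ℝ) + A + 3) * (((Q / (E + A + 3) : ℕ) : ℝ) + 1) := by
      exact_mod_cast h1
    have h3 : 2 * ((E : ℝ) + A + 3) + 2 ≤ Q := by exact_mod_cast hBQ
    nlinarith

/-- **V5** from 398's `LocA`, 548's `LocB`, measurability and the bridge. -/
theorem v5 (hB : Loc.LocB) (hA : ∃ L1 : ℕ, ∀ L0, L1 ≤ L0 → Good.LocA L0)
    (hM : ∃ L1 : ℕ, ∀ L0, L1 ≤ L0 → ∃ k₁ : ℝ, ∀ k, k₁ ≤ k → ∀ n, MeasurableSet (Good.G k L0 n))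
    (hbr : ∃ L1 : ℕ, ∀ L0, L1 ≤ L0 → ∃ (A X : ℕ) (k₁ : ℝ), ∀ k, k₁ ≤ k →
      Brid k L0 A X (Good.G k L0)) : Skel.V5 := by
  obtain ⟨L1, hA⟩ := hA
  obtain ⟨L2, hM⟩ := hM
  obtain ⟨L3, hbr⟩ := hbr
  refine ⟨max (max L1 L2) L3, ?_⟩
  intro L0 hL0
  obtain ⟨C1, -, hA'⟩ := hA L0 ((le_max_left _ _).trans ((le_max_left _ _).trans hL0))
  obtain ⟨k2, hM'⟩ := hM L0 ((le_max_right _ _).trans ((le_max_left _ _).trans hL0))
  obtain ⟨A, X, k3, hbr'⟩ := hbr L0 ((le_max_right _ _).trans hL0)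
  obtain ⟨η, θ, hη, -, hθ0, hθ1, H⟩ := LocG.area C1 hB
  obtain ⟨k1, H⟩ := H L0 hA'
  refine v5_L (G := fun k => Good.G k L0) ⟨η, θ, hη, hθ0, hθ1, A, 80, X, max (max k1 k2) k3, ?_⟩
  intro k hk
  have hk1 : k1 ≤ k := (le_max_left _ _).trans ((le_max_left _ _).trans hk)
  have hk2 : k2 ≤ k := (le_max_right _ _).trans ((le_max_left _ _).trans hk)
  have hk3 : k3 ≤ k := (le_max_right _ _).trans hk
  refine ⟨fun g hg P hP _ => H k hk1 (hM' k hk2) g hg P hP, hbr' k hk3⟩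

/-- **V5** (measurability by 365's `GMeas`). -/
theorem v5_final (hB : Loc.LocB) (hA : ∃ L1 : ℕ, ∀ L0, L1 ≤ L0 → Good.LocA L0)
    (hbr : ∃ L1 : ℕ, ∀ L0, L1 ≤ L0 → ∃ (A X : ℕ) (k₁ : ℝ), ∀ k, k₁ ≤ k →
      Brid k L0 A X (Good.G k L0)) : Skel.V5 :=
  v5 hB hA ⟨0, fun L0 _ => ⟨0, fun k _ n => GMeas.measurableSet_G k L0 n⟩⟩ hbr

end Crest.Agent.R128.V5Fin
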