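import Crest.Agent.R128.Bridge882
import Crest.Agent.R128.BridgeLo
import Crest.Agent.R128.V5Fin

/-!
# Row 128, V5-BRIDGE, final assembly (helper23)

Three fresh levels `l`, `l - 80`, `l - 84` of the root contour with the same first top `t` give the
intrinsic very fresh event `Good.G` at `(T k)^[t] z`.  Inputs: 862 `Link.root_field_top`, 882
`Bridge882`, 62 `BridgeLo`.
-/

set_option autoImplicit false
set_option maxHeartbeats 400000

namespace Crest.Agent.R128.Bridge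

open Crest.Agent.R128 Crest.Agent.R128.Acc Crest.Agent.R128.AlignMn Crest.Agent.R128.Bridge882
open Crest.Agent.R128.Close Crest.Agent.R128.Good

variable {k : ℝ} {L0 N : ℕ} {z : Tor} {t l i j i1 j1 i2 j2 : ℕ} {x : ℤ → ℝ}

theorem bt_pred_lt (C : Cmp (bz k z) (Real.log k) N i t j l) :
    bt (rr k z) (t - 1) < bt (rr k z) t := by
  have h1 := C.it
  have h2 := C.tj
  rcases Nat.lt_or_ge i (t - 1) with h | h
  · exact C.first (t - 1) h (by omega)
  · have e : t - 1 = i := by omega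
    rw [e]
    exact lt_of_le_of_lt C.left (C.above t h1 h2)

theorem right_side (hk : 10 ^ 10 ≤ k) (hk2 : Real.exp 100 ≤ k) (hL0 : 1000 ≤ L0)
    (C : Cmp (bz k z) (Real.log k) N i t j l) (F : Skel.Fresh k L0 z i j t) {l1 l2 : ℕ}
    (C1 : Cmp (bz k z) (Real.log k) N i1 t j1 l1) (F1 : Skel.Fresh k L0 z i1 j1 t)
    (C2 : Cmp (bz k z) (Real.log k) N i2 t j2 l2) (F2 : Skel.Fresh k L0 z i2 j2 t)
    (e1 : l1 + 80 = l) (e2 : l2 + 84 = l) (hl : 3 ≤ l)
    (hlow : bz k z t ≤ 2 * l * Real.log k)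
    (hhigh : l * Real.log k + (2 * L0 + 2) * Real.log k ≤ bz k z t)
    (hx : ∀ n, x (n + 1) = dz k ((T k)^[t] z) n * x n - x (n - 1)) (h0 : |x 0| = 1)
    (h1 : |x (-1)| < 1)
    (h2 : ∀ m : ℤ, -(t : ℤ) ≤ m →
      max |x (m - 1)| |x m| ≤ Real.exp (bt (rr k z) (m + t).toNat - bt (rr k z) t)) :
    Side k L0 (bz k z t - l * Real.log k) ((T k)^[t] z) (fun n => x n) (j - t) (j1 - j) := by
  have hlk : 0 < Real.log k := Real.log_pos (by linarith)
  have htj := C.tj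
  have htj1 := C1.tj
  have hst := steps_ge_right (m := L0 + 1) (by linarith) C (by
    push_cast
    nlinarith)
  have hs1 := right_steps hk hL0 C C1 (by omega) (by omega) F1.2
  have hs2 := right_steps hk hL0 C C2 (by omega) (by omega) F2.2
  have hs3 := right_steps hk hL0 C1 C2 (by omega) (by omega) F2.2
  have el1 : (l : ℝ) = l1 + 80 := by rw [← e1]; push_cast; ring
  refine ⟨by omega, ?_, ?_, h0, ?_, ?_, ?_, by omega, ?_, ?_⟩
  · have e : (T k)^[j - t] ((T k)^[t] z) = (T k)^[j] z := by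
      rw [← Function.iterate_add_apply, show j - t + t = j by omega]
    rw [e]
    exact cval_of_val (by linarith) hL0 F.2 (by omega)
  · intro n
    have h := hx ((n : ℤ) + 1)
    have e3 : ((n + 2 : ℕ) : ℤ) = (n : ℤ) + 1 + 1 := by push_cast; ring
    have e4 : ((n : ℤ) + 1 - 1) = n := by ring
    rw [e4] at h
    show x ((n + 2 : ℕ) : ℤ) = ap k ((T k)^[t] z) (n + 1) * x ((n + 1 : ℕ) : ℤ) - x n
    rw [e3, h]
    unfold ap
    push_cast
    rfl
  · have h := h2 1 (by omega)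
    have e : ((1 : ℤ) + t).toNat = t + 1 := by omega
    rw [e] at h
    have h3 : bt (rr k z) (t + 1) ≤ bt (rr k z) t := by
      have := C.it
      exact C.top (t + 1) (by omega) (by omega)
    show |x ((1 : ℕ) : ℤ)| ≤ 1
    calc |x ((1 : ℕ) : ℤ)| ≤ max |x (1 - 1)| |x 1| := le_max_right _ _
      _ ≤ _ := h
      _ ≤ Real.exp 0 := Real.exp_le_exp.mpr (by linarith)
      _ = 1 := Real.exp_zero
  · have hm : max |x (-1)| |x 0| = 1 := by
      rw [h0]
      exact max_eq_right h1.le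
    have hz : max |x (-(t : ℤ) - 1)| |x (-(t : ℤ))| ≤ Real.exp (-bt (rr k z) t) := by
      have h := h2 (-(t : ℤ)) le_rfl
      have e : (-(t : ℤ) + t).toNat = 0 := by omega
      rw [e] at h
      have e0 : bt (rr k z) 0 = 0 := bz_zero k z
      rwa [e0, zero_sub] at h
    have h := BridgeLo.lo_right hk2 hL0 C F hl hlow (by nlinarith) hx hm hz
    have e : ((j - t - 1 : ℕ) : ℤ) = ((j - t : ℕ) : ℤ) - 1 := by omega
    show _ ≤ max |x ((j - t - 1 : ℕ) : ℤ)| |x ((j - t : ℕ) : ℤ)|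
    rw [e]
    exact (Real.exp_le_exp.mpr (by linarith)).trans h
  · have h := h2 ((j - t : ℕ) : ℤ) (by omega)
    have e : (((j - t : ℕ) : ℤ) + t).toNat = j := by omega
    rw [e] at h
    have e3 : ((j - t - 1 : ℕ) : ℤ) = ((j - t : ℕ) : ℤ) - 1 := by omega
    show max |x ((j - t - 1 : ℕ) : ℤ)| |x ((j - t : ℕ) : ℤ)| ≤ _
    rw [e3]
    refine h.trans (Real.exp_le_exp.mpr ?_)
    have := C.right
    unfold bz at this ⊢
    linarith
  · intro n hn1 hn2
    have e : ap k ((T k)^[t] z) n = V k ((T k)^[n + t] z).2 := by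
      unfold ap dz
      rw [Two.Tz_natCast, ← Function.iterate_add_apply]
    rw [e]
    exact right_digit F2.2 (by omega) (by omega) (by omega)
  · have h := h2 ((j1 - t : ℕ) : ℤ) (by omega)
    have e : (((j1 - t : ℕ) : ℤ) + t).toNat = j1 := by omega
    rw [e] at h
    have e3 : ((j - t + (j1 - j) - 1 : ℕ) : ℤ) = ((j1 - t : ℕ) : ℤ) - 1 := by omega
    have e4 : ((j - t + (j1 - j) : ℕ) : ℤ) = ((j1 - t : ℕ) : ℤ) := by omega
    show max |x ((j - t + (j1 - j) - 1 : ℕ) : ℤ)| |x ((j - t + (j1 - j) : ℕ) : ℤ)| ≤ _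
    rw [e3, e4]
    refine h.trans (Real.exp_le_exp.mpr ?_)
    have := C1.right
    unfold bz at this ⊢
    rw [el1]
    linarith

theorem left_side (hk : 10 ^ 10 ≤ k) (hk2 : Real.exp 100 ≤ k) (hL0 : 1000 ≤ L0)
    (C : Cmp (bz k z) (Real.log k) N i t j l) (F : Skel.Fresh k L0 z i j t) {l1 l2 : ℕ}
    (C1 : Cmp (bz k z) (Real.log k) N i1 t j1 l1) (F1 : Skel.Fresh k L0 z i1 j1 t)
    (C2 : Cmp (bz k z) (Real.log k) N i2 t j2 l2) (F2 : Skel.Fresh k L0 z i2 j2 t)
    (e1 : l1 + 80 = l) (e2 : l2 + 84 = l) (hl : 3 ≤ l)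
    (hlow : bz k z t ≤ 2 * l * Real.log k)
    (hhigh : l * Real.log k + (2 * L0 + 2) * Real.log k ≤ bz k z t)
    (hx : ∀ n, x (n + 1) = dz k ((T k)^[t] z) n * x n - x (n - 1)) (h0 : |x 0| = 1)
    (h1 : |x (-1)| < 1)
    (h2 : ∀ m : ℤ, -(t : ℤ) ≤ m →
      max |x (m - 1)| |x m| ≤ Real.exp (bt (rr k z) (m + t).toNat - bt (rr k z) t)) :
    Side k L0 (bz k z t - l * Real.log k) (DictY.Rev k ((T k)^[t] z)) (fun n => x (-(n : ℤ)))
      (t - i + 1) (i - i1) := by
  have hlk : 0 < Real.log k := Real.log_pos (by linarith)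
  have hit := C.it
  have hit1 := C1.it
  have hit2 := C2.it
  have hst := steps_ge_left (m := L0 + 1) (by linarith) C (by
    push_cast
    nlinarith)
  have hs1 := left_steps hk hL0 C C1 (by omega) (by omega) F1.1
  have hs2 := left_steps hk hL0 C C2 (by omega) (by omega) F2.1
  have hs3 := left_steps hk hL0 C1 C2 (by omega) (by omega) F2.1
  have el1 : (l : ℝ) = l1 + 80 := by rw [← e1]; push_cast; ring
  have hap : ∀ n, ap k (DictY.Rev k ((T k)^[t] z)) n = dz k ((T k)^[t] z) (-(n : ℤ)) := by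
    intro n
    rw [← DictY.am_eq_ap]
    rfl
  refine ⟨by omega, ?_, ?_, ?_, ?_, ?_, ?_, by omega, ?_, ?_⟩
  · have e : ((T k)^[t - i + 1] (DictY.Rev k ((T k)^[t] z))).swap = (T k)^[i] z := by
      rw [Rev_eq, ← Function.iterate_succ_apply' (T k) t z,
        Rev.iter_swap_sub k (by omega : t - i + 1 ≤ t + 1), Prod.swap_swap,
        show t + 1 - (t - i + 1) = i by omega]
    rw [e]
    exact cval_of_val (by linarith) hL0 F.1 (by omega)
  · intro n
    have h := hx (-((n : ℤ) + 1))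
    have e3 : -((n + 2 : ℕ) : ℤ) = -((n : ℤ) + 1) - 1 := by push_cast; ring
    have e4 : -((n : ℤ) + 1) + 1 = -(n : ℤ) := by ring
    rw [e4] at h
    show x (-((n + 2 : ℕ) : ℤ)) =
      ap k (DictY.Rev k ((T k)^[t] z)) (n + 1) * x (-((n + 1 : ℕ) : ℤ)) - x (-(n : ℤ))
    rw [e3, hap]
    push_cast
    rw [h]
    push_cast
    ring
  · show |x (-((0 : ℕ) : ℤ))| = 1
    simpa using h0
  · show |x (-((1 : ℕ) : ℤ))| ≤ 1
    simpa using h1.le
  · have hm : max |x (-1)| |x 0| = 1 := by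
      rw [h0]
      exact max_eq_right h1.le
    have hz : max |x (-(t : ℤ) - 1)| |x (-(t : ℤ))| ≤ Real.exp (-bt (rr k z) t) := by
      have h := h2 (-(t : ℤ)) le_rfl
      have e : (-(t : ℤ) + t).toNat = 0 := by omega
      rw [e] at h
      have e0 : bt (rr k z) 0 = 0 := bz_zero k z
      rwa [e0, zero_sub] at h
    have h := BridgeLo.lo_left hk2 hL0 C F hl hlow (by nlinarith) hx hm hz
    show _ ≤ max |x (-((t - i + 1 - 1 : ℕ) : ℤ))| |x (-((t - i + 1 : ℕ) : ℤ))|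
    have e3 : -((t - i + 1 - 1 : ℕ) : ℤ) = -((t - i : ℕ) : ℤ) := by omega
    have e4 : -((t - i + 1 : ℕ) : ℤ) = -((t - i : ℕ) : ℤ) - 1 := by omega
    rw [e3, e4, max_comm]
    exact (Real.exp_le_exp.mpr (by linarith)).trans h
  · have h := h2 (-((t - i : ℕ) : ℤ)) (by omega)
    have e : (-((t - i : ℕ) : ℤ) + t).toNat = i := by omega
    rw [e] at h
    show max |x (-((t - i + 1 - 1 : ℕ) : ℤ))| |x (-((t - i + 1 : ℕ) : ℤ))| ≤ _
    have e3 : -((t - i + 1 - 1 : ℕ) : ℤ) = -((t - i : ℕ) : ℤ) := by omega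
    have e4 : -((t - i + 1 : ℕ) : ℤ) = -((t - i : ℕ) : ℤ) - 1 := by omega
    rw [e3, e4, max_comm]
    refine h.trans (Real.exp_le_exp.mpr ?_)
    have := C.left
    unfold bz at this ⊢
    linarith
  · intro n hn1 hn2
    have e : dz k ((T k)^[t] z) (-(n : ℤ)) = V k ((T k)^[t - n] z).2 := by
      unfold dz
      have e5 : (T k)^[t] z = Two.Tz k (n : ℤ) ((T k)^[t - n] z) := by
        rw [Two.Tz_natCast, ← Function.iterate_add_apply, show n + (t - n) = t by omega]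
      rw [e5, Two.Tz_neg_cancel]
    rw [hap, e]
    exact left_digit F2.1 (by omega) (by omega) (by omega)
  · have h := h2 (-((t - i1 : ℕ) : ℤ)) (by omega)
    have e : (-((t - i1 : ℕ) : ℤ) + t).toNat = i1 := by omega
    rw [e] at h
    show max |x (-((t - i + 1 + (i - i1) - 1 : ℕ) : ℤ))| |x (-((t - i + 1 + (i - i1) : ℕ) : ℤ))| ≤ _
    have e3 : -((t - i + 1 + (i - i1) - 1 : ℕ) : ℤ) = -((t - i1 : ℕ) : ℤ) := by omega
    have e4 : -((t - i + 1 + (i - i1) : ℕ) : ℤ) = -((t - i1 : ℕ) : ℤ) - 1 := by omega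
    rw [e3, e4, max_comm]
    refine h.trans (Real.exp_le_exp.mpr ?_)
    have := C1.left
    unfold bz at this ⊢
    rw [el1]
    linarith

/-- **BRIDGE** in the form of 183's `V5Fin.Brid` -/
theorem brid (hk : 10 ^ 10 ≤ k) (hk2 : Real.exp 100 ≤ k) (hL0 : 1000 ≤ L0) :
    V5Fin.Brid k L0 84 (2 * L0 + 2) (G k L0) := by
  intro N z t n l hX hn1 hn2 hA hlow hfr
  have hlk : 0 < Real.log k := Real.log_pos (by linarith)
  have get : ∀ s, s ≤ 84 → ∃ i j, Cmp (bz k z) (Real.log k) N i t j (l - s) ∧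
      Skel.Fresh k L0 z i j t := by
    intro s hs
    have h := hfr s hs
    unfold Skel.nf at h
    push Not at h
    exact h
  obtain ⟨i, j, C, F⟩ := get 0 (by norm_num)
  rw [Nat.sub_zero] at C
  obtain ⟨i1, j1, C1, F1⟩ := get 80 (by norm_num)
  obtain ⟨i2, j2, C2, F2⟩ := get 84 le_rfl
  have ht : 0 < t := lt_of_le_of_lt (Nat.zero_le _) C.it
  obtain ⟨x, hx, h0, h1, h2⟩ := Link.root_field_top k z ht (bt_pred_lt C)
  have hlow' : bz k z t ≤ 2 * l * Real.log k := by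
    refine hlow.trans ?_
    push_cast
    nlinarith
  have hhigh : l * Real.log k + (2 * L0 + 2) * Real.log k ≤ bz k z t := by
    push_cast at hX
    linarith
  have hR := right_side hk hk2 hL0 C F C1 F1 C2 F2 (by omega) (by omega) (by omega) hlow' hhigh
    hx h0 h1 h2
  have hS := left_side hk hk2 hL0 C F C1 F1 C2 F2 (by omega) (by omega) (by omega) hlow' hhigh
    hx h0 h1 h2
  have hrec : x 1 + x (-1) = V k ((T k)^[t] z).2 * x 0 := by
    have h := hx 0
    rw [dz_zero, zero_add, zero_sub] at h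
    linarith
  refine ⟨?_, bz k z t - l * Real.log k, hn1, hn2, fun n => x n, fun n => x (-(n : ℤ)), _, _, _, _,
    hR, hS, ?_, ?_⟩
  · have h3 : |x 1| ≤ 1 := hR.x1
    have h4 : |V k ((T k)^[t] z).2| = |x 1 + x (-1)| := by
      rw [hrec, abs_mul, h0, mul_one]
    rw [h4]
    exact lt_of_le_of_lt (abs_add_le _ _) (by linarith)
  · show x ((0 : ℕ) : ℤ) = x (-((0 : ℕ) : ℤ))
    simp
  · show x ((1 : ℕ) : ℤ) + x (-((1 : ℕ) : ℤ)) = V k ((T k)^[t] z).2 * x ((0 : ℕ) : ℤ)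
    simpa using hrec

theorem bridge : ∃ L1 : ℕ, ∀ L0, L1 ≤ L0 → ∃ A X : ℕ, ∃ k1 : ℝ, ∀ k, k1 ≤ k →
    V5Fin.Brid k L0 A X (G k L0) :=
  ⟨1000, fun L0 hL0 => ⟨84, 2 * L0 + 2, max (10 ^ 10) (Real.exp 100), fun _ hk =>
    brid ((le_max_left _ _).trans hk) ((le_max_right _ _).trans hk) hL0⟩⟩

end Crest.Agent.R128.Bridge
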