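import Crest.Agent.R128.Geo
import Crest.Agent.R128.Charge

set_option autoImplicit false

/-!
# Row 128, node V1-5: a violation of (c2) along the path from a foot gives a nested valley

`h` is the sequence of matrices along the path from the foot (`h 0` = foot), `F m` the root
contour along the path, known up to an error `c0` only: `|F m - log ‖h m‖| ≤ c0`.
Part 1: GEO with an error factor `c` (`‖h 0‖ ≤ c L`, `L ≤ ‖h j‖`).
Part 2: the drop inequality.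
Part 3: `ValR` / `ValL` of `Charge`.
-/

open scoped Matrix.Norms.L2Operator
open Matrix Finset

namespace Crest.Agent.R128.FootG

open Crest.Agent.R128.Hyp Crest.Agent.R128.Chain Crest.Agent.R128.Geo Crest.Agent.R128.Charge

/-- chain inequality in terms of the potential, relaxed start -/
theorem transfer_le_S' {g : ℕ → M2} (hg : ∀ i, (g i).det = 1) {A L c : ℝ} {v N : ℕ}
    (hstep : ∀ j, v ≤ j → j < N → ‖g (j + 1) * (g j)⁻¹‖ ≤ A) (hL : 0 < L)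
    (hv : ‖g v‖ ≤ c * L)
    {m : ℕ} (hvm : v < m) (hmN : m ≤ N) :
    ‖g m * (g v)⁻¹‖ ≤ c * A ^ 2 * (‖g m‖ / L) * S g L v m := by
  have h1 := chain hg hvm
  have pv := norm_pos' (hg v)
  have pm := norm_pos' (hg m)
  have h2 : ∑ j ∈ Ico v m, wt g j ≤ ∑ j ∈ Ico v m, A ^ 2 / ‖g j‖ ^ 2 := by
    apply Finset.sum_le_sum
    intro j hj
    rw [Finset.mem_Ico] at hj
    exact wt_le hg (hstep j hj.1 (lt_of_lt_of_le hj.2 hmN))
  have h3 : ∑ j ∈ Ico v m, A ^ 2 / ‖g j‖ ^ 2 = A ^ 2 / L ^ 2 * S g L v m := by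
    unfold S
    rw [Finset.mul_sum]
    apply Finset.sum_congr rfl
    intro j _
    have pj := norm_pos' (hg j)
    field_simp
  have hS := S_nonneg g L v m
  calc ‖g m * (g v)⁻¹‖ ≤ ‖g v‖ * ‖g m‖ * ∑ j ∈ Ico v m, wt g j := h1
    _ ≤ ‖g v‖ * ‖g m‖ * ∑ j ∈ Ico v m, A ^ 2 / ‖g j‖ ^ 2 :=
        mul_le_mul_of_nonneg_left h2 (by positivity)
    _ = ‖g v‖ * ‖g m‖ * (A ^ 2 / L ^ 2 * S g L v m) := by rw [h3]
    _ ≤ (c * L) * ‖g m‖ * (A ^ 2 / L ^ 2 * S g L v m) := by gcongr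
    _ = c * A ^ 2 * (‖g m‖ / L) * S g L v m := by
        field_simp

/-- the potential stays bounded, relaxed start -/
theorem S_le' {g : ℕ → M2} (hg : ∀ i, (g i).det = 1) {A L c : ℝ} {v N M0 : ℕ} (hM0 : 1 ≤ M0)
    (hstep : ∀ j, v ≤ j → j < N → ‖g (j + 1) * (g j)⁻¹‖ ≤ A) (hL : 0 < L)
    (hv : ‖g v‖ ≤ c * L)
    (hv' : L ≤ A * ‖g v‖) (hlow : ∀ j, v < j → j < N → L ≤ ‖g j‖)
    (hsum : 4 * c ^ 2 * A ^ 4 * (A ^ 2 + M0) *
      ∑ j ∈ Ico (v + M0) N, 1 / ‖g j * (g v)⁻¹‖ ^ 2 ≤ 1)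
    {m : ℕ} (hvm : v < m) (hmN : m ≤ N) : S g L v m ≤ 2 * (A ^ 2 + M0) := by
  have hS0 : 0 ≤ A ^ 2 + (M0 : ℝ) := by positivity
  have pv0 := norm_pos' (hg v)
  have hc0 : 0 ≤ c := by
    by_contra hcon
    push Not at hcon
    nlinarith
  by_cases hM : m ≤ v + M0
  · have h1 := S_start hg hL hv' hlow hvm hmN
    have h2 : ((m - v : ℕ) : ℝ) ≤ (M0 : ℝ) := by
      exact_mod_cast (by omega : m - v ≤ M0)
    linarith
  · push Not at hM
    have key : ∀ n, v + M0 ≤ n → v < n → n ≤ N →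
        S g L v n ≤ (A ^ 2 + M0) *
          (1 + 4 * c ^ 2 * A ^ 4 * (A ^ 2 + M0) *
            ∑ j ∈ Ico (v + M0) n, 1 / ‖g j * (g v)⁻¹‖ ^ 2) := by
      intro n hn
      induction n, hn using Nat.le_induction with
      | base =>
        intro h1 h2
        have h3 := S_start hg hL hv' hlow h1 h2
        simp only [Finset.Ico_self, Finset.sum_empty, mul_zero, add_zero, mul_one]
        have h4 : ((v + M0 - v : ℕ) : ℝ) = (M0 : ℝ) := by
          congr 1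
          omega
        rw [h4] at h3
        exact h3
      | succ n hn ih =>
        intro h1 h2
        have hvn : v < n := by omega
        have h3 := ih hvn (Nat.le_of_succ_le h2)
        have hsub : ∑ j ∈ Ico (v + M0) n, 1 / ‖g j * (g v)⁻¹‖ ^ 2 ≤
            ∑ j ∈ Ico (v + M0) N, 1 / ‖g j * (g v)⁻¹‖ ^ 2 :=
          Finset.sum_le_sum_of_subset_of_nonneg
            (Finset.Ico_subset_Ico_right (Nat.le_of_succ_le h2))
            (fun j _ _ => by positivity)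
        have h4 : S g L v n ≤ 2 * (A ^ 2 + M0) := by
          have h5 : 4 * c ^ 2 * A ^ 4 * (A ^ 2 + M0) *
              ∑ j ∈ Ico (v + M0) n, 1 / ‖g j * (g v)⁻¹‖ ^ 2 ≤ 1 :=
            (mul_le_mul_of_nonneg_left hsub (by positivity)).trans hsum
          nlinarith
        have pn := norm_pos' (hg n)
        have pd : 0 < ‖g n * (g v)⁻¹‖ := norm_pos' (det_mul_inv (hg n) (hg v))
        have h6 := transfer_le_S' hg hstep hL hv hvn (Nat.le_of_succ_le h2)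
        have h7 : L / ‖g n‖ ≤ c * A ^ 2 * S g L v n / ‖g n * (g v)⁻¹‖ := by
          rw [div_le_div_iff₀ pn pd]
          have h8 : L * ‖g n * (g v)⁻¹‖ ≤ L * (c * A ^ 2 * (‖g n‖ / L) * S g L v n) :=
            mul_le_mul_of_nonneg_left h6 hL.le
          have h9 : L * (c * A ^ 2 * (‖g n‖ / L) * S g L v n) =
              c * A ^ 2 * S g L v n * ‖g n‖ := by
            field_simp
          rw [h9] at h8
          exact h8
        have h10 : (L / ‖g n‖) ^ 2 ≤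
            (c * A ^ 2 * (2 * (A ^ 2 + M0)) / ‖g n * (g v)⁻¹‖) ^ 2 := by
          have h11 : 0 ≤ L / ‖g n‖ := by positivity
          have h12 : c * A ^ 2 * S g L v n / ‖g n * (g v)⁻¹‖ ≤
              c * A ^ 2 * (2 * (A ^ 2 + M0)) / ‖g n * (g v)⁻¹‖ := by
            gcongr
          exact pow_le_pow_left₀ h11 (h7.trans h12) 2
        rw [S_succ g L hvn.le, Finset.sum_Ico_succ_top hn]
        have h13 : (c * A ^ 2 * (2 * (A ^ 2 + (M0 : ℝ))) / ‖g n * (g v)⁻¹‖) ^ 2 =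
            (A ^ 2 + M0) * (4 * c ^ 2 * A ^ 4 * (A ^ 2 + M0) *
              (1 / ‖g n * (g v)⁻¹‖ ^ 2)) := by
          field_simp
          ring
        rw [h13] at h10
        calc S g L v n + (L / ‖g n‖) ^ 2 ≤
            (A ^ 2 + M0) * (1 + 4 * c ^ 2 * A ^ 4 * (A ^ 2 + M0) *
              ∑ j ∈ Ico (v + M0) n, 1 / ‖g j * (g v)⁻¹‖ ^ 2) +
            (A ^ 2 + M0) * (4 * c ^ 2 * A ^ 4 * (A ^ 2 + M0) *
              (1 / ‖g n * (g v)⁻¹‖ ^ 2)) :=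
              add_le_add h3 h10
          _ = _ := by ring
    have h1 := key m hM.le hvm hmN
    have hsub : ∑ j ∈ Ico (v + M0) m, 1 / ‖g j * (g v)⁻¹‖ ^ 2 ≤
        ∑ j ∈ Ico (v + M0) N, 1 / ‖g j * (g v)⁻¹‖ ^ 2 :=
      Finset.sum_le_sum_of_subset_of_nonneg (Finset.Ico_subset_Ico_right hmN)
        (fun j _ _ => by positivity)
    have h5 : 4 * c ^ 2 * A ^ 4 * (A ^ 2 + M0) *
        ∑ j ∈ Ico (v + M0) m, 1 / ‖g j * (g v)⁻¹‖ ^ 2 ≤ 1 :=
      (mul_le_mul_of_nonneg_left hsub (by positivity)).trans hsum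
    nlinarith

/-- **GEO with an error factor**: `‖g v‖ ≤ c L`, `L ≤ ‖g j‖` in between. -/
theorem geo' {g : ℕ → M2} (hg : ∀ i, (g i).det = 1) {A L c : ℝ} {v N M0 : ℕ} (hM0 : 1 ≤ M0)
    (hstep : ∀ j, v ≤ j → j < N → ‖g (j + 1) * (g j)⁻¹‖ ≤ A) (hL : 0 < L)
    (hv : ‖g v‖ ≤ c * L)
    (hv' : L ≤ A * ‖g v‖) (hlow : ∀ j, v < j → j < N → L ≤ ‖g j‖)
    (hsum : 4 * c ^ 2 * A ^ 4 * (A ^ 2 + M0) *
      ∑ j ∈ Ico (v + M0) N, 1 / ‖g j * (g v)⁻¹‖ ^ 2 ≤ 1)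
    {m : ℕ} (hvm : v < m) (hmN : m ≤ N) :
    ‖g m * (g v)⁻¹‖ ≤ 2 * c * A ^ 2 * (A ^ 2 + M0) * (‖g m‖ / L) := by
  have h1 := transfer_le_S' hg hstep hL hv hvm hmN
  have h2 := S_le' hg hM0 hstep hL hv hv' hlow hsum hvm hmN
  have pm := norm_pos' (hg m)
  have pv := norm_pos' (hg v)
  have hc0 : 0 ≤ c := by
    by_contra hcon
    push Not at hcon
    nlinarith
  calc ‖g m * (g v)⁻¹‖ ≤ c * A ^ 2 * (‖g m‖ / L) * S g L v m := h1
    _ ≤ c * A ^ 2 * (‖g m‖ / L) * (2 * (A ^ 2 + M0)) :=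
        mul_le_mul_of_nonneg_left h2 (by positivity)
    _ = 2 * c * A ^ 2 * (A ^ 2 + M0) * (‖g m‖ / L) := by ring

/-- the constant of the upper half of GEO, in logarithms -/
noncomputable def C0 (A c0 : ℝ) (M0 : ℕ) : ℝ := Real.log (2 * A ^ 2 * (A ^ 2 + M0)) + 4 * c0

/-- **upper half of GEO for the contour**: along the path from a foot, as long as the contour
stays above the level `lam` of the foot and the path is clean, the distance to the foot is at most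
the height above the level, up to the constant `C0`. -/
theorem up {h : ℕ → M2} (hh : ∀ i, (h i).det = 1) {F : ℕ → ℝ} {c0 lam A : ℝ} {n M0 : ℕ}
    (hM0 : 1 ≤ M0) (hF : ∀ m, m ≤ n → |F m - Real.log ‖h m‖| ≤ c0)
    (hstep : ∀ m, m < n → ‖h (m + 1) * (h m)⁻¹‖ ≤ A)
    (hF0 : F 0 ≤ lam) (hmid : ∀ m, 0 < m → m ≤ n → lam ≤ F m)
    (hsum : 4 * Real.exp (2 * c0) ^ 2 * A ^ 4 * (A ^ 2 + M0) *
      ∑ i ∈ Ico M0 n, 1 / ‖h i * (h 0)⁻¹‖ ^ 2 ≤ 1)
    {m : ℕ} (hm : 0 < m) (hmn : m ≤ n) :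
    Real.log ‖h m * (h 0)⁻¹‖ ≤ F m - lam + C0 A c0 M0 := by
  have hn : 0 < n := by omega
  set L : ℝ := Real.exp (lam - c0) with hLdef
  have hL : 0 < L := Real.exp_pos _
  have hnorm : ∀ i, 0 < ‖h i‖ := fun i => norm_pos' (hh i)
  -- the foot
  have e0 : ‖h 0‖ ≤ Real.exp (2 * c0) * L := by
    have h1 := hF 0 (Nat.zero_le _)
    rw [abs_le] at h1
    have h2 : Real.log ‖h 0‖ ≤ 2 * c0 + (lam - c0) := by linarith [h1.1]
    rw [hLdef, ← Real.exp_add]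
    rw [← Real.exp_log (hnorm 0)]
    exact Real.exp_le_exp.mpr h2
  have elow : ∀ j, 0 < j → j ≤ n → L ≤ ‖h j‖ := by
    intro j hj hjn
    have h1 := hF j hjn
    rw [abs_le] at h1
    have h2 := hmid j hj hjn
    have h3 : lam - c0 ≤ Real.log ‖h j‖ := by linarith [h1.2]
    rw [hLdef, ← Real.exp_log (hnorm j)]
    exact Real.exp_le_exp.mpr h3
  have hA0 : 0 < A := lt_of_lt_of_le (norm_pos' (det_mul_inv (hh 1) (hh 0))) (hstep 0 hn)
  have e0' : L ≤ A * ‖h 0‖ := by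
    have h1 := le_transfer hh 0 1
    have h2 := hstep 0 hn
    exact (elow 1 one_pos hn).trans (h1.trans (mul_le_mul_of_nonneg_right h2 (hnorm 0).le))
  have h3 := geo' hh (v := 0) (N := n) hM0 (fun j _ hj => hstep j hj) hL e0 e0'
    (fun j hj hjn => elow j hj hjn.le) (by rw [zero_add]; exact hsum) hm hmn
  have hpos : 0 < ‖h m * (h 0)⁻¹‖ := norm_pos' (det_mul_inv (hh m) (hh 0))
  have h4 := Real.log_le_log hpos h3
  have hM0' : (0 : ℝ) < (M0 : ℝ) := by exact_mod_cast hM0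
  have h5 : Real.log (2 * Real.exp (2 * c0) * A ^ 2 * (A ^ 2 + M0) * (‖h m‖ / L)) =
      Real.log (2 * A ^ 2 * (A ^ 2 + M0)) + 2 * c0 + (Real.log ‖h m‖ - (lam - c0)) := by
    have e1 : 2 * Real.exp (2 * c0) * A ^ 2 * (A ^ 2 + M0) * (‖h m‖ / L) =
        (2 * A ^ 2 * (A ^ 2 + M0)) * Real.exp (2 * c0) * (‖h m‖ / L) := by ring
    rw [e1, Real.log_mul (by positivity) (by have := hnorm m; positivity),
      Real.log_mul (by positivity) (by positivity), Real.log_exp,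
      Real.log_div (hnorm m).ne' hL.ne', hLdef, Real.log_exp]
  rw [h5] at h4
  have h6 := hF m hmn
  rw [abs_le] at h6
  unfold C0
  linarith [h6.1]

/-- **lower half** -/
theorem low {h : ℕ → M2} (hh : ∀ i, (h i).det = 1) {F : ℕ → ℝ} {c0 lam : ℝ} {n : ℕ}
    (hF : ∀ m, m ≤ n → |F m - Real.log ‖h m‖| ≤ c0) (hF0 : F 0 ≤ lam) :
    F n - lam ≤ Real.log ‖h n * (h 0)⁻¹‖ + 2 * c0 := by
  have hnorm : ∀ i, 0 < ‖h i‖ := fun i => norm_pos' (hh i)
  have hpos : 0 < ‖h n * (h 0)⁻¹‖ := norm_pos' (det_mul_inv (hh n) (hh 0))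
  have h1 := Real.log_le_log (hnorm n) (le_transfer hh 0 n)
  rw [Real.log_mul hpos.ne' (hnorm 0).ne'] at h1
  have h2 := hF 0 (Nat.zero_le _)
  have h3 := hF n le_rfl
  rw [abs_le] at h2 h3
  linarith [h2.1, h3.2]

/-- **the drop**: a violation of `(c2)` along the path gives a relative drop of the contour. -/
theorem drop {h : ℕ → M2} (hh : ∀ i, (h i).det = 1) {F : ℕ → ℝ} {c0 lam A : ℝ} {n M0 : ℕ}
    (hM0 : 1 ≤ M0) (hF : ∀ m, m ≤ n → |F m - Real.log ‖h m‖| ≤ c0)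
    (hstep : ∀ m, m < n → ‖h (m + 1) * (h m)⁻¹‖ ≤ A)
    (hF0 : F 0 ≤ lam) (hmid : ∀ m, 0 < m → m ≤ n → lam ≤ F m)
    (hsum : 4 * Real.exp (2 * c0) ^ 2 * A ^ 4 * (A ^ 2 + M0) *
      ∑ i ∈ Ico M0 n, 1 / ‖h i * (h 0)⁻¹‖ ^ 2 ≤ 1)
    {Wi Wn C2 d D : ℝ} {i : ℕ} (hi : 0 < i) (hin : i ≤ n) (hWi : Wi ≤ ‖h i * (h 0)⁻¹‖)
    (hWi1 : 1 ≤ Wi) (hWn : 0 < Wn) (hC2 : 0 < C2) (hn2 : ‖h n * (h 0)⁻¹‖ ≤ C2 * Wn)
    (hd0 : 0 ≤ d) (hd1 : d ≤ 1) (hviol : Wn ≤ Wi ^ (1 - d))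
    (hD : D + C0 A c0 M0 ≤ Real.log Wi)
    (hbig : (1 - d) * C0 A c0 M0 + Real.log C2 + 2 * c0 ≤ d / 2 * (Real.log Wi - C0 A c0 M0)) :
    ∃ a, 0 < a ∧ a ≤ n ∧ (∀ m, 0 < m → m ≤ n → F m ≤ F a) ∧ D ≤ F a - lam ∧
      F n ≤ F a - d / 2 * (F a - lam) := by
  obtain ⟨a, ha, hmax⟩ := Finset.exists_max_image (Finset.Ioc 0 n) F ⟨i, by simp [hi, hin]⟩
  rw [Finset.mem_Ioc] at ha
  have hmax' : ∀ m, 0 < m → m ≤ n → F m ≤ F a := fun m h1 h2 => hmax m (by simp [h1, h2])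
  have hWi0 : 0 < Wi := by linarith
  have hpi : 0 < ‖h i * (h 0)⁻¹‖ := norm_pos' (det_mul_inv (hh i) (hh 0))
  have h1 := up hh hM0 hF hstep hF0 hmid hsum hi hin
  have h2 : Real.log Wi ≤ F i - lam + C0 A c0 M0 :=
    (Real.log_le_log hWi0 hWi).trans h1
  have h3 := low hh hF hF0
  have h4 : Real.log ‖h n * (h 0)⁻¹‖ ≤ Real.log C2 + Real.log Wn := by
    rw [← Real.log_mul hC2.ne' hWn.ne']
    exact Real.log_le_log (norm_pos' (det_mul_inv (hh n) (hh 0))) hn2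
  have h5 : Real.log Wn ≤ (1 - d) * Real.log Wi := by
    rw [← Real.log_rpow hWi0]
    exact Real.log_le_log hWn hviol
  have h6 : F i ≤ F a := hmax' i hi hin
  refine ⟨a, ha.1, ha.2, hmax', by linarith, ?_⟩
  have h7 : (1 - d) * Real.log Wi ≤ (1 - d) * (F a - lam + C0 A c0 M0) :=
    mul_le_mul_of_nonneg_left (by linarith) (by linarith)
  have h8 : d / 2 * (Real.log Wi - C0 A c0 M0) ≤ d / 2 * (F a - lam) :=
    mul_le_mul_of_nonneg_left (by linarith) (by linarith)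
  nlinarith

/-- **V1-5, right foot.**  A closed component `(i, j; l)` with top `T`, seen from its right foot
`j`; `W m ≤ ‖A_{j-m → j}‖`; the path is clean up to `n` (through `hsum`), `(c2)` is violated at
`n ≤ j - T` with respect to `p`; then there is a valley of relative depth `d/2` on `(T, j)`. -/
theorem valR {f : ℕ → ℝ} {g : ℕ → M2} (hg : ∀ i, (g i).det = 1) {κ c0 A : ℝ}
    {N i j T : ℕ} {l : ℤ} (hf : ∀ m, m ≤ N → |f m - Real.log ‖g m‖| ≤ c0)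
    (hstep : ∀ m, m < N → ‖g (m + 1) * (g m)⁻¹‖ ≤ A)
    (hc : Cmp f κ N i j l) (hiT : i < T) (hTj : T < j) (hmax : ∀ m, i < m → m < j → f m ≤ f T)
    {M0 n p : ℕ} (hM0 : 1 ≤ M0) (hnT : n ≤ j - T)
    (hsum : 4 * Real.exp (2 * c0) ^ 2 * A ^ 4 * (A ^ 2 + M0) *
      ∑ m ∈ Ico M0 n, 1 / ‖g j * (g (j - m))⁻¹‖ ^ 2 ≤ 1)
    {W : ℕ → ℝ} {C2 d D : ℝ} (hp : 0 < p) (hpn : p ≤ n)
    (hWp : W p ≤ ‖g j * (g (j - p))⁻¹‖) (hWp1 : 1 ≤ W p) (hWn : 0 < W n) (hC2 : 0 < C2)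
    (hn2 : ‖g j * (g (j - n))⁻¹‖ ≤ C2 * W n)
    (hd0 : 0 < d) (hd1 : d ≤ 1) (hviol : W n ≤ W p ^ (1 - d)) (hD0 : 0 < D)
    (hD : D + C0 A c0 M0 ≤ Real.log (W p))
    (hbig : (1 - d) * C0 A c0 M0 + Real.log C2 + 2 * c0 ≤
      d / 2 * (Real.log (W p) - C0 A c0 M0)) :
    ValR f κ (d / 2) D T j l := by
  have hjN := hc.le
  obtain ⟨a, ha0, han, hamax, haD, hdrop⟩ := drop (h := fun m => g (j - m))
    (F := fun m => f (j - m)) (c0 := c0) (lam := l * κ) (A := A) (n := n) (M0 := M0)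
    (fun _ => hg _) hM0 (fun m _ => hf (j - m) (by omega))
    (fun m hm => by
      have h1 := hstep (j - (m + 1)) (by omega)
      have h2 : j - (m + 1) + 1 = j - m := by omega
      rw [h2] at h1
      rw [norm_symm (hg _) (hg _)]
      exact h1)
    (by simpa using hc.fj)
    (fun m hm hmn => by
      rcases Nat.lt_or_ge i (j - m) with h1 | h1
      · exact (hc.mid (j - m) h1 (by omega)).le
      · omega)
    (by
      have h3 : ∑ m ∈ Ico M0 n, 1 / ‖g (j - m) * (g (j - 0))⁻¹‖ ^ 2 =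
          ∑ m ∈ Ico M0 n, 1 / ‖g j * (g (j - m))⁻¹‖ ^ 2 := by
        apply Finset.sum_congr rfl
        intro m _
        rw [Nat.sub_zero, norm_symm (hg _) (hg _)]
      rw [h3]
      exact hsum)
    (Wi := W p) (Wn := W n) (C2 := C2) (d := d) (D := D) hp hpn
    (by rw [Nat.sub_zero, norm_symm (hg _) (hg _)]; exact hWp) hWp1 hWn hC2
    (by rw [Nat.sub_zero, norm_symm (hg _) (hg _)]; exact hn2) hd0.le hd1 hviol hD hbig
  have hTn : f T ≤ f (j - n) → False := by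
    intro h1
    have h2 := hmax (j - a) (by omega) (by omega)
    have h3 : 0 < f (j - a) - l * κ := lt_of_lt_of_le hD0 haD
    have h4 : 0 < d / 2 * (f (j - a) - l * κ) := by positivity
    linarith
  have hne : T ≠ j - n := fun h => hTn (by rw [← h])
  refine ⟨j - n, j - a, by omega, by omega, by omega, ?_, haD, hdrop⟩
  intro m h1 h2
  have h3 := hamax (j - m) (by omega) (by omega)
  have h4 : j - (j - m) = m := by omega
  rw [h4] at h3
  exact h3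

/-- **V1-5, left foot.** -/
theorem valL {f : ℕ → ℝ} {g : ℕ → M2} (hg : ∀ i, (g i).det = 1) {κ c0 A : ℝ}
    {N i j T : ℕ} {l : ℤ} (hf : ∀ m, m ≤ N → |f m - Real.log ‖g m‖| ≤ c0)
    (hstep : ∀ m, m < N → ‖g (m + 1) * (g m)⁻¹‖ ≤ A)
    (hc : Cmp f κ N i j l) (hiT : i < T) (hTj : T < j) (hmax : ∀ m, i < m → m < j → f m ≤ f T)
    {M0 n p : ℕ} (hM0 : 1 ≤ M0) (hnT : n ≤ T - i)
    (hsum : 4 * Real.exp (2 * c0) ^ 2 * A ^ 4 * (A ^ 2 + M0) *
      ∑ m ∈ Ico M0 n, 1 / ‖g (i + m) * (g i)⁻¹‖ ^ 2 ≤ 1)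
    {W : ℕ → ℝ} {C2 d D : ℝ} (hp : 0 < p) (hpn : p ≤ n)
    (hWp : W p ≤ ‖g (i + p) * (g i)⁻¹‖) (hWp1 : 1 ≤ W p) (hWn : 0 < W n) (hC2 : 0 < C2)
    (hn2 : ‖g (i + n) * (g i)⁻¹‖ ≤ C2 * W n)
    (hd0 : 0 < d) (hd1 : d ≤ 1) (hviol : W n ≤ W p ^ (1 - d)) (hD0 : 0 < D)
    (hD : D + C0 A c0 M0 ≤ Real.log (W p))
    (hbig : (1 - d) * C0 A c0 M0 + Real.log C2 + 2 * c0 ≤
      d / 2 * (Real.log (W p) - C0 A c0 M0)) :
    ValL f κ (d / 2) D T i l := by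
  have hjN := hc.le
  obtain ⟨a, ha0, han, hamax, haD, hdrop⟩ := drop (h := fun m => g (i + m))
    (F := fun m => f (i + m)) (c0 := c0) (lam := l * κ) (A := A) (n := n) (M0 := M0)
    (fun _ => hg _) hM0 (fun m _ => hf (i + m) (by omega))
    (fun m hm => hstep (i + m) (by omega))
    (by simpa using hc.fi)
    (fun m hm hmn => (hc.mid (i + m) (by omega) (by omega)).le)
    (by rw [Nat.add_zero]; exact hsum)
    (Wi := W p) (Wn := W n) (C2 := C2) (d := d) (D := D) hp hpn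
    (by rw [Nat.add_zero]; exact hWp) hWp1 hWn hC2
    (by rw [Nat.add_zero]; exact hn2) hd0.le hd1 hviol hD hbig
  have hTn : f T ≤ f (i + n) → False := by
    intro h1
    have h2 := hmax (i + a) (by omega) (by omega)
    have h3 : 0 < f (i + a) - l * κ := lt_of_lt_of_le hD0 haD
    have h4 : 0 < d / 2 * (f (i + a) - l * κ) := by positivity
    linarith
  have hne : T ≠ i + n := fun h => hTn (by rw [← h])
  refine ⟨i + n, i + a, by omega, by omega, by omega, ?_, haD, hdrop⟩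
  intro m h1 h2
  have h3 := hamax (m - i) (by omega) (by omega)
  have h4 : i + (m - i) = m := by omega
  rw [h4] at h3
  exact h3

end Crest.Agent.R128.FootG
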