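import Mathlib
import Crest.Agent.R128.FootG
import Crest.Agent.R128.ValClean
import Crest.Agent.R128.HypInst
import Crest.Agent.R128.Link
import Crest.Agent.R128.Skel
import Crest.Agent.R128.Good
import Crest.Agent.R128.Rev

/-!
# Row 128, V5-BRIDGE, second implementation (helper882)

Two fresh levels `l` and `l' = l - 84 .. l - 90` of the root contour with the same first top `t`
give the intrinsic very fresh event `Good.G` at `(T k)^[t] z`.
-/

set_option autoImplicit false
open scoped Matrix.Norms.L2Operator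
open Matrix Finset
open Crest.AnalysisR.StandardFamily

namespace Crest.Agent.R128.Bridge882

open Crest.Agent.R128 Crest.Agent.R128.TreeSum Crest.Agent.R128.Acc Crest.Agent.R128.Lam0
open Crest.Agent.R128.Hyp Crest.Agent.R128.ValNorm

/-! ## consequences of validity -/

section val

variable {k : ℝ} {L0 n : ℕ} {u : Tor}

theorem val_c1 (h : Skel.Val k 1000 L0 u n) {L : ℕ} (hL : L ≤ L0) (hLn : L ≤ n) :
    ∀ m, m < L → k ^ (2 / 3 : ℝ) ≤ |V k ((T k)^[m] u).2| :=
  fun m hm => h.cl m (by omega) (by omega)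

/-- growth through the first digits -/
theorem val_growth (hk : 100 ≤ k) (h : Skel.Val k 1000 L0 u n) {m : ℕ} (hm : m ≤ L0)
    (hmn : m ≤ n) : (k ^ (1 / 2 : ℝ)) ^ m ≤ W k u m := by
  have h1 := W_pow (ValD.three hk) (val_c1 h hm hmn) (le_refl m)
  have h2 := beta_ge hk
  have h3 := ten_le hk
  exact (pow_le_pow_left₀ (by linarith) (by linarith) m).trans h1

/-- beyond 1000 steps the field is at least `k ^ 400` and `j ^ 2` -/
theorem val_far (hk : 100 ≤ k) (hL0 : 1000 ≤ L0) (h : Skel.Val k 1000 L0 u n) {j : ℕ}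
    (hj : 1000 ≤ j) (hjn : j ≤ n) : k ^ 400 ≤ W k u j ∧ (j : ℝ) ^ 2 ≤ W k u j := by
  have hk0 : 0 < k := by linarith
  have hk1 : 1 ≤ k := by linarith
  have h1 := val_growth hk h hL0 (hj.trans hjn)
  have e1 : (k ^ (1 / 2 : ℝ)) ^ 1000 = k ^ 500 := by
    rw [← Real.rpow_natCast, ← Real.rpow_mul hk0.le, ← Real.rpow_natCast k 500]
    norm_num
  rw [e1] at h1
  have hW0 : 0 ≤ W k u j := W_nonneg k u j
  constructor
  · have h2 := h.v2 1000 j le_rfl hj hjn
    have h3 : (k ^ 500) ^ 999 ≤ W k u j ^ 1000 :=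
      (pow_le_pow_left₀ (by positivity) h1 999).trans h2
    have h4 : (k ^ 400) ^ 1000 ≤ W k u j ^ 1000 := by
      refine le_trans ?_ h3
      rw [← pow_mul, ← pow_mul]
      exact pow_le_pow_right₀ hk1 (by norm_num)
    exact le_of_pow_le_pow_left₀ (by norm_num) hW0 h4
  · obtain ⟨i, hi1, hi2, hi3⟩ := h.v3 j hj hjn
    have h2 := h.v2 i j hi1 hi2 hjn
    have hj1 : (1 : ℝ) ≤ j := by exact_mod_cast (by omega : 1 ≤ j)
    have h3 : ((j : ℝ) ^ (4 * 1000)) ^ 999 ≤ W k u j ^ 1000 :=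
      (pow_le_pow_left₀ (by positivity) hi3 999).trans h2
    have h4 : ((j : ℝ) ^ 2) ^ 1000 ≤ W k u j ^ 1000 := by
      refine le_trans ?_ h3
      rw [← pow_mul, ← pow_mul]
      exact pow_le_pow_right₀ hj1 (by norm_num)
    exact le_of_pow_le_pow_left₀ (by norm_num) hW0 h4

/-- the sum of GEO -/
theorem val_sum (hk : 10000 ≤ k) (hL0 : 1000 ≤ L0) (h : Skel.Val k 1000 L0 u n)
    {d : ℕ → ℝ} (hd : ∀ m, m ≤ n → W k u m ≤ d m) :
    4 * Real.exp (2 * Real.log 2) ^ 2 * (8 * k) ^ 4 * ((8 * k) ^ 2 + (1000 : ℕ)) *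
      ∑ i ∈ Ico 1000 n, 1 / d i ^ 2 ≤ 1 := by
  have hk0 : 0 < k := by linarith
  have h1 : ∑ i ∈ Ico (0 + 1000) n, 1 / d i ^ 2 ≤ 2 / k ^ 8 := by
    apply Geo.sum_of_clean (by norm_num) (by positivity)
    · intro j hj hjn
      have h2 := (val_far (by linarith) hL0 h (by omega : 1000 ≤ j) hjn.le).1
      have h3 : k ^ 8 ≤ k ^ 400 := pow_le_pow_right₀ (by linarith) (by norm_num)
      exact h3.trans (h2.trans (hd j hjn.le))
    · intro j hj hjn
      have h2 := (val_far (by linarith) hL0 h (by omega : 1000 ≤ j) hjn.le).2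
      rw [Nat.sub_zero]
      exact h2.trans (hd j hjn.le)
  rw [Nat.zero_add] at h1
  have e1 : Real.exp (2 * Real.log 2) = 4 := by
    rw [show 2 * Real.log 2 = Real.log 2 + Real.log 2 by ring, Real.exp_add, Real.exp_log (by norm_num)]
    norm_num
  rw [e1]
  have h2 : 4 * (4 : ℝ) ^ 2 * (8 * k) ^ 4 * ((8 * k) ^ 2 + (1000 : ℕ)) ≤ 2 * 10 ^ 7 * k ^ 6 := by
    push_cast
    have h3 : (1000 : ℝ) ≤ k ^ 2 := by nlinarith
    have h4 : (0 : ℝ) ≤ k ^ 4 := by positivity
    nlinarith [mul_le_mul_of_nonneg_left h3 h4]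
  have h0 : 0 ≤ ∑ i ∈ Ico 1000 n, 1 / d i ^ 2 := Finset.sum_nonneg fun i _ => by positivity
  calc 4 * (4 : ℝ) ^ 2 * (8 * k) ^ 4 * ((8 * k) ^ 2 + (1000 : ℕ)) * ∑ i ∈ Ico 1000 n, 1 / d i ^ 2
      ≤ (2 * 10 ^ 7 * k ^ 6) * (2 / k ^ 8) := by
        apply mul_le_mul h2 h1 h0 (by positivity)
    _ = 4 * 10 ^ 7 / k ^ 2 := by
        have : k ^ 8 = k ^ 6 * k ^ 2 := by ring
        rw [this]
        field_simp
        ring
    _ ≤ 1 := by
        rw [div_le_one (by positivity)]
        nlinarith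

theorem C0_le (hk : 10 ^ 10 ≤ k) :
    FootG.C0 (8 * k) (Real.log 2) 1000 + 3 ≤ 5 * Real.log k := by
  have hk0 : 0 < k := by linarith
  unfold FootG.C0
  have h1 : 2 * (8 * k) ^ 2 * ((8 * k) ^ 2 + ((1000 : ℕ) : ℝ)) ≤ 10 ^ 4 * k ^ 4 := by
    push_cast
    have h3 : (1000 : ℝ) ≤ k ^ 2 := by nlinarith
    have h4 : (0 : ℝ) ≤ k ^ 2 := by positivity
    nlinarith [mul_le_mul_of_nonneg_left h3 h4]
  have h2 := Real.log_le_log (by positivity) h1
  have h2' : Real.log (10 ^ 4 * k ^ 4) = 4 * Real.log 10 + 4 * Real.log k := by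
    rw [Real.log_mul (by norm_num) (by positivity), Real.log_pow, Real.log_pow]
    norm_num
  rw [h2'] at h2
  have h3 : 10 * Real.log 10 ≤ Real.log k := by
    rw [show 10 * Real.log 10 = Real.log (10 ^ 10) by rw [Real.log_pow]; norm_num]
    exact Real.log_le_log (by norm_num) hk
  have h4 : 3 * Real.log 2 ≤ Real.log 10 := by
    rw [show 3 * Real.log 2 = Real.log (2 ^ 3) by rw [Real.log_pow]; norm_num]
    exact Real.log_le_log (by norm_num) (by norm_num)
  have h5 := Real.log_two_gt_d9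
  linarith

/-- **GEO for a valid start**: the transfer is bounded by the height above the level -/
theorem geo_up (hk : 10 ^ 10 ≤ k) (hL0 : 1000 ≤ L0) (h : Skel.Val k 1000 L0 u n)
    {g : ℕ → M2} (hg : ∀ i, (g i).det = 1) {F : ℕ → ℝ} {lam : ℝ}
    (hF : ∀ m, m ≤ n → |F m - Real.log ‖g m‖| ≤ Real.log 2)
    (hstep : ∀ m, m < n → ‖g (m + 1) * (g m)⁻¹‖ ≤ 8 * k)
    (hgu : ∀ m, m ≤ n → Real.log ‖g m * (g 0)⁻¹‖ = Real.log ‖Mn k m u‖)
    (hF0 : F 0 ≤ lam) (hmid : ∀ m, 0 < m → m ≤ n → lam ≤ F m) {m : ℕ} (hm : 0 < m) (hmn : m ≤ n) :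
    Real.log ‖Mn k m u‖ + 3 ≤ F m - lam + 5 * Real.log k := by
  have hnorm : ∀ m, m ≤ n → ‖g m * (g 0)⁻¹‖ = ‖Mn k m u‖ := by
    intro m hm
    have h1 := hgu m hm
    have p1 : 0 < ‖g m * (g 0)⁻¹‖ := Chain.norm_pos' (det_mul_inv (hg m) (hg 0))
    have p2 : 0 < ‖Mn k m u‖ := Chain.norm_pos' (det_Mn k m u)
    rw [← Real.exp_log p1, h1, Real.exp_log p2]
  have h1 := FootG.up hg (by norm_num : 1 ≤ 1000) hF hstep hF0 hmid
    (val_sum (by linarith) hL0 h (d := fun i => ‖g i * (g 0)⁻¹‖) (fun m hm => by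
      show W k u m ≤ ‖g m * (g 0)⁻¹‖
      rw [hnorm m hm]
      exact W_le_l2 k u m)) hm hmn
  rw [hgu m hmn] at h1
  have h2 := C0_le hk
  linarith

/-- number of steps to a foot of moderately small depth -/
theorem steps_le (hk : 10 ^ 10 ≤ k) (hL0 : 1000 ≤ L0) (h : Skel.Val k 1000 L0 u n) {m : ℕ}
    (hmn : m ≤ n) (hle : Real.log ‖Mn k m u‖ ≤ 96 * Real.log k) : m ≤ 192 := by
  have hk0 : 0 < k := by linarith
  have hlk : 0 < Real.log k := Real.log_pos (by linarith)
  have hW := W_le_l2 k u m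
  rcases Nat.lt_or_ge m 1000 with hlt | hge
  · have h1 := val_growth (by linarith) h (hlt.le.trans hL0) hmn
    have h2 : Real.log ((k ^ (1 / 2 : ℝ)) ^ m) ≤ Real.log ‖Mn k m u‖ :=
      Real.log_le_log (by positivity) (h1.trans hW)
    rw [Real.log_pow, Real.log_rpow hk0] at h2
    have h3 : (m : ℝ) * (1 / 2 * Real.log k) ≤ 96 * Real.log k := h2.trans hle
    have h4 : (m : ℝ) ≤ 192 := by
      by_contra hc
      push Not at hc
      nlinarith
    exact_mod_cast h4
  · exfalso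
    have h1 := (val_far (by linarith) hL0 h hge hmn).1
    have h2 : Real.log (k ^ 400) ≤ Real.log ‖Mn k m u‖ :=
      Real.log_le_log (by positivity) (h1.trans hW)
    rw [Real.log_pow] at h2
    push_cast at h2
    linarith

theorem cval_of_val (hk : 100 ≤ k) (hL0 : 1000 ≤ L0) (h : Skel.Val k 1000 L0 u n) {n' : ℕ}
    (hn : n' ≤ n) : Good.CVal k L0 u n' where
  cl := fun m h1 h2 => h.cl m h1 (by omega)
  v2 := by
    intro i j hi hij hj
    have h1 := h.v2 i j (by omega) hij (by omega)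
    have h2 : 1 ≤ ‖fld k u i‖ := by
      have h3 := (val_far hk hL0 h (by omega : 1000 ≤ i) (by omega)).1
      have h5 : (1 : ℝ) ≤ k ^ 400 := one_le_pow₀ (by linarith)
      exact h5.trans h3
    have h1' : ‖fld k u i‖ ^ 999 ≤ ‖fld k u j‖ ^ 1000 := h1
    have h5 : ‖fld k u i‖ ^ 990 ≤ ‖fld k u i‖ ^ 999 := pow_le_pow_right₀ h2 (by norm_num)
    have h4 : (‖fld k u i‖ ^ 99) ^ 10 ≤ (‖fld k u j‖ ^ 100) ^ 10 := by
      rw [← pow_mul, ← pow_mul]
      norm_num
      exact h5.trans h1'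
    exact le_of_pow_le_pow_left₀ (by norm_num) (pow_nonneg (norm_nonneg _) _) h4
  v3 := by
    intro j hj hjn
    refine ⟨j, hj, le_rfl, ?_⟩
    obtain ⟨i, hi1, hi2, hi3⟩ := h.v3 j (by omega) (by omega)
    have h2 := h.v2 i j hi1 hi2 (by omega)
    have hj1 : (1 : ℝ) ≤ j := by exact_mod_cast (by omega : 1 ≤ j)
    have h3 : ((j : ℝ) ^ (4 * 1000)) ^ 999 ≤ ‖fld k u j‖ ^ 1000 :=
      (pow_le_pow_left₀ (by positivity) hi3 999).trans h2
    have h4 : ((j : ℝ) ^ 400) ^ 1000 ≤ ‖fld k u j‖ ^ 1000 := by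
      refine le_trans ?_ h3
      rw [← pow_mul, ← pow_mul]
      exact pow_le_pow_right₀ hj1 (by norm_num)
    exact le_of_pow_le_pow_left₀ (by norm_num) (by positivity) h4

end val

/-! ## the two sides of the root orbit -/

theorem step_norm {k : ℝ} (hk : 2 ≤ k) (z : Tor) (n : ℕ) :
    ‖Mn k (n + 1) z * (Mn k n z)⁻¹‖ ≤ 8 * k := by
  have e : Mn k (n + 1) z * (Mn k n z)⁻¹ = Am k ((T k)^[n] z) := by
    rw [Mn_succ', Matrix.mul_assoc, Matrix.mul_nonsing_inv _ (by rw [det_Mn]; exact isUnit_one),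
      Matrix.mul_one]
  rw [e]
  exact HypInst.norm_Am_le' hk _

theorem step_norm' {k : ℝ} (hk : 2 ≤ k) (z : Tor) (n : ℕ) :
    ‖Mn k n z * (Mn k (n + 1) z)⁻¹‖ ≤ 8 * k := by
  rw [Chain.norm_symm (det_Mn k _ z) (det_Mn k _ z)]
  exact step_norm hk z n

/-- one step of the contour -/
theorem bz_step {k : ℝ} (hk : 1000 ≤ k) (z : Tor) (n : ℕ) :
    |Close.bz k z (n + 1) - Close.bz k z n| ≤ 2 * Real.log k := by
  have h1 := HypInst.bt_dist k z n
  have h2 := HypInst.bt_dist k z (n + 1)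
  have H := HypInst.hyp_inst (by linarith : 4 ≤ k) z
  have h3 := H.step n
  have h4 := H.tri 0 n (n + 1)
  have h5 := H.tri 0 (n + 1) n
  rw [H.symm (n + 1) n] at h5
  have h6 : Real.log (8 * k) = 3 * Real.log 2 + Real.log k := by
    rw [Real.log_mul (by norm_num) (by linarith), show (8 : ℝ) = 2 ^ 3 by norm_num, Real.log_pow]
    norm_num
  have h7 : 9 * Real.log 2 ≤ Real.log k := by
    rw [show 9 * Real.log 2 = Real.log (2 ^ 9) by rw [Real.log_pow]; norm_num]
    exact Real.log_le_log (by norm_num) (by norm_num; linarith)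
  rw [abs_le] at h1 h2
  unfold Close.bz
  rw [abs_le]
  have hl2 : 0 < Real.log 2 := Real.log_pos one_lt_two
  constructor <;> linarith [h1.1, h1.2, h2.1, h2.2]

theorem bz_step_iter {k : ℝ} (hk : 1000 ≤ k) (z : Tor) (n m : ℕ) :
    |Close.bz k z (n + m) - Close.bz k z n| ≤ m * (2 * Real.log k) := by
  induction m with
  | zero => simp
  | succ m ih =>
    have h := bz_step hk z (n + m)
    have e : Close.bz k z (n + (m + 1)) - Close.bz k z n =
        (Close.bz k z (n + m + 1) - Close.bz k z (n + m)) +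
          (Close.bz k z (n + m) - Close.bz k z n) := by
      rw [show n + (m + 1) = n + m + 1 by omega]
      ring
    rw [e]
    push_cast
    refine (abs_add_le _ _).trans ?_
    linarith

theorem T_fst (k : ℝ) (z : Tor) : (T k z).1 = z.2 := rfl

theorem Rev_eq (k : ℝ) (z : Tor) : DictY.Rev k z = (T k z).swap := rfl

section sides

variable {k : ℝ} {L0 N : ℕ} {z : Tor} {i t j l : ℕ}

/-- transfer from the right foot back to the top and beyond -/
theorem right_up (hk : 10 ^ 10 ≤ k) (hL0 : 1000 ≤ L0)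
    (hc : Close.Cmp (Close.bz k z) (Real.log k) N i t j l)
    (h : Skel.Val k 1000 L0 ((T k)^[j] z).swap (j - t)) {m : ℕ} (hm : 0 < m) (hmn : m ≤ j - t) :
    Real.log ‖Mn k m ((T k)^[j] z).swap‖ + 3 ≤
      Close.bz k z (j - m) - l * Real.log k + 5 * Real.log k := by
  have htj := hc.tj
  have hit := hc.it
  refine geo_up hk hL0 h (g := fun m => Mn k (j - m) z) (F := fun m => Close.bz k z (j - m))
    (fun _ => det_Mn k _ z) (fun m hm => ?_) (fun m hm => ?_) (fun m hm => ?_) ?_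
    (fun m h1 h2 => ?_) hm hmn
  · have := HypInst.bt_dist k z (j - m)
    rw [HypInst.dist_zero] at this
    exact this
  · have h1 := step_norm' (by linarith : 2 ≤ k) z (j - (m + 1))
    rw [show j - (m + 1) + 1 = j - m by omega] at h1
    exact h1
  · have h1 := Dd_sub k z (show m ≤ j by omega)
    exact h1
  · simpa using hc.right
  · exact (hc.above (j - m) (by omega) (by omega)).le

/-- transfer from the left foot forward -/
theorem left_up (hk : 10 ^ 10 ≤ k) (hL0 : 1000 ≤ L0)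
    (hc : Close.Cmp (Close.bz k z) (Real.log k) N i t j l)
    (h : Skel.Val k 1000 L0 ((T k)^[i] z) (t - i)) {m : ℕ} (hm : 0 < m) (hmn : m ≤ t - i) :
    Real.log ‖Mn k m ((T k)^[i] z)‖ + 3 ≤
      Close.bz k z (i + m) - l * Real.log k + 5 * Real.log k := by
  have htj := hc.tj
  have hit := hc.it
  refine geo_up hk hL0 h (g := fun m => Mn k (i + m) z) (F := fun m => Close.bz k z (i + m))
    (fun _ => det_Mn k _ z) (fun m hm => ?_) (fun m hm => ?_) (fun m hm => ?_) ?_
    (fun m h1 h2 => ?_) hm hmn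
  · have := HypInst.bt_dist k z (i + m)
    rw [HypInst.dist_zero] at this
    exact this
  · exact step_norm (by linarith : 2 ≤ k) z (i + m)
  · have h1 := Dd_add k z i m
    exact h1
  · simpa using hc.left
  · exact (hc.above (i + m) (by omega) (by omega)).le

/-- digits before the right foot -/
theorem right_digit {n' : ℕ} (h : Skel.Val k 1000 L0 ((T k)^[j] z).swap n') {p : ℕ} (hpj : p < j)
    (h1 : j - 1 - p < L0) (h2 : j - 1 - p < n') : k ^ (2 / 3 : ℝ) ≤ |V k ((T k)^[p] z).2| := by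
  have h3 := h.cl (j - 1 - p) h1 h2
  rw [Rev.iter_swap, Tinv_iter_T_iter k (by omega), show j - (j - 1 - p) = p + 1 by omega,
    Function.iterate_succ_apply'] at h3
  exact h3

/-- digits after the left foot -/
theorem left_digit {n' : ℕ} (h : Skel.Val k 1000 L0 ((T k)^[i] z) n') {p : ℕ} (hpi : i ≤ p)
    (h1 : p - i < L0) (h2 : p - i < n') : k ^ (2 / 3 : ℝ) ≤ |V k ((T k)^[p] z).2| := by
  have h3 := h.cl (p - i) h1 h2
  rw [← Function.iterate_add_apply, show p - i + i = p by omega] at h3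
  exact h3

/-- the transfer from the top to the right foot, forward orientation -/
theorem right_norm (hk : 10 ^ 10 ≤ k) (hL0 : 1000 ≤ L0)
    (hc : Close.Cmp (Close.bz k z) (Real.log k) N i t j l)
    (h : Skel.Val k 1000 L0 ((T k)^[j] z).swap (j - t)) :
    Real.log ‖Mn k (j - t) ((T k)^[t] z)‖ + 3 ≤
      Close.bz k z t - l * Real.log k + 5 * Real.log k := by
  have htj := hc.tj
  have h1 := right_up hk hL0 hc h (m := j - t) (by omega) le_rfl
  rw [l2_swap_orbit k (by omega : j - t ≤ j), show j - (j - t) = t by omega] at h1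
  exact h1

/-- two fresh levels: number of steps, right side -/
theorem right_steps (hk : 10 ^ 10 ≤ k) (hL0 : 1000 ≤ L0)
    (hc : Close.Cmp (Close.bz k z) (Real.log k) N i t j l) {i' j' l' : ℕ}
    (hc' : Close.Cmp (Close.bz k z) (Real.log k) N i' t j' l') (hl1 : l' + 3 ≤ l)
    (hl2 : l ≤ l' + 90) (h' : Skel.Val k 1000 L0 ((T k)^[j'] z).swap (j' - t)) :
    j < j' ∧ j' - j ≤ 192 := by
  have hlk : 0 < Real.log k := Real.log_pos (by linarith)
  have hll : (l' : ℝ) + 3 ≤ l := by exact_mod_cast hl1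
  have hll2 : (l : ℝ) ≤ l' + 90 := by exact_mod_cast hl2
  have h1 : j ≤ j' := by
    by_contra hc1
    push Not at hc1
    have h2 := hc.above j' (hc.it.trans hc'.tj) hc1
    have h3 := hc'.right
    nlinarith
  have h2 : j ≠ j' := by
    intro he
    have h3 := hc.above (j - 1) (by have := hc.it; have := hc.tj; omega) (by have := hc.tj; omega)
    have h4 := hc'.right
    rw [← he] at h4
    have h5 := bz_step (by linarith : (1000 : ℝ) ≤ k) z (j - 1)
    rw [show j - 1 + 1 = j by have := hc.tj; omega, abs_le] at h5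
    rcases Nat.eq_or_lt_of_le (show t ≤ j - 1 by have := hc.tj; omega) with h6 | h6
    · nlinarith [h5.1, h5.2]
    · nlinarith [h5.1, h5.2]
  have h3 : j < j' := lt_of_le_of_ne h1 h2
  refine ⟨h3, ?_⟩
  have htj := hc.tj
  have h4 := right_up hk hL0 hc' h' (m := j' - j) (by omega) (by omega)
  rw [show j' - (j' - j) = j by omega] at h4
  have h5 := hc.right
  refine steps_le hk hL0 h' (by omega) ?_
  nlinarith

/-- two fresh levels: number of steps, left side -/
theorem left_steps (hk : 10 ^ 10 ≤ k) (hL0 : 1000 ≤ L0)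
    (hc : Close.Cmp (Close.bz k z) (Real.log k) N i t j l) {i' j' l' : ℕ}
    (hc' : Close.Cmp (Close.bz k z) (Real.log k) N i' t j' l') (hl1 : l' + 3 ≤ l)
    (hl2 : l ≤ l' + 90) (h' : Skel.Val k 1000 L0 ((T k)^[i'] z) (t - i')) :
    i' < i ∧ i - i' ≤ 192 := by
  have hlk : 0 < Real.log k := Real.log_pos (by linarith)
  have hll : (l' : ℝ) + 3 ≤ l := by exact_mod_cast hl1
  have hll2 : (l : ℝ) ≤ l' + 90 := by exact_mod_cast hl2
  have hit := hc.it
  have h1 : i' ≤ i := by
    by_contra hc1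
    push Not at hc1
    have h2 := hc.above i' hc1 (hc'.it.trans hc.tj)
    have h3 := hc'.left
    nlinarith
  have h2 : i ≠ i' := by
    intro he
    have h3 := hc.above (i + 1) (by omega) (by have := hc.tj; omega)
    have h4 := hc'.left
    rw [← he] at h4
    have h5 := bz_step (by linarith : (1000 : ℝ) ≤ k) z i
    rw [abs_le] at h5
    nlinarith [h5.1, h5.2]
  have h3 : i' < i := by omega
  refine ⟨h3, ?_⟩
  have h4 := left_up hk hL0 hc' h' (m := i - i') (by omega) (by omega)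
  rw [show i' + (i - i') = i by omega] at h4
  have h5 := hc.left
  refine steps_le hk hL0 h' (by omega) ?_
  nlinarith

/-- depth at least `2 m log k` : at least `m` steps -/
theorem steps_ge_right (hk : 1000 ≤ k) (hc : Close.Cmp (Close.bz k z) (Real.log k) N i t j l)
    {m : ℕ} (hm : m * (2 * Real.log k) ≤ Close.bz k z t - l * Real.log k) : m ≤ j - t := by
  have hlk : 0 < Real.log k := Real.log_pos (by linarith)
  have h1 := bz_step_iter hk z t (j - t)
  rw [show t + (j - t) = j by have := hc.tj; omega, abs_le] at h1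
  have h2 := hc.right
  by_contra hcon
  push Not at hcon
  have h3 : ((j - t : ℕ) : ℝ) + 1 ≤ m := by exact_mod_cast hcon
  nlinarith [h1.1]

theorem steps_ge_left (hk : 1000 ≤ k) (hc : Close.Cmp (Close.bz k z) (Real.log k) N i t j l)
    {m : ℕ} (hm : m * (2 * Real.log k) ≤ Close.bz k z t - l * Real.log k) : m ≤ t - i := by
  have hlk : 0 < Real.log k := Real.log_pos (by linarith)
  have h1 := bz_step_iter hk z i (t - i)
  rw [show i + (t - i) = t by have := hc.it; omega, abs_le] at h1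
  have h2 := hc.left
  by_contra hcon
  push Not at hcon
  have h3 : ((t - i : ℕ) : ℝ) + 1 ≤ m := by exact_mod_cast hcon
  nlinarith [h1.2]

end sides

end Crest.Agent.R128.Bridge882
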