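import Mathlib
import Crest.Agent.R128.LongX
import Crest.Agent.R128.Rev

/-!
# Row 128: a first violation of the duration clause of `Skel.Val` is a `LONG` event (helper892)
-/

set_option autoImplicit false
open MeasureTheory Filter Topology Finset
open scoped ENNReal

namespace Crest.Agent.R128.LongVal

open Crest.Agent.R128.TreeSum Crest.Agent.R128.Acc Crest.Agent.R128.Lam0 Crest.Agent.R128.Long
  Crest.Agent.R128.LongX

theorem pow_relax {a b : ℝ} (ha : 1 ≤ a) (hb : 0 ≤ b) (h : a ^ 99 ≤ b ^ 100) : a ^ 89 ≤ b ^ 90 := by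
  have h1 : (a ^ 89) ^ 10 ≤ (b ^ 90) ^ 10 := by
    have ha0 : 0 ≤ a := le_trans zero_le_one ha
    calc (a ^ 89) ^ 10 = a ^ 890 := by rw [← pow_mul]
      _ ≤ a ^ 891 := pow_le_pow_right₀ ha (by norm_num)
      _ = (a ^ 99) ^ 9 := by rw [← pow_mul]
      _ ≤ (b ^ 100) ^ 9 := pow_le_pow_left₀ (pow_nonneg (le_trans zero_le_one ha) _) h 9
      _ = (b ^ 90) ^ 10 := by rw [← pow_mul, ← pow_mul]
  exact le_of_pow_le_pow_left₀ (by norm_num) (pow_nonneg hb _) h1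

/-- size at time `L ≥ 1000` after `L` regular digits -/
theorem big_L {k : ℝ} {L : ℕ} {z : Tor} (hk : (64:ℝ) ≤ k) (hL : 1000 ≤ L)
    (cl : ∀ m, m < L → k ^ ((2 : ℝ) / 3) ≤ |V k ((T k)^[m] z).2|) : k ^ 500 ≤ ‖fld k z L‖ := by
  refine le_trans ?_ (base_norm hk cl)
  rw [← Real.rpow_natCast]
  apply Real.rpow_le_rpow_of_exponent_le (by linarith)
  have : (1000:ℝ) ≤ L := by exact_mod_cast hL
  push_cast
  linarith

/-- clean up to `n` implies relaxed valid up to `n` -/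
theorem RV_of_val {k : ℝ} {L : ℕ} {z : Tor} {n : ℕ} (hk : (64:ℝ) ≤ k) (hL : 1000 ≤ L)
    (cl : ∀ m, m < L → k ^ ((2 : ℝ) / 3) ≤ |V k ((T k)^[m] z).2|)
    (v2 : ∀ a b, L ≤ a → a ≤ b → b ≤ n → ‖fld k z a‖ ^ 99 ≤ ‖fld k z b‖ ^ 100)
    (v3 : ∀ b, L ≤ b → b ≤ n → ∃ i, L ≤ i ∧ i ≤ b ∧ (b : ℝ) ^ 400 ≤ ‖fld k z i‖) : RV k L z n := by
  have hb := big_L hk hL cl
  have hk500 : (1:ℝ) ≤ k ^ 500 := one_le_pow₀ (by linarith)
  have hge : ∀ a, L ≤ a → a ≤ n → 1 ≤ ‖fld k z a‖ := by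
    intro a ha ha'
    have h1 := v2 L a le_rfl ha ha'
    have h2 : (1:ℝ) ≤ ‖fld k z a‖ ^ 100 := by
      refine le_trans ?_ h1
      exact one_le_pow₀ (hk500.trans hb)
    by_contra hc
    push Not at hc
    have := pow_lt_one₀ (norm_nonneg (fld k z a)) hc (n := 100) (by norm_num)
    linarith
  refine ⟨hb, fun a b ha hab hbn => ?_, fun b hb1 hb2 => ?_⟩
  · exact pow_relax (hge a ha (hab.trans hbn)) (norm_nonneg _) (v2 a b ha hab hbn)
  · obtain ⟨i, h1, h2, h3⟩ := v3 b hb1 hb2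
    exact ⟨i, h1, h2, h3.trans (by linarith [norm_nonneg (fld k z i)])⟩

/-- **a first violation of the duration clause is a `LONG` event** -/
theorem LONG_of_first {k : ℝ} {L : ℕ} {z : Tor} {j : ℕ} (hk : (64:ℝ) ≤ k) (hkL : 8 * (L:ℝ) ≤ k)
    (hL : 1000 ≤ L) (cl : ∀ m, m < L → k ^ ((2 : ℝ) / 3) ≤ |V k ((T k)^[m] z).2|) (hj : L ≤ j)
    (v2 : ∀ a b, L ≤ a → a ≤ b → b ≤ j - 1 → ‖fld k z a‖ ^ 99 ≤ ‖fld k z b‖ ^ 100)
    (v3 : ∀ b, L ≤ b → b ≤ j - 1 → ∃ i, L ≤ i ∧ i ≤ b ∧ (b : ℝ) ^ 400 ≤ ‖fld k z i‖)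
    (viol : ∀ i, L ≤ i → i ≤ j → ‖fld k z i‖ < (j : ℝ) ^ 400) : LONG k L z j := by
  have hb := big_L hk hL cl
  have hk0 : (0:ℝ) < k := by linarith
  have hlt := hb.trans_lt (viol L le_rfl hj)
  have hkj : k < (j:ℝ) := by
    by_contra hc
    push Not at hc
    have h1 : (j:ℝ) ^ 400 ≤ k ^ 400 := pow_le_pow_left₀ (Nat.cast_nonneg _) hc _
    have h2 : k ^ 400 ≤ k ^ 500 := pow_le_pow_right₀ (by linarith) (by norm_num)
    linarith
  refine ⟨?_, fun i hi hij => ?_, RV_of_val hk hL cl v2 v3⟩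
  · have : ((8 * L : ℕ) : ℝ) ≤ (j:ℝ) := by push_cast; linarith
    exact_mod_cast this
  · have := viol i hi hij.le
    have h0 : (0:ℝ) ≤ (j:ℝ) ^ 400 := by positivity
    linarith

/-- area of the long events, forward -/
theorem volume_LG {k : ℝ} (hk : (10:ℝ) ^ 4 ≤ k) {L : ℕ} (hL : 3 ≤ L) :
    volume {z : Tor | ∃ m, LONG k L z m} ≤ ENNReal.ofReal (16 * L / k) := area_LONG hk hL

/-- area of the long events, backward -/
theorem volume_bw_LG {k : ℝ} (hk : (10:ℝ) ^ 4 ≤ k) {L : ℕ} (hL : 3 ≤ L) :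
    volume {z : Tor | z.swap ∈ {z : Tor | ∃ m, LONG k L z m}} ≤ ENNReal.ofReal (16 * L / k) := by
  exact (le_of_eq (Rev.volume_preimage_swap {z : Tor | ∃ m, LONG k L z m})).trans (area_LONG hk hL)

theorem measurableSet_LONG (k : ℝ) (L : ℕ) : MeasurableSet {z : Tor | ∃ m, LONG k L z m} := by
  have e : {z : Tor | ∃ m, LONG k L z m} = ⋃ (m : ℕ) (_ : 8 * L ≤ m),
      ((⋂ (i : ℕ) (_ : L ≤ i) (_ : i < m), {z | ‖fld k z i‖ ≤ 2 * (m : ℝ) ^ 400}) ∩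
      {z | RV k L z (m - 1)}) := by
    ext z
    simp only [Set.mem_inter_iff, Set.mem_ofPred_eq, Set.mem_iInter, Set.mem_iUnion, exists_prop]
    constructor
    · rintro ⟨m, a, b, c⟩
      exact ⟨m, a, b, c⟩
    · rintro ⟨m, a, b, c⟩
      exact ⟨m, a, b, c⟩
  rw [e]
  refine MeasurableSet.iUnion fun m => MeasurableSet.iUnion fun _ => ?_
  refine MeasurableSet.inter ?_ (measurable_RV k L (m - 1))
  exact MeasurableSet.iInter fun i => MeasurableSet.iInter fun _ => MeasurableSet.iInter fun _ =>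
      measurableSet_le (measurable_nf k i) measurable_const

end Crest.Agent.R128.LongVal
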