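import Crest.Agent.R128.GeoSharp
import Crest.Agent.R128.HypInst
import Crest.Agent.R128.ValNorm2
import Crest.Agent.R128.Link
import Crest.Agent.R128.LongVal
import Crest.Agent.R128.Skel

/-!
# Row 128 (helper587): lower bound of the root field at a fresh foot (`Good.Side.lo`)
-/

set_option autoImplicit false

open scoped Matrix.Norms.L2Operator
open Matrix Finset

namespace Crest.Agent.R128.FootLo

open Crest.Agent.R128 Crest.Agent.R128.Hyp Crest.Agent.R128.Chain Crest.Agent.R128.Geo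
open Crest.Agent.R128.GeoSharp Crest.Agent.R128.Acc Crest.Agent.R128.Lam0 Crest.Agent.R128.TreeSum
open Crest.Agent.R128.Two Crest.Agent.R128.AlignMn

/-- lower bounds of the field of a fresh start -/
theorem fld_lower {k : ℝ} {L0 : ℕ} {y : Tor} {n : ℕ} (hk : (64 : ℝ) ≤ k) (hL : 1000 ≤ L0)
    (h : Skel.Val k 1000 L0 y n) {a : ℕ} (ha : 1000 ≤ a) (han : a ≤ n) :
    k ^ 100 ≤ ‖fld k y a‖ ∧ (a : ℝ) ^ 2 ≤ ‖fld k y a‖ := by
  have hk1 : (1 : ℝ) ≤ k := by linarith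
  have hbig := LongVal.big_L (k := k) (L := 1000) (z := y) hk le_rfl
    (fun m hm => h.cl m (by omega) (by omega))
  have hf0 : 0 ≤ ‖fld k y a‖ := norm_nonneg _
  constructor
  · by_contra hc
    push Not at hc
    have h1 := h.v2 1000 a le_rfl ha han
    have h2 : ‖fld k y a‖ ^ 1000 < (k ^ 100) ^ 1000 := pow_lt_pow_left₀ hc hf0 (by norm_num)
    have h3 : (k ^ 500) ^ 999 ≤ ‖fld k y 1000‖ ^ (1000 - 1) := pow_le_pow_left₀ (by positivity) hbig _
    have h4 : (k ^ 100) ^ 1000 ≤ (k ^ 500) ^ 999 := by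
      rw [← pow_mul, ← pow_mul]
      exact pow_le_pow_right₀ hk1 (by norm_num)
    linarith
  · by_contra hc
    push Not at hc
    obtain ⟨i, hi1, hi2, hi3⟩ := h.v3 a ha han
    have h1 := h.v2 i a hi1 hi2 han
    have ha1 : (1 : ℝ) ≤ (a : ℝ) := by exact_mod_cast (by omega : 1 ≤ a)
    have h2 : ‖fld k y a‖ ^ 1000 < ((a : ℝ) ^ 2) ^ 1000 := pow_lt_pow_left₀ hc hf0 (by norm_num)
    have h3 : ((a : ℝ) ^ (4 * 1000)) ^ 999 ≤ ‖fld k y i‖ ^ (1000 - 1) :=
      pow_le_pow_left₀ (by positivity) hi3 _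
    have h4 : ((a : ℝ) ^ 2) ^ 1000 ≤ ((a : ℝ) ^ (4 * 1000)) ^ 999 := by
      rw [← pow_mul, ← pow_mul]
      exact pow_le_pow_right₀ ha1 (by norm_num)
    linarith

theorem exp_le_norm (k : ℝ) (n : ℕ) (z : Tor) {Lr : ℝ} (h : Lr < bt (rr k z) n) :
    Real.exp Lr / 2 ≤ ‖Mn k n z‖ := by
  have h1 := (abs_le.1 (NestedInst.near_bt k n z)).2
  have hp := one_le_norm (det_Mn k n z)
  have h2 : Lr - Real.log 2 ≤ Real.log ‖Mn k n z‖ := by linarith
  have h3 := Real.exp_le_exp.mpr h2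
  rw [Real.exp_log (by linarith), Real.exp_sub, Real.exp_log (by norm_num)] at h3
  exact h3

theorem norm_le_exp (k : ℝ) (n : ℕ) (z : Tor) {Lr : ℝ} (h : bt (rr k z) n ≤ Lr) :
    ‖Mn k n z‖ ≤ 2 * Real.exp Lr := by
  have h1 := (abs_le.1 (NestedInst.near_bt k n z)).1
  have hp := one_le_norm (det_Mn k n z)
  have h2 : Real.log ‖Mn k n z‖ ≤ Real.log 2 + Lr := by linarith
  have h3 := Real.exp_le_exp.mpr h2
  rw [Real.exp_log (by linarith), Real.exp_add, Real.exp_log (by norm_num)] at h3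
  exact h3

theorem step_le {k : ℝ} (hk : 2 ≤ k) (z : Tor) (n : ℕ) :
    ‖Mn k (n + 1) z * (Mn k n z)⁻¹‖ ≤ 8 * k := by
  have e : Mn k (n + 1) z * (Mn k n z)⁻¹ = Am k ((T k)^[n] z) := by
    rw [Mn_succ', Matrix.mul_assoc, Matrix.mul_nonsing_inv _ (by rw [det_Mn]; exact isUnit_one),
      Matrix.mul_one]
  rw [e]
  exact HypInst.norm_Am_le' hk _

theorem quot_eq (k : ℝ) (z : Tor) {i j : ℕ} (h : i ≤ j) :
    Mn k j z * (Mn k i z)⁻¹ = Mn k (j - i) ((T k)^[i] z) := by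
  have e : Mn k j z = Mn k (j - i) ((T k)^[i] z) * Mn k i z := by
    rw [← Mn_add]
    congr 1
    omega
  rw [e, Matrix.mul_assoc, Matrix.mul_nonsing_inv _ (by rw [det_Mn]; exact isUnit_one),
    Matrix.mul_one]

theorem fld_le_norm (k : ℝ) (z : Tor) (m : ℕ) : ‖fld k z m‖ ≤ ‖Mn k m z‖ :=
  ValNorm.W_le_l2 k z m

theorem numeric {k S : ℝ} (hk : (64 : ℝ) ≤ k) (hS : S ≤ 2 / k ^ 100) :
    (8 * k) * ((8 * k) * (1 + 4 * ((1000 : ℕ) + 1))) ^ 2 * S ≤ 1 := by
  have hk0 : 0 < k := by linarith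
  have h97 : (64 : ℝ) ^ 97 ≤ k ^ 97 := pow_le_pow_left₀ (by norm_num) hk 97
  have h1 : (8 * k) * ((8 * k) * (1 + 4 * ((1000 : ℕ) + 1))) ^ 2 * S ≤
      (8 * k) * ((8 * k) * (1 + 4 * ((1000 : ℕ) + 1))) ^ 2 * (2 / k ^ 100) :=
    mul_le_mul_of_nonneg_left hS (by positivity)
  refine h1.trans ?_
  rw [mul_div_assoc', div_le_one (by positivity)]
  have e : k ^ 100 = k ^ 97 * k ^ 3 := by ring
  rw [e]
  have h3 : (8 * k) * ((8 * k) * (1 + 4 * ((1000 : ℕ) + 1))) ^ 2 * 2 =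
      (16 * (8 * (1 + 4 * ((1000 : ℕ) + 1))) ^ 2 : ℝ) * k ^ 3 := by ring
  rw [h3]
  apply mul_le_mul_of_nonneg_right _ (by positivity)
  refine le_trans ?_ h97
  norm_num

/-- forward: left foot `i`, top `t` -/
theorem norm_left {k : ℝ} {L0 : ℕ} {z : Tor} {i t : ℕ} {Lr : ℝ} (hk : (64 : ℝ) ≤ k) (hL : 1000 ≤ L0)
    (hit : i < t) (h : Skel.Val k 1000 L0 ((T k)^[i] z) (t - i)) (hi : bt (rr k z) i ≤ Lr)
    (hlow : ∀ m, i < m → m ≤ t → Lr < bt (rr k z) m) :
    ‖Mn k (t - i) ((T k)^[i] z)‖ ≤ 128160 * k * Real.exp (bt (rr k z) t - Lr) := by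
  have hk0 : 0 < k := by linarith
  have hd : ∀ j, i + 1000 ≤ j → j < t → k ^ 100 ≤ ‖Mn k j z * (Mn k i z)⁻¹‖ ∧
      ((j - i : ℕ) : ℝ) ^ 2 ≤ ‖Mn k j z * (Mn k i z)⁻¹‖ := by
    intro j h1 h2
    rw [quot_eq k z (by omega : i ≤ j)]
    have h3 := fld_lower hk hL h (a := j - i) (by omega) (by omega)
    have h4 := fld_le_norm k ((T k)^[i] z) (j - i)
    exact ⟨h3.1.trans h4, h3.2.trans h4⟩
  have hsum := sum_of_clean (d := fun j => ‖Mn k j z * (Mn k i z)⁻¹‖) (D0 := k ^ 100) (v := i)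
    (N := t) (M0 := 1000) (by norm_num) (by positivity) (fun j h1 h2 => (hd j h1 h2).1)
    (fun j h1 h2 => (hd j h1 h2).2)
  have hE : 0 < Real.exp Lr := Real.exp_pos _
  have key := geo_sharp (g := fun n => Mn k n z) (fun n => det_Mn k n z) (A := 8 * k)
    (L := Real.exp Lr / 2) (c := 4) (K := (8 * k) * (1 + 4 * ((1000 : ℕ) + 1))) (v := i) (N := t)
    (M0 := 1000) (by linarith) (by norm_num) (by norm_num)
    (fun j _ _ => step_le (by linarith) z j) (by positivity)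
    (by
      have := norm_le_exp k i z hi
      linarith) (fun j h1 h2 => exp_le_norm k j z (hlow j h1 h2))
    (numeric hk hsum) hit le_rfl

  rw [quot_eq k z hit.le] at key
  refine key.trans ?_
  have h5 := norm_le_exp k t z (le_refl (bt (rr k z) t))
  rw [Real.exp_sub]
  calc (8 * k) * (1 + 4 * ((1000 : ℕ) + 1)) * (‖Mn k t z‖ / (Real.exp Lr / 2))
      ≤ (8 * k) * (1 + 4 * ((1000 : ℕ) + 1)) * ((2 * Real.exp (bt (rr k z) t)) / (Real.exp Lr / 2)) := by
        gcongr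
    _ = 128160 * k * (Real.exp (bt (rr k z) t) / Real.exp Lr) := by
        push_cast
        field_simp
        ring

/-- backward: right foot `j`, top `t` -/
theorem norm_right {k : ℝ} {L0 : ℕ} {z : Tor} {t j : ℕ} {Lr : ℝ} (hk : (64 : ℝ) ≤ k) (hL : 1000 ≤ L0)
    (htj : t < j) (h : Skel.Val k 1000 L0 ((T k)^[j] z).swap (j - t)) (hj : bt (rr k z) j ≤ Lr)
    (hlow : ∀ m, t ≤ m → m < j → Lr < bt (rr k z) m) :
    ‖Mn k (j - t) ((T k)^[t] z)‖ ≤ 128160 * k * Real.exp (bt (rr k z) t - Lr) := by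
  have hk0 : 0 < k := by linarith
  set g' : ℕ → M2 := fun m => Mn k (j - m) z with hg'
  have hdet : ∀ m, (g' m).det = 1 := fun m => det_Mn k _ z
  have hquot : ∀ m, m ≤ j → ‖g' m * (g' 0)⁻¹‖ = ‖Mn k m ((T k)^[j] z).swap‖ := by
    intro m hm
    simp only [hg', Nat.sub_zero]
    rw [norm_symm (det_Mn k _ z) (det_Mn k _ z), quot_eq k z (Nat.sub_le j m),
      ValNorm.l2_swap_orbit k hm]
    congr 2
    omega
  have hd : ∀ m, 0 + 1000 ≤ m → m < j - t → k ^ 100 ≤ ‖g' m * (g' 0)⁻¹‖ ∧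
      ((m - 0 : ℕ) : ℝ) ^ 2 ≤ ‖g' m * (g' 0)⁻¹‖ := by
    intro m h1 h2
    rw [hquot m (by omega), Nat.sub_zero]
    have h3 := fld_lower hk hL h (a := m) (by omega) (by omega)
    have h4 := fld_le_norm k ((T k)^[j] z).swap m
    exact ⟨h3.1.trans h4, h3.2.trans h4⟩
  have hsum := sum_of_clean (d := fun m => ‖g' m * (g' 0)⁻¹‖) (D0 := k ^ 100) (v := 0)
    (N := j - t) (M0 := 1000) (by norm_num) (by positivity) (fun m h1 h2 => (hd m h1 h2).1)
    (fun m h1 h2 => (hd m h1 h2).2)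
  have hE : 0 < Real.exp Lr := Real.exp_pos _
  have key := geo_sharp (g := g') hdet (A := 8 * k)
    (L := Real.exp Lr / 2) (c := 4) (K := (8 * k) * (1 + 4 * ((1000 : ℕ) + 1))) (v := 0) (N := j - t)
    (M0 := 1000) (by linarith) (by norm_num) (by norm_num)
    (by
      intro m _ hm
      have h1 := step_le (k := k) (by linarith) z (j - (m + 1))
      have h2 : j - (m + 1) + 1 = j - m := by omega
      rw [h2] at h1
      simp only [hg']
      rw [norm_symm (det_Mn k _ z) (det_Mn k _ z)]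
      exact h1) (by positivity)
    (by
      have := norm_le_exp k j z hj
      simp only [hg', Nat.sub_zero]
      linarith) (fun m h1 h2 => exp_le_norm k (j - m) z (hlow (j - m) (by omega) (by omega)))
    (numeric hk hsum) (by omega : 0 < j - t) le_rfl
  rw [hquot (j - t) (by omega)] at key
  rw [ValNorm.l2_swap_orbit k (by omega : j - t ≤ j)] at key
  have e1 : j - (j - t) = t := by omega
  simp only [hg', e1] at key
  refine key.trans ?_
  have h5 := norm_le_exp k t z (le_refl (bt (rr k z) t))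
  rw [Real.exp_sub]
  calc (8 * k) * (1 + 4 * ((1000 : ℕ) + 1)) * (‖Mn k t z‖ / (Real.exp Lr / 2))
      ≤ (8 * k) * (1 + 4 * ((1000 : ℕ) + 1)) * ((2 * Real.exp (bt (rr k z) t)) / (Real.exp Lr / 2)) := by
        gcongr
    _ = 128160 * k * (Real.exp (bt (rr k z) t) / Real.exp Lr) := by
        push_cast
        field_simp
        ring

/-- a unit field transported by a matrix of determinant one -/
theorem field_ge {M : M2} (hM : M.det = 1) {a b a' b' : ℝ} (h : act M (a, b) = (a', b'))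
    (hb : |b| = 1) : 1 ≤ ‖M‖ * (2 * max |a'| |b'|) := by
  have h1 : act M⁻¹ (a', b') = (a, b) := by
    rw [← h, ← act_mul, Matrix.nonsing_inv_mul _ (by rw [hM]; exact isUnit_one)]
    simp [act]
  have h2 := ValNorm.nn_act_le M⁻¹ a' b'
  rw [h1, ninv hM] at h2
  have h3 : |b| ≤ nn (a, b) := by
    unfold nn
    apply Real.le_sqrt_of_sq_le
    simp only [sq_abs]
    nlinarith [sq_nonneg a]
  have h4 := nn_le_add (a', b')
  simp only at h4
  have h5 : nn (a', b') ≤ 2 * max |a'| |b'| := by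
    have := le_max_left |a'| |b'|
    have := le_max_right |a'| |b'|
    linarith
  rw [hb] at h3
  exact h3.trans (h2.trans (mul_le_mul_of_nonneg_left h5 (norm_nonneg _)))

theorem field_ge' {M : M2} {a b a' b' : ℝ} (h : act M (a', b') = (a, b))
    (hb : |b| = 1) : 1 ≤ ‖M‖ * (2 * max |a'| |b'|) := by
  have h2 := ValNorm.nn_act_le M a' b'
  rw [h] at h2
  have h3 : |b| ≤ nn (a, b) := by
    unfold nn
    apply Real.le_sqrt_of_sq_le
    simp only [sq_abs]
    nlinarith [sq_nonneg a]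
  have h4 := nn_le_add (a', b')
  simp only at h4
  have h5 : nn (a', b') ≤ 2 * max |a'| |b'| := by
    have := le_max_left |a'| |b'|
    have := le_max_right |a'| |b'|
    linarith
  rw [hb] at h3
  exact h3.trans (h2.trans (mul_le_mul_of_nonneg_left h5 (norm_nonneg _)))

theorem conclude {k E M mx : ℝ} (hk : (10 : ℝ) ^ 6 ≤ k) (hM : M ≤ 128160 * k * Real.exp E) (hmx : 0 ≤ mx)
    (h : 1 ≤ M * (2 * mx)) : Real.exp (-E - 2 * Real.log k) ≤ mx := by
  have hk0 : 0 < k := by linarith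
  have hE := Real.exp_pos E
  have h1 : 1 ≤ 128160 * k * Real.exp E * (2 * mx) :=
    h.trans (mul_le_mul_of_nonneg_right hM (by linarith))
  have e : Real.exp (-E - 2 * Real.log k) = 1 / (Real.exp E * k ^ 2) := by
    rw [Real.exp_sub, Real.exp_neg, two_mul, Real.exp_add, Real.exp_log hk0]
    field_simp
  rw [e, div_le_iff₀ (by positivity)]
  refine h1.trans ?_
  have h2 : 256320 * k ≤ k ^ 2 := by nlinarith
  calc 128160 * k * Real.exp E * (2 * mx) = (256320 * k) * (Real.exp E * mx) := by ring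
    _ ≤ k ^ 2 * (Real.exp E * mx) := mul_le_mul_of_nonneg_right h2 (by positivity)
    _ = mx * (Real.exp E * k ^ 2) := by ring

/-- **lower bound of the root field at a fresh right foot** -/
theorem lo_right {k : ℝ} {L0 : ℕ} {z : Tor} {t j : ℕ} {Lr : ℝ} {x : ℤ → ℝ} (hk : (10 : ℝ) ^ 6 ≤ k)
    (hL : 1000 ≤ L0) (htj : t < j) (h : Skel.Val k 1000 L0 ((T k)^[j] z).swap (j - t))
    (hj : bt (rr k z) j ≤ Lr) (hlow : ∀ m, t ≤ m → m < j → Lr < bt (rr k z) m)
    (hx : ∀ n, x (n + 1) = dz k ((T k)^[t] z) n * x n - x (n - 1)) (h0 : |x 0| = 1) :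
    Real.exp (-(bt (rr k z) t - Lr) - 2 * Real.log k) ≤
      max |x (((j - t : ℕ) : ℤ) - 1)| |x ((j - t : ℕ) : ℤ)| := by
  have h1 := norm_right (by linarith) hL htj h hj hlow
  refine conclude hk h1 (le_max_of_le_left (abs_nonneg _)) ?_
  have e1 := act_Az k ((T k)^[t] z) (x (-1), x 0) ((j - t : ℕ) : ℤ)
  rw [← eq_xf hx, ← eq_xf hx, Az_natCast] at e1
  exact field_ge (det_Mn k _ _) e1 h0

/-- **lower bound of the root field at a fresh left foot** -/
theorem lo_left {k : ℝ} {L0 : ℕ} {z : Tor} {i t : ℕ} {Lr : ℝ} {x : ℤ → ℝ} (hk : (10 : ℝ) ^ 6 ≤ k)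
    (hL : 1000 ≤ L0) (hit : i < t) (h : Skel.Val k 1000 L0 ((T k)^[i] z) (t - i))
    (hi : bt (rr k z) i ≤ Lr) (hlow : ∀ m, i < m → m ≤ t → Lr < bt (rr k z) m)
    (hx : ∀ n, x (n + 1) = dz k ((T k)^[t] z) n * x n - x (n - 1)) (h0 : |x 0| = 1) :
    Real.exp (-(bt (rr k z) t - Lr) - 2 * Real.log k) ≤
      max |x (-((t - i : ℕ) : ℤ) - 1)| |x (-((t - i : ℕ) : ℤ))| := by
  have h1 := norm_left (by linarith) hL hit h hi hlow
  refine conclude hk h1 (le_max_of_le_left (abs_nonneg _)) ?_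
  have e1 := act_Az k ((T k)^[t] z) (x (-1), x 0) (-((t - i : ℕ) : ℤ))
  rw [← eq_xf hx, ← eq_xf hx] at e1
  have e2 : Tz k (-((t - i : ℕ) : ℤ)) ((T k)^[t] z) = (T k)^[i] z := by
    have : (T k)^[t] z = Tz k ((t - i : ℕ) : ℤ) ((T k)^[i] z) := by
      rw [Tz_natCast, ← Function.iterate_add_apply]
      congr 1
      omega
    rw [this, Tz_neg_cancel]
  have e3 : act (Mn k (t - i) ((T k)^[i] z)) (x (-((t - i : ℕ) : ℤ) - 1), x (-((t - i : ℕ) : ℤ))) =
      (x (-1), x 0) := by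
    rw [← e1, ← Az_natCast, ← e2, ← act_mul, ← Az_add]
    rw [add_neg_cancel, Az_zero]
    simp [act]
  exact field_ge' e3 h0

end Crest.Agent.R128.FootLo
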