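import Mathlib
import Crest.Agent.R128.Skel
import Crest.Agent.R128.PayArea

/-!
# Row 128, V5-FINAL, second implementation (helper422)

`Skel.V5` from an abstract family `G k L n` of good events: measurability, the local hull bound
(`LocH`) and the bridge from runs of fresh levels (`BridgeD`).
-/

set_option autoImplicit false
open MeasureTheory Filter Topology Finset
open scoped ENNReal NNReal

namespace Crest.Agent.R128.V5FinX

open Crest.Agent.R128.Acc Crest.Agent.R128.AccRoot Crest.Agent.R128.Lam0 Crest.Agent.R128.Close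
open Crest.Agent.R128.Skel Crest.Agent.R128.PayArea Crest.Agent.R128.Iter

/-- local hull bound on the dyadic cells of the fibres -/
def LocH (G : ℝ → ℕ → ℕ → Set Tor) (E : ℕ) : Prop :=
  ∃ L1 : ℕ, ∀ L, L1 ≤ L → ∃ q : ℝ, 0 < q ∧ q < 1 ∧ ∃ k1 : ℝ, ∀ k, k1 ≤ k →
    ∀ (c : UnitAddCircle) (n g : ℕ) (m : ℤ), |V k c| ≤ 2 → k ^ E ≤ 2 ^ g →
      volume (hull (n + g) {t | t ∈ cell n m ∧ ((t : UnitAddCircle), c) ∈ G k L n} ∩ cell n m) ≤
        ENNReal.ofReal q * volume (cell n m)

/-- run of fresh depths `[r, r + R0]` below the top `t` ⇒ good at the dyadic levels of depth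
about `r + a` -/
def BridgeD (G : ℝ → ℕ → ℕ → Set Tor) (R0 a : ℕ) : Prop :=
  ∃ L1 : ℕ, ∀ L, L1 ≤ L → ∃ Q1 : ℕ, ∃ k1 : ℝ, ∀ k, k1 ≤ k → ∀ (z : Tor) (t N r n : ℕ), Q1 ≤ r →
    r + R0 < mt (bz k z) (Real.log k) N t →
    (∀ s, r ≤ s → s ≤ r + R0 → ¬ nf k L N z t (lv k z t s)) →
    (r + a : ℝ) * Real.log k ≤ n * Real.log 2 → n * Real.log 2 ≤ (r + a + 1 : ℝ) * Real.log k →
    (T k)^[t] z ∈ G k L n

/-- counting: disjoint windows -/
theorem card_windows {S R0 Q I : ℕ} (hS : R0 < S) (hI : I * S ≤ 15 * Q) (p : ℕ → Prop)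
    [DecidablePred p] :
    I ≤ #{i ∈ range I | ∀ r, Q + i * S ≤ r → r ≤ Q + i * S + R0 → ¬ p r} +
      #{r ∈ Ico Q (16 * Q) | p r} := by
  classical
  set A := {i ∈ range I | ∀ r, Q + i * S ≤ r → r ≤ Q + i * S + R0 → ¬ p r} with hA
  set B := {r ∈ Ico Q (16 * Q) | p r} with hB
  have h1 : #(range I \ A) ≤ #B := by
    have hex : ∀ i ∈ range I \ A, ∃ r, Q + i * S ≤ r ∧ r ≤ Q + i * S + R0 ∧ p r := by
      intro i hi
      rw [Finset.mem_sdiff, hA, mem_filter] at hi
      by_contra hc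
      push Not at hc
      exact hi.2 ⟨hi.1, fun r h1 h2 => hc r h1 h2⟩
    choose! f hf using hex
    refine card_le_card_of_injOn f ?_ ?_
    · intro i hi
      obtain ⟨h2, h3, h4⟩ := hf i hi
      rw [Finset.mem_coe, Finset.mem_sdiff, mem_range] at hi
      rw [hB, Finset.mem_coe, mem_filter, mem_Ico]
      refine ⟨⟨by nlinarith, ?_⟩, h4⟩
      have h5 : (i + 1) * S ≤ I * S := Nat.mul_le_mul_right S hi.1
      have h6 : (i + 1) * S = i * S + S := by ring
      omega
    · intro i hi j hj hij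
      obtain ⟨h2, h3, -⟩ := hf i hi
      obtain ⟨h2', h3', -⟩ := hf j hj
      rw [hij] at h2 h3
      by_contra hne
      rcases Nat.lt_or_gt_of_ne hne with h7 | h7
      · have h8 : (i + 1) * S ≤ j * S := Nat.mul_le_mul_right S h7
        have h6 : (i + 1) * S = i * S + S := by ring
        omega
      · have h8 : (j + 1) * S ≤ i * S := Nat.mul_le_mul_right S h7
        have h6 : (j + 1) * S = j * S + S := by ring
        omega
  have h9 : #(range I \ A) + #A = I := by
    rw [card_sdiff_add_card_eq_card (filter_subset _ _), card_range]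
  omega

/-- the dyadic level of depth `r` (in units of `κ = log k`) -/
noncomputable def lev (κ : ℝ) (r : ℕ) : ℕ := ⌈(r : ℝ) * κ / Real.log 2⌉₊

theorem le_lev (κ : ℝ) (r : ℕ) : (r : ℝ) * κ ≤ lev κ r * Real.log 2 := by
  have h2 : 0 < Real.log 2 := Real.log_pos one_lt_two
  rw [← div_le_iff₀ h2]
  exact Nat.le_ceil _

theorem lev_lt {κ : ℝ} (hκ : 0 ≤ κ) (r : ℕ) : lev κ r * Real.log 2 < r * κ + Real.log 2 := by
  have h2 : 0 < Real.log 2 := Real.log_pos one_lt_two
  have h1 : (lev κ r : ℝ) < r * κ / Real.log 2 + 1 := Nat.ceil_lt_add_one (by positivity)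
  calc lev κ r * Real.log 2 < (r * κ / Real.log 2 + 1) * Real.log 2 :=
        mul_lt_mul_of_pos_right h1 h2
    _ = r * κ + Real.log 2 := by field_simp

theorem lev_sep {κ : ℝ} (hκ : Real.log 2 ≤ κ) {r r' E : ℕ} (h : r + E + 2 ≤ r') :
    lev κ r + lev κ E ≤ lev κ r' := by
  have h2 : 0 < Real.log 2 := Real.log_pos one_lt_two
  have hκ0 : 0 ≤ κ := h2.le.trans hκ
  have h1 := lev_lt hκ0 r
  have h3 := lev_lt hκ0 E
  have h4 := le_lev κ r'
  have h5 : ((r : ℝ) + E + 2) * κ ≤ r' * κ := by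
    refine mul_le_mul_of_nonneg_right ?_ hκ0
    exact_mod_cast h
  have h6 : ((lev κ r + lev κ E : ℕ) : ℝ) * Real.log 2 < lev κ r' * Real.log 2 := by
    push_cast
    nlinarith
  have h7 := lt_of_mul_lt_mul_right h6 h2.le
  exact_mod_cast h7.le

theorem pow_le_lev {k : ℝ} (hk : 1 ≤ k) (E : ℕ) : k ^ E ≤ 2 ^ lev (Real.log k) E := by
  have h1 := le_lev (Real.log k) E
  have h2 : Real.log (k ^ E) ≤ Real.log (2 ^ lev (Real.log k) E) := by
    rw [Real.log_pow, Real.log_pow]
    exact h1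
  exact (Real.log_le_log_iff (by positivity) (by positivity)).1 h2

theorem lev_strictMono {κ : ℝ} (hκ : Real.log 2 ≤ κ) {r r' : ℕ} (h : r + 2 ≤ r') :
    lev κ r < lev κ r' := by
  have h2 : 0 < Real.log 2 := Real.log_pos one_lt_two
  have hκ0 : 0 ≤ κ := h2.le.trans hκ
  have h1 := lev_lt hκ0 r
  have h4 := le_lev κ r'
  have h5 : ((r : ℝ) + 2) * κ ≤ r' * κ := by
    refine mul_le_mul_of_nonneg_right ?_ hκ0
    exact_mod_cast h
  have h6 : (lev κ r : ℝ) * Real.log 2 < lev κ r' * Real.log 2 := by nlinarith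
  exact_mod_cast lt_of_mul_lt_mul_right h6 h2.le

theorem v5_of {G : ℝ → ℕ → ℕ → Set Tor} {E R0 a : ℕ}
    (hM : ∀ k L n, MeasurableSet (G k L n)) (hloc : LocH G E) (hbr : BridgeD G R0 a) :
    Skel.V5 := by
  classical
  obtain ⟨L1, hloc⟩ := hloc
  obtain ⟨L1', hbr⟩ := hbr
  refine ⟨max L1 L1', fun L hL => ?_⟩
  obtain ⟨q, hq0, hq1, k1, hloc⟩ := hloc L (le_of_max_le_left hL)
  obtain ⟨Q1, k1', hbr⟩ := hbr L (le_of_max_le_right hL)
  obtain ⟨η, hη0, hη4, harea⟩ := area_good hq0 hq1
  set S : ℕ := R0 + E + 3 with hS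
  have hS0 : 0 < S := by omega
  set R : ℕ := ⌈(S : ℝ) / η⌉₊ + 1 with hR
  set θ : ℝ := (q ^ (1 / 4 : ℝ)) ^ (1 / (S : ℝ)) with hθ
  have hqq0 : 0 < q ^ (1 / 4 : ℝ) := Real.rpow_pos_of_pos hq0 _
  have hqq1 : q ^ (1 / 4 : ℝ) < 1 := Real.rpow_lt_one hq0.le hq1 (by norm_num)
  have hSr : (0 : ℝ) < S := by exact_mod_cast hS0
  refine ⟨R, max Q1 S, 2, θ, two_pos, Real.rpow_pos_of_pos hqq0 _,
    Real.rpow_lt_one hqq0.le hqq1 (by positivity), max (max k1 k1') 2, fun k hk Q hQ => ?_⟩
  have hk1 : k1 ≤ k := (le_max_left _ _).trans ((le_max_left _ _).trans hk)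
  have hk1' : k1' ≤ k := (le_max_right _ _).trans ((le_max_left _ _).trans hk)
  have hk2 : 2 ≤ k := (le_max_right _ _).trans hk
  have hQ1 : Q1 ≤ Q := (le_max_left _ _).trans hQ
  have hQS : S ≤ Q := (le_max_right _ _).trans hQ
  have hκ : Real.log 2 ≤ Real.log k := Real.log_le_log two_pos hk2
  have hl2 : 0 < Real.log 2 := Real.log_pos one_lt_two
  set I : ℕ := 15 * Q / S with hI
  have hIS : I * S ≤ 15 * Q := Nat.div_mul_le_self _ _
  have hIQ : Q ≤ I * S := by
    have h1 : 15 * Q < (I + 1) * S := by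
      have h0 := Nat.lt_mul_div_succ (15 * Q) hS0
      rw [hI]
      linarith [mul_comm S (15 * Q / S + 1)]
    have h2 : (I + 1) * S = I * S + S := by ring
    omega
  set ν : ℕ → ℕ := fun i => lev (Real.log k) (Q + i * S + a) with hν
  have hsep : ∀ i j, i < j → ν i + lev (Real.log k) E ≤ ν j := by
    intro i j hij
    refine lev_sep hκ ?_
    have h1 : (i + 1) * S ≤ j * S := Nat.mul_le_mul_right S hij
    have h2 : (i + 1) * S = i * S + S := by ring
    omega
  have hmono : StrictMono ν := by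
    intro i j hij
    refine lev_strictMono hκ ?_
    have h1 : (i + 1) * S ≤ j * S := Nat.mul_le_mul_right S hij
    have h2 : (i + 1) * S = i * S + S := by ring
    omega
  set P : Finset ℕ := (range I).image ν with hP
  have hPcard : P.card = I := by
    rw [hP, card_image_of_injective _ hmono.injective, card_range]
  have harea' := harea (k := k) (r := 2) (by linarith) zero_le_two (G := G k L)
    (fun n => hM k L n) (g := lev (Real.log k) E) (n₀ := 0) (n₁ := P.sup id)
    (fun c hc n m _ _ => hloc k hk1 c n _ m hc (pow_le_lev (by linarith) E)) P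
    (fun i hi => ⟨Nat.zero_le _, Finset.le_sup (f := id) hi⟩) (by
      intro x hx y hy hxy
      rw [hP, mem_image] at hx hy
      obtain ⟨i, -, rfl⟩ := hx
      obtain ⟨j, -, rfl⟩ := hy
      exact hsep i j (hmono.lt_iff_lt.1 hxy))
  refine (measure_mono ?_).trans (harea'.trans (ENNReal.ofReal_le_ofReal ?_))
  · rintro y ⟨z, t, N, rfl, hF1, hF2⟩
    have hcr : 16 * Q ≤ mt (bz k z) (Real.log k) N t := hF1
    refine ⟨?_, ?_⟩
    · obtain ⟨l, hl⟩ := comp_of_mt_pos (β := bz k z) (κ := Real.log k) (N := N) (t := t) (by omega)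
      exact crit_of_comp hl
    · set p : ℕ → Prop := fun r => nf k L N z t (lv k z t r) with hp
      have h1 := card_windows (S := S) (R0 := R0) (Q := Q) (I := I) (by omega) hIS p
      set A := {i ∈ range I | ∀ r, Q + i * S ≤ r → r ≤ Q + i * S + R0 → ¬ p r} with hA
      refine ⟨A.image ν, ?_, ?_, ?_⟩
      · exact image_subset_image (filter_subset _ _)
      · rw [hPcard, card_image_of_injective A hmono.injective]
        have h2 : (I : ℝ) ≤ #A + #{r ∈ Ico Q (16 * Q) | p r} := by exact_mod_cast h1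
        have h3 : (R : ℝ) * #{r ∈ Ico Q (16 * Q) | p r} < Q := by exact_mod_cast hF2
        have h4 : (Q : ℝ) ≤ I * S := by exact_mod_cast hIQ
        have h5 : (S : ℝ) / η ≤ R := by
          rw [hR]
          push_cast
          exact (Nat.le_ceil _).trans (by linarith)
        have h6 : (S : ℝ) ≤ R * η := by rwa [div_le_iff₀ hη0] at h5
        have h7 : (#{r ∈ Ico Q (16 * Q) | p r} : ℝ) ≤ η * I := by
          by_contra hc
          push Not at hc
          have hR0 : (0 : ℝ) < R := by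
            rw [hR]
            positivity
          have h8 : (R : ℝ) * (η * I) < R * #{r ∈ Ico Q (16 * Q) | p r} :=
            mul_lt_mul_of_pos_left hc hR0
          have h9 : (S : ℝ) * I ≤ R * η * I :=
            mul_le_mul_of_nonneg_right h6 (Nat.cast_nonneg _)
          nlinarith
        linarith
      · intro n hn
        rw [mem_image] at hn
        obtain ⟨i, hi, rfl⟩ := hn
        rw [hA, mem_filter, mem_range] at hi
        have h5 : (i + 1) * S ≤ I * S := Nat.mul_le_mul_right S hi.1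
        have h6 : (i + 1) * S = i * S + S := by ring
        refine hbr k hk1' z t N (Q + i * S) (ν i) (by nlinarith) (by omega) (fun s hs1 hs2 => hi.2 s hs1 hs2) ?_ ?_
        · have h7 := le_lev (Real.log k) (Q + i * S + a)
          push_cast at h7 ⊢
          exact h7
        · have h7 := lev_lt (κ := Real.log k) (by linarith) (Q + i * S + a)
          push_cast at h7 ⊢
          rw [hν]
          simp only
          nlinarith
  · rw [hPcard]
    refine mul_le_mul_of_nonneg_left ?_ (by positivity)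
    rw [hθ, ← Real.rpow_natCast, ← Real.rpow_natCast, ← Real.rpow_mul hqq0.le]
    refine Real.rpow_le_rpow_of_exponent_ge hqq0 hqq1.le ?_
    rw [one_div_mul_eq_div, div_le_iff₀ hSr]
    exact_mod_cast hIQ

end Crest.Agent.R128.V5FinX
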