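import Mathlib
import Crest.Agent.R128.Bridge882
import Crest.Agent.R128.FootLo
import Crest.Agent.R128.V5FinX

/-!
# Row 128, V5-BRIDGE (helper310): two fresh levels of one top give the good event

On 882 (steps, digits), 587 (`FootLo`, lower bound of the root field at a fresh foot), 862 (`Link`).
-/

set_option autoImplicit false
open Finset
open Crest.AnalysisR.StandardFamily

namespace Crest.Agent.R128.Bridge310

open Crest.Agent.R128 Crest.Agent.R128.TreeSum Crest.Agent.R128.Acc Crest.Agent.R128.Lam0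
open Crest.Agent.R128.AlignMn Crest.Agent.R128.DictY Crest.Agent.R128.Bridge882

variable {k : ℝ} {L0 N : ℕ} {z : Tor} {i t j l i' j' l' : ℕ}

theorem ap_iter (k : ℝ) (z : Tor) (t n : ℕ) : ap k ((T k)^[t] z) n = V k ((T k)^[t + n] z).2 := by
  rw [ap, dz, Two.Tz_natCast, ← Function.iterate_add_apply, Nat.add_comm]

theorem Rev_iter (k : ℝ) (z : Tor) (t : ℕ) : DictY.Rev k ((T k)^[t] z) = ((T k)^[t + 1] z).swap := by
  rw [Rev_eq, Function.iterate_succ_apply']

theorem ap_Rev_iter (k : ℝ) (z : Tor) {t n : ℕ} (hn : n ≤ t) :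
    ap k (DictY.Rev k ((T k)^[t] z)) n = V k ((T k)^[t - n] z).2 := by
  rw [Rev_iter, ap, dz, Two.Tz_natCast, Rev.iter_swap_sub k (by omega),
    show t + 1 - n = (t - n) + 1 by omega, Function.iterate_succ_apply']
  rfl

theorem Rev_foot (k : ℝ) (z : Tor) {t i : ℕ} (hi : i ≤ t) :
    ((T k)^[t - i + 1] (DictY.Rev k ((T k)^[t] z))).swap = (T k)^[i] z := by
  rw [Rev_iter, Rev.iter_swap_sub k (by omega), show t + 1 - (t - i + 1) = i by omega,
    Prod.swap_swap]

theorem right_side (hk : 10 ^ 10 ≤ k) (hL0 : 1000 ≤ L0)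
    (hc : Close.Cmp (Close.bz k z) (Real.log k) N i t j l)
    (hc' : Close.Cmp (Close.bz k z) (Real.log k) N i' t j' l')
    (hl1 : l' + 82 ≤ l) (hl2 : l ≤ l' + 90)
    (h : Skel.Val k 1000 L0 ((T k)^[j] z).swap (j - t))
    (h' : Skel.Val k 1000 L0 ((T k)^[j'] z).swap (j' - t))
    (hbig : ((L0 + 1 : ℕ) : ℝ) * (2 * Real.log k) ≤ Close.bz k z t - l * Real.log k)
    {x : ℤ → ℝ} (hx : ∀ n, x (n + 1) = dz k ((T k)^[t] z) n * x n - x (n - 1)) (h0 : |x 0| = 1)
    (hup : ∀ m : ℤ, -(t : ℤ) ≤ m →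
      max |x (m - 1)| |x m| ≤ Real.exp (bt (rr k z) (m + t).toNat - bt (rr k z) t)) :
    Good.Side k L0 (Close.bz k z t - l * Real.log k) ((T k)^[t] z) (fun n => x (n : ℤ)) (j - t)
      (j' - j - 1) := by
  have hlk : 0 < Real.log k := Real.log_pos (by linarith)
  have htj := hc.tj
  have hit := hc.it
  have hst := right_steps hk hL0 hc hc' (by omega) hl2 h'
  have hw := steps_ge_right (by linarith) hc hbig
  have hll : (l' : ℝ) + 82 ≤ l := by exact_mod_cast hl1
  have hbz : ∀ n, Close.bz k z n = bt (rr k z) n := fun _ => rfl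
  refine ⟨by omega, ?_, ?_, h0, ?_, ?_, ?_, by omega, ?_, ?_⟩
  · rw [← Function.iterate_add_apply, show j - t + t = j by omega]
    exact cval_of_val (by linarith) hL0 h (by omega)
  · intro n
    have h1 := hx ((n : ℤ) + 1)
    have e1 : (n : ℤ) + 1 - 1 = n := by ring
    rw [e1] at h1
    show x ((n + 2 : ℕ) : ℤ) = ap k ((T k)^[t] z) (n + 1) * x ((n + 1 : ℕ) : ℤ) - x (n : ℤ)
    rw [show ((n + 2 : ℕ) : ℤ) = (n : ℤ) + 1 + 1 by push_cast; ring, h1]
    rw [ap]
    push_cast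
    rfl
  · have h1 := hup 1 (by omega)
    have h2 : bt (rr k z) (t + 1) ≤ bt (rr k z) t := by
      rcases Nat.lt_or_ge (t + 1) j with h3 | h3
      · exact hc.top (t + 1) (by omega) h3
      · have h4 : j = t + 1 := by omega
        have h5 := hc.right
        have h6 := hc.above t hit htj
        rw [h4] at h5
        exact (h5.trans h6.le)
    have e1 : ((1 : ℤ) + t).toNat = t + 1 := by omega
    rw [e1] at h1
    refine (le_max_right _ _).trans (h1.trans ?_)
    rw [← Real.exp_zero]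
    exact Real.exp_le_exp.mpr (by linarith)
  · have h1 := FootLo.lo_right (Lr := l * Real.log k) (by linarith) hL0 htj h hc.right
      (fun m h2 h3 => hc.above m (by omega) h3) hx h0
    have e1 : ((j - t - 1 : ℕ) : ℤ) = ((j - t : ℕ) : ℤ) - 1 := by omega
    show Real.exp _ ≤ max |x ((j - t - 1 : ℕ) : ℤ)| |x ((j - t : ℕ) : ℤ)|
    rw [e1]
    refine le_trans ?_ h1
    exact Real.exp_le_exp.mpr (by rw [hbz]; linarith)
  · have h1 := hup ((j - t : ℕ) : ℤ) (by omega)
    have e1 : ((j - t - 1 : ℕ) : ℤ) = ((j - t : ℕ) : ℤ) - 1 := by omega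
    show max |x ((j - t - 1 : ℕ) : ℤ)| |x ((j - t : ℕ) : ℤ)| ≤ _
    rw [e1]
    refine h1.trans (Real.exp_le_exp.mpr ?_)
    rw [show (((j - t : ℕ) : ℤ) + t).toNat = j by omega]
    have := hc.right
    rw [hbz] at this ⊢
    linarith
  · intro n h1 h2
    rw [ap_iter]
    exact right_digit h' (by omega) (by omega) (by omega)
  · have h1 := hup ((j' - 1 - t : ℕ) : ℤ) (by omega)
    have e1 : ((j - t + (j' - j - 1) - 1 : ℕ) : ℤ) = ((j' - 1 - t : ℕ) : ℤ) - 1 := by omega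
    have e2 : ((j - t + (j' - j - 1) : ℕ) : ℤ) = ((j' - 1 - t : ℕ) : ℤ) := by omega
    show max |x ((j - t + (j' - j - 1) - 1 : ℕ) : ℤ)| |x ((j - t + (j' - j - 1) : ℕ) : ℤ)| ≤ _
    rw [e1, e2]
    refine h1.trans (Real.exp_le_exp.mpr ?_)
    rw [show (((j' - 1 - t : ℕ) : ℤ) + t).toNat = j' - 1 by omega]
    have h3 := bz_step (by linarith : (1000:ℝ) ≤ k) z (j' - 1)
    rw [show j' - 1 + 1 = j' by omega] at h3
    have h4 := hc'.right
    have h5 := abs_le.mp h3
    rw [hbz] at h4 h5 ⊢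
    have h6 := h5.1
    rw [hbz] at h6
    nlinarith

theorem left_side (hk : 10 ^ 10 ≤ k) (hL0 : 1000 ≤ L0)
    (hc : Close.Cmp (Close.bz k z) (Real.log k) N i t j l)
    (hc' : Close.Cmp (Close.bz k z) (Real.log k) N i' t j' l')
    (hl1 : l' + 82 ≤ l) (hl2 : l ≤ l' + 90)
    (h : Skel.Val k 1000 L0 ((T k)^[i] z) (t - i))
    (h' : Skel.Val k 1000 L0 ((T k)^[i'] z) (t - i'))
    (hbig : ((L0 + 1 : ℕ) : ℝ) * (2 * Real.log k) ≤ Close.bz k z t - l * Real.log k)
    {x : ℤ → ℝ} (hx : ∀ n, x (n + 1) = dz k ((T k)^[t] z) n * x n - x (n - 1)) (h0 : |x 0| = 1)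
    (h1' : |x (-1)| ≤ 1)
    (hup : ∀ m : ℤ, -(t : ℤ) ≤ m →
      max |x (m - 1)| |x m| ≤ Real.exp (bt (rr k z) (m + t).toNat - bt (rr k z) t)) :
    Good.Side k L0 (Close.bz k z t - l * Real.log k) (DictY.Rev k ((T k)^[t] z))
      (fun n => x (-(n : ℤ))) (t - i + 1) (i - 1 - i') := by
  have hlk : 0 < Real.log k := Real.log_pos (by linarith)
  have htj := hc.tj
  have hit := hc.it
  have hst := left_steps hk hL0 hc hc' (by omega) hl2 h'
  have hw := steps_ge_left (by linarith) hc hbig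
  have hll : (l' : ℝ) + 82 ≤ l := by exact_mod_cast hl1
  have hbz : ∀ n, Close.bz k z n = bt (rr k z) n := fun _ => rfl
  refine ⟨by omega, ?_, ?_, ?_, ?_, ?_, ?_, by omega, ?_, ?_⟩
  · rw [Rev_foot k z hit.le]
    exact cval_of_val (by linarith) hL0 h (by omega)
  · intro n
    have h1 := hx (-((n : ℤ) + 1))
    show x (-((n + 2 : ℕ) : ℤ)) =
      ap k (DictY.Rev k ((T k)^[t] z)) (n + 1) * x (-((n + 1 : ℕ) : ℤ)) - x (-(n : ℤ))
    rw [← am_eq_ap, am]
    push_cast
    rw [show -((n : ℤ) + 1) + 1 = -(n : ℤ) by ring,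
      show -((n : ℤ) + 1) - 1 = -((n : ℤ) + 2) by ring] at h1
    linarith
  · simpa using h0
  · simpa using h1'
  · have h1 := FootLo.lo_left (Lr := l * Real.log k) (by linarith) hL0 hit h hc.left
      (fun m h2 h3 => by
        rcases Nat.lt_or_ge m t with h4 | h4
        · exact hc.above m h2 (by omega)
        · have : m = t := by omega
          rw [this]
          exact hc.above t hit htj) hx h0
    have e1 : -(((t - i + 1 : ℕ) : ℤ)) = -((t - i : ℕ) : ℤ) - 1 := by omega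
    have e2 : -(((t - i + 1 - 1 : ℕ) : ℤ)) = -((t - i : ℕ) : ℤ) := by omega
    show Real.exp _ ≤ max |x (-((t - i + 1 - 1 : ℕ) : ℤ))| |x (-((t - i + 1 : ℕ) : ℤ))|
    rw [e1, e2, max_comm]
    refine le_trans ?_ h1
    exact Real.exp_le_exp.mpr (by rw [hbz]; linarith)
  · have h1 := hup (-((t - i : ℕ) : ℤ)) (by omega)
    have e1 : -(((t - i + 1 : ℕ) : ℤ)) = -((t - i : ℕ) : ℤ) - 1 := by omega
    have e2 : -(((t - i + 1 - 1 : ℕ) : ℤ)) = -((t - i : ℕ) : ℤ) := by omega
    show max |x (-((t - i + 1 - 1 : ℕ) : ℤ))| |x (-((t - i + 1 : ℕ) : ℤ))| ≤ _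
    rw [e1, e2, max_comm]
    refine h1.trans (Real.exp_le_exp.mpr ?_)
    rw [show (-((t - i : ℕ) : ℤ) + t).toNat = i by omega]
    have := hc.left
    rw [hbz] at this ⊢
    linarith
  · intro n h1 h2
    rw [ap_Rev_iter k z (by omega)]
    exact left_digit h' (by omega) (by omega) (by omega)
  · have h1 := hup (-((t - i' : ℕ) : ℤ) + 1) (by omega)
    have e1 : -((t - i + 1 + (i - 1 - i') - 1 : ℕ) : ℤ) = -((t - i' : ℕ) : ℤ) + 1 := by omega
    have e2 : -((t - i + 1 + (i - 1 - i') : ℕ) : ℤ) = -((t - i' : ℕ) : ℤ) + 1 - 1 := by omega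
    show max |x (-((t - i + 1 + (i - 1 - i') - 1 : ℕ) : ℤ))|
      |x (-((t - i + 1 + (i - 1 - i') : ℕ) : ℤ))| ≤ _
    rw [e1, e2, max_comm]
    refine h1.trans (Real.exp_le_exp.mpr ?_)
    rw [show (-((t - i' : ℕ) : ℤ) + 1 + t).toNat = i' + 1 by omega]
    have h3 := bz_step (by linarith : (1000:ℝ) ≤ k) z i'
    have h4 := hc'.left
    have h5 := (abs_le.mp h3).2
    rw [hbz] at h4 ⊢
    rw [hbz, hbz] at h5
    nlinarith

theorem not_nf {k : ℝ} {L0 N : ℕ} {z : Tor} {t l : ℕ} (h : ¬ Skel.nf k L0 N z t l) :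
    ∃ i j, Close.Cmp (Close.bz k z) (Real.log k) N i t j l ∧ Skel.Fresh k L0 z i j t := by
  unfold Skel.nf at h
  push Not at h
  exact h

/-- **the bridge** -/
theorem bridge : V5FinX.BridgeD Good.G 86 0 := by
  refine ⟨1000, fun L hL => ⟨2 * L + 2, 10 ^ 10, fun k hk z t N r n hr hmt hf hn1 hn2 => ?_⟩⟩
  have hk0 : 0 < k := by linarith
  have hlk : 0 < Real.log k := Real.log_pos (by linarith)
  obtain ⟨i, j, hc, hF⟩ := not_nf (hf (r + 2) (by omega) (by omega))
  obtain ⟨i', j', hc', hF'⟩ := not_nf (hf (r + 86) (by omega) (by omega))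
  have hmtc : Close.mt (Close.bz k z) (Real.log k) N t ≤ ⌈Close.bz k z t / Real.log k⌉₊ :=
    Close.mt_le
  set c := ⌈Close.bz k z t / Real.log k⌉₊ with hcdef
  have el : Close.lv k z t (r + 2) = c - (r + 2) := rfl
  have el' : Close.lv k z t (r + 86) = c - (r + 86) := rfl
  rw [el] at hc
  rw [el'] at hc'
  have hl1 : c - (r + 86) + 82 ≤ c - (r + 2) := by omega
  have hl2 : c - (r + 2) ≤ c - (r + 86) + 90 := by omega
  have hcast : ((c - (r + 2) : ℕ) : ℝ) = (c : ℝ) - (r + 2) := by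
    rw [Nat.cast_sub (by omega)]
    push_cast
    ring
  have hb0 : 0 ≤ Close.bz k z t / Real.log k := by
    by_contra hcon
    push Not at hcon
    have h1 : c = 0 := by
      rw [hcdef]
      exact Nat.ceil_eq_zero.mpr hcon.le
    omega
  have hc1 : Close.bz k z t ≤ c * Real.log k := by
    rw [← div_le_iff₀ hlk]
    exact Nat.le_ceil _
  have hc2 : c * Real.log k < Close.bz k z t + Real.log k := by
    have h1 := Nat.ceil_lt_add_one hb0
    rw [← hcdef] at h1
    have h2 := mul_lt_mul_of_pos_right h1 hlk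
    rw [add_mul, div_mul_cancel₀ _ hlk.ne', one_mul] at h2
    exact h2
  -- the depth
  have hρ1 : Close.bz k z t - ((c - (r + 2) : ℕ) : ℝ) * Real.log k ≤ (r + 2) * Real.log k := by
    rw [hcast]
    nlinarith
  have hρ2 : (r + 1) * Real.log k < Close.bz k z t - ((c - (r + 2) : ℕ) : ℝ) * Real.log k := by
    rw [hcast]
    nlinarith
  have hbig : ((L + 1 : ℕ) : ℝ) * (2 * Real.log k) ≤
      Close.bz k z t - ((c - (r + 2) : ℕ) : ℝ) * Real.log k := by
    refine le_trans ?_ hρ2.le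
    have h1 : (2 * L + 2 : ℝ) ≤ r := by exact_mod_cast hr
    push_cast
    nlinarith
  have ht0 : 0 < t := lt_of_le_of_lt (Nat.zero_le _) hc.it
  have htop : bt (rr k z) (t - 1) < bt (rr k z) t := by
    rcases Nat.lt_or_ge i (t - 1) with h1 | h1
    · exact hc.first (t - 1) h1 (by omega)
    · have h2 : i = t - 1 := by have := hc.it; omega
      rw [← h2]
      exact lt_of_le_of_lt hc.left (hc.above t hc.it hc.tj)
  obtain ⟨x, hx, h0, h1, hup⟩ := Link.root_field_top k z ht0 htop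
  refine ⟨?_, _, ?_, ?_, fun n => x (n : ℤ), fun n => x (-(n : ℤ)), j - t, j' - j - 1, t - i + 1,
    i - 1 - i', right_side hk hL hc hc' hl1 hl2 hF.2 hF'.2 hbig hx h0 hup,
    left_side hk hL hc hc' hl1 hl2 hF.1 hF'.1 hbig hx h0 h1.le hup, ?_, ?_⟩
  · exact top_zero (V := dg k z) (rr_pos k z) (rr_h1 k z) (Close.Comp.Top ⟨i, j, hc⟩)
  · simp only [Nat.cast_zero, add_zero] at hn2
    linarith
  · simp only [Nat.cast_zero, add_zero] at hn1
    linarith
  · simp
  · have h2 := hx 0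
    rw [dz_zero] at h2
    simp only [zero_add, zero_sub] at h2
    simp only [Nat.cast_one, Nat.cast_zero]
    linarith

end Crest.Agent.R128.Bridge310
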