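import Crest.Agent.R128.Bridge882

/-!
# Row 128, V5-BRIDGE (helper882), part 2: from the run of fresh levels to `Good.Side`, `Good.G`
-/

set_option autoImplicit false
open scoped Matrix.Norms.L2Operator
open Matrix Finset
open Crest.AnalysisR.StandardFamily

namespace Crest.Agent.R128.Bridge882

open Crest.Agent.R128 Crest.Agent.R128.TreeSum Crest.Agent.R128.Acc Crest.Agent.R128.Lam0
open Crest.Agent.R128.Hyp Crest.Agent.R128.ValNorm Crest.Agent.R128.AlignMn Crest.Agent.R128.Two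

/-- the tip field of the root contour at the first top `t` -/
structure Fld (k : ℝ) (z : Tor) (t : ℕ) (x : ℤ → ℝ) : Prop where
  rc : ∀ n, x (n + 1) = dz k ((T k)^[t] z) n * x n - x (n - 1)
  x0 : |x 0| = 1
  xm : |x (-1)| < 1
  dom : ∀ m : ℤ, -(t : ℤ) ≤ m →
    max |x (m - 1)| |x m| ≤ Real.exp (Close.bz k z (m + t).toNat - Close.bz k z t)

section fld

variable {k : ℝ} {z : Tor} {t : ℕ} {x : ℤ → ℝ}

theorem exists_fld {N i j l : ℕ} (hκ : 0 ≤ Real.log k)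
    (hc : Close.Cmp (Close.bz k z) (Real.log k) N i t j l) : ∃ x, Fld k z t x := by
  have hit := hc.it
  have h1 : Close.bz k z (t - 1) < Close.bz k z t := by
    rcases Nat.eq_or_lt_of_le (show i ≤ t - 1 by omega) with h | h
    · rw [← h]
      exact lt_of_le_of_lt hc.left hc.lt_top
    · exact hc.first _ h (by omega)
  obtain ⟨x, h2, h3, h4, h5⟩ := Link.root_field_top k z (by omega : 0 < t) h1
  exact ⟨x, h2, h3, h4, h5⟩

theorem Fld.domR (F : Fld k z t x) {p : ℕ} (hp : t < p) :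
    max |x ((p - t - 1 : ℕ) : ℤ)| |x ((p - t : ℕ) : ℤ)| ≤
      Real.exp (Close.bz k z p - Close.bz k z t) := by
  have h := F.dom ((p - t : ℕ) : ℤ) (by omega)
  rw [show (((p - t : ℕ) : ℤ) + t).toNat = p by omega,
    show ((p - t : ℕ) : ℤ) - 1 = ((p - t - 1 : ℕ) : ℤ) by omega] at h
  exact h

theorem Fld.domL (F : Fld k z t x) {p : ℕ} (hp : p ≤ t) :
    max |x (-((t - p : ℕ) : ℤ))| |x (-((t - p + 1 : ℕ) : ℤ))| ≤
      Real.exp (Close.bz k z p - Close.bz k z t) := by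
  have h := F.dom (-((t - p : ℕ) : ℤ)) (by omega)
  rw [show (-((t - p : ℕ) : ℤ) + t).toNat = p by omega,
    show -((t - p : ℕ) : ℤ) - 1 = -((t - p + 1 : ℕ) : ℤ) by omega, max_comm] at h
  exact h

theorem Fld.crit (F : Fld k z t x) (h1 : |x 1| ≤ 1) : |V k ((T k)^[t] z).2| < 2 := by
  have h := F.rc 0
  rw [dz_zero] at h
  norm_num at h
  have h2 : |V k ((T k)^[t] z).2| = |V k ((T k)^[t] z).2 * x 0| := by
    rw [abs_mul, F.x0, mul_one]
  rw [h2, show V k ((T k)^[t] z).2 * x 0 = x 1 + x (-1) by linarith]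
  exact (abs_add_le _ _).trans_lt (by linarith [F.xm])

theorem nn_pair_le (a b : ℝ) : nn (a, b) ≤ 2 * max |a| |b| := by
  have h := nn_le_norm (a, b)
  rw [Prod.norm_def, Real.norm_eq_abs, Real.norm_eq_abs] at h
  exact h

/-- lower bound at the right foot from the norm of the transfer matrix -/
theorem Fld.lo_right (F : Fld k z t x) {w : ℕ} (hw : 0 < w) {B : ℝ}
    (hB : Real.log ‖Mn k w ((T k)^[t] z)‖ + 1 ≤ B) :
    Real.exp (-B) ≤ max |x ((w - 1 : ℕ) : ℤ)| |x (w : ℤ)| := by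
  set y := (T k)^[t] z with hy
  set M := Mn k w y with hM
  have hdet : M.det = 1 := det_Mn k w y
  have h1 : act M (x (-1), x 0) = (x ((w - 1 : ℕ) : ℤ), x (w : ℤ)) := by
    rw [hM, ← Az_natCast, act_Az, ← eq_xf F.rc, ← eq_xf F.rc,
      show ((w - 1 : ℕ) : ℤ) = (w : ℤ) - 1 by omega]
  have h2 : (x (-1), x 0) = act M⁻¹ (x ((w - 1 : ℕ) : ℤ), x (w : ℤ)) := by
    rw [← h1, ← act_mul, Matrix.nonsing_inv_mul _ (by rw [hdet]; exact isUnit_one), AlignMn.act_one]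
  have h3 := nn_act_le M⁻¹ (x ((w - 1 : ℕ) : ℤ)) (x (w : ℤ))
  rw [← h2, ninv hdet] at h3
  have h4 : |x 0| ≤ nn (x (-1), x 0) := abs_snd_le (x (-1), x 0)
  rw [F.x0] at h4
  have h5 := nn_pair_le (x ((w - 1 : ℕ) : ℤ)) (x (w : ℤ))
  have hp : 0 < ‖M‖ := Chain.norm_pos' hdet
  set m := max |x ((w - 1 : ℕ) : ℤ)| |x (w : ℤ)| with hm
  have h6 : 1 ≤ ‖M‖ * (2 * m) := h4.trans (h3.trans (mul_le_mul_of_nonneg_left h5 hp.le))
  have h7 : ‖M‖ ≤ Real.exp (B - 1) := by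
    rw [← Real.exp_log hp]
    exact Real.exp_le_exp.mpr (by linarith)
  have hm0 : 0 ≤ m := (abs_nonneg _).trans (le_max_left _ _)
  have h8 : 1 ≤ Real.exp (B - 1) * (2 * m) :=
    h6.trans (mul_le_mul_of_nonneg_right h7 (by positivity))
  have h9 : Real.exp (B - 1) * 2 ≤ Real.exp B := by
    rw [Real.exp_sub, div_mul_eq_mul_div, div_le_iff₀ (Real.exp_pos 1)]
    have := Real.add_one_le_exp (1 : ℝ)
    nlinarith [Real.exp_pos B]
  rw [Real.exp_neg, inv_le_comm₀ (Real.exp_pos B) (by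
    by_contra hc
    push Not at hc
    nlinarith [Real.exp_pos (B - 1)])]
  have hmp : 0 < m := by
    by_contra hc
    push Not at hc
    nlinarith [Real.exp_pos (B - 1)]
  rw [inv_le_iff_one_le_mul₀ hmp]
  nlinarith

/-- lower bound at the left foot -/
theorem Fld.lo_left (F : Fld k z t x) {i : ℕ} (hi : i < t) {B : ℝ}
    (hB : Real.log ‖Mn k (t - i) ((T k)^[i] z)‖ + 1 ≤ B) :
    Real.exp (-B) ≤ max |x (-((t - i : ℕ) : ℤ))| |x (-((t - i + 1 : ℕ) : ℤ))| := by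
  set y := (T k)^[t] z with hy
  set M := Mn k (t - i) ((T k)^[i] z) with hM
  have hdet : M.det = 1 := det_Mn k _ _
  have e1 : Tz k (-((t - i : ℕ) : ℤ)) y = (T k)^[i] z := by
    rw [hy, ← Tz_natCast, ← Tz_add, ← Tz_natCast]
    congr 1
    omega
  have h1 : act M (x (-((t - i + 1 : ℕ) : ℤ)), x (-((t - i : ℕ) : ℤ))) = (x (-1), x 0) := by
    have h := act_Mn_Tz k y (x (-1), x 0) (t - i) (t - i)
    rw [e1, act_Az, ← eq_xf F.rc, ← eq_xf F.rc, sub_self, Az_zero, AlignMn.act_one] at h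
    rw [show -((t - i + 1 : ℕ) : ℤ) = -((t - i : ℕ) : ℤ) - 1 by omega]
    exact h
  have h3 := nn_act_le M (x (-((t - i + 1 : ℕ) : ℤ))) (x (-((t - i : ℕ) : ℤ)))
  rw [h1] at h3
  have h4 : |x 0| ≤ nn (x (-1), x 0) := abs_snd_le (x (-1), x 0)
  rw [F.x0] at h4
  have h5 := nn_pair_le (x (-((t - i + 1 : ℕ) : ℤ))) (x (-((t - i : ℕ) : ℤ)))
  have hp : 0 < ‖M‖ := Chain.norm_pos' hdet
  rw [max_comm]
  set m := max |x (-((t - i + 1 : ℕ) : ℤ))| |x (-((t - i : ℕ) : ℤ))| with hm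
  have h6 : 1 ≤ ‖M‖ * (2 * m) := h4.trans (h3.trans (mul_le_mul_of_nonneg_left h5 hp.le))
  have h7 : ‖M‖ ≤ Real.exp (B - 1) := by
    rw [← Real.exp_log hp]
    exact Real.exp_le_exp.mpr (by linarith)
  have hm0 : 0 ≤ m := (abs_nonneg _).trans (le_max_left _ _)
  have h8 : 1 ≤ Real.exp (B - 1) * (2 * m) :=
    h6.trans (mul_le_mul_of_nonneg_right h7 (by positivity))
  have h9 : Real.exp (B - 1) * 2 ≤ Real.exp B := by
    rw [Real.exp_sub, div_mul_eq_mul_div, div_le_iff₀ (Real.exp_pos 1)]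
    have := Real.add_one_le_exp (1 : ℝ)
    nlinarith [Real.exp_pos B]
  have hmp : 0 < m := by
    by_contra hc
    push Not at hc
    nlinarith [Real.exp_pos (B - 1)]
  rw [Real.exp_neg, inv_le_comm₀ (Real.exp_pos B) hmp, inv_le_iff_one_le_mul₀ hmp]
  nlinarith

end fld

end Crest.Agent.R128.Bridge882
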