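import Mathlib
import Crest.Agent.R128.Skel
import Crest.Agent.R128.LocG

/-!
Row 128, node V5-FINAL (helper862, second implementation): counting from a fresh block `FBR` of the
skeleton to `Many η G P` on a dyadic grid, and `Skel.V5` from 284's area form and 23's bridge.
-/

set_option autoImplicit false
open MeasureTheory Filter Topology Finset
open scoped ENNReal
open Crest.Agent.R128 Crest.Agent.R128.Skel Crest.Agent.R128.Close

namespace Crest.Agent.R128.V5End

/-- the bridge: a run of `S + 1` fresh levels below a top gives the good event of every dyadic level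
in the window -/
def Br (S X : ℕ) (k : ℝ) (L0 : ℕ) : Prop :=
  ∀ (N : ℕ) (z : Tor) (t n l : ℕ), X * Real.log k ≤ n * Real.log 2 →
    n * Real.log 2 ≤ bz k z t - l * Real.log k →
    bz k z t - l * Real.log k ≤ n * Real.log 2 + 2 * Real.log k →
    S ≤ l → bz k z t ≤ 2 * ((l : ℝ) - S) * Real.log k →
    (∀ s ≤ S, ¬ nf k L0 N z t (l - s)) → (T k)^[t] z ∈ Good.G k L0 n

/-- **counting**: abstract version.  `bad r` = the level of depth `r` is bad, `good n` = the dyadic
level `n` is good. -/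
theorem counting {κ β : ℝ} (hκ : Real.log 2 ≤ κ) (hβ : 0 ≤ β) {S Q R : ℕ} {η : ℝ}
    (hη : 0 < η) (hQ : 2 * (S + 3) ≤ Q) (hR : 2 * (S + 3) / η ≤ R)
    {bad : ℕ → Prop} {good : ℕ → Prop} [DecidablePred bad]
    (hbad : R * #{r ∈ Ico Q (16 * Q) | bad r} < Q)
    (hgood : ∀ r n : ℕ, Q ≤ r → r + S < 2 * Q + 4 + S → (∀ s ≤ S, ¬ bad (r + s)) →
      Q * κ ≤ n * Real.log 2 → n * Real.log 2 ≤ β - (⌈β / κ⌉₊ : ℝ) * κ + r * κ →
      β - (⌈β / κ⌉₊ : ℝ) * κ + r * κ ≤ n * Real.log 2 + κ → good n) {g n0 : ℕ}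
    (hg : (S + 2) * κ ≤ g * Real.log 2) (hg' : g * Real.log 2 ≤ (S + 3) * κ)
    (hn0 : (Q + 1) * κ ≤ n0 * Real.log 2) (hn0' : n0 * Real.log 2 ≤ (Q + 2) * κ) :
    ∃ s ⊆ (range (Q / (S + 3))).image (fun i => n0 + g * i),
      (1 - η) * (#((range (Q / (S + 3))).image (fun i => n0 + g * i)) : ℝ) ≤ #s ∧
      ∀ n ∈ s, good n := by
  classical
  have ha : 0 < Real.log 2 := Real.log_pos (by norm_num)
  have hκ0 : 0 < κ := ha.trans_le hκ
  set a := Real.log 2 with hadef
  set c := ⌈β / κ⌉₊ with hcdef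
  set e : ℝ := β - (c : ℝ) * κ with he
  have he0 : e ≤ 0 := by
    have h1 : β / κ ≤ c := Nat.le_ceil _
    rw [div_le_iff₀ hκ0] at h1
    linarith
  have he1 : -κ < e := by
    have h1 : (c : ℝ) < β / κ + 1 := Nat.ceil_lt_add_one (by positivity)
    have h2 : (c : ℝ) * κ < (β / κ + 1) * κ := mul_lt_mul_of_pos_right h1 hκ0
    have h3 : (β / κ + 1) * κ = β + κ := by field_simp
    linarith
  set rn : ℕ → ℕ := fun n => ⌈((n : ℝ) * a - e) / κ⌉₊ with hrn
  have hr1 : ∀ n : ℕ, (n : ℝ) * a - e ≤ (rn n : ℝ) * κ := by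
    intro n
    have h1 : ((n : ℝ) * a - e) / κ ≤ rn n := Nat.le_ceil _
    rwa [div_le_iff₀ hκ0] at h1
  have hr2 : ∀ n : ℕ, (rn n : ℝ) * κ < (n : ℝ) * a - e + κ := by
    intro n
    have h0 : 0 ≤ ((n : ℝ) * a - e) / κ := by
      apply div_nonneg _ hκ0.le
      have : 0 ≤ (n : ℝ) * a := by positivity
      linarith
    have h1 : (rn n : ℝ) < ((n : ℝ) * a - e) / κ + 1 := Nat.ceil_lt_add_one h0
    have h2 : (rn n : ℝ) * κ < (((n : ℝ) * a - e) / κ + 1) * κ := mul_lt_mul_of_pos_right h1 hκ0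
    have h3 : (((n : ℝ) * a - e) / κ + 1) * κ = (n : ℝ) * a - e + κ := by field_simp
    linarith
  set K := Q / (S + 3) with hK
  have hKQ : K * (S + 3) ≤ Q := Nat.div_mul_le_self _ _
  set p : ℕ → ℕ := fun i => n0 + g * i with hp
  have hpc : ∀ i, ((p i : ℕ) : ℝ) * a = n0 * a + i * (g * a) := by
    intro i
    simp only [hp]
    push_cast
    ring
  have hgpos : 0 < g := by
    rcases Nat.eq_zero_or_pos g with h | h
    · rw [h] at hg
      have : 0 < ((S : ℝ) + 2) * κ := by positivity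
      simp at hg
      linarith
    · exact h
  have hpinj : Function.Injective p := by
    intro i j hij
    simp only [hp] at hij
    have : g * i = g * j := by omega
    exact Nat.eq_of_mul_eq_mul_left hgpos this
  -- positions
  have hpos1 : ∀ i, Q + 1 ≤ rn (p i) := by
    intro i
    have h1 := hr1 (p i)
    rw [hpc] at h1
    have h2 : 0 ≤ (i : ℝ) * (g * a) := by positivity
    have h3 : ((Q : ℝ) + 1) * κ ≤ (rn (p i) : ℝ) * κ := by linarith
    have h4 := le_of_mul_le_mul_right h3 hκ0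
    exact_mod_cast h4
  have hpos2 : ∀ i, i < K → rn (p i) + S < 2 * Q + 4 + S := by
    intro i hi
    have h1 := hr2 (p i)
    rw [hpc] at h1
    have h2 : (i : ℝ) * (g * a) ≤ i * ((S + 3) * κ) := by gcongr
    have h3 : (rn (p i) : ℝ) * κ < ((Q : ℝ) + 4 + i * (S + 3)) * κ := by nlinarith
    have h4 := lt_of_mul_lt_mul_right h3 hκ0.le
    have h5 : rn (p i) < Q + 4 + i * (S + 3) := by exact_mod_cast h4
    have h6 : (i + 1) * (S + 3) ≤ K * (S + 3) := Nat.mul_le_mul_right _ hi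
    have h7 : (i + 1) * (S + 3) = i * (S + 3) + (S + 3) := by ring
    omega
  have hsep : ∀ i j, i < j → rn (p i) + S < rn (p j) := by
    intro i j hij
    have h1 := hr2 (p i)
    have h2 := hr1 (p j)
    rw [hpc] at h1 h2
    have h3 : ((i : ℝ) + 1) * (g * a) ≤ (j : ℝ) * (g * a) := by
      apply mul_le_mul_of_nonneg_right _ (by positivity)
      exact_mod_cast hij
    have h4 : ((rn (p i) : ℝ) + (S + 1)) * κ < (rn (p j) : ℝ) * κ := by nlinarith
    have h5 := lt_of_mul_lt_mul_right h4 hκ0.le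
    have h6 : rn (p i) + (S + 1) < rn (p j) := by exact_mod_cast h5
    omega
  -- bad indices
  set J := (range K).filter (fun i => ∃ s ≤ S, bad (rn (p i) + s)) with hJ
  have hJc : #J ≤ #{r ∈ Ico Q (16 * Q) | bad r} := by
    have hch : ∀ i ∈ J, ∃ s ≤ S, bad (rn (p i) + s) := fun i hi => (mem_filter.mp hi).2
    choose! sf hsf1 hsf2 using hch
    apply card_le_card_of_injOn (fun i => rn (p i) + sf i)
    · intro i hi
      have hi' := mem_coe.mp hi
      have h1 := hsf1 i hi'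
      have h2 := hsf2 i hi'
      have h3 := hpos1 i
      have h4 := hpos2 i (mem_range.mp (mem_filter.mp hi').1)
      have h5 : 2 * Q + 4 + S ≤ 16 * Q := by omega
      simp only [coe_filter, mem_Ico, Set.mem_ofPred_eq]
      exact ⟨⟨by omega, by omega⟩, h2⟩
    · intro i hi j hj hij
      have h1 := hsf1 i (mem_coe.mp hi)
      have h2 := hsf1 j (mem_coe.mp hj)
      simp only at hij
      rcases lt_trichotomy i j with h | h | h
      · have := hsep i j h; omega
      · exact h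
      · have := hsep j i h; omega
  -- the good set
  refine ⟨(range K \ J).image p, image_subset_image sdiff_subset, ?_, ?_⟩
  · rw [card_image_of_injective _ hpinj, card_image_of_injective _ hpinj, card_range]
    have h1 : #(range K \ J) = K - #J := by
      rw [card_sdiff_of_subset (filter_subset _ _), card_range]
    have h2 : #J ≤ K := by
      have := card_filter_le (range K) (fun i => ∃ s ≤ S, bad (rn (p i) + s))
      rwa [card_range] at this
    rw [h1, Nat.cast_sub h2]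
    -- `#J ≤ η K`
    have h3 : (R : ℝ) * #J ≤ Q := by
      have h4 : R * #J ≤ R * #{r ∈ Ico Q (16 * Q) | bad r} := Nat.mul_le_mul_left _ hJc
      exact_mod_cast (h4.trans hbad.le)
    have h5 : (Q : ℝ) ≤ 2 * (S + 3) * K := by
      have h6 : Q < (K + 1) * (S + 3) := by
        have h7 := Nat.div_add_mod Q (S + 3)
        have h8 := Nat.mod_lt Q (show 0 < S + 3 by omega)
        have h9 : K * (S + 3) = (S + 3) * (Q / (S + 3)) := mul_comm _ _
        have h10 : (K + 1) * (S + 3) = K * (S + 3) + (S + 3) := by ring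
        omega
      have h7 : 1 ≤ K := by
        rw [hK, Nat.le_div_iff_mul_le (by omega)]
        omega
      have h8 : (K + 1) * (S + 3) ≤ 2 * K * (S + 3) := Nat.mul_le_mul_right _ (by omega)
      have h9 : Q ≤ 2 * (S + 3) * K := by nlinarith
      exact_mod_cast h9
    have h10 : (#J : ℝ) ≤ η * K := by
      have h11 : 2 * ((S : ℝ) + 3) / η * #J ≤ 2 * (S + 3) * K := by
        refine (mul_le_mul_of_nonneg_right hR (Nat.cast_nonneg _)).trans (h3.trans h5)
      have h12 : 2 * ((S : ℝ) + 3) / η * #J = 2 * (S + 3) * (#J / η) := by ring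
      rw [h12] at h11
      have h13 : (#J : ℝ) / η ≤ K := le_of_mul_le_mul_left h11 (by positivity)
      rwa [div_le_iff₀ hη, mul_comm] at h13
    linarith
  · intro n hn
    rw [mem_image] at hn
    obtain ⟨i, hi, rfl⟩ := hn
    rw [Finset.mem_sdiff, mem_range] at hi
    have h1 : ∀ s ≤ S, ¬ bad (rn (p i) + s) := by
      intro s hs hb
      exact hi.2 (mem_filter.mpr ⟨mem_range.mpr hi.1, s, hs, hb⟩)
    refine hgood (rn (p i)) (p i) (by have := hpos1 i; omega) (hpos2 i hi.1) h1 ?_ ?_ ?_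
    · have h2 : 0 ≤ (i : ℝ) * (g * a) := by positivity
      rw [hpc]
      nlinarith
    · have := hr1 (p i)
      linarith
    · have := hr2 (p i)
      linarith

/-- a fresh block gives many good dyadic levels -/
theorem many_of_FBR {S X : ℕ} {k : ℝ} (hk : Real.exp 1 ≤ k) {L0 R N t Q : ℕ} {z : Tor} {η : ℝ}
    (hη : 0 < η) (hQ : 2 * (S + 3) ≤ Q) (hQX : X ≤ Q) (hR : 2 * (S + 3) / η ≤ R)
    (hB : Br S X k L0)
    (hF : FBR k L0 R N z t Q) {g n0 : ℕ}
    (hg : (S + 2) * Real.log k ≤ g * Real.log 2) (hg' : g * Real.log 2 ≤ (S + 3) * Real.log k)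
    (hn0 : (Q + 1) * Real.log k ≤ n0 * Real.log 2)
    (hn0' : n0 * Real.log 2 ≤ (Q + 2) * Real.log k) :
    (T k)^[t] z ∈ {z : Tor | |V k z.2| ≤ 2} ∩
      PayArea.Many η (Good.G k L0) ((range (Q / (S + 3))).image (fun i => n0 + g * i)) := by
  classical
  have hk0 : 0 < k := (Real.exp_pos 1).trans_le hk
  have hκ1 : 1 ≤ Real.log k := by
    rw [Real.le_log_iff_exp_le hk0]
    exact hk
  have hκ0 : 0 < Real.log k := by linarith
  have hκ2 : Real.log 2 ≤ Real.log k := by
    have := Real.log_two_lt_d9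
    linarith
  obtain ⟨hmt, hbad⟩ := hF
  have hc : 16 * Q ≤ ⌈bz k z t / Real.log k⌉₊ := hmt.trans mt_le
  have hβ : 0 ≤ bz k z t := by
    by_contra hneg
    push Not at hneg
    have h1 : bz k z t / Real.log k ≤ 0 := div_nonpos_of_nonpos_of_nonneg hneg.le hκ0.le
    rw [Nat.ceil_eq_zero.mpr h1] at hc
    omega
  have hV : |V k ((T k)^[t] z).2| ≤ 2 :=
    crit_of_comp (comp_sub hκ0 (r := 1) le_rfl (le_trans (by omega : 1 ≤ 16 * Q) hmt))
  refine ⟨hV, ?_⟩
  obtain ⟨s, hs1, hs2, hs3⟩ := counting (κ := Real.log k) (β := bz k z t) hκ2 hβ (S := S) (Q := Q)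
    (R := R) hη hQ hR (bad := fun r => nf k L0 N z t (lv k z t r))
    (good := fun n => (T k)^[t] z ∈ Good.G k L0 n) (by convert hbad) (by
      intro r n h1 h2 h3 h3' h4 h5
      set c := ⌈bz k z t / Real.log k⌉₊ with hcdef
      have hrc : r ≤ c := by omega
      have e1 : ((lv k z t r : ℕ) : ℝ) = (c : ℝ) - r := by
        unfold lv
        rw [Nat.cast_sub hrc]
      have e2 : bz k z t - (lv k z t r : ℝ) * Real.log k =
          bz k z t - (c : ℝ) * Real.log k + r * Real.log k := by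
        rw [e1]; ring
      have h6 : (c : ℕ) ≤ 2 * (c - r - S) := by omega
      have h6' : ((c : ℕ) : ℝ) ≤ 2 * ((c : ℝ) - r - S) := by
        have h7 : ((c : ℕ) : ℝ) ≤ ((2 * (c - r - S) : ℕ) : ℝ) := by exact_mod_cast h6
        rw [Nat.cast_mul, Nat.cast_sub (by omega), Nat.cast_sub hrc] at h7
        exact_mod_cast h7
      refine hB N z t n (lv k z t r) ?_ ?_ ?_ (by unfold lv; omega) ?_ ?_
      · refine le_trans ?_ h3'
        exact mul_le_mul_of_nonneg_right (by exact_mod_cast hQX) hκ0.le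
      · rw [e2]; exact h4
      · rw [e2]; linarith
      · rw [e1]
        have h8 : bz k z t / Real.log k ≤ c := Nat.le_ceil _
        rw [div_le_iff₀ hκ0] at h8
        exact h8.trans (mul_le_mul_of_nonneg_right h6' hκ0.le)
      · intro s hs
        have h6 := h3 s hs
        have e3 : lv k z t r - s = lv k z t (r + s) := by unfold lv; omega
        rw [e3]
        exact h6)
    hg hg' hn0 hn0'
  exact ⟨s, hs1, hs2, hs3⟩

/-- **V5 from the area form (284) and the bridge (23)** -/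
theorem v5_of {S : ℕ} (hS : 78 ≤ S)
    (hA : ∃ η θ : ℝ, 0 < η ∧ 0 < θ ∧ θ < 1 ∧ ∃ L1 : ℕ, ∀ L : ℕ, L1 ≤ L →
      ∃ k1 : ℝ, ∀ k : ℝ, k1 ≤ k →
      ∀ g : ℕ, k ^ 80 ≤ 2 ^ g → ∀ P : Finset ℕ, (∀ i ∈ P, ∀ j ∈ P, i < j → i + g ≤ j) →
        volume ({z : Tor | |V k z.2| ≤ 2} ∩ PayArea.Many η (Good.G k L) P) ≤
          ENNReal.ofReal (2 / k * θ ^ P.card))
    (hB : ∃ L1 : ℕ, ∀ L0, L1 ≤ L0 → ∃ X : ℕ, ∃ k₁ : ℝ, ∀ k, k₁ ≤ k → Br S X k L0) : V5 := by
  classical
  obtain ⟨η, θ, hη, hθ0, hθ1, LA, hA⟩ := hA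
  obtain ⟨LB, hB⟩ := hB
  refine ⟨max LA LB, fun L0 hL0 => ?_⟩
  obtain ⟨ka, hA⟩ := hA L0 (le_of_max_le_left hL0)
  obtain ⟨X, kb, hB⟩ := hB L0 (le_of_max_le_right hL0)
  have hS3 : (0 : ℝ) < (S : ℝ) + 3 := by positivity
  refine ⟨⌈2 * ((S : ℝ) + 3) / η⌉₊, max X (2 * (S + 3)), 2 / θ, θ ^ (1 / ((S : ℝ) + 3)), by positivity,
    Real.rpow_pos_of_pos hθ0 _, Real.rpow_lt_one hθ0.le hθ1 (by positivity),
    max (max ka kb) (Real.exp 1), fun k hk Q hQ => ?_⟩
  have hka : ka ≤ k := (le_max_left _ _).trans ((le_max_left _ _).trans hk)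
  have hkb : kb ≤ k := (le_max_right _ _).trans ((le_max_left _ _).trans hk)
  have hke : Real.exp 1 ≤ k := (le_max_right _ _).trans hk
  have hk0 : 0 < k := (Real.exp_pos 1).trans_le hke
  have hκ1 : 1 ≤ Real.log k := by
    rw [Real.le_log_iff_exp_le hk0]
    exact hke
  have ha : 0 < Real.log 2 := Real.log_pos (by norm_num)
  have hκ2 : Real.log 2 ≤ Real.log k := by
    have := Real.log_two_lt_d9
    linarith
  set g : ℕ := ⌈((S : ℝ) + 2) * Real.log k / Real.log 2⌉₊ with hg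
  set n0 : ℕ := ⌈((Q : ℝ) + 1) * Real.log k / Real.log 2⌉₊ with hn0
  have ceil1 : ∀ x : ℝ, 0 ≤ x → x * Real.log k ≤ (⌈x * Real.log k / Real.log 2⌉₊ : ℝ) * Real.log 2 ∧
      (⌈x * Real.log k / Real.log 2⌉₊ : ℝ) * Real.log 2 ≤ (x + 1) * Real.log k := by
    intro x hx
    constructor
    · have := Nat.le_ceil (x * Real.log k / Real.log 2)
      rwa [div_le_iff₀ ha] at this
    · have h1 : (⌈x * Real.log k / Real.log 2⌉₊ : ℝ) < x * Real.log k / Real.log 2 + 1 :=
        Nat.ceil_lt_add_one (by positivity)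
      have h2 := mul_lt_mul_of_pos_right h1 ha
      have h3 : (x * Real.log k / Real.log 2 + 1) * Real.log 2 = x * Real.log k + Real.log 2 := by
        field_simp
      linarith
  obtain ⟨hg1, hg2⟩ := ceil1 ((S : ℝ) + 2) (by positivity)
  obtain ⟨hn1, hn2⟩ := ceil1 ((Q : ℝ) + 1) (by positivity)
  have hg80 : k ^ 80 ≤ (2 : ℝ) ^ g := by
    rw [← Real.log_le_log_iff (by positivity) (by positivity), Real.log_pow, Real.log_pow]
    refine le_trans ?_ hg1
    apply mul_le_mul_of_nonneg_right _ (by linarith)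
    have : (78 : ℝ) ≤ S := by exact_mod_cast hS
    push_cast
    linarith
  set P : Finset ℕ := (range (Q / (S + 3))).image (fun i => n0 + g * i) with hP
  have hgpos : 0 < g := by
    rcases Nat.eq_zero_or_pos g with h | h
    · rw [h] at hg80
      have : 1 < k ^ 80 := one_lt_pow₀ (by have := Real.add_one_le_exp 1; linarith) (by norm_num)
      simp at hg80
      linarith
    · exact h
  have hPc : P.card = Q / (S + 3) := by
    rw [hP, card_image_of_injective, card_range]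
    intro i j hij
    simp only at hij
    exact Nat.eq_of_mul_eq_mul_left hgpos (by omega)
  have hPs : ∀ i ∈ P, ∀ j ∈ P, i < j → i + g ≤ j := by
    intro i hi j hj hij
    rw [hP, mem_image] at hi hj
    obtain ⟨a, -, rfl⟩ := hi
    obtain ⟨b, -, rfl⟩ := hj
    have h1 : a < b := by
      by_contra hc
      push Not at hc
      have := Nat.mul_le_mul_left g hc
      omega
    have h2 : g * (a + 1) ≤ g * b := Nat.mul_le_mul_left g h1
    have h3 : g * (a + 1) = g * a + g := by ring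
    omega
  have hsub : {y : Tor | ∃ z t N, (T k)^[t] z = y ∧ FBR k L0 ⌈2 * ((S : ℝ) + 3) / η⌉₊ N z t Q} ⊆
      {z : Tor | |V k z.2| ≤ 2} ∩ PayArea.Many η (Good.G k L0) P := by
    rintro y ⟨z, t, N, rfl, hF⟩
    exact many_of_FBR hke hη ((le_max_right _ _).trans hQ) ((le_max_left _ _).trans hQ)
      (Nat.le_ceil _) (hB k hkb) hF hg1 (by linarith) hn1 (by linarith)
  refine (measure_mono hsub).trans ((hA k hka g hg80 P hPs).trans ?_)
  apply ENNReal.ofReal_le_ofReal
  rw [hPc]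
  have h1 : θ ^ (Q / (S + 3)) ≤ 1 / θ * (θ ^ (1 / ((S : ℝ) + 3))) ^ Q := by
    rw [← Real.rpow_natCast (θ ^ (1 / ((S : ℝ) + 3))) Q, ← Real.rpow_mul hθ0.le, one_div θ,
      ← Real.rpow_neg_one, ← Real.rpow_add hθ0, ← Real.rpow_natCast]
    apply Real.rpow_le_rpow_of_exponent_ge hθ0 hθ1.le
    have h2 : Q < (Q / (S + 3) + 1) * (S + 3) := by
      have h7 := Nat.div_add_mod Q (S + 3)
      have h8 := Nat.mod_lt Q (show 0 < S + 3 by omega)
      have h9 : (Q / (S + 3) + 1) * (S + 3) = (S + 3) * (Q / (S + 3)) + (S + 3) := by ring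
      omega
    have h3 : (Q : ℝ) < (((Q / (S + 3) : ℕ) : ℝ) + 1) * ((S : ℝ) + 3) := by exact_mod_cast h2
    have h4 : (Q : ℝ) / ((S : ℝ) + 3) < ((Q / (S + 3) : ℕ) : ℝ) + 1 := by
      rw [div_lt_iff₀ hS3]
      exact h3
    have h5 : 1 / ((S : ℝ) + 3) * (Q : ℝ) = (Q : ℝ) / ((S : ℝ) + 3) := by ring
    rw [h5]
    linarith
  calc 2 / k * θ ^ (Q / (S + 3)) ≤ 2 / k * (1 / θ * (θ ^ (1 / ((S : ℝ) + 3))) ^ Q) := by gcongr
    _ = 2 / θ / k * (θ ^ (1 / ((S : ℝ) + 3))) ^ Q := by ring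

end Crest.Agent.R128.V5End
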