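import Crest.Agent.R128.Bridge882B
import Crest.Agent.R128.BridgeLo
import Crest.Agent.R128.V5End

/-!
# Row 128, V5-BRIDGE (helper882), part 3: `V5End.Br 86 X k L0`
-/

set_option autoImplicit false
open scoped Matrix.Norms.L2Operator
open Matrix Finset
open Crest.AnalysisR.StandardFamily

namespace Crest.Agent.R128.Bridge882

open Crest.Agent.R128 Crest.Agent.R128.TreeSum Crest.Agent.R128.Acc Crest.Agent.R128.Lam0
open Crest.Agent.R128.Hyp Crest.Agent.R128.ValNorm Crest.Agent.R128.AlignMn Crest.Agent.R128.Two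

section main

variable {k : ℝ} {z : Tor} {t : ℕ} {x : ℤ → ℝ}

theorem ap_orbit (k : ℝ) (z : Tor) (t n : ℕ) :
    AlignMn.ap k ((T k)^[t] z) n = V k ((T k)^[n + t] z).2 := by
  rw [AlignMn.ap, dz, Tz_natCast, ← Function.iterate_add_apply]

theorem am_orbit (k : ℝ) (z : Tor) {t n : ℕ} (h : n ≤ t) :
    am k ((T k)^[t] z) n = V k ((T k)^[t - n] z).2 := by
  rw [am, dz, ← Tz_natCast, ← Tz_natCast, ← Tz_add]
  congr 3
  omega

theorem Fld.h1 (F : Fld k z t x) : max |x (-1)| |x 0| = 1 := by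
  rw [F.x0]
  exact max_eq_right F.xm.le

theorem Fld.h0 (F : Fld k z t x) :
    max |x (-(t : ℤ) - 1)| |x (-(t : ℤ))| ≤ Real.exp (-bt (rr k z) t) := by
  have h := F.dom (-(t : ℤ)) le_rfl
  rw [neg_add_cancel] at h
  have e : Close.bz k z (Int.toNat 0) = 0 := Close.bz_zero k z
  rw [e, zero_sub] at h
  exact h

theorem left_foot_point (k : ℝ) (z : Tor) {i t : ℕ} (hit : i < t) :
    ((T k)^[t - i + 1] (DictY.Rev k ((T k)^[t] z))).swap = (T k)^[i] z := by
  rw [← Tz_natCast, DictY.Tz_Rev_nat, Rev_eq, Prod.swap_swap, ← Tz_one, ← Tz_add, ← Tz_natCast k t,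
    ← Tz_add, ← Tz_natCast k i]
  congr 1
  push_cast
  omega

variable {L0 N : ℕ} {i j l i' j' l' : ℕ}

/-- the right side -/
theorem side_right (hk : 10 ^ 10 ≤ k) (hL0 : 1000 ≤ L0) (F : Fld k z t x)
    (hc : Close.Cmp (Close.bz k z) (Real.log k) N i t j l)
    (hc' : Close.Cmp (Close.bz k z) (Real.log k) N i' t j' l') (hl1 : l' + 86 ≤ l)
    (hl2 : l ≤ l' + 90) (hF : Skel.Fresh k L0 z i j t) (hF' : Skel.Fresh k L0 z i' j' t)
    (hd : (L0 + 1 : ℕ) * (2 * Real.log k) ≤ Close.bz k z t - l * Real.log k)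
    (hlo : Real.exp (-(Close.bz k z t - l * Real.log k) - 3 * Real.log k) ≤
      max |x ((j - t : ℕ) - 1)| |x (j - t : ℕ)|) :
    Good.Side k L0 (Close.bz k z t - l * Real.log k) ((T k)^[t] z) (fun n => x (n : ℤ))
      (j - t) (j' - 1 - j) := by
  have hlk : 0 < Real.log k := Real.log_pos (by linarith)
  have htj := hc.tj
  have hit := hc.it
  obtain ⟨s1, s2⟩ := right_steps hk hL0 hc hc' (by omega) hl2 hF'.2
  have hw := steps_ge_right (by linarith) hc hd
  have hll : (l' : ℝ) + 86 ≤ l := by exact_mod_cast hl1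
  refine
    { hw := by omega
      val := ?_
      xrec := ?_
      x0 := F.x0
      x1 := ?_
      lo := ?_
      hi := ?_
      hM := by omega
      run := ?_
      fin := ?_ }
  · rw [← Function.iterate_add_apply, show j - t + t = j by omega]
    exact cval_of_val (by linarith) hL0 hF.2 (by omega)
  · intro n
    have h := F.rc ((n : ℤ) + 1)
    have e1 : ((n + 2 : ℕ) : ℤ) = (n : ℤ) + 1 + 1 := by push_cast; ring
    have e2 : ((n + 1 : ℕ) : ℤ) = (n : ℤ) + 1 := by push_cast; ring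
    show x ((n + 2 : ℕ) : ℤ) = AlignMn.ap k _ (n + 1) * x ((n + 1 : ℕ) : ℤ) - x (n : ℤ)
    rw [e1, h, AlignMn.ap, e2]
    congr 2
    ring
  · have h := F.dom 1 (by omega)
    have h2 : |x 1| ≤ Real.exp (Close.bz k z ((1 : ℤ) + t).toNat - Close.bz k z t) :=
      (le_max_right _ _).trans h
    refine h2.trans ?_
    rw [show ((1 : ℤ) + t).toNat = t + 1 by omega, ← Real.exp_zero]
    apply Real.exp_le_exp.mpr
    rcases Nat.eq_or_lt_of_le (show t + 1 ≤ j by omega) with h3 | h3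
    · rw [h3]
      linarith [hc.right, hc.lt_top]
    · linarith [hc.top (t + 1) (by omega) h3]
  · have e : (((j - t : ℕ) : ℤ) - 1) = ((j - t - 1 : ℕ) : ℤ) := by omega
    rw [e] at hlo
    exact hlo
  · refine (F.domR (p := j) (by omega)).trans (Real.exp_le_exp.mpr ?_)
    linarith [hc.right]
  · intro n h1 h2
    rw [ap_orbit]
    exact right_digit hF'.2 (by omega) (by omega) (by omega)
  · have h1 := F.domR (p := j' - 1) (by omega)
    have e1 : j - t + (j' - 1 - j) = j' - 1 - t := by omega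
    show max |x ((j - t + (j' - 1 - j) - 1 : ℕ) : ℤ)| |x ((j - t + (j' - 1 - j) : ℕ) : ℤ)| ≤ _
    rw [e1]
    refine h1.trans (Real.exp_le_exp.mpr ?_)
    have h2 := abs_le.mp (bz_step (by linarith : (1000 : ℝ) ≤ k) z (j' - 1))
    rw [show j' - 1 + 1 = j' by omega] at h2
    have h3 := hc'.right
    nlinarith [h2.1]

/-- the left side -/
theorem side_left (hk : 10 ^ 10 ≤ k) (hL0 : 1000 ≤ L0) (F : Fld k z t x)
    (hc : Close.Cmp (Close.bz k z) (Real.log k) N i t j l)
    (hc' : Close.Cmp (Close.bz k z) (Real.log k) N i' t j' l') (hl1 : l' + 86 ≤ l)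
    (hl2 : l ≤ l' + 90) (hF : Skel.Fresh k L0 z i j t) (hF' : Skel.Fresh k L0 z i' j' t)
    (hd : (L0 + 1 : ℕ) * (2 * Real.log k) ≤ Close.bz k z t - l * Real.log k)
    (hlo : Real.exp (-(Close.bz k z t - l * Real.log k) - 3 * Real.log k) ≤
      max |x (-(t - i : ℕ) - 1)| |x (-(t - i : ℕ))|) :
    Good.Side k L0 (Close.bz k z t - l * Real.log k) (DictY.Rev k ((T k)^[t] z))
      (fun n => x (-(n : ℤ))) (t - i + 1) (i - i' - 1) := by
  have hlk : 0 < Real.log k := Real.log_pos (by linarith)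
  have htj := hc.tj
  have hit := hc.it
  have hit' := hc'.it
  obtain ⟨s1, s2⟩ := left_steps hk hL0 hc hc' (by omega) hl2 hF'.1
  have hw := steps_ge_left (by linarith) hc hd
  have hll : (l' : ℝ) + 86 ≤ l := by exact_mod_cast hl1
  refine
    { hw := by omega
      val := ?_
      xrec := ?_
      x0 := ?_
      x1 := ?_
      lo := ?_
      hi := ?_
      hM := by omega
      run := ?_
      fin := ?_ }
  · rw [left_foot_point k z hit, Nat.add_sub_cancel]
    exact cval_of_val (by linarith) hL0 hF.1 le_rfl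
  · intro n
    have h := F.rc (-((n : ℤ) + 1))
    show x (-((n + 2 : ℕ) : ℤ)) = AlignMn.ap k _ (n + 1) * x (-((n + 1 : ℕ) : ℤ)) - x (-(n : ℤ))
    rw [← DictY.am_eq_ap, am]
    have e1 : -((n + 2 : ℕ) : ℤ) = -((n : ℤ) + 1) - 1 := by push_cast; ring
    have e2 : -((n + 1 : ℕ) : ℤ) = -((n : ℤ) + 1) := by push_cast; ring
    have e3 : -((n : ℤ) + 1) + 1 = -(n : ℤ) := by ring
    rw [e1, e2]
    rw [e3] at h
    linarith
  · simpa using F.x0
  · simpa using F.xm.le
  · have e : (-((t - i : ℕ) : ℤ) - 1) = -((t - i + 1 : ℕ) : ℤ) := by omega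
    rw [e, max_comm] at hlo
    show _ ≤ max |x (-((t - i + 1 - 1 : ℕ) : ℤ))| |x (-((t - i + 1 : ℕ) : ℤ))|
    rw [Nat.add_sub_cancel]
    exact hlo
  · have h := F.domL (p := i) hit.le
    show max |x (-((t - i + 1 - 1 : ℕ) : ℤ))| |x (-((t - i + 1 : ℕ) : ℤ))| ≤ _
    rw [Nat.add_sub_cancel]
    refine h.trans (Real.exp_le_exp.mpr ?_)
    linarith [hc.left]
  · intro n h1 h2
    rw [← DictY.am_eq_ap, am_orbit k z (by omega)]
    exact left_digit hF'.1 (by omega) (by omega) (by omega)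
  · have h1 := F.domL (p := i' + 1) (by omega)
    have e1 : t - i + 1 + (i - i' - 1) = t - i' := by omega
    show max |x (-((t - i + 1 + (i - i' - 1) - 1 : ℕ) : ℤ))|
      |x (-((t - i + 1 + (i - i' - 1) : ℕ) : ℤ))| ≤ _
    rw [e1]
    rw [show t - (i' + 1) + 1 = t - i' by omega, show t - (i' + 1) = t - i' - 1 by omega] at h1
    refine h1.trans (Real.exp_le_exp.mpr ?_)
    have h2 := abs_le.mp (bz_step (by linarith : (1000 : ℝ) ≤ k) z i')
    have h3 := hc'.left
    nlinarith [h2.2]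

/-- **BRIDGE** -/
theorem br {L0 : ℕ} (hL0 : 1000 ≤ L0) {k : ℝ} (hk : Real.exp 100 ≤ k) :
    V5End.Br 86 (2 * (L0 + 1)) k L0 := by
  intro N z t n l hX hn1 hn2 hSl hlow hfresh
  have hk10 : (10 : ℝ) ^ 10 ≤ k := by
    refine le_trans ?_ hk
    have h1 : (2 : ℝ) ≤ Real.exp 1 := by
      have := Real.add_one_le_exp (1 : ℝ)
      linarith
    calc (10 : ℝ) ^ 10 ≤ 2 ^ 100 := by norm_num
      _ ≤ (Real.exp 1) ^ 100 := pow_le_pow_left₀ (by norm_num) h1 100
      _ = Real.exp 100 := by rw [← Real.exp_nat_mul]; norm_num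
  have hlk : 0 < Real.log k := Real.log_pos (by linarith)
  have f0 := hfresh 0 (by norm_num)
  have f1 := hfresh 86 le_rfl
  unfold Skel.nf at f0 f1
  push Not at f0 f1
  obtain ⟨i, j, hc, hF⟩ := f0
  obtain ⟨i', j', hc', hF'⟩ := f1
  rw [Nat.sub_zero] at hc
  obtain ⟨x, F⟩ := exists_fld hlk.le hc
  have hl : (l : ℝ) * Real.log k ≤ 2 * l * Real.log k := by
    have : 0 ≤ (l : ℝ) * Real.log k := by positivity
    linarith
  have hlow' : Close.bz k z t ≤ 2 * l * Real.log k := by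
    refine hlow.trans ?_
    have : (0 : ℝ) ≤ ((86 : ℕ) : ℝ) * Real.log k := by positivity
    nlinarith
  have hX' : ((L0 + 1 : ℕ) : ℝ) * (2 * Real.log k) ≤ Close.bz k z t - l * Real.log k := by
    refine le_trans (le_of_eq ?_) (hX.trans hn1)
    push_cast
    ring
  have hhigh : l * Real.log k + 2 * L0 * Real.log k ≤ Close.bz k z t := by
    push_cast at hX'
    nlinarith
  have r1 := BridgeLo.lo_right hk hL0 hc hF (by omega) hlow' hhigh F.rc F.h1 F.h0
  have r2 := BridgeLo.lo_left hk hL0 hc hF (by omega) hlow' hhigh F.rc F.h1 F.h0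
  have hle : Real.exp (-(Close.bz k z t - l * Real.log k) - 3 * Real.log k) ≤
      Real.exp (-(Close.bz k z t - l * Real.log k) - 2 * Real.log k) :=
    Real.exp_le_exp.mpr (by linarith)
  have S1 := side_right hk10 hL0 F hc hc' (by omega) (by omega) hF hF' hX' (hle.trans r1)
  have S2 := side_left hk10 hL0 F hc hc' (by omega) (by omega) hF hF' hX' (hle.trans r2)
  refine ⟨F.crit ?_, Close.bz k z t - l * Real.log k, hn1, hn2,
    fun n => x (n : ℤ), fun n => x (-(n : ℤ)), _, _, _, _, S1, S2, by simp, ?_⟩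
  · simpa using S1.x1
  · have h := F.rc 0
    rw [dz_zero] at h
    norm_num at h
    show x ((1 : ℕ) : ℤ) + x (-((1 : ℕ) : ℤ)) = _ * x ((0 : ℕ) : ℤ)
    push_cast
    linarith

/-- in the form of 862's `v5_of` -/
theorem br_all : ∃ L1 : ℕ, ∀ L0, L1 ≤ L0 → ∃ X : ℕ, ∃ k₁ : ℝ, ∀ k, k₁ ≤ k → V5End.Br 86 X k L0 :=
  ⟨1000, fun L0 hL0 => ⟨2 * (L0 + 1), Real.exp 100, fun _ hk => br hL0 hk⟩⟩

end main

end Crest.Agent.R128.Bridge882
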