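import Crest.Agent.R128.Bridge882C
import Crest.Agent.R128.FootLo
import Crest.Agent.R128.V5FinX

/-!
# Row 128, V5-BRIDGE (helper882), part 4: `V5FinX.BridgeD Good.G 88 0`
-/

set_option autoImplicit false
open Matrix Finset
open Crest.AnalysisR.StandardFamily

namespace Crest.Agent.R128.Bridge882

open Crest.Agent.R128 Crest.Agent.R128.TreeSum Crest.Agent.R128.Acc Crest.Agent.R128.Lam0
open Crest.Agent.R128.ValNorm Crest.Agent.R128.AlignMn Crest.Agent.R128.Two

/-- two fresh levels `l`, `l'` with `l' + 86 ≤ l ≤ l' + 90` give the good event -/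
theorem good_of_two {k : ℝ} (hk : 10 ^ 10 ≤ k) {L0 N : ℕ} (hL0 : 1000 ≤ L0) {z : Tor} {t l l' n : ℕ}
    (hl1 : l' + 86 ≤ l) (hl2 : l ≤ l' + 90) (f0 : ¬ Skel.nf k L0 N z t l)
    (f1 : ¬ Skel.nf k L0 N z t l')
    (hn1 : n * Real.log 2 ≤ Close.bz k z t - l * Real.log k)
    (hn2 : Close.bz k z t - l * Real.log k ≤ n * Real.log 2 + 2 * Real.log k)
    (hX : ((L0 + 1 : ℕ) : ℝ) * (2 * Real.log k) ≤ Close.bz k z t - l * Real.log k) :
    (T k)^[t] z ∈ Good.G k L0 n := by
  have hlk : 0 < Real.log k := Real.log_pos (by linarith)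
  unfold Skel.nf at f0 f1
  push Not at f0 f1
  obtain ⟨i, j, hc, hF⟩ := f0
  obtain ⟨i', j', hc', hF'⟩ := f1
  obtain ⟨x, F⟩ := exists_fld hlk.le hc
  have htj := hc.tj
  have hit := hc.it
  have hk6 : (10 : ℝ) ^ 6 ≤ k := by linarith
  have r1 := FootLo.lo_right (Lr := l * Real.log k) hk6 hL0 htj hF.2 hc.right
    (fun m h1 h2 => hc.above m (by omega) h2) F.rc F.x0
  have r2 := FootLo.lo_left (Lr := l * Real.log k) hk6 hL0 hit hF.1 hc.left
    (fun m h1 h2 => hc.above m h1 (by omega)) F.rc F.x0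
  have hle : Real.exp (-(Close.bz k z t - l * Real.log k) - 3 * Real.log k) ≤
      Real.exp (-(Close.bz k z t - l * Real.log k) - 2 * Real.log k) :=
    Real.exp_le_exp.mpr (by linarith)
  have S1 := side_right hk hL0 F hc hc' hl1 hl2 hF hF' hX (hle.trans r1)
  have S2 := side_left hk hL0 F hc hc' hl1 hl2 hF hF' hX (hle.trans r2)
  refine ⟨F.crit ?_, Close.bz k z t - l * Real.log k, hn1, hn2,
    fun n => x (n : ℤ), fun n => x (-(n : ℤ)), _, _, _, _, S1, S2, by simp, ?_⟩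
  · simpa using S1.x1
  · have h := F.rc 0
    rw [dz_zero] at h
    norm_num at h
    show x ((1 : ℕ) : ℤ) + x (-((1 : ℕ) : ℤ)) = _ * x ((0 : ℕ) : ℤ)
    push_cast
    linarith

/-- **BRIDGE in the form of `V5FinX`** -/
theorem bridgeD : V5FinX.BridgeD Good.G 88 0 := by
  refine ⟨1000, fun L hL => ⟨2 * (L + 1), 10 ^ 10, fun k hk z t N r n hr hmt hfr h1 h2 => ?_⟩⟩
  have hk1 : (1 : ℝ) < k := by linarith
  have hlk : 0 < Real.log k := Real.log_pos hk1
  have hc : r + 88 < ⌈Close.bz k z t / Real.log k⌉₊ := hmt.trans_le Close.mt_le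
  have f0 := hfr (r + 2) (by omega) (by omega)
  have f1 := hfr (r + 88) (by omega) (by omega)
  unfold Close.lv at f0 f1
  set c := ⌈Close.bz k z t / Real.log k⌉₊ with hcdef
  have hβ0 : 0 ≤ Close.bz k z t / Real.log k := by
    by_contra hcon
    push Not at hcon
    have : c = 0 := Nat.ceil_eq_zero.mpr hcon.le
    omega
  have hu : Close.bz k z t ≤ c * Real.log k := by
    have h3 : Close.bz k z t / Real.log k ≤ c := Nat.le_ceil _
    rwa [div_le_iff₀ hlk] at h3
  have hl : (c - 1 : ℝ) * Real.log k < Close.bz k z t := by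
    have h3 : (c : ℝ) < Close.bz k z t / Real.log k + 1 := Nat.ceil_lt_add_one hβ0
    have h4 : (c : ℝ) - 1 < Close.bz k z t / Real.log k := by linarith
    rwa [lt_div_iff₀ hlk] at h4
  have e1 : ((c - (r + 2) : ℕ) : ℝ) = c - (r + 2) := by
    rw [Nat.cast_sub (by omega)]
    push_cast
    ring
  have hd1 : (r + 1 : ℝ) * Real.log k ≤ Close.bz k z t - ((c - (r + 2) : ℕ) : ℝ) * Real.log k := by
    rw [e1]
    nlinarith
  have hd2 : Close.bz k z t - ((c - (r + 2) : ℕ) : ℝ) * Real.log k ≤ (r + 2 : ℝ) * Real.log k := by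
    rw [e1]
    nlinarith
  push_cast at h1 h2
  rw [add_zero] at h1 h2
  have hrL : (2 * (L + 1) : ℝ) ≤ r := by exact_mod_cast hr
  refine good_of_two hk hL (by omega) (by omega) f0 f1 (h2.trans hd1) ?_ ?_
  · refine hd2.trans ?_
    nlinarith
  · refine le_trans ?_ hd1
    push_cast
    nlinarith

end Crest.Agent.R128.Bridge882
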