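import Mathlib
import Crest.Agent.R128.Good

/-! Row 128, V5-BRIDGE (helper469): selection of the foot of one side in a window of feet. -/

set_option autoImplicit false
open Crest.Agent.R128 Crest.Agent.R128.AlignMn Crest.Agent.R128.DictY Crest.Agent.R128.Lam0
open Crest.Agent.R128.Good

namespace Crest.Agent.R128.BridgeSel

theorem abs_ap_le {k : ℝ} (hk : 4 ≤ k) (y : Tor) (n : ℕ) : |ap k y n| + 1 ≤ 8 * k := by
  have h := abs_V_le hk ((T k)^[n] y)
  have e : ap k y n = V k ((T k)^[n] y).2 := by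
    rw [ap, dz, Two.Tz_natCast]
  rw [e]
  linarith

/-- one step of the recurrence changes the size by at most `8 k` -/
theorem step_le {k : ℝ} (hk : 4 ≤ k) {y : Tor} {x : ℕ → ℝ}
    (xrec : ∀ n, x (n + 2) = ap k y (n + 1) * x (n + 1) - x n) {n : ℕ} (hn : 1 ≤ n) :
    max |x (n - 1)| |x n| ≤ 8 * k * max |x n| |x (n + 1)| := by
  obtain ⟨m, rfl⟩ : ∃ m, n = m + 1 := ⟨n - 1, by omega⟩
  have e : m + 1 - 1 = m := by omega
  rw [e]
  have h1 : x m = ap k y (m + 1) * x (m + 1) - x (m + 2) := by rw [xrec m]; ring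
  have h2 := abs_ap_le hk y (m + 1)
  have h3 : |x (m + 1)| ≤ max |x (m + 1)| |x (m + 1 + 1)| := le_max_left _ _
  have h4 : |x (m + 2)| ≤ max |x (m + 1)| |x (m + 1 + 1)| := le_max_right _ _
  have h0 : 0 ≤ max |x (m + 1)| |x (m + 1 + 1)| := (abs_nonneg _).trans h3
  refine max_le ?_ ?_
  · calc |x m| ≤ |ap k y (m + 1)| * |x (m + 1)| + |x (m + 2)| := by
          rw [h1]
          refine (abs_sub _ _).trans ?_
          rw [abs_mul]
      _ ≤ |ap k y (m + 1)| * max |x (m + 1)| |x (m + 1 + 1)| +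
            max |x (m + 1)| |x (m + 1 + 1)| := by
          gcongr
      _ ≤ 8 * k * max |x (m + 1)| |x (m + 1 + 1)| := by nlinarith
  · nlinarith

/-- two steps -/
theorem steps_le {k : ℝ} (hk : 4 ≤ k) {y : Tor} {x : ℕ → ℝ}
    (xrec : ∀ n, x (n + 2) = ap k y (n + 1) * x (n + 1) - x n) {n d : ℕ} (hn : 1 ≤ n) :
    max |x (n - 1)| |x n| ≤ (8 * k) ^ d * max |x (n + d - 1)| |x (n + d)| := by
  induction d with
  | zero => simp
  | succ d ih =>
    refine ih.trans ?_
    have h := step_le hk xrec (n := n + d) (by omega)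
    have e : n + (d + 1) - 1 = n + d := by omega
    rw [e, pow_succ, mul_assoc]
    exact mul_le_mul_of_nonneg_left h (by positivity)

/-- **selection of the foot.** -/
theorem side_of_feet {k : ℝ} (hk : 64 ≤ k) {L : ℕ} {y : Tor} {x : ℕ → ℝ} {ρ : ℝ}
    (xrec : ∀ n, x (n + 2) = ap k y (n + 1) * x (n + 1) - x n) (x0 : |x 0| = 1) (x1 : |x 1| ≤ 1)
    {w : ℕ → ℕ} {a b : ℕ} (hab : a ≤ b) (hba : b ≤ a + 100)
    (hwL : ∀ s, a ≤ s → s ≤ b → L < w s)
    (hval : ∀ s, a ≤ s → s ≤ b → CVal k L (((T k)^[w s] y).swap) (w s - 1))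
    (hstep : ∀ s, a ≤ s → s < b → w s ≤ w (s + 1) ∧ w (s + 1) ≤ w s + 2)
    (hlo : Real.exp (-ρ) ≤ max |x (w a - 1)| |x (w a)|)
    (hhi : max |x (w b - 1)| |x (w b)| ≤ Real.exp (-ρ - 80 * Real.log k))
    (reg : ∀ n, w a ≤ n → n ≤ w b → k ^ ((2 : ℝ) / 3) ≤ |ap k y n|) :
    ∃ W M, Side k L ρ y x W M := by
  classical
  have hk0 : 0 < k := by linarith
  have hlk : 0 < Real.log k := Real.log_pos (by linarith)
  -- monotone
  have hmono : ∀ s s', a ≤ s → s ≤ s' → s' ≤ b → w s ≤ w s' ∧ w s' ≤ w s + 2 * (s' - s) := by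
    intro s s' h1 h2 h3
    induction s', h2 using Nat.le_induction with
    | base => simp
    | succ s' hs' ih =>
      have h4 := ih (by omega)
      have h5 := hstep s' (by omega) (by omega)
      omega
  have hex : ∃ s, a ≤ s ∧ s ≤ b ∧ max |x (w s - 1)| |x (w s)| ≤ Real.exp (-ρ) := by
    refine ⟨b, hab, le_rfl, hhi.trans (Real.exp_le_exp.2 ?_)⟩
    linarith
  set s := Nat.find hex with hs
  obtain ⟨hs1, hs2, hs3⟩ := Nat.find_spec hex
  rw [← hs] at hs1 hs2 hs3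
  have h8 : (8 * k) ^ 2 ≤ k ^ 3 := by nlinarith [mul_pos hk0 hk0]
  have hlo' : Real.exp (-ρ - 3 * Real.log k) ≤ max |x (w s - 1)| |x (w s)| := by
    have e3 : Real.exp (-ρ - 3 * Real.log k) = Real.exp (-ρ) / k ^ 3 := by
      rw [Real.exp_sub]
      congr 1
      rw [show (3 : ℝ) * Real.log k = ((3 : ℕ) : ℝ) * Real.log k by norm_num, Real.exp_nat_mul,
        Real.exp_log hk0]
    rw [e3, div_le_iff₀ (by positivity)]
    rcases Nat.eq_or_lt_of_le hs1 with h | h
    · rw [← h]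
      have h1 : 1 ≤ k ^ 3 := one_le_pow₀ (by linarith)
      have h2 : 0 ≤ max |x (w a - 1)| |x (w a)| := (abs_nonneg _).trans (le_max_left _ _)
      nlinarith
    · have h1 : ¬ (a ≤ s - 1 ∧ s - 1 ≤ b ∧
          max |x (w (s - 1) - 1)| |x (w (s - 1))| ≤ Real.exp (-ρ)) :=
        Nat.find_min hex (by omega)
      have h2 : Real.exp (-ρ) < max |x (w (s - 1) - 1)| |x (w (s - 1))| := by
        by_contra h3
        exact h1 ⟨by omega, by omega, not_lt.1 h3⟩
      have h3 := hstep (s - 1) (by omega) (by omega)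
      rw [show s - 1 + 1 = s by omega] at h3
      obtain ⟨d, hd⟩ : ∃ d, w s = w (s - 1) + d := ⟨w s - w (s - 1), by omega⟩
      have hd2 : d ≤ 2 := by omega
      have h4 := steps_le (by linarith : (4 : ℝ) ≤ k) xrec (n := w (s - 1)) (d := d)
        (by have := hwL (s - 1) (by omega) (by omega); omega)
      rw [← hd] at h4
      have h5 : (8 * k) ^ d ≤ k ^ 3 :=
        (pow_le_pow_right₀ (by linarith) hd2).trans h8
      have h6 : 0 ≤ max |x (w s - 1)| |x (w s)| := (abs_nonneg _).trans (le_max_left _ _)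
      calc Real.exp (-ρ) ≤ (8 * k) ^ d * max |x (w s - 1)| |x (w s)| := h2.le.trans h4
        _ ≤ k ^ 3 * max |x (w s - 1)| |x (w s)| := mul_le_mul_of_nonneg_right h5 h6
        _ = _ := mul_comm _ _
  obtain ⟨h9, h10⟩ := hmono s b hs1 hs2 le_rfl
  obtain ⟨h11, h12⟩ := hmono a s le_rfl hs1 hs2
  have hM : w s + (w b - w s) = w b := by omega
  refine ⟨w s, w b - w s, ⟨hwL s hs1 hs2, hval s hs1 hs2, xrec, x0, x1, hlo', hs3, by omega, ?_, ?_⟩⟩
  · intro n h1 h2
    exact reg n (by omega) (by omega)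
  · rw [hM]
    exact hhi

end Crest.Agent.R128.BridgeSel
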