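import Mathlib

set_option autoImplicit false

open Finset

namespace Crest.Agent.R128.Tele

variable {E : Type*} [NormedRing E]

/-- ordered product `B (j+n-1) * ... * B (j+1) * B j` -/
def seg (B : ℕ → E) (j : ℕ) : ℕ → E
  | 0 => 1
  | (n + 1) => B (j + n) * seg B j n

@[simp] theorem seg_zero (B : ℕ → E) (j : ℕ) : seg B j 0 = 1 := rfl

theorem seg_succ (B : ℕ → E) (j n : ℕ) : seg B j (n + 1) = B (j + n) * seg B j n := rfl

theorem seg_add (B : ℕ → E) (j m n : ℕ) : seg B j (m + n) = seg B (j + m) n * seg B j m := by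
  induction n with
  | zero => simp
  | succ n ih =>
    rw [← Nat.add_assoc, seg_succ, ih, seg_succ, mul_assoc, Nat.add_assoc j m n]

theorem seg_succ' (B : ℕ → E) (j n : ℕ) : seg B j (n + 1) = seg B (j + 1) n * B j := by
  rw [Nat.add_comm n 1, seg_add]
  simp [seg_succ]

/-- telescoping identity -/
theorem seg_sub (B B' : ℕ → E) (j n : ℕ) :
    seg B' j n - seg B j n =
      ∑ m ∈ range n, seg B' (j + m + 1) (n - m - 1) * (B' (j + m) - B (j + m)) * seg B j m := by
  induction n with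
  | zero => simp
  | succ n ih =>
    rw [Finset.sum_range_succ]
    have h1 : ∑ m ∈ range n, seg B' (j + m + 1) (n + 1 - m - 1) * (B' (j + m) - B (j + m)) *
        seg B j m = B' (j + n) * (seg B' j n - seg B j n) := by
      rw [ih, Finset.mul_sum]
      apply Finset.sum_congr rfl
      intro m hm
      have hm' : m < n := Finset.mem_range.1 hm
      have e1 : n + 1 - m - 1 = (n - m - 1) + 1 := by omega
      rw [e1, seg_succ]
      have e2 : j + m + 1 + (n - m - 1) = j + n := by omega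
      rw [e2]
      simp only [mul_assoc]
    rw [h1, seg_succ, seg_succ]
    have e3 : n + 1 - n - 1 = 0 := by omega
    rw [e3, seg_zero, one_mul, mul_sub, sub_mul]
    abel

/-- Telescoping estimate, general form: `η s` bounds the relative effect of replacing the `s`-th
block; then every final segment changes by at most the factor `2 * ∑ η`. -/
theorem tele {B B' : ℕ → E} {η : ℕ → ℝ} (L : ℕ) (hη : ∀ s, s < L → 0 ≤ η s)
    (hsum : ∑ s ∈ range L, η s ≤ 1 / 4)
    (h : ∀ j s, j ≤ s → s < L →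
      ‖seg B (s + 1) (L - s - 1)‖ * ‖B' s - B s‖ * ‖seg B j (s - j)‖ ≤ η s * ‖seg B j (L - j)‖) :
    ∀ n, n ≤ L → ‖seg B' (L - n) n - seg B (L - n) n‖ ≤
      2 * (∑ s ∈ Ico (L - n) L, η s) * ‖seg B (L - n) n‖ := by
  have hIco : ∀ n, n ≤ L → ∑ s ∈ Ico (L - n) L, η s ≤ 1 / 4 := by
    intro n hn
    refine le_trans ?_ hsum
    apply Finset.sum_le_sum_of_subset_of_nonneg
    · intro s hs
      simp only [Finset.mem_Ico, Finset.mem_range] at hs ⊢
      exact hs.2
    · intro s hs _
      exact hη s (Finset.mem_range.1 hs)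
  intro n
  induction n using Nat.strong_induction_on with
  | _ n ih =>
    intro hn
    rw [seg_sub]
    have key : ∀ m ∈ range n,
        ‖seg B' (L - n + m + 1) (n - m - 1) * (B' (L - n + m) - B (L - n + m)) *
          seg B (L - n) m‖ ≤ 2 * η (L - n + m) * ‖seg B (L - n) n‖ := by
      intro m hm
      have hm' : m < n := Finset.mem_range.1 hm
      have ihm := ih (n - m - 1) (by omega) (by omega)
      have e1 : L - (n - m - 1) = L - n + m + 1 := by omega
      rw [e1] at ihm
      have hs := hIco (n - m - 1) (by omega)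
      rw [e1] at hs
      have hge : 0 ≤ ‖seg B (L - n + m + 1) (n - m - 1)‖ := norm_nonneg _
      have h2 : ‖seg B' (L - n + m + 1) (n - m - 1)‖ ≤
          2 * ‖seg B (L - n + m + 1) (n - m - 1)‖ := by
        have := norm_le_norm_sub_add (seg B' (L - n + m + 1) (n - m - 1))
          (seg B (L - n + m + 1) (n - m - 1))
        nlinarith
      have h3 := h (L - n) (L - n + m) (by omega) (by omega)
      have e2 : L - (L - n + m) - 1 = n - m - 1 := by omega
      have e3 : L - n + m - (L - n) = m := by omega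
      have e4 : L - (L - n) = n := by omega
      rw [e2, e3, e4] at h3
      calc ‖seg B' (L - n + m + 1) (n - m - 1) * (B' (L - n + m) - B (L - n + m)) *
          seg B (L - n) m‖
          ≤ ‖seg B' (L - n + m + 1) (n - m - 1)‖ * ‖B' (L - n + m) - B (L - n + m)‖ *
            ‖seg B (L - n) m‖ :=
              le_trans (norm_mul_le _ _) (mul_le_mul_of_nonneg_right (norm_mul_le _ _)
                (norm_nonneg _))
        _ ≤ 2 * ‖seg B (L - n + m + 1) (n - m - 1)‖ * ‖B' (L - n + m) - B (L - n + m)‖ *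
            ‖seg B (L - n) m‖ := by
              apply mul_le_mul_of_nonneg_right _ (norm_nonneg _)
              exact mul_le_mul_of_nonneg_right h2 (norm_nonneg _)
        _ = 2 * (‖seg B (L - n + m + 1) (n - m - 1)‖ * ‖B' (L - n + m) - B (L - n + m)‖ *
            ‖seg B (L - n) m‖) := by ring
        _ ≤ 2 * (η (L - n + m) * ‖seg B (L - n) n‖) :=
              mul_le_mul_of_nonneg_left h3 (by norm_num)
        _ = 2 * η (L - n + m) * ‖seg B (L - n) n‖ := by ring
    refine le_trans (norm_sum_le _ _) (le_trans (Finset.sum_le_sum key) ?_)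
    rw [← Finset.sum_mul, ← Finset.mul_sum]
    have e5 : ∑ m ∈ range n, η (L - n + m) = ∑ s ∈ Ico (L - n) L, η s := by
      rw [Finset.sum_Ico_eq_sum_range]
      have : L - (L - n) = n := by omega
      rw [this]
    rw [e5]

/-- Telescoping estimate, final form. -/
theorem tele_half {B B' : ℕ → E} {η : ℕ → ℝ} (L : ℕ) (hη : ∀ s, s < L → 0 ≤ η s)
    (hsum : ∑ s ∈ range L, η s ≤ 1 / 4)
    (h : ∀ j s, j ≤ s → s < L →
      ‖seg B (s + 1) (L - s - 1)‖ * ‖B' s - B s‖ * ‖seg B j (s - j)‖ ≤ η s * ‖seg B j (L - j)‖) :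
    ‖seg B' 0 L - seg B 0 L‖ ≤ (1 / 2) * ‖seg B 0 L‖ ∧ ‖seg B' 0 L‖ ≤ 2 * ‖seg B 0 L‖ := by
  have h1 := tele L hη hsum h L le_rfl
  have e : L - L = 0 := by omega
  rw [e] at h1
  have e2 : ∑ s ∈ Ico 0 L, η s = ∑ s ∈ range L, η s := by
    rw [Finset.range_eq_Ico]
  rw [e2] at h1
  have h2 : ‖seg B' 0 L - seg B 0 L‖ ≤ (1 / 2) * ‖seg B 0 L‖ := by
    have := norm_nonneg (seg B 0 L)
    nlinarith
  refine ⟨h2, ?_⟩
  have := norm_le_norm_sub_add (seg B' 0 L) (seg B 0 L)
  have := norm_nonneg (seg B 0 L)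
  linarith

/-- Quasi-geodesic version: if the base products are quasi-geodesic at every block with constant
`G` and the `s`-th block changes by at most `δ s` times its norm, with `G * ∑ δ ≤ 1/4`, then the
product at the moved point is at most twice the product at the base point. -/
theorem tele_geod {B B' : ℕ → E} {δ : ℕ → ℝ} {G : ℝ} (L : ℕ) (hG : 0 ≤ G)
    (hδ : ∀ s, s < L → 0 ≤ δ s) (hsum : G * ∑ s ∈ range L, δ s ≤ 1 / 4)
    (hB : ∀ s, s < L → ‖B' s - B s‖ ≤ δ s * ‖B s‖)
    (hgeo : ∀ j s, j ≤ s → s < L →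
      ‖seg B (s + 1) (L - s - 1)‖ * ‖B s‖ * ‖seg B j (s - j)‖ ≤ G * ‖seg B j (L - j)‖) :
    ‖seg B' 0 L - seg B 0 L‖ ≤ (1 / 2) * ‖seg B 0 L‖ ∧ ‖seg B' 0 L‖ ≤ 2 * ‖seg B 0 L‖ := by
  apply tele_half (η := fun s => G * δ s) L
  · intro s hs
    exact mul_nonneg hG (hδ s hs)
  · rw [← Finset.mul_sum]
    exact hsum
  · intro j s hj hs
    have h1 := hgeo j s hj hs
    have h2 := hB s hs
    have a1 := norm_nonneg (seg B (s + 1) (L - s - 1))
    have a2 := norm_nonneg (seg B j (s - j))
    calc ‖seg B (s + 1) (L - s - 1)‖ * ‖B' s - B s‖ * ‖seg B j (s - j)‖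
        ≤ ‖seg B (s + 1) (L - s - 1)‖ * (δ s * ‖B s‖) * ‖seg B j (s - j)‖ :=
          mul_le_mul_of_nonneg_right (mul_le_mul_of_nonneg_left h2 a1) a2
      _ = δ s * (‖seg B (s + 1) (L - s - 1)‖ * ‖B s‖ * ‖seg B j (s - j)‖) := by ring
      _ ≤ δ s * (G * ‖seg B j (L - j)‖) := mul_le_mul_of_nonneg_left h1 (hδ s hs)
      _ = G * δ s * ‖seg B j (L - j)‖ := by ring

end Crest.Agent.R128.Tele
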