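import Crest.Agent.R128.Hyp
import Crest.Agent.R128.Tele

set_option autoImplicit false

/-!
# The weighted chain inequality and last exits

`(CH)`: for a sequence `g` of matrices of determinant one, with `ρ j = ‖g j‖` and
`β j = ‖g (j+1) (g j)⁻¹‖`,
`‖g n (g m)⁻¹‖ ≤ ρ m ρ n Σ_{m ≤ j < n} β j / (ρ j ρ (j+1))`.
This is the exact replacement of the "last exit geodesic" lemma.
-/

open scoped Matrix.Norms.L2Operator
open Matrix Finset

namespace Crest.Agent.R128.Chain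

open Crest.Agent.R128.Hyp

/-- the Cayley (chordal) distance, which satisfies the triangle inequality -/
noncomputable def ch (x y : M2) : ℝ := ‖y * x⁻¹‖ / (‖x‖ * ‖y‖)

theorem norm_pos' {x : M2} (hx : x.det = 1) : 0 < ‖x‖ := lt_of_lt_of_le one_pos (one_le_norm hx)

theorem ch_nonneg (x y : M2) : 0 ≤ ch x y := by
  unfold ch
  positivity

theorem norm_symm {x y : M2} (hx : x.det = 1) (hy : y.det = 1) : ‖x * y⁻¹‖ = ‖y * x⁻¹‖ := by
  have h1 : (y * x⁻¹)⁻¹ = x * y⁻¹ := by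
    rw [Matrix.mul_inv_rev, Matrix.nonsing_inv_nonsing_inv _ (by rw [hx]; exact isUnit_one)]
  rw [← h1, ninv (det_mul_inv hy hx)]

theorem ch_comm {x y : M2} (hx : x.det = 1) (hy : y.det = 1) : ch x y = ch y x := by
  unfold ch
  rw [norm_symm hx hy, mul_comm ‖x‖]

/-- triangle inequality for `ch` (Ptolemy) -/
theorem ch_triangle {x y z : M2} (hx : x.det = 1) (hy : y.det = 1) (hz : z.det = 1) :
    ch x z ≤ ch x y + ch y z := by
  have hp := ptolemy (x := x) (y := y) (z := z) hx hy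
  have px := norm_pos' hx
  have py := norm_pos' hy
  have pz := norm_pos' hz
  unfold ch
  rw [norm_symm hx hy] at hp
  rw [div_add_div _ _ (by positivity) (by positivity), div_le_div_iff₀ (by positivity)
    (by positivity)]
  have e1 : ‖z * x⁻¹‖ * (‖x‖ * ‖y‖ * (‖y‖ * ‖z‖)) =
      (‖z * x⁻¹‖ * ‖y‖) * (‖x‖ * ‖y‖ * ‖z‖) := by ring
  have e2 : (‖y * x⁻¹‖ * (‖y‖ * ‖z‖) + ‖x‖ * ‖y‖ * ‖z * y⁻¹‖) * (‖x‖ * ‖z‖) =
      (‖z * y⁻¹‖ * ‖x‖ + ‖z‖ * ‖y * x⁻¹‖) * (‖x‖ * ‖y‖ * ‖z‖) := by ring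
  rw [e1, e2]
  exact mul_le_mul_of_nonneg_right hp (by positivity)

/-- the weights of the chain inequality -/
noncomputable def wt (g : ℕ → M2) (j : ℕ) : ℝ := ch (g j) (g (j + 1))

theorem wt_nonneg (g : ℕ → M2) (j : ℕ) : 0 ≤ wt g j := ch_nonneg _ _

theorem ch_chain {g : ℕ → M2} (hg : ∀ i, (g i).det = 1) {m n : ℕ} (hmn : m < n) :
    ch (g m) (g n) ≤ ∑ j ∈ Ico m n, wt g j := by
  induction n with
  | zero => exact absurd hmn (Nat.not_lt_zero _)
  | succ n ih =>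
    rw [Finset.sum_Ico_succ_top (Nat.lt_succ_iff.mp hmn)]
    rcases Nat.lt_succ_iff_lt_or_eq.mp hmn with h | h
    · exact (ch_triangle (hg m) (hg n) (hg (n + 1))).trans (add_le_add (ih h) le_rfl)
    · subst h
      simp [wt]

/-- **(CH)** the weighted chain inequality -/
theorem chain {g : ℕ → M2} (hg : ∀ i, (g i).det = 1) {m n : ℕ} (hmn : m < n) :
    ‖g n * (g m)⁻¹‖ ≤ ‖g m‖ * ‖g n‖ * ∑ j ∈ Ico m n, wt g j := by
  have h1 := ch_chain hg hmn
  have pm := norm_pos' (hg m)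
  have pn := norm_pos' (hg n)
  unfold ch at h1
  rw [div_le_iff₀ (by positivity)] at h1
  linarith

/-- lower bound -/
theorem le_transfer {g : ℕ → M2} (hg : ∀ i, (g i).det = 1) (m n : ℕ) :
    ‖g n‖ ≤ ‖g n * (g m)⁻¹‖ * ‖g m‖ := by
  have h : g n = (g n * (g m)⁻¹) * g m := by
    rw [Matrix.mul_assoc, Matrix.nonsing_inv_mul _ (by rw [hg m]; exact isUnit_one),
      Matrix.mul_one]
  conv_lhs => rw [h]
  exact Matrix.l2_opNorm_mul _ _

/-- weighted duration after the last exit `e` of a sphere of radius `R` -/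
noncomputable def dur (g : ℕ → M2) (R : ℝ) (e n : ℕ) : ℝ := R ^ 2 * ∑ j ∈ Ico e n, wt g j

theorem dur_nonneg (g : ℕ → M2) (R : ℝ) (e n : ℕ) : 0 ≤ dur g R e n := by
  unfold dur
  exact mul_nonneg (sq_nonneg _) (Finset.sum_nonneg fun j _ => wt_nonneg g j)

theorem dur_mono (g : ℕ → M2) (R : ℝ) (e : ℕ) {n n' : ℕ} (h : n ≤ n') :
    dur g R e n ≤ dur g R e n' := by
  unfold dur
  apply mul_le_mul_of_nonneg_left _ (sq_nonneg _)
  exact Finset.sum_le_sum_of_subset_of_nonneg (Finset.Ico_subset_Ico_right h)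
    (fun j _ _ => wt_nonneg g j)

/-- **transfer from a last exit**: if `‖g e‖ ≤ C R` then, for every later `n`,
`‖A_{e→n}‖ ≤ C (‖g n‖ / R) dur` -/
theorem transfer_le {g : ℕ → M2} (hg : ∀ i, (g i).det = 1) {R C : ℝ} (hR : 0 < R) {e n N : ℕ}
    (he : ‖g e‖ ≤ C * R) (hen : e < n) (hnN : n ≤ N) :
    ‖g n * (g e)⁻¹‖ ≤ C * (‖g n‖ / R) * dur g R e N := by
  have h1 := chain hg hen
  have h2 : ∑ j ∈ Ico e n, wt g j ≤ ∑ j ∈ Ico e N, wt g j :=
    Finset.sum_le_sum_of_subset_of_nonneg (Finset.Ico_subset_Ico_right hnN)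
      (fun j _ _ => wt_nonneg g j)
  have h0 : 0 ≤ ∑ j ∈ Ico e N, wt g j := Finset.sum_nonneg fun j _ => wt_nonneg g j
  have pn := norm_pos' (hg n)
  calc ‖g n * (g e)⁻¹‖ ≤ ‖g e‖ * ‖g n‖ * ∑ j ∈ Ico e n, wt g j := h1
    _ ≤ ‖g e‖ * ‖g n‖ * ∑ j ∈ Ico e N, wt g j :=
        mul_le_mul_of_nonneg_left h2 (by positivity)
    _ ≤ (C * R) * ‖g n‖ * ∑ j ∈ Ico e N, wt g j := by gcongr
    _ = C * (‖g n‖ / R) * dur g R e N := by
        unfold dur
        field_simp

/-- if the path stays outside the ball of radius `R` after `e`, the weighted duration is at most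
`(n - e) * max β` -/
theorem dur_le {g : ℕ → M2} (hg : ∀ i, (g i).det = 1) {R b : ℝ} (hR : 0 < R) {e n : ℕ}
    (hb : ∀ j, e ≤ j → j < n → ‖g (j + 1) * (g j)⁻¹‖ ≤ b)
    (hlow : ∀ j, e ≤ j → j ≤ n → R ≤ ‖g j‖) :
    dur g R e n ≤ b * (n - e : ℕ) := by
  unfold dur
  rw [Finset.mul_sum]
  have h : ∀ j ∈ Ico e n, R ^ 2 * wt g j ≤ b := by
    intro j hj
    rw [Finset.mem_Ico] at hj
    have h1 := hlow j hj.1 hj.2.le
    have h2 := hlow (j + 1) (by omega) (by omega)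
    have p1 := norm_pos' (hg j)
    have p2 := norm_pos' (hg (j + 1))
    have h3 := hb j hj.1 hj.2
    have hb0 : 0 ≤ b := (norm_nonneg _).trans h3
    unfold wt ch
    rw [mul_div_assoc', div_le_iff₀ (by positivity)]
    have h4 : R * R ≤ ‖g j‖ * ‖g (j + 1)‖ := mul_le_mul h1 h2 hR.le p1.le
    calc R ^ 2 * ‖g (j + 1) * (g j)⁻¹‖ ≤ R ^ 2 * b := by gcongr
      _ = b * (R * R) := by ring
      _ ≤ b * (‖g j‖ * ‖g (j + 1)‖) := mul_le_mul_of_nonneg_left h4 hb0
  calc ∑ j ∈ Ico e n, R ^ 2 * wt g j ≤ ∑ _j ∈ Ico e n, b := Finset.sum_le_sum h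
    _ = b * (n - e : ℕ) := by
        rw [Finset.sum_const, Nat.card_Ico, nsmul_eq_mul, mul_comm]

/-- refined: the weighted duration is a geometric sum of the durations in the shells -/
theorem dur_le_sum {g : ℕ → M2} (hg : ∀ i, (g i).det = 1) {R b : ℝ} (hR : 0 < R) {e n : ℕ}
    (hb : ∀ j, e ≤ j → j < n → ‖g (j + 1) * (g j)⁻¹‖ ≤ b) :
    dur g R e n ≤ ∑ j ∈ Ico e n, b * (R / ‖g j‖) * (R / ‖g (j + 1)‖) := by
  unfold dur
  rw [Finset.mul_sum]
  apply Finset.sum_le_sum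
  intro j hj
  rw [Finset.mem_Ico] at hj
  have p1 := norm_pos' (hg j)
  have p2 := norm_pos' (hg (j + 1))
  have h3 := hb j hj.1 hj.2
  unfold wt ch
  have e1 : R ^ 2 * (‖g (j + 1) * (g j)⁻¹‖ / (‖g j‖ * ‖g (j + 1)‖)) =
      ‖g (j + 1) * (g j)⁻¹‖ * (R / ‖g j‖) * (R / ‖g (j + 1)‖) := by
    field_simp
  rw [e1]
  gcongr

open Tele

/-- **Telescoping with per-block constants**: `B s` are the blocks of the base point, `B' s` the
blocks of the moved point.  If `‖B_{s-1} ... B_r‖ ≤ G r * K^(s-r)` for all `r ≤ s ≤ L`, the blocks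
move by at most `δ s * K`, and `2 Σ δ s G (s+1) ≤ 1`, then `‖B'_{L-1} ... B'_r‖ ≤ 2 G r K^(L-r)`. -/
theorem tele_weighted {E : Type*} [NormedRing E] {B B' : ℕ → E} {G δ : ℕ → ℝ} {K : ℝ} (hK : 0 ≤ K)
    (L : ℕ) (hG : ∀ r, 0 ≤ G r) (hδ : ∀ s, 0 ≤ δ s)
    (hB : ∀ r n, r + n ≤ L → ‖seg B r n‖ ≤ G r * K ^ n)
    (hBB : ∀ s, s < L → ‖B' s - B s‖ ≤ δ s * K)
    (hsum : 2 * ∑ s ∈ range L, δ s * G (s + 1) ≤ 1) :
    ∀ n, n ≤ L → ‖seg B' (L - n) n - seg B (L - n) n‖ ≤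
      (2 * ∑ s ∈ Ico (L - n) L, δ s * G (s + 1)) * (G (L - n) * K ^ n) := by
  have hIco : ∀ n, n ≤ L → 2 * ∑ s ∈ Ico (L - n) L, δ s * G (s + 1) ≤ 1 := by
    intro n hn
    refine le_trans ?_ hsum
    apply mul_le_mul_of_nonneg_left _ (by norm_num : (0 : ℝ) ≤ 2)
    apply Finset.sum_le_sum_of_subset_of_nonneg
    · intro s hs
      simp only [Finset.mem_Ico, Finset.mem_range] at hs ⊢
      exact hs.2
    · intro s _ _
      exact mul_nonneg (hδ s) (hG _)
  intro n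
  induction n using Nat.strong_induction_on with
  | _ n ih =>
    intro hn
    rw [seg_sub]
    have key : ∀ m ∈ range n,
        ‖seg B' (L - n + m + 1) (n - m - 1) * (B' (L - n + m) - B (L - n + m)) *
          seg B (L - n) m‖ ≤ 2 * (δ (L - n + m) * G (L - n + m + 1)) * (G (L - n) * K ^ n) := by
      intro m hm
      have hm' : m < n := Finset.mem_range.1 hm
      have ihm := ih (n - m - 1) (by omega) (by omega)
      have e1 : L - (n - m - 1) = L - n + m + 1 := by omega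
      rw [e1] at ihm
      have hs := hIco (n - m - 1) (by omega)
      rw [e1] at hs
      have hb := hB (L - n + m + 1) (n - m - 1) (by omega)
      have hg0 : 0 ≤ G (L - n + m + 1) * K ^ (n - m - 1) := mul_nonneg (hG _) (pow_nonneg hK _)
      have h2 : ‖seg B' (L - n + m + 1) (n - m - 1)‖ ≤
          2 * (G (L - n + m + 1) * K ^ (n - m - 1)) := by
        have := norm_le_norm_sub_add (seg B' (L - n + m + 1) (n - m - 1))
          (seg B (L - n + m + 1) (n - m - 1))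
        nlinarith
      have h3 := hB (L - n) m (by omega)
      have h4 := hBB (L - n + m) (by omega)
      have hpow : K ^ n = K ^ (n - m - 1) * K * K ^ m := by
        rw [← pow_succ, ← pow_add]
        congr 1
        omega
      calc ‖seg B' (L - n + m + 1) (n - m - 1) * (B' (L - n + m) - B (L - n + m)) *
          seg B (L - n) m‖
          ≤ ‖seg B' (L - n + m + 1) (n - m - 1)‖ * ‖B' (L - n + m) - B (L - n + m)‖ *
            ‖seg B (L - n) m‖ :=
              le_trans (norm_mul_le _ _) (mul_le_mul_of_nonneg_right (norm_mul_le _ _)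
                (norm_nonneg _))
        _ ≤ (2 * (G (L - n + m + 1) * K ^ (n - m - 1))) * (δ (L - n + m) * K) *
            (G (L - n) * K ^ m) := by
              have a1 : 0 ≤ δ (L - n + m) * K := mul_nonneg (hδ _) hK
              apply mul_le_mul _ h3 (norm_nonneg _) (by positivity)
              exact mul_le_mul h2 h4 (norm_nonneg _) (by positivity)
        _ = 2 * (δ (L - n + m) * G (L - n + m + 1)) * (G (L - n) * K ^ n) := by
              rw [hpow]; ring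
    refine le_trans (norm_sum_le _ _) (le_trans (Finset.sum_le_sum key) ?_)
    rw [← Finset.sum_mul, ← Finset.mul_sum]
    have e5 : ∑ m ∈ range n, δ (L - n + m) * G (L - n + m + 1) =
        ∑ s ∈ Ico (L - n) L, δ s * G (s + 1) := by
      rw [Finset.sum_Ico_eq_sum_range]
      have : L - (L - n) = n := by omega
      rw [this]
    rw [e5]

/-- norm form of `tele_weighted` for the whole product -/
theorem tele_weighted_norm {E : Type*} [NormedRing E] {B B' : ℕ → E} {G δ : ℕ → ℝ} {K : ℝ}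
    (hK : 0 ≤ K) (L : ℕ) (hG : ∀ r, 0 ≤ G r) (hδ : ∀ s, 0 ≤ δ s)
    (hB : ∀ r n, r + n ≤ L → ‖seg B r n‖ ≤ G r * K ^ n)
    (hBB : ∀ s, s < L → ‖B' s - B s‖ ≤ δ s * K)
    (hsum : 2 * ∑ s ∈ range L, δ s * G (s + 1) ≤ 1) {r : ℕ} (hr : r ≤ L) :
    ‖seg B' r (L - r)‖ ≤ 2 * (G r * K ^ (L - r)) := by
  have h := tele_weighted hK L hG hδ hB hBB hsum (L - r) (by omega)
  have e : L - (L - r) = r := by omega
  rw [e] at h
  have h1 : 2 * ∑ s ∈ Ico r L, δ s * G (s + 1) ≤ 1 := by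
    refine le_trans ?_ hsum
    apply mul_le_mul_of_nonneg_left _ (by norm_num : (0 : ℝ) ≤ 2)
    apply Finset.sum_le_sum_of_subset_of_nonneg
    · intro s hs
      simp only [Finset.mem_Ico, Finset.mem_range] at hs ⊢
      exact hs.2
    · intro s _ _
      exact mul_nonneg (hδ s) (hG _)
  have h2 := hB r (L - r) (by omega)
  have h3 := norm_le_norm_sub_add (seg B' r (L - r)) (seg B r (L - r))
  have h4 : 0 ≤ G r * K ^ (L - r) := mul_nonneg (hG _) (pow_nonneg hK _)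
  nlinarith

/-- existence of last exits: the last time `e ≤ n` with `‖g e‖ ≤ R` -/
theorem exists_last_exit (g : ℕ → M2) {R : ℝ} {n : ℕ} (h0 : ‖g 0‖ ≤ R) :
    ∃ e, e ≤ n ∧ ‖g e‖ ≤ R ∧ ∀ j, e < j → j ≤ n → R < ‖g j‖ := by
  induction n with
  | zero => exact ⟨0, le_rfl, h0, fun j h1 h2 => by omega⟩
  | succ n ih =>
    by_cases h : ‖g (n + 1)‖ ≤ R
    · exact ⟨n + 1, le_rfl, h, fun j h1 h2 => by omega⟩
    · obtain ⟨e, he, h1, h2⟩ := ih
      refine ⟨e, by omega, h1, fun j hj1 hj2 => ?_⟩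
      rcases Nat.lt_or_ge n j with h3 | h3
      · have : j = n + 1 := by omega
        rw [this]
        exact not_le.mp h
      · exact h2 j hj1 h3

end Crest.Agent.R128.Chain
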