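import Mathlib
import Crest.Agent.R128.AccRoot
import Crest.Agent.R128.Chain

/-!
# Row 128, FOOT (helper335): from the area of the points which return to S0172

The left foot of every closed component of the root contour is a point which returns:
`‖A_{0→n}‖ ≤ 4 (3 + 2πk) n` for some `n ≥ 3`, with a digit `|V| < 2` in between.  So the integral
of `cross` is at most `2 N` times the area of `{y | Ret k y}`, for all `N` at once (no truncation
of the heights), and it is enough to prove that this area is at most `1/8`.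
-/

set_option autoImplicit false
open MeasureTheory Filter Topology Finset
open scoped Matrix.Norms.L2Operator
open Crest.AnalysisR.StandardFamily

namespace Crest.Agent.R128.Foot

open Crest.Agent.R128.Acc Crest.Agent.R128.AccRoot Crest.Agent.R128.Hyp Crest.Agent.R128.Chain

/-! ## Sequences -/

/-- `v` is the left foot of the closed component `(v, j)` of `{β > l κ}` -/
def IsFoot (β : ℕ → ℝ) (κ : ℝ) (N v : ℕ) : Prop :=
  ∃ j l : ℕ, v + 1 < j ∧ j ≤ N ∧ β v ≤ l * κ ∧ (∀ m, v < m → m < j → l * κ < β m) ∧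
    β j ≤ l * κ

open Classical in
theorem crossings_le_feet {β : ℕ → ℝ} {κ L : ℝ} (hκ : 0 < κ) (h0 : β 0 = 0)
    (hL : ∀ n, β (n + 1) ≤ β n + L) (hL2 : L ≤ κ * 2) (N : ℕ) :
    ∑ n ∈ range N, (⌈β n / κ⌉₊ - ⌈β (n + 1) / κ⌉₊) ≤ 2 * #{v ∈ range N | IsFoot β κ N v} := by
  set g : ℕ → ℕ → ℕ := fun n l => Nat.findGreatest (fun a => β a ≤ l * κ) n with hg
  have key : ∀ n l : ℕ, n < N → β (n + 1) ≤ l * κ → l * κ < β n →
      g n l < n ∧ β (g n l) ≤ l * κ ∧ ∀ m, g n l < m → m ≤ n → l * κ < β m := by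
    intro n l hn h1 h2
    have hP0 : β 0 ≤ l * κ := by rw [h0]; positivity
    have h3 : β (g n l) ≤ l * κ :=
      Nat.findGreatest_spec (P := fun a => β a ≤ l * κ) (Nat.zero_le n) hP0
    have h4 : g n l ≤ n := Nat.findGreatest_le n
    have h5 : g n l ≠ n := by
      intro h
      rw [h] at h3
      exact absurd h2 (not_lt.mpr h3)
    refine ⟨lt_of_le_of_ne h4 h5, h3, fun m hm hmn => not_le.mp
      (Nat.findGreatest_is_greatest (P := fun a => β a ≤ l * κ) hm hmn)⟩
  set S1 := (range N).sigma (fun n => Finset.Ico ⌈β (n + 1) / κ⌉₊ ⌈β n / κ⌉₊) with hS1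
  set S2 := ({v ∈ range N | IsFoot β κ N v}).sigma
    (fun v => Finset.Ico ⌈β v / κ⌉₊ ⌈β (v + 1) / κ⌉₊) with hS2
  have hmem : ∀ p ∈ S1, p.1 < N ∧ β (p.1 + 1) ≤ p.2 * κ ∧ p.2 * κ < β p.1 := by
    intro p hp
    rw [hS1, Finset.mem_sigma, Finset.mem_range, Finset.mem_Ico, Nat.ceil_le, Nat.lt_ceil,
      div_le_iff₀ hκ, lt_div_iff₀ hκ] at hp
    exact ⟨hp.1, hp.2.1, hp.2.2⟩
  have hcard : #S1 ≤ #S2 := by
    apply Finset.card_le_card_of_injOn (fun p => (⟨g p.1 p.2, p.2⟩ : Σ _ : ℕ, ℕ))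
    · intro p hp
      obtain ⟨h1, h2, h3⟩ := hmem p hp
      obtain ⟨h4, h5, h6⟩ := key p.1 p.2 h1 h2 h3
      simp only [hS2, Finset.coe_sigma, Set.mem_sigma_iff, Finset.mem_coe, Finset.mem_filter,
        Finset.mem_range, Finset.mem_Ico]
      refine ⟨⟨by omega, p.1 + 1, p.2, by omega, by omega, h5, ?_, h2⟩, ?_, ?_⟩
      · intro m hm1 hm2
        exact h6 m hm1 (by omega)
      · rw [Nat.ceil_le, div_le_iff₀ hκ]
        exact h5
      · rw [Nat.lt_ceil, lt_div_iff₀ hκ]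
        exact h6 _ (Nat.lt_succ_self _) (by omega)
    · rintro ⟨n, l⟩ hp ⟨n', l'⟩ hp' he
      obtain ⟨h1, h2, h3⟩ := hmem _ hp
      obtain ⟨h1', h2', h3'⟩ := hmem _ hp'
      simp only [Sigma.mk.injEq, heq_eq_eq] at he
      obtain ⟨he1, he2⟩ := he
      simp only at h1 h2 h3 h1' h2' h3'
      subst he2
      obtain ⟨h4, h5, h6⟩ := key n l h1 h2 h3
      obtain ⟨h4', h5', h6'⟩ := key n' l h1' h2' h3'
      have : n = n' := by
        rcases lt_trichotomy n n' with h | h | h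
        · have := h6' (n + 1) (by omega) (by omega)
          linarith
        · exact h
        · have := h6 (n' + 1) (by omega) (by omega)
          linarith
      rw [this]
  have e1 : #S1 = ∑ n ∈ range N, (⌈β n / κ⌉₊ - ⌈β (n + 1) / κ⌉₊) := by
    rw [hS1, Finset.card_sigma]
    exact Finset.sum_congr rfl fun n _ => Nat.card_Ico _ _
  have e2 : #S2 ≤ 2 * #{v ∈ range N | IsFoot β κ N v} := by
    rw [hS2, Finset.card_sigma, mul_comm, ← smul_eq_mul, ← Finset.sum_const]
    refine Finset.sum_le_sum fun v _ => ?_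
    rw [Nat.card_Ico]
    have h1 : β (v + 1) / κ ≤ β v / κ + 2 := by
      rw [div_le_iff₀ hκ, add_mul, div_mul_cancel₀ _ hκ.ne']
      linarith [hL v]
    have h2 : ⌈β (v + 1) / κ⌉₊ ≤ ⌈β v / κ⌉₊ + 2 := by
      rw [Nat.ceil_le]
      push_cast
      linarith [Nat.le_ceil (β v / κ)]
    omega
  rw [← e1]
  exact hcard.trans e2


/-! ## Norms -/

theorem entry_le_norm (M : M2) (i j : Fin 2) : |M i j| ≤ ‖M‖ := by
  set e : E2 := EuclideanSpace.single j (1:ℝ) with he
  have h1 := norm_ap_le M e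
  have h2 : ‖e‖ = 1 := by rw [he]; simp
  have h3 : ap M e i = M i j := by
    rw [ap_apply, he]
    fin_cases j <;> simp
  have h4 : |ap M e i| ≤ ‖ap M e‖ := by
    rw [← Real.norm_eq_abs]
    exact PiLp.norm_apply_le (ap M e) i
  rw [h3] at h4
  rw [h2, mul_one] at h1
  exact h4.trans h1

theorem norm_le_rows (M : M2) {r : ℝ} (hr : ∀ i, rn M i ≤ r) : ‖M‖ ≤ 3 / 2 * r := by
  have hr0 : 0 ≤ r := le_trans (by unfold rn; positivity) (hr 0)
  apply norm_le_of_ap (by positivity)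
  intro v
  apply (sq_le_sq₀ (norm_nonneg _) (by positivity)).mp
  rw [norm_sq, mul_pow, norm_sq v, ap_apply, ap_apply]
  have key : ∀ i, (M i 0 * v 0 + M i 1 * v 1) ^ 2 ≤ r ^ 2 * (v 0 ^ 2 + v 1 ^ 2) := by
    intro i
    have h1 : (M i 0) ^ 2 + (M i 1) ^ 2 ≤ r ^ 2 := by
      have h2 := hr i
      unfold rn at h2
      have h3 : (|M i 0| + |M i 1|) ^ 2 ≤ r ^ 2 := pow_le_pow_left₀ (by positivity) h2 2
      have h4 := sq_abs (M i 0)
      have h5 := sq_abs (M i 1)
      nlinarith [mul_nonneg (abs_nonneg (M i 0)) (abs_nonneg (M i 1))]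
    have h2 : (M i 0 * v 0 + M i 1 * v 1) ^ 2 ≤ ((M i 0) ^ 2 + (M i 1) ^ 2) * (v 0 ^ 2 + v 1 ^ 2) := by
      nlinarith [sq_nonneg (M i 0 * v 1 - M i 1 * v 0)]
    exact h2.trans (mul_le_mul_of_nonneg_right h1 (by positivity))
  have h0 := key 0
  have h1 := key 1
  nlinarith [mul_nonneg (sq_nonneg r) (add_nonneg (sq_nonneg (v 0)) (sq_nonneg (v 1)))]

theorem rows_le_norm (M : M2) (i : Fin 2) : rn M i ≤ 2 * ‖M‖ := by
  unfold rn
  linarith [entry_le_norm M i 0, entry_le_norm M i 1]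

theorem rn_Mn_le (k : ℝ) (n : ℕ) (z : Tor) (i : Fin 2) : rn (Mn k n z) i ≤ nm k n z := by
  unfold nm
  fin_cases i
  · exact le_max_left _ _
  · rw [rr_succ]
    exact le_max_right _ _

theorem norm_Mn_le (k : ℝ) (n : ℕ) (z : Tor) : ‖Mn k n z‖ ≤ 3 / 2 * nm k n z :=
  norm_le_rows _ (rn_Mn_le k n z)

theorem nm_le_norm (k : ℝ) (n : ℕ) (z : Tor) : nm k n z ≤ 2 * ‖Mn k n z‖ := by
  unfold nm
  rw [rr_succ]
  exact max_le (rows_le_norm _ 0) (rows_le_norm _ 1)

theorem norm_Am_le {k : ℝ} (hk : 0 ≤ k) (z : Tor) : ‖Am k z‖ ≤ 3 / 2 * (3 + 2 * Real.pi * k) := by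
  have h := norm_Mn_le k 1 z
  have h1 : Mn k 1 z = Am k z := by rw [Mn_succ, Mn_zero, Matrix.one_mul]
  rw [h1] at h
  refine h.trans (mul_le_mul_of_nonneg_left ?_ (by norm_num))
  unfold nm
  rw [rr_one, rr_succ, h1]
  have h2 := dg_le k hk z 0
  unfold dg at h2
  simp only [Function.iterate_zero, id_eq] at h2
  have hpi := Real.pi_pos
  apply max_le
  · nlinarith
  · unfold rn Am
    simp
    linarith

/-! ## Returns -/

/-- `y` returns: `‖A_{0→n}(y)‖ ≤ 14 (3 + 2πk) n`, with a digit `|V| < 2` strictly inside -/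
def Ret (k : ℝ) (y : Tor) : Prop :=
  ∃ n : ℕ, ‖Mn k n y‖ ≤ 14 * (3 + 2 * Real.pi * k) * n ∧
    ∃ i, 1 ≤ i ∧ i + 2 ≤ n ∧ |V k ((T k)^[i] y).2| < 2

theorem foot_norm {k : ℝ} (hk : 0 ≤ k) (z : Tor) {v j : ℕ} {x : ℝ} (hvj : v < j)
    (hv : bt (rr k z) v ≤ x) (hj : bt (rr k z) j ≤ x)
    (hin : ∀ m, v < m → m < j → x < bt (rr k z) m) :
    ‖Mn k (j - v) ((T k)^[v] z)‖ ≤ 14 * (3 + 2 * Real.pi * k) * (j - v : ℕ) := by
  have hg : ∀ i, ((fun m => Mn k m z) i).det = 1 := fun i => det_Mn k i z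
  have hch := chain (g := fun m => Mn k m z) hg hvj
  have hA0 : 0 < 3 + 2 * Real.pi * k := by
    have : 0 ≤ 2 * Real.pi * k := by positivity
    linarith
  have e1 : Mn k j z * (Mn k v z)⁻¹ = Mn k (j - v) ((T k)^[v] z) := by
    have h := Mn_add k (j - v) v z
    rw [Nat.sub_add_cancel hvj.le] at h
    rw [h, Matrix.mul_assoc, Matrix.mul_nonsing_inv _ (by rw [det_Mn]; exact isUnit_one),
      Matrix.mul_one]
  rw [e1] at hch
  refine hch.trans ?_
  rw [Finset.mul_sum]
  have hE := Real.exp_pos x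
  have ev : ‖Mn k v z‖ ≤ 3 / 2 * Real.exp x := by
    refine (norm_Mn_le k v z).trans (mul_le_mul_of_nonneg_left ?_ (by norm_num))
    rw [← exp_bt]
    exact Real.exp_le_exp.mpr hv
  have ej : ‖Mn k j z‖ ≤ 3 / 2 * Real.exp x := by
    refine (norm_Mn_le k j z).trans (mul_le_mul_of_nonneg_left ?_ (by norm_num))
    rw [← exp_bt]
    exact Real.exp_le_exp.mpr hj
  have em : ∀ m, v < m → m < j → Real.exp x / 2 ≤ ‖Mn k m z‖ := by
    intro m h1 h2
    have h3 := nm_le_norm k m z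
    rw [← exp_bt] at h3
    have h4 := Real.exp_le_exp.mpr (hin m h1 h2).le
    linarith
  have pos : ∀ m, 0 < ‖Mn k m z‖ := fun m => norm_pos' (det_Mn k m z)
  have key : ∀ m ∈ Ico v j, ‖Mn k v z‖ * ‖Mn k j z‖ * wt (fun m => Mn k m z) m ≤
      14 * (3 + 2 * Real.pi * k) := by
    intro m hm
    rw [Finset.mem_Ico] at hm
    have h1 : ‖Mn k v z‖ ≤ 3 * ‖Mn k m z‖ := by
      rcases hm.1.eq_or_lt with h | h
      · rw [← h]; linarith [pos v]
      · linarith [em m h hm.2]
    have h2 : ‖Mn k j z‖ ≤ 3 * ‖Mn k (m + 1) z‖ := by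
      rcases (Nat.succ_le_of_lt hm.2).eq_or_lt with h | h
      · have : m + 1 = j := h
        rw [this]; linarith [pos j]
      · linarith [em (m + 1) (by omega) h]
    have h3 : ‖Mn k (m + 1) z * (Mn k m z)⁻¹‖ ≤ 3 / 2 * (3 + 2 * Real.pi * k) := by
      rw [Mn_succ', Matrix.mul_assoc,
        Matrix.mul_nonsing_inv _ (by rw [det_Mn]; exact isUnit_one), Matrix.mul_one]
      exact norm_Am_le hk _
    unfold wt ch
    simp only
    rw [← mul_div_assoc, div_le_iff₀ (mul_pos (pos m) (pos (m + 1)))]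
    have h4 : ‖Mn k v z‖ * ‖Mn k j z‖ ≤ (3 * ‖Mn k m z‖) * (3 * ‖Mn k (m + 1) z‖) :=
      mul_le_mul h1 h2 (pos j).le (by linarith [pos m])
    have h5 := mul_le_mul h4 h3 (norm_nonneg _) (by
      have := pos m
      have := pos (m + 1)
      positivity)
    have h6 : 0 < (3 + 2 * Real.pi * k) * (‖Mn k m z‖ * ‖Mn k (m + 1) z‖) :=
      mul_pos hA0 (mul_pos (pos m) (pos (m + 1)))
    nlinarith
  calc _ ≤ ∑ _m ∈ Ico v j, 14 * (3 + 2 * Real.pi * k) := Finset.sum_le_sum key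
    _ = _ := by
      rw [Finset.sum_const, Nat.card_Ico, nsmul_eq_mul]
      ring

theorem foot_digit {k : ℝ} (z : Tor) {v j : ℕ} {x : ℝ} (hvj : v + 1 < j)
    (hv : bt (rr k z) v ≤ x) (hj : bt (rr k z) j ≤ x)
    (hin : x < bt (rr k z) (v + 1)) :
    ∃ i, 1 ≤ i ∧ v + i + 2 ≤ j ∧ dg k z (v + i) < 2 := by
  by_contra hcon
  push Not at hcon
  have hρ := rr_pos k z
  have hmax : max (rr k z v) (rr k z (v + 1)) < max (rr k z (v + 1)) (rr k z (v + 1 + 1)) := by
    have : bt (rr k z) v < bt (rr k z) (v + 1) := lt_of_le_of_lt hv hin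
    unfold bt at this
    exact (Real.log_lt_log_iff (lt_max_of_lt_left (hρ _)) (lt_max_of_lt_left (hρ _))).mp this
  have h1 : rr k z (v + 1) < rr k z (v + 2) := by
    by_contra hc
    push Not at hc
    rw [show v + 1 + 1 = v + 2 from rfl, max_eq_left hc] at hmax
    exact absurd (le_max_right _ _) (not_le.mpr hmax)
  have h2 : x < Real.log (rr k z (v + 2)) := by
    have := hin
    unfold bt at this
    rwa [show v + 1 + 1 = v + 2 from rfl, max_eq_right h1.le] at this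
  have key : ∀ s, v + 2 + s ≤ j → rr k z (v + 1 + s) ≤ rr k z (v + 2 + s) ∧
      rr k z (v + 2) ≤ rr k z (v + 2 + s) := by
    intro s
    induction s with
    | zero => exact fun _ => ⟨h1.le, le_rfl⟩
    | succ s ih =>
      intro hs
      obtain ⟨a, b⟩ := ih (by omega)
      have hd := hcon (s + 1) (by omega) (by omega)
      have h3 := rr_h1 k z (v + 1 + s)
      rw [show v + (s + 1) = v + 1 + s by ring] at hd
      rw [show v + 1 + s + 1 = v + 2 + s by ring, show v + 1 + s + 2 = v + 2 + (s + 1) by ring] at h3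
      have h4 := hρ (v + 2 + s)
      rw [show v + 1 + (s + 1) = v + 2 + s by ring]
      have h5 : 2 * rr k z (v + 2 + s) ≤ dg k z (v + 1 + s) * rr k z (v + 2 + s) :=
        mul_le_mul_of_nonneg_right hd h4.le
      constructor <;> linarith
  obtain ⟨-, h3⟩ := key (j - v - 2) (by omega)
  rw [show v + 2 + (j - v - 2) = j by omega] at h3
  have h4 : Real.log (rr k z (v + 2)) ≤ bt (rr k z) j := by
    unfold bt
    exact Real.log_le_log (hρ _) (h3.trans (le_max_left _ _))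
  linarith

theorem ret_of_foot {k : ℝ} (hk : 0 ≤ k) (z : Tor) {κ : ℝ} {N v : ℕ}
    (h : IsFoot (bt (rr k z)) κ N v) : Ret k ((T k)^[v] z) := by
  obtain ⟨j, l, hvj, -, h1, h2, h3⟩ := h
  obtain ⟨i, hi1, hi2, hi3⟩ := foot_digit z hvj h1 h3 (h2 (v + 1) (by omega) hvj)
  refine ⟨j - v, foot_norm hk z (by omega) h1 h3 h2, i, hi1, by omega, ?_⟩
  rw [← Function.iterate_add_apply, add_comm i v]
  exact hi3

/-! ## Integration -/

theorem measurableSet_Ret (k : ℝ) : MeasurableSet {y | Ret k y} := by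
  have : {y | Ret k y} = ⋃ n : ℕ, ({y | ‖Mn k n y‖ ≤ 14 * (3 + 2 * Real.pi * k) * n} ∩
      ⋃ i : ℕ, {y | 1 ≤ i ∧ i + 2 ≤ n ∧ |V k ((T k)^[i] y).2| < 2}) := by
    ext y
    simp only [Ret, Set.mem_ofPred_eq, Set.mem_iUnion, Set.mem_inter_iff]
  rw [this]
  refine MeasurableSet.iUnion fun n => MeasurableSet.inter ?_ (MeasurableSet.iUnion fun i => ?_)
  · exact (isClosed_le (continuous_Mn k n).norm continuous_const).measurableSet
  · by_cases h : 1 ≤ i ∧ i + 2 ≤ n
    · have : {y : Tor | 1 ≤ i ∧ i + 2 ≤ n ∧ |V k ((T k)^[i] y).2| < 2} =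
          {y : Tor | |V k ((T k)^[i] y).2| < 2} := by
        ext y
        simp [h.1, h.2]
      rw [this]
      exact (isOpen_lt ((continuous_V k).comp (continuous_snd.comp
        ((continuous_T k).iterate i))).abs continuous_const).measurableSet
    · have : {y : Tor | 1 ≤ i ∧ i + 2 ≤ n ∧ |V k ((T k)^[i] y).2| < 2} = ∅ := by
        ext y
        simp only [Set.mem_ofPred_eq, Set.mem_empty_iff_false, iff_false]
        exact fun h' => h ⟨h'.1, h'.2.1⟩
      rw [this]
      exact MeasurableSet.empty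

theorem cross_le_ret {k : ℝ} (hk : Real.exp 10 ≤ k) (N : ℕ) (z : Tor) :
    (cross k N z : ℝ) ≤ 2 * ∑ v ∈ range N, {y | Ret k y}.indicator (fun _ => (1:ℝ)) ((T k)^[v] z) := by
  classical
  have hk0 : 0 < k := (Real.exp_pos _).trans_le hk
  have hlog : 10 ≤ Real.log k := by
    rw [Real.le_log_iff_exp_le hk0]
    exact hk
  have hk1 : 1 ≤ k := by
    have := Real.add_one_le_exp 10
    linarith
  have hL : Real.log (3 + 2 * Real.pi * k) ≤ Real.log k * 2 := by
    have hpi := Real.pi_lt_d2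
    have a : 3 + 2 * Real.pi * k ≤ 10 * k := by nlinarith
    have hpi0 := Real.pi_pos
    have b := Real.log_le_log (by positivity) a
    rw [Real.log_mul (by norm_num) hk0.ne'] at b
    have c := Real.log_le_sub_one_of_pos (by norm_num : (0:ℝ) < 10)
    linarith
  have h0 : bt (rr k z) 0 = 0 := by
    unfold bt
    rw [zero_add, rr_zero, rr_one]
    simp
  have h := crossings_le_feet (β := bt (rr k z)) (κ := Real.log k)
    (L := Real.log (3 + 2 * Real.pi * k)) (by linarith) h0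
    (bt_succ_le (ρ := rr k z) (V := dg k z) (L := Real.log (3 + 2 * Real.pi * k))
      (fun n => abs_nonneg _) (rr_pos k z) (rr_h2 k z)
      (fun n => Real.log_le_log (by have := abs_nonneg (V k ((T k)^[n] z).2); unfold dg; linarith)
        (by linarith [dg_le k hk0.le z n]))) hL N
  have h1 : (cross k N z : ℝ) ≤ 2 * #{v ∈ range N | IsFoot (bt (rr k z)) (Real.log k) N v} := by
    unfold cross
    exact_mod_cast h
  refine h1.trans (mul_le_mul_of_nonneg_left ?_ (by norm_num))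
  rw [Finset.card_filter]
  push_cast
  refine Finset.sum_le_sum fun v _ => ?_
  rw [Set.indicator_apply]
  split_ifs with h2 h3 h3
  · exact le_rfl
  · exact absurd (ret_of_foot hk0.le z h2) h3
  · norm_num
  · exact le_rfl

theorem integral_cross_le {k : ℝ} (hk : Real.exp 10 ≤ k) (N : ℕ) :
    ∫ z : Tor, (cross k N z : ℝ) ≤ 2 * N * (volume : Measure Tor).real {y | Ret k y} := by
  have hk1 : 1 < k := by
    have := Real.add_one_le_exp 10
    linarith
  have hI : Integrable ({y | Ret k y}.indicator (fun _ => (1:ℝ))) (volume : Measure Tor) :=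
    (integrable_const (1:ℝ)).indicator (measurableSet_Ret k)
  have h1 : ∫ z : Tor, (cross k N z : ℝ) ≤
      ∫ z : Tor, 2 * ∑ v ∈ range N, {y | Ret k y}.indicator (fun _ => (1:ℝ)) ((T k)^[v] z) :=
    integral_mono (integrable_cross hk1 N)
      ((integrable_finsetSum _ fun n _ => integrable_comp_iter n hI).const_mul _)
      (cross_le_ret hk N)
  refine h1.trans (le_of_eq ?_)
  rw [integral_const_mul, integral_finsetSum _ fun n _ => integrable_comp_iter n hI]
  have : ∀ n, ∫ z : Tor, {y | Ret k y}.indicator (fun _ => (1:ℝ)) ((T k)^[n] z) =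
      (volume : Measure Tor).real {y | Ret k y} := by
    intro n
    rw [integral_comp_iter (f := {y | Ret k y}.indicator (fun _ => (1:ℝ))) n
      hI.aestronglyMeasurable, integral_indicator (measurableSet_Ret k)]
    simp
  rw [Finset.sum_congr rfl fun n _ => this n]
  simp only [Finset.sum_const, Finset.card_range, nsmul_eq_mul]
  ring

/-- **S0172 from the area of the points which return.** -/
theorem result_of_ret
    (H : ∃ k₁ : ℝ, ∀ k : ℝ, k₁ ≤ k → (volume : Measure Tor) {y | Ret k y} ≤ ENNReal.ofReal (1 / 8)) :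
    ∃ k₀ : ℝ, 0 < k₀ ∧ ∀ k : ℝ, k₀ ≤ k →
      0 < MeasureTheory.volume ({p : ℝ × ℝ | ∃ c : ℝ, 0 < c ∧
          ∃ᶠ n : ℕ in Filter.atTop, c * n ≤ Real.log ‖fderiv ℝ (standardMapLift k)^[n] p‖} ∩
        Set.Ico (0 : ℝ) 1 ×ˢ Set.Ico (0 : ℝ) 1) := by
  obtain ⟨k₁, H⟩ := H
  refine result_of_cross ⟨max k₁ (Real.exp 10), fun k hk => Eventually.frequently
    (Eventually.of_forall fun N => ?_)⟩
  have h1 := integral_cross_le ((le_max_right _ _).trans hk) N
  have h2 : (volume : Measure Tor).real {y | Ret k y} ≤ 1 / 8 := by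
    rw [measureReal_def]
    exact ENNReal.toReal_le_of_le_ofReal (by norm_num) (H k ((le_max_left _ _).trans hk))
  have h3 : (0:ℝ) ≤ N := Nat.cast_nonneg N
  nlinarith

end Crest.Agent.R128.Foot
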