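import Mathlib
import Crest.Agent.R128.Skel
import Crest.Agent.R128.Good
import Crest.Agent.R128.Link
import Crest.Agent.R128.FootG
import Crest.Agent.R128.Foot
import Crest.Agent.R128.ValNorm2

/-!
# Row 128, V5-BRIDGE (helper92, second implementer): fresh levels of the root contour are very fresh

Two fresh levels `l` and `l - 84` of one first top `t` of the root contour give
`(T k)^[t] z ∈ Good.G k L n`.
-/

set_option autoImplicit false
open scoped Matrix.Norms.L2Operator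
open Matrix Finset

namespace Crest.Agent.R128.BridgeX

open Crest.Agent.R128 Crest.Agent.R128.Hyp Crest.Agent.R128.Chain Crest.Agent.R128.FootG

/-! ## abstract part: sharp upper bound of the distance -/

theorem sharp {h : ℕ → M2} (hh : ∀ i, (h i).det = 1) {F : ℕ → ℝ} {c0 lam A Cc : ℝ} {n q : ℕ}
    (hA : 0 ≤ A) (hc0 : 0 ≤ c0)
    (hF : ∀ m, m ≤ n → |F m - Real.log ‖h m‖| ≤ c0)
    (hstep : ∀ m, m < n → ‖h (m + 1) * (h m)⁻¹‖ ≤ A)
    (hF0 : F 0 ≤ lam) (hmid : ∀ m, 0 < m → m ≤ n → lam ≤ F m)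
    (hup : ∀ m, 0 < m → m ≤ n → Real.log ‖h m * (h 0)⁻¹‖ ≤ F m - lam + Cc)
    (hsum : Real.exp Cc * ∑ m ∈ Ico q n, 1 / ‖h m * (h 0)⁻¹‖ ≤ 1) (hn : 0 < n) :
    ‖h n * (h 0)⁻¹‖ ≤ A * Real.exp (4 * c0) * (q + 2) * Real.exp (F n - lam) := by
  have hnorm : ∀ i, 0 < ‖h i‖ := fun i => norm_pos' (hh i)
  have hd : ∀ i, 0 < ‖h i * (h 0)⁻¹‖ := fun i => norm_pos' (det_mul_inv (hh i) (hh 0))
  have e0 : ‖h 0‖ ≤ Real.exp (lam + c0) := by
    have h1 := hF 0 (Nat.zero_le _)
    rw [abs_le] at h1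
    rw [← Real.exp_log (hnorm 0)]
    exact Real.exp_le_exp.mpr (by linarith [h1.1])
  have en : ‖h n‖ ≤ Real.exp (F n + c0) := by
    have h1 := hF n le_rfl
    rw [abs_le] at h1
    rw [← Real.exp_log (hnorm n)]
    exact Real.exp_le_exp.mpr (by linarith [h1.1])
  have elow : ∀ j, j ≤ n → Real.exp (F j - c0) ≤ ‖h j‖ := by
    intro j hjn
    have h1 := hF j hjn
    rw [abs_le] at h1
    rw [← Real.exp_log (hnorm j)]
    exact Real.exp_le_exp.mpr (by linarith [h1.2])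
  have hch := chain hh hn
  -- one term
  have hterm : ∀ j ∈ Ico 0 n, ‖h 0‖ * wt h j ≤
      A * Real.exp (3 * c0 - lam) * ((if j + 1 < q then 1 else 0) + (if j + 1 = n then 1 else 0) +
        (if q ≤ j + 1 ∧ j + 1 < n then Real.exp Cc * (1 / ‖h (j + 1) * (h 0)⁻¹‖) else 0)) := by
    intro j hj
    rw [mem_Ico] at hj
    have r1 : ‖h 0‖ / ‖h j‖ ≤ Real.exp (2 * c0) := by
      rcases Nat.eq_zero_or_pos j with h0 | h0
      · subst h0
        rw [div_self (hnorm 0).ne']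
        exact Real.one_le_exp (by linarith)
      · rw [div_le_iff₀ (hnorm j)]
        have h1 := elow j hj.2.le
        have h2 := hmid j h0 hj.2.le
        calc ‖h 0‖ ≤ Real.exp (lam + c0) := e0
          _ ≤ Real.exp (2 * c0 + (F j - c0)) := Real.exp_le_exp.mpr (by linarith)
          _ = Real.exp (2 * c0) * Real.exp (F j - c0) := Real.exp_add _ _
          _ ≤ _ := mul_le_mul_of_nonneg_left h1 (Real.exp_pos _).le
    have r2 : 1 / ‖h (j + 1)‖ ≤ Real.exp (c0 - F (j + 1)) := by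
      rw [div_le_iff₀ (hnorm _)]
      have h1 := elow (j + 1) hj.2
      calc (1:ℝ) = Real.exp (c0 - F (j + 1)) * Real.exp (F (j + 1) - c0) := by
            rw [← Real.exp_add]; simp
        _ ≤ _ := mul_le_mul_of_nonneg_left h1 (Real.exp_pos _).le
    have r3 : ‖h 0‖ * wt h j ≤ A * Real.exp (2 * c0) * Real.exp (c0 - F (j + 1)) := by
      have h1 : ‖h 0‖ * wt h j = ‖h (j + 1) * (h j)⁻¹‖ * (‖h 0‖ / ‖h j‖) * (1 / ‖h (j + 1)‖) := by
        unfold wt ch
        have := (hnorm j).ne'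
        have := (hnorm (j + 1)).ne'
        field_simp
      rw [h1]
      have h2 := hstep j hj.2
      have := hnorm j
      have := hnorm (j + 1)
      have := hnorm 0
      gcongr
    have r4 : A * Real.exp (2 * c0) * Real.exp (c0 - F (j + 1)) =
        A * Real.exp (3 * c0 - lam) * Real.exp (lam - F (j + 1)) := by
      rw [mul_assoc, mul_assoc, ← Real.exp_add, ← Real.exp_add]
      congr 2
      ring
    rw [r4] at r3
    refine r3.trans (mul_le_mul_of_nonneg_left ?_ (by positivity))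
    have r5 : Real.exp (lam - F (j + 1)) ≤ 1 := by
      rw [← Real.exp_zero]
      exact Real.exp_le_exp.mpr (by linarith [hmid (j + 1) (by omega) hj.2])
    have r6 : Real.exp (lam - F (j + 1)) ≤ Real.exp Cc * (1 / ‖h (j + 1) * (h 0)⁻¹‖) := by
      have h1 := hup (j + 1) (by omega) hj.2
      calc Real.exp (lam - F (j + 1)) ≤ Real.exp (Cc - Real.log ‖h (j + 1) * (h 0)⁻¹‖) :=
            Real.exp_le_exp.mpr (by linarith)
        _ = _ := by rw [Real.exp_sub, Real.exp_log (hd _)]; ring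
    have r7 : 0 ≤ Real.exp Cc * (1 / ‖h (j + 1) * (h 0)⁻¹‖) := by
      have := hd (j + 1)
      positivity
    by_cases c1 : j + 1 < q
    · rw [if_pos c1]
      have : (0:ℝ) ≤ (if j + 1 = n then 1 else 0) := by split_ifs <;> norm_num
      have : (0:ℝ) ≤ (if q ≤ j + 1 ∧ j + 1 < n then Real.exp Cc * (1 / ‖h (j + 1) * (h 0)⁻¹‖) else 0) := by
        split_ifs
        · exact r7
        · exact le_rfl
      linarith
    · by_cases c2 : j + 1 = n
      · rw [if_pos c2]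
        have : (0:ℝ) ≤ (if j + 1 < q then 1 else 0) := by split_ifs <;> norm_num
        have : (0:ℝ) ≤ (if q ≤ j + 1 ∧ j + 1 < n then Real.exp Cc * (1 / ‖h (j + 1) * (h 0)⁻¹‖) else 0) := by
          split_ifs
          · exact r7
          · exact le_rfl
        linarith
      · rw [if_neg c1, if_neg c2, if_pos ⟨by omega, by omega⟩]
        linarith
  have hsum2 : ∑ j ∈ Ico 0 n, ‖h 0‖ * wt h j ≤ A * Real.exp (3 * c0 - lam) * (q + 2) := by
    refine (Finset.sum_le_sum hterm).trans ?_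
    rw [← Finset.mul_sum]
    apply mul_le_mul_of_nonneg_left _ (by positivity)
    rw [Finset.sum_add_distrib, Finset.sum_add_distrib]
    have s1 : ∑ j ∈ Ico 0 n, (if j + 1 < q then (1:ℝ) else 0) ≤ q := by
      rw [Finset.sum_ite, Finset.sum_const_zero, add_zero, Finset.sum_const, nsmul_eq_mul, mul_one]
      have : #{j ∈ Ico 0 n | j + 1 < q} ≤ #(range q) := by
        apply Finset.card_le_card
        intro j hj
        rw [mem_filter] at hj
        rw [mem_range]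
        omega
      rw [card_range] at this
      exact_mod_cast this
    have s2 : ∑ j ∈ Ico 0 n, (if j + 1 = n then (1:ℝ) else 0) ≤ 1 := by
      rw [Finset.sum_ite, Finset.sum_const_zero, add_zero, Finset.sum_const, nsmul_eq_mul, mul_one]
      have : #{j ∈ Ico 0 n | j + 1 = n} ≤ #({n - 1} : Finset ℕ) := by
        apply Finset.card_le_card
        intro j hj
        rw [mem_filter] at hj
        rw [mem_singleton]
        omega
      rw [card_singleton] at this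
      exact_mod_cast this
    have s3 : ∑ j ∈ Ico 0 n, (if q ≤ j + 1 ∧ j + 1 < n then
        Real.exp Cc * (1 / ‖h (j + 1) * (h 0)⁻¹‖) else 0) ≤ 1 := by
      refine le_trans ?_ hsum
      rw [Finset.mul_sum]
      rw [← Finset.sum_filter]
      have : ∑ j ∈ {j ∈ Ico 0 n | q ≤ j + 1 ∧ j + 1 < n}, Real.exp Cc * (1 / ‖h (j + 1) * (h 0)⁻¹‖) =
          ∑ m ∈ ({j ∈ Ico 0 n | q ≤ j + 1 ∧ j + 1 < n}).image (· + 1),
            Real.exp Cc * (1 / ‖h m * (h 0)⁻¹‖) := by
        rw [Finset.sum_image]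
        intro a _ b _ hab
        simpa using hab
      rw [this]
      apply Finset.sum_le_sum_of_subset_of_nonneg
      · intro m hm
        rw [mem_image] at hm
        obtain ⟨j, hj, rfl⟩ := hm
        rw [mem_filter] at hj
        rw [mem_Ico]
        exact hj.2
      · intro m _ _
        have := hd m
        positivity
    linarith
  calc ‖h n * (h 0)⁻¹‖ ≤ ‖h 0‖ * ‖h n‖ * ∑ j ∈ Ico 0 n, wt h j := hch
    _ = (∑ j ∈ Ico 0 n, ‖h 0‖ * wt h j) * ‖h n‖ := by rw [← Finset.mul_sum]; ring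
    _ ≤ (A * Real.exp (3 * c0 - lam) * (q + 2)) * Real.exp (F n + c0) := by
        apply mul_le_mul hsum2 en (hnorm n).le (by positivity)
    _ = A * (q + 2) * (Real.exp (3 * c0 - lam) * Real.exp (F n + c0)) := by ring
    _ = A * (q + 2) * (Real.exp (4 * c0) * Real.exp (F n - lam)) := by
        rw [← Real.exp_add, ← Real.exp_add]
        congr 2
        ring
    _ = _ := by ring

/-! ## sizes along a clean path -/

open Crest.Agent.R128.ValNorm Crest.Agent.R128.Acc Crest.Agent.R128.Lam0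

theorem W_early {k : ℝ} {n : ℕ} {z : Tor} (h : ValD k (1 / 1000) 1000 n z) (hk : 10 ^ 8 ≤ k)
    {m p : ℕ} (hp : 2 * p ≤ m) (hm : m ≤ 1000) : k ^ p ≤ W k z m := by
  have hk0 : 0 < k := by linarith
  have h1 := h.W_clean (by linarith) hm
  have h2 : (k ^ (1/2 : ℝ)) ^ (2 * p) ≤ (k ^ (1/2 : ℝ)) ^ m :=
    pow_le_pow_right₀ (by have := ten_le (k := k) (by linarith); linarith) hp
  have h3 : (k ^ (1/2 : ℝ)) ^ (2 * p) = k ^ p := by
    rw [pow_mul, ← Real.rpow_natCast (k ^ (1/2 : ℝ)) 2, ← Real.rpow_mul hk0.le]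
    norm_num
  linarith

theorem W_late {k : ℝ} {n : ℕ} {z : Tor} (h : ValD k (1 / 1000) 1000 n z) (hk : 10 ^ 8 ≤ k)
    {m : ℕ} (hm : 1000 ≤ m) (hmn : m ≤ n) : k ^ 400 ≤ W k z m ∧ (m : ℝ) ^ 4 ≤ W k z m := by
  have hk0 : 0 < k := by linarith
  constructor
  · have h1 := h.c2 1000 m le_rfl hm hmn
    have h2 := W_early h hk (m := 1000) (p := 500) (by norm_num) le_rfl
    have hW0 := W_nonneg k z 1000
    have h3 : (k ^ 500) ^ (1 - 1 / 1000 : ℝ) ≤ W k z 1000 ^ (1 - 1 / 1000 : ℝ) :=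
      Real.rpow_le_rpow (by positivity) h2 (by norm_num)
    have h4 : k ^ 400 ≤ (k ^ 500) ^ (1 - 1 / 1000 : ℝ) := by
      rw [← Real.rpow_natCast k 500, ← Real.rpow_mul hk0.le, ← Real.rpow_natCast k 400]
      exact Real.rpow_le_rpow_of_exponent_le (by linarith) (by norm_num)
    linarith
  · obtain ⟨i, hij, hi⟩ := h.c3 m hm hmn
    have h1 := h.all (by linarith) (by norm_num) (by norm_num) hij hmn
    have hi1 := h.one_le (by linarith) (by norm_num) (hij.trans hmn)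
    calc (m : ℝ) ^ 4 ≤ (W k z i ^ ((1 / 1000 : ℝ) / 4)) ^ 4 := pow_le_pow_left₀ (Nat.cast_nonneg m) hi 4
      _ = W k z i ^ (1 / 1000 : ℝ) := by
          rw [← Real.rpow_natCast, ← Real.rpow_mul (by linarith)]
          congr 1
          push_cast
          ring
      _ ≤ W k z i ^ (1 - 1 / 1000 : ℝ) := Real.rpow_le_rpow_of_exponent_le hi1 (by norm_num)
      _ ≤ _ := h1

theorem W_inv {k : ℝ} {n : ℕ} {z : Tor} (h : ValD k (1 / 1000) 1000 n z) (hk : 10 ^ 8 ≤ k)
    {m : ℕ} (hm : 20 ≤ m) (hmn : m ≤ n) :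
    1 / W k z m ≤ 10 ^ 6 / k ^ 10 * (1 / (m : ℝ) ^ 2) := by
  have hk0 : 0 < k := by linarith
  have hm0 : (0:ℝ) < m := by exact_mod_cast (by omega : 0 < m)
  rcases le_total m 1000 with h1 | h1
  · have h2 := W_early h hk (m := m) (p := 10) (by omega) h1
    have h3 : (m:ℝ) ^ 2 ≤ 10 ^ 6 := by
      have : (m:ℝ) ≤ 1000 := by exact_mod_cast h1
      nlinarith
    have hW : 0 < W k z m := lt_of_lt_of_le (by positivity) h2
    rw [div_mul_div_comm, mul_one, div_le_div_iff₀ hW (by positivity)]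
    have h4 : k ^ 10 * (m:ℝ) ^ 2 ≤ W k z m * 10 ^ 6 :=
      mul_le_mul h2 h3 (by positivity) hW.le
    linarith
  · obtain ⟨h2, h3⟩ := W_late h hk h1 hmn
    have hW : 0 < W k z m := lt_of_lt_of_le (by positivity) h2
    have h4 : (k ^ 10 * (m:ℝ) ^ 2) ^ 2 ≤ (W k z m) ^ 2 := by
      have h5 : (k ^ 10) ^ 2 ≤ W k z m := by
        refine le_trans ?_ h2
        rw [← pow_mul]
        exact pow_le_pow_right₀ (by linarith) (by norm_num)
      calc (k ^ 10 * (m:ℝ) ^ 2) ^ 2 = (k ^ 10) ^ 2 * (m:ℝ) ^ 4 := by ring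
        _ ≤ W k z m * W k z m := mul_le_mul h5 h3 (by positivity) hW.le
        _ = _ := by ring
    have h6 : k ^ 10 * (m:ℝ) ^ 2 ≤ W k z m := by
      exact (pow_le_pow_iff_left₀ (by positivity) hW.le (by norm_num)).mp h4
    rw [div_mul_div_comm, mul_one, div_le_div_iff₀ hW (by positivity)]
    nlinarith

theorem sum_W {k : ℝ} {n : ℕ} {z : Tor} (h : ValD k (1 / 1000) 1000 n z) (hk : 10 ^ 8 ≤ k) :
    ∑ m ∈ Ico 20 (n + 1), 1 / W k z m ≤ 1 / k ^ 9 := by
  have hk0 : 0 < k := by linarith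
  calc ∑ m ∈ Ico 20 (n + 1), 1 / W k z m ≤
      ∑ m ∈ Ico 20 (n + 1), 10 ^ 6 / k ^ 10 * (1 / (m : ℝ) ^ 2) := by
        apply Finset.sum_le_sum
        intro m hm
        rw [mem_Ico] at hm
        exact W_inv h hk hm.1 (by omega)
    _ = 10 ^ 6 / k ^ 10 * ∑ m ∈ Ico 20 (n + 1), 1 / (m : ℝ) ^ 2 := by rw [Finset.mul_sum]
    _ ≤ 10 ^ 6 / k ^ 10 * 2 :=
        mul_le_mul_of_nonneg_left (Geo.sum_inv_sq_le 20 (n + 1) (by norm_num)) (by positivity)
    _ ≤ _ := by
        rw [div_mul_eq_mul_div, div_le_div_iff₀ (by positivity) (by positivity)]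
        have : 0 < k ^ 9 := by positivity
        nlinarith

/-- the path from a foot to the top -/
structure Pth (k : ℝ) (h : ℕ → M2) (F : ℕ → ℝ) (lam : ℝ) (n : ℕ) (z : Tor) : Prop where
  hh : ∀ i, (h i).det = 1
  hF : ∀ m, m ≤ n → |F m - Real.log ‖h m‖| ≤ 1
  hstep : ∀ m, m < n → ‖h (m + 1) * (h m)⁻¹‖ ≤ 10 * k
  hF0 : F 0 ≤ lam
  hmid : ∀ m, 0 < m → m ≤ n → lam ≤ F m
  hW : ∀ m, m ≤ n → W k z m ≤ ‖h m * (h 0)⁻¹‖
  hV : ValD k (1 / 1000) 1000 (n - 1) z

theorem logk {k : ℝ} (hk : 10 ^ 8 ≤ k) : 18 ≤ Real.log k := by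
  have hk0 : 0 < k := by linarith
  rw [Real.le_log_iff_exp_le hk0]
  refine le_trans ?_ hk
  have h9 : Real.exp 18 = Real.exp 1 ^ 18 := by
    rw [← Real.exp_nat_mul]; norm_num
  rw [h9]
  have h10 := Real.exp_one_lt_d9
  calc Real.exp 1 ^ 18 ≤ (2.7182818286:ℝ) ^ 18 := by gcongr
    _ ≤ (10:ℝ) ^ 8 := by norm_num

theorem exp_four : Real.exp 4 ≤ 81 := by
  have h9 : Real.exp 4 = Real.exp 1 ^ 4 := by
    rw [← Real.exp_nat_mul]; norm_num
  rw [h9]
  have h10 := Real.exp_one_lt_d9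
  calc Real.exp 1 ^ 4 ≤ (3:ℝ) ^ 4 := by
        apply pow_le_pow_left₀ (Real.exp_pos _).le
        linarith
    _ ≤ 81 := by norm_num

theorem C0_le {k : ℝ} (hk : 10 ^ 8 ≤ k) : C0 (10 * k) 1 20 ≤ 5 * Real.log k := by
  have hk0 : 0 < k := by linarith
  unfold C0
  have h1 : 2 * (10 * k) ^ 2 * ((10 * k) ^ 2 + (20 : ℕ)) ≤ 10 ^ 5 * k ^ 4 := by
    push_cast
    have h0 : (1:ℝ) ≤ k ^ 2 := by nlinarith
    have h00 : k ^ 2 ≤ k ^ 4 := by
      calc k ^ 2 = 1 * k ^ 2 := (one_mul _).symm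
        _ ≤ k ^ 2 * k ^ 2 := mul_le_mul_of_nonneg_right h0 (by positivity)
        _ = k ^ 4 := by ring
    have e : 2 * (10 * k) ^ 2 * ((10 * k) ^ 2 + 20) = 20000 * k ^ 4 + 4000 * k ^ 2 := by ring
    rw [e]
    linarith [pow_pos hk0 4]
  have h2 : Real.log (2 * (10 * k) ^ 2 * ((10 * k) ^ 2 + (20 : ℕ))) ≤ Real.log (10 ^ 5 * k ^ 4) :=
    Real.log_le_log (by positivity) h1
  have h3 : Real.log (10 ^ 5 * k ^ 4) = 5 * Real.log 10 + 4 * Real.log k := by
    rw [Real.log_mul (by positivity) (by positivity), Real.log_pow, Real.log_pow]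
    norm_num
  have h4 : Real.log 10 ≤ 2.4 := by
    have h5 : Real.log 10 ≤ Real.log (2 ^ (10/3 : ℝ)) := by
      apply Real.log_le_log (by norm_num)
      have : (10:ℝ) = (10 ^ (3:ℕ)) ^ (1/3 : ℝ) := by
        rw [← Real.rpow_natCast, ← Real.rpow_mul (by norm_num)]
        norm_num
      calc (10:ℝ) = (10 ^ (3:ℕ)) ^ (1/3 : ℝ) := this
        _ ≤ (2 ^ (10:ℕ)) ^ (1/3 : ℝ) := Real.rpow_le_rpow (by norm_num) (by norm_num) (by norm_num)
        _ = 2 ^ (10/3 : ℝ) := by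
          rw [← Real.rpow_natCast, ← Real.rpow_mul (by norm_num)]
          norm_num
    rw [Real.log_rpow (by norm_num)] at h5
    have := Real.log_two_lt_d9
    linarith
  have h6 := logk hk
  linarith

theorem Pth.sumD {k : ℝ} {h : ℕ → M2} {F : ℕ → ℝ} {lam : ℝ} {n : ℕ} {z : Tor}
    (P : Pth k h F lam n z) (hk : 10 ^ 8 ≤ k) (hn : 1000 < n) :
    ∑ m ∈ Ico 20 n, 1 / ‖h m * (h 0)⁻¹‖ ≤ 1 / k ^ 9 ∧
      ∑ m ∈ Ico 20 n, 1 / ‖h m * (h 0)⁻¹‖ ^ 2 ≤ 1 / k ^ 9 := by
  have h1 := sum_W P.hV hk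
  rw [Nat.sub_add_cancel (by omega)] at h1
  have hd : ∀ i, 1 ≤ ‖h i * (h 0)⁻¹‖ := fun i => one_le_norm (det_mul_inv (P.hh i) (P.hh 0))
  have h2 : ∑ m ∈ Ico 20 n, 1 / ‖h m * (h 0)⁻¹‖ ≤ 1 / k ^ 9 := by
    refine le_trans (Finset.sum_le_sum fun m hm => ?_) h1
    rw [mem_Ico] at hm
    have h3 := P.hV.one_le (m := m) (by linarith) (by norm_num) (by omega)
    exact one_div_le_one_div_of_le (by linarith) (P.hW m (by omega))
  refine ⟨h2, le_trans (Finset.sum_le_sum fun m hm => ?_) h2⟩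
  have h3 := hd m
  apply one_div_le_one_div_of_le (by linarith)
  nlinarith

theorem Pth.up {k : ℝ} {h : ℕ → M2} {F : ℕ → ℝ} {lam : ℝ} {n : ℕ} {z : Tor}
    (P : Pth k h F lam n z) (hk : 10 ^ 8 ≤ k) (hn : 1000 < n) {m : ℕ} (hm : 0 < m) (hmn : m ≤ n) :
    Real.log ‖h m * (h 0)⁻¹‖ ≤ F m - lam + 5 * Real.log k := by
  have hk0 : 0 < k := by linarith
  have h1 := FootG.up P.hh (M0 := 20) (by norm_num) P.hF P.hstep P.hF0 P.hmid ?_ hm hmn
  · linarith [C0_le hk]
  · have h2 := (P.sumD hk hn).2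
    have h3 : Real.exp (2 * 1) ^ 2 ≤ 81 := by
      rw [← Real.exp_nat_mul]
      refine le_trans (le_of_eq ?_) exp_four
      norm_num
    have h4 : (4:ℝ) * Real.exp (2 * 1) ^ 2 * (10 * k) ^ 4 * ((10 * k) ^ 2 + (20 : ℕ)) ≤ 10 ^ 9 * k ^ 6 := by
      have h5 : (4:ℝ) * Real.exp (2 * 1) ^ 2 ≤ 324 := by linarith
      have h6 : (10 * k) ^ 4 * ((10 * k) ^ 2 + (20 : ℕ)) ≤ 2 * 10 ^ 6 * k ^ 6 := by
        push_cast
        have : 20 * k ^ 4 ≤ k ^ 6 := by
          have : (20:ℝ) ≤ k ^ 2 := by nlinarith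
          calc 20 * k ^ 4 ≤ k ^ 2 * k ^ 4 := mul_le_mul_of_nonneg_right this (by positivity)
            _ = k ^ 6 := by ring
        nlinarith
      have h7 : 0 ≤ (10 * k) ^ 4 * ((10 * k) ^ 2 + (20 : ℕ)) := by positivity
      calc (4:ℝ) * Real.exp (2 * 1) ^ 2 * (10 * k) ^ 4 * ((10 * k) ^ 2 + (20 : ℕ)) =
          (4 * Real.exp (2 * 1) ^ 2) * ((10 * k) ^ 4 * ((10 * k) ^ 2 + (20 : ℕ))) := by ring
        _ ≤ 324 * (2 * 10 ^ 6 * k ^ 6) := mul_le_mul h5 h6 h7 (by norm_num)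
        _ ≤ _ := by
          have : 0 < k ^ 6 := by positivity
          nlinarith
    calc (4:ℝ) * Real.exp (2 * 1) ^ 2 * (10 * k) ^ 4 * ((10 * k) ^ 2 + (20 : ℕ)) *
        ∑ i ∈ Ico 20 n, 1 / ‖h i * (h 0)⁻¹‖ ^ 2 ≤ 10 ^ 9 * k ^ 6 * (1 / k ^ 9) := by
          apply mul_le_mul h4 h2 _ (by positivity)
          exact Finset.sum_nonneg fun i _ => by positivity
      _ = 10 ^ 9 / k ^ 3 := by field_simp
      _ ≤ 1 := by
          rw [div_le_one (by positivity)]
          have : (10 ^ 8 : ℝ) ^ 3 ≤ k ^ 3 := by gcongr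
          linarith [this, (by norm_num : (10:ℝ) ^ 9 ≤ (10 ^ 8) ^ 3)]

/-- the distance from the foot to the top -/
theorem Pth.top {k : ℝ} {h : ℕ → M2} {F : ℕ → ℝ} {lam : ℝ} {n : ℕ} {z : Tor}
    (P : Pth k h F lam n z) (hk : 10 ^ 8 ≤ k) (hn : 1000 < n) :
    ‖h n * (h 0)⁻¹‖ ≤ 20000 * k * Real.exp (F n - lam) := by
  have hk0 : 0 < k := by linarith
  have h1 := sharp P.hh (q := 20) (A := 10 * k) (by positivity) (by norm_num) P.hF P.hstep P.hF0
    P.hmid (fun m h1 h2 => P.up hk hn h1 h2) ?_ (by omega)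
  · refine h1.trans (mul_le_mul_of_nonneg_right ?_ (Real.exp_pos _).le)
    have h2 := exp_four
    have h3 : Real.exp (4 * 1) ≤ 81 := by rw [mul_one]; exact h2
    push_cast
    nlinarith
  · have h2 := (P.sumD hk hn).1
    have h3 : Real.exp (5 * Real.log k) = k ^ 5 := by
      rw [← Real.log_rpow hk0, Real.exp_log (by positivity)]
      norm_cast
    rw [h3]
    calc k ^ 5 * ∑ m ∈ Ico 20 n, 1 / ‖h m * (h 0)⁻¹‖ ≤ k ^ 5 * (1 / k ^ 9) :=
          mul_le_mul_of_nonneg_left h2 (by positivity)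
      _ = 1 / k ^ 4 := by field_simp
      _ ≤ 1 := by
          rw [div_le_one (by positivity)]
          exact one_le_pow₀ (by linarith)

/-- a time at which the contour is at most `90` levels above the foot is close to the foot -/
theorem Pth.near {k : ℝ} {h : ℕ → M2} {F : ℕ → ℝ} {lam : ℝ} {n : ℕ} {z : Tor}
    (P : Pth k h F lam n z) (hk : 10 ^ 8 ≤ k) (hn : 1000 < n) {m : ℕ} (hm : 0 < m) (hmn : m ≤ n - 1)
    (hF : F m - lam ≤ 90 * Real.log k) : m < 200 := by
  have hk0 : 0 < k := by linarith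
  by_contra hcon
  push Not at hcon
  have h1 := P.up hk hn hm (by omega)
  have h2 := P.hW m (by omega)
  have h3 : k ^ 100 ≤ W k z m := by
    rcases le_total m 1000 with h4 | h4
    · exact W_early P.hV hk (p := 100) (by omega) h4
    · refine le_trans ?_ (W_late P.hV hk h4 hmn).1
      exact pow_le_pow_right₀ (by linarith) (by norm_num)
  have h4 : Real.log (k ^ 100) ≤ Real.log ‖h m * (h 0)⁻¹‖ :=
    Real.log_le_log (by positivity) (h3.trans h2)
  rw [Real.log_pow] at h4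
  have h5 := logk hk
  push_cast at h4
  linarith

/-! ## the clean starts of `Skel` -/

open Crest.Agent.R128.Close Crest.Agent.R128.AlignMn Crest.Agent.R128.DictY Crest.Agent.R128.Two
open Crest.Agent.R128.TreeSum

theorem v2_of {k : ℝ} {L0 n : ℕ} {z : Tor} (h : Skel.Val k 1000 L0 z n) {i j : ℕ} (hi : 1000 ≤ i)
    (hij : i ≤ j) (hj : j ≤ n) : ‖fld k z i‖ ^ 999 ≤ ‖fld k z j‖ ^ 1000 := by
  have h1 := h.v2 i j hi hij hj
  generalize ‖fld k z i‖ = a at h1 ⊢
  generalize ‖fld k z j‖ = b at h1 ⊢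
  norm_num at h1
  exact h1

theorem valD_of {k : ℝ} {L0 n : ℕ} {z : Tor} (h : Skel.Val k 1000 L0 z n) (hL0 : 1000 ≤ L0)
    {n' : ℕ} (hn : 1000 ≤ n) (hn' : n' ≤ n) : ValD k (1 / 1000) 1000 n' z where
  c1 := fun m hm => h.cl m (by omega) (by omega)
  c2 := by
    intro i j hi hij hj
    have h1 : W k z i ^ 999 ≤ W k z j ^ 1000 := v2_of h hi hij (by omega)
    have hi0 : 0 ≤ W k z i := W_nonneg _ _ _
    have hj0 : 0 ≤ W k z j := W_nonneg _ _ _
    have e1 : W k z i ^ (1 - 1 / 1000 : ℝ) = (W k z i ^ 999) ^ (1 / 1000 : ℝ) := by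
      rw [← Real.rpow_natCast (W k z i) 999, ← Real.rpow_mul hi0]
      norm_num
    have e2 : W k z j = (W k z j ^ 1000) ^ (1 / 1000 : ℝ) := by
      rw [← Real.rpow_natCast (W k z j) 1000, ← Real.rpow_mul hj0]
      norm_num
    rw [e1, e2]
    exact Real.rpow_le_rpow (pow_nonneg hi0 _) h1 (by norm_num)
  c3 := by
    intro j hj hjn
    obtain ⟨i, hi1, hi2, hi3⟩ := h.v3 j hj (by omega)
    refine ⟨i, hi2, ?_⟩
    have hi0 : 0 ≤ W k z i := W_nonneg _ _ _
    have hj0 : (0:ℝ) ≤ j := Nat.cast_nonneg j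
    have e1 : (j:ℝ) = ((j:ℝ) ^ (4 * 1000)) ^ (1 / 4000 : ℝ) := by
      rw [← Real.rpow_natCast (j:ℝ) (4 * 1000), ← Real.rpow_mul hj0]
      norm_num
    rw [e1]
    have e2 : ((1:ℝ) / 1000 / 4) = 1 / 4000 := by norm_num
    rw [e2]
    exact Real.rpow_le_rpow (by positivity) hi3 (by norm_num)

theorem cval_of {k : ℝ} (hk : 10 ^ 8 ≤ k) {L0 n : ℕ} {z : Tor} (h : Skel.Val k 1000 L0 z n)
    (hL0 : 1000 ≤ L0) {n' : ℕ} (hn : 1000 ≤ n) (hn' : n' ≤ n) : Good.CVal k L0 z n' where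
  cl := fun m hm hmn => h.cl m hm (by omega)
  v2 := by
    intro i j hi hij hj
    have h1 := v2_of h (i := i) (j := j) (by omega) hij (by omega)
    have D := valD_of h hL0 (n' := n) hn le_rfl
    have hi1 : 1 ≤ ‖fld k z i‖ := D.one_le (by linarith) (by norm_num) (by omega)
    have h2 : (‖fld k z i‖ ^ 99) ^ 10 ≤ (‖fld k z j‖ ^ 100) ^ 10 := by
      rw [← pow_mul, ← pow_mul]
      calc ‖fld k z i‖ ^ (99 * 10) ≤ ‖fld k z i‖ ^ 999 := pow_le_pow_right₀ hi1 (by norm_num)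
        _ ≤ ‖fld k z j‖ ^ 1000 := h1
    exact (pow_le_pow_iff_left₀ (pow_nonneg (norm_nonneg _) _) (pow_nonneg (norm_nonneg _) _)
      (by norm_num)).mp h2
  v3 := by
    intro j hj hjn
    obtain ⟨i, hi1, hi2, hi3⟩ := h.v3 j (by omega) (by omega)
    have h1 := v2_of h (i := i) (j := j) (by omega) hi2 (by omega)
    refine ⟨j, hj, le_rfl, ?_⟩
    have hj1 : (1:ℝ) ≤ j := by exact_mod_cast (by omega : 1 ≤ j)
    have h2 : ((j:ℝ) ^ 400) ^ 1000 ≤ ‖fld k z j‖ ^ 1000 := by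
      calc ((j:ℝ) ^ 400) ^ 1000 = (j:ℝ) ^ (400 * 1000) := by rw [pow_mul]
        _ ≤ (j:ℝ) ^ (4 * 1000 * 999) := pow_le_pow_right₀ hj1 (by norm_num)
        _ = ((j:ℝ) ^ (4 * 1000)) ^ 999 := by rw [pow_mul]
        _ ≤ ‖fld k z i‖ ^ 999 := pow_le_pow_left₀ (by positivity) hi3 999
        _ ≤ _ := h1
    exact (pow_le_pow_iff_left₀ (pow_nonneg (by linarith) _) (norm_nonneg _)
      (by norm_num)).mp h2

/-! ## the root contour -/

theorem bz_log (k : ℝ) (z : Tor) (m : ℕ) : |bz k z m - Real.log ‖Mn k m z‖| ≤ 1 := by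
  have h1 := Foot.nm_le_norm k m z
  have h2 := Foot.norm_Mn_le k m z
  have p1 := nm_pos k m z
  have p2 : 0 < ‖Mn k m z‖ := norm_pos' (det_Mn k m z)
  have e : bz k z m = Real.log (nm k m z) := by
    unfold bz
    rw [← exp_bt, Real.log_exp]
  have l2 : Real.log 2 ≤ 1 := by
    have := Real.log_two_lt_d9
    linarith
  have l3 : Real.log (3 / 2) ≤ 1 := (Real.log_le_log (by norm_num) (by norm_num)).trans l2
  have h3 := Real.log_le_log p1 h1
  have h4 := Real.log_le_log p2 h2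
  rw [Real.log_mul (by norm_num) p2.ne'] at h3
  rw [Real.log_mul (by norm_num) p1.ne'] at h4
  rw [e, abs_le]
  constructor <;> linarith

theorem step_le {k : ℝ} (hk : 10 ^ 8 ≤ k) (z : Tor) (m : ℕ) :
    ‖Mn k (m + 1) z * (Mn k m z)⁻¹‖ ≤ 10 * k := by
  rw [Mn_succ', Matrix.mul_assoc, Matrix.mul_nonsing_inv _ (by rw [det_Mn]; exact isUnit_one),
    Matrix.mul_one]
  refine (Foot.norm_Am_le (by linarith) _).trans ?_
  have := Real.pi_lt_d2
  nlinarith

theorem bz_step {k : ℝ} (hk : 10 ^ 8 ≤ k) (z : Tor) (m : ℕ) :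
    |bz k z (m + 1) - bz k z m| ≤ 2 * Real.log k := by
  have hk0 : 0 < k := by linarith
  have hg : ∀ i, ((fun i => Mn k i z) i).det = 1 := fun i => det_Mn k i z
  have h1 := le_transfer hg m (m + 1)
  have h2 := le_transfer hg (m + 1) m
  have h3 := step_le hk z m
  rw [norm_symm (det_Mn k m z) (det_Mn k (m + 1) z)] at h2
  have p1 : 0 < ‖Mn k m z‖ := norm_pos' (det_Mn k m z)
  have p2 : 0 < ‖Mn k (m + 1) z‖ := norm_pos' (det_Mn k (m + 1) z)
  have h4 : ‖Mn k (m + 1) z‖ ≤ 10 * k * ‖Mn k m z‖ :=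
    h1.trans (mul_le_mul_of_nonneg_right h3 p1.le)
  have h5 : ‖Mn k m z‖ ≤ 10 * k * ‖Mn k (m + 1) z‖ :=
    h2.trans (mul_le_mul_of_nonneg_right h3 p2.le)
  have h6 := Real.log_le_log p2 h4
  have h7 := Real.log_le_log p1 h5
  rw [Real.log_mul (by positivity) p1.ne', Real.log_mul (by norm_num) hk0.ne'] at h6
  rw [Real.log_mul (by positivity) p2.ne', Real.log_mul (by norm_num) hk0.ne'] at h7
  have h8 := bz_log k z m
  have h9 := bz_log k z (m + 1)
  have h10 := logk hk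
  have h11 : Real.log 10 ≤ 3 := by
    have : Real.log 10 ≤ Real.log 16 := Real.log_le_log (by norm_num) (by norm_num)
    have h0 : Real.log 16 = 4 * Real.log 2 := by
      rw [show (16:ℝ) = 2 ^ 4 by norm_num, Real.log_pow]
      norm_num
    have := Real.log_two_lt_d9
    linarith
  rw [abs_le] at h8 h9 ⊢
  constructor <;> linarith [h8.1, h8.2, h9.1, h9.2]

theorem bz_path {k : ℝ} (hk : 10 ^ 8 ≤ k) (z : Tor) (a n : ℕ) :
    |bz k z (a + n) - bz k z a| ≤ 2 * Real.log k * n := by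
  induction n with
  | zero => simp
  | succ n ih =>
    have h1 := bz_step hk z (a + n)
    have h2 : bz k z (a + (n + 1)) - bz k z a =
        (bz k z (a + n + 1) - bz k z (a + n)) + (bz k z (a + n) - bz k z a) := by
      rw [show a + (n + 1) = a + n + 1 by ring]
      ring
    rw [h2]
    refine (abs_add_le _ _).trans ?_
    push_cast
    linarith

theorem transfer_eq (k : ℝ) (z : Tor) {i j : ℕ} (h : i ≤ j) :
    Mn k j z * (Mn k i z)⁻¹ = Mn k (j - i) ((T k)^[i] z) := by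
  have e : Mn k j z = Mn k (j - i) ((T k)^[i] z) * Mn k i z := by
    rw [← Mn_add]
    congr 1
    omega
  rw [e, Matrix.mul_assoc, Matrix.mul_nonsing_inv _ (by rw [det_Mn]; exact isUnit_one),
    Matrix.mul_one]

theorem pthL {k : ℝ} (hk : 10 ^ 8 ≤ k) {L0 N i t j l : ℕ} {z : Tor}
    (hc : Cmp (bz k z) (Real.log k) N i t j l) (hL0 : 1000 ≤ L0)
    (hV : Skel.Val k 1000 L0 ((T k)^[i] z) (t - i)) (hn : 1000 < t - i) :
    Pth k (fun m => Mn k (i + m) z) (fun m => bz k z (i + m)) (l * Real.log k) (t - i)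
      ((T k)^[i] z) where
  hh := fun _ => det_Mn _ _ _
  hF := fun m _ => bz_log k z (i + m)
  hstep := fun m _ => step_le hk z (i + m)
  hF0 := hc.left
  hmid := fun m hm hmn => (hc.above (i + m) (by omega) (by have := hc.tj; omega)).le
  hW := by
    intro m hm
    refine (W_le_l2 k _ m).trans (le_of_eq ?_)
    have h1 := transfer_eq k z (i := i) (j := i + m) (by omega)
    rw [Nat.add_sub_cancel_left] at h1
    simp only [Nat.add_zero]
    rw [h1]
  hV := valD_of hV hL0 hn.le (by omega)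

theorem pthR {k : ℝ} (hk : 10 ^ 8 ≤ k) {L0 N i t j l : ℕ} {z : Tor}
    (hc : Cmp (bz k z) (Real.log k) N i t j l) (hL0 : 1000 ≤ L0)
    (hV : Skel.Val k 1000 L0 ((T k)^[j] z).swap (j - t)) (hn : 1000 < j - t) :
    Pth k (fun m => Mn k (j - m) z) (fun m => bz k z (j - m)) (l * Real.log k) (j - t)
      ((T k)^[j] z).swap where
  hh := fun _ => det_Mn _ _ _
  hF := fun m _ => bz_log k z (j - m)
  hstep := by
    intro m hm
    have h1 := step_le hk z (j - (m + 1))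
    rw [show j - (m + 1) + 1 = j - m by omega] at h1
    rw [norm_symm (det_Mn _ _ _) (det_Mn _ _ _)]
    exact h1
  hF0 := hc.right
  hmid := fun m hm hmn => (hc.above (j - m) (by have := hc.it; omega) (by omega)).le
  hW := by
    intro m hm
    refine (W_le_l2 k _ m).trans (le_of_eq ?_)
    rw [l2_swap_orbit k (by omega) z]
    have h1 := transfer_eq k z (i := j - m) (j := j) (by omega)
    rw [show j - (j - m) = m by omega] at h1
    simp only [Nat.sub_zero]
    rw [norm_symm (det_Mn _ _ _) (det_Mn _ _ _), h1]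
  hV := valD_of hV hL0 hn.le (by omega)

/-! ## the field -/

theorem nn_lower {M : M2} (hM : M.det = 1) (v : ℝ × ℝ) : nn v ≤ ‖M‖ * nn (act M v) := by
  have h1 := nn_act_le M⁻¹ (act M v).1 (act M v).2
  rw [Hyp.ninv hM] at h1
  have h2 : act M⁻¹ ((act M v).1, (act M v).2) = v := by
    have : ((act M v).1, (act M v).2) = act M v := rfl
    rw [this, ← act_mul, Matrix.nonsing_inv_mul _ (by rw [hM]; exact isUnit_one), act_one]
  rw [h2] at h1
  exact h1

/-- lower bound of the size from the norm of the transfer -/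
theorem lo_of {M : M2} {B : ℝ} {a b : ℝ} (hB : ‖M‖ ≤ B) (hB0 : 0 < B)
    (h : 1 ≤ ‖M‖ * nn (a, b)) : 1 / (2 * B) ≤ max |a| |b| := by
  have h1 : nn (a, b) ≤ 2 * max |a| |b| := by
    have := nn_le_norm (a, b)
    rw [Prod.norm_def, Real.norm_eq_abs, Real.norm_eq_abs] at this
    exact this
  have h0 : 0 ≤ max |a| |b| := le_max_of_le_left (abs_nonneg a)
  rw [div_le_iff₀ (by positivity)]
  have h2 : ‖M‖ * nn (a, b) ≤ B * (2 * max |a| |b|) := by
    apply mul_le_mul hB h1 _ hB0.le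
    exact nn_nonneg _
  linarith

theorem pair_right {k : ℝ} {y : Tor} {x : ℤ → ℝ}
    (hx : ∀ n, x (n + 1) = dz k y n * x n - x (n - 1)) (m : ℕ) :
    act (Mn k m y) (x (-1), x 0) = (x ((m:ℤ) - 1), x m) := by
  rw [← Az_natCast, act_Az, ← eq_xf hx, ← eq_xf hx]

theorem pair_left {k : ℝ} {z : Tor} {i t : ℕ} (hit : i ≤ t) {x : ℤ → ℝ}
    (hx : ∀ n, x (n + 1) = dz k ((T k)^[t] z) n * x n - x (n - 1)) :
    act (Mn k (t - i) ((T k)^[i] z)) (x (-((t - i : ℕ) : ℤ) - 1), x (-((t - i : ℕ) : ℤ))) =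
      (x (-1), x 0) := by
  have e1 : (T k)^[i] z = Tz k (-((t - i : ℕ) : ℤ)) ((T k)^[t] z) := by
    rw [← Tz_natCast, ← Tz_natCast, ← Tz_add]
    congr 1
    omega
  have h1 := act_Mn_Tz k ((T k)^[t] z) (x (-1), x 0) (t - i) (t - i)
  rw [← e1, act_Az, ← eq_xf hx, ← eq_xf hx, sub_self, Az_zero, act_one] at h1
  exact h1

/-! ## the two sides -/

section sides

variable {k : ℝ} {L0 N i t j l i' j' l' : ℕ} {z : Tor} {x : ℤ → ℝ}

theorem steps_left (hk : 10 ^ 8 ≤ k) (hc : Cmp (bz k z) (Real.log k) N i t j l)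
    (hρ : 2 * (L0 + 2 : ℝ) * Real.log k ≤ bz k z t - l * Real.log k) : L0 + 2 ≤ t - i := by
  have h1 := bz_path hk z i (t - i)
  rw [show i + (t - i) = t by have := hc.it; omega] at h1
  have h2 := hc.left
  have h3 := (abs_le.mp h1).2
  have hl := logk hk
  have h4 : 2 * (L0 + 2 : ℝ) * Real.log k ≤ 2 * Real.log k * ((t - i : ℕ) : ℝ) := by linarith
  have h5 : (L0 + 2 : ℝ) ≤ ((t - i : ℕ) : ℝ) := by nlinarith
  exact_mod_cast h5

theorem steps_right (hk : 10 ^ 8 ≤ k) (hc : Cmp (bz k z) (Real.log k) N i t j l)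
    (hρ : 2 * (L0 + 2 : ℝ) * Real.log k ≤ bz k z t - l * Real.log k) : L0 + 2 ≤ j - t := by
  have h1 := bz_path hk z t (j - t)
  rw [show t + (j - t) = j by have := hc.tj; omega] at h1
  have h2 := hc.right
  have h3 := (abs_le.mp h1).1
  have hl := logk hk
  have h4 : 2 * (L0 + 2 : ℝ) * Real.log k ≤ 2 * Real.log k * ((j - t : ℕ) : ℝ) := by linarith
  have h5 : (L0 + 2 : ℝ) ≤ ((j - t : ℕ) : ℝ) := by nlinarith
  exact_mod_cast h5

/-- numerical end of the lower bound -/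
theorem lo_num (hk : 10 ^ 8 ≤ k) (ρ : ℝ) :
    Real.exp (-ρ - 3 * Real.log k) ≤ 1 / (2 * (20000 * k * Real.exp ρ)) := by
  have hk0 : 0 < k := by linarith
  have h1 : Real.exp (-ρ - 3 * Real.log k) = 1 / (Real.exp ρ * k ^ 3) := by
    rw [Real.exp_sub, Real.exp_neg]
    have : Real.exp (3 * Real.log k) = k ^ 3 := by
      rw [← Real.log_rpow hk0, Real.exp_log (by positivity)]
      norm_cast
    rw [this]
    field_simp
  rw [h1]
  apply one_div_le_one_div_of_le (by positivity)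
  have hE := Real.exp_pos ρ
  have h2 : 40000 * k ≤ k ^ 3 := by
    have : (40000:ℝ) ≤ k ^ 2 := by nlinarith
    nlinarith
  nlinarith

/-- digits of the swapped orbit -/
theorem dig_swap {m a : ℕ} (h : m + 1 ≤ a) :
    ((T k)^[m] ((T k)^[a] z).swap).2 = ((T k)^[a - m - 1] z).2 := by
  rw [ValNorm.T_iter_swap, Tinv_iter_T_iter k (by omega)]
  rw [show a - m = (a - m - 1) + 1 by omega, Function.iterate_succ_apply']
  rfl

theorem side_right (hk : 10 ^ 8 ≤ k) (hL0 : 1000 ≤ L0)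
    (hc : Cmp (bz k z) (Real.log k) N i t j l) (hc' : Cmp (bz k z) (Real.log k) N i' t j' l')
    (hl : l' + 84 = l)
    (hV : Skel.Val k 1000 L0 ((T k)^[j] z).swap (j - t))
    (hV' : Skel.Val k 1000 L0 ((T k)^[j'] z).swap (j' - t))
    (hρ : 2 * (L0 + 2 : ℝ) * Real.log k ≤ bz k z t - l * Real.log k)
    (hx : ∀ n, x (n + 1) = dz k ((T k)^[t] z) n * x n - x (n - 1)) (hx0 : |x 0| = 1)
    (hxm : ∀ m : ℤ, -(t : ℤ) ≤ m →
      max |x (m - 1)| |x m| ≤ Real.exp (bt (rr k z) (m + t).toNat - bt (rr k z) t)) :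
    ∃ w M, Good.Side k L0 (bz k z t - l * Real.log k) ((T k)^[t] z) (fun n => x n) w M := by
  have hk0 : 0 < k := by linarith
  have hlk := logk hk
  have hn := steps_right hk hc hρ
  have hlr : (l : ℝ) = l' + 84 := by rw [← hl]; push_cast; ring
  have hρ' : 2 * (L0 + 2 : ℝ) * Real.log k ≤ bz k z t - l' * Real.log k := by
    rw [hlr] at hρ
    nlinarith
  have hn' := steps_right hk hc' hρ'
  have htj := hc.tj
  have htj' := hc'.tj
  -- the lower foot is later
  have hjj : j < j' := by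
    by_contra hcon
    push Not at hcon
    have h1 : (l : ℝ) * Real.log k - 2 * Real.log k < bz k z j := by
      have h2 := hc.above (j - 1) (by have := hc.it; omega) (by omega)
      have h3 := bz_step hk z (j - 1)
      rw [show j - 1 + 1 = j by omega] at h3
      linarith [(abs_le.mp h3).1]
    have h4 := hc'.right
    rcases hcon.eq_or_lt with h5 | h5
    · rw [h5] at h4
      rw [hlr] at h1
      nlinarith
    · have h6 := hc.above j' (by have := hc.it; omega) h5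
      rw [hlr] at h6
      nlinarith
  have P := pthR hk hc hL0 hV (by omega)
  have P' := pthR hk hc' hL0 hV' (by omega)
  -- the two feet are near
  have hnear : j' - j < 200 := by
    apply P'.near hk (by omega) (m := j' - j) (by omega) (by omega)
    rw [show j' - (j' - j) = j by omega]
    have := hc.right
    rw [hlr] at this
    nlinarith
  refine ⟨j - t, j' - j - 1, ?_⟩
  have ew : (T k)^[j - t] ((T k)^[t] z) = (T k)^[j] z := by
    rw [← Function.iterate_add_apply]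
    congr 1
    omega
  refine ⟨by omega, ?_, ?_, hx0, ?_, ?_, ?_, by omega, ?_, ?_⟩
  · rw [ew]
    exact cval_of hk hV hL0 (by omega) (by omega)
  · intro n
    have h1 := hx ((n : ℤ) + 1)
    have e1 : ((n + 2 : ℕ) : ℤ) = (n : ℤ) + 1 + 1 := by push_cast; ring
    have e2 : ((n : ℤ) + 1 - 1) = n := by ring
    rw [e1, h1, e2]
    unfold AlignMn.ap
    push_cast
    rfl
  · have h1 := hxm 1 (by omega)
    have h2 : bt (rr k z) (1 + (t:ℤ)).toNat ≤ bt (rr k z) t := by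
      have e : (1 + (t:ℤ)).toNat = t + 1 := by omega
      rw [e]
      exact hc.top (t + 1) (by have := hc.it; omega) (by omega)
    have h3 : |x 1| ≤ Real.exp (bt (rr k z) (1 + (t:ℤ)).toNat - bt (rr k z) t) :=
      (le_max_right _ _).trans h1
    refine h3.trans ?_
    rw [← Real.exp_zero]
    exact Real.exp_le_exp.mpr (by linarith)
  · -- lower bound
    have h1 := P.top hk (by omega)
    simp only [Nat.sub_zero] at h1
    rw [show j - (j - t) = t by omega, norm_symm (det_Mn _ _ _) (det_Mn _ _ _),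
      transfer_eq k z htj.le] at h1
    have h2 := pair_right hx (j - t)
    have h3 := nn_lower (det_Mn k (j - t) ((T k)^[t] z)) (x (-1), x 0)
    rw [h2] at h3
    have h4 : 1 ≤ nn (x (-1), x 0) := by
      rw [← hx0]
      exact abs_snd_le (x (-1), x 0)
    have h5 := lo_of h1 (by positivity) (h4.trans h3)
    have h6 := lo_num hk (bz k z t - l * Real.log k)
    have e3 : (((j - t - 1 : ℕ)) : ℤ) = ((j - t : ℕ) : ℤ) - 1 := by omega
    rw [e3]
    exact h6.trans h5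
  · have h1 := hxm ((j - t : ℕ) : ℤ) (by omega)
    have e1 : (((j - t : ℕ) : ℤ) + t).toNat = j := by omega
    have e3 : (((j - t - 1 : ℕ)) : ℤ) = ((j - t : ℕ) : ℤ) - 1 := by omega
    rw [e1] at h1
    rw [e3]
    refine h1.trans (Real.exp_le_exp.mpr ?_)
    have := hc.right
    unfold bz at this ⊢
    linarith
  · intro n h1 h2
    have h3 := hV'.cl (j' - 1 - (t + n)) (by omega) (by omega)
    rw [dig_swap (by omega)] at h3
    have e1 : j' - (j' - 1 - (t + n)) - 1 = t + n := by omega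
    rw [e1] at h3
    have e2 : AlignMn.ap k ((T k)^[t] z) n = V k ((T k)^[t + n] z).2 := by
      unfold AlignMn.ap dz
      rw [Tz_natCast, ← Function.iterate_add_apply, add_comm n t]
    rw [e2]
    exact h3
  · have h1 := hxm ((j' - 1 - t : ℕ) : ℤ) (by omega)
    have e1 : (((j' - 1 - t : ℕ) : ℤ) + t).toNat = j' - 1 := by omega
    rw [e1] at h1
    have e3 : ((j - t + (j' - j - 1) - 1 : ℕ) : ℤ) = ((j' - 1 - t : ℕ) : ℤ) - 1 := by omega
    have e4 : ((j - t + (j' - j - 1) : ℕ) : ℤ) = ((j' - 1 - t : ℕ) : ℤ) := by omega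
    rw [e3, e4]
    refine h1.trans (Real.exp_le_exp.mpr ?_)
    have h2 := bz_step hk z (j' - 1)
    rw [show j' - 1 + 1 = j' by omega] at h2
    have h3 := hc'.right
    have h4 := (abs_le.mp h2).1
    rw [hlr]
    unfold bz at h3 h4 ⊢
    nlinarith

theorem Rev_eq (k : ℝ) (y : Tor) : Rev k y = (T k y).swap := rfl

theorem side_left (hk : 10 ^ 8 ≤ k) (hL0 : 1000 ≤ L0)
    (hc : Cmp (bz k z) (Real.log k) N i t j l) (hc' : Cmp (bz k z) (Real.log k) N i' t j' l')
    (hl : l' + 84 = l)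
    (hV : Skel.Val k 1000 L0 ((T k)^[i] z) (t - i))
    (hV' : Skel.Val k 1000 L0 ((T k)^[i'] z) (t - i'))
    (hρ : 2 * (L0 + 2 : ℝ) * Real.log k ≤ bz k z t - l * Real.log k)
    (hx : ∀ n, x (n + 1) = dz k ((T k)^[t] z) n * x n - x (n - 1)) (hx0 : |x 0| = 1)
    (hx1 : |x (-1)| < 1)
    (hxm : ∀ m : ℤ, -(t : ℤ) ≤ m →
      max |x (m - 1)| |x m| ≤ Real.exp (bt (rr k z) (m + t).toNat - bt (rr k z) t)) :
    ∃ w M, Good.Side k L0 (bz k z t - l * Real.log k) (Rev k ((T k)^[t] z))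
      (fun n => x (-(n : ℤ))) w M := by
  have hk0 : 0 < k := by linarith
  have hlk := logk hk
  have hn := steps_left hk hc hρ
  have hlr : (l : ℝ) = l' + 84 := by rw [← hl]; push_cast; ring
  have hρ' : 2 * (L0 + 2 : ℝ) * Real.log k ≤ bz k z t - l' * Real.log k := by
    rw [hlr] at hρ
    nlinarith
  have hn' := steps_left hk hc' hρ'
  have hit := hc.it
  have hit' := hc'.it
  have hii : i' < i := by
    by_contra hcon
    push Not at hcon
    have h1 : (l : ℝ) * Real.log k - 2 * Real.log k < bz k z i := by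
      have h2 := hc.above (i + 1) (by omega) (by have := hc.tj; omega)
      have h3 := bz_step hk z i
      linarith [(abs_le.mp h3).2]
    have h4 := hc'.left
    rcases hcon.eq_or_lt with h5 | h5
    · rw [← h5] at h4
      rw [hlr] at h1
      nlinarith
    · have h6 := hc.above i' h5 (by have := hc.tj; omega)
      rw [hlr] at h6
      nlinarith
  have P := pthL hk hc hL0 hV (by omega)
  have P' := pthL hk hc' hL0 hV' (by omega)
  have hnear : i - i' < 200 := by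
    apply P'.near hk (by omega) (m := i - i') (by omega) (by omega)
    rw [show i' + (i - i') = i by omega]
    have := hc.left
    rw [hlr] at this
    nlinarith
  refine ⟨t - i + 1, i - 1 - i', ?_⟩
  have ew : ((T k)^[t - i + 1] (Rev k ((T k)^[t] z))).swap = (T k)^[i] z := by
    rw [Rev_eq, ← Function.iterate_succ_apply' (T k) t z, ValNorm.T_iter_swap,
      Tinv_iter_T_iter k (by omega)]
    rw [show t.succ - (t - i + 1) = i by omega]
    rfl
  refine ⟨by omega, ?_, ?_, by simpa using hx0, ?_, ?_, ?_, by omega, ?_, ?_⟩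
  · rw [ew]
    exact cval_of hk hV hL0 (by omega) (by omega)
  · intro n
    have h1 := hx (-((n : ℤ) + 1))
    rw [← am_eq_ap]
    unfold am
    push_cast
    have e1 : -((n : ℤ) + 1) + 1 = -(n : ℤ) := by ring
    have e2 : -((n : ℤ) + 1) - 1 = -((n : ℤ) + 2) := by ring
    rw [e1, e2] at h1
    linarith
  · simpa using hx1.le
  · have h1 := P.top hk (by omega)
    simp only [Nat.add_zero] at h1
    rw [show i + (t - i) = t by omega, transfer_eq k z hit.le] at h1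
    have h2 := pair_left hit.le hx
    have h3 := nn_act_le (Mn k (t - i) ((T k)^[i] z)) (x (-((t - i : ℕ) : ℤ) - 1))
      (x (-((t - i : ℕ) : ℤ)))
    rw [h2] at h3
    have h4 : 1 ≤ nn (x (-1), x 0) := by
      rw [← hx0]
      exact abs_snd_le (x (-1), x 0)
    have h5 := lo_of h1 (by positivity) (h4.trans h3)
    have h6 := lo_num hk (bz k z t - l * Real.log k)
    have e3 : -(((t - i + 1 - 1 : ℕ)) : ℤ) = -((t - i : ℕ) : ℤ) := by omega
    have e4 : -(((t - i + 1 : ℕ)) : ℤ) = -((t - i : ℕ) : ℤ) - 1 := by omega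
    rw [e3, e4, max_comm]
    exact h6.trans h5
  · have h1 := hxm (-((t - i : ℕ) : ℤ)) (by omega)
    have e1 : (-((t - i : ℕ) : ℤ) + t).toNat = i := by omega
    rw [e1] at h1
    have e3 : -(((t - i + 1 - 1 : ℕ)) : ℤ) = -((t - i : ℕ) : ℤ) := by omega
    have e4 : -(((t - i + 1 : ℕ)) : ℤ) = -((t - i : ℕ) : ℤ) - 1 := by omega
    rw [e3, e4, max_comm]
    refine h1.trans (Real.exp_le_exp.mpr ?_)
    have := hc.left
    unfold bz at this ⊢
    linarith
  · intro n h1 h2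
    have h3 := hV'.cl (t - n - i') (by omega) (by omega)
    rw [← Function.iterate_add_apply, show t - n - i' + i' = t - n by omega] at h3
    have e2 : AlignMn.ap k (Rev k ((T k)^[t] z)) n = V k ((T k)^[t - n] z).2 := by
      rw [← am_eq_ap]
      unfold am dz
      rw [← Tz_natCast, ← Tz_natCast, ← Tz_add]
      congr 3
      omega
    rw [e2]
    exact h3
  · have h1 := hxm (-((t - i' - 1 : ℕ) : ℤ)) (by omega)
    have e1 : (-((t - i' - 1 : ℕ) : ℤ) + t).toNat = i' + 1 := by omega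
    rw [e1] at h1
    have e3 : -((t - i + 1 + (i - 1 - i') - 1 : ℕ) : ℤ) = -((t - i' - 1 : ℕ) : ℤ) := by omega
    have e4 : -((t - i + 1 + (i - 1 - i') : ℕ) : ℤ) = -((t - i' - 1 : ℕ) : ℤ) - 1 := by omega
    rw [e3, e4, max_comm]
    refine h1.trans (Real.exp_le_exp.mpr ?_)
    have h2 := bz_step hk z i'
    have h3 := hc'.left
    have h4 := (abs_le.mp h2).2
    rw [hlr]
    unfold bz at h3 h4 ⊢
    nlinarith

end sides

/-- **BRIDGE, core form**: two fresh levels `l`, `l - 84` of one first top. -/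
theorem vf_of_two {k : ℝ} (hk : 10 ^ 8 ≤ k) {L0 N i t j l i' j' l' : ℕ} {z : Tor}
    (hL0 : 1000 ≤ L0)
    (hc : Cmp (bz k z) (Real.log k) N i t j l) (hc' : Cmp (bz k z) (Real.log k) N i' t j' l')
    (hl : l' + 84 = l) (hf : Skel.Fresh k L0 z i j t) (hf' : Skel.Fresh k L0 z i' j' t)
    (hρ : 2 * (L0 + 2 : ℝ) * Real.log k ≤ bz k z t - l * Real.log k) :
    |V k ((T k)^[t] z).2| < 2 ∧
      Good.VF k L0 (bz k z t - l * Real.log k) ((T k)^[t] z) := by
  have ht : 0 < t := lt_of_le_of_lt (Nat.zero_le i) hc.it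
  have htop : bt (rr k z) (t - 1) < bt (rr k z) t := by
    have h1 := steps_left hk hc hρ
    exact hc.first (t - 1) (by omega) (by omega)
  obtain ⟨x, hx, hx0, hx1, hxm⟩ := Link.root_field_top k z ht htop
  obtain ⟨w, M, hR⟩ := side_right hk hL0 hc hc' hl hf.2 hf'.2 hρ hx hx0 hxm
  obtain ⟨w', M', hS⟩ := side_left hk hL0 hc hc' hl hf.1 hf'.1 hρ hx hx0 hx1 hxm
  refine ⟨?_, fun n => x n, fun n => x (-(n : ℤ)), w, M, w', M', hR, hS, by simp, ?_⟩
  · have hC : Comp (bz k z) (Real.log k) N t l := ⟨i, j, hc⟩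
    exact top_zero (V := dg k z) (rr_pos k z) (rr_h1 k z) hC.Top
  · have h1 := hx 0
    rw [dz_zero, zero_add, zero_sub] at h1
    simp only [Nat.cast_one, Nat.cast_zero]
    linarith

/-- **BRIDGE** with 744's `nf` -/
theorem mem_G {k : ℝ} (hk : 10 ^ 8 ≤ k) {L0 N t l l' n : ℕ} {z : Tor} (hL0 : 1000 ≤ L0)
    (hl : l' + 84 = l) (h1 : ¬ Skel.nf k L0 N z t l) (h2 : ¬ Skel.nf k L0 N z t l')
    (hρ : 2 * (L0 + 2 : ℝ) * Real.log k ≤ bz k z t - l * Real.log k)
    (hn : n * Real.log 2 ≤ bz k z t - l * Real.log k)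
    (hn' : bz k z t - l * Real.log k ≤ n * Real.log 2 + 2 * Real.log k) :
    (T k)^[t] z ∈ Good.G k L0 n := by
  unfold Skel.nf at h1 h2
  push Not at h1 h2
  obtain ⟨i, j, hc, hf⟩ := h1
  obtain ⟨i', j', hc', hf'⟩ := h2
  obtain ⟨h3, h4⟩ := vf_of_two hk hL0 hc hc' hl hf hf' hρ
  exact ⟨h3, _, hn, hn', h4⟩

/-- the form with 744's depths `r` (`lv k z t r`) -/
theorem mem_G_depth {k : ℝ} (hk : 10 ^ 8 ≤ k) {L0 N t s n : ℕ} {z : Tor} (hL0 : 1000 ≤ L0)
    (hs : s + 84 ≤ mt (bz k z) (Real.log k) N t)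
    (h1 : ¬ Skel.nf k L0 N z t (lv k z t s)) (h2 : ¬ Skel.nf k L0 N z t (lv k z t (s + 84)))
    (hsL : 2 * (L0 + 2) + 1 ≤ s)
    (hn : n * Real.log 2 ≤ (s - 1 : ℝ) * Real.log k)
    (hn' : (s : ℝ) * Real.log k ≤ n * Real.log 2 + 2 * Real.log k) :
    (T k)^[t] z ∈ Good.G k L0 n := by
  have hlk := logk hk
  have hm : mt (bz k z) (Real.log k) N t ≤ ⌈bz k z t / Real.log k⌉₊ := mt_le
  have e1 : lv k z t (s + 84) + 84 = lv k z t s := by
    unfold lv
    omega
  have e2 : ((lv k z t s : ℕ) : ℝ) = (⌈bz k z t / Real.log k⌉₊ : ℝ) - s := by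
    unfold lv
    rw [Nat.cast_sub (by omega)]
  have h3 : bz k z t / Real.log k ≤ ⌈bz k z t / Real.log k⌉₊ := Nat.le_ceil _
  have h4 : (⌈bz k z t / Real.log k⌉₊ : ℝ) < bz k z t / Real.log k + 1 := by
    apply Nat.ceil_lt_add_one
    have := bt_nonneg (rr_pos k z) (rr_h4 k z) t
    unfold bz
    positivity
  have hκ : 0 < Real.log k := by linarith
  rw [div_le_iff₀ hκ] at h3
  have h5 : (⌈bz k z t / Real.log k⌉₊ : ℝ) * Real.log k < bz k z t + Real.log k := by
    have h6 : (⌈bz k z t / Real.log k⌉₊ : ℝ) * Real.log k <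
        (bz k z t / Real.log k + 1) * Real.log k := mul_lt_mul_of_pos_right h4 hκ
    rw [add_mul, div_mul_cancel₀ _ hκ.ne', one_mul] at h6
    exact h6
  have h6 : (s - 1 : ℝ) * Real.log k ≤ bz k z t - (lv k z t s : ℕ) * Real.log k := by
    rw [e2]
    linarith
  have h7 : bz k z t - (lv k z t s : ℕ) * Real.log k ≤ s * Real.log k := by
    rw [e2]
    linarith
  have h8 : (2 * (L0 + 2) : ℝ) + 1 ≤ s := by exact_mod_cast hsL
  have h9 : 2 * (L0 + 2 : ℝ) * Real.log k ≤ (s - 1 : ℝ) * Real.log k :=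
    mul_le_mul_of_nonneg_right (by linarith) hκ.le
  exact mem_G hk hL0 e1 h1 h2 (h9.trans h6) (hn.trans h6) (h7.trans hn')

end Crest.Agent.R128.BridgeX
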