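import Mathlib
import Crest.Agent.R128.BridgeX
import Crest.Agent.R128.V5FinX

/-! Row 128 (helper92): the bridge in the form of helper422's `V5FinX.BridgeD`. -/

set_option autoImplicit false

namespace Crest.Agent.R128.BridgeXF

open Crest.Agent.R128 Crest.Agent.R128.Close

theorem bridgeD : V5FinX.BridgeD Good.G 86 0 := by
  refine ⟨1000, fun L hL => ⟨2 * (L + 2), 10 ^ 8, ?_⟩⟩
  intro k hk z t N r n hr hmt hfr h1 h2
  have hlk := BridgeX.logk hk
  refine BridgeX.mem_G_depth hk hL (s := r + 2) (by omega) (hfr (r + 2) (by omega) (by omega))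
    (hfr (r + 2 + 84) (by omega) (by omega)) (by omega) ?_ ?_
  · push_cast at h2 ⊢
    linarith
  · push_cast at h1 ⊢
    linarith

end Crest.Agent.R128.BridgeXF
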