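import Mathlib
import Crest.Agent.R128.ValNum
import Crest.Agent.R128.BVP8

/-!
Row 128, node V34-CORE2 (helper926), part A: long valid fields (no tip condition at the end) and the
transfer bound `‖A_{j→m}‖ ≤ W m * Lam j` for all `j ≤ m ≤ H + 1`.
-/

set_option autoImplicit false

open Finset

namespace Crest.Agent.R128.C2

open Crest.Agent.R128.TreeSum Crest.Agent.R128.BVP Crest.Agent.R128.Val

/-- long validity up to the horizon `H` (no tip condition) -/
structure LV (b : ℝ) (L H : ℕ) (a p : ℕ → ℝ) : Prop where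
  p0 : p 0 = 0
  p1 : p 1 = 1
  hp : ∀ m, p (m + 2) = a (m + 1) * p (m + 1) - p m
  hb : 100 ≤ b
  hL : 35 ≤ L
  hLN : L ≤ H
  hLb : 2 * (L : ℝ) ≤ b
  hA : ∀ m, |a m| + 2 ≤ b ^ 2
  hcl : ∀ m ∈ Icc 1 L, 2 * b ≤ |a m|
  V2 : ∀ i j, L ≤ i → i ≤ j → j ≤ H → (N p i) ^ (99 / 100 : ℝ) ≤ N p j
  V3 : ∀ j, L ≤ j → j ≤ H → ∃ i ≤ j, (j : ℝ) ≤ (N p i) ^ (1 / 400 : ℝ)

variable {b : ℝ} {L H : ℕ} {a p : ℕ → ℝ}

theorem LV.isField (V : LV b L H a p) : IsField (fun m => a (m + 1)) (fun m => (p m, p (m + 1))) := by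
  intro m
  unfold stp
  simp only
  rw [← V.hp m]

theorem LV.b0 (V : LV b L H a p) : 0 < b := by linarith [V.hb]

theorem LV.W_zero (V : LV b L H a p) : W p 0 = 1 := by
  unfold W nn
  rw [V.p0, V.p1]
  simp

theorem LV.W_pos (V : LV b L H a p) (m : ℕ) : 0 < W p m := by
  have h := V.isField.pos (Nat.zero_le m) (by
    have := V.W_zero
    unfold W at this
    simp only [zero_add] at this ⊢
    rw [this]; norm_num)
  exact h

theorem LV.W_succ_le (V : LV b L H a p) (m : ℕ) : W p (m + 1) ≤ (|a (m + 1)| + 2) * W p m := by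
  have h := nn_stp_le (a (m + 1)) (p m, p (m + 1))
  have e := V.isField m
  simp only at e
  rw [← e] at h
  exact h

theorem LV.W_le_succ (V : LV b L H a p) (m : ℕ) : W p m ≤ (|a (m + 1)| + 2) * W p (m + 1) := by
  have h := nn_le_stp (a (m + 1)) (p m, p (m + 1))
  have e := V.isField m
  simp only at e
  rw [← e] at h
  exact h

theorem LV.W_le_sq (V : LV b L H a p) (m : ℕ) : W p m ≤ b ^ 2 * W p (m + 1) :=
  (V.W_le_succ m).trans (mul_le_mul_of_nonneg_right (V.hA _) (W_nonneg _ _))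

theorem LV.W_succ_sq (V : LV b L H a p) (m : ℕ) : W p (m + 1) ≤ b ^ 2 * W p m :=
  (V.W_succ_le m).trans (mul_le_mul_of_nonneg_right (V.hA _) (W_nonneg _ _))

theorem ratio_of {b : ℝ} {M : ℕ} {a p : ℕ → ℝ} (p0 : p 0 = 0) (hp : ∀ m, p (m + 2) = a (m + 1) * p (m + 1) - p m)
    (hb : 100 ≤ b) (hcl : ∀ m ∈ Icc 1 M, 2 * b ≤ |a m|) : ∀ m ≤ M, b * |p m| ≤ |p (m + 1)| := by
  intro m
  induction m with
  | zero => intro _; rw [p0]; simp
  | succ m ih =>
    intro hm
    have h1 := ih (by omega)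
    have h2 := hp m
    have h3 := hcl (m + 1) (Finset.mem_Icc.mpr ⟨by omega, hm⟩)
    show b * |p (m + 1)| ≤ |p (m + 2)|
    rw [h2]
    have h4 : |a (m + 1)| * |p (m + 1)| - |p m| ≤ |a (m + 1) * p (m + 1) - p m| := by
      rw [← abs_mul]
      exact abs_sub_abs_le_abs_sub _ _
    have h5 : |p m| ≤ |p (m + 1)| := by
      have := abs_nonneg (p m)
      nlinarith
    have h6 := abs_nonneg (p (m + 1))
    nlinarith

theorem LV.ratio (V : LV b L H a p) : ∀ m ≤ L, b * |p m| ≤ |p (m + 1)| :=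
  ratio_of V.p0 V.hp V.hb V.hcl

theorem LV.cleanstep (V : LV b L H a p) {m : ℕ} (hm : m < L) :
    (|a (m + 1)| + 2) * W p m ≤ 5 / 4 * W p (m + 1) := by
  have h1 := V.ratio m hm.le
  have h2 := V.hp m
  have h3 := V.hcl (m + 1) (Finset.mem_Icc.mpr ⟨by omega, by omega⟩)
  have hb := V.hb
  have h4 : |a (m + 1)| * |p (m + 1)| - |p m| ≤ |a (m + 1) * p (m + 1) - p m| := by
    rw [← abs_mul]
    exact abs_sub_abs_le_abs_sub _ _
  rw [← h2] at h4
  have h5 : 100 * |p m| ≤ |p (m + 1)| := by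
    have := abs_nonneg (p m)
    nlinarith
  have h6 := abs_nonneg (p (m + 1))
  have h7 := W_le_add p m
  have h8 : |p (m + 2)| ≤ W p (m + 1) := abs_succ_le_W p (m + 1)
  have h9 : 0 ≤ |a (m + 1)| := abs_nonneg _
  have h10 : (|a (m + 1)| + 2) * W p m ≤ (|a (m + 1)| + 2) * (101 / 100 * |p (m + 1)|) := by
    apply mul_le_mul_of_nonneg_left _ (by linarith)
    linarith
  have h11 : 200 * |p (m + 1)| ≤ |a (m + 1)| * |p (m + 1)| := by
    apply mul_le_mul_of_nonneg_right _ h6
    linarith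
  nlinarith

theorem LV.W_eq (V : LV b L H a p) (m : ℕ) : W p m = b ^ ex b p m := by
  have hb := V.hb
  unfold ex
  rw [Real.rpow_logb (by linarith) (by linarith) (V.W_pos m)]

theorem LV.ex_le (V : LV b L H a p) {i j : ℕ} {x : ℝ}
    (h : W p i ≤ b ^ x * W p j) : ex b p i ≤ x + ex b p j := by
  have hb := V.hb
  rw [V.W_eq i, V.W_eq j, ← Real.rpow_add (by linarith)] at h
  exact (Real.rpow_le_rpow_left_iff (by linarith)).mp h

theorem LV.clean_ex (V : LV b L H a p) {m : ℕ} (hm : m < L) :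
    ex b p m + 1 ≤ ex b p (m + 1) := by
  have hb := V.hb
  have h1 := V.cleanstep hm
  have h3 := V.hcl (m + 1) (Finset.mem_Icc.mpr ⟨by omega, by omega⟩)
  have h4 : W p m ≤ b ^ (-1 : ℝ) * W p (m + 1) := by
    have hW := W_nonneg p m
    have h5 : b * W p m ≤ W p (m + 1) := by nlinarith
    rw [Real.rpow_neg_one, inv_mul_eq_div, le_div_iff₀ (by linarith)]
    linarith
  have := V.ex_le h4
  linarith

theorem LV.ex_zero (V : LV b L H a p) : ex b p 0 = 0 := by
  unfold ex
  rw [V.W_zero, Real.logb_one]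

theorem LV.clean_mono (V : LV b L H a p) {i j : ℕ} (hij : i ≤ j) (hj : j ≤ L) :
    ex b p i ≤ ex b p j := by
  induction j, hij using Nat.le_induction with
  | base => exact le_rfl
  | succ j hij ih =>
    have := ih (by omega)
    have := V.clean_ex (by omega : j < L)
    linarith

theorem LV.ex_nonneg_clean (V : LV b L H a p) {m : ℕ} (hm : m ≤ L) : 0 ≤ ex b p m := by
  have := V.clean_mono (Nat.zero_le m) hm
  rwa [V.ex_zero] at this

theorem LV.v2 (V : LV b L H a p) : ∀ i j, i ≤ j → j ≤ H →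
    99 / 100 * ex b p i - 1 / 10 ≤ ex b p j := by
  have hb := V.hb
  have hb0 : 0 < b := by linarith
  have hLn := V.hLN
  have key : ∀ i j, L ≤ i → i ≤ j → j ≤ H → 99 / 100 * ex b p i - 1 / 10 ≤ ex b p j := by
    intro i j hi hij hj
    have h1 := V.V2 i j hi hij hj
    have h2 := N_le_W p j
    have h3 := W_le_N p i
    have h4 : (3 / 2 : ℝ) ≤ b ^ (1 / 10 : ℝ) := by
      have h5 : ((3 / 2 : ℝ) ^ (10 : ℕ)) ^ (1 / 10 : ℝ) ≤ b ^ (1 / 10 : ℝ) := by
        apply Real.rpow_le_rpow (by positivity) _ (by norm_num)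
        norm_num
        linarith
      have h6 : ((3 / 2 : ℝ) ^ (10 : ℕ)) ^ (1 / 10 : ℝ) = 3 / 2 := by
        rw [← Real.rpow_natCast, ← Real.rpow_mul (by norm_num)]
        norm_num
      linarith
    have h7 : b ^ (ex b p i - 1 / 10) ≤ N p i := by
      rw [Real.rpow_sub hb0, ← V.W_eq, div_le_iff₀ (Real.rpow_pos_of_pos hb0 _)]
      calc W p i ≤ 3 / 2 * N p i := h3
        _ ≤ b ^ (1 / 10 : ℝ) * N p i := mul_le_mul_of_nonneg_right h4 (N_nonneg p i)
        _ = _ := mul_comm _ _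
    have h8 : (b ^ (ex b p i - 1 / 10)) ^ (99 / 100 : ℝ) ≤ b ^ ex b p j := by
      rw [← V.W_eq]
      exact (Real.rpow_le_rpow (Real.rpow_nonneg hb0.le _) h7 (by norm_num)).trans (h1.trans h2)
    rw [← Real.rpow_mul hb0.le] at h8
    have h9 := (Real.rpow_le_rpow_left_iff (by linarith)).mp h8
    linarith
  intro i j hij hj
  rcases Nat.lt_or_ge i L with hi | hi
  · rcases Nat.lt_or_ge j L with hj' | hj'
    · have := V.clean_mono hij hj'.le
      have := V.ex_nonneg_clean hi.le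
      linarith
    · have h1 := key L j le_rfl hj' hj
      have h2 := V.clean_mono hi.le le_rfl
      linarith
  · exact key i j hi hij hj

theorem LV.v3 (V : LV b L H a p) :
    ∑ j ∈ range (H + 1), b ^ (-(1 / 100 * ex b p j)) ≤ b := by
  have hb := V.hb
  have hb0 : 0 < b := by linarith
  have hLn := V.hLN
  have hLb := V.hLb
  have hL := V.hL
  have hpt : ∀ j ∈ range (H + 1), b ^ (-(1 / 100 * ex b p j)) ≤
      (if j < L then 1 else 0) + b * (if L ≤ j then ((j : ℝ) ^ 2)⁻¹ else 0) := by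
    intro j hj
    rw [Finset.mem_range] at hj
    rcases Nat.lt_or_ge j L with h | h
    · rw [if_pos h, if_neg (by omega)]
      have h1 := V.ex_nonneg_clean h.le
      have h2 : b ^ (-(1 / 100 * ex b p j)) ≤ 1 :=
        Real.rpow_le_one_of_one_le_of_nonpos (by linarith) (by linarith)
      linarith
    · rw [if_neg (by omega), if_pos h, zero_add]
      obtain ⟨i, hij, hi⟩ := V.V3 j h (by omega)
      have h1 := V.v2 i j hij (by omega)
      have h2 : (j : ℝ) ≤ b ^ (1 / 400 * ex b p i) := by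
        refine hi.trans ?_
        have h3 : (N p i) ^ (1 / 400 : ℝ) ≤ (W p i) ^ (1 / 400 : ℝ) :=
          Real.rpow_le_rpow (N_nonneg p i) (N_le_W p i) (by norm_num)
        refine h3.trans ?_
        rw [V.W_eq, ← Real.rpow_mul hb0.le]
        apply Real.rpow_le_rpow_of_exponent_le (by linarith)
        linarith
      have hj0 : (0 : ℝ) < (j : ℝ) := by
        have : 0 < j := by omega
        exact_mod_cast this
      have h4 : (j : ℝ) ^ 2 ≤ b ^ (1 / 200 * ex b p i) := by
        have h5 : (j : ℝ) ^ 2 ≤ (b ^ (1 / 400 * ex b p i)) ^ 2 := pow_le_pow_left₀ hj0.le h2 2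
        refine h5.trans ?_
        rw [← Real.rpow_natCast, ← Real.rpow_mul hb0.le]
        apply Real.rpow_le_rpow_of_exponent_le (by linarith)
        push_cast
        linarith
      have h6 : b ^ (-(1 / 100 * ex b p j)) * (j : ℝ) ^ 2 ≤ b := by
        calc b ^ (-(1 / 100 * ex b p j)) * (j : ℝ) ^ 2
            ≤ b ^ (-(1 / 100 * ex b p j)) * b ^ (1 / 200 * ex b p i) := by gcongr
          _ = b ^ (-(1 / 100 * ex b p j) + 1 / 200 * ex b p i) := by rw [← Real.rpow_add hb0]
          _ ≤ b ^ (1 : ℝ) := by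
            apply Real.rpow_le_rpow_of_exponent_le (by linarith)
            have h7 : 0 ≤ ex b p i := by
              have h8 : (1 : ℝ) ≤ b ^ (1 / 400 * ex b p i) := by
                refine le_trans ?_ h2
                have : 1 ≤ j := by omega
                exact_mod_cast this
              have h9 : (b : ℝ) ^ (0 : ℝ) ≤ b ^ (1 / 400 * ex b p i) := by
                rw [Real.rpow_zero]; exact h8
              have := (Real.rpow_le_rpow_left_iff (by linarith)).mp h9
              linarith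
            linarith
          _ = b := Real.rpow_one b
      rw [← div_eq_mul_inv, le_div_iff₀ (by positivity)]
      exact h6
  refine (Finset.sum_le_sum hpt).trans ?_
  rw [Finset.sum_add_distrib, ← Finset.mul_sum]
  have s1 : ∑ j ∈ range (H + 1), (if j < L then (1 : ℝ) else 0) ≤ L := by
    rw [← Finset.sum_filter, Finset.sum_const, nsmul_eq_mul, mul_one]
    have : ((range (H + 1)).filter (fun j => j < L)).card ≤ L := by
      calc ((range (H + 1)).filter (fun j => j < L)).card ≤ (range L).card := by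
            apply Finset.card_le_card
            intro j hj
            rw [Finset.mem_filter] at hj
            rw [Finset.mem_range]
            exact hj.2
        _ = L := Finset.card_range L
    exact_mod_cast this
  have s2 : ∑ j ∈ range (H + 1), (if L ≤ j then ((j : ℝ) ^ 2)⁻¹ else 0) ≤ 1 / 2 := by
    rw [← Finset.sum_filter]
    have h1 : (range (H + 1)).filter (fun j => L ≤ j) = Ioo (L - 1) (H + 1) := by
      ext j
      simp only [Finset.mem_filter, Finset.mem_range, Finset.mem_Ioo]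
      omega
    rw [h1]
    have h2 := sum_Ioo_inv_sq_le (α := ℝ) (L - 1) (H + 1)
    refine h2.trans ?_
    rw [div_le_div_iff₀ (by positivity) (by norm_num)]
    have : (35 : ℝ) ≤ (L : ℝ) := by exact_mod_cast hL
    have h3 : ((L - 1 : ℕ) : ℝ) = (L : ℝ) - 1 := by
      rw [Nat.cast_sub (by omega)]; simp
    rw [h3]
    linarith
  nlinarith

theorem LV.expo (V : LV b L H a p) : Expo b H (ex b p) where
  hb := by linarith [V.hb]
  hn := V.hL.trans V.hLN
  u0 := V.ex_zero
  up := by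
    intro m hm
    have h3 : W p (m + 1) ≤ b ^ (2 : ℝ) * W p m := by
      rw [Real.rpow_two]
      exact V.W_succ_sq m
    have := V.ex_le h3
    linarith
  dn := by
    intro m hm
    have h3 : W p m ≤ b ^ (2 : ℝ) * W p (m + 1) := by
      rw [Real.rpow_two]
      exact V.W_le_sq m
    have := V.ex_le h3
    linarith
  cl := fun m hm => V.clean_ex (lt_of_lt_of_le hm V.hL)
  v2 := V.v2
  v3 := V.v3

theorem LV.term_le (V : LV b L H a p) (j : ℕ) :
    (|a (j + 1)| + 2) / (W p j * W p (j + 1)) ≤ b ^ (4 - 2 * ex b p j) := by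
  have hb := V.hb
  have hb0 : 0 < b := by linarith
  have h1 := V.W_le_succ j
  have h2 := V.hA (j + 1)
  have hWj := V.W_pos j
  have hWj' := V.W_pos (j + 1)
  have h3 : 0 ≤ |a (j + 1)| := abs_nonneg _
  have h4 : W p j ≤ b ^ 2 * W p (j + 1) := V.W_le_sq j
  have h5 : b ^ (4 - 2 * ex b p j) = b ^ 4 / W p j ^ 2 := by
    rw [Real.rpow_sub hb0, V.W_eq j]
    congr 1
    · exact_mod_cast Real.rpow_natCast b 4
    · rw [← Real.rpow_natCast (b ^ ex b p j) 2, ← Real.rpow_mul hb0.le]
      congr 1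
      push_cast
      ring
  rw [h5, div_le_div_iff₀ (by positivity) (by positivity)]
  calc (|a (j + 1)| + 2) * W p j ^ 2 ≤ b ^ 2 * (W p j * (b ^ 2 * W p (j + 1))) := by
        rw [sq (W p j)]
        gcongr
    _ = b ^ 4 * (W p j * W p (j + 1)) := by ring

/-- canonical weights -/
noncomputable def Lam (b : ℝ) (p : ℕ → ℝ) (j : ℕ) : ℝ :=
  if j ≤ 30 then min (3 * b ^ (-ex b p j)) (2 * b ^ (6 - 97 / 100 * ex b p j))
  else 2 * b ^ (6 - 97 / 100 * ex b p j)

theorem Lam_pos {b : ℝ} (hb : 0 < b) (p : ℕ → ℝ) (j : ℕ) : 0 < Lam b p j := by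
  unfold Lam
  have h1 : 0 < b ^ (-ex b p j) := Real.rpow_pos_of_pos hb _
  have h2 : 0 < b ^ (6 - 97 / 100 * ex b p j) := Real.rpow_pos_of_pos hb _
  split_ifs
  · exact lt_min (by positivity) (by positivity)
  · positivity

theorem Lam_le_g {b : ℝ} (p : ℕ → ℝ) (j : ℕ) : Lam b p j ≤ 2 * b ^ (6 - 97 / 100 * ex b p j) := by
  unfold Lam
  split_ifs
  · exact min_le_right _ _
  · exact le_rfl

theorem Lam_le_c {b : ℝ} (p : ℕ → ℝ) {j : ℕ} (hj : j ≤ 30) : Lam b p j ≤ 3 * b ^ (-ex b p j) := by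
  unfold Lam
  rw [if_pos hj]
  exact min_le_left _ _

theorem Lam_lamB {b : ℝ} (hb : 0 < b) (p : ℕ → ℝ) (n : ℕ) : LamB b n (ex b p) (Lam b p) where
  pos := fun m _ => (Lam_pos hb p m).le
  c := fun _ hm => Lam_le_c p hm
  g := fun m _ => Lam_le_g p m

theorem le_Lam {b : ℝ} {n : ℕ} {p : ℕ → ℝ} {lam : ℕ → ℝ} (Lb : LamB b n (ex b p) lam) {m : ℕ} (hm : m ≤ n) :
    lam m ≤ Lam b p m := by
  unfold Lam
  split_ifs with h
  · exact le_min (Lb.c m h) (Lb.g m hm)
  · exact Lb.g m hm

/-- the transfer factor -/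
noncomputable def tau (a p : ℕ → ℝ) (j m : ℕ) : ℝ :=
  1 / W p j + W p j / W p m ^ 2 + W p j * wtt a p j m

theorem LV.v2' (V : LV b L H a p) {i m : ℕ} (him : i ≤ m) (hm : m ≤ H + 1) :
    99 / 100 * ex b p i - 21 / 10 ≤ ex b p m := by
  rcases Nat.lt_or_ge H m with h | h
  · have e : m = H + 1 := by omega
    subst e
    have h3 : W p H ≤ b ^ (2 : ℝ) * W p (H + 1) := by
      rw [Real.rpow_two]
      exact V.W_le_sq H
    have h4 := V.ex_le h3
    rcases Nat.lt_or_ge H i with h5 | h5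
    · have e : i = H + 1 := by omega
      subst e
      have h6 := V.v2 0 H (Nat.zero_le _) le_rfl
      have h7 := V.v2 35 H (V.hL.trans V.hLN) le_rfl
      have h8 := V.expo.u30
      have h9 := V.expo.clean (by norm_num : 30 ≤ 35) le_rfl
      norm_num at h9
      linarith
    · have := V.v2 i H h5 le_rfl
      linarith
  · have := V.v2 i m him h
    linarith

theorem LV.ex_nonneg (V : LV b L H a p) {m : ℕ} (hm : m ≤ H + 1) : 0 ≤ ex b p m := by
  rcases Nat.lt_or_ge m 30 with h | h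
  · exact V.ex_nonneg_clean (by have := V.hL; omega)
  · have h1 := V.v2' h hm
    have h2 := V.expo.u30
    linarith

theorem LV.wtt_le (V : LV b L H a p) {j m : ℕ} (hj : j ≤ H) (hm : m ≤ H + 1) :
    W p j * wtt a p j m ≤ b ^ (52 / 10 - 97 / 100 * ex b p j) := by
  have hb0 := V.b0
  have E := V.expo
  have hj0 := V.ex_nonneg (by omega : j ≤ H + 1)
  have hpt : ∀ i ∈ Ico j m, W p j * ((|a (i + 1)| + 2) / (W p i * W p (i + 1))) ≤
      b ^ (42 / 10 - 97 / 100 * ex b p j) * b ^ (-(1 / 100 * ex b p i)) := by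
    intro i hi
    rw [Finset.mem_Ico] at hi
    have h1 := V.term_le i
    have h2 := V.v2 j i hi.1 (by omega)
    calc W p j * ((|a (i + 1)| + 2) / (W p i * W p (i + 1)))
        ≤ b ^ ex b p j * b ^ (4 - 2 * ex b p i) := by
          rw [← V.W_eq j]
          exact mul_le_mul_of_nonneg_left h1 (W_nonneg _ _)
      _ = b ^ (ex b p j + (4 - 2 * ex b p i)) := by rw [← Real.rpow_add hb0]
      _ ≤ b ^ (42 / 10 - 97 / 100 * ex b p j + (-(1 / 100 * ex b p i))) := by
          apply E.mono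
          linarith
      _ = _ := by rw [← Real.rpow_add hb0]
  unfold wtt
  rw [Finset.mul_sum]
  refine (Finset.sum_le_sum hpt).trans ?_
  rw [← Finset.mul_sum]
  have g2 := E.sum_le (Ico j m) (by
    intro i hi
    rw [Finset.mem_Ico] at hi
    rw [Finset.mem_range]
    omega)
  calc b ^ (42 / 10 - 97 / 100 * ex b p j) * ∑ i ∈ Ico j m, b ^ (-(1 / 100 * ex b p i))
      ≤ b ^ (42 / 10 - 97 / 100 * ex b p j) * b := by gcongr
    _ = b ^ (52 / 10 - 97 / 100 * ex b p j) := by
        have e : b ^ (42 / 10 - 97 / 100 * ex b p j + 1) = b ^ (42 / 10 - 97 / 100 * ex b p j) * b := by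
          rw [Real.rpow_add hb0, Real.rpow_one]
        rw [← e]
        congr 1
        ring

theorem LV.tau_g (V : LV b L H a p) {j m : ℕ} (hj : j ≤ H) (hjm : j ≤ m) (hm : m ≤ H + 1) :
    tau a p j m ≤ 2 * b ^ (6 - 97 / 100 * ex b p j) := by
  have hb0 := V.b0
  have E := V.expo
  have hj0 := V.ex_nonneg (by omega : j ≤ H + 1)
  set g := b ^ (6 - 97 / 100 * ex b p j) with hg
  have hg0 : 0 < g := Real.rpow_pos_of_pos hb0 _
  have key : ∀ (x : ℝ), x ≤ -(8/10) → b ^ x ≤ 1 / 8 := by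
    intro x hx
    have h1 : b ^ x ≤ b ^ (-(8/10) : ℝ) := E.mono hx
    have h2 : (100 : ℝ) ^ (8/10 : ℝ) ≤ b ^ (8/10 : ℝ) := Real.rpow_le_rpow (by norm_num) V.hb (by norm_num)
    have h3 : (8 : ℝ) ≤ (100 : ℝ) ^ (8/10 : ℝ) := by
      have h4 : ((8:ℝ) ^ (5:ℕ)) ^ (1/5 : ℝ) ≤ ((100:ℝ) ^ (4:ℕ)) ^ (1/5 : ℝ) := by
        apply Real.rpow_le_rpow (by positivity) _ (by norm_num)
        norm_num
      rw [← Real.rpow_natCast, ← Real.rpow_mul (by norm_num), ← Real.rpow_natCast, ← Real.rpow_mul (by norm_num)] at h4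
      norm_num at h4 ⊢
      exact h4
    rw [Real.rpow_neg hb0.le] at h1
    refine h1.trans ?_
    rw [inv_eq_one_div]
    exact one_div_le_one_div_of_le (by norm_num) (h3.trans h2)
  have t1 : 1 / W p j ≤ 1 / 8 * g := by
    have e : 1 / W p j = b ^ (-ex b p j) := by
      rw [V.W_eq j, Real.rpow_neg hb0.le, one_div]
    rw [e]
    calc b ^ (-ex b p j) ≤ b ^ (-6 + (6 - 97 / 100 * ex b p j)) := by
          apply E.mono; linarith
      _ = b ^ (-6 : ℝ) * g := by rw [Real.rpow_add hb0]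
      _ ≤ 1 / 8 * g := by
          apply mul_le_mul_of_nonneg_right (key _ (by norm_num)) hg0.le
  have t2 : W p j / W p m ^ 2 ≤ 1 / 8 * g := by
    have h1 := V.v2' hjm hm
    have e : W p j / W p m ^ 2 = b ^ (ex b p j - 2 * ex b p m) := by
      rw [Real.rpow_sub hb0, ← V.W_eq j]
      congr 1
      rw [V.W_eq m, ← Real.rpow_natCast (b ^ ex b p m) 2, ← Real.rpow_mul hb0.le]
      congr 1
      push_cast
      ring
    rw [e]
    calc b ^ (ex b p j - 2 * ex b p m) ≤ b ^ (-(18/10) + (6 - 97 / 100 * ex b p j)) := by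
          apply E.mono; linarith
      _ = b ^ (-(18/10) : ℝ) * g := by rw [Real.rpow_add hb0]
      _ ≤ 1 / 8 * g := by
          apply mul_le_mul_of_nonneg_right (key _ (by norm_num)) hg0.le
  have t3 : W p j * wtt a p j m ≤ 1 / 8 * g := by
    refine (V.wtt_le hj hm).trans ?_
    calc b ^ (52 / 10 - 97 / 100 * ex b p j) ≤ b ^ (-(8/10) + (6 - 97 / 100 * ex b p j)) := by
          apply E.mono; linarith
      _ = b ^ (-(8/10) : ℝ) * g := by rw [Real.rpow_add hb0]
      _ ≤ 1 / 8 * g := by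
          apply mul_le_mul_of_nonneg_right (key _ le_rfl) hg0.le
  unfold tau
  linarith

theorem LV.tau_c (V : LV b L H a p) {j m : ℕ} (hj : j ≤ 30) (hjm : j ≤ m) (hm : m ≤ H + 1) :
    tau a p j m ≤ 3 * b ^ (-ex b p j) := by
  have hb := V.hb
  have hb0 := V.b0
  have E := V.expo
  have hL := V.hL
  have hLn := V.hLN
  have hWj := V.W_pos j
  have hWsq : ∀ x : ℝ, (b ^ x) ^ 2 = b ^ (2 * x) := by
    intro x
    rw [← Real.rpow_natCast (b ^ x) 2, ← Real.rpow_mul hb0.le]
    congr 1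
    push_cast
    ring
  have hum := E.ub (by omega : j ≤ H)
  have hum60 : ex b p j ≤ 60 := by
    have : (j : ℝ) ≤ 30 := by exact_mod_cast hj
    linarith
  have h35 : ex b p j + 5 ≤ ex b p 35 := by
    have h2 := E.clean (by omega : j ≤ 35) le_rfl
    have h3 : (5 : ℝ) ≤ ((35 - j : ℕ) : ℝ) := by
      have : 5 ≤ 35 - j := by omega
      exact_mod_cast this
    linarith
  have hw : W p j ^ 2 * wtt a p j m ≤ if j = m then 0 else 5 / 4 * (16 / 15) + 1 / 16 := by
    split_ifs with hjm'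
    · subst hjm'
      unfold wtt
      simp
    have hpt : ∀ i ∈ Ico j m, W p j ^ 2 * ((|a (i + 1)| + 2) / (W p i * W p (i + 1))) ≤
        5 / 4 * (if j ≤ i then (b⁻¹) ^ (i - j) else 0) +
          b ^ (-2 : ℝ) * b ^ (-(1 / 100 * ex b p i)) := by
      intro i hi
      rw [Finset.mem_Ico] at hi
      rw [if_pos hi.1]
      have hWi := V.W_pos i
      have hWi' := V.W_pos (i + 1)
      rcases Nat.lt_or_ge i 35 with h | h
      · have h2 := V.cleanstep (by omega : i < L)
        have h3 : (|a (i + 1)| + 2) / (W p i * W p (i + 1)) ≤ 5 / 4 / W p i ^ 2 := by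
          rw [div_le_div_iff₀ (by positivity) (by positivity)]
          nlinarith
        have h4 : W p j ^ 2 * (5 / 4 / W p i ^ 2) = 5 / 4 * b ^ (2 * ex b p j - 2 * ex b p i) := by
          rw [Real.rpow_sub hb0, ← hWsq, ← hWsq, ← V.W_eq, ← V.W_eq]
          ring
        have h5 : b ^ (2 * ex b p j - 2 * ex b p i) ≤ (b⁻¹) ^ (i - j) := by
          rw [E.pow_inv]
          apply E.mono
          have h6 := E.clean hi.1 h.le
          have h7 : (0 : ℝ) ≤ ((i - j : ℕ) : ℝ) := Nat.cast_nonneg _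
          linarith
        calc W p j ^ 2 * ((|a (i + 1)| + 2) / (W p i * W p (i + 1)))
            ≤ W p j ^ 2 * (5 / 4 / W p i ^ 2) := by gcongr
          _ = 5 / 4 * b ^ (2 * ex b p j - 2 * ex b p i) := h4
          _ ≤ 5 / 4 * (b⁻¹) ^ (i - j) := by gcongr
          _ ≤ _ := by
            have : 0 ≤ b ^ (-2 : ℝ) * b ^ (-(1 / 100 * ex b p i)) := by positivity
            linarith
      · have h2 := V.term_le i
        have h3 := E.v2 35 i h (by omega)
        have h4 : W p j ^ 2 * b ^ (4 - 2 * ex b p i) ≤ b ^ (-2 : ℝ) * b ^ (-(1 / 100 * ex b p i)) := by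
          rw [V.W_eq, hWsq, ← Real.rpow_add hb0, ← Real.rpow_add hb0]
          apply E.mono
          linarith
        calc W p j ^ 2 * ((|a (i + 1)| + 2) / (W p i * W p (i + 1)))
            ≤ W p j ^ 2 * b ^ (4 - 2 * ex b p i) := by gcongr
          _ ≤ b ^ (-2 : ℝ) * b ^ (-(1 / 100 * ex b p i)) := h4
          _ ≤ _ := by
            have : 0 ≤ 5 / 4 * (b⁻¹) ^ (i - j) := by positivity
            linarith
    unfold wtt
    rw [Finset.mul_sum]
    refine (Finset.sum_le_sum hpt).trans ?_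
    rw [Finset.sum_add_distrib, ← Finset.mul_sum, ← Finset.mul_sum, ← Finset.sum_filter]
    have g1 := geom_le E.hb (Ico j m) j
    have g2 := E.sum_le (Ico j m) (by
      intro i hi
      rw [Finset.mem_Ico] at hi
      rw [Finset.mem_range]
      omega)
    have g3 : b ^ (-2 : ℝ) * b = b ^ (-1 : ℝ) := by
      conv_lhs => rw [← Real.rpow_one b, ← Real.rpow_mul hb0.le, ← Real.rpow_add hb0]
      norm_num
    have g4 : b ^ (-1 : ℝ) ≤ (1 / 16) ^ 1 := E.small (by norm_num)
    have p2 : 0 ≤ b ^ (-2 : ℝ) := by positivity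
    nlinarith [mul_le_mul_of_nonneg_left g2 p2]
  have hn2 : W p j ^ 2 * (1 / W p m ^ 2) ≤ if j = m then 1 else 1 / 16 := by
    have e : W p j ^ 2 * (1 / W p m ^ 2) = b ^ (2 * ex b p j - 2 * ex b p m) := by
      rw [Real.rpow_sub hb0, ← hWsq, ← hWsq, ← V.W_eq, ← V.W_eq]
      ring
    rw [e]
    split_ifs with hjm'
    · subst hjm'
      rw [sub_self, Real.rpow_zero]
    · have h3 : b ^ (2 * ex b p j - 2 * ex b p m) ≤ (1 / 16) ^ 1 := by
        apply E.small
        push_cast
        rcases Nat.lt_or_ge m 35 with h | h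
        · have h4 := E.clean hjm h.le
          have h5 : (1 : ℝ) ≤ ((m - j : ℕ) : ℝ) := by
            have : 1 ≤ m - j := by omega
            exact_mod_cast this
          linarith
        · have h4 := V.v2' h hm
          linarith
      simpa using h3
  have e1 : b ^ (-ex b p j) = 1 / W p j := by
    rw [V.W_eq j, Real.rpow_neg hb0.le, one_div]
  rw [e1]
  unfold tau
  have e2 : W p j / W p m ^ 2 = 1 / W p j * (W p j ^ 2 * (1 / W p m ^ 2)) := by
    have := V.W_pos m
    field_simp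
  have e3 : W p j * wtt a p j m = 1 / W p j * (W p j ^ 2 * wtt a p j m) := by
    field_simp
  rw [e2, e3]
  have hi : 0 < 1 / W p j := by positivity
  have h7 : W p j ^ 2 * (1 / W p m ^ 2) + W p j ^ 2 * wtt a p j m ≤ 2 := by
    split_ifs at hw hn2 with h8
    · linarith
    · linarith
  nlinarith [mul_le_mul_of_nonneg_left h7 hi.le]

theorem LV.tau_le (V : LV b L H a p) {j m : ℕ} (hj : j ≤ H) (hjm : j ≤ m) (hm : m ≤ H + 1) :
    tau a p j m ≤ Lam b p j := by
  unfold Lam
  split_ifs with h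
  · exact le_min (V.tau_c h hjm hm) (V.tau_g hj hjm hm)
  · exact V.tau_g hj hjm hm

/-- fundamental solution as a field -/
theorem fund_nn_le (V : LV b L H a p) {j m : ℕ} (hjm : j ≤ m) :
    nn (fund a j m, fund a j (m + 1)) ≤ W p m * tau a p j m := by
  obtain ⟨i, rfl⟩ := Nat.exists_eq_add_of_le hjm
  have hw : IsField (fun t => a (j + t + 1)) (fun t => (p (j + t), p (j + t + 1))) := by
    intro t
    have := V.isField (j + t)
    exact this
  have hz : IsField (fun t => a (j + t + 1)) (fun t => (fundAux a j t, fundAux a j (t + 1))) := by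
    intro t
    unfold stp
    simp only
    rfl
  have h0 : 0 < nn ((fun t => (p (j + t), p (j + t + 1))) 0) := V.W_pos j
  have h1 := tree_ineq hw hz (Nat.zero_le i) h0
  simp only [add_zero] at h1
  have e1 : fund a j (j + i) = fundAux a j i := by unfold fund; rw [Nat.add_sub_cancel_left]
  have e2 : fund a j (j + i + 1) = fundAux a j (i + 1) := by
    unfold fund; rw [show j + i + 1 - j = i + 1 by omega]
  rw [e1, e2]
  have e3 : nn (fundAux a j 0, fundAux a j (0 + 1)) = 1 := by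
    show nn (0, 1) = 1
    unfold nn; simp
  rw [e3, one_mul] at h1
  have e4 : wt (fun t => a (j + t + 1)) (fun t => (p (j + t), p (j + t + 1))) 0 i = wtt a p j (j + i) := by
    unfold wt wtt
    rw [Finset.sum_Ico_eq_sum_range, Finset.sum_Ico_eq_sum_range]
    rw [Nat.sub_zero, Nat.add_sub_cancel_left]
    refine Finset.sum_congr rfl fun t _ => ?_
    rw [Nat.zero_add]
    rfl
  rw [e4] at h1
  refine h1.trans (le_of_eq ?_)
  have hW1 := V.W_pos j
  have hW2 := V.W_pos (j + i)
  show W p (j + i) / W p j + W p j / W p (j + i) + W p j * W p (j + i) * wtt a p j (j + i) = _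
  unfold tau
  field_simp

/-- bound of the fundamental solutions by the canonical weights -/
theorem LV.fund_le (V : LV b L H a p) {j m : ℕ} (hj : j ≤ H) (hjm : j ≤ m) (hm : m ≤ H + 1) :
    |fund a j m| ≤ W p m * Lam b p j ∧ |fund a j (m + 1)| ≤ W p m * Lam b p j := by
  have h1 := fund_nn_le V hjm
  have h2 := mul_le_mul_of_nonneg_left (V.tau_le hj hjm hm) (W_nonneg p m)
  exact ⟨(abs_fst_le (fund a j m, fund a j (m + 1))).trans (h1.trans h2),
    (abs_snd_le (fund a j m, fund a j (m + 1))).trans (h1.trans h2)⟩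

end Crest.Agent.R128.C2
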