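import Mathlib
import Crest.Agent.R128.C2A

/-!
Row 128, node V34-CORE2 (helper926), part B: sums of the canonical weights and comparison of the
`(0,1)` fields of two potentials which are close in the box `c * Lam + β`.
-/

set_option autoImplicit false

open Finset

namespace Crest.Agent.R128.C2

open Crest.Agent.R128.TreeSum Crest.Agent.R128.BVP Crest.Agent.R128.Val

/-- context: `X = b ^ ξ` is the size of the class -/
structure Cx (b ξ : ℝ) (H : ℕ) (a p : ℕ → ℝ) : Prop where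
  V : LV b 35 H a p
  hξ : 900 ≤ ξ
  hU : ∀ m ≤ H, ex b p m ≤ 2 + ξ

/-- the small additive constant -/
noncomputable def bet (b ξ : ℝ) : ℝ := b ^ (-(9 / 10 * ξ))

variable {b ξ : ℝ} {H : ℕ} {a p : ℕ → ℝ}

theorem Cx.mono (C : Cx b ξ H a p) {x y : ℝ} (h : x ≤ y) : b ^ x ≤ b ^ y := C.V.expo.mono h

theorem Cx.bet_pos (C : Cx b ξ H a p) : 0 < bet b ξ := Real.rpow_pos_of_pos C.V.b0 _

theorem Cx.hU' (C : Cx b ξ H a p) {m : ℕ} (hm : m ≤ H + 1) : ex b p m ≤ 4 + ξ := by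
  rcases Nat.lt_or_ge H m with h | h
  · have e : m = H + 1 := by omega
    subst e
    have h3 : W p (H + 1) ≤ b ^ (2 : ℝ) * W p H := by
      rw [Real.rpow_two]
      exact C.V.W_succ_sq H
    have h4 := C.V.ex_le h3
    have := C.hU H le_rfl
    linarith
  · have := C.hU m h
    linarith

theorem Cx.ex_pred (C : Cx b ξ H a p) (m : ℕ) : ex b p m ≤ ex b p (m + 1) + 2 := by
  have h3 : W p m ≤ b ^ (2 : ℝ) * W p (m + 1) := by
    rw [Real.rpow_two]
    exact C.V.W_le_sq m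
  have := C.V.ex_le h3
  linarith

theorem Cx.two_le (C : Cx b ξ H a p) : (2 : ℝ) ≤ b := by linarith [C.V.hb]

theorem Cx.mul_le (C : Cx b ξ H a p) {A B x y z : ℝ} (hA : A ≤ b ^ x) (hB : B ≤ b ^ y) (hB0 : 0 ≤ B)
    (h : x + y ≤ z) : A * B ≤ b ^ z := by
  have hb0 := C.V.b0
  calc A * B ≤ b ^ x * b ^ y := mul_le_mul hA hB hB0 (Real.rpow_nonneg hb0.le _)
    _ = b ^ (x + y) := by rw [← Real.rpow_add hb0]
    _ ≤ b ^ z := C.mono h

theorem Cx.num_le (C : Cx b ξ H a p) {x : ℝ} (hx : x ≤ 100) : x ≤ b ^ (1 : ℝ) := by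
  rw [Real.rpow_one]; linarith [C.V.hb]

theorem Cx.card (C : Cx b ξ H a p) : ((H : ℝ) + 1) ≤ b ^ (2 + 1 / 400 * ξ) := by
  have hb0 := C.V.b0
  have hb := C.V.hb
  obtain ⟨i, hi, h⟩ := C.V.V3 H C.V.hLN le_rfl
  have h1 : (H : ℝ) ≤ b ^ (1 / 400 * ex b p i) := by
    refine h.trans ?_
    have h3 : (N p i) ^ (1 / 400 : ℝ) ≤ (W p i) ^ (1 / 400 : ℝ) :=
      Real.rpow_le_rpow (N_nonneg p i) (N_le_W p i) (by norm_num)
    refine h3.trans ?_
    rw [C.V.W_eq, ← Real.rpow_mul hb0.le]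
    apply C.mono
    linarith
  have h2 := C.hU i hi
  have h3 : (H : ℝ) ≤ b ^ (1 / 400 * (2 + ξ)) := h1.trans (C.mono (by linarith))
  have h4 : (1 : ℝ) ≤ b ^ (1 / 400 * (2 + ξ)) := by
    have := C.hξ
    exact Real.one_le_rpow (by linarith) (by linarith)
  have h5 : 2 * b ^ (1 / 400 * (2 + ξ)) ≤ b ^ (2 + 1 / 400 * ξ) := by
    refine C.mul_le (C.num_le (by norm_num)) le_rfl (by positivity) ?_
    linarith
  linarith

/-- one term of the first sum -/
theorem Cx.term1 (C : Cx b ξ H a p) {j : ℕ} (hj1 : 1 ≤ j) (hj : j ≤ H + 1) :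
    Lam b p j * W p (j - 1) ≤ b ^ (10 + 3 / 100 * ξ) := by
  have hb0 := C.V.b0
  have h1 := Lam_le_g (b := b) p j
  have h2 := C.ex_pred (j - 1)
  rw [Nat.sub_add_cancel hj1] at h2
  have h3 := C.hU' hj
  have h4 : Lam b p j ≤ b ^ (7 - 97 / 100 * ex b p j) := by
    refine h1.trans ?_
    refine C.mul_le (C.num_le (by norm_num)) le_rfl (by positivity) ?_
    linarith
  rw [C.V.W_eq (j - 1)]
  refine C.mul_le h4 le_rfl (by positivity) ?_
  linarith

theorem Cx.S1 (C : Cx b ξ H a p) :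
    ∑ j ∈ Icc 1 (H + 1), Lam b p j * W p (j - 1) ≤ b ^ (12 + 4 / 100 * ξ) := by
  have hb0 := C.V.b0
  have h1 : ∑ j ∈ Icc 1 (H + 1), Lam b p j * W p (j - 1) ≤
      ∑ j ∈ Icc 1 (H + 1), b ^ (10 + 3 / 100 * ξ) :=
    Finset.sum_le_sum fun j hj => by
      rw [Finset.mem_Icc] at hj
      exact C.term1 hj.1 hj.2
  refine h1.trans ?_
  rw [Finset.sum_const, Nat.card_Icc, nsmul_eq_mul, Nat.add_sub_cancel]
  push_cast
  refine C.mul_le C.card le_rfl (by positivity) ?_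
  have := C.hξ
  linarith

theorem Cx.S2 (C : Cx b ξ H a p) :
    ∑ j ∈ Icc 1 (H + 1), Lam b p j ^ 2 * W p (j - 1) ≤ 12 / b ^ 2 := by
  have hb0 := C.V.b0
  have E := C.V.expo
  rw [Finset.sum_Icc_succ_top (by omega)]
  have h1 := sum2 E (Lam_lamB hb0 p H)
  have e : b ^ (-2 : ℝ) = 1 / b ^ 2 := by
    rw [Real.rpow_neg hb0.le, Real.rpow_two, one_div]
  have h2 : ∑ j ∈ Icc 1 H, Lam b p j ^ 2 * W p (j - 1) =
      ∑ j ∈ Icc 1 H, Lam b p j ^ 2 * b ^ ex b p (j - 1) := by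
    apply Finset.sum_congr rfl
    intro j hj
    rw [C.V.W_eq]
  rw [e] at h1
  have h3 : Lam b p (H + 1) ^ 2 * W p (H + 1 - 1) ≤ 1 / b ^ 2 := by
    rw [Nat.add_sub_cancel, ← e]
    have h4 := Lam_le_g (b := b) p (H + 1)
    have h5 : Lam b p (H + 1) ≤ b ^ (7 - 97 / 100 * ex b p (H + 1)) := by
      refine h4.trans ?_
      refine C.mul_le (C.num_le (by norm_num)) le_rfl (by positivity) ?_
      linarith
    have h6 := C.ex_pred H
    have h7 := C.V.v2' (i := 35) (m := H + 1) (by have := C.V.hLN; omega) le_rfl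
    have h8 := E.clean (Nat.zero_le 35) le_rfl
    rw [E.u0] at h8
    norm_num at h8
    have hp := (Lam_pos hb0 p (H + 1)).le
    rw [C.V.W_eq H, sq]
    refine C.mul_le (C.mul_le h5 h5 hp le_rfl) le_rfl (by positivity) ?_
    linarith
  rw [h2]
  calc _ ≤ 11 * (1 / b ^ 2) + 1 / b ^ 2 := add_le_add h1 h3
    _ = 12 / b ^ 2 := by ring

/-- combined sum -/
theorem Cx.S3 (C : Cx b ξ H a p) {c M : ℝ} (hc : 0 ≤ c) (hM : 0 ≤ M) :
    ∑ j ∈ Icc 1 (H + 1), Lam b p j * (M * (c * Lam b p j + bet b ξ)) * W p (j - 1) ≤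
      M * (12 * c + 1) / b ^ 2 := by
  have hb0 := C.V.b0
  have e1 : ∑ j ∈ Icc 1 (H + 1), Lam b p j * (M * (c * Lam b p j + bet b ξ)) * W p (j - 1) =
      M * c * ∑ j ∈ Icc 1 (H + 1), Lam b p j ^ 2 * W p (j - 1) +
      M * (bet b ξ * ∑ j ∈ Icc 1 (H + 1), Lam b p j * W p (j - 1)) := by
    rw [Finset.mul_sum, Finset.mul_sum, Finset.mul_sum, ← Finset.sum_add_distrib]
    apply Finset.sum_congr rfl
    intro j _
    ring
  rw [e1]
  have h1 := mul_le_mul_of_nonneg_left C.S2 (mul_nonneg hM hc)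
  have h2 : bet b ξ * ∑ j ∈ Icc 1 (H + 1), Lam b p j * W p (j - 1) ≤ 1 / b ^ 2 := by
    have e : b ^ (-2 : ℝ) = 1 / b ^ 2 := by
      rw [Real.rpow_neg hb0.le, Real.rpow_two, one_div]
    rw [← e]
    unfold bet
    have hξ := C.hξ
    refine C.mul_le le_rfl C.S1 ?_ (by linarith)
    apply Finset.sum_nonneg
    intro j _
    exact mul_nonneg (Lam_pos hb0 p j).le (W_nonneg _ _)
  have h3 := mul_le_mul_of_nonneg_left h2 hM
  calc _ ≤ M * c * (12 / b ^ 2) + M * (1 / b ^ 2) := add_le_add h1 h3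
    _ = _ := by ring

/-- pointwise weight of the field at `m`: controls both `p m` as first and as second component -/
noncomputable def Wf (p : ℕ → ℝ) (H m : ℕ) : ℝ :=
  if m = 0 then 1 else if m ≤ H + 1 then min (W p (m - 1)) (W p m) else W p (m - 1)

theorem abs_le_Wf (p : ℕ → ℝ) (p0 : p 0 = 0) (H m : ℕ) : |p m| ≤ Wf p H m := by
  unfold Wf
  split_ifs with h1 h2
  · rw [h1, p0]; simp
  · exact le_min (abs_le_W_pred p (by omega)) (abs_le_W p m)
  · exact abs_le_W_pred p (by omega)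

theorem Wf_le_pred (p : ℕ → ℝ) (H : ℕ) {m : ℕ} (hm : 1 ≤ m) : Wf p H m ≤ W p (m - 1) := by
  unfold Wf
  rw [if_neg (by omega)]
  split_ifs
  · exact min_le_left _ _
  · exact le_rfl

theorem Wf_le (p : ℕ → ℝ) {H m : ℕ} (hm1 : 1 ≤ m) (hm : m ≤ H + 1) : Wf p H m ≤ W p m := by
  unfold Wf
  rw [if_neg (by omega), if_pos hm]
  exact min_le_right _ _

theorem Cx.Wf_pos (C : Cx b ξ H a p) (m : ℕ) : 0 < Wf p H m := by
  unfold Wf
  split_ifs
  · norm_num
  · exact lt_min (C.V.W_pos _) (C.V.W_pos _)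
  · exact C.V.W_pos _

theorem Cx.fund_le (C : Cx b ξ H a p) {j m : ℕ} (hj1 : 1 ≤ j) (hjm : j < m) (hm : m ≤ H + 2) :
    |fund a j m| ≤ Wf p H m * Lam b p j := by
  have hb0 := C.V.b0
  have hL := (Lam_pos hb0 p j).le
  unfold Wf
  rw [if_neg (by omega)]
  split_ifs with h
  · have h1 := (C.V.fund_le (by omega : j ≤ H) hjm.le h).1
    have h2 := (C.V.fund_le (by omega : j ≤ H) (by omega : j ≤ m - 1) (by omega : m - 1 ≤ H + 1)).2
    rw [Nat.sub_add_cancel (by omega)] at h2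
    rcases le_total (W p (m - 1)) (W p m) with h3 | h3
    · rw [min_eq_left h3]; exact h2
    · rw [min_eq_right h3]; exact h1
  · have e : m = H + 2 := by omega
    subst e
    rw [show H + 2 - 1 = H + 1 by omega]
    rcases Nat.lt_or_ge H j with h4 | h4
    · have e : j = H + 1 := by omega
      subst e
      rw [fund_succ, abs_one]
      have hLN := C.V.hLN
      unfold Lam
      rw [if_neg (by omega), C.V.W_eq (H + 1)]
      have h5 := C.V.ex_nonneg (le_refl (H + 1))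
      have h6 : (1 : ℝ) ≤ b ^ ex b p (H + 1) * b ^ (6 - 97 / 100 * ex b p (H + 1)) := by
        rw [← Real.rpow_add hb0]
        exact Real.one_le_rpow (by linarith [C.V.hb]) (by linarith)
      linarith
    · exact (C.V.fund_le h4 (by omega : j ≤ H + 1) le_rfl).2

/-- **Field comparison** in the box `c * Lam + β`. -/
theorem Cx.fieldcmp (C : Cx b ξ H a p) {c M η : ℝ} (hc : 0 ≤ c) (hM : 0 ≤ M)
    (hη : M * (12 * c + 1) / b ^ 2 ≤ η) (hη2 : η ≤ 1 / 2) {a' p' : ℕ → ℝ} {m0 : ℕ} (hm0 : m0 ≤ H + 2)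
    (h1 : 1 ≤ m0) (hp0 : p' 0 = 0) (hp1 : p' 1 = 1)
    (hp' : ∀ m, m + 2 ≤ m0 → p' (m + 2) = a' (m + 1) * p' (m + 1) - p' m)
    (ha' : ∀ j, 1 ≤ j → j < m0 → |a' j - a j| ≤ M * (c * Lam b p j + bet b ξ)) :
    ∀ m ≤ m0, |p' m - p m| ≤ 2 * η * Wf p H m := by
  have hb0 := C.V.b0
  obtain ⟨K, rfl⟩ : ∃ K, m0 = K + 1 := ⟨m0 - 1, by omega⟩
  refine field_pert (N := K) hη2 C.V.p0 C.V.p1 (fun m _ => C.V.hp m) hp0 hp1
    (fun m hm => hp' m (by omega)) (fun m _ => abs_le_Wf p C.V.p0 H m) ?_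
  intro m hm
  have hpt : ∀ j ∈ Ico 1 m, |fund a j m| * |a' j - a j| * Wf p H j ≤
      Wf p H m * (Lam b p j * (M * (c * Lam b p j + bet b ξ)) * W p (j - 1)) := by
    intro j hj
    rw [Finset.mem_Ico] at hj
    have g1 := C.fund_le hj.1 hj.2 (by omega)
    have g2 := ha' j hj.1 (by omega)
    have g3 := Wf_le_pred p H hj.1
    have g4 := (C.Wf_pos m).le
    have g5 := (C.Wf_pos j).le
    have g6 := (Lam_pos hb0 p j).le
    have g7 := C.bet_pos.le
    calc |fund a j m| * |a' j - a j| * Wf p H j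
        ≤ (Wf p H m * Lam b p j) * (M * (c * Lam b p j + bet b ξ)) * W p (j - 1) := by gcongr
      _ = _ := by ring
  refine (Finset.sum_le_sum hpt).trans ?_
  rw [← Finset.mul_sum]
  have h2 : ∑ j ∈ Ico 1 m, Lam b p j * (M * (c * Lam b p j + bet b ξ)) * W p (j - 1) ≤
      ∑ j ∈ Icc 1 (H + 1), Lam b p j * (M * (c * Lam b p j + bet b ξ)) * W p (j - 1) := by
    apply Finset.sum_le_sum_of_subset_of_nonneg
    · intro j hj
      rw [Finset.mem_Ico] at hj
      rw [Finset.mem_Icc]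
      omega
    · intro j _ _
      have g6 := (Lam_pos hb0 p j).le
      have g7 := C.bet_pos.le
      have g8 := W_nonneg p (j - 1)
      positivity
  have h3 := (h2.trans (C.S3 hc hM)).trans hη
  have h4 := mul_le_mul_of_nonneg_left h3 (C.Wf_pos m).le
  linarith

end Crest.Agent.R128.C2
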