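import Mathlib
import Crest.Agent.R128.C2B

/-!
Row 128, node V34-CORE2 (helper926), part C: two orbits in the box of a valid orbit.
-/

set_option autoImplicit false

open Finset

namespace Crest.Agent.R128.C2

open Crest.Agent.R128.TreeSum Crest.Agent.R128.BVP Crest.Agent.R128.Val

variable {b ξ : ℝ} {H n L : ℕ} {p q x : ℕ → ℝ} {f Vd : ℝ → ℝ} {M : ℝ}

/-- global orbit -/
def GO (f : ℝ → ℝ) (x : ℕ → ℝ) : Prop := ∀ m, x (m + 2) + x m = f (x (m + 1))

theorem GO.eq {f : ℝ → ℝ} {x y : ℕ → ℝ} (hx : GO f x) (hy : GO f y) (h0 : x 0 = y 0) (h1 : x 1 = y 1) :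
    ∀ m, x m = y m := by
  have : ∀ m, x m = y m ∧ x (m + 1) = y (m + 1) := by
    intro m
    induction m with
    | zero => exact ⟨h0, h1⟩
    | succ m ih =>
      refine ⟨ih.2, ?_⟩
      have a1 := hx m
      have a2 := hy m
      rw [ih.1, ih.2] at a1
      show x (m + 2) = y (m + 2)
      linarith
  exact fun m => (this m).1

/-- **perturbation of the starting point** -/
theorem Cx.pert (C : Cx b ξ H (fun m => Vd (x m)) p) (hM : 0 ≤ M) (hNL : NL f Vd M) {c η ρ : ℝ}
    (hc : 0 ≤ c) (hη : M * (12 * c + 1) / b ^ 2 ≤ η) (hη2 : η ≤ 1 / 2) {y w : ℕ → ℝ}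
    (hy : GO f y) (hw : GO f w) (h0 : w 0 = y 0) (h1 : |w 1 - y 1| ≤ ρ)
    (hρ : ρ ≤ b ^ (-(195 / 100 * ξ)))
    (hbox : ∀ m, 1 ≤ m → m ≤ H + 1 → |y m - x m| ≤ c * Lam b p m + bet b ξ / 2) :
    (∀ m ≤ H + 2, |w m - y m| ≤ |w 1 - y 1| * (|p m| + 2 * η * Wf p H m)) ∧
      (∀ m ≤ H + 2, |w m - y m| ≤ 2 * ρ * Wf p H m) ∧
      ∀ m, 1 ≤ m → m ≤ H + 1 → |w m - x m| ≤ c * Lam b p m + bet b ξ := by
  classical
  have hb0 := C.V.b0
  have hρ0 : 0 ≤ ρ := (abs_nonneg _).trans h1
  have hsm : ∀ j, 1 ≤ j → j ≤ H + 1 → 2 * ρ * Wf p H j ≤ bet b ξ / 2 := by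
    intro j hj1 hj
    have g1 := Wf_le_pred p H hj1
    have g2 := C.hU' (m := j - 1) (by omega)
    have g3 : Wf p H j ≤ b ^ (4 + ξ) := by
      refine g1.trans ?_
      rw [C.V.W_eq]
      exact C.mono g2
    have g4 : 4 * ρ ≤ b ^ (1 + -(195 / 100 * ξ)) := by
      refine C.mul_le (C.num_le (by norm_num)) hρ hρ0 le_rfl
    have g5 : 4 * ρ * Wf p H j ≤ bet b ξ := by
      unfold bet
      have := C.hξ
      refine C.mul_le g4 g3 (C.Wf_pos j).le (by linarith)
    linarith
  by_cases hD : w 1 = y 1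
  · have he := GO.eq hw hy h0 hD
    refine ⟨fun m _ => ?_, fun m _ => ?_, fun m hm1 hm => ?_⟩
    · rw [he m, sub_self, abs_zero]
      have g1 := (C.Wf_pos m).le
      have hη0 : 0 ≤ η := by
        refine le_trans ?_ hη
        positivity
      positivity
    · rw [he m, sub_self, abs_zero]
      have g1 := (C.Wf_pos m).le
      positivity
    · rw [he m]
      have := hbox m hm1 hm
      have := C.bet_pos
      linarith
  set D := w 1 - y 1 with hDdef
  have hD0 : D ≠ 0 := sub_ne_zero.mpr hD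
  set pt : ℕ → ℝ := fun j => (w j - y j) / D with hpt
  set at' : ℕ → ℝ := fun j => if w j = y j then Vd (x j) else (f (w j) - f (y j)) / (w j - y j) with hat
  have hrec : ∀ m, pt (m + 2) = at' (m + 1) * pt (m + 1) - pt m := by
    intro m
    have a1 := hw m
    have a2 := hy m
    have a3 : w (m + 2) - y (m + 2) = (f (w (m + 1)) - f (y (m + 1))) - (w m - y m) := by linarith
    simp only [hpt, hat]
    split_ifs with h
    · rw [a3, h, sub_self, sub_self]
      ring
    · have h' : w (m + 1) - y (m + 1) ≠ 0 := sub_ne_zero.mpr h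
      rw [a3]
      field_simp
  have hat_le : ∀ j B, |w j - x j| ≤ B → |y j - x j| ≤ B → |at' j - Vd (x j)| ≤ M * B := by
    intro j B hB1 hB2
    have hB0 : 0 ≤ B := (abs_nonneg _).trans hB1
    simp only [hat]
    split_ifs with h
    · rw [sub_self, abs_zero]; positivity
    · have h' : w j - y j ≠ 0 := sub_ne_zero.mpr h
      have h2 := hNL (x j) (w j - x j) (y j - x j)
      rw [add_sub_cancel, add_sub_cancel, show w j - x j - (y j - x j) = w j - y j by ring] at h2
      have h3 : (f (w j) - f (y j)) / (w j - y j) - Vd (x j) =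
          (f (w j) - f (y j) - Vd (x j) * (w j - y j)) / (w j - y j) := by
        field_simp
      rw [h3, abs_div, div_le_iff₀ (abs_pos.mpr h')]
      refine h2.trans ?_
      apply mul_le_mul_of_nonneg_right _ (abs_nonneg _)
      exact mul_le_mul_of_nonneg_left (max_le hB1 hB2) hM
  have key : ∀ m, m ≤ H + 2 → |pt m - p m| ≤ 2 * η * Wf p H m ∧ |w m - y m| ≤ 2 * ρ * Wf p H m := by
    intro m
    induction m using Nat.strong_induction_on with
    | _ m ih =>
      intro hm
      rcases Nat.eq_zero_or_pos m with hm0 | hm0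
      · subst hm0
        have g1 := (C.Wf_pos 0).le
        have hη0 : 0 ≤ η := by
          refine le_trans ?_ hη
          positivity
        simp only [hpt]
        rw [h0, sub_self, zero_div, C.V.p0, sub_self, abs_zero]
        exact ⟨by positivity, by positivity⟩
      have h2 := C.fieldcmp hc hM hη hη2 (a' := at') (p' := pt) hm hm0
        (by simp only [hpt]; rw [h0, sub_self, zero_div])
        (by simp only [hpt]; rw [← hDdef, div_self hD0]) (fun i _ => hrec i) (by
          intro j hj1 hj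
          have b1 := hbox j hj1 (by omega)
          have b2 := (ih j hj (by omega)).2
          have b3 := hsm j hj1 (by omega)
          have b4 := C.bet_pos
          refine hat_le j _ ?_ ?_
          · calc |w j - x j| ≤ |w j - y j| + |y j - x j| := by
                  have := abs_add_le (w j - y j) (y j - x j)
                  rwa [sub_add_sub_cancel] at this
              _ ≤ _ := by linarith
          · linarith) m le_rfl
      refine ⟨h2, ?_⟩
      have h3 := abs_le_Wf p C.V.p0 H m
      have h4 : |pt m| ≤ 2 * Wf p H m := by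
        have h5 : |pt m| ≤ |pt m - p m| + |p m| := by
          have := abs_add_le (pt m - p m) (p m)
          rwa [sub_add_cancel] at this
        have h6 := (C.Wf_pos m).le
        nlinarith
      have h5 : w m - y m = D * pt m := by
        simp only [hpt]
        field_simp
      rw [h5, abs_mul]
      calc |D| * |pt m| ≤ ρ * (2 * Wf p H m) := by gcongr
        _ = _ := by ring
  refine ⟨fun m hm => ?_, fun m hm => (key m hm).2, fun m hm1 hm => ?_⟩
  · have h2 := (key m hm).1
    have h5 : w m - y m = D * pt m := by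
      simp only [hpt]
      field_simp
    rw [h5, abs_mul]
    apply mul_le_mul_of_nonneg_left _ (abs_nonneg _)
    have h6 : |pt m| ≤ |pt m - p m| + |p m| := by
      have := abs_add_le (pt m - p m) (p m)
      rwa [sub_add_cancel] at this
    linarith
  · have b1 := hbox m hm1 hm
    have b2 := (key m (by omega)).2
    have b3 := hsm m hm1 hm
    calc |w m - x m| ≤ |w m - y m| + |y m - x m| := by
          have := abs_add_le (w m - y m) (y m - x m)
          rwa [sub_add_sub_cancel] at this
      _ ≤ _ := by linarith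

/-- **comparison of the norms of the fields** of an orbit in the box -/
theorem Cx.nfcmp (C : Cx b ξ H (fun m => Vd (x m)) p) (hM : 0 ≤ M)
    (hVL : ∀ s t, |Vd s - Vd t| ≤ M * |s - t|) {c η : ℝ}
    (hc : 0 ≤ c) (hη : M * (12 * c + 1) / b ^ 2 ≤ η) (hη2 : η ≤ 1 / 2) {w pw : ℕ → ℝ}
    (hp0 : pw 0 = 0) (hp1 : pw 1 = 1) (hp : ∀ m, pw (m + 2) = Vd (w (m + 1)) * pw (m + 1) - pw m)
    (hbox : ∀ m, 1 ≤ m → m ≤ H + 1 → |w m - x m| ≤ c * Lam b p m + bet b ξ) :
    ∀ m ≤ H + 1, N pw m ≤ (1 + 3 * η) * N p m ∧ (1 - 3 * η) * N p m ≤ N pw m := by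
  have h2 := C.fieldcmp hc hM hη hη2 (a' := fun m => Vd (w m)) (p' := pw) (m0 := H + 2) le_rfl (by omega)
    hp0 hp1 (fun m _ => hp m) (by
      intro j hj1 hj
      exact (hVL _ _).trans (mul_le_mul_of_nonneg_left (hbox j hj1 (by omega)) hM))
  have hη0 : 0 ≤ η := by
    have := C.V.b0
    refine le_trans ?_ hη
    positivity
  intro m hm
  have hW := W_le_N p m
  have hW0 := W_nonneg p m
  have e1 : |pw m - p m| ≤ 2 * η * W p m := by
    rcases Nat.eq_zero_or_pos m with h | h
    · subst h
      rw [hp0, C.V.p0, sub_self, abs_zero]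
      positivity
    · exact (h2 m (by omega)).trans (mul_le_mul_of_nonneg_left (Wf_le p h hm) (by positivity))
  have e2 : |pw (m + 1) - p (m + 1)| ≤ 2 * η * W p m := by
    have := Wf_le_pred p H (Nat.succ_le_succ (Nat.zero_le m))
    exact (h2 (m + 1) (by omega)).trans (mul_le_mul_of_nonneg_left this (by positivity))
  have e3 : 2 * η * W p m ≤ 3 * η * N p m := by nlinarith
  have n1 : |p m| ≤ N p m := le_max_left _ _
  have n2 : |p (m + 1)| ≤ N p m := le_max_right _ _
  have n3 : |pw m| ≤ N pw m := le_max_left _ _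
  have n4 : |pw (m + 1)| ≤ N pw m := le_max_right _ _
  constructor
  · apply max_le
    · have := abs_sub_abs_le_abs_sub (pw m) (p m)
      linarith
    · have := abs_sub_abs_le_abs_sub (pw (m + 1)) (p (m + 1))
      linarith
  · have : N p m ≤ N pw m + 3 * η * N p m := by
      conv_lhs => unfold N
      apply max_le
      · have := abs_sub_abs_le_abs_sub (p m) (pw m)
        rw [abs_sub_comm (p m) (pw m)] at this
        linarith
      · have := abs_sub_abs_le_abs_sub (p (m + 1)) (pw (m + 1))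
        rw [abs_sub_comm (p (m + 1)) (pw (m + 1))] at this
        linarith
    linarith

/-- **after the matched time** -/
theorem Cx.fwd (C : Cx b ξ H (fun m => Vd (x m)) p) (hM : 0 ≤ M) (hM2 : M ≤ b ^ 2) (hNL : NL f Vd M)
    (hx : GO f x) {y : ℕ → ℝ} (hy : GO f y) (hn1 : 1 ≤ n) (hnH : n ≤ H) (hend : y (n + 1) = x (n + 1))
    (hWn : b ^ ξ ≤ W p n) (hd : |y n - x n| ≤ 2 * b ^ (-ξ)) :
    ∀ m, n ≤ m → m ≤ H + 1 → |y m - x m| ≤ bet b ξ / 2 := by
  have hb0 := C.V.b0
  have hξ := C.hξ
  set B : ℝ := b ^ (10 + 4 / 100 * ξ) with hB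
  have hun : ξ ≤ ex b p n := by
    rw [C.V.W_eq n] at hWn
    exact (Real.rpow_le_rpow_left_iff (by linarith [C.V.hb])).mp hWn
  have hB1 : 1 ≤ B := Real.one_le_rpow (by linarith [C.V.hb]) (by linarith)
  have hcd := C.card
  have h := BVP.fwd hM hNL (s := n) (N := H) (x := x) (z := y) (B := B)
    (fun m _ _ => hx m) (fun m _ _ => hy m) hend hB1 (by
      intro j m hj hjm hm
      rcases Nat.eq_or_lt_of_le hjm with h1 | h1
      · subst h1
        rw [fund_self, abs_zero]; linarith
      · have g1 := C.fund_le (a := fun i => Vd (x i)) (by omega : 1 ≤ j) h1 (by omega)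
        have g2 := Wf_le_pred p H (by omega : 1 ≤ m)
        have g3 := C.hU (m - 1) (by omega)
        have g4 := C.V.v2 n j (by omega) (by omega)
        have g5 := Lam_le_g (b := b) p j
        have g6 : Lam b p j ≤ b ^ (7 - 97 / 100 * ex b p j) := by
          refine g5.trans ?_
          refine C.mul_le (C.num_le (by norm_num)) le_rfl (by positivity) ?_
          linarith
        refine g1.trans ?_
        refine C.mul_le (x := 2 + ξ) ?_ g6 (Lam_pos hb0 p j).le (by linarith)
        refine g2.trans ?_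
        rw [C.V.W_eq]
        exact C.mono g3) (by
      have g1 : ((H : ℝ) - n) ≤ b ^ (2 + 1 / 400 * ξ) := by
        have : (0 : ℝ) ≤ (n : ℝ) := Nat.cast_nonneg _
        linarith
      have g0 : (0 : ℝ) ≤ (H : ℝ) - n := by
        have : (n : ℝ) ≤ H := by exact_mod_cast hnH
        linarith
      have g2 : B ^ 2 = b ^ (20 + 8 / 100 * ξ) := by
        rw [hB, ← Real.rpow_natCast, ← Real.rpow_mul hb0.le]
        congr 1
        push_cast
        ring
      have g3 : M ≤ b ^ (2 : ℝ) := by rw [Real.rpow_two]; exact hM2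
      have g4 : |y n - x n| ≤ b ^ (1 + -ξ) :=
        hd.trans (C.mul_le (C.num_le (by norm_num)) le_rfl (by positivity) le_rfl)
      have g5 : 4 * B ^ 2 ≤ b ^ (21 + 8 / 100 * ξ) := by
        rw [g2]
        refine C.mul_le (C.num_le (by norm_num)) le_rfl (by positivity) (by linarith)
      have g6 : 4 * B ^ 2 * M ≤ b ^ (23 + 8 / 100 * ξ) := C.mul_le g5 g3 hM (by linarith)
      have g7 : 4 * B ^ 2 * M * ((H : ℝ) - n) ≤ b ^ (25 + 9 / 100 * ξ) := C.mul_le g6 g1 g0 (by linarith)
      have g8 : 4 * B ^ 2 * M * ((H : ℝ) - n) * |y n - x n| ≤ b ^ (0 : ℝ) :=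
        C.mul_le g7 g4 (abs_nonneg _) (by linarith)
      rwa [Real.rpow_zero] at g8)
  intro m hm1 hm
  refine (h m hm1 hm).trans ?_
  have g4 : |y n - x n| ≤ b ^ (1 + -ξ) :=
    hd.trans (C.mul_le (C.num_le (by norm_num)) le_rfl (by positivity) le_rfl)
  have g5 : 4 * B ≤ b ^ (11 + 4 / 100 * ξ) :=
    C.mul_le (C.num_le (by norm_num)) le_rfl (by positivity) (by linarith)
  have g6 : 4 * B * |y n - x n| ≤ bet b ξ := by
    unfold bet
    exact C.mul_le g5 g4 (abs_nonneg _) (by linarith)
  linarith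

end Crest.Agent.R128.C2
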