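import Crest.Agent.R128.Cell3StepC

/-!
Row 128, node V5-CELL3-STEP (helper7): final statements `cell3_step`, `step_small`.
-/

set_option autoImplicit false

open Complex Metric Set MeasureTheory
open Crest.Agent.R128 Crest.Agent.R128.Cell Crest.Agent.R128.CellB Crest.Agent.R128.CellDy
open Crest.Agent.R128.Loc

namespace Crest.Agent.R128.Cell3Step

theorem cos_of_real {k c : ℝ} {s : Bool} {n : ℕ} {t κ : ℝ}
    (h : κ ≤ |Real.cos (2 * Real.pi * (Y k c s n (t : ℂ)).re)|) :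
    κ ≤ ‖Complex.cos (2 * Real.pi * Y k c s n (t : ℂ))‖ := by
  have h1 : Y k c s n (t : ℂ) = (((Y k c s n (t : ℂ)).re : ℝ) : ℂ) := by
    apply real_of_conj
    rw [← Y_conj, Complex.conj_ofReal]
  rw [h1]
  have h2 : (2 : ℂ) * (Real.pi : ℂ) * (((Y k c s n (t : ℂ)).re : ℝ) : ℂ) =
      ((2 * Real.pi * (Y k c s n (t : ℂ)).re : ℝ) : ℂ) := by push_cast; ring
  rw [h2, ← Complex.ofReal_cos, Complex.norm_real, Real.norm_eq_abs]
  exact h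

set_option maxHeartbeats 2000000 in
/-- **Cell step** (quantitative form). -/
theorem step {k κ C1 c : ℝ} (hC : 1 ≤ C1) (hκ : 0 < κ) (hκ1 : κ ≤ 1)
    (hk : 10 ^ 11 * C1 ^ 2 ≤ κ ^ 5 * Real.sqrt k) {s : Bool} {n n' : ℕ} {m R lam q0 q1 q2 : ℝ}
    (hlam : |lam| ≤ C1 * Real.sqrt k) (h : Cell3 k c s n n' m R lam C1 q0 q1 q2) {m' : ℝ}
    (hm : |m' - m| ≤ 3 / R)
    (hc1 : κ ≤ |Real.cos (2 * Real.pi * (Y k c s (n + 1) (m' : ℂ)).re)|)
    (hc2 : κ ≤ |Real.cos (2 * Real.pi * (Y k c (!s) (n' + 1) (m' : ℂ)).re)|) :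
    ∃ (s2 : Bool) (n2 n2' : ℕ) (R' lam' p0 p1 p2 : ℝ),
      ((s2 = s ∧ n2 = n + 1 ∧ n2' = n' + 1) ∨ (s2 = !s ∧ n2 = n' + 1 ∧ n2' = n + 1)) ∧
      R' = min ‖D k c s (n + 2) (m' : ℂ)‖ ‖D k c (!s) (n' + 2) (m' : ℂ)‖ ∧
      5 * k * κ * R ≤ R' ∧ R' ≤ 8 * k * R ∧ |lam'| ≤ 8 / (5 * κ) * |lam| ∧
      Cell3 k c s2 n2 n2' m' R' lam' (20 * C1 / κ ^ 2) p0 p1 p2 ∧
      ∀ z ∈ ball (m' : ℂ) (4 / R'),
        (1 - 20 * C1 / κ ^ 2 * (8 / (5 * κ)) * |lam| / k) * R' ≤ ‖D k c s (n + 2) z‖ ∧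
        (1 - 20 * C1 / κ ^ 2 * (8 / (5 * κ)) * |lam| / k) * R' ≤ ‖D k c (!s) (n' + 2) z‖ := by
  obtain ⟨hk0, n1, n2, hww, n3, n4⟩ := nums hC hκ hκ1 hk
  have hR := h.hR
  have hR0 : 0 < R := by linarith
  have hl := h.hlam
  have hC2 : 1 ≤ C1 ^ 2 := by nlinarith
  have hw1 : 1 ≤ Real.sqrt k := by linarith
  obtain ⟨S, hS, sd⟩ := sd_slow hk0 h
  have sf := sd_fast hk0 h
  have haT : |lam * R| = |lam| * R := by rw [abs_mul, abs_of_pos hR0]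
  have hSu : |S| ≤ C1 * Real.sqrt k * R := by
    rw [hS]
    have : 1 ≤ C1 * Real.sqrt k := by nlinarith
    nlinarith
  have hTu : |lam * R| ≤ C1 * Real.sqrt k * R := by
    rw [haT]; exact mul_le_mul_of_nonneg_right hlam hR0.le
  have hS0 : 0 < |S| := by rw [hS]; exact hR0
  have hT0 : 0 < |lam * R| := by rw [haT]; positivity
  have cc1 := cos_of_real hc1
  have cc2 := cos_of_real hc2
  have side1 := fun z hz => side (z := z) hC hκ hκ1 hR hk hSu sd hm cc1 hz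
  have side2 := fun z hz => side (z := z) hC hκ hκ1 hR hk hTu sf hm cc2 hz
  obtain ⟨-, low1, up1, -⟩ := side1 m' (mem_ball_self (by positivity))
  obtain ⟨-, low2, up2, -⟩ := side2 m' (mem_ball_self (by positivity))
  rw [hS] at low1 up1
  rw [haT] at low2 up2
  obtain ⟨R', hR'⟩ : ∃ R' : ℝ, R' = min ‖D k c s (n + 2) (m' : ℂ)‖
    ‖D k c (!s) (n' + 2) (m' : ℂ)‖ := ⟨_, rfl⟩
  have hR'1 : R' ≤ ‖D k c s (n + 2) (m' : ℂ)‖ := by rw [hR']; exact min_le_left _ _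
  have hR'2 : R' ≤ ‖D k c (!s) (n' + 2) (m' : ℂ)‖ := by rw [hR']; exact min_le_right _ _
  have hR'u : R' ≤ 8 * k * R := hR'1.trans up1
  have hR'l : 5 * k * κ * R ≤ R' := by
    rw [hR']
    apply le_min low1
    refine le_trans ?_ low2
    apply mul_le_mul_of_nonneg_left _ (by positivity)
    exact le_mul_of_one_le_left hR0.le hl
  have hR'0 : 0 < R' := lt_of_lt_of_le (by positivity) hR'l
  have hkκ : 1 ≤ 5 * k * κ := by
    have h5 : 5 * k * κ = 5 * (k * κ) := by ring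
    rw [h5]; linarith only [n4, hC2]
  have hR'g : 1 ≤ R' := by
    refine le_trans ?_ hR'l
    exact one_le_mul_of_one_le_of_one_le hkκ hR
  have lowd1 : ∀ z ∈ ball (m' : ℂ) (κ / (100 * |S|)), 0.99 * |S| ≤ ‖D k c s (n + 1) z‖ :=
    fun z hz => (side_S hC hκ hκ1 hR hk hSu sd (side1 z hz).1).1
  have lowd2 : ∀ z ∈ ball (m' : ℂ) (κ / (100 * |S|)), 5 * k * κ * |S| ≤ ‖D k c s (n + 2) z‖ :=
    fun z hz => (side1 z hz).2.1
  have lowe1 : ∀ z ∈ ball (m' : ℂ) (κ / (100 * |lam * R|)),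
      0.99 * |lam * R| ≤ ‖D k c (!s) (n' + 1) z‖ :=
    fun z hz => (side_S hC hκ hκ1 hR hk hTu sf (side2 z hz).1).1
  have lowe2 : ∀ z ∈ ball (m' : ℂ) (κ / (100 * |lam * R|)),
      5 * k * κ * |lam * R| ≤ ‖D k c (!s) (n' + 2) z‖ :=
    fun z hz => (side2 z hz).2.1
  obtain ⟨r1, b0, b1, b2, hb⟩ := term hC hκ hκ1 hR hk (by rw [hS]) hSu hR'l lowd1 lowd2
  obtain ⟨r2, e0, e1, e2, he⟩ := term hC hκ hκ1 hR hk sf.hS hTu hR'l lowe1 lowe2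
  have nx1 := next hC hκ hκ1 hR hk hSu sd hm cc1 hR'l hR'u r1 hR'1
  have nx2 := next hC hκ hκ1 hR hk hTu sf hm cc2 hR'l hR'u r2 hR'2
  have ne1 : ∀ z ∈ ball (m : ℂ) (4 / R), D k c s (n + 1) z ≠ 0 := by
    intro z hz
    rw [← norm_pos_iff]
    exact lt_of_lt_of_le (by positivity) (side_S hC hκ hκ1 hR hk hSu sd hz).1
  have ne2 : ∀ z ∈ ball (m : ℂ) (4 / R), D k c (!s) (n' + 1) z ≠ 0 := by
    intro z hz
    rw [← norm_pos_iff]
    exact lt_of_lt_of_le (by positivity) (side_S hC hκ hκ1 hR hk hTu sf hz).1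
  obtain ⟨a0, a1, a2, ε, hε, ha⟩ := old hC hκ hκ1 hR hk hR'l hm ne1 ne2 h.quad
  have hsub1 : ball (m' : ℂ) (4 / R') ⊆ ball (m' : ℂ) (κ / (100 * |S|)) := ball_subset_ball r1
  have hsub2 : ball (m' : ℂ) (4 / R') ⊆ ball (m' : ℂ) (κ / (100 * |lam * R|)) :=
    ball_subset_ball r2
  obtain ⟨p0, p1, p2, hp⟩ := quad_step_aux (k := k) (F := cont k c s (n + 1) (n' + 1))
    (F' := cont k c s (n + 1 + 1) (n' + 1 + 1))
    (fs := fun z => ((2 * Real.pi * k * R' ^ 2 : ℝ) : ℂ) *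
      (1 / (D k c s (n + 1) z * D k c s (n + 2) z)))
    (ft := fun z => ((2 * Real.pi * k * R' ^ 2 : ℝ) : ℂ) *
      (1 / (D k c (!s) (n' + 1) z * D k c (!s) (n' + 2) z)))
    hR0 hR'0 a0 a1 a2 b0 b1 b2 e0 e1 e2 ε (by
      intro z hz
      have z1 := side1 z (hsub1 hz)
      have z2 := side2 z (hsub2 hz)
      rw [cont_step (ne1 z z1.1) (by
        rw [← norm_pos_iff]
        exact lt_of_lt_of_le (by positivity) z1.2.1) (ne2 z z2.1) (by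
        rw [← norm_pos_iff]
        exact lt_of_lt_of_le (by positivity) z2.2.1)]
      ring) hb he hε ha
  -- the sizes
  obtain ⟨E, hE⟩ : ∃ E : ℝ, E = (D k c s (n + 2) (m' : ℂ)).re := ⟨_, rfl⟩
  obtain ⟨E', hE'⟩ : ∃ E' : ℝ, E' = (D k c (!s) (n' + 2) (m' : ℂ)).re := ⟨_, rfl⟩
  have hEn : ‖D k c s (n + 2) (m' : ℂ)‖ = |E| := by rw [hE]; exact norm_D_real k c s (n + 2) m'
  have hEn' : ‖D k c (!s) (n' + 2) (m' : ℂ)‖ = |E'| := by
    rw [hE']; exact norm_D_real k c (!s) (n' + 2) m'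
  rw [← hE] at nx1
  rw [← hE'] at nx2
  rw [hEn] at hR' hR'1 up1 low1
  rw [hEn'] at hR' hR'2 up2 low2
  obtain ⟨C, hCd⟩ : ∃ C : ℝ, C = 20 * C1 / κ ^ 2 := ⟨_, rfl⟩
  have hC0 : 0 < C := by rw [hCd]; positivity
  rw [← hCd] at nx1 nx2 ⊢
  -- ratio bounds
  have rat : ∀ X : ℝ, |X| ≤ 8 * k * (|lam| * R) → |X| / R' ≤ 8 / (5 * κ) * |lam| := by
    intro X hX
    rw [div_le_iff₀ hR'0]
    refine hX.trans ?_
    have t1 : 8 / (5 * κ) * |lam| * (5 * k * κ * R) ≤ 8 / (5 * κ) * |lam| * R' :=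
      mul_le_mul_of_nonneg_left hR'l (by positivity)
    refine le_trans (le_of_eq ?_) t1
    field_simp
  have up1' : |E| ≤ 8 * k * (|lam| * R) := by
    refine up1.trans ?_
    apply mul_le_mul_of_nonneg_left _ (by positivity)
    exact le_mul_of_one_le_left hR0.le hl
  have lowz : ∀ X : ℝ, R' ≤ |X| → |X| ≤ 8 * k * (|lam| * R) → ∀ w : ℂ,
      ‖w - (X : ℝ)‖ ≤ C * X ^ 2 / (R' * k) →
      (1 - C * (8 / (5 * κ)) * |lam| / k) * R' ≤ ‖w‖ := by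
    intro X hX1 hX2 w hw
    have t1 := norm_sub_norm_le (X : ℂ) (X - w)
    rw [sub_sub_cancel, Complex.norm_real, Real.norm_eq_abs, norm_sub_rev] at t1
    have t2 : C * X ^ 2 / (R' * k) = |X| * (C * (|X| / R') / k) := by
      rw [← sq_abs X]; field_simp
    have hX0 : 0 < |X| := lt_of_lt_of_le hR'0 hX1
    have t3 : |X| * (C * (|X| / R') / k) ≤ |X| * (C * (8 / (5 * κ)) * |lam| / k) := by
      apply mul_le_mul_of_nonneg_left _ hX0.le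
      apply div_le_div_of_nonneg_right _ hk0.le
      have := mul_le_mul_of_nonneg_left (rat X hX2) hC0.le
      refine this.trans (le_of_eq (by ring))
    have t4 : |X| * (1 - C * (8 / (5 * κ)) * |lam| / k) ≤ ‖w‖ := by
      have : |X| * (1 - C * (8 / (5 * κ)) * |lam| / k) =
        |X| - |X| * (C * (8 / (5 * κ)) * |lam| / k) := by ring
      rw [this]
      linarith only [t1, t2, t3, hw]
    rcases le_or_gt 0 (1 - C * (8 / (5 * κ)) * |lam| / k) with hp | hn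
    · refine le_trans ?_ t4
      rw [mul_comm]
      exact mul_le_mul_of_nonneg_right hX1 hp
    · have : (1 - C * (8 / (5 * κ)) * |lam| / k) * R' ≤ 0 :=
        mul_nonpos_of_nonpos_of_nonneg hn.le hR'0.le
      exact this.trans (norm_nonneg _)
  have fin : ∀ z ∈ ball (m' : ℂ) (4 / R'),
        (1 - C * (8 / (5 * κ)) * |lam| / k) * R' ≤ ‖D k c s (n + 2) z‖ ∧
        (1 - C * (8 / (5 * κ)) * |lam| / k) * R' ≤ ‖D k c (!s) (n' + 2) z‖ :=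
    fun z hz => ⟨lowz E hR'1 up1' _ (nx1.h1 z hz), lowz E' hR'2 up2 _ (nx2.h1 z hz)⟩
  rcases le_total |E| |E'| with hle | hle
  · have hRE : R' = |E| := by rw [hR', min_eq_left hle]
    refine ⟨s, n + 1, n' + 1, R', E' / R', p0, p1, p2, Or.inl ⟨rfl, rfl, rfl⟩, (by rw [hEn, hEn']; exact hR'), hR'l, hR'u,
      ?_, ?_, fin⟩
    · rw [abs_div, abs_of_pos hR'0]
      exact rat E' up2
    · exact cell_of hk0 hR'g nx1 hRE.symm nx2 hp
  · have hRE : R' = |E'| := by rw [hR', min_eq_right hle]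
    refine ⟨!s, n' + 1, n + 1, R', E / R', p0, p1, p2, Or.inr ⟨rfl, rfl, rfl⟩, (by rw [hEn, hEn']; exact hR'), hR'l, hR'u,
      ?_, ?_, fin⟩
    · rw [abs_div, abs_of_pos hR'0]
      exact rat E up1'
    · refine cell_of hk0 hR'g nx2 hRE.symm (by rw [Bool.not_not]; exact nx1) ?_
      intro z hz
      rw [cont_swap]
      exact hp z hz

/-- **Cell step**, in the form announced to the RA team. -/
theorem cell3_step (C1 κ : ℝ) (hC : 1 ≤ C1) (hκ : 0 < κ) (hκ1 : κ ≤ 1) :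
    ∃ k1 : ℝ, ∀ k : ℝ, k1 ≤ k → ∀ (c : ℝ) (s : Bool) (n n' : ℕ) (m R lam q0 q1 q2 : ℝ),
      |lam| ≤ C1 * Real.sqrt k → Cell3 k c s n n' m R lam C1 q0 q1 q2 →
      ∀ m' : ℝ, |m' - m| ≤ 3 / R →
      κ ≤ |Real.cos (2 * Real.pi * (Y k c s (n + 1) (m' : ℂ)).re)| →
      κ ≤ |Real.cos (2 * Real.pi * (Y k c (!s) (n' + 1) (m' : ℂ)).re)| →
      ∃ (s2 : Bool) (n2 n2' : ℕ) (R' lam' p0 p1 p2 : ℝ),
        ((s2 = s ∧ n2 = n + 1 ∧ n2' = n' + 1) ∨ (s2 = !s ∧ n2 = n' + 1 ∧ n2' = n + 1)) ∧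
        R' = min ‖D k c s (n + 2) (m' : ℂ)‖ ‖D k c (!s) (n' + 2) (m' : ℂ)‖ ∧
        5 * k * κ * R ≤ R' ∧ R' ≤ 8 * k * R ∧ |lam'| ≤ 8 / (5 * κ) * |lam| ∧
        Cell3 k c s2 n2 n2' m' R' lam' (20 * C1 / κ ^ 2) p0 p1 p2 ∧
        ∀ z ∈ ball (m' : ℂ) (4 / R'),
          (1 - 20 * C1 / κ ^ 2 * (8 / (5 * κ)) * |lam| / k) * R' ≤ ‖D k c s (n + 2) z‖ ∧
          (1 - 20 * C1 / κ ^ 2 * (8 / (5 * κ)) * |lam| / k) * R' ≤ ‖D k c (!s) (n' + 2) z‖ := by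
  refine ⟨(10 ^ 11 * C1 ^ 2 / κ ^ 5) ^ 2, ?_⟩
  intro k hk c s n n' m R lam q0 q1 q2 hlam h m' hm hc1 hc2
  have h1 : 10 ^ 11 * C1 ^ 2 / κ ^ 5 ≤ Real.sqrt k := Real.le_sqrt_of_sq_le hk
  have h2 : 10 ^ 11 * C1 ^ 2 ≤ κ ^ 5 * Real.sqrt k := by
    rw [div_le_iff₀ (by positivity)] at h1
    linarith
  exact step hC hκ hκ1 h2 hlam h hm hc1 hc2

/-- The case `|lam| ≤ L` with absolute constants. -/
theorem step_small (C1 κ L : ℝ) (hC : 1 ≤ C1) (hκ : 0 < κ) (hκ1 : κ ≤ 1) (hL : 1 ≤ L) :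
    ∃ C2 k1 : ℝ, 1 ≤ C2 ∧ ∀ k : ℝ, k1 ≤ k →
      ∀ (c : ℝ) (s : Bool) (n n' : ℕ) (m R lam q0 q1 q2 : ℝ),
      |lam| ≤ L → Cell3 k c s n n' m R lam C1 q0 q1 q2 →
      ∀ m' : ℝ, |m' - m| ≤ 3 / R →
      κ ≤ |Real.cos (2 * Real.pi * (Y k c s (n + 1) (m' : ℂ)).re)| →
      κ ≤ |Real.cos (2 * Real.pi * (Y k c (!s) (n' + 1) (m' : ℂ)).re)| →
      ∃ (s2 : Bool) (n2 n2' : ℕ) (R' lam' p0 p1 p2 : ℝ),
        ((s2 = s ∧ n2 = n + 1 ∧ n2' = n' + 1) ∨ (s2 = !s ∧ n2 = n' + 1 ∧ n2' = n + 1)) ∧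
        R' = min ‖D k c s (n + 2) (m' : ℂ)‖ ‖D k c (!s) (n' + 2) (m' : ℂ)‖ ∧
        κ * k * R ≤ R' ∧ R' ≤ 8 * k * R ∧ |lam'| ≤ C2 ∧
        Cell3 k c s2 n2 n2' m' R' lam' C2 p0 p1 p2 ∧
        ∀ z ∈ ball (m' : ℂ) (4 / R'),
          R' / (1 + C2 / k) ≤ min ‖D k c s (n + 2) z‖ ‖D k c (!s) (n' + 2) z‖ := by
  obtain ⟨k1, h1⟩ := cell3_step C1 κ hC hκ hκ1
  obtain ⟨A, hA⟩ : ∃ A : ℝ, A = 20 * C1 / κ ^ 2 * (8 / (5 * κ)) * L := ⟨_, rfl⟩
  have hA0 : 0 < A := by rw [hA]; positivity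
  obtain ⟨C2, hC2⟩ : ∃ C2 : ℝ, C2 = 1 + 20 * C1 / κ ^ 2 + 8 / (5 * κ) * L + 2 * A := ⟨_, rfl⟩
  have hC0 : 0 < 20 * C1 / κ ^ 2 := by positivity
  have hl0 : 0 < 8 / (5 * κ) * L := by positivity
  refine ⟨C2, max (max k1 (L ^ 2)) (2 * A + 1), by rw [hC2]; linarith, ?_⟩
  intro k hk c s n n' m R lam q0 q1 q2 hlam h m' hm hc1 hc2
  have hk1 : k1 ≤ k := (le_max_left _ _).trans ((le_max_left _ _).trans hk)
  have hkL : L ^ 2 ≤ k := (le_max_right _ _).trans ((le_max_left _ _).trans hk)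
  have hkA : 2 * A + 1 ≤ k := (le_max_right _ _).trans hk
  have hk0 : 0 < k := by linarith
  have hLs : L ≤ Real.sqrt k := Real.le_sqrt_of_sq_le hkL
  obtain ⟨s2, n2, n2', R', lam', p0, p1, p2, e1, e2, e3, e4, e5, e6, e7⟩ :=
    h1 k hk1 c s n n' m R lam q0 q1 q2 (by
      have : Real.sqrt k ≤ C1 * Real.sqrt k := le_mul_of_one_le_left (Real.sqrt_nonneg k) hC
      linarith) h m' hm hc1 hc2
  have hR0 : 0 < R := by linarith [h.hR]
  have hR'0 : 0 < R' := lt_of_lt_of_le (by positivity) e3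
  refine ⟨s2, n2, n2', R', lam', p0, p1, p2, e1, e2, ?_, e4, ?_, ?_, ?_⟩
  · refine le_trans ?_ e3
    have : 0 < κ * k * R := by positivity
    nlinarith
  · have : 8 / (5 * κ) * |lam| ≤ 8 / (5 * κ) * L := mul_le_mul_of_nonneg_left hlam (by positivity)
    rw [hC2]; linarith
  · obtain ⟨f1, f2, ⟨σ, hσ, f3⟩, f4, f5, f6, f7⟩ := e6
    have hCC : 20 * C1 / κ ^ 2 ≤ C2 := by rw [hC2]; linarith
    refine ⟨f1, f2, ⟨σ, hσ, fun z hz => (f3 z hz).trans ?_⟩, fun z hz => (f4 z hz).trans ?_,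
      fun z hz => (f5 z hz).trans ?_, fun z hz => (f6 z hz).trans ?_, f7⟩ <;>
    · apply div_le_div_of_nonneg_right _ hk0.le
      gcongr
  · intro z hz
    obtain ⟨g1, g2⟩ := e7 z hz
    have hB : 20 * C1 / κ ^ 2 * (8 / (5 * κ)) * |lam| / k ≤ A / k := by
      apply div_le_div_of_nonneg_right _ hk0.le
      rw [hA]
      exact mul_le_mul_of_nonneg_left hlam (by positivity)
    have hAk : A / k ≤ 1 / 2 := by
      rw [div_le_div_iff₀ hk0 (by norm_num)]; linarith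
    have hAk0 : 0 < A / k := by positivity
    have hmain : R' / (1 + C2 / k) ≤
        (1 - 20 * C1 / κ ^ 2 * (8 / (5 * κ)) * |lam| / k) * R' := by
      have h3 : 0 < 1 + C2 / k := by
        have : 0 < C2 := by rw [hC2]; positivity
        positivity
      rw [div_le_iff₀ h3]
      have h4 : 2 * (A / k) ≤ C2 / k := by
        have : 2 * A ≤ C2 := by rw [hC2]; linarith
        have := div_le_div_of_nonneg_right this hk0.le
        calc 2 * (A / k) = 2 * A / k := by ring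
          _ ≤ C2 / k := this
      have h5 : 1 ≤ (1 - 20 * C1 / κ ^ 2 * (8 / (5 * κ)) * |lam| / k) * (1 + C2 / k) := by
        have h6 : 1 - A / k ≤ 1 - 20 * C1 / κ ^ 2 * (8 / (5 * κ)) * |lam| / k := by linarith
        have h7 : (1 - A / k) * (1 + 2 * (A / k)) ≤
            (1 - 20 * C1 / κ ^ 2 * (8 / (5 * κ)) * |lam| / k) * (1 + C2 / k) :=
          mul_le_mul h6 (by linarith) (by positivity) (by linarith)
        nlinarith
      calc R' = 1 * R' := by ring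
        _ ≤ (1 - 20 * C1 / κ ^ 2 * (8 / (5 * κ)) * |lam| / k) * (1 + C2 / k) * R' :=
          mul_le_mul_of_nonneg_right h5 hR'0.le
        _ = _ := by ring
    exact le_min (hmain.trans g1) (hmain.trans g2)

end Crest.Agent.R128.Cell3Step
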