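import Crest.Agent.R128.LocDef
import Crest.Agent.R128.PolyC

/-!
Row 128, node V5-CELL3-STEP, part A (helper7): a `Loc.Cell3` at the levels `(n, n')` and a point `m'` at which
both exit digits have `|cos| ≥ κ` give a `Loc.Cell3` at the levels `(n+1, n'+1)` centred at `m'`.
-/

set_option autoImplicit false

open Complex Metric Set MeasureTheory
open Crest.Agent.R128 Crest.Agent.R128.Cell Crest.Agent.R128.CellB Crest.Agent.R128.CellDy
open Crest.Agent.R128.Loc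

namespace Crest.Agent.R128.Cell3Step


/-- Taylor polynomial of degree two with real coefficients -/
theorem taylor_real {f : ℂ → ℂ} {m Rad B : ℝ} (hR : 0 < Rad)
    (hf : DifferentiableOn ℂ f (closedBall (m : ℂ) Rad))
    (hB : ∀ z ∈ closedBall (m : ℂ) Rad, ‖f z‖ ≤ B)
    (hc : ∀ z, f (starRingEnd ℂ z) = starRingEnd ℂ (f z)) :
    ∃ a0 a1 a2 : ℝ, ∀ r : ℝ, 2 * r ≤ Rad → ∀ z ∈ closedBall (m : ℂ) r,
      ‖f z - (a0 + a1 * (z - m) + a2 * (z - m) ^ 2)‖ ≤ 2 * B * (r / Rad) ^ 3 := by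
  obtain ⟨P, hP, h⟩ := PolyC.taylor_rem hR hf hB 2
  obtain ⟨Q, hQ⟩ : ∃ Q : Polynomial ℂ, Q = P.comp (Polynomial.X + Polynomial.C (m : ℂ)) := ⟨_, rfl⟩
  have hQd : Q.natDegree < 3 := by
    rw [hQ, Polynomial.natDegree_comp]
    have : (Polynomial.X + Polynomial.C (m : ℂ)).natDegree = 1 := Polynomial.natDegree_X_add_C _
    rw [this]; omega
  have hev : ∀ z : ℂ, P.eval z = Q.coeff 0 + Q.coeff 1 * (z - m) + Q.coeff 2 * (z - m) ^ 2 := by
    intro z
    have h1 : P.eval z = Q.eval (z - m) := by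
      rw [hQ, Polynomial.eval_comp]; simp
    rw [h1, Polynomial.eval_eq_sum_range' hQd]
    simp [Finset.sum_range_succ]
  refine ⟨(Q.coeff 0).re, (Q.coeff 1).re, (Q.coeff 2).re, ?_⟩
  intro r hr z hz
  have h1 := h r hr z hz
  have hz' : starRingEnd ℂ z ∈ closedBall (m : ℂ) r := by
    rw [mem_closedBall, dist_eq_norm] at hz ⊢
    have : starRingEnd ℂ z - (m : ℂ) = starRingEnd ℂ (z - m) := by simp
    rw [this, Complex.norm_conj]; exact hz
  have h2 := h r hr _ hz'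
  rw [hev] at h1 h2
  rw [hc] at h2
  have h3 : ‖f z - (starRingEnd ℂ (Q.coeff 0) + starRingEnd ℂ (Q.coeff 1) * (z - m) +
      starRingEnd ℂ (Q.coeff 2) * (z - m) ^ 2)‖ ≤ 2 * B * (r / Rad) ^ (2 + 1) := by
    rw [← Complex.norm_conj] at h2
    refine le_trans (le_of_eq ?_) h2
    congr 1
    simp
  have re : ∀ w : ℂ, ((w.re : ℝ) : ℂ) = (w + starRingEnd ℂ w) / 2 := by
    intro w
    rw [Complex.re_eq_add_conj]
  have h4 : f z - (((Q.coeff 0).re : ℂ) + ((Q.coeff 1).re : ℂ) * (z - m) +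
      ((Q.coeff 2).re : ℂ) * (z - m) ^ 2) =
      (1 / 2) * (f z - (Q.coeff 0 + Q.coeff 1 * (z - m) + Q.coeff 2 * (z - m) ^ 2)) +
      (1 / 2) * (f z - (starRingEnd ℂ (Q.coeff 0) + starRingEnd ℂ (Q.coeff 1) * (z - m) +
      starRingEnd ℂ (Q.coeff 2) * (z - m) ^ 2)) := by
    rw [re, re, re]; ring
  rw [h4]
  refine (norm_add_le _ _).trans ?_
  rw [norm_mul, norm_mul]
  have h5 : ‖(1 / 2 : ℂ)‖ = 1 / 2 := by norm_num
  rw [h5]
  norm_num at h1 h3 ⊢
  linarith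



/-! ### conjugation -/

theorem cV_conj (k : ℝ) (z : ℂ) : cV k (starRingEnd ℂ z) = starRingEnd ℂ (cV k z) := by
  unfold cV
  have h2 : (starRingEnd ℂ) (2 : ℂ) = 2 := map_ofNat _ 2
  rw [map_add, map_mul, map_mul, map_mul, ← Complex.cos_conj, map_mul, map_mul, h2]
  simp

theorem sdC_conj (k c : ℝ) (s : Bool) (z : ℂ) :
    sdC k c s (starRingEnd ℂ z) = starRingEnd ℂ (sdC k c s z) := by
  unfold sdC
  split_ifs <;> simp

theorem Y_conj (k c : ℝ) (s : Bool) (n : ℕ) (z : ℂ) :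
    Y k c s n (starRingEnd ℂ z) = starRingEnd ℂ (Y k c s n z) := by
  unfold Y
  rw [sdC_conj, y_conj]

theorem dg_conj (k c : ℝ) (s : Bool) (z : ℂ) (n : ℕ) :
    dg k c s (starRingEnd ℂ z) n = starRingEnd ℂ (dg k c s z n) := by
  unfold dg
  rw [Y_conj, cV_conj]

theorem sol_conj (a b : ℕ → ℂ) (h : ∀ n, b n = starRingEnd ℂ (a n)) (u v : ℂ) (n : ℕ) :
    Align.sol b (starRingEnd ℂ u) (starRingEnd ℂ v) n = starRingEnd ℂ (Align.sol a u v n) := by
  induction n using Nat.strong_induction_on with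
  | _ n ih =>
    match n with
    | 0 => rfl
    | 1 => rfl
    | n + 2 =>
      rw [Align.sol_add_two, Align.sol_add_two, ih (n + 1) (by omega), ih n (by omega), h,
        map_sub, map_mul]

theorem mu_conj (k c : ℝ) (s : Bool) (n : ℕ) (z : ℂ) :
    mu k c s n (starRingEnd ℂ z) = starRingEnd ℂ (mu k c s n z) := by
  unfold mu Align.mu Align.P Align.Q
  have h1 := sol_conj (dg k c s z) (dg k c s (starRingEnd ℂ z)) (fun n => dg_conj k c s z n) 1 0 n
  have h2 := sol_conj (dg k c s z) (dg k c s (starRingEnd ℂ z)) (fun n => dg_conj k c s z n) 0 1 n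
  rw [map_one, map_zero] at h1 h2
  rw [h1, h2, map_div₀, map_neg]

theorem D_conj (k c : ℝ) (s : Bool) (n : ℕ) (z : ℂ) :
    D k c s n (starRingEnd ℂ z) = starRingEnd ℂ (D k c s n z) := by
  rw [← Q_dg, ← Q_dg]
  unfold Align.Q
  have h2 := sol_conj (dg k c s z) (dg k c s (starRingEnd ℂ z)) (fun n => dg_conj k c s z n) 0 1 n
  rw [map_one, map_zero] at h2
  exact h2

theorem cont_conj (k c : ℝ) (s : Bool) (n n' : ℕ) (z : ℂ) :
    cont k c s n n' (starRingEnd ℂ z) = starRingEnd ℂ (cont k c s n n' z) := by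
  unfold cont
  rw [mu_conj, mu_conj, map_sub, map_sub, ← cV_conj]
  simp

theorem real_of_conj {w : ℂ} (h : w = starRingEnd ℂ w) : w = (w.re : ℂ) := by
  rw [eq_comm] at h
  exact (Complex.conj_eq_iff_re.mp h).symm

/-! ### differentiability -/

theorem differentiable_cV (k : ℝ) : Differentiable ℂ (cV k) :=
  fun z => (hasDerivAt_cV k z).differentiableAt

theorem differentiable_sdC (k c : ℝ) (s : Bool) : Differentiable ℂ (sdC k c s) := by
  cases s
  · have : sdC k c false = fun z => (kap k c : ℂ) - z := by funext z; simp [sdC]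
    rw [this]; exact (differentiable_const _).sub differentiable_id
  · have : sdC k c true = fun z => z := by funext z; simp [sdC]
    rw [this]; exact differentiable_id

theorem differentiable_Y (k c : ℝ) (s : Bool) (n : ℕ) : Differentiable ℂ (Y k c s n) :=
  (differentiable_y k c n).comp (differentiable_sdC k c s)

theorem differentiable_dg (k c : ℝ) (s : Bool) (n : ℕ) :
    Differentiable ℂ (fun z => dg k c s z n) :=
  (differentiable_cV k).comp (differentiable_Y k c s n)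

theorem differentiable_sol (k c : ℝ) (s : Bool) (u v : ℂ) (n : ℕ) :
    Differentiable ℂ (fun z => Align.sol (dg k c s z) u v n) := by
  induction n using Nat.strong_induction_on with
  | _ n ih =>
    match n with
    | 0 => exact differentiable_const _
    | 1 => exact differentiable_const _
    | n + 2 =>
      have h : (fun z => Align.sol (dg k c s z) u v (n + 2)) = fun z =>
          dg k c s z (n + 1) * Align.sol (dg k c s z) u v (n + 1) -
            Align.sol (dg k c s z) u v n := by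
        funext z; rw [Align.sol_add_two]
      rw [h]
      exact ((differentiable_dg k c s (n + 1)).mul (ih (n + 1) (by omega))).sub (ih n (by omega))

theorem differentiable_D (k c : ℝ) (s : Bool) (n : ℕ) : Differentiable ℂ (D k c s n) := by
  have h : D k c s n = fun z => Align.sol (dg k c s z) 0 1 n := by
    funext z; rw [← Q_dg]; rfl
  rw [h]
  exact differentiable_sol k c s 0 1 n

theorem differentiableOn_mu {k c : ℝ} {s : Bool} {n : ℕ} {A : Set ℂ}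
    (h : ∀ z ∈ A, D k c s n z ≠ 0) : DifferentiableOn ℂ (mu k c s n) A := by
  have h1 : mu k c s n = fun z => -(Align.sol (dg k c s z) 1 0 n) / D k c s n z := by
    funext z
    rw [← Q_dg]; rfl
  rw [h1]
  exact ((differentiable_sol k c s 1 0 n).neg.differentiableOn).div
    (differentiable_D k c s n).differentiableOn h

theorem differentiableOn_cont {k c : ℝ} {s : Bool} {n n' : ℕ} {A : Set ℂ}
    (h : ∀ z ∈ A, D k c s n z ≠ 0) (h' : ∀ z ∈ A, D k c (!s) n' z ≠ 0) :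
    DifferentiableOn ℂ (cont k c s n n') A :=
  ((differentiableOn_const _).sub (differentiableOn_mu h)).sub (differentiableOn_mu h')

/-! ### recursions -/

theorem D_add_two (k c : ℝ) (s : Bool) (n : ℕ) (z : ℂ) :
    D k c s (n + 2) z = cV k (Y k c s (n + 1) z) * D k c s (n + 1) z - D k c s n z := by
  unfold D Y
  rw [yd_add_two]

theorem mu_succ {k c : ℝ} {s : Bool} {n : ℕ} {z : ℂ} (h0 : D k c s n z ≠ 0)
    (h1 : D k c s (n + 1) z ≠ 0) :
    mu k c s (n + 1) z = mu k c s n z + 1 / (D k c s n z * D k c s (n + 1) z) := by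
  have h := Align.mu_succ_sub (a := dg k c s z) (n := n) (by rw [Q_dg]; exact h0)
    (by rw [Q_dg]; exact h1)
  rw [Q_dg, Q_dg] at h
  unfold mu
  rw [← h]; ring

theorem cont_step {k c : ℝ} {s : Bool} {n n' : ℕ} {z : ℂ} (h0 : D k c s n z ≠ 0)
    (h1 : D k c s (n + 1) z ≠ 0) (h0' : D k c (!s) n' z ≠ 0) (h1' : D k c (!s) (n' + 1) z ≠ 0) :
    cont k c s (n + 1) (n' + 1) z = cont k c s n n' z - 1 / (D k c s n z * D k c s (n + 1) z)
      - 1 / (D k c (!s) n' z * D k c (!s) (n' + 1) z) := by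
  unfold cont
  rw [mu_succ h0 h1, mu_succ h0' h1']; ring

theorem cont_swap (k c : ℝ) (s : Bool) (n n' : ℕ) (z : ℂ) :
    cont k c (!s) n' n z = cont k c s n n' z := by
  unfold cont
  rw [Bool.not_not]; ring

theorem norm_Y_sub_le {k c : ℝ} {s : Bool} {n : ℕ} {m : ℂ} {r B : ℝ}
    (hB : ∀ z ∈ ball m r, ‖D k c s n z‖ ≤ B) {z : ℂ} (hz : z ∈ ball m r) :
    ‖Y k c s n z - Y k c s n m‖ ≤ B * ‖z - m‖ := by
  have hm : m ∈ ball m r := by
    rw [mem_ball, dist_eq_norm] at hz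
    exact mem_ball_self (lt_of_le_of_lt (norm_nonneg _) hz)
  cases s
  · exact (convex_ball m r).norm_image_sub_le_of_norm_hasDerivWithin_le (f := Y k c false n)
      (f' := fun z => -(D k c false n z))
      (fun x _ => (hasDerivAt_Y_false k c n x).hasDerivWithinAt)
      (fun x hx => by rw [norm_neg]; exact hB x hx) hm hz
  · exact (convex_ball m r).norm_image_sub_le_of_norm_hasDerivWithin_le (f := Y k c true n)
      (f' := fun z => D k c true n z)
      (fun x _ => (hasDerivAt_Y_true k c n x).hasDerivWithinAt)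
      (fun x hx => hB x hx) hm hz



/-- abstract quadratic step -/
theorem quad_step_aux {k R R' m m' q0 q1 q2 : ℝ} {F F' fs ft : ℂ → ℂ}
    (hR : 0 < R) (hR' : 0 < R')
    (a0 a1 a2 b0 b1 b2 c0 c1 c2 ε : ℝ)
    (hF : ∀ z ∈ ball (m' : ℂ) (4 / R'),
      ((2 * Real.pi * k * R' ^ 2 : ℝ) : ℂ) * F' z =
        ((2 * Real.pi * k * R' ^ 2 : ℝ) : ℂ) * F z - fs z - ft z)
    (hs : ∀ z ∈ ball (m' : ℂ) (4 / R'),
      ‖fs z - (b0 + b1 * (z - m') + b2 * (z - m') ^ 2)‖ ≤ 1 / 64)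
    (ht : ∀ z ∈ ball (m' : ℂ) (4 / R'),
      ‖ft z - (c0 + c1 * (z - m') + c2 * (z - m') ^ 2)‖ ≤ 1 / 64)
    (hε : (R' / R) ^ 2 * ε ≤ 1 / 64)
    (he : ∀ z ∈ ball (m' : ℂ) (4 / R'),
      ‖(((2 * Real.pi * k * R ^ 2 : ℝ) : ℂ) * F z -
        (q0 + q1 * ((R : ℂ) * (z - m)) + q2 * ((R : ℂ) * (z - m)) ^ 2)) -
        (a0 + a1 * (z - m') + a2 * (z - m') ^ 2)‖ ≤ ε) :
    ∃ p0 p1 p2 : ℝ, ∀ z ∈ ball (m' : ℂ) (4 / R'),
      ‖((2 * Real.pi * k * R' ^ 2 : ℝ) : ℂ) * F' z -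
        (p0 + p1 * ((R' : ℂ) * (z - m')) + p2 * ((R' : ℂ) * (z - m')) ^ 2)‖ ≤ 1 / 16 := by
  obtain ⟨g, hg⟩ : ∃ g : ℝ, g = (R' / R) ^ 2 := ⟨_, rfl⟩
  obtain ⟨h, hh⟩ : ∃ h : ℝ, h = m' - m := ⟨_, rfl⟩
  refine ⟨g * (q0 + q1 * R * h + q2 * R ^ 2 * h ^ 2) + g * a0 - b0 - c0,
    (g * (q1 * R + 2 * q2 * R ^ 2 * h) + g * a1 - b1 - c1) / R',
    (g * (q2 * R ^ 2) + g * a2 - b2 - c2) / R' ^ 2, ?_⟩
  intro z hz
  have e1 := hs z hz
  have e2 := ht z hz
  have e3 := he z hz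
  rw [hF z hz]
  have hRc : (R' : ℂ) ≠ 0 := by exact_mod_cast hR'.ne'
  have hRc0 : (R : ℂ) ≠ 0 := by exact_mod_cast hR.ne'
  have key : ((2 * Real.pi * k * R' ^ 2 : ℝ) : ℂ) * F z - fs z - ft z -
      (((g * (q0 + q1 * R * h + q2 * R ^ 2 * h ^ 2) + g * a0 - b0 - c0 : ℝ) : ℂ) +
        (((g * (q1 * R + 2 * q2 * R ^ 2 * h) + g * a1 - b1 - c1) / R' : ℝ) : ℂ) *
          ((R' : ℂ) * (z - m')) +
        (((g * (q2 * R ^ 2) + g * a2 - b2 - c2) / R' ^ 2 : ℝ) : ℂ) *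
          ((R' : ℂ) * (z - m')) ^ 2) =
      (g : ℂ) * ((((2 * Real.pi * k * R ^ 2 : ℝ) : ℂ) * F z -
        (q0 + q1 * ((R : ℂ) * (z - m)) + q2 * ((R : ℂ) * (z - m)) ^ 2)) -
        (a0 + a1 * (z - m') + a2 * (z - m') ^ 2)) -
      (fs z - (b0 + b1 * (z - m') + b2 * (z - m') ^ 2)) -
      (ft z - (c0 + c1 * (z - m') + c2 * (z - m') ^ 2)) := by
    rw [hh, hg]
    push_cast
    field_simp
    ring
  rw [key]
  have hg0 : 0 ≤ g := by rw [hg]; positivity
  have h1 : ‖(g : ℂ) * ((((2 * Real.pi * k * R ^ 2 : ℝ) : ℂ) * F z -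
        (q0 + q1 * ((R : ℂ) * (z - m)) + q2 * ((R : ℂ) * (z - m)) ^ 2)) -
        (a0 + a1 * (z - m') + a2 * (z - m') ^ 2))‖ ≤ 1 / 64 := by
    rw [norm_mul, Complex.norm_real, Real.norm_eq_abs, abs_of_nonneg hg0]
    refine le_trans ?_ hε
    rw [← hg]
    exact mul_le_mul_of_nonneg_left e3 hg0
  refine (norm_sub_le _ _).trans ?_
  refine (add_le_add_left (norm_sub_le _ _) _).trans ?_
  linarith



theorem exp_small : Real.exp (2 * Real.pi * (1 / 50)) ≤ 1.145 := by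
  have hpi := Real.pi_lt_d4
  have hx : 2 * Real.pi * (1 / 50) < 0.12567 := by linarith
  have h1 : Real.exp (2 * Real.pi * (1 / 50)) ≤ Real.exp 0.12567 := Real.exp_le_exp.mpr hx.le
  refine h1.trans ?_
  have h2 : (1 : ℝ) - 0.12567 ≤ Real.exp (-0.12567) := by
    have := Real.add_one_le_exp (-0.12567 : ℝ)
    linarith
  have h3 : Real.exp 0.12567 * Real.exp (-0.12567) = 1 := by
    rw [← Real.exp_add]; simp
  have h4 := Real.exp_pos 0.12567
  nlinarith

theorem norm_cos_le' (z : ℂ) : ‖Complex.cos z‖ ≤ Real.exp |z.im| := by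
  unfold Complex.cos
  rw [norm_div]
  have h1 : ‖Complex.exp (z * Complex.I)‖ ≤ Real.exp |z.im| := by
    rw [Complex.norm_exp]
    apply Real.exp_le_exp.mpr
    simp
    exact neg_le_abs _
  have h2 : ‖Complex.exp (-z * Complex.I)‖ ≤ Real.exp |z.im| := by
    rw [Complex.norm_exp]
    apply Real.exp_le_exp.mpr
    simp
    exact le_abs_self _
  have h3 := norm_add_le (Complex.exp (z * Complex.I)) (Complex.exp (-z * Complex.I))
  have h4 : ‖(2 : ℂ)‖ = 2 := by simp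
  rw [h4]
  linarith

theorem norm_sin_le' (z : ℂ) : ‖Complex.sin z‖ ≤ Real.exp |z.im| := by
  have h := norm_cos_le' (z - Real.pi / 2)
  rw [Complex.cos_sub_pi_div_two] at h
  have e : (z - (Real.pi : ℂ) / 2).im = z.im := by
    have : ((Real.pi : ℂ) / 2).im = 0 := by
      have : ((Real.pi : ℂ) / 2) = ((Real.pi / 2 : ℝ) : ℂ) := by push_cast; rfl
      rw [this, Complex.ofReal_im]
    rw [Complex.sub_im, this, sub_zero]
  rwa [e] at h

theorem im_two_pi (z : ℂ) : (2 * (Real.pi : ℂ) * z).im = 2 * Real.pi * z.im := by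
  have : (2 * (Real.pi : ℂ) * z) = ((2 * Real.pi : ℝ) : ℂ) * z := by push_cast; rfl
  rw [this, Complex.im_ofReal_mul]

theorem exp_im_le {z : ℂ} (hz : |z.im| ≤ 1 / 50) :
    Real.exp |(2 * (Real.pi : ℂ) * z).im| ≤ 1.145 := by
  refine le_trans (Real.exp_le_exp.mpr ?_) exp_small
  rw [im_two_pi, abs_mul, abs_of_pos (by positivity : 0 < 2 * Real.pi)]
  exact mul_le_mul_of_nonneg_left hz (by positivity)

theorem cos_le {z : ℂ} (hz : |z.im| ≤ 1 / 50) : ‖Complex.cos (2 * Real.pi * z)‖ ≤ 1.145 :=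
  (norm_cos_le' _).trans (exp_im_le hz)

theorem convex_strip' : Convex ℝ {z : ℂ | |z.im| ≤ 1 / 50} := by
  have : {z : ℂ | |z.im| ≤ 1 / 50} = Complex.imLm ⁻¹' (Set.Icc (-(1 / 50)) (1 / 50)) := by
    ext z
    simp [abs_le]
  rw [this]
  exact (convex_Icc (-(1 / 50) : ℝ) (1 / 50)).linear_preimage _

theorem cos_sub_le {a b : ℂ} (ha : |a.im| ≤ 1 / 50) (hb : |b.im| ≤ 1 / 50) :
    ‖Complex.cos (2 * Real.pi * a) - Complex.cos (2 * Real.pi * b)‖ ≤ 7.2 * ‖a - b‖ := by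
  have hd : ∀ z : ℂ, HasDerivAt (fun x : ℂ => Complex.cos (2 * Real.pi * x))
      (-(2 * Real.pi * Complex.sin (2 * Real.pi * z))) z := by
    intro z
    have h1 : HasDerivAt (fun x : ℂ => 2 * (Real.pi : ℂ) * x) (2 * Real.pi) z := by
      simpa using (hasDerivAt_id z).const_mul (2 * (Real.pi : ℂ))
    refine (h1.ccos).congr_deriv ?_
    ring
  have hb' : ∀ z ∈ {z : ℂ | |z.im| ≤ 1 / 50},
      ‖-(2 * (Real.pi : ℂ) * Complex.sin (2 * Real.pi * z))‖ ≤ 7.2 := by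
    intro z hz
    have h1 : ‖Complex.sin (2 * Real.pi * z)‖ ≤ 1.145 := (norm_sin_le' _).trans (exp_im_le hz)
    rw [norm_neg, norm_mul]
    have h5 : ‖2 * (Real.pi : ℂ)‖ = 2 * Real.pi := by
      rw [norm_mul]; simp [abs_of_pos Real.pi_pos]
    rw [h5]
    have hpi := Real.pi_lt_d4
    have hpi0 := Real.pi_pos
    nlinarith [norm_nonneg (Complex.sin (2 * Real.pi * z))]
  exact convex_strip'.norm_image_sub_le_of_norm_hasDerivWithin_le
    (f := fun x : ℂ => Complex.cos (2 * Real.pi * x))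
    (f' := fun z => -(2 * (Real.pi : ℂ) * Complex.sin (2 * Real.pi * z)))
    (fun x _ => (hd x).hasDerivWithinAt) hb' hb ha

/-- size of `V = 2 + 2 π k cos` near a point where the cosine is at least `κ` -/
theorem V_bounds {k κ : ℝ} (hk : 100 ≤ k) (hκ : 0 < κ) (hκ1 : κ ≤ 1) {a b : ℂ} (hb : b.im = 0)
    (hcos : κ ≤ ‖Complex.cos (2 * Real.pi * b)‖) (hab : ‖a - b‖ ≤ 1.01 * κ / 100) :
    ‖(2 : ℂ) + 2 * Real.pi * k * Complex.cos (2 * Real.pi * a)‖ ≤ 7.3 * k ∧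
    5.8 * k * κ - 2 ≤ ‖(2 : ℂ) + 2 * Real.pi * k * Complex.cos (2 * Real.pi * a)‖ ∧
    ‖((2 : ℂ) + 2 * Real.pi * k * Complex.cos (2 * Real.pi * a)) -
      ((2 : ℂ) + 2 * Real.pi * k * Complex.cos (2 * Real.pi * b))‖ ≤ 45.3 * k * ‖a - b‖ := by
  have hpi := Real.pi_lt_d4
  have hpi3 := Real.pi_gt_d4
  have hk0 : 0 < k := by linarith
  have hbi : |b.im| ≤ 1 / 50 := by rw [hb]; norm_num
  have hai : |a.im| ≤ 1 / 50 := by
    have h1 : |(a - b).im| ≤ ‖a - b‖ := Complex.abs_im_le_norm _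
    rw [Complex.sub_im, hb, sub_zero] at h1
    have : 1.01 * κ / 100 ≤ 1 / 50 := by linarith
    linarith
  have h5 : ∀ w : ℂ, ‖2 * (Real.pi : ℂ) * k * w‖ = 2 * Real.pi * k * ‖w‖ := by
    intro w
    rw [norm_mul, norm_mul, norm_mul]
    simp [abs_of_pos Real.pi_pos, abs_of_pos hk0]
  have hcs := cos_sub_le hai hbi
  have hca := cos_le hai
  have hca0 := norm_nonneg (Complex.cos (2 * Real.pi * a))
  have hlow : 0.927 * κ ≤ ‖Complex.cos (2 * Real.pi * a)‖ := by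
    have h1 := norm_sub_norm_le (Complex.cos (2 * Real.pi * b)) (Complex.cos (2 * Real.pi * a))
    rw [norm_sub_rev] at h1
    have : 7.2 * ‖a - b‖ ≤ 7.2 * (1.01 * κ / 100) := by linarith
    linarith
  have hab0 := norm_nonneg (a - b)
  refine ⟨?_, ?_, ?_⟩
  · refine (norm_add_le _ _).trans ?_
    rw [h5]
    have h2 : ‖(2 : ℂ)‖ = 2 := by simp
    rw [h2]
    have h3 : 2 * Real.pi * k * ‖Complex.cos (2 * Real.pi * a)‖ ≤ 6.2832 * k * 1.145 := by
      apply mul_le_mul _ hca hca0 (by positivity)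
      nlinarith
    nlinarith
  · have h1 := norm_sub_norm_le (2 * (Real.pi : ℂ) * k * Complex.cos (2 * Real.pi * a)) (-2)
    rw [sub_neg_eq_add, norm_neg, h5] at h1
    have h2 : ‖(2 : ℂ)‖ = 2 := by simp
    rw [h2] at h1
    have h3 : 6.283 * k * (0.927 * κ) ≤ 2 * Real.pi * k * ‖Complex.cos (2 * Real.pi * a)‖ := by
      apply mul_le_mul _ hlow (by positivity) (by positivity)
      nlinarith
    rw [add_comm (2 : ℂ)]
    nlinarith [mul_pos hk0 hκ]
  · have e : ((2 : ℂ) + 2 * Real.pi * k * Complex.cos (2 * Real.pi * a)) -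
      ((2 : ℂ) + 2 * Real.pi * k * Complex.cos (2 * Real.pi * b)) =
      2 * Real.pi * k * (Complex.cos (2 * Real.pi * a) - Complex.cos (2 * Real.pi * b)) := by ring
    rw [e, h5]
    have h3 : 2 * Real.pi * k * ‖Complex.cos (2 * Real.pi * a) - Complex.cos (2 * Real.pi * b)‖
        ≤ 6.2832 * k * (7.2 * ‖a - b‖) := by
      apply mul_le_mul _ hcs (norm_nonneg _) (by positivity)
      nlinarith
    nlinarith [mul_nonneg hk0.le hab0]


/-! ### one side -/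

/-- data of one side on the cell -/
structure Sd (k C1 R S c : ℝ) (s : Bool) (n : ℕ) (m : ℝ) : Prop where
  hS : R ≤ |S|
  h1 : ∀ z ∈ ball (m : ℂ) (4 / R), ‖D k c s (n + 1) z - (S : ℝ)‖ ≤ C1 * S ^ 2 / (R * k)
  h0 : ∀ z ∈ ball (m : ℂ) (4 / R), ‖D k c s n z‖ ≤ C1 * |S| / k

/-- the numerical facts -/
theorem nums {k κ C1 : ℝ} (hC : 1 ≤ C1) (hκ : 0 < κ) (hκ1 : κ ≤ 1)
    (hk : 10 ^ 11 * C1 ^ 2 ≤ κ ^ 5 * Real.sqrt k) :
    0 < k ∧ 10 ^ 11 * C1 ^ 2 ≤ Real.sqrt k ∧ 10 ^ 11 * C1 ^ 2 ≤ κ * Real.sqrt k ∧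
      Real.sqrt k * Real.sqrt k = k ∧ Real.sqrt k ≤ k ∧ 10 ^ 11 * C1 ^ 2 ≤ k * κ := by
  have hw : 0 < Real.sqrt k := by
    rcases (Real.sqrt_nonneg k).lt_or_eq with h | h
    · exact h
    · rw [← h, mul_zero] at hk
      have : 0 < 10 ^ 11 * C1 ^ 2 := by positivity
      linarith
  have hk0 : 0 < k := Real.sqrt_pos.mp hw
  have hww := Real.mul_self_sqrt hk0.le
  have h5 : κ ^ 5 ≤ κ := by
    have := pow_le_pow_of_le_one hκ.le hκ1 (show 1 ≤ 5 by norm_num)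
    rwa [pow_one] at this
  have h6 : κ ^ 5 * Real.sqrt k ≤ κ * Real.sqrt k := mul_le_mul_of_nonneg_right h5 hw.le
  have h7 : κ * Real.sqrt k ≤ Real.sqrt k := by nlinarith
  have h8 : (1 : ℝ) ≤ Real.sqrt k := by nlinarith
  have h9 : Real.sqrt k ≤ k := by nlinarith
  refine ⟨hk0, by linarith, by linarith, hww, h9, ?_⟩
  nlinarith

theorem side_S {k κ C1 R S c m : ℝ} {s : Bool} {n : ℕ} (hC : 1 ≤ C1) (hκ : 0 < κ) (hκ1 : κ ≤ 1)
    (hR : 1 ≤ R) (hk : 10 ^ 11 * C1 ^ 2 ≤ κ ^ 5 * Real.sqrt k) (hSu : |S| ≤ C1 * Real.sqrt k * R)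
    (h : Sd k C1 R S c s n m) {z : ℂ} (hz : z ∈ ball (m : ℂ) (4 / R)) :
    0.99 * |S| ≤ ‖D k c s (n + 1) z‖ ∧ ‖D k c s (n + 1) z‖ ≤ 1.01 * |S| := by
  obtain ⟨hk0, n1, n2, hww, n3, n4⟩ := nums hC hκ hκ1 hk
  have hS0 : 0 < |S| := lt_of_lt_of_le (by linarith) h.hS
  have hR0 : 0 < R := by linarith
  have e1 : C1 * S ^ 2 / (R * k) ≤ 0.01 * |S| := by
    rw [div_le_iff₀ (by positivity), ← sq_abs]
    have h2 : |S| * |S| ≤ |S| * (C1 * Real.sqrt k * R) := mul_le_mul_of_nonneg_left hSu hS0.le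
    have h3 : C1 * (C1 * Real.sqrt k * R) ≤ 0.01 * (R * k) := by
      have h4 : 0 ≤ Real.sqrt k * R := by positivity
      have h5 : C1 ^ 2 ≤ 0.01 * Real.sqrt k := by
        have := Real.sqrt_nonneg k
        linarith
      calc C1 * (C1 * Real.sqrt k * R) = C1 ^ 2 * (Real.sqrt k * R) := by ring
        _ ≤ 0.01 * Real.sqrt k * (Real.sqrt k * R) := mul_le_mul_of_nonneg_right h5 h4
        _ = 0.01 * (R * (Real.sqrt k * Real.sqrt k)) := by ring
        _ = 0.01 * (R * k) := by rw [hww]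
    calc C1 * |S| ^ 2 = C1 * (|S| * |S|) := by ring
      _ ≤ C1 * (|S| * (C1 * Real.sqrt k * R)) := mul_le_mul_of_nonneg_left h2 (by linarith)
      _ = |S| * (C1 * (C1 * Real.sqrt k * R)) := by ring
      _ ≤ |S| * (0.01 * (R * k)) := mul_le_mul_of_nonneg_left h3 hS0.le
      _ = 0.01 * |S| * (R * k) := by ring
  have e2 := h.h1 z hz
  have e3 : ‖((S : ℝ) : ℂ)‖ = |S| := by rw [Complex.norm_real, Real.norm_eq_abs]
  have e4 := norm_sub_norm_le (S : ℂ) (S - D k c s (n + 1) z)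
  have e5 := norm_sub_norm_le (D k c s (n + 1) z) (S : ℂ)
  rw [norm_sub_rev] at e2
  rw [sub_sub_cancel, e3] at e4
  rw [e3, norm_sub_rev] at e5
  constructor <;> linarith

theorem side {k κ C1 R S c m m' : ℝ} {s : Bool} {n : ℕ} (hC : 1 ≤ C1) (hκ : 0 < κ) (hκ1 : κ ≤ 1)
    (hR : 1 ≤ R) (hk : 10 ^ 11 * C1 ^ 2 ≤ κ ^ 5 * Real.sqrt k) (hSu : |S| ≤ C1 * Real.sqrt k * R)
    (h : Sd k C1 R S c s n m) (hm : |m' - m| ≤ 3 / R)
    (hcos : κ ≤ ‖Complex.cos (2 * Real.pi * Y k c s (n + 1) m')‖) {z : ℂ}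
    (hz : z ∈ ball (m' : ℂ) (κ / (100 * |S|))) :
    z ∈ ball (m : ℂ) (4 / R) ∧
    5 * k * κ * |S| ≤ ‖D k c s (n + 2) z‖ ∧ ‖D k c s (n + 2) z‖ ≤ 8 * k * |S| ∧
      ‖D k c s (n + 2) z - D k c s (n + 2) m'‖ ≤
        47 * k * S ^ 2 * ‖z - m'‖ + 15 * C1 * S ^ 2 / R + 2 * C1 * |S| / k := by
  obtain ⟨hk0, n1, n2, hww, n3, n4⟩ := nums hC hκ hκ1 hk
  have hS0 : 0 < |S| := lt_of_lt_of_le (by linarith) h.hS
  have hR0 : 0 < R := by linarith
  have hC2 : 1 ≤ C1 ^ 2 := by nlinarith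
  have hk100 : 100 ≤ k := by linarith
  have hsub : ∀ w ∈ ball (m' : ℂ) (κ / (100 * |S|)), w ∈ ball (m : ℂ) (4 / R) := by
    intro w hw
    rw [mem_ball, dist_eq_norm] at hw ⊢
    have h1 : ‖w - m‖ ≤ ‖w - m'‖ + ‖((m' : ℂ) - m)‖ := by
      have : w - (m : ℂ) = (w - m') + (m' - m) := by ring
      rw [this]; exact norm_add_le _ _
    have h2 : ‖((m' : ℂ) - m)‖ = |m' - m| := by
      rw [← Complex.ofReal_sub, Complex.norm_real, Real.norm_eq_abs]
    have h3 : κ / (100 * |S|) ≤ 1 / R := by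
      rw [div_le_div_iff₀ (by positivity) hR0]
      have := h.hS
      nlinarith
    have h4 : 4 / R = 1 / R + 3 / R := by ring
    rw [h4]; linarith
  have hm'ball : (m' : ℂ) ∈ ball (m' : ℂ) (κ / (100 * |S|)) := mem_ball_self (by positivity)
  have hy := norm_Y_sub_le (k := k) (c := c) (s := s) (n := n + 1) (m := (m' : ℂ))
    (r := κ / (100 * |S|)) (B := 1.01 * |S|)
    (fun w hw => (side_S hC hκ hκ1 hR hk hSu h (hsub w hw)).2) hz
  have hzn : ‖z - m'‖ < κ / (100 * |S|) := by rwa [mem_ball, dist_eq_norm] at hz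
  have hz0 := norm_nonneg (z - m')
  have hy2 : ‖Y k c s (n + 1) z - Y k c s (n + 1) m'‖ ≤ 1.01 * κ / 100 := by
    refine hy.trans ?_
    have : 1.01 * |S| * ‖z - m'‖ ≤ 1.01 * |S| * (κ / (100 * |S|)) :=
      mul_le_mul_of_nonneg_left hzn.le (by positivity)
    refine this.trans (le_of_eq ?_)
    field_simp
  have him : (Y k c s (n + 1) m').im = 0 := by
    have h1 := Y_conj k c s (n + 1) m'
    rw [Complex.conj_ofReal] at h1
    have h2 := congrArg Complex.im h1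
    rw [Complex.conj_im] at h2
    linarith
  obtain ⟨v1, v2, v3⟩ := V_bounds hk100 hκ hκ1 him hcos hy2
  have v1' : ‖cV k (Y k c s (n + 1) m')‖ ≤ 7.3 * k :=
    (V_bounds hk100 hκ hκ1 him hcos (a := Y k c s (n + 1) m')
      (by rw [sub_self, norm_zero]; positivity)).1
  change ‖cV k (Y k c s (n + 1) z)‖ ≤ 7.3 * k at v1
  change 5.8 * k * κ - 2 ≤ ‖cV k (Y k c s (n + 1) z)‖ at v2
  change ‖cV k (Y k c s (n + 1) z) - cV k (Y k c s (n + 1) m')‖ ≤ _ at v3
  obtain ⟨s1, s2⟩ := side_S hC hκ hκ1 hR hk hSu h (hsub z hz)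
  obtain ⟨t1, t2⟩ := side_S hC hκ hκ1 hR hk hSu h (hsub _ hm'ball)
  have d0z := h.h0 z (hsub z hz)
  have d0m := h.h0 _ (hsub _ hm'ball)
  have d1z := h.h1 z (hsub z hz)
  have d1m := h.h1 _ (hsub _ hm'ball)
  have hCk : C1 / k ≤ 1 / 100 := by
    rw [div_le_div_iff₀ hk0 (by norm_num)]
    nlinarith
  have d0z' : ‖D k c s n z‖ ≤ 1 / 100 * |S| := by
    refine d0z.trans ?_
    rw [mul_div_right_comm]
    exact mul_le_mul_of_nonneg_right hCk hS0.le
  have hkκ : 10 ^ 11 ≤ k * κ := by nlinarith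
  refine ⟨hsub z hz, ?_, ?_, ?_⟩
  · rw [D_add_two]
    have h1 := norm_sub_norm_le (cV k (Y k c s (n + 1) z) * D k c s (n + 1) z) (D k c s n z)
    rw [norm_mul] at h1
    have h2 : (5.8 * k * κ - 2) * (0.99 * |S|) ≤
        ‖cV k (Y k c s (n + 1) z)‖ * ‖D k c s (n + 1) z‖ :=
      mul_le_mul v2 s1 (by positivity) (norm_nonneg _)
    have h3 : 5 * (k * κ) ≤ (5.8 * (k * κ) - 2) * 0.99 - 1 / 100 := by linarith
    have h4 := mul_le_mul_of_nonneg_right h3 hS0.le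
    have h5 : 5 * k * κ * |S| = 5 * (k * κ) * |S| := by ring
    have h6 : ((5.8 * (k * κ) - 2) * 0.99 - 1 / 100) * |S| =
      (5.8 * k * κ - 2) * (0.99 * |S|) - 1 / 100 * |S| := by ring
    rw [h5]
    rw [h6] at h4
    linarith
  · rw [D_add_two]
    refine (norm_sub_le _ _).trans ?_
    rw [norm_mul]
    have h2 : ‖cV k (Y k c s (n + 1) z)‖ * ‖D k c s (n + 1) z‖ ≤ 7.3 * k * (1.01 * |S|) :=
      mul_le_mul v1 s2 (norm_nonneg _) (by positivity)
    have h3 : 7.3 * k * 1.01 + 1 / 100 ≤ 8 * k := by linarith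
    have h4 := mul_le_mul_of_nonneg_right h3 hS0.le
    have h6 : (7.3 * k * 1.01 + 1 / 100) * |S| = 7.3 * k * (1.01 * |S|) + 1 / 100 * |S| := by ring
    rw [h6] at h4
    linarith
  · rw [D_add_two, D_add_two]
    have e : cV k (Y k c s (n + 1) z) * D k c s (n + 1) z - D k c s n z -
        (cV k (Y k c s (n + 1) m') * D k c s (n + 1) m' - D k c s n m') =
        (cV k (Y k c s (n + 1) z) - cV k (Y k c s (n + 1) m')) * D k c s (n + 1) z +
        cV k (Y k c s (n + 1) m') * ((D k c s (n + 1) z - (S : ℝ)) - (D k c s (n + 1) m' - (S : ℝ)))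
        - (D k c s n z - D k c s n m') := by ring
    rw [e]
    refine (norm_sub_le _ _).trans ?_
    have a1 := norm_add_le ((cV k (Y k c s (n + 1) z) - cV k (Y k c s (n + 1) m')) *
      D k c s (n + 1) z) (cV k (Y k c s (n + 1) m') *
      ((D k c s (n + 1) z - (S : ℝ)) - (D k c s (n + 1) m' - (S : ℝ))))
    have a2 : ‖(cV k (Y k c s (n + 1) z) - cV k (Y k c s (n + 1) m')) * D k c s (n + 1) z‖ ≤
        (45.3 * k * (1.01 * |S| * ‖z - m'‖)) * (1.01 * |S|) := by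
      rw [norm_mul]
      refine mul_le_mul (v3.trans ?_) s2 (norm_nonneg _) (by positivity)
      exact mul_le_mul_of_nonneg_left hy (by positivity)
    have a3 : ‖cV k (Y k c s (n + 1) m') *
      ((D k c s (n + 1) z - (S : ℝ)) - (D k c s (n + 1) m' - (S : ℝ)))‖ ≤
        7.3 * k * (2 * (C1 * S ^ 2 / (R * k))) := by
      rw [norm_mul]
      refine mul_le_mul v1' ?_ (norm_nonneg _) (by positivity)
      refine (norm_sub_le _ _).trans ?_
      linarith
    have a4 := norm_sub_le (D k c s n z) (D k c s n m')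
    have a5 : 7.3 * k * (2 * (C1 * S ^ 2 / (R * k))) = 14.6 * (C1 * S ^ 2 / R) := by
      field_simp
      ring
    have a6 : 15 * C1 * S ^ 2 / R = 15 * (C1 * S ^ 2 / R) := by ring
    have a7 : 0 ≤ C1 * S ^ 2 / R := by positivity
    have a8 : (45.3 * k * (1.01 * |S| * ‖z - m'‖)) * (1.01 * |S|) =
        46.21053 * (k * S ^ 2 * ‖z - m'‖) := by
      rw [← sq_abs S]; ring
    have a9 : 47 * k * S ^ 2 * ‖z - m'‖ = 47 * (k * S ^ 2 * ‖z - m'‖) := by ring
    have a10 : 0 ≤ k * S ^ 2 * ‖z - m'‖ := by positivity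
    have a11 : 2 * C1 * |S| / k = 2 * (C1 * |S| / k) := by ring
    rw [a6, a9, a11]
    rw [a5] at a3
    rw [a8] at a2
    linarith

end Crest.Agent.R128.Cell3Step
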