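import Crest.Agent.R128.Cell3StepA

set_option autoImplicit false

open Complex Metric Set MeasureTheory
open Crest.Agent.R128 Crest.Agent.R128.Cell Crest.Agent.R128.CellB Crest.Agent.R128.CellDy
open Crest.Agent.R128.Loc

namespace Crest.Agent.R128.Cell3Step

/-! ### the Taylor polynomials -/

theorem term {k κ C1 R R' S c m' : ℝ} {s : Bool} {n : ℕ} (hC : 1 ≤ C1) (hκ : 0 < κ)
    (hκ1 : κ ≤ 1) (hR : 1 ≤ R) (hk : 10 ^ 11 * C1 ^ 2 ≤ κ ^ 5 * Real.sqrt k)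
    (hS : R ≤ |S|) (hSu : |S| ≤ C1 * Real.sqrt k * R) (hR' : 5 * k * κ * R ≤ R')
    (h1 : ∀ z ∈ ball (m' : ℂ) (κ / (100 * |S|)), 0.99 * |S| ≤ ‖D k c s (n + 1) z‖)
    (h2 : ∀ z ∈ ball (m' : ℂ) (κ / (100 * |S|)), 5 * k * κ * |S| ≤ ‖D k c s (n + 2) z‖) :
    4 / R' ≤ κ / (100 * |S|) ∧
    ∃ b0 b1 b2 : ℝ, ∀ z ∈ ball (m' : ℂ) (4 / R'),
      ‖((2 * Real.pi * k * R' ^ 2 : ℝ) : ℂ) * (1 / (D k c s (n + 1) z * D k c s (n + 2) z)) -
        (b0 + b1 * (z - m') + b2 * (z - m') ^ 2)‖ ≤ 1 / 64 := by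
  obtain ⟨hk0, n1, n2, hww, n3, n4⟩ := nums hC hκ hκ1 hk
  have hR0 : 0 < R := by linarith
  have hS0 : 0 < |S| := by linarith
  have hC2 : 1 ≤ C1 ^ 2 := by nlinarith
  have hR'0 : 0 < R' := lt_of_lt_of_le (by positivity) hR'
  have hw0 := Real.sqrt_nonneg k
  -- the key numerical inequality
  have key : 10 ^ 11 * |S| ≤ κ ^ 4 * R' := by
    have a1 : κ ^ 4 * (5 * k * κ * R) ≤ κ ^ 4 * R' := mul_le_mul_of_nonneg_left hR' (by positivity)
    have a2 : κ ^ 4 * (5 * k * κ * R) = 5 * (κ ^ 5 * Real.sqrt k) * (Real.sqrt k * R) := by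
      calc κ ^ 4 * (5 * k * κ * R) = 5 * κ ^ 5 * k * R := by ring
        _ = 5 * κ ^ 5 * (Real.sqrt k * Real.sqrt k) * R := by rw [hww]
        _ = _ := by ring
    have a3 : 5 * (10 ^ 11 * C1 ^ 2) * (Real.sqrt k * R) ≤
        5 * (κ ^ 5 * Real.sqrt k) * (Real.sqrt k * R) :=
      mul_le_mul_of_nonneg_right (by linarith) (by positivity)
    have a4 : 10 ^ 11 * |S| ≤ 10 ^ 11 * (C1 * Real.sqrt k * R) := by linarith
    have a5 : 10 ^ 11 * (C1 * Real.sqrt k * R) ≤ 5 * (10 ^ 11 * C1 ^ 2) * (Real.sqrt k * R) := by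
      have b1 : C1 ≤ 5 * C1 ^ 2 := by nlinarith
      have b2 : 0 ≤ Real.sqrt k * R := by positivity
      have b3 := mul_le_mul_of_nonneg_right b1 b2
      calc 10 ^ 11 * (C1 * Real.sqrt k * R) = 10 ^ 11 * (C1 * (Real.sqrt k * R)) := by ring
        _ ≤ 10 ^ 11 * (5 * C1 ^ 2 * (Real.sqrt k * R)) := by linarith
        _ = _ := by ring
    linarith
  have hκ4 : κ ^ 4 ≤ κ := by
    have := pow_le_pow_of_le_one hκ.le hκ1 (show 1 ≤ 4 by norm_num)
    rwa [pow_one] at this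
  have key1 : 10 ^ 11 * |S| ≤ κ * R' :=
    key.trans (mul_le_mul_of_nonneg_right hκ4 hR'0.le)
  refine ⟨?_, ?_⟩
  · rw [div_le_div_iff₀ hR'0 (by positivity)]
    linarith
  have hRad : 0 < κ / (200 * |S|) := by positivity
  have hsub : closedBall (m' : ℂ) (κ / (200 * |S|)) ⊆ ball (m' : ℂ) (κ / (100 * |S|)) := by
    apply closedBall_subset_ball
    rw [div_lt_div_iff₀ (by positivity) (by positivity)]
    nlinarith [mul_pos hκ hS0]
  have hf : DifferentiableOn ℂ (fun z => ((2 * Real.pi * k * R' ^ 2 : ℝ) : ℂ) *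
      (1 / (D k c s (n + 1) z * D k c s (n + 2) z))) (closedBall (m' : ℂ) (κ / (200 * |S|))) := by
    apply DifferentiableOn.const_mul
    apply DifferentiableOn.div (differentiableOn_const _)
    · exact ((differentiable_D k c s (n + 1)).mul (differentiable_D k c s (n + 2))).differentiableOn
    · intro z hz
      apply mul_ne_zero
      · rw [← norm_pos_iff]
        exact lt_of_lt_of_le (by positivity) (h1 z (hsub hz))
      · rw [← norm_pos_iff]
        exact lt_of_lt_of_le (by positivity) (h2 z (hsub hz))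
  have hB : ∀ z ∈ closedBall (m' : ℂ) (κ / (200 * |S|)),
      ‖((2 * Real.pi * k * R' ^ 2 : ℝ) : ℂ) * (1 / (D k c s (n + 1) z * D k c s (n + 2) z))‖ ≤
        1.3 * R' ^ 2 / (κ * |S| ^ 2) := by
    intro z hz
    have e1 := h1 z (hsub hz)
    have e2 := h2 z (hsub hz)
    rw [norm_mul, norm_div, norm_mul, norm_one, Complex.norm_real, Real.norm_eq_abs,
      abs_of_nonneg (by positivity), mul_one_div]
    have e3 : 0.99 * |S| * (5 * k * κ * |S|) ≤ ‖D k c s (n + 1) z‖ * ‖D k c s (n + 2) z‖ :=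
      mul_le_mul e1 e2 (by positivity) (norm_nonneg _)
    have e4 : 0 < 0.99 * |S| * (5 * k * κ * |S|) := by positivity
    refine (div_le_div_of_nonneg_left (by positivity) e4 e3).trans ?_
    rw [div_le_div_iff₀ e4 (by positivity)]
    have hpi := Real.pi_lt_d4
    have e5 : 2 * Real.pi * k * R' ^ 2 * (κ * |S| ^ 2) =
      2 * Real.pi * (k * R' ^ 2 * κ * |S| ^ 2) := by ring
    have e6 : 1.3 * R' ^ 2 * (0.99 * |S| * (5 * k * κ * |S|)) =
      6.435 * (k * R' ^ 2 * κ * |S| ^ 2) := by ring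
    rw [e5, e6]
    exact mul_le_mul_of_nonneg_right (by linarith) (by positivity)
  have hc : ∀ z, (fun z => ((2 * Real.pi * k * R' ^ 2 : ℝ) : ℂ) *
      (1 / (D k c s (n + 1) z * D k c s (n + 2) z))) (starRingEnd ℂ z) =
      starRingEnd ℂ ((fun z => ((2 * Real.pi * k * R' ^ 2 : ℝ) : ℂ) *
      (1 / (D k c s (n + 1) z * D k c s (n + 2) z))) z) := by
    intro z
    simp only [D_conj, map_mul, map_div₀, map_one, Complex.conj_ofReal]
  obtain ⟨b0, b1, b2, hb⟩ := taylor_real hRad hf hB hc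
  refine ⟨b0, b1, b2, ?_⟩
  intro z hz
  refine (hb (4 / R') ?_ z (ball_subset_closedBall hz)).trans ?_
  · rw [mul_div_assoc', div_le_div_iff₀ hR'0 (by positivity)]
    linarith
  · have e1 : 2 * (1.3 * R' ^ 2 / (κ * |S| ^ 2)) * (4 / R' / (κ / (200 * |S|))) ^ 3 =
        1331200000 * |S| / (κ ^ 4 * R') := by
      field_simp
      ring
    rw [e1, div_le_iff₀ (by positivity)]
    linarith

theorem old {k κ C1 R R' c m m' q0 q1 q2 : ℝ} {s : Bool} {n n' : ℕ} (hC : 1 ≤ C1) (hκ : 0 < κ)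
    (hκ1 : κ ≤ 1) (hR : 1 ≤ R) (hk : 10 ^ 11 * C1 ^ 2 ≤ κ ^ 5 * Real.sqrt k)
    (hR' : 5 * k * κ * R ≤ R') (hm : |m' - m| ≤ 3 / R)
    (h1 : ∀ z ∈ ball (m : ℂ) (4 / R), D k c s n z ≠ 0)
    (h2 : ∀ z ∈ ball (m : ℂ) (4 / R), D k c (!s) n' z ≠ 0)
    (hq : ∀ z ∈ ball (m : ℂ) (4 / R), ‖((2 * Real.pi * k * R ^ 2 : ℝ) : ℂ) * cont k c s n n' z -
      (q0 + q1 * ((R : ℂ) * (z - m)) + q2 * ((R : ℂ) * (z - m)) ^ 2)‖ ≤ 1 / 16) :
    ∃ a0 a1 a2 ε : ℝ, (R' / R) ^ 2 * ε ≤ 1 / 64 ∧ ∀ z ∈ ball (m' : ℂ) (4 / R'),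
      ‖(((2 * Real.pi * k * R ^ 2 : ℝ) : ℂ) * cont k c s n n' z -
        (q0 + q1 * ((R : ℂ) * (z - m)) + q2 * ((R : ℂ) * (z - m)) ^ 2)) -
        (a0 + a1 * (z - m') + a2 * (z - m') ^ 2)‖ ≤ ε := by
  obtain ⟨hk0, n1, n2, hww, n3, n4⟩ := nums hC hκ hκ1 hk
  have hR0 : 0 < R := by linarith
  have hC2 : 1 ≤ C1 ^ 2 := by nlinarith
  have hR'0 : 0 < R' := lt_of_lt_of_le (by positivity) hR'
  have hRR : 4096 * R ≤ R' := by
    have : 4096 * R ≤ 5 * (k * κ) * R := mul_le_mul_of_nonneg_right (by linarith) hR0.le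
    linarith
  have hRad : 0 < 1 / (2 * R) := by positivity
  have hsub : closedBall (m' : ℂ) (1 / (2 * R)) ⊆ ball (m : ℂ) (4 / R) := by
    intro w hw
    rw [mem_closedBall, dist_eq_norm] at hw
    rw [mem_ball, dist_eq_norm]
    have h1 : ‖w - m‖ ≤ ‖w - m'‖ + ‖((m' : ℂ) - m)‖ := by
      have : w - (m : ℂ) = (w - m') + (m' - m) := by ring
      rw [this]; exact norm_add_le _ _
    have h2 : ‖((m' : ℂ) - m)‖ = |m' - m| := by
      rw [← Complex.ofReal_sub, Complex.norm_real, Real.norm_eq_abs]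
    have h3 : 1 / (2 * R) + 3 / R < 4 / R := by
      have : 4 / R - (1 / (2 * R) + 3 / R) = 1 / (2 * R) := by field_simp; ring
      linarith
    linarith
  obtain ⟨g, hg⟩ : ∃ g : ℂ → ℂ, g = fun z => ((2 * Real.pi * k * R ^ 2 : ℝ) : ℂ) *
      cont k c s n n' z - (q0 + q1 * ((R : ℂ) * (z - m)) + q2 * ((R : ℂ) * (z - m)) ^ 2) :=
    ⟨_, rfl⟩
  have hf : DifferentiableOn ℂ g (closedBall (m' : ℂ) (1 / (2 * R))) := by
    rw [hg]
    apply DifferentiableOn.sub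
    · apply DifferentiableOn.const_mul
      exact (differentiableOn_cont h1 h2).mono hsub
    · apply Differentiable.differentiableOn
      fun_prop
  have hB : ∀ z ∈ closedBall (m' : ℂ) (1 / (2 * R)), ‖g z‖ ≤ 1 / 16 := by
    intro z hz
    rw [hg]
    exact hq z (hsub hz)
  have hc : ∀ z, g (starRingEnd ℂ z) = starRingEnd ℂ (g z) := by
    intro z
    rw [hg]
    simp only [cont_conj, map_sub, map_add, map_mul, map_pow, Complex.conj_ofReal]
  obtain ⟨a0, a1, a2, ha⟩ := taylor_real hRad hf hB hc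
  refine ⟨a0, a1, a2, 2 * (1 / 16) * (4 / R' / (1 / (2 * R))) ^ 3, ?_, ?_⟩
  · have e1 : (R' / R) ^ 2 * (2 * (1 / 16) * (4 / R' / (1 / (2 * R))) ^ 3) = 64 * R / R' := by
      field_simp
      ring
    rw [e1, div_le_iff₀ hR'0]
    linarith
  · intro z hz
    have := ha (4 / R') (by
      rw [mul_div_assoc', div_le_div_iff₀ hR'0 (by positivity)]
      linarith) z (ball_subset_closedBall hz)
    rw [hg] at this
    exact this

end Crest.Agent.R128.Cell3Step
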