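import Crest.Agent.R128.Cell3StepB

set_option autoImplicit false

open Complex Metric Set MeasureTheory
open Crest.Agent.R128 Crest.Agent.R128.Cell Crest.Agent.R128.CellB Crest.Agent.R128.CellDy
open Crest.Agent.R128.Loc

namespace Crest.Agent.R128.Cell3Step

theorem D_real (k c : ℝ) (s : Bool) (n : ℕ) (t : ℝ) :
    D k c s n (t : ℂ) = (((D k c s n (t : ℂ)).re : ℝ) : ℂ) := by
  apply real_of_conj
  rw [← D_conj, Complex.conj_ofReal]

theorem norm_D_real (k c : ℝ) (s : Bool) (n : ℕ) (t : ℝ) :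
    ‖D k c s n (t : ℂ)‖ = |(D k c s n (t : ℂ)).re| := by
  conv_lhs => rw [D_real]
  rw [Complex.norm_real, Real.norm_eq_abs]

theorem fin_aux {A B D' X Y' : ℝ} (b1 : A ≤ 7.52 * X) (b2 : B ≤ 4.8 * Y') (b3 : D' ≤ 0.4 * Y')
    (hX : 0 ≤ X) (hXY : X ≤ Y') : A + B + D' ≤ 20 * Y' := by linarith

set_option maxHeartbeats 1000000 in
/-- the data of one side at the next level -/
theorem next {k κ C1 R R' S c m m' : ℝ} {s : Bool} {n : ℕ} (hC : 1 ≤ C1) (hκ : 0 < κ)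
    (hκ1 : κ ≤ 1) (hR : 1 ≤ R) (hk : 10 ^ 11 * C1 ^ 2 ≤ κ ^ 5 * Real.sqrt k)
    (hSu : |S| ≤ C1 * Real.sqrt k * R)
    (h : Sd k C1 R S c s n m) (hm : |m' - m| ≤ 3 / R)
    (hcos : κ ≤ ‖Complex.cos (2 * Real.pi * Y k c s (n + 1) m')‖)
    (hR' : 5 * k * κ * R ≤ R') (hR'u : R' ≤ 8 * k * R) (hr : 4 / R' ≤ κ / (100 * |S|))
    (hE : R' ≤ ‖D k c s (n + 2) (m' : ℂ)‖) :
    Sd k (20 * C1 / κ ^ 2) R' ((D k c s (n + 2) (m' : ℂ)).re) c s (n + 1) m' := by
  obtain ⟨hk0, n1, n2, hww, n3, n4⟩ := nums hC hκ hκ1 hk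
  have hR0 : 0 < R := by linarith
  have hS0 : 0 < |S| := lt_of_lt_of_le hR0 h.hS
  have hR'0 : 0 < R' := lt_of_lt_of_le (by positivity) hR'
  have hC2 : 1 ≤ C1 ^ 2 := by nlinarith
  have hk1 : 1 ≤ k := by linarith
  obtain ⟨E, hEd⟩ : ∃ E : ℝ, E = (D k c s (n + 2) (m' : ℂ)).re := ⟨_, rfl⟩
  have hEn : ‖D k c s (n + 2) (m' : ℂ)‖ = |E| := by rw [hEd]; exact norm_D_real k c s (n + 2) m'
  have hEc : D k c s (n + 2) (m' : ℂ) = (E : ℂ) := by rw [hEd]; exact D_real k c s (n + 2) m'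
  rw [← hEd]
  rw [hEn] at hE
  have hm'b : (m' : ℂ) ∈ ball (m' : ℂ) (κ / (100 * |S|)) := mem_ball_self (by positivity)
  obtain ⟨-, hlow, -, -⟩ := side hC hκ hκ1 hR hk hSu h hm hcos hm'b
  rw [hEn] at hlow
  have hE0 : 0 < |E| := lt_of_lt_of_le hR'0 hE
  have hsub : ball (m' : ℂ) (4 / R') ⊆ ball (m' : ℂ) (κ / (100 * |S|)) := ball_subset_ball hr
  have hκ2 : κ ^ 2 ≤ κ := by nlinarith
  -- |S| ≤ |E| / (5 k κ)
  have hSE : |S| ≤ |E| / (5 * k * κ) := by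
    rw [le_div_iff₀ (by positivity)]
    linarith
  have hSE2 : S ^ 2 ≤ E ^ 2 / (25 * k ^ 2 * κ ^ 2) := by
    rw [← sq_abs S, ← sq_abs E]
    calc |S| ^ 2 ≤ (|E| / (5 * k * κ)) ^ 2 := pow_le_pow_left₀ hS0.le hSE 2
      _ = _ := by field_simp; ring
  refine ⟨hE, ?_, ?_⟩
  · intro z hz
    obtain ⟨-, -, -, hv⟩ := side hC hκ hκ1 hR hk hSu h hm hcos (hsub hz)
    rw [hEc] at hv
    have hz' : ‖z - m'‖ ≤ 4 / R' := by
      have := hz; rw [mem_ball, dist_eq_norm] at this; exact this.le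
    refine hv.trans ?_
    have b1 : 47 * k * S ^ 2 * ‖z - m'‖ ≤ 47 * k * (E ^ 2 / (25 * k ^ 2 * κ ^ 2)) * (4 / R') := by
      apply mul_le_mul _ hz' (norm_nonneg _) (by positivity)
      exact mul_le_mul_of_nonneg_left hSE2 (by positivity)
    have b1' : 47 * k * (E ^ 2 / (25 * k ^ 2 * κ ^ 2)) * (4 / R') =
        7.52 * (1 / κ ^ 2) * (E ^ 2 / (R' * k)) := by
      field_simp
      norm_num
      ring
    have b2 : 15 * C1 * S ^ 2 / R ≤ 15 * C1 * (E ^ 2 / (25 * k ^ 2 * κ ^ 2)) * (8 * k / R') := by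
      have e1 : 15 * C1 * S ^ 2 / R = 15 * C1 * S ^ 2 * (1 / R) := by ring
      rw [e1]
      apply mul_le_mul _ _ (by positivity) (by positivity)
      · exact mul_le_mul_of_nonneg_left hSE2 (by positivity)
      · rw [div_le_div_iff₀ hR0 hR'0]
        linarith
    have b2' : 15 * C1 * (E ^ 2 / (25 * k ^ 2 * κ ^ 2)) * (8 * k / R') =
        4.8 * C1 * (1 / κ ^ 2) * (E ^ 2 / (R' * k)) := by
      field_simp
      norm_num
      try ring
    have b3 : 2 * C1 * |S| / k ≤ 0.4 * C1 * (1 / κ ^ 2) * (E ^ 2 / (R' * k)) := by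
      have e1 : 2 * C1 * |S| / k ≤ 2 * C1 * (|E| / (5 * k * κ)) / k := by
        apply div_le_div_of_nonneg_right _ hk0.le
        exact mul_le_mul_of_nonneg_left hSE (by positivity)
      refine e1.trans ?_
      have e2 : 2 * C1 * (|E| / (5 * k * κ)) / k = 0.4 * C1 * (|E| / (k ^ 2 * κ)) := by
        field_simp
        try norm_num
        try ring
      have e3 : 0.4 * C1 * (1 / κ ^ 2) * (E ^ 2 / (R' * k)) =
          0.4 * C1 * (|E| ^ 2 / (κ ^ 2 * R' * k)) := by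
        rw [sq_abs]
        field_simp
      rw [e2, e3]
      apply mul_le_mul_of_nonneg_left _ (by positivity)
      rw [div_le_div_iff₀ (by positivity) (by positivity)]
      have e4 : |E| * (κ ^ 2 * R' * k) ≤ |E| * (κ * |E| * k ^ 2) := by
        apply mul_le_mul_of_nonneg_left _ hE0.le
        have e5 : κ ^ 2 * R' ≤ κ * |E| := mul_le_mul hκ2 hE hR'0.le hκ.le
        have e6 : k ≤ k ^ 2 := by nlinarith
        exact mul_le_mul e5 e6 hk0.le (by positivity)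
      refine e4.trans (le_of_eq ?_)
      ring
    have b4 : (20 * C1 / κ ^ 2) * E ^ 2 / (R' * k) = 20 * C1 * (1 / κ ^ 2) * (E ^ 2 / (R' * k)) := by
      ring
    have b5 : 0 ≤ (1 / κ ^ 2) * (E ^ 2 / (R' * k)) := by positivity
    have b6 : (1 / κ ^ 2) * (E ^ 2 / (R' * k)) ≤ C1 * ((1 / κ ^ 2) * (E ^ 2 / (R' * k))) := by
      exact le_mul_of_one_le_left b5 hC
    rw [b4]
    rw [b1'] at b1
    rw [b2'] at b2
    have c1 : 7.52 * (1 / κ ^ 2) * (E ^ 2 / (R' * k)) =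
      7.52 * ((1 / κ ^ 2) * (E ^ 2 / (R' * k))) := by ring
    have c2 : 4.8 * C1 * (1 / κ ^ 2) * (E ^ 2 / (R' * k)) =
      4.8 * (C1 * ((1 / κ ^ 2) * (E ^ 2 / (R' * k)))) := by ring
    have c3 : 0.4 * C1 * (1 / κ ^ 2) * (E ^ 2 / (R' * k)) =
      0.4 * (C1 * ((1 / κ ^ 2) * (E ^ 2 / (R' * k)))) := by ring
    have c4 : 20 * C1 * (1 / κ ^ 2) * (E ^ 2 / (R' * k)) =
      20 * (C1 * ((1 / κ ^ 2) * (E ^ 2 / (R' * k)))) := by ring
    rw [c1] at b1
    rw [c2] at b2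
    rw [c3] at b3
    rw [c4]
    exact fin_aux b1 b2 b3 b5 b6
  · intro z hz
    have hzb := hsub hz
    obtain ⟨hzm, -, -, -⟩ := side hC hκ hκ1 hR hk hSu h hm hcos hzb
    have hs := (side_S hC hκ hκ1 hR hk hSu h hzm).2
    refine hs.trans ?_
    have e1 : 1.01 * |S| ≤ 1.01 * (|E| / (5 * k * κ)) := mul_le_mul_of_nonneg_left hSE (by norm_num)
    refine e1.trans ?_
    have e2 : 20 * C1 / κ ^ 2 * |E| / k = 20 * C1 * |E| / (κ ^ 2 * k) := by ring
    have e3 : 1.01 * (|E| / (5 * k * κ)) = 1.01 * |E| / (5 * (κ * k)) := by ring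
    rw [e2, e3, div_le_div_iff₀ (by positivity) (by positivity)]
    have e4 : κ ^ 2 * k ≤ κ * k := mul_le_mul_of_nonneg_right hκ2 hk0.le
    have e5 : 1.01 * |E| * (κ ^ 2 * k) ≤ 1.01 * |E| * (κ * k) :=
      mul_le_mul_of_nonneg_left e4 (by positivity)
    have e6 : 0 ≤ |E| * (κ * k) := by positivity
    have e7 : 1.01 * (|E| * (κ * k)) ≤ 100 * C1 * (|E| * (κ * k)) :=
      mul_le_mul_of_nonneg_right (by linarith only [hC]) e6
    refine e5.trans ?_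
    have e8 : 1.01 * |E| * (κ * k) = 1.01 * (|E| * (κ * k)) := by ring
    have e9 : 20 * C1 * |E| * (5 * (κ * k)) = 100 * C1 * (|E| * (κ * k)) := by ring
    rw [e8, e9]
    exact e7

theorem sd_slow {k c : ℝ} {s : Bool} {n n' : ℕ} {m R lam C1 q0 q1 q2 : ℝ} (hk : 0 < k)
    (h : Cell3 k c s n n' m R lam C1 q0 q1 q2) :
    ∃ S : ℝ, |S| = R ∧ Sd k C1 R S c s n m := by
  obtain ⟨σ, hσ, hsl⟩ := h.slow
  have hR0 : 0 < R := by linarith [h.hR]
  have ha : |σ * R| = R := by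
    rcases hσ with h1 | h1 <;> rw [h1] <;> simp [abs_of_pos hR0]
  refine ⟨σ * R, ha, ?_, ?_, ?_⟩
  · rw [ha]
  · intro z hz
    refine (hsl z hz).trans (le_of_eq ?_)
    have : (σ * R) ^ 2 = R ^ 2 := by rw [← sq_abs, ha]
    rw [this]
    field_simp
  · intro z hz
    rw [ha]
    exact h.slow0 z hz

theorem sd_fast {k c : ℝ} {s : Bool} {n n' : ℕ} {m R lam C1 q0 q1 q2 : ℝ} (hk : 0 < k)
    (h : Cell3 k c s n n' m R lam C1 q0 q1 q2) : Sd k C1 R (lam * R) c (!s) n' m := by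
  have hR0 : 0 < R := by linarith [h.hR]
  have ha : |lam * R| = |lam| * R := by rw [abs_mul, abs_of_pos hR0]
  refine ⟨?_, ?_, ?_⟩
  · rw [ha]
    have := h.hlam
    nlinarith
  · intro z hz
    refine (h.fast z hz).trans (le_of_eq ?_)
    rw [mul_pow, sq_abs]
    field_simp
  · intro z hz
    rw [ha]
    refine (h.fast0 z hz).trans (le_of_eq ?_)
    ring

/-- a cell from the data of the two sides -/
theorem cell_of {k c : ℝ} {s : Bool} {n n' : ℕ} {m R E E' C p0 p1 p2 : ℝ} (hk : 0 < k) (hR : 1 ≤ R)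
    (h : Sd k C R E c s n m) (hE : |E| = R) (h' : Sd k C R E' c (!s) n' m)
    (hq : ∀ z ∈ ball (m : ℂ) (4 / R),
      ‖((2 * Real.pi * k * R ^ 2 : ℝ) : ℂ) * cont k c s (n + 1) (n' + 1) z -
        (p0 + p1 * ((R : ℂ) * (z - m)) + p2 * ((R : ℂ) * (z - m)) ^ 2)‖ ≤ 1 / 16) :
    Cell3 k c s n n' m R (E' / R) C p0 p1 p2 := by
  have hR0 : 0 < R := by linarith
  have ha : |E' / R| = |E'| / R := by rw [abs_div, abs_of_pos hR0]
  have hER : E' / R * R = E' := by field_simp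
  refine ⟨hR, ?_, ?_, ?_, ?_, ?_, hq⟩
  · rw [ha, le_div_iff₀ hR0]
    linarith [h'.hS]
  · refine ⟨E / R, ?_, ?_⟩
    · rcases abs_choice E with h1 | h1
      · left; rw [h1] at hE; rw [hE]; field_simp
      · right; rw [h1] at hE
        have : E = -R := by linarith
        rw [this]; field_simp
    · intro z hz
      have e1 : E / R * R = E := by field_simp
      rw [e1]
      refine (h.h1 z hz).trans (le_of_eq ?_)
      rw [← sq_abs, hE]
      field_simp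
  · intro z hz
    refine (h.h0 z hz).trans (le_of_eq ?_)
    rw [hE]
  · intro z hz
    rw [hER]
    refine (h'.h1 z hz).trans (le_of_eq ?_)
    rw [ha, div_pow, sq_abs]
    field_simp
  · intro z hz
    refine (h'.h0 z hz).trans (le_of_eq ?_)
    rw [ha]
    field_simp

end Crest.Agent.R128.Cell3Step
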