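import Crest.Agent.R128.CellA

/-!
# Local constancy of analytic functions off a set of small measure (row 128)
-/

set_option autoImplicit false

open Metric Set MeasureTheory
open scoped ComplexConjugate NNReal ENNReal

namespace Crest.Agent.R128.CellA

open Crest.Agent.R128.Remez

/-- Products of numbers close to `1`. -/
theorem norm_mul_sub_one_le {A B : ℂ} {a b : ℝ} (hA : ‖A - 1‖ ≤ Real.exp a - 1)
    (hB : ‖B - 1‖ ≤ Real.exp b - 1) : ‖A * B - 1‖ ≤ Real.exp (a + b) - 1 := by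
  have h1 : A * B - 1 = (A - 1) * (B - 1) + (A - 1) + (B - 1) := by ring
  have h2 : ‖A * B - 1‖ ≤ ‖A - 1‖ * ‖B - 1‖ + ‖A - 1‖ + ‖B - 1‖ := by
    rw [h1]
    refine (norm_add_le _ _).trans (add_le_add ((norm_add_le _ _).trans ?_) le_rfl)
    rw [norm_mul]
  rw [Real.exp_add]
  have h3 : ‖A - 1‖ * ‖B - 1‖ ≤ (Real.exp a - 1) * (Real.exp b - 1) :=
    mul_le_mul hA hB (norm_nonneg _) ((norm_nonneg _).trans hA)
  nlinarith

theorem le_exp_sub_one {x : ℝ} : x ≤ Real.exp x - 1 := by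
  have := Real.add_one_le_exp x; linarith

theorem norm_cexp_sub_one_le (z : ℂ) : ‖Complex.exp z - 1‖ ≤ Real.exp ‖z‖ - 1 := by
  have := Complex.norm_exp_sub_sum_le_exp_norm_sub_sum z 1
  simpa using this

/-- A bounded zero free function on a disc is the exponential of a bounded analytic function on the half disc. -/
theorem zero_free_log {r M : ℝ} (hr : 0 < r) {h : ℂ → ℂ}
    (hh : DifferentiableOn ℂ h (ball 0 r)) (hhM : ∀ z ∈ ball (0 : ℂ) r, ‖h z‖ ≤ M)
    (hhz : ∀ z ∈ ball (0 : ℂ) r, h z ≠ 0) {x : ℝ} (hx : 0 < x) (hMx : M ≤ Real.exp x * ‖h 0‖) :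
    ∃ L : ℂ → ℂ, DifferentiableOn ℂ L (ball 0 r) ∧ (∀ z ∈ ball (0 : ℂ) r, h z = h 0 * Complex.exp (L z)) ∧
      ∀ z ∈ closedBall (0 : ℂ) (r / 2), ‖L z‖ ≤ 2 * x := by
  have h00 : (0 : ℂ) ∈ ball (0 : ℂ) r := mem_ball_self hr
  have hd : DifferentiableOn ℂ (fun z => deriv h z / h z) (ball 0 r) :=
    (hh.deriv isOpen_ball).div hh hhz
  obtain ⟨G, hG⟩ := hd.isExactOn_ball
  set L : ℂ → ℂ := fun z => G z - G 0 with hL
  have hLd : ∀ z ∈ ball (0 : ℂ) r, HasDerivAt L (deriv h z / h z) z := by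
    intro z hz
    exact (hG z hz).sub_const _
  have hLdiff : DifferentiableOn ℂ L (ball 0 r) := fun z hz =>
    (hLd z hz).differentiableAt.differentiableWithinAt
  -- `h * exp (-L)` is constant
  have hconst : ∀ z ∈ ball (0 : ℂ) r, h z * Complex.exp (-L z) = h 0 := by
    have hder : ∀ z ∈ ball (0 : ℂ) r,
        HasDerivAt (fun w => h w * Complex.exp (-L w)) 0 z := by
      intro z hz
      have h1 : HasDerivAt h (deriv h z) z :=
        (hh.differentiableAt (isOpen_ball.mem_nhds hz)).hasDerivAt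
      have h2 := ((hLd z hz).neg).cexp
      have h3 := h1.mul h2
      have h4 : deriv h z * Complex.exp (-L z) + h z * (Complex.exp (-L z) * -(deriv h z / h z)) = 0 := by
        have := hhz z hz
        field_simp
        ring
      have h6 : HasDerivAt (fun w => h w * Complex.exp (-L w))
          (deriv h z * Complex.exp (-L z) + h z * (Complex.exp (-L z) * -(deriv h z / h z))) z := h3
      rwa [h4] at h6
    intro z hz
    have h6 := (convex_ball (0 : ℂ) r).is_const_of_fderivWithin_eq_zero (𝕜 := ℂ)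
      (f := fun w => h w * Complex.exp (-L w))
      (fun w hw => (hder w hw).differentiableAt.differentiableWithinAt)
      (fun w hw => by
        rw [fderivWithin_of_isOpen isOpen_ball hw]
        ext
        simp [(hder w hw).hasFDerivAt.fderiv]) hz h00
    simp only [hL, sub_self, neg_zero, Complex.exp_zero, mul_one] at h6
    exact h6
  have hexp : ∀ z ∈ ball (0 : ℂ) r, h z = h 0 * Complex.exp (L z) := by
    intro z hz
    rw [← hconst z hz, mul_assoc, ← Complex.exp_add]; simp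
  refine ⟨L, hLdiff, hexp, ?_⟩
  have hre : MapsTo L (ball 0 r) {z | z.re ≤ x} := by
    intro z hz
    have h1 := hhM z hz
    rw [hexp z hz, norm_mul, Complex.norm_exp] at h1
    have h2 : 0 < ‖h 0‖ := norm_pos_iff.2 (hhz 0 h00)
    have h3 : Real.exp (L z).re ≤ Real.exp x := by
      have h4 := h1.trans hMx
      rw [mul_comm] at h4
      exact le_of_mul_le_mul_right h4 h2
    exact Real.exp_le_exp.1 h3
  intro z hz
  have hz' : ‖z‖ ≤ r / 2 := by simpa using hz
  have h1 := Complex.borelCaratheodory_zero hx hLdiff hre hr (z := z) (by simp; linarith)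
    (by simp [hL])
  refine h1.trans ?_
  rw [div_le_iff₀ (by linarith)]
  nlinarith [norm_nonneg z]

/-- Oscillation of a zero free bounded analytic function. -/
theorem zero_free_osc {r M : ℝ} (hr : 0 < r) {h : ℂ → ℂ}
    (hh : DifferentiableOn ℂ h (ball 0 r)) (hhM : ∀ z ∈ ball (0 : ℂ) r, ‖h z‖ ≤ M)
    (hhz : ∀ z ∈ ball (0 : ℂ) r, h z ≠ 0) {x : ℝ} (hx : 0 < x) (hMx : M ≤ Real.exp x * ‖h 0‖)
    {z w : ℂ} (hz : ‖z‖ ≤ r / 4) (hw : ‖w‖ ≤ r / 4) :
    ‖h w / h z - 1‖ ≤ Real.exp (8 * x / r * ‖w - z‖) - 1 := by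
  obtain ⟨L, hL, hexp, hLb⟩ := zero_free_log hr hh hhM hhz hx hMx
  have hzb : z ∈ ball (0 : ℂ) r := by simp; linarith
  have hwb : w ∈ ball (0 : ℂ) r := by simp; linarith
  have h00 : (0 : ℂ) ∈ ball (0 : ℂ) r := mem_ball_self hr
  have hder : ∀ u ∈ closedBall (0 : ℂ) (r / 4), ‖deriv L u‖ ≤ 8 * x / r := by
    intro u hu
    have hu' : ‖u‖ ≤ r / 4 := by simpa using hu
    have hsub : closedBall u (r / 4) ⊆ closedBall 0 (r / 2) := by
      refine closedBall_subset_closedBall' ?_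
      rw [dist_zero_right]; linarith
    have h1 : DiffContOnCl ℂ L (ball u (r / 4)) := by
      refine DifferentiableOn.diffContOnCl ?_
      rw [closure_ball u (by positivity : r / 4 ≠ 0)]
      exact hL.mono (hsub.trans (closedBall_subset_ball (by linarith)))
    have h2 := Complex.norm_deriv_le_of_forall_mem_sphere_norm_le (R := r / 4)
      (C := 2 * x) (by positivity) h1 (fun v hv => hLb v (hsub (sphere_subset_closedBall hv)))
    refine h2.trans (le_of_eq ?_)
    field_simp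
    ring
  have hL2 : ‖L w - L z‖ ≤ 8 * x / r * ‖w - z‖ :=
    (convex_closedBall (0 : ℂ) (r / 4)).norm_image_sub_le_of_norm_deriv_le
      (f := L) (C := 8 * x / r) (fun u hu => hL.differentiableAt
        (isOpen_ball.mem_nhds (closedBall_subset_ball (by linarith) hu))) hder
      (by simpa using hz) (by simpa using hw)
  have h0 : h 0 ≠ 0 := hhz 0 h00
  have hq : h w / h z = Complex.exp (L w - L z) := by
    rw [hexp w hwb, hexp z hzb, Complex.exp_sub]
    have : Complex.exp (L z) ≠ 0 := Complex.exp_ne_zero _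
    field_simp
  rw [hq]
  refine (norm_cexp_sub_one_le _).trans ?_
  have := Real.exp_le_exp.2 hL2
  linarith

/-- Ratio of Blaschke factors at nearby points. -/
theorem bl_ratio {R δ : ℝ} (hR : 0 < R) (hδ : 0 < δ) {a z w : ℂ} (ha : ‖a‖ ≤ R / 2)
    (hz : ‖z‖ ≤ R / 8) (hw : ‖w‖ ≤ R / 8) (hza : δ * R ≤ ‖z - a‖) (hwz : ‖w - z‖ ≤ δ ^ 2 * R) :
    bl R a z ≠ 0 ∧ ‖bl R a w / bl R a z - 1‖ ≤ Real.exp (δ + δ ^ 2) - 1 := by
  have hdz := bl_den_ne hR (a := a) (z := z) (by linarith) (by linarith)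
  have hdw := bl_den_ne hR (a := a) (z := w) (by linarith) (by linarith)
  have hzapos : 0 < ‖z - a‖ := lt_of_lt_of_le (by positivity) hza
  have hza0 : z - a ≠ 0 := norm_pos_iff.1 hzapos
  have hRC : (R : ℂ) ≠ 0 := by exact_mod_cast hR.ne'
  have hblz : bl R a z ≠ 0 := by
    rw [bl]; exact div_ne_zero (mul_ne_zero hRC hza0) hdz
  refine ⟨hblz, ?_⟩
  have hratio : bl R a w / bl R a z =
      ((w - a) / (z - a)) * (((R : ℂ) ^ 2 - conj a * z) / ((R : ℂ) ^ 2 - conj a * w)) := by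
    simp only [bl]
    field_simp
  rw [hratio]
  refine norm_mul_sub_one_le ?_ ?_
  · have h1 : (w - a) / (z - a) - 1 = (w - z) / (z - a) := by field_simp; ring
    rw [h1, norm_div]
    refine le_trans ?_ le_exp_sub_one
    rw [div_le_iff₀ hzapos]
    calc ‖w - z‖ ≤ δ ^ 2 * R := hwz
      _ = δ * (δ * R) := by ring
      _ ≤ δ * ‖z - a‖ := by gcongr
  · have h1 : ((R : ℂ) ^ 2 - conj a * z) / ((R : ℂ) ^ 2 - conj a * w) - 1 =
        conj a * (w - z) / ((R : ℂ) ^ 2 - conj a * w) := by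
      field_simp; ring
    rw [h1, norm_div, norm_mul, Complex.norm_conj]
    have hlow : R ^ 2 / 2 ≤ ‖(R : ℂ) ^ 2 - conj a * w‖ := by
      have h2 : ‖(R : ℂ) ^ 2‖ - ‖conj a * w‖ ≤ ‖(R : ℂ) ^ 2 - conj a * w‖ := norm_sub_norm_le _ _
      have h3 : ‖(R : ℂ) ^ 2‖ = R ^ 2 := by simp
      have h4 : ‖conj a * w‖ ≤ R / 2 * (R / 8) := by
        rw [norm_mul, Complex.norm_conj]
        exact mul_le_mul ha hw (norm_nonneg _) (by positivity)
      nlinarith
    have hpos : 0 < ‖(R : ℂ) ^ 2 - conj a * w‖ := norm_pos_iff.2 hdw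
    refine le_trans ?_ le_exp_sub_one
    rw [div_le_iff₀ hpos]
    calc ‖a‖ * ‖w - z‖ ≤ R / 2 * (δ ^ 2 * R) := by gcongr
      _ = δ ^ 2 * (R ^ 2 / 2) := by ring
      _ ≤ δ ^ 2 * ‖(R : ℂ) ^ 2 - conj a * w‖ := by gcongr

/-- **Local constancy**: off the `δ R`-neighbourhood of at most `N` points, an analytic function with
`M ≤ 2 ^ N m` is constant up to a relative error `exp (4 N δ) - 1` on discs of radius `δ² R`. -/
theorem local_const {R M m δ : ℝ} (hR : 0 < R) (hm : 0 < m) {N : ℕ} (hN : 1 ≤ N)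
    (hMN : M ≤ 2 ^ N * m) {c : ℂ} {f : ℂ → ℂ} (hf : DiffContOnCl ℂ f (ball c R))
    (hM : ∀ z ∈ closedBall c R, ‖f z‖ ≤ M) (hc : m ≤ ‖f c‖) (hδ : 0 < δ) (hδ1 : δ ≤ 1 / 8) :
    ∃ l : List ℂ, l.length ≤ N ∧ (∀ a ∈ l, ‖a - c‖ ≤ R / 2) ∧
      ∀ z, ‖z - c‖ ≤ R / 16 → (∀ a ∈ l, δ * R ≤ ‖z - a‖) → ∀ w, ‖w - z‖ ≤ δ ^ 2 * R →
        f z ≠ 0 ∧ ‖f w / f z - 1‖ ≤ Real.exp (4 * N * δ) - 1 := by
  have hM0 : 0 < M := lt_of_lt_of_le (lt_of_lt_of_le hm hc) (hM c (by simp [hR.le]))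
  set f' : ℂ → ℂ := fun w => f (c + w) with hf'
  have hmaps : MapsTo (fun w : ℂ => c + w) (ball 0 R) (ball c R) := by
    intro w hw
    simpa [mem_ball, dist_eq_norm] using hw
  have hf'd : DiffContOnCl ℂ f' (ball 0 R) := by
    refine hf.comp (g := fun w : ℂ => c + w) ?_ hmaps
    exact (by fun_prop : Differentiable ℂ (fun w : ℂ => c + w)).diffContOnCl
  have hf'M : ∀ z ∈ closedBall (0 : ℂ) R, ‖f' z‖ ≤ M := by
    intro z hz
    refine hM _ ?_
    simpa [mem_closedBall, dist_eq_norm] using hz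
  have hf'0 : m ≤ ‖f' 0‖ := by simpa [hf'] using hc
  have hne : f' 0 ≠ 0 := norm_pos_iff.1 (lt_of_lt_of_le hm hf'0)
  have h2N : (0 : ℝ) < 2 ^ N := by positivity
  have hlt : M < 2 ^ (N + 1) * ‖f' 0‖ := by
    calc M ≤ 2 ^ N * m := hMN
      _ < 2 ^ (N + 1) * m := by
        rw [pow_succ]; nlinarith [mul_pos h2N hm]
      _ ≤ 2 ^ (N + 1) * ‖f' 0‖ := by gcongr
  obtain ⟨l, h, hl, hla, hh, hhM, hhz, hh0, hfac⟩ :=
    exists_factorization hR N hf'd hf'M hne hlt
  refine ⟨l.map (fun a => c + a), by simpa using hl, ?_, ?_⟩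
  · intro a ha
    obtain ⟨b, hb, rfl⟩ := List.mem_map.1 ha
    simpa using hla b hb
  intro z hz hza w hwz
  have hδsq : δ ^ 2 ≤ 1 / 64 := by nlinarith
  have hδR : δ ^ 2 * R ≤ R / 16 := by
    calc δ ^ 2 * R ≤ 1 / 64 * R := by gcongr
      _ ≤ R / 16 := by linarith
  set z' := z - c with hz'
  set w' := w - c with hw'
  have hz'n : ‖z'‖ ≤ R / 8 := by linarith
  have hw'n : ‖w'‖ ≤ R / 8 := by
    have : w' = (w - z) + z' := by rw [hw', hz']; ring
    rw [this]
    refine (norm_add_le _ _).trans ?_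
    linarith
  have hwz' : ‖w' - z'‖ ≤ δ ^ 2 * R := by
    have : w' - z' = w - z := by rw [hw', hz']; ring
    rw [this]; exact hwz
  have hza' : ∀ a ∈ l, δ * R ≤ ‖z' - a‖ := by
    intro a ha
    have := hza (c + a) (List.mem_map.2 ⟨a, ha, rfl⟩)
    have h3 : z - (c + a) = z' - a := by rw [hz']; ring
    rwa [h3] at this
  have hm0 : m ≤ ‖h 0‖ := by
    refine hf'0.trans (le_trans ?_ hh0)
    have : (1 : ℝ) ≤ 2 ^ l.length := one_le_pow₀ (by norm_num)
    nlinarith [norm_nonneg (f' 0)]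
  have hMx : M ≤ Real.exp N * ‖h 0‖ := by
    have h1 : (2 : ℝ) ^ N ≤ Real.exp N := by
      have h2 : (2 : ℝ) ≤ Real.exp 1 := by
        have := Real.add_one_le_exp (1 : ℝ); linarith
      calc (2 : ℝ) ^ N ≤ (Real.exp 1) ^ N := by gcongr
        _ = Real.exp N := by rw [← Real.exp_nat_mul]; simp
    calc M ≤ 2 ^ N * m := hMN
      _ ≤ Real.exp N * ‖h 0‖ := by gcongr
  have hsubR : ball (0 : ℂ) (R / 2) ⊆ ball 0 R := ball_subset_ball (by linarith)
  have hosc := zero_free_osc (r := R / 2) (by linarith) (hh.differentiableOn.mono hsubR)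
    (fun u hu => hhM u (ball_subset_closedBall (hsubR hu)))
    (fun u hu => hhz u (ball_subset_closedBall hu)) (x := N) (by exact_mod_cast hN) hMx
    (z := z') (w := w') (by linarith) (by linarith)
  have hosc' : ‖h w' / h z' - 1‖ ≤ Real.exp (16 * N * δ ^ 2) - 1 := by
    refine hosc.trans ?_
    have : 8 * (N : ℝ) / (R / 2) * ‖w' - z'‖ ≤ 16 * N * δ ^ 2 := by
      calc 8 * (N : ℝ) / (R / 2) * ‖w' - z'‖ ≤ 8 * (N : ℝ) / (R / 2) * (δ ^ 2 * R) := by gcongr
        _ = 16 * N * δ ^ 2 := by field_simp; ring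
    have := Real.exp_le_exp.2 this
    linarith
  have hprod : (l.map (fun a => bl R a z')).prod ≠ 0 ∧
      ‖(l.map (fun a => bl R a w')).prod / (l.map (fun a => bl R a z')).prod - 1‖ ≤
        Real.exp (l.length * (δ + δ ^ 2)) - 1 := by
    clear hfac hh0 hl hza hm0 hosc hosc'
    induction l with
    | nil => simp
    | cons a l ih =>
      have ih' := ih (fun b hb => hla b (List.mem_cons_of_mem _ hb))
        (fun b hb => hza' b (List.mem_cons_of_mem _ hb))
      have hbl := bl_ratio hR hδ (hla a (by simp)) hz'n hw'n (hza' a (by simp)) hwz'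
      simp only [List.map_cons, List.prod_cons, List.length_cons]
      refine ⟨mul_ne_zero hbl.1 ih'.1, ?_⟩
      have h1 := norm_mul_sub_one_le hbl.2 ih'.2
      have h2 : bl R a w' / bl R a z' *
          ((l.map (fun a => bl R a w')).prod / (l.map (fun a => bl R a z')).prod) =
          bl R a w' * (l.map (fun a => bl R a w')).prod /
            (bl R a z' * (l.map (fun a => bl R a z')).prod) := by
        rw [div_mul_div_comm]
      rw [h2] at h1
      refine h1.trans (le_of_eq ?_)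
      push_cast
      congr 2
      ring
  have hfz : f z = h z' * (l.map (fun a => bl R a z')).prod := by
    have := hfac z' (by simp; linarith)
    rw [← this]; simp [hf', hz']
  have hfw : f w = h w' * (l.map (fun a => bl R a w')).prod := by
    have := hfac w' (by simp; linarith)
    rw [← this]; simp [hf', hw']
  have hhz' : h z' ≠ 0 := hhz z' (by simp; linarith)
  refine ⟨by rw [hfz]; exact mul_ne_zero hhz' hprod.1, ?_⟩
  have h1 := norm_mul_sub_one_le hosc' hprod.2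
  rw [div_mul_div_comm, ← hfz, ← hfw] at h1
  refine h1.trans ?_
  have hlN : (l.length : ℝ) ≤ N := by exact_mod_cast hl
  have h2 : 16 * (N : ℝ) * δ ^ 2 + l.length * (δ + δ ^ 2) ≤ 4 * N * δ := by
    have hN0 : (0 : ℝ) ≤ N := by positivity
    have h3 : δ ^ 2 ≤ δ / 8 := by nlinarith
    have h4 : (l.length : ℝ) * (δ + δ ^ 2) ≤ N * (δ + δ / 8) :=
      mul_le_mul hlN (by linarith) (by positivity) hN0
    have h5 : 16 * (N : ℝ) * δ ^ 2 ≤ 16 * N * (δ / 8) := by gcongr
    nlinarith [mul_nonneg hN0 hδ.le]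
  have := Real.exp_le_exp.2 h2
  linarith

/-- **Local constancy off a small set of real points.** -/
theorem local_const_real {R M m δ : ℝ} (hR : 0 < R) (hm : 0 < m) {N : ℕ} (hN : 1 ≤ N)
    (hMN : M ≤ 2 ^ N * m) {c : ℂ} {f : ℂ → ℂ} (hf : DiffContOnCl ℂ f (ball c R))
    (hM : ∀ z ∈ closedBall c R, ‖f z‖ ≤ M) (hc : m ≤ ‖f c‖) (hδ : 0 < δ) (hδ1 : δ ≤ 1 / 8) :
    ∃ E : Set ℝ, MeasurableSet E ∧ volume E ≤ ENNReal.ofReal (2 * N * δ * R) ∧
      ∀ x : ℝ, ‖(x : ℂ) - c‖ ≤ R / 16 → x ∉ E → ∀ w : ℂ, ‖w - x‖ ≤ δ ^ 2 * R →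
        f x ≠ 0 ∧ ‖f w / f x - 1‖ ≤ Real.exp (4 * N * δ) - 1 := by
  classical
  obtain ⟨l, hl, -, hlc⟩ := local_const hR hm hN hMN hf hM hc hδ hδ1
  refine ⟨⋃ a ∈ l.toFinset, ball (a.re) (δ * R), ?_, ?_, ?_⟩
  · exact Finset.measurableSet_biUnion _ fun a _ => measurableSet_ball
  · calc volume (⋃ a ∈ l.toFinset, ball (a.re) (δ * R))
        ≤ ∑ a ∈ l.toFinset, volume (ball (a.re) (δ * R)) := measure_biUnion_finset_le _ _
      _ = ∑ a ∈ l.toFinset, ENNReal.ofReal (2 * (δ * R)) := by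
          refine Finset.sum_congr rfl fun a _ => ?_
          rw [Real.volume_ball]
      _ = (l.toFinset.card : ℝ≥0∞) * ENNReal.ofReal (2 * (δ * R)) := by simp
      _ ≤ (N : ℝ≥0∞) * ENNReal.ofReal (2 * (δ * R)) := by
          gcongr
          exact (List.toFinset_card_le l).trans hl
      _ = ENNReal.ofReal (2 * N * δ * R) := by
          rw [← ENNReal.ofReal_natCast, ← ENNReal.ofReal_mul (by positivity)]
          congr 1; ring
  · intro x hx hxE w hw
    refine hlc x hx ?_ w hw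
    intro a ha
    by_contra hcon
    push Not at hcon
    refine hxE ?_
    simp only [mem_iUnion, exists_prop, List.mem_toFinset]
    refine ⟨a, ha, ?_⟩
    rw [mem_ball, Real.dist_eq]
    have := Complex.abs_re_le_norm ((x : ℂ) - a)
    simp only [Complex.sub_re, Complex.ofReal_re] at this
    linarith

end Crest.Agent.R128.CellA
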