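import Mathlib
import Crest.Agent.R128.CellB

set_option autoImplicit false

open MeasureTheory Filter Topology Metric
open Crest.Agent.R128 Crest.Agent.R128.Cell Crest.Agent.R128.CellB

/-!
Further bounds on un-stretched polydiscs: exit time, Lipschitz bounds (row 128, node CELL; helper421).
-/

namespace Crest.Agent.R128.CellB2

theorem entry_zero (k : ℝ) (n : ℕ) (q : ℂ × ℂ) (j : Fin 2) :
    Mc k (n + 1) q 0 j = Mc k n q 1 j := by
  rw [Mc_succ']
  simp [cAm, Matrix.mul_apply, Fin.sum_univ_two]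

theorem entry_one (k : ℝ) (n : ℕ) (q : ℂ × ℂ) (j : Fin 2) :
    Mc k (n + 1) q 1 j = cV k (X k n q) * Mc k n q 1 j - Mc k n q 0 j := by
  rw [Mc_succ']
  simp [cAm, Matrix.mul_apply, Fin.sum_univ_two, X]
  ring

/-- at the exit time all entries are `≤ (CV k + 1) * 8 / R` on the half polydisc -/
theorem entry_succ_le {k : ℝ} {n : ℕ} {p : ℂ × ℂ} {R : ℝ} (h : unst2 k n p R) (hR : 0 < R)
    (hR8 : R ≤ 8) {q : ℂ × ℂ} (hq : ‖q - p‖ ≤ R / 2) (i j : Fin 2) :
    ‖Mc k (n + 1) q i j‖ ≤ (CV k + 1) * (8 / R) := by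
  have h0 : 0 ≤ 8 / R := by positivity
  have hCV := CV_ge k
  have hqb : q ∈ ball p R := by
    rw [mem_ball, dist_eq_norm]
    linarith
  have e1 := h.entry_le hR hR8 (le_refl n) hq
  fin_cases i
  · show ‖Mc k (n + 1) q 0 j‖ ≤ _
    rw [entry_zero]
    refine (e1 1 j).trans ?_
    nlinarith
  · show ‖Mc k (n + 1) q 1 j‖ ≤ _
    rw [entry_one]
    refine (norm_sub_le _ _).trans ?_
    rw [norm_mul]
    have h3 := norm_cV_le k ((h q hqb).2 n le_rfl)
    have := mul_le_mul h3 (e1 1 j) (norm_nonneg _) (by linarith : 0 ≤ CV k)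
    have := e1 0 j
    linarith

theorem differentiable_Mc (k : ℝ) (n : ℕ) (i j : Fin 2) :
    Differentiable ℂ (fun q => Mc k n q i j) := by
  induction n generalizing i j with
  | zero =>
    simp only [Mc_zero]
    exact differentiable_const _
  | succ n ih =>
    fin_cases i
    · show Differentiable ℂ (fun q => Mc k (n + 1) q 0 j)
      simp only [entry_zero]
      exact ih 1 j
    · show Differentiable ℂ (fun q => Mc k (n + 1) q 1 j)
      simp only [entry_one]
      have hV : Differentiable ℂ (fun q => cV k (X k n q)) := by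
        have : Differentiable ℂ (cV k) := fun z => (hasDerivAt_cV k z).differentiableAt
        exact this.comp (differentiable_X k n)
      exact (hV.mul (ih 1 j)).sub (ih 0 j)

/-- Cauchy: a holomorphic function bounded by `B` on the half polydisc is `16 B / R`-Lipschitz on
the quarter polydisc -/
theorem lipschitz_of_bounded {F : ℂ × ℂ → ℂ} {p : ℂ × ℂ} {R B : ℝ} (hR : 0 < R) (hB : 0 < B)
    (hF : Differentiable ℂ F) (hb : ∀ q, ‖q - p‖ ≤ R / 2 → ‖F q‖ ≤ B) {q q' : ℂ × ℂ}
    (hq : ‖q - p‖ ≤ R / 4) (hq' : ‖q' - p‖ ≤ R / 4) : ‖F q - F q'‖ ≤ 16 * B / R * ‖q - q'‖ := by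
  have hc : Convex ℝ (closedBall p (R / 4)) := convex_closedBall _ _
  have hd : ∀ z ∈ closedBall p (R / 4), ‖fderiv ℂ F z‖ ≤ 16 * B / R := by
    intro z hz
    have hz' : ‖z - p‖ ≤ R / 4 := by simpa [dist_eq_norm] using hz
    have := CellA.norm_fderiv_le_of_im (F := F) (p := z) (R := R / 4) (B := B) (by positivity) hB
      hF.differentiableOn (fun w hw => by
        rw [mem_ball, dist_eq_norm] at hw
        refine (Complex.abs_im_le_norm _).trans (hb w ?_)
        calc ‖w - p‖ = ‖(w - z) + (z - p)‖ := by rw [sub_add_sub_cancel]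
          _ ≤ ‖w - z‖ + ‖z - p‖ := norm_add_le _ _
          _ ≤ R / 2 := by linarith)
    refine this.trans (le_of_eq ?_)
    field_simp
    ring
  have := hc.norm_image_sub_le_of_norm_fderivWithin_le (𝕜 := ℂ) (f := F) (C := 16 * B / R)
    (hF.differentiableOn) (fun z hz => ?_)
    (show q' ∈ closedBall p (R / 4) by simpa [dist_eq_norm] using hq')
    (show q ∈ closedBall p (R / 4) by simpa [dist_eq_norm] using hq)
  · exact this
  · have hu : UniqueDiffWithinAt ℂ (closedBall p (R / 4)) z := by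
      have h1 : UniqueDiffWithinAt ℝ (closedBall p (R / 4)) z :=
        (uniqueDiffOn_convex hc (by
          rw [interior_closedBall _ (by positivity)]
          exact ⟨p, mem_ball_self (by positivity)⟩)) z hz
      exact h1.mono_field
    rw [(hF z).fderivWithin hu]
    exact hd z hz

/-- Lipschitz bound of all cocycle entries inside the window -/
theorem entry_sub_le {k : ℝ} {n : ℕ} {p : ℂ × ℂ} {R : ℝ} (h : unst2 k n p R) (hR : 0 < R)
    (hR8 : R ≤ 8) {m : ℕ} (hm : m ≤ n) {q q' : ℂ × ℂ} (hq : ‖q - p‖ ≤ R / 4)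
    (hq' : ‖q' - p‖ ≤ R / 4) (i j : Fin 2) :
    ‖Mc k m q i j - Mc k m q' i j‖ ≤ 128 / R ^ 2 * ‖q - q'‖ := by
  have := lipschitz_of_bounded (F := fun q => Mc k m q i j) (p := p) (R := R) (B := 8 / R) hR
    (by positivity) (differentiable_Mc k m i j) (fun z hz => h.entry_le hR hR8 hm hz i j) hq hq'
  refine this.trans (le_of_eq ?_)
  field_simp
  ring

/-- Lipschitz bound of all cocycle entries at the exit time -/
theorem entry_succ_sub_le {k : ℝ} {n : ℕ} {p : ℂ × ℂ} {R : ℝ} (h : unst2 k n p R) (hR : 0 < R)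
    (hR8 : R ≤ 8) {q q' : ℂ × ℂ} (hq : ‖q - p‖ ≤ R / 4)
    (hq' : ‖q' - p‖ ≤ R / 4) (i j : Fin 2) :
    ‖Mc k (n + 1) q i j - Mc k (n + 1) q' i j‖ ≤ (CV k + 1) * (128 / R ^ 2) * ‖q - q'‖ := by
  have hCV := CV_ge k
  have := lipschitz_of_bounded (F := fun q => Mc k (n + 1) q i j) (p := p) (R := R)
    (B := (CV k + 1) * (8 / R)) hR (by positivity) (differentiable_Mc k (n + 1) i j)
    (fun z hz => entry_succ_le h hR hR8 hz i j) hq hq'
  refine this.trans (le_of_eq ?_)
  field_simp
  ring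

/-- Lipschitz bound of the transfer matrices inside the window -/
theorem transfer_sub_le {k : ℝ} {n : ℕ} {p : ℂ × ℂ} {R : ℝ} (h : unst2 k n p R) (hR : 0 < R)
    (hR8 : R ≤ 8) {a b : ℕ} (hab : a ≤ b) (hb : b ≤ n) {q q' : ℂ × ℂ} (hq : ‖q - p‖ ≤ R / 4)
    (hq' : ‖q' - p‖ ≤ R / 4) (i j : Fin 2) :
    ‖Mc k (b - a) (corb k a q) i j - Mc k (b - a) (corb k a q') i j‖ ≤
      2048 / R ^ 3 * ‖q - q'‖ := by
  have hd : Differentiable ℂ (fun q => Mc k (b - a) (corb k a q) i j) :=
    (differentiable_Mc k (b - a) i j).comp (differentiable_corb k a)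
  have := lipschitz_of_bounded (F := fun q => Mc k (b - a) (corb k a q) i j) (p := p) (R := R)
    (B := 128 / R ^ 2) hR (by positivity) hd
    (fun z hz => h.transfer_le hR hR8 hab hb hz i j) hq hq'
  refine this.trans (le_of_eq ?_)
  field_simp
  ring

/-- some point of the polydisc leaves the strip at the exit time, so by the mean value inequality
the derivative of `x_{n+1}` is at least `1 / R` in operator norm somewhere on the polydisc -/
theorem exists_large_of_exit {k : ℝ} {n : ℕ} {p : ℝ × ℝ} {R : ℝ} (hR : 0 < R)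
    (h : unst2 k n (toC p) R) (hex : ¬ unst2 k (n + 1) (toC p) R) :
    ∃ q ∈ ball (toC p) R, 1 / R ≤ ‖fderiv ℂ (X k (n + 1)) q‖ := by
  by_contra hcon
  push Not at hcon
  apply hex
  intro q hq
  refine ⟨(h q hq).1, fun m hm => ?_⟩
  rcases Nat.lt_or_ge m (n + 1) with h1 | h1
  · exact (h q hq).2 m (by omega)
  · have hm' : m = n + 1 := le_antisymm hm h1
    subst hm'
    have hc : Convex ℝ (ball (toC p) R) := convex_ball _ _
    have hmv := hc.norm_image_sub_le_of_norm_fderivWithin_le (𝕜 := ℂ) (f := X k (n + 1))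
      (C := 1 / R) ((differentiable_X k (n + 1)).differentiableOn) (fun z hz => by
        have hu : UniqueDiffWithinAt ℂ (ball (toC p) R) z := isOpen_ball.uniqueDiffWithinAt hz
        rw [((differentiable_X k (n + 1)) z).fderivWithin hu]
        exact (hcon z hz).le) (mem_ball_self hR) hq
    have h0 : (X k (n + 1) (toC p)).im = 0 := by
      rw [X_toC]
      simp
    have h2 : |(X k (n + 1) q - X k (n + 1) (toC p)).im| ≤ ‖X k (n + 1) q - X k (n + 1) (toC p)‖ :=
      Complex.abs_im_le_norm _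
    rw [Complex.sub_im, h0, sub_zero] at h2
    refine h2.trans (hmv.trans ?_)
    rw [mem_ball, dist_eq_norm] at hq
    rw [div_mul_eq_mul_div, one_mul, div_le_one hR]
    exact hq.le

end Crest.Agent.R128.CellB2
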