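import Mathlib
import Crest.Agent.R128.BVP7

set_option autoImplicit false

open scoped BigOperators NNReal ENNReal
open Finset MeasureTheory Topology Filter
open Crest.Agent.R128 Crest.Agent.R128.BVP

/-!
Unit cells (row 128, node N3-CELL-REV; helper421): left boundary of an orbit segment fixed, right
boundary moved over a unit interval.
-/

namespace Crest.Agent.R128.CellRev

variable {n : ℕ} {f V : ℝ → ℝ} {M C ε : ℝ}

/-- difference of two orbits with the same left boundary in the box of a reference orbit -/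
theorem orb_diff_right {p q : ℕ → ℝ} (hM : 0 ≤ M) (hNL : NL f V M) (x : ℕ → ℝ)
    (J : Jac n (fun m => V (x m)) p q) (w rho : ℕ → ℝ) (hε : ε ≤ 1 / 4)
    (hrho : ∀ m ∈ Icc 1 n, 0 < rho m)
    (hprho : ∀ m ∈ Icc 1 n, |p m / p (n + 1)| ≤ rho m)
    (hsr : ∀ m ∈ Icc 1 n, ∑ j ∈ Icc 1 n, |K n p q m j| * (M * w j) * rho j ≤ ε * rho m)
    (y z : ℕ → ℝ) (hy : Orb n f y) (hz : Orb n f z)
    (hyx : ∀ m ∈ Icc 1 n, |y m - x m| ≤ w m) (hzx : ∀ m ∈ Icc 1 n, |z m - x m| ≤ w m)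
    (h0 : y 0 = z 0) :
    ∀ m ∈ Icc 1 n, |z m - y m| ≤ 2 * (rho m * |z (n + 1) - y (n + 1)|) ∧
      |(z m - y m) - p m * (z (n + 1) - y (n + 1)) / p (n + 1)| ≤
        2 * ε * (rho m * |z (n + 1) - y (n + 1)|) := by
  set L : ℝ := ∑ m ∈ Icc 1 n, |q m / p (n + 1)| / rho m with hL
  have hterm : ∀ m ∈ Icc 1 n, 0 ≤ |q m / p (n + 1)| / rho m := fun m hm =>
    div_nonneg (abs_nonneg _) (hrho m hm).le
  have hL0 : 0 ≤ L := Finset.sum_nonneg hterm
  have hql : ∀ m ∈ Icc 1 n, |q m / p (n + 1)| ≤ L * rho m := by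
    intro m hm
    have h1 : |q m / p (n + 1)| / rho m ≤ L := Finset.single_le_sum hterm hm
    rwa [div_le_iff₀ (hrho m hm)] at h1
  intro m hm
  have h := orb_diff hM hNL x J w rho (fun m => L * rho m) ε hε hrho hprho hql hsr ?_ y z hy hz hyx hzx m hm
  · have e0 : z 0 - y 0 = 0 := by rw [h0, sub_self]
    rw [e0, abs_zero, mul_zero, add_zero, mul_zero, zero_add] at h
    exact h
  · intro m hm
    have h1 := mul_le_mul_of_nonneg_left (hsr m hm) hL0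
    rw [Finset.mul_sum] at h1
    calc ∑ j ∈ Icc 1 n, |K n p q m j| * (M * w j) * (L * rho j)
        = ∑ j ∈ Icc 1 n, L * (|K n p q m j| * (M * w j) * rho j) :=
          Finset.sum_congr rfl fun j _ => by ring
      _ ≤ L * (ε * rho m) := h1
      _ = ε * (L * rho m) := by ring

/-- Numerical hypotheses for a unit cell at the right end: `w` = box, responses to the right boundary. -/
structure CG (n : ℕ) (f V : ℝ → ℝ) (M C ε : ℝ) (x p q w : ℕ → ℝ) : Prop where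
  orb : Orb n f x
  jac : Jac n (fun m => V (x m)) p q
  wpos : ∀ m ∈ Icc 1 n, 0 < w m
  hpw : ∀ m ∈ Icc 1 n, |p m / p (n + 1)| ≤ w m / 4
  hsw : ∀ m ∈ Icc 1 n, ∑ j ∈ Icc 1 n, |K n p q m j| * M * w j ^ 2 ≤ ε * w m
  w1 : w 1 ≤ C * |1 / p (n + 1)|

theorem CG.exists {x p q w : ℕ → ℝ} (G : CG n f V M C ε x p q w) (hM : 0 ≤ M) (hNL : NL f V M)
    (hε : ε ≤ 1 / 4) (r : ℝ) (hr : |r - x (n + 1)| ≤ 3 / 2) :
    ∃ z : ℕ → ℝ, Orb n f z ∧ z 0 = x 0 ∧ z (n + 1) = r ∧ ∀ m ∈ Icc 1 n, |z m - x m| ≤ 3 / 4 * w m := by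
  obtain ⟨z, h1, h2, h3, h4⟩ := orb_exists hM hNL x G.orb G.jac w G.wpos (fun m hm => by
      refine (G.hsw m hm).trans ?_
      have := G.wpos m hm
      nlinarith) 0 (r - x (n + 1)) (fun m hm => by
      have e : (q m * 0 + p m * (r - x (n + 1))) / p (n + 1) = (p m / p (n + 1)) * (r - x (n + 1)) := by
        ring
      rw [e, abs_mul]
      have h1 := G.hpw m hm
      have h2 := G.wpos m hm
      calc |p m / p (n + 1)| * |r - x (n + 1)| ≤ (w m / 4) * (3 / 2) :=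
            mul_le_mul h1 hr (abs_nonneg _) (by linarith)
        _ ≤ w m / 2 := by linarith)
  refine ⟨z, h1, by rw [h2, add_zero], by rw [h3]; ring, h4⟩

theorem CG.diff {x p q w : ℕ → ℝ} (G : CG n f V M C ε x p q w) (hM : 0 ≤ M) (hNL : NL f V M)
    (hε : ε ≤ 1 / 4) (y z : ℕ → ℝ) (hy : Orb n f y) (hz : Orb n f z)
    (hyx : ∀ m ∈ Icc 1 n, |y m - x m| ≤ w m) (hzx : ∀ m ∈ Icc 1 n, |z m - x m| ≤ w m)
    (h0 : y 0 = z 0) :
    ∀ m ∈ Icc 1 n, |z m - y m| ≤ w m / 2 * |z (n + 1) - y (n + 1)| ∧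
      |(z m - y m) - p m * (z (n + 1) - y (n + 1)) / p (n + 1)| ≤
        ε * w m / 2 * |z (n + 1) - y (n + 1)| := by
  intro m hm
  have h := orb_diff_right hM hNL x G.jac w (fun m => w m / 4) hε
    (fun m hm => by have := G.wpos m hm; linarith) G.hpw (fun m hm => by
      have h1 := G.hsw m hm
      have e : ∑ j ∈ Icc 1 n, |K n p q m j| * (M * w j) * (w j / 4) =
        (∑ j ∈ Icc 1 n, |K n p q m j| * M * w j ^ 2) / 4 := by
        rw [Finset.sum_div]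
        refine Finset.sum_congr rfl fun j _ => by ring
      rw [e]
      linarith) y z hy hz hyx hzx h0 m hm
  refine ⟨h.1.trans (le_of_eq (by ring)), h.2.trans (le_of_eq (by ring))⟩

/-- the first coordinate responds almost linearly -/
theorem CG.first {x p q w : ℕ → ℝ} (hn : 1 ≤ n) (G : CG n f V M C ε x p q w) (hM : 0 ≤ M)
    (hNL : NL f V M) (hε : ε ≤ 1 / 4) (hε0 : 0 ≤ ε) (hεC : ε * C ≤ 1 / 4) (y z : ℕ → ℝ)
    (hy : Orb n f y) (hz : Orb n f z)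
    (hyx : ∀ m ∈ Icc 1 n, |y m - x m| ≤ w m) (hzx : ∀ m ∈ Icc 1 n, |z m - x m| ≤ w m)
    (h0 : y 0 = z 0) :
    |(z 1 - y 1) - (z (n + 1) - y (n + 1)) / p (n + 1)| ≤
      1 / 8 * (|z (n + 1) - y (n + 1)| / |p (n + 1)|) := by
  have hm : 1 ∈ Icc 1 n := by rw [Finset.mem_Icc]; omega
  have h := (G.diff hM hNL hε y z hy hz hyx hzx h0 1 hm).2
  rw [G.jac.p1, one_mul] at h
  refine h.trans ?_
  have h1 := G.w1
  rw [abs_div, abs_one] at h1
  have h2 : 0 ≤ |z (n + 1) - y (n + 1)| := abs_nonneg _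
  have h3 : 0 < |p (n + 1)| := abs_pos.mpr G.jac.W0
  have h4 : ε * w 1 / 2 ≤ 1 / 8 * (1 / |p (n + 1)|) := by
    have h5 := mul_le_mul_of_nonneg_left h1 hε0
    have h6 : ε * (C * (1 / |p (n + 1)|)) ≤ 1 / 4 * (1 / |p (n + 1)|) := by
      rw [← mul_assoc]
      exact mul_le_mul_of_nonneg_right hεC (by positivity)
    linarith
  calc ε * w 1 / 2 * |z (n + 1) - y (n + 1)| ≤ 1 / 8 * (1 / |p (n + 1)|) * |z (n + 1) - y (n + 1)| :=
        mul_le_mul_of_nonneg_right h4 h2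
    _ = 1 / 8 * (|z (n + 1) - y (n + 1)| / |p (n + 1)|) := by ring

/-- **The unit cell.**  For every `r` within `1` of `x_{n+1}` the orbit with left boundary `x_0` and right
boundary `r`; `h r` = its first point, `g r` = its point number `n`. -/
theorem CG.cell {x p q w : ℕ → ℝ} (hn : 1 ≤ n) (G : CG n f V M C ε x p q w) (hM : 0 ≤ M)
    (hNL : NL f V M) (hε : ε ≤ 1 / 4) (hε0 : 0 ≤ ε) (hεC : ε * C ≤ 1 / 4) :
    ∃ Z : ℝ → ℕ → ℝ,
      (∀ r, |r - x (n + 1)| ≤ 3 / 2 → Orb n f (Z r) ∧ Z r 0 = x 0 ∧ Z r (n + 1) = r ∧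
        ∀ m ∈ Icc 1 n, |Z r m - x m| ≤ 3 / 4 * w m) ∧
      (∀ m ≤ n + 1, Z (x (n + 1)) m = x m) ∧
      (∀ r s, |r - x (n + 1)| ≤ 3 / 2 → |s - x (n + 1)| ≤ 3 / 2 →
        |(Z r 1 - Z s 1) - (r - s) / p (n + 1)| ≤ 1 / 8 * (|r - s| / |p (n + 1)|)) ∧
      (∀ r s, |r - x (n + 1)| ≤ 3 / 2 → |s - x (n + 1)| ≤ 3 / 2 → ∀ m ∈ Icc 1 n,
        |Z r m - Z s m| ≤ w m / 2 * |r - s|) := by
  classical
  choose! Z hZ using fun r hr => G.exists hM hNL hε r hr
  have hbox : ∀ r, |r - x (n + 1)| ≤ 3 / 2 → ∀ m ∈ Icc 1 n, |Z r m - x m| ≤ w m := by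
    intro r hr m hm
    have h1 := (hZ r hr).2.2.2 m hm
    have h2 := G.wpos m hm
    linarith
  refine ⟨Z, hZ, ?_, ?_, ?_⟩
  · have hr : |x (n + 1) - x (n + 1)| ≤ 3 / 2 := by rw [sub_self, abs_zero]; norm_num
    have h := hZ (x (n + 1)) hr
    have hd := G.first hn hM hNL hε hε0 hεC x (Z (x (n + 1))) G.orb h.1
      (fun m hm => by rw [sub_self, abs_zero]; exact (G.wpos m hm).le) (hbox _ hr) h.2.1.symm
    rw [h.2.2.1, sub_self, abs_zero, zero_div, zero_div, mul_zero, sub_zero] at hd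
    have h1 : Z (x (n + 1)) 1 = x 1 := by
      have := abs_nonpos_iff.mp hd
      linarith
    exact orb_ext h.1 G.orb h.2.1 h1
  · intro r s hr hs
    have h1 := hZ r hr
    have h2 := hZ s hs
    have := G.first hn hM hNL hε hε0 hεC (Z s) (Z r) h2.1 h1.1 (hbox s hs) (hbox r hr)
      (by rw [h1.2.1, h2.2.1])
    rwa [h1.2.2.1, h2.2.2.1] at this
  · intro r s hr hs m hm
    have h1 := hZ r hr
    have h2 := hZ s hs
    have := (G.diff hM hNL hε (Z s) (Z r) h2.1 h1.1 (hbox s hs) (hbox r hr)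
      (by rw [h1.2.1, h2.2.1]) m hm).1
    rwa [h1.2.2.1, h2.2.2.1] at this

end Crest.Agent.R128.CellRev
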