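import Mathlib
import Crest.Agent.R128.Iter

/-! Row 128, node PAY-CHERNOFF (helper159). Sorry free.

Chernoff version of `Iter.attempts`: the set `E` (arbitrary, no measurability) and the predicate
`G t n` ("level `n` is good for `t`") only satisfy the WEAK hypothesis that the hull of the points
of `E` which are good AT THAT LEVEL covers at most a proportion `q` of the cell.  Points of `E`
with a bad level are not restricted at all at this level.  If every point of `E` has at least `s`
good levels among `n, n+g, ..., n+g(N-1)` then `y^s * vol (E ∩ cell) ≤ (1 + y q)^N * vol cell`. -/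

set_option autoImplicit false
open MeasureTheory Set
open scoped ENNReal

namespace Crest.Agent.R128.Cher

open Crest.Agent.R128.Iter

/-- number of good levels among `n, n+g, …, n+g(N-1)` -/
noncomputable def cnt (G : ℝ → ℕ → Prop) (g : ℕ) (t : ℝ) (n : ℕ) : ℕ → ℕ
  | 0 => 0
  | N + 1 => by
      classical
      exact (if G t n then 1 else 0) + cnt G g t (n + g) N

theorem cnt_zero (G : ℝ → ℕ → Prop) (g : ℕ) (t : ℝ) (n : ℕ) : cnt G g t n 0 = 0 := by
  unfold cnt; rfl

theorem cnt_succ_pos {G : ℝ → ℕ → Prop} {g : ℕ} {t : ℝ} {n N : ℕ} (h : G t n) :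
    cnt G g t n (N + 1) = 1 + cnt G g t (n + g) N := by
  rw [cnt]; simp [h]

theorem cnt_succ_neg {G : ℝ → ℕ → Prop} {g : ℕ} {t : ℝ} {n N : ℕ} (h : ¬ G t n) :
    cnt G g t n (N + 1) = cnt G g t (n + g) N := by
  rw [cnt]; simp [h]

/-- `cnt` as the cardinality of a filter. -/
theorem cnt_eq_card (G : ℝ → ℕ → Prop) [∀ t n, Decidable (G t n)] (g : ℕ) (t : ℝ) (n N : ℕ) :
    cnt G g t n N = ((Finset.range N).filter fun i => G t (n + g * i)).card := by
  induction N generalizing n with
  | zero => simp [cnt_zero]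
  | succ N ih =>
    have hcard : ((Finset.range (N + 1)).filter fun i => G t (n + g * i)).card =
        (if G t n then 1 else 0) + ((Finset.range N).filter fun i => G t (n + g + g * i)).card := by
      have h1 : Finset.range (N + 1) = insert 0 ((Finset.range N).image Nat.succ) := by
        ext i
        simp only [Finset.mem_range, Finset.mem_insert, Finset.mem_image]
        constructor
        · intro hi
          rcases Nat.eq_zero_or_pos i with h | h
          · left; exact h
          · right; exact ⟨i - 1, by omega, by omega⟩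
        · rintro (rfl | ⟨a, ha, rfl⟩) <;> omega
      rw [h1, Finset.filter_insert]
      have h0 : (0 : ℕ) ∉ ((Finset.range N).image Nat.succ).filter fun i => G t (n + g * i) := by
        simp
      have h2 : (((Finset.range N).image Nat.succ).filter fun i => G t (n + g * i)).card =
          ((Finset.range N).filter fun i => G t (n + g + g * i)).card := by
        rw [Finset.filter_image, Finset.card_image_of_injective _ Nat.succ_injective]
        congr 1
        ext i
        simp only [Finset.mem_filter, Nat.succ_eq_add_one]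
        have : n + g * (i + 1) = n + g + g * i := by ring
        rw [this]
      by_cases hG : G t n
      · have hG' : G t (n + g * 0) := by simpa using hG
        rw [if_pos hG', if_pos hG, Finset.card_insert_of_notMem h0, h2]
        omega
      · have hG' : ¬ G t (n + g * 0) := by simpa using hG
        rw [if_neg hG', if_neg hG, h2]
        omega
    rw [hcard, ← ih (n + g)]
    by_cases hG : G t n
    · rw [cnt_succ_pos hG, if_pos hG]
    · rw [cnt_succ_neg hG, if_neg hG]; omega

/-- **Chernoff count.** -/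
theorem chernoff_aux {E : Set ℝ} {G : ℝ → ℕ → Prop} {g : ℕ} {q y : ℝ≥0∞} (hy : 1 ≤ y) :
    ∀ (N n : ℕ), (∀ i, i < N → ∀ m, volume (hull (n + g * i + g) {t ∈ E | G t (n + g * i)} ∩
        cell (n + g * i) m) ≤ q * volume (cell (n + g * i) m)) →
      ∀ (m : ℤ) (s : ℕ) (E' : Set ℝ), E' ⊆ E ∩ cell n m → (∀ t ∈ E', s ≤ cnt G g t n N) →
      y ^ s * volume E' ≤ (1 + y * q) ^ N * volume (cell n m) := by
  intro N
  induction N with
  | zero =>
    intro n _ m s E' hE' hs
    rcases E'.eq_empty_or_nonempty with rfl | ⟨t, ht⟩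
    · simp
    · have h := hs t ht
      rw [cnt_zero] at h
      obtain rfl : s = 0 := by omega
      rw [pow_zero, one_mul, pow_zero, one_mul]
      exact measure_mono fun u hu => (hE' hu).2
  | succ N ih =>
    intro n hatt m s E' hE' hs
    set A : Set ℝ := {t ∈ E' | G t n} with hA
    set B : Set ℝ := {t ∈ E' | ¬ G t n} with hB
    have hAB : E' ⊆ A ∪ B := by
      intro t ht
      by_cases h : G t n
      · exact Or.inl ⟨ht, h⟩
      · exact Or.inr ⟨ht, h⟩
    -- the hypothesis for the next levels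
    have hatt' : ∀ i, i < N → ∀ m, volume (hull (n + g + g * i + g)
        {t ∈ E | G t (n + g + g * i)} ∩ cell (n + g + g * i) m) ≤
        q * volume (cell (n + g + g * i) m) := by
      intro i hi m'
      have h := hatt (i + 1) (by omega) m'
      have e : n + g * (i + 1) = n + g + g * i := by ring
      rw [e] at h
      exact h
    have hatt0 : volume (hull (n + g) {t ∈ E | G t n} ∩ cell n m) ≤ q * volume (cell n m) := by
      have h := hatt 0 (by omega) m
      simpa using h
    -- covering by kids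
    have hcov : ∀ C : Set ℝ, C ⊆ E ∩ cell n m → C ⊆ ⋃ m' ∈ kids C n g m, (C ∩ cell (n + g) m') := by
      intro C hC u hu
      have hu' := hC hu
      rw [mem_iUnion₂]
      exact ⟨idx (n + g) u, mem_kids.2 ⟨idx_bounds hu'.2, ⟨u, mem_cell_idx _ _, hu⟩⟩,
        hu, mem_cell_idx _ _⟩
    have hsum : ∀ C : Set ℝ, C ⊆ E ∩ cell n m → ∀ (r : ℕ), (∀ t ∈ C, r ≤ cnt G g t (n + g) N) →
        y ^ r * volume C ≤ (1 + y * q) ^ N * volume (hull (n + g) C ∩ cell n m) := by
      intro C hC r hr
      calc y ^ r * volume C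
          ≤ y ^ r * volume (⋃ m' ∈ kids C n g m, (C ∩ cell (n + g) m')) := by
            gcongr; exact hcov C hC
        _ ≤ y ^ r * ∑ m' ∈ kids C n g m, volume (C ∩ cell (n + g) m') := by
            gcongr; exact measure_biUnion_finset_le _ _
        _ = ∑ m' ∈ kids C n g m, y ^ r * volume (C ∩ cell (n + g) m') := by
            rw [Finset.mul_sum]
        _ ≤ ∑ _m' ∈ kids C n g m, (1 + y * q) ^ N * ENNReal.ofReal (1 / 2 ^ (n + g)) := by
            refine Finset.sum_le_sum fun m' _ => ?_
            rw [← volume_cell (n + g) m']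
            refine ih (n + g) hatt' m' r _ ?_ ?_
            · rintro u ⟨hu, hu'⟩
              exact ⟨(hC hu).1, hu'⟩
            · rintro u ⟨hu, -⟩
              exact hr u hu
        _ = (1 + y * q) ^ N * volume (hull (n + g) C ∩ cell n m) := by
            rw [Finset.sum_const, nsmul_eq_mul, volume_hull_inter_cell]
            ring
    have hmono : ∀ {C D : Set ℝ}, C ⊆ D → hull (n + g) C ⊆ hull (n + g) D := by
      intro C D hCD t ht
      obtain ⟨u, hu1, hu2⟩ := ht
      exact ⟨u, hu1, hCD hu2⟩
    -- part A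
    have hA1 : y ^ s * volume A ≤ (y * q) * ((1 + y * q) ^ N * volume (cell n m)) := by
      have hAE : A ⊆ E ∩ cell n m := fun t ht => hE' ht.1
      have hr : ∀ t ∈ A, s - 1 ≤ cnt G g t (n + g) N := by
        rintro t ⟨ht, htG⟩
        have := hs t ht
        rw [cnt_succ_pos htG] at this
        omega
      have h := hsum A hAE (s - 1) hr
      have hle : y ^ s ≤ y * y ^ (s - 1) := by
        rcases Nat.eq_zero_or_pos s with rfl | hs0
        · simpa using hy
        · obtain ⟨s', rfl⟩ : ∃ s', s = s' + 1 := ⟨s - 1, by omega⟩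
          rw [Nat.add_sub_cancel, pow_succ, mul_comm]
      have hsub : hull (n + g) A ∩ cell n m ⊆ hull (n + g) {t ∈ E | G t n} ∩ cell n m := by
        apply inter_subset_inter_left
        apply hmono
        rintro t ⟨ht, htG⟩
        exact ⟨(hE' ht).1, htG⟩
      calc y ^ s * volume A ≤ y * y ^ (s - 1) * volume A := by gcongr
        _ = y * (y ^ (s - 1) * volume A) := by ring
        _ ≤ y * ((1 + y * q) ^ N * volume (hull (n + g) A ∩ cell n m)) := by gcongr
        _ ≤ y * ((1 + y * q) ^ N * volume (hull (n + g) {t ∈ E | G t n} ∩ cell n m)) := by gcongr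
        _ ≤ y * ((1 + y * q) ^ N * (q * volume (cell n m))) := by gcongr
        _ = (y * q) * ((1 + y * q) ^ N * volume (cell n m)) := by ring
    -- part B
    have hB1 : y ^ s * volume B ≤ (1 + y * q) ^ N * volume (cell n m) := by
      have hBE : B ⊆ E ∩ cell n m := fun t ht => hE' ht.1
      have hr : ∀ t ∈ B, s ≤ cnt G g t (n + g) N := by
        rintro t ⟨ht, htG⟩
        have := hs t ht
        rwa [cnt_succ_neg htG] at this
      refine (hsum B hBE s hr).trans ?_
      gcongr
      exact inter_subset_right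
    calc y ^ s * volume E' ≤ y ^ s * (volume A + volume B) := by
          gcongr
          exact (measure_mono hAB).trans (measure_union_le _ _)
      _ = y ^ s * volume A + y ^ s * volume B := by ring
      _ ≤ (y * q) * ((1 + y * q) ^ N * volume (cell n m)) +
          (1 + y * q) ^ N * volume (cell n m) := add_le_add hA1 hB1
      _ = (1 + y * q) ^ (N + 1) * volume (cell n m) := by ring

/-- **Chernoff count**, for one cell. -/
theorem chernoff {E : Set ℝ} {G : ℝ → ℕ → Prop} {g : ℕ} {q y : ℝ≥0∞} (hy : 1 ≤ y) {N n : ℕ}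
    (hatt : ∀ i, i < N → ∀ m, volume (hull (n + g * i + g) {t ∈ E | G t (n + g * i)} ∩
        cell (n + g * i) m) ≤ q * volume (cell (n + g * i) m))
    (m : ℤ) {s : ℕ} (hs : ∀ t ∈ E ∩ cell n m, s ≤ cnt G g t n N) :
    y ^ s * volume (E ∩ cell n m) ≤ (1 + y * q) ^ N * volume (cell n m) :=
  chernoff_aux hy N n hatt m s _ Subset.rfl hs

/-- Numerical form, real parameters: `q = 1 - c`, number of good levels at least `N - b`, where
`b * L ≤ N`, with `L` so large that `(1 - 3c/4) * (4/c)^(1/L) ≤ 1 - c/2` — stated without real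
powers as `(4/c) * (1 - 3*c/4)^L ≤ (1 - c/2)^L`. -/
theorem chernoff_real {E : Set ℝ} {G : ℝ → ℕ → Prop} {g : ℕ} {c : ℝ} (hc : 0 < c) (hc1 : c ≤ 1)
    {N n b L : ℕ} (hbL : b * L ≤ N) (hbN : b ≤ N)
    (hL : (4 / c) * (1 - 3 * c / 4) ^ L ≤ (1 - c / 2) ^ L)
    (hatt : ∀ i, i < N → ∀ m, volume (hull (n + g * i + g) {t ∈ E | G t (n + g * i)} ∩
        cell (n + g * i) m) ≤ ENNReal.ofReal (1 - c) * volume (cell (n + g * i) m))
    (m : ℤ) (hs : ∀ t ∈ E ∩ cell n m, N ≤ cnt G g t n N + b) :
    volume (E ∩ cell n m) ≤ ENNReal.ofReal ((1 - c / 2) ^ N) * volume (cell n m) := by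
  have hy0 : (0:ℝ) < 4 / c := by positivity
  have hy1 : (1:ℝ) ≤ 4 / c := by
    rw [le_div_iff₀ hc]; linarith
  have hy : (1:ℝ≥0∞) ≤ ENNReal.ofReal (4 / c) := by
    rw [← ENNReal.ofReal_one]; exact ENNReal.ofReal_le_ofReal hy1
  have h := chernoff (s := N - b) hy hatt m (fun t ht => by have := hs t ht; omega)
  have h1c : (0:ℝ) ≤ 1 - c := by linarith
  have e1 : (1:ℝ≥0∞) + ENNReal.ofReal (4 / c) * ENNReal.ofReal (1 - c) =
      ENNReal.ofReal (1 + 4 / c * (1 - c)) := by
    rw [← ENNReal.ofReal_mul hy0.le, ENNReal.ofReal_add zero_le_one (mul_nonneg hy0.le h1c),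
      ENNReal.ofReal_one]
  have hpos1 : (0:ℝ) ≤ 1 + 4 / c * (1 - c) := by
    have := mul_nonneg hy0.le h1c
    linarith
  rw [e1, ← ENNReal.ofReal_pow hy0.le, ← ENNReal.ofReal_pow hpos1] at h
  -- real inequality
  have hA : (1 + 4 / c * (1 - c)) = (4 / c) * (1 - 3 * c / 4) := by
    field_simp
    ring
  have hq0 : (0:ℝ) ≤ 1 - 3 * c / 4 := by linarith
  have hq1 : (1 - 3 * c / 4) ≤ 1 - c / 2 := by linarith
  have hq2 : (0:ℝ) < 1 - c / 2 := by linarith
  have hreal : (1 + 4 / c * (1 - c)) ^ N ≤ (4 / c) ^ (N - b) * (1 - c / 2) ^ N := by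
    rw [hA, mul_pow]
    have e2 : (4 / c) ^ N = (4 / c) ^ (N - b) * (4 / c) ^ b := by
      rw [← pow_add]; congr 1; omega
    rw [e2, mul_assoc]
    refine mul_le_mul_of_nonneg_left ?_ (by positivity)
    -- (4/c)^b (1-3c/4)^N ≤ (1-c/2)^N
    obtain ⟨r, rfl⟩ : ∃ r, N = b * L + r := ⟨N - b * L, by omega⟩
    calc (4 / c) ^ b * (1 - 3 * c / 4) ^ (b * L + r)
        = ((4 / c) * (1 - 3 * c / 4) ^ L) ^ b * (1 - 3 * c / 4) ^ r := by
          rw [mul_pow, pow_add, mul_comm b L, pow_mul]; ring
      _ ≤ ((1 - c / 2) ^ L) ^ b * (1 - c / 2) ^ r := by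
          gcongr
      _ = (1 - c / 2) ^ (b * L + r) := by
          rw [pow_add, mul_comm b L, pow_mul]
  have hYne : ENNReal.ofReal ((4 / c) ^ (N - b)) ≠ 0 := by
    rw [Ne, ENNReal.ofReal_eq_zero, not_le]; positivity
  have hYtop : ENNReal.ofReal ((4 / c) ^ (N - b)) ≠ ∞ := ENNReal.ofReal_ne_top
  have h2 : ENNReal.ofReal ((4 / c) ^ (N - b)) * volume (E ∩ cell n m) ≤
      ENNReal.ofReal ((4 / c) ^ (N - b)) *
        (ENNReal.ofReal ((1 - c / 2) ^ N) * volume (cell n m)) := by
    refine h.trans ?_
    rw [← mul_assoc, ← ENNReal.ofReal_mul (by positivity)]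
    gcongr
  exact (ENNReal.mul_le_mul_iff_right hYne hYtop).1 h2

end Crest.Agent.R128.Cher
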