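import Crest.Agent.R128.Chain
import Crest.Agent.R128.Disp
import Crest.Agent.R128.Coc

/-!
Row 128, node N3-CPLX: the backward path from the foot `n` to the tip `0` is clean
(`E m = ‖A_{m→n}‖`, `(E m)^(1-b) ≤ E l` for `l ≤ m`, `∑ (E m)^(-δ) ≤ K`) ⇒ the sum `Sg` of the
displacement lemma `Disp.disp_le` is at most a constant times `E 0`.
-/

set_option autoImplicit false

open Finset Crest.Agent.R128.TreeSum Crest.Agent.R128.Disp

namespace Crest.Agent.R128.CleanDisp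

/-- numeric core -/
theorem Sg_le {w : ℕ → ℝ × ℝ} {n : ℕ} {E : ℕ → ℝ} {A U c0 K b δ γ : ℝ}
    (hA : 1 ≤ A) (hU : 0 ≤ U) (hc0 : 0 < c0) (hb1 : b < 1) (hδ : 0 ≤ δ)
    (hE : ∀ m ≤ n, 1 ≤ E m)
    (hstep : ∀ m < n, E (m + 1) ≤ A * E m)
    (hmon : ∀ l m, l ≤ m → m ≤ n → E m ^ (1 - b) ≤ E l)
    (hsum : ∑ m ∈ range (n + 1), E m ^ (-δ) ≤ K)
    (hlow : ∀ m ≤ n, c0 * E 0 ≤ nn (w m) * E m)
    (hup : ∀ m ≤ n, nn (w m) ≤ U * E 0 * E m ^ (-(1 - γ)))
    (hexp : 3 * γ + (2 + δ) / (1 - b) + δ ≤ 3) :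
    Sg w n ≤ U ^ 3 * A / c0 ^ 2 * K ^ 2 * E 0 := by
  have hb : 0 < 1 - b := by linarith
  have hE0 : 1 ≤ E 0 := hE 0 (Nat.zero_le n)
  have hE0' : 0 < E 0 := by linarith
  set Q : ℝ := U ^ 3 * A / c0 ^ 2 * E 0 with hQ
  have hQ0 : 0 ≤ Q := by rw [hQ]; positivity
  have hterm : ∀ m < n, ∀ l ≤ m,
      nn (w l) ^ 3 / (nn (w m) * nn (w (m + 1))) ≤ Q * (E l ^ (-δ) * E m ^ (-δ)) := by
    intro m hm l hl
    have hln : l ≤ n := by omega
    have pEl : 0 < E l := by linarith [hE l hln]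
    have pEm : 0 < E m := by linarith [hE m hm.le]
    have pEm1 : 0 < E (m + 1) := by linarith [hE (m + 1) hm]
    have hRm : c0 * E 0 / E m ≤ nn (w m) := by
      rw [div_le_iff₀ pEm]; exact hlow m hm.le
    have hRm1 : c0 * E 0 / E (m + 1) ≤ nn (w (m + 1)) := by
      rw [div_le_iff₀ pEm1]; exact hlow (m + 1) hm
    have p1 : 0 < c0 * E 0 / E m := by positivity
    have p2 : 0 < c0 * E 0 / E (m + 1) := by positivity
    have hden : (c0 * E 0) ^ 2 / (A * E m ^ 2) ≤ nn (w m) * nn (w (m + 1)) := by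
      calc (c0 * E 0) ^ 2 / (A * E m ^ 2) ≤ (c0 * E 0) ^ 2 / (E m * E (m + 1)) := by
            apply div_le_div_of_nonneg_left (by positivity) (by positivity)
            calc E m * E (m + 1) ≤ E m * (A * E m) :=
                  mul_le_mul_of_nonneg_left (hstep m hm) pEm.le
              _ = A * E m ^ 2 := by ring
        _ = (c0 * E 0 / E m) * (c0 * E 0 / E (m + 1)) := by
            field_simp
        _ ≤ _ := mul_le_mul hRm hRm1 p2.le (le_trans p1.le hRm)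
    have hnum : nn (w l) ^ 3 ≤ (U * E 0 * E l ^ (-(1 - γ))) ^ 3 :=
      pow_le_pow_left₀ (nn_nonneg _) (hup l hln) 3
    have pden : 0 < (c0 * E 0) ^ 2 / (A * E m ^ 2) := by positivity
    have h1 : nn (w l) ^ 3 / (nn (w m) * nn (w (m + 1))) ≤
        (U * E 0 * E l ^ (-(1 - γ))) ^ 3 / ((c0 * E 0) ^ 2 / (A * E m ^ 2)) :=
      div_le_div₀ (by positivity) hnum pden hden
    have e3 : (E l ^ (-(1 - γ))) ^ 3 = E l ^ (-(3 * (1 - γ))) := by
      rw [← Real.rpow_natCast (E l ^ (-(1 - γ))) 3, ← Real.rpow_mul pEl.le]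
      congr 1
      push_cast
      ring
    have h2 : (U * E 0 * E l ^ (-(1 - γ))) ^ 3 / ((c0 * E 0) ^ 2 / (A * E m ^ 2)) =
        Q * (E l ^ (-(3 * (1 - γ))) * E m ^ 2) := by
      rw [← e3, hQ]
      field_simp
    -- E m ^ 2 ≤ E m ^ (-δ) * E l ^ ((2+δ)/(1-b))
    have h3 : E m ^ 2 ≤ E m ^ (-δ) * E l ^ ((2 + δ) / (1 - b)) := by
      have e4 : E m ^ 2 = E m ^ (-δ) * (E m ^ (1 - b)) ^ ((2 + δ) / (1 - b)) := by
        rw [← Real.rpow_mul pEm.le, ← Real.rpow_add pEm, ← Real.rpow_natCast (E m) 2]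
        congr 1
        push_cast
        field_simp
        ring
      rw [e4]
      apply mul_le_mul_of_nonneg_left _ (Real.rpow_nonneg pEm.le _)
      exact Real.rpow_le_rpow (Real.rpow_nonneg pEm.le _) (hmon l m hl hm.le) (by positivity)
    have h4 : E l ^ (-(3 * (1 - γ))) * E m ^ 2 ≤ E l ^ (-δ) * E m ^ (-δ) := by
      calc E l ^ (-(3 * (1 - γ))) * E m ^ 2
          ≤ E l ^ (-(3 * (1 - γ))) * (E m ^ (-δ) * E l ^ ((2 + δ) / (1 - b))) :=
            mul_le_mul_of_nonneg_left h3 (Real.rpow_nonneg pEl.le _)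
        _ = E m ^ (-δ) * E l ^ (-(3 * (1 - γ)) + (2 + δ) / (1 - b)) := by
            rw [Real.rpow_add pEl]; ring
        _ ≤ E m ^ (-δ) * E l ^ (-δ) := by
            apply mul_le_mul_of_nonneg_left _ (Real.rpow_nonneg pEm.le _)
            exact Real.rpow_le_rpow_of_exponent_le (hE l hln) (by linarith)
        _ = _ := by ring
    calc nn (w l) ^ 3 / (nn (w m) * nn (w (m + 1))) ≤ Q * (E l ^ (-(3 * (1 - γ))) * E m ^ 2) := by
          rw [← h2]; exact h1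
      _ ≤ _ := mul_le_mul_of_nonneg_left h4 hQ0
  have hnonneg : ∀ m ≤ n, 0 ≤ E m ^ (-δ) := fun m hm =>
    Real.rpow_nonneg (by linarith [hE m hm]) _
  have hS0 : 0 ≤ ∑ m ∈ range (n + 1), E m ^ (-δ) :=
    Finset.sum_nonneg fun m hm => hnonneg m (by have := Finset.mem_range.mp hm; omega)
  have hK : 0 ≤ K := hS0.trans hsum
  have hpart : ∀ m ≤ n, ∑ l ∈ range (m + 1), E l ^ (-δ) ≤ K := by
    intro m hm
    refine le_trans ?_ hsum
    apply Finset.sum_le_sum_of_subset_of_nonneg (Finset.range_subset_range.mpr (by omega))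
    intro i hi _
    exact hnonneg i (by have := Finset.mem_range.mp hi; omega)
  unfold Sg
  calc ∑ m ∈ range n, cub w m / (nn (w m) * nn (w (m + 1)))
      ≤ ∑ m ∈ range n, Q * K * E m ^ (-δ) := by
        apply Finset.sum_le_sum
        intro m hm
        have hm' : m < n := Finset.mem_range.mp hm
        unfold cub
        rw [Finset.sum_div]
        calc ∑ l ∈ range (m + 1), nn (w l) ^ 3 / (nn (w m) * nn (w (m + 1)))
            ≤ ∑ l ∈ range (m + 1), Q * (E l ^ (-δ) * E m ^ (-δ)) := by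
              apply Finset.sum_le_sum
              intro l hl
              exact hterm m hm' l (by have := Finset.mem_range.mp hl; omega)
          _ = Q * E m ^ (-δ) * ∑ l ∈ range (m + 1), E l ^ (-δ) := by
              rw [Finset.mul_sum]
              apply Finset.sum_congr rfl
              intro l _
              ring
          _ ≤ Q * E m ^ (-δ) * K := by
              apply mul_le_mul_of_nonneg_left (hpart m hm'.le)
              exact mul_nonneg hQ0 (hnonneg m hm'.le)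
          _ = _ := by ring
    _ = Q * K * ∑ m ∈ range n, E m ^ (-δ) := by rw [Finset.mul_sum]
    _ ≤ Q * K * K := by
        apply mul_le_mul_of_nonneg_left _ (mul_nonneg hQ0 hK)
        refine le_trans ?_ hsum
        apply Finset.sum_le_sum_of_subset_of_nonneg (Finset.range_subset_range.mpr (by omega))
        intro i hi _
        exact hnonneg i (by have := Finset.mem_range.mp hi; omega)
    _ = U ^ 3 * A / c0 ^ 2 * K ^ 2 * E 0 := by rw [hQ]; ring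

open scoped Matrix.Norms.L2Operator
open Matrix Crest.Agent.R128.Hyp Crest.Agent.R128.Chain

/-- `‖A_{0→l}‖ ≤ A² K E_0 E_l^{-(1-2b-δ)}` for a clean sequence -/
theorem transfer_up {g : ℕ → M2} (hg : ∀ i, (g i).det = 1) {n : ℕ} {A K b δ : ℝ}
    (hA : 1 ≤ A) (hb0 : 0 ≤ b) (hb1 : b < 1) (hδ : 0 ≤ δ) (hδ1 : δ ≤ 1) (hK : 1 ≤ K)
    (hstep : ∀ m < n, ‖g (m + 1) * (g m)⁻¹‖ ≤ A)
    (hmon : ∀ l m, l ≤ m → m ≤ n → ‖g m‖ ^ (1 - b) ≤ ‖g l‖)
    (hsum : ∑ m ∈ range (n + 1), ‖g m‖ ^ (-δ) ≤ K) {l : ℕ} (hl : l ≤ n) :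
    ‖g l * (g 0)⁻¹‖ ≤ A ^ 2 * K * ‖g 0‖ * ‖g l‖ ^ (-(1 - (2 * b + δ))) := by
  have hE : ∀ m, 1 ≤ ‖g m‖ := fun m => one_le_norm (hg m)
  have pl : 0 < ‖g l‖ := norm_pos' (hg l)
  have p0 : 0 < ‖g 0‖ := norm_pos' (hg 0)
  rcases Nat.eq_zero_or_pos l with rfl | hl0
  · have h1 : g 0 * (g 0)⁻¹ = 1 := Matrix.mul_nonsing_inv _ (by rw [hg 0]; exact isUnit_one)
    rw [h1]
    have e1 : ‖g 0‖ * ‖g 0‖ ^ (-(1 - (2 * b + δ))) = ‖g 0‖ ^ (2 * b + δ) := by
      nth_rewrite 1 [← Real.rpow_one ‖g 0‖]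
      rw [← Real.rpow_add p0]
      congr 1
      ring
    have h2 : 1 ≤ ‖g 0‖ ^ (2 * b + δ) := Real.one_le_rpow (hE 0) (by positivity)
    calc ‖(1 : M2)‖ ≤ 1 := norm_one_le
      _ ≤ A ^ 2 * K * ‖g 0‖ ^ (2 * b + δ) := by
          have : 1 ≤ A ^ 2 * K := by nlinarith
          nlinarith
      _ = _ := by rw [← e1]; ring
  · have hch := chain hg hl0
    have hw : ∀ j ∈ Ico 0 l, Chain.wt g j ≤ A ^ 2 * ‖g l‖ ^ (-((1 - b) * (2 - δ))) * ‖g j‖ ^ (-δ) := by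
      intro j hj
      have hjl : j < l := (Finset.mem_Ico.mp hj).2
      have hjn : j < n := by omega
      have pj : 0 < ‖g j‖ := norm_pos' (hg j)
      have pj1 : 0 < ‖g (j + 1)‖ := norm_pos' (hg (j + 1))
      have hle : ‖g j‖ ≤ A * ‖g (j + 1)‖ := by
        have h1 := le_transfer hg (j + 1) j
        rw [norm_symm (hg j) (hg (j + 1))] at h1
        exact h1.trans (mul_le_mul_of_nonneg_right (hstep j hjn) pj1.le)
      have h2 : Chain.wt g j ≤ A ^ 2 / ‖g j‖ ^ 2 := by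
        unfold Chain.wt ch
        rw [div_le_div_iff₀ (by positivity) (by positivity)]
        calc ‖g (j + 1) * (g j)⁻¹‖ * ‖g j‖ ^ 2 ≤ A * ‖g j‖ ^ 2 :=
              mul_le_mul_of_nonneg_right (hstep j hjn) (by positivity)
          _ = A * ‖g j‖ * ‖g j‖ := by ring
          _ ≤ A * ‖g j‖ * (A * ‖g (j + 1)‖) :=
              mul_le_mul_of_nonneg_left hle (by positivity)
          _ = A ^ 2 * (‖g j‖ * ‖g (j + 1)‖) := by ring
      have h3 : 1 / ‖g j‖ ^ 2 ≤ ‖g l‖ ^ (-((1 - b) * (2 - δ))) * ‖g j‖ ^ (-δ) := by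
        have e1 : 1 / ‖g j‖ ^ 2 = ‖g j‖ ^ (-(2 - δ)) * ‖g j‖ ^ (-δ) := by
          rw [← Real.rpow_add pj, ← Real.rpow_natCast ‖g j‖ 2, one_div,
            ← Real.rpow_neg pj.le]
          congr 1
          push_cast
          ring
        rw [e1]
        apply mul_le_mul_of_nonneg_right _ (Real.rpow_nonneg pj.le _)
        have e2 : ‖g l‖ ^ (-((1 - b) * (2 - δ))) = (‖g l‖ ^ (1 - b)) ^ (-(2 - δ)) := by
          rw [← Real.rpow_mul pl.le]
          congr 1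
          ring
        rw [e2]
        exact Real.rpow_le_rpow_of_nonpos (Real.rpow_pos_of_pos pl _)
          (hmon j l hjl.le hl) (by linarith)
      calc Chain.wt g j ≤ A ^ 2 / ‖g j‖ ^ 2 := h2
        _ = A ^ 2 * (1 / ‖g j‖ ^ 2) := by ring
        _ ≤ A ^ 2 * (‖g l‖ ^ (-((1 - b) * (2 - δ))) * ‖g j‖ ^ (-δ)) :=
            mul_le_mul_of_nonneg_left h3 (by positivity)
        _ = _ := by ring
    have hS : ∑ j ∈ Ico 0 l, Chain.wt g j ≤ A ^ 2 * ‖g l‖ ^ (-((1 - b) * (2 - δ))) * K := by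
      calc ∑ j ∈ Ico 0 l, Chain.wt g j
          ≤ ∑ j ∈ Ico 0 l, A ^ 2 * ‖g l‖ ^ (-((1 - b) * (2 - δ))) * ‖g j‖ ^ (-δ) :=
            Finset.sum_le_sum hw
        _ = A ^ 2 * ‖g l‖ ^ (-((1 - b) * (2 - δ))) * ∑ j ∈ Ico 0 l, ‖g j‖ ^ (-δ) := by
            rw [Finset.mul_sum]
        _ ≤ _ := by
            apply mul_le_mul_of_nonneg_left _
              (mul_nonneg (by positivity) (Real.rpow_nonneg pl.le _))
            refine le_trans ?_ hsum
            apply Finset.sum_le_sum_of_subset_of_nonneg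
            · intro i hi
              rw [Finset.mem_Ico] at hi
              rw [Finset.mem_range]
              omega
            · intro i _ _
              exact Real.rpow_nonneg (norm_nonneg _) _
    have h5 : ‖g l‖ * ‖g l‖ ^ (-((1 - b) * (2 - δ))) ≤ ‖g l‖ ^ (-(1 - (2 * b + δ))) := by
      nth_rewrite 1 [← Real.rpow_one ‖g l‖]
      rw [← Real.rpow_add pl]
      exact Real.rpow_le_rpow_of_exponent_le (hE l) (by nlinarith [mul_nonneg hb0 hδ])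
    calc ‖g l * (g 0)⁻¹‖ ≤ ‖g 0‖ * ‖g l‖ * ∑ j ∈ Ico 0 l, Chain.wt g j := hch
      _ ≤ ‖g 0‖ * ‖g l‖ * (A ^ 2 * ‖g l‖ ^ (-((1 - b) * (2 - δ))) * K) :=
          mul_le_mul_of_nonneg_left hS (by positivity)
      _ = A ^ 2 * K * ‖g 0‖ * (‖g l‖ * ‖g l‖ ^ (-((1 - b) * (2 - δ)))) := by ring
      _ ≤ _ := mul_le_mul_of_nonneg_left h5 (by positivity)

/-- `nn` of the action of a matrix -/
theorem nn_act_le (M : M2) (v : ℝ × ℝ) : nn (act M v) ≤ ‖M‖ * nn v := by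
  have h := norm_ap_le M (!₂[v.1, v.2] : E2)
  have e1 : ‖(!₂[v.1, v.2] : E2)‖ = nn v := by
    rw [EuclideanSpace.norm_eq]
    unfold nn
    simp [Fin.sum_univ_two]
  have e2 : ‖ap M (!₂[v.1, v.2] : E2)‖ = nn (act M v) := by
    rw [EuclideanSpace.norm_eq]
    unfold nn act
    simp [Fin.sum_univ_two, ap_apply]
  rw [e1, e2] at h
  exact h

/-- **N3-CPLX**: a backward clean foot bounds `Sg`.  `g l` is the transfer from the foot `n` back
to `l` (so `‖g l‖ = ‖A_{l→n}‖`, `g l * (g 0)⁻¹ = A_{0→l}`). -/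
theorem Sg_le_of_clean {w : ℕ → ℝ × ℝ} {g : ℕ → M2} (hg : ∀ i, (g i).det = 1) {n : ℕ}
    {A K b δ c0 : ℝ} (hA : 1 ≤ A) (hb0 : 0 ≤ b) (hb1 : b < 1) (hδ : 0 ≤ δ) (hδ1 : δ ≤ 1)
    (hK : 1 ≤ K) (hc0 : 0 < c0)
    (hw : ∀ l ≤ n, w l = act (g l * (g 0)⁻¹) (w 0)) (hw0 : nn (w 0) ≤ 1)
    (hstep : ∀ m < n, ‖g (m + 1) * (g m)⁻¹‖ ≤ A)
    (hmon : ∀ l m, l ≤ m → m ≤ n → ‖g m‖ ^ (1 - b) ≤ ‖g l‖)
    (hsum : ∑ m ∈ range (n + 1), ‖g m‖ ^ (-δ) ≤ K)
    (hlow : ∀ m ≤ n, c0 * ‖g 0‖ ≤ nn (w m) * ‖g m‖)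
    (hexp : 3 * (2 * b + δ) + (2 + δ) / (1 - b) + δ ≤ 3) :
    Sg w n ≤ A ^ 7 * K ^ 5 / c0 ^ 2 * ‖g 0‖ := by
  have hup : ∀ m ≤ n, nn (w m) ≤ (A ^ 2 * K) * ‖g 0‖ * ‖g m‖ ^ (-(1 - (2 * b + δ))) := by
    intro m hm
    rw [hw m hm]
    calc nn (act (g m * (g 0)⁻¹) (w 0)) ≤ ‖g m * (g 0)⁻¹‖ * nn (w 0) := nn_act_le _ _
      _ ≤ ‖g m * (g 0)⁻¹‖ * 1 := mul_le_mul_of_nonneg_left hw0 (norm_nonneg _)
      _ ≤ _ := by
          rw [mul_one]
          exact transfer_up hg hA hb0 hb1 hδ hδ1 hK hstep hmon hsum hm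
  have hst : ∀ m < n, ‖g (m + 1)‖ ≤ A * ‖g m‖ := fun m hm =>
    (le_transfer hg m (m + 1)).trans
      (mul_le_mul_of_nonneg_right (hstep m hm) (norm_nonneg _))
  have h := Sg_le (w := w) (E := fun m => ‖g m‖) (A := A) (U := A ^ 2 * K) (c0 := c0) (K := K)
    (b := b) (δ := δ) (γ := 2 * b + δ) hA (by positivity) hc0 hb1 hδ
    (fun m _ => one_le_norm (hg m)) hst hmon hsum hlow hup hexp
  refine h.trans (le_of_eq ?_)
  ring

end Crest.Agent.R128.CleanDisp
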