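import Mathlib

/-!
Row 128 (helper105), node V34-RATIO, part 3: the clock `P t = M t / W t` (drawdown ratio) is rigid under
matching: if `t` is the first time with `θ ≤ P t` for `W`, then `t` is an ambiguous first time (tolerance `ε`)
for `W'`.
-/

set_option autoImplicit false

open Finset

namespace Crest.Agent.R128.Clock

/-- running maximum -/
noncomputable def Mx (g : ℕ → ℝ) : ℕ → ℝ
  | 0 => g 0
  | t + 1 => max (Mx g t) (g (t + 1))

theorem le_Mx (W : ℕ → ℝ) {s t : ℕ} (h : s ≤ t) : W s ≤ Mx W t := by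
  induction t with
  | zero =>
    have e : s = 0 := by omega
    rw [e]
    exact le_rfl
  | succ t ih =>
    show W s ≤ max (Mx W t) (W (t + 1))
    rcases Nat.lt_or_ge t s with h1 | h1
    · have e : s = t + 1 := by omega
      rw [e]
      exact le_max_right _ _
    · exact (ih h1).trans (le_max_left _ _)

theorem exists_Mx (W : ℕ → ℝ) (t : ℕ) : ∃ s ≤ t, Mx W t = W s := by
  induction t with
  | zero => exact ⟨0, le_rfl, rfl⟩
  | succ t ih =>
    obtain ⟨s, hs, e⟩ := ih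
    rcases le_total (Mx W t) (W (t + 1)) with h | h
    · exact ⟨t + 1, le_rfl, max_eq_right h⟩
    · exact ⟨s, by omega, (max_eq_left h).trans e⟩

/-- the drawdown ratio -/
noncomputable def P (W : ℕ → ℝ) (t : ℕ) : ℝ := Mx W t / W t

/-- the first argmax on `[0, t]` -/
theorem exists_first_Mx (W : ℕ → ℝ) (t : ℕ) :
    ∃ s ≤ t, Mx W t = W s ∧ ∀ j < s, W j < W s := by
  classical
  have h := exists_Mx W t
  refine ⟨Nat.find h, (Nat.find_spec h).1, (Nat.find_spec h).2, ?_⟩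
  intro j hj
  have h1 := Nat.find_min h hj
  push Not at h1
  have h2 := (Nat.find_spec h)
  have h3 := h1 (by omega)
  have h4 : W j ≤ Mx W t := le_Mx W (by omega)
  rw [← h2.2]
  exact lt_of_le_of_ne h4 (fun h => h3 h.symm)

theorem one_le_P {W : ℕ → ℝ} {t : ℕ} (h : 0 < W t) : 1 ≤ P W t := by
  unfold P
  rw [one_le_div h]
  exact le_Mx W le_rfl

structure Mat (b : ℝ) (t : ℕ) (W W' : ℕ → ℝ) : Prop where
  hb : 100 ≤ b
  pos : ∀ m ≤ t, 0 < W m
  F1 : ∀ m ≤ t, W m ≤ 4 / 3 * W' m ∧ W' m ≤ 4 / 3 * W m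
  F2 : ∀ j m, j ≤ t → m ≤ t → ∀ U : ℝ, b ^ U ≤ W j → b ^ U ≤ W m →
    |W' m * W j - W m * W' j| ≤ b ^ (40 - 9 / 10 * U) * (W m * W' j)

variable {b : ℝ} {t : ℕ} {W W' : ℕ → ℝ}

theorem Mat.pos' (A : Mat b t W W') {m : ℕ} (hm : m ≤ t) : 0 < W' m := by
  have h1 := A.pos m hm
  have h2 := (A.F1 m hm).1
  linarith

/-- ratio comparison at two late times -/
theorem Mat.ratio (A : Mat b t W W') {j m : ℕ} (hj : j ≤ t) (hm : m ≤ t) {U : ℝ}
    (hUj : b ^ U ≤ W j) (hUm : b ^ U ≤ W m) :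
    W m / W j * (1 - b ^ (40 - 9 / 10 * U)) ≤ W' m / W' j ∧
      W' m / W' j ≤ W m / W j * (1 + b ^ (40 - 9 / 10 * U)) := by
  have h := abs_le.mp (A.F2 j m hj hm U hUj hUm)
  have wj := A.pos j hj
  have wj' := A.pos' hj
  set δ := b ^ (40 - 9 / 10 * U)
  constructor
  · rw [div_mul_eq_mul_div, div_le_div_iff₀ wj wj']
    linarith [h.1]
  · rw [div_mul_eq_mul_div, div_le_div_iff₀ wj' wj]
    linarith [h.2]

theorem Mat.crude (A : Mat b t W W') {j m : ℕ} (hj : j ≤ t) (hm : m ≤ t) :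
    W' m / W' j ≤ 16 / 9 * (W m / W j) := by
  have wj := A.pos j hj
  have wj' := A.pos' hj
  have h1 := (A.F1 m hm).2
  have h2 := (A.F1 j hj).1
  have wm := A.pos m hm
  rw [← mul_div_assoc, div_le_div_iff₀ wj' wj]
  calc W' m * W j ≤ (4 / 3 * W m) * (4 / 3 * W' j) := by gcongr
    _ = _ := by ring

/-- **The clock is rigid.** -/
theorem Mat.clock (A : Mat b t W W') {θ Z : ℝ} {L : ℕ} (hL : L < t)
    (cl : ∀ i j, i < j → j ≤ L → 2 * W i ≤ W j)
    (val : ∀ i j, L ≤ i → i ≤ j → j < t → b ^ (-(1 / 10) : ℝ) * (W i) ^ (99 / 100 : ℝ) ≤ W j)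
    (ht : 1 ≤ t) (step : W (t - 1) ≤ b ^ 2 * W t)
    (hθ : 2 * b ^ (1 / 10 + Z / 100) ≤ θ) (hZ : 0 ≤ Z)
    (hfirst : ∀ s < t, P W s < θ) (hlast : θ ≤ P W t) :
    θ * (1 - b ^ (221 - 891 / 1000 * Z)) ≤ P W' t ∧
      ∀ s < t, P W' s < θ * (1 + b ^ (221 - 891 / 1000 * Z)) := by
  have hb := A.hb
  have hb0 : 0 < b := by linarith
  have hb1 : 1 < b := by linarith
  have hθ0 : 0 < θ := lt_of_lt_of_le (by positivity) hθ
  have hmono : ∀ {x y : ℝ}, x ≤ y → b ^ x ≤ b ^ y := fun h =>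
    Real.rpow_le_rpow_of_exponent_le (by linarith) h
  have hθ1 : 1 < θ := by
    have : (1:ℝ) ≤ b ^ (1 / 10 + Z / 100) := Real.one_le_rpow hb1.le (by positivity)
    linarith
  set ε := b ^ (221 - 891 / 1000 * Z) with hε
  have hε0 : 0 < ε := by positivity
  constructor
  · -- the last time
    have hWt := A.pos t le_rfl
    -- the maximum is attained before t
    obtain ⟨j, hj, hjm⟩ := exists_Mx W t
    have hjt : j < t := by
      rcases Nat.lt_or_ge j t with h | h
      · exact h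
      · have e : j = t := by omega
        exfalso
        unfold P at hlast
        rw [hjm, e, div_self hWt.ne'] at hlast
        linarith
    have hLj : L ≤ j := by
      by_contra hc
      push Not at hc
      have h1 := cl j L hc le_rfl
      have h2 := le_Mx W hL.le
      rw [hjm] at h2
      have h3 := A.pos L hL.le
      linarith
    have hM := A.pos j hj
    set M := W j with hMd
    have h1 : W t ≤ M / θ := by
      unfold P at hlast
      rw [hjm] at hlast
      rw [le_div_iff₀ hθ0]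
      rw [le_div_iff₀ hWt] at hlast
      linarith
    have h2 : b ^ (-(21 / 10) : ℝ) * M ^ (99 / 100 : ℝ) ≤ W t := by
      have h3 := val j (t - 1) hLj (by omega) (by omega)
      have h4 := h3.trans step
      have e : b ^ (-(21 / 10) : ℝ) = b ^ (-(1 / 10) : ℝ) / b ^ 2 := by
        rw [← Real.rpow_two, ← Real.rpow_sub hb0]
        congr 1
        norm_num
      rw [e, div_mul_eq_mul_div, div_le_iff₀ (by positivity)]
      linarith
    -- M is large
    have h5 : b ^ (Z - 200) ≤ M := by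
      have h6 : θ * M ^ (99 / 100 : ℝ) ≤ b ^ (21 / 10 : ℝ) * M := by
        have h7 := h2.trans h1
        rw [le_div_iff₀ hθ0] at h7
        have e : b ^ (21 / 10 : ℝ) * b ^ (-(21 / 10) : ℝ) = 1 := by
          rw [← Real.rpow_add hb0]
          norm_num
        calc θ * M ^ (99 / 100 : ℝ) = b ^ (21 / 10 : ℝ) *
              (b ^ (-(21 / 10) : ℝ) * M ^ (99 / 100 : ℝ) * θ) := by
              rw [← mul_assoc, ← mul_assoc, e]
              ring
          _ ≤ _ := by gcongr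
      have h8 : M = M ^ (99 / 100 : ℝ) * M ^ (1 / 100 : ℝ) := by
        rw [← Real.rpow_add hM]
        norm_num
      have h9 : θ ≤ b ^ (21 / 10 : ℝ) * M ^ (1 / 100 : ℝ) := by
        have h10 : 0 < M ^ (99 / 100 : ℝ) := by positivity
        have h11 : θ * M ^ (99 / 100 : ℝ) ≤ (b ^ (21 / 10 : ℝ) * M ^ (1 / 100 : ℝ)) * M ^ (99 / 100 : ℝ) := by
          calc θ * M ^ (99 / 100 : ℝ) ≤ b ^ (21 / 10 : ℝ) * M := h6
            _ = b ^ (21 / 10 : ℝ) * (M ^ (99 / 100 : ℝ) * M ^ (1 / 100 : ℝ)) := by rw [← h8]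
            _ = _ := by ring
        exact le_of_mul_le_mul_right h11 h10
      have h12 : b ^ (Z / 100 - 2) ≤ M ^ (1 / 100 : ℝ) := by
        have h13 : b ^ (1 / 10 + Z / 100) ≤ b ^ (21 / 10 : ℝ) * M ^ (1 / 100 : ℝ) := by
          have : 0 < b ^ (1 / 10 + Z / 100) := by positivity
          linarith
        have e : b ^ (1 / 10 + Z / 100) = b ^ (21 / 10 : ℝ) * b ^ (Z / 100 - 2) := by
          rw [← Real.rpow_add hb0]
          congr 1
          ring
        rw [e] at h13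
        exact le_of_mul_le_mul_left h13 (by positivity)
      have h14 := Real.rpow_le_rpow (by positivity) h12 (by norm_num : (0:ℝ) ≤ 100)
      rw [← Real.rpow_mul hb0.le, ← Real.rpow_mul hM.le] at h14
      have e1 : (Z / 100 - 2) * 100 = Z - 200 := by ring
      have e2 : (1 / 100 : ℝ) * 100 = 1 := by norm_num
      rw [e1, e2, Real.rpow_one] at h14
      exact h14
    set U := 99 / 100 * Z - 2001 / 10 with hU
    have h15 : b ^ U ≤ W t := by
      refine le_trans ?_ h2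
      have h16 : (b ^ (Z - 200)) ^ (99 / 100 : ℝ) ≤ M ^ (99 / 100 : ℝ) :=
        Real.rpow_le_rpow (by positivity) h5 (by norm_num)
      rw [← Real.rpow_mul hb0.le] at h16
      calc b ^ U = b ^ (-(21 / 10) : ℝ) * b ^ ((Z - 200) * (99 / 100)) := by
            rw [← Real.rpow_add hb0]
            congr 1
            rw [hU]
            ring
        _ ≤ _ := by gcongr
    have h17 : b ^ U ≤ W j := by
      refine le_trans (hmono ?_) h5
      rw [hU]
      linarith
    have h18 := (A.ratio (j := t) (m := j) le_rfl hj h15 h17).1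
    have h19 : b ^ (40 - 9 / 10 * U) ≤ ε := by
      rw [hε]
      apply hmono
      rw [hU]
      linarith
    have h20 : W' j / W' t ≤ P W' t := by
      unfold P
      have := A.pos' (m := t) le_rfl
      have := le_Mx W' hj
      gcongr
    have h21 : θ ≤ W j / W t := by
      unfold P at hlast
      rwa [hjm] at hlast
    rcases le_total ε 1 with h22 | h22
    · calc θ * (1 - ε) ≤ W j / W t * (1 - ε) := by
            apply mul_le_mul_of_nonneg_right h21
            linarith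
        _ ≤ W j / W t * (1 - b ^ (40 - 9 / 10 * U)) := by
            apply mul_le_mul_of_nonneg_left
            · linarith
            · positivity
        _ ≤ _ := h18
        _ ≤ _ := h20
    · have h23 : θ * (1 - ε) ≤ 0 := by
        apply mul_nonpos_of_nonneg_of_nonpos hθ0.le
        linarith
      have h24 := one_le_P (A.pos' (m := t) le_rfl)
      linarith
  · intro s hs
    obtain ⟨i, hi, him⟩ := exists_Mx W' s
    have wi := A.pos i (by omega)
    have ws := A.pos s (by omega)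
    have hPs := hfirst s hs
    have h1 : W i / W s ≤ P W s := by
      unfold P
      have := le_Mx W hi
      gcongr
    have h2 : P W' s = W' i / W' s := by
      unfold P
      rw [him]
    rw [h2]
    rcases Nat.lt_or_ge L s with hLs | hLs
    swap
    · have h3 := A.crude (j := s) (m := i) (by omega) (by omega)
      have h4 : W i / W s ≤ 1 := by
        rw [div_le_one ws]
        rcases Nat.lt_or_ge i s with h5 | h5
        · have := cl i s h5 hLs
          linarith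
        · have e : i = s := by omega
          rw [e]
      have h5 : θ ≤ θ * (1 + ε) := by nlinarith
      have h6 : (1:ℝ) ≤ b ^ (1 / 10 + Z / 100) := Real.one_le_rpow hb1.le (by positivity)
      linarith
    have hLi : L ≤ i := by
      by_contra hc
      push Not at hc
      have h3 := cl i L hc le_rfl
      have h4 := (A.F1 i (by omega)).2
      have h5 := (A.F1 L (by omega)).1
      have h6 := le_Mx W' hLs.le
      rw [him] at h6
      have h7 := A.pos L (by omega)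
      linarith
    rcases lt_or_ge (W i) (b ^ Z) with h | h
    · -- early
      have h3 := A.crude (j := s) (m := i) (by omega) (by omega)
      have h4 := val i s hLi hi hs
      have h5 : W i / W s ≤ b ^ (1 / 10 + Z / 100) := by
        rw [div_le_iff₀ ws]
        have e1 : W i = (W i) ^ (99 / 100 : ℝ) * (W i) ^ (1 / 100 : ℝ) := by
          rw [← Real.rpow_add wi]
          norm_num
        have e2 : (W i) ^ (1 / 100 : ℝ) ≤ b ^ (Z / 100) := by
          have := Real.rpow_le_rpow wi.le h.le (by norm_num : (0:ℝ) ≤ 1 / 100)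
          rw [← Real.rpow_mul hb0.le] at this
          have e3 : Z * (1 / 100) = Z / 100 := by ring
          rwa [e3] at this
        have e4 : b ^ (1 / 10 : ℝ) * b ^ (-(1 / 10) : ℝ) = 1 := by
          rw [← Real.rpow_add hb0]
          norm_num
        calc W i = (W i) ^ (99 / 100 : ℝ) * (W i) ^ (1 / 100 : ℝ) := e1
          _ ≤ (W i) ^ (99 / 100 : ℝ) * b ^ (Z / 100) := by gcongr
          _ = (b ^ (1 / 10 : ℝ) * b ^ (Z / 100)) * (b ^ (-(1 / 10) : ℝ) * (W i) ^ (99 / 100 : ℝ)) := by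
              calc (W i) ^ (99 / 100 : ℝ) * b ^ (Z / 100)
                  = (b ^ (1 / 10 : ℝ) * b ^ (-(1 / 10) : ℝ)) * ((W i) ^ (99 / 100 : ℝ) * b ^ (Z / 100)) := by
                    rw [e4, one_mul]
                _ = _ := by ring
          _ ≤ (b ^ (1 / 10 : ℝ) * b ^ (Z / 100)) * W s := by gcongr
          _ = b ^ (1 / 10 + Z / 100) * W s := by rw [← Real.rpow_add hb0]
      have h6 : 0 < b ^ (1 / 10 + Z / 100) := by positivity
      have h7 : θ ≤ θ * (1 + ε) := by nlinarith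
      linarith
    · -- late
      have h3 := val i s hLi hi hs
      have h4 : b ^ (99 / 100 * Z - 1 / 10) ≤ W s := by
        refine le_trans ?_ h3
        have h5 := Real.rpow_le_rpow (by positivity) h (by norm_num : (0:ℝ) ≤ 99 / 100)
        rw [← Real.rpow_mul hb0.le] at h5
        calc b ^ (99 / 100 * Z - 1 / 10) = b ^ (-(1 / 10) : ℝ) * b ^ (Z * (99 / 100)) := by
              rw [← Real.rpow_add hb0]
              congr 1
              ring
          _ ≤ _ := by gcongr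
      have h5 : b ^ (99 / 100 * Z - 1 / 10) ≤ W i := (hmono (by linarith)).trans h
      have h6 := (A.ratio (j := s) (m := i) (by omega) (by omega) h4 h5).2
      have h7 : b ^ (40 - 9 / 10 * (99 / 100 * Z - 1 / 10)) ≤ ε := by
        rw [hε]
        apply hmono
        linarith
      have h8 : 0 < W i / W s := by positivity
      calc W' i / W' s ≤ W i / W s * (1 + b ^ (40 - 9 / 10 * (99 / 100 * Z - 1 / 10))) := h6
        _ ≤ W i / W s * (1 + ε) := by
            apply mul_le_mul_of_nonneg_left _ h8.le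
            linarith
        _ < θ * (1 + ε) := by
            apply mul_lt_mul_of_pos_right _ (by linarith)
            linarith

/-- data in the form used by the assembly (helper292) -/
structure CD (k b θ ε : ℝ) (L D t : ℕ) (g g' u u' : ℕ → ℝ) : Prop where
  hk : (10:ℝ) ^ 18 ≤ k
  hb : b = k ^ (2 / 3 : ℝ) / 2
  hD : 3000 ≤ D
  hLt : L < t
  u0 : ∀ m ≤ t, 0 < u m ∧ u m ≤ g m ∧ g m ≤ 3 / 2 * u m
  u0' : ∀ m ≤ t, 0 < u' m ∧ u' m ≤ g' m ∧ g' m ≤ 3 / 2 * u' m
  cl : ∀ i j, i < j → j ≤ L → 100 * u i ≤ u j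
  c2 : ∀ i j, L ≤ i → i ≤ j → j < t → u i ^ 99 ≤ u j ^ 100
  st : ∀ m < t, g m ≤ 8 * k * g (m + 1)
  hi : ∀ i < t, u i ≤ k * k ^ D
  lo : (∀ i, L ≤ i → i ≤ t → u i ^ 99 ≤ u t ^ 100) ∨ ∃ i < t, k ^ D ≤ u i
  th1 : k ^ ((D:ℝ) / 100 - 1 / 2) ≤ θ
  th2 : θ ≤ k ^ ((D:ℝ) / 100 - 1 / 4)
  he : ε = k ^ (-(D:ℝ) / 4)
  x1 : θ ≤ Mx g t / g t
  x2 : ∀ s < t, Mx g s / g s < θ
  F1 : ∀ m ≤ t, g m ≤ 4 / 3 * g' m ∧ g' m ≤ 4 / 3 * g m
  F2 : ∀ j m, j ≤ t → m ≤ t → ∀ U : ℝ, b ^ U ≤ g j → b ^ U ≤ g m →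
    |g' m * g j - g m * g' j| ≤ b ^ (40 - 9 / 10 * U) * (g m * g' j)

variable {k θ ε : ℝ} {L D : ℕ} {g g' u u' : ℕ → ℝ}

theorem CD.k0 (C : CD k b θ ε L D t g g' u u') : 0 < k := lt_of_lt_of_le (by norm_num) C.hk

theorem CD.k1 (C : CD k b θ ε L D t g g' u u') : 1 ≤ k := le_trans (by norm_num) C.hk

theorem CD.kpow (C : CD k b θ ε L D t g g' u u') {x : ℝ} (hx : 0 ≤ x) : ((10:ℝ) ^ 18) ^ x ≤ k ^ x :=
  Real.rpow_le_rpow (by norm_num) C.hk hx

theorem CD.k_tenth (C : CD k b θ ε L D t g g' u u') : (10:ℝ) ≤ k ^ (1 / 15 : ℝ) := by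
  have h := C.kpow (x := 1 / 15) (by norm_num)
  refine le_trans ?_ h
  have e : (10:ℝ) = ((10:ℝ) ^ (15:ℕ)) ^ (1 / 15 : ℝ) := by
    rw [← Real.rpow_natCast, ← Real.rpow_mul (by norm_num)]
    norm_num
  calc (10:ℝ) = ((10:ℝ) ^ (15:ℕ)) ^ (1 / 15 : ℝ) := e
    _ ≤ ((10:ℝ) ^ 18) ^ (1 / 15 : ℝ) := by
      apply Real.rpow_le_rpow (by positivity) _ (by norm_num)
      norm_num

/-- `k ^ (3/5) ≤ b` -/
theorem CD.b_ge (C : CD k b θ ε L D t g g' u u') : k ^ (3 / 5 : ℝ) ≤ b := by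
  have hk0 := C.k0
  rw [C.hb, le_div_iff₀ (by norm_num)]
  have e : k ^ (2 / 3 : ℝ) = k ^ (3 / 5 : ℝ) * k ^ (1 / 15 : ℝ) := by
    rw [← Real.rpow_add hk0]
    norm_num
  rw [e]
  have h1 := C.k_tenth
  have h2 : 0 < k ^ (3 / 5 : ℝ) := by positivity
  nlinarith

theorem CD.b_le (C : CD k b θ ε L D t g g' u u') : b ≤ k ^ (2 / 3 : ℝ) := by
  have hk0 := C.k0
  rw [C.hb]
  have : 0 < k ^ (2 / 3 : ℝ) := by positivity
  linarith

theorem CD.b100 (C : CD k b θ ε L D t g g' u u') : (10:ℝ) ^ 9 ≤ b := by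
  have h1 := C.b_ge
  have h2 := C.k_tenth
  have hk0 := C.k0
  have e : k ^ (3 / 5 : ℝ) = (k ^ (1 / 15 : ℝ)) ^ 9 := by
    rw [← Real.rpow_natCast, ← Real.rpow_mul hk0.le]
    norm_num
  rw [e] at h1
  exact (pow_le_pow_left₀ (by norm_num) h2 9).trans h1

theorem CD.gpos (C : CD k b θ ε L D t g g' u u') {m : ℕ} (hm : m ≤ t) : 0 < g m := by
  obtain ⟨h1, h2, h3⟩ := C.u0 m hm
  linarith

theorem CD.mat (C : CD k b θ ε L D t g g' u u') : Mat b t g g' where
  hb := by have := C.b100; linarith [show (100:ℝ) ≤ 10 ^ 9 by norm_num]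
  pos := fun m hm => C.gpos hm
  F1 := C.F1
  F2 := C.F2

theorem CD.th (C : CD k b θ ε L D t g g' u u') : (10:ℝ) ^ 9 ≤ θ := by
  refine le_trans ?_ C.th1
  have hD : (3000:ℝ) ≤ D := by exact_mod_cast C.hD
  have hk1 := C.k1
  have h2 : k ^ (3 / 5 : ℝ) ≤ k ^ ((D:ℝ) / 100 - 1 / 2) :=
    Real.rpow_le_rpow_of_exponent_le hk1 (by linarith)
  have h3 := C.k_tenth
  have hk0 := C.k0
  have e : k ^ (3 / 5 : ℝ) = (k ^ (1 / 15 : ℝ)) ^ 9 := by
    rw [← Real.rpow_natCast, ← Real.rpow_mul hk0.le]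
    norm_num
  rw [e] at h2
  exact (pow_le_pow_left₀ (by norm_num) h3 9).trans h2

theorem CD.cl' (C : CD k b θ ε L D t g g' u u') : ∀ i j, i < j → j ≤ L → 2 * g i ≤ g j := by
  intro i j hij hj
  have hLt := C.hLt
  obtain ⟨a1, a2, a3⟩ := C.u0 i (by omega)
  obtain ⟨b1, b2, b3⟩ := C.u0 j (by omega)
  have := C.cl i j hij hj
  linarith

/-- **cross** -/
theorem CD.cross (C : CD k b θ ε L D t g g' u u') :
    θ * (1 - ε) ≤ |Mx g' t / g' t| ∧ ∀ s < t, |Mx g' s / g' s| < θ * (1 + ε) := by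
  have hk0 := C.k0
  have hk1 := C.k1
  have hb9 := C.b100
  have hb0 : 0 < b := by linarith [show (0:ℝ) < 10 ^ 9 by norm_num]
  have hLt := C.hLt
  have hD : (3000:ℝ) ≤ D := by exact_mod_cast C.hD
  have A := C.mat
  have hZ : (0:ℝ) ≤ 3 / 2 * D - 100 := by linarith
  have hval : ∀ i j, L ≤ i → i ≤ j → j < t → b ^ (-(1 / 10) : ℝ) * (g i) ^ (99 / 100 : ℝ) ≤ g j := by
    intro i j hi hij hj
    obtain ⟨a1, a2, a3⟩ := C.u0 i (by omega)
    obtain ⟨b1, b2, b3⟩ := C.u0 j (by omega)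
    have h1 := C.c2 i j hi hij hj
    have h2 : (u i) ^ (99 / 100 : ℝ) ≤ u j := by
      have h3 := Real.rpow_le_rpow (by positivity) h1 (by norm_num : (0:ℝ) ≤ 1 / 100)
      rw [← Real.rpow_natCast (u i), ← Real.rpow_natCast (u j), ← Real.rpow_mul a1.le,
        ← Real.rpow_mul b1.le] at h3
      norm_num at h3
      exact h3
    have h4 : (g i) ^ (99 / 100 : ℝ) ≤ 3 / 2 * (u i) ^ (99 / 100 : ℝ) := by
      calc (g i) ^ (99 / 100 : ℝ) ≤ (3 / 2 * u i) ^ (99 / 100 : ℝ) :=
            Real.rpow_le_rpow (by linarith) a3 (by norm_num)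
        _ = (3 / 2 : ℝ) ^ (99 / 100 : ℝ) * (u i) ^ (99 / 100 : ℝ) := Real.mul_rpow (by norm_num) a1.le
        _ ≤ 3 / 2 * (u i) ^ (99 / 100 : ℝ) := by
            have : (3 / 2 : ℝ) ^ (99 / 100 : ℝ) ≤ (3 / 2 : ℝ) ^ (1 : ℝ) :=
              Real.rpow_le_rpow_of_exponent_le (by norm_num) (by norm_num)
            rw [Real.rpow_one] at this
            gcongr
    have h5 : b ^ (-(1 / 10) : ℝ) ≤ 2 / 3 := by
      rw [Real.rpow_neg hb0.le, inv_le_comm₀ (by positivity) (by norm_num)]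
      have h6 : (3 / 2 : ℝ) ≤ (10 ^ 9 : ℝ) ^ (1 / 10 : ℝ) := by
        have e : (3 / 2 : ℝ) = ((3 / 2 : ℝ) ^ (10:ℕ)) ^ (1 / 10 : ℝ) := by
          rw [← Real.rpow_natCast, ← Real.rpow_mul (by norm_num)]
          norm_num
        rw [e]
        apply Real.rpow_le_rpow (by positivity) _ (by norm_num)
        norm_num
      have h7 := Real.rpow_le_rpow (by norm_num) hb9 (by norm_num : (0:ℝ) ≤ 1 / 10)
      norm_num
      norm_num at h6 h7
      linarith
    calc b ^ (-(1 / 10) : ℝ) * (g i) ^ (99 / 100 : ℝ) ≤ 2 / 3 * (3 / 2 * u j) := by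
          have : (g i) ^ (99 / 100 : ℝ) ≤ 3 / 2 * u j := h4.trans (by linarith)
          exact mul_le_mul h5 this (Real.rpow_nonneg (by linarith) _) (by norm_num)
      _ = u j := by ring
      _ ≤ g j := b2
  have hstep : g (t - 1) ≤ b ^ 2 * g t := by
    have h1 := C.st (t - 1) (by omega)
    rw [Nat.sub_add_cancel (by omega)] at h1
    have h2 : 8 * k ≤ b ^ 2 := by
      have h3 : b ^ 2 = k ^ (4 / 3 : ℝ) / 4 := by
        rw [C.hb, div_pow, ← Real.rpow_natCast (k ^ (2 / 3 : ℝ)), ← Real.rpow_mul hk0.le]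
        norm_num
      have h4 : k ^ (4 / 3 : ℝ) = k * (k ^ (1 / 15 : ℝ)) ^ 5 := by
        rw [← Real.rpow_natCast (k ^ (1 / 15 : ℝ)), ← Real.rpow_mul hk0.le]
        nth_rewrite 2 [← Real.rpow_one k]
        rw [← Real.rpow_add hk0]
        norm_num
      rw [h3, h4]
      have h5 : (10:ℝ) ^ 5 ≤ (k ^ (1 / 15 : ℝ)) ^ 5 := pow_le_pow_left₀ (by norm_num) C.k_tenth 5
      nlinarith
    exact h1.trans (mul_le_mul_of_nonneg_right h2 (C.gpos le_rfl).le)
  have hθ : 2 * b ^ (1 / 10 + (3 / 2 * (D:ℝ) - 100) / 100) ≤ θ := by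
    refine le_trans ?_ C.th1
    have h1 : b ^ (1 / 10 + (3 / 2 * (D:ℝ) - 100) / 100) ≤
        (k ^ (2 / 3 : ℝ)) ^ (1 / 10 + (3 / 2 * (D:ℝ) - 100) / 100) :=
      Real.rpow_le_rpow hb0.le C.b_le (by linarith)
    rw [← Real.rpow_mul hk0.le] at h1
    have h2 : k ^ ((D:ℝ) / 100 - 1 / 2) = k ^ ((D:ℝ) / 100 - 1 / 2 - 1 / 15) * k ^ (1 / 15 : ℝ) := by
      rw [← Real.rpow_add hk0]
      congr 1
      ring
    rw [h2]
    have h3 : k ^ (2 / 3 * (1 / 10 + (3 / 2 * (D:ℝ) - 100) / 100)) ≤ k ^ ((D:ℝ) / 100 - 1 / 2 - 1 / 15) :=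
      Real.rpow_le_rpow_of_exponent_le hk1 (by linarith)
    have h4 := C.k_tenth
    have h5 : 0 < k ^ ((D:ℝ) / 100 - 1 / 2 - 1 / 15) := by positivity
    nlinarith
  have hm := A.clock (L := L) hLt C.cl' hval (by omega) hstep hθ hZ C.x2 C.x1
  have heps : b ^ (221 - 891 / 1000 * (3 / 2 * (D:ℝ) - 100)) ≤ ε := by
    rw [C.he]
    have h1 : b ^ (221 - 891 / 1000 * (3 / 2 * (D:ℝ) - 100)) ≤
        (k ^ (3 / 5 : ℝ)) ^ (221 - 891 / 1000 * (3 / 2 * (D:ℝ) - 100)) :=
      Real.rpow_le_rpow_of_nonpos (by positivity) C.b_ge (by linarith)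
    refine h1.trans ?_
    rw [← Real.rpow_mul hk0.le]
    apply Real.rpow_le_rpow_of_exponent_le hk1
    linarith
  have hθ0 : 0 < θ := by linarith [C.th, show (0:ℝ) < 10 ^ 9 by norm_num]
  have habs : ∀ s ≤ t, |Mx g' s / g' s| = P g' s := by
    intro s hs
    apply abs_of_pos
    have := one_le_P (A.pos' hs)
    unfold P at this
    linarith
  constructor
  · rw [habs t le_rfl]
    refine le_trans ?_ hm.1
    apply mul_le_mul_of_nonneg_left _ hθ0.le
    linarith
  · intro s hs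
    rw [habs s hs.le]
    refine lt_of_lt_of_le (hm.2 s hs) ?_
    apply mul_le_mul_of_nonneg_left _ hθ0.le
    linarith

/-- **event** -/
theorem CD.event (C : CD k b θ ε L D t g g' u u') :
    ∃ n, L ≤ n ∧ n < t ∧ (∀ j < n, u' j < u' n) ∧ (∀ j ≤ t, u' j ≤ u' n) ∧
      u' t ^ 102 ≤ u' n ^ 101 ∧ k ^ (D - 52) ≤ u' n ∧ u' n ≤ 2 * (k * k ^ D) := by
  have hk0 := C.k0
  have hk1 := C.k1
  have hLt := C.hLt
  have hD : (3000:ℝ) ≤ D := by exact_mod_cast C.hD
  have hDn := C.hD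
  have hth := C.th
  have hθ0 : 0 < θ := by linarith [show (0:ℝ) < 10 ^ 9 by norm_num]
  -- u and u' are comparable
  have cmp1 : ∀ m ≤ t, u m ≤ 2 * u' m := by
    intro m hm
    obtain ⟨a1, a2, a3⟩ := C.u0 m hm
    obtain ⟨b1, b2, b3⟩ := C.u0' m hm
    have := (C.F1 m hm).1
    linarith
  have cmp2 : ∀ m ≤ t, u' m ≤ 2 * u m := by
    intro m hm
    obtain ⟨a1, a2, a3⟩ := C.u0 m hm
    obtain ⟨b1, b2, b3⟩ := C.u0' m hm
    have := (C.F1 m hm).2
    linarith
  -- the argmax of g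
  obtain ⟨j, hj, hjm⟩ := exists_Mx g t
  have hgt := C.gpos (le_refl t)
  have hgj : θ * g t ≤ g j := by
    have := C.x1
    rw [hjm, le_div_iff₀ hgt] at this
    exact this
  have hjL : L ≤ j := by
    by_contra hc
    push Not at hc
    have h1 := C.cl' j L hc le_rfl
    have h2 := le_Mx g hLt.le
    rw [hjm] at h2
    have h3 := C.gpos hLt.le
    linarith
  have hjt : j < t := by
    rcases Nat.lt_or_ge j t with h | h
    · exact h
    · have e : j = t := by omega
      rw [e] at hgj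
      nlinarith
  obtain ⟨a1, a2, a3⟩ := C.u0 j hj
  obtain ⟨t1, t2, t3⟩ := C.u0 t le_rfl
  have huj : 2 / 3 * θ * u t ≤ u j := by
    have : θ * u t ≤ θ * g t := mul_le_mul_of_nonneg_left t2 hθ0.le
    linarith
  obtain ⟨n, hn, hnm, hnf⟩ := exists_first_Mx u' t
  have hmax : ∀ i ≤ t, u' i ≤ u' n := fun i hi => by
    rw [← hnm]
    exact le_Mx u' hi
  have hjn : u j ≤ 2 * u' n := (cmp1 j hj).trans (by linarith [hmax j hj])
  have hut : u' t ≤ 6 / θ * u' n := by
    have h1 := cmp2 t le_rfl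
    have h2 : θ * u t ≤ 3 * u' n := by linarith
    rw [div_mul_eq_mul_div, le_div_iff₀ hθ0]
    calc u' t * θ ≤ (2 * u t) * θ := by gcongr
      _ = 2 * (θ * u t) := by ring
      _ ≤ 6 * u' n := by linarith
  have hn0 : 0 < u' n := (C.u0' n hn).1
  have hLn : L ≤ n := by
    by_contra hc
    push Not at hc
    have h1 := C.cl n L hc le_rfl
    have h2 := hmax L hLt.le
    have h3 := cmp1 L hLt.le
    have h4 := cmp2 n hn
    have h5 := (C.u0 L hLt.le).1
    linarith
  have hnt : n < t := by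
    rcases Nat.lt_or_ge n t with h | h
    · exact h
    · have e : n = t := by omega
      rw [e] at hut hn0
      have h1 : 6 / θ < 1 := by
        rw [div_lt_one hθ0]
        linarith [show (6:ℝ) < 10 ^ 9 by norm_num]
      nlinarith
  have hup : u' n ≤ 2 * (k * k ^ D) := (cmp2 n hn).trans (by
    have := C.hi n hnt
    linarith)
  refine ⟨n, hLn, hnt, hnf, hmax, ?_, ?_, hup⟩
  · -- drop
    have h1 : u' t ^ 102 ≤ (6 / θ * u' n) ^ 102 := pow_le_pow_left₀ (C.u0' t le_rfl).1.le hut 102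
    refine h1.trans ?_
    have h2 : (6 / θ) ^ 102 * u' n ≤ 1 := by
      have h3 : k ^ D * (k * (k * k)) * k ^ 5 ≤ θ ^ 102 := by
        have h4 := Real.rpow_le_rpow (by positivity) C.th1 (by norm_num : (0:ℝ) ≤ 102)
        rw [← Real.rpow_mul hk0.le] at h4
        have h5 : θ ^ (102:ℝ) = θ ^ 102 := by exact_mod_cast Real.rpow_natCast θ 102
        rw [h5] at h4
        refine le_trans ?_ h4
        have e : k ^ D * (k * (k * k)) * k ^ 5 = k ^ ((D:ℝ) + 8) := by
          rw [Real.rpow_add hk0, Real.rpow_natCast]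
          have : k ^ (8:ℝ) = k ^ 8 := by exact_mod_cast Real.rpow_natCast k 8
          rw [this]
          ring
        rw [e]
        apply Real.rpow_le_rpow_of_exponent_le hk1
        linarith
      rw [div_pow, div_mul_eq_mul_div, div_le_one (by positivity)]
      calc (6:ℝ) ^ 102 * u' n ≤ 6 ^ 102 * (2 * (k * k ^ D)) := by gcongr
        _ = (6 ^ 102 * 2) * (k * k ^ D) := by ring
        _ ≤ (k * k * k ^ 5) * (k * k ^ D) := by
          have h6 : (6:ℝ) ^ 102 * 2 ≤ k * k * k ^ 5 := by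
            have h7 : ((10:ℝ) ^ 18) ^ 7 ≤ k ^ 7 := pow_le_pow_left₀ (by norm_num) C.hk 7
            have h8 : (6:ℝ) ^ 102 * 2 ≤ ((10:ℝ) ^ 18) ^ 7 := by norm_num
            calc (6:ℝ) ^ 102 * 2 ≤ ((10:ℝ) ^ 18) ^ 7 := h8
              _ ≤ k ^ 7 := h7
              _ = _ := by ring
          gcongr
        _ = k ^ D * (k * (k * k)) * k ^ 5 := by ring
        _ ≤ θ ^ 102 := h3
    calc (6 / θ * u' n) ^ 102 = ((6 / θ) ^ 102 * u' n) * u' n ^ 101 := by ring
      _ ≤ 1 * u' n ^ 101 := by gcongr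
      _ = u' n ^ 101 := one_mul _
  · -- lower bound
    rcases C.lo with h | ⟨i, hi, h⟩
    · have h1 := h j hjL hj
      -- u j ≥ (2θ/3)^100
      have h2 : (2 / 3 * θ) ^ 100 ≤ u j := by
        have h3 : (2 / 3 * θ * u t) ^ 100 ≤ u j ^ 100 := pow_le_pow_left₀ (by positivity) huj 100
        have h4 : (2 / 3 * θ) ^ 100 * u j ^ 99 ≤ u j * u j ^ 99 := by
          calc (2 / 3 * θ) ^ 100 * u j ^ 99 ≤ (2 / 3 * θ) ^ 100 * u t ^ 100 := by gcongr
            _ = (2 / 3 * θ * u t) ^ 100 := by ring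
            _ ≤ u j ^ 100 := h3
            _ = u j * u j ^ 99 := by ring
        exact le_of_mul_le_mul_right h4 (by positivity)
      have h5 : k ^ (D - 52) * (k * k) ≤ θ ^ 100 := by
        have h6 := Real.rpow_le_rpow (by positivity) C.th1 (by norm_num : (0:ℝ) ≤ 100)
        rw [← Real.rpow_mul hk0.le] at h6
        have h7 : θ ^ (100:ℝ) = θ ^ 100 := by exact_mod_cast Real.rpow_natCast θ 100
        rw [h7] at h6
        refine le_trans (le_of_eq ?_) h6
        have e1 : k ^ (D - 52) * (k * k) = k ^ (D - 50) := by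
          have : D - 50 = (D - 52) + 2 := by omega
          rw [this, pow_add]
          ring
        rw [e1, ← Real.rpow_natCast, Nat.cast_sub (by omega)]
        congr 1
        push_cast
        ring
      have h8 : (3 / 2 : ℝ) ^ 100 * 2 ≤ k * k := by
        have h9 : (10:ℝ) ^ 18 * 10 ^ 18 ≤ k * k := mul_le_mul C.hk C.hk (by norm_num) hk0.le
        refine le_trans ?_ h9
        norm_num
      have h10 : k ^ (D - 52) * ((3 / 2 : ℝ) ^ 100 * 2) ≤ θ ^ 100 :=
        (mul_le_mul_of_nonneg_left h8 (by positivity)).trans h5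
      have h11 : (2 / 3 * θ) ^ 100 = (2 / 3 : ℝ) ^ 100 * θ ^ 100 := mul_pow _ _ _
      have h12 : (2 / 3 : ℝ) ^ 100 * (3 / 2 : ℝ) ^ 100 = 1 := by
        rw [← mul_pow]; norm_num
      have h13 : 2 * k ^ (D - 52) ≤ u j := by
        calc 2 * k ^ (D - 52) = (2 / 3 : ℝ) ^ 100 * (k ^ (D - 52) * ((3 / 2 : ℝ) ^ 100 * 2)) := by
              calc 2 * k ^ (D - 52) = 1 * (2 * k ^ (D - 52)) := by ring
                _ = ((2 / 3 : ℝ) ^ 100 * (3 / 2 : ℝ) ^ 100) * (2 * k ^ (D - 52)) := by rw [h12]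
                _ = _ := by ring
          _ ≤ (2 / 3 : ℝ) ^ 100 * θ ^ 100 := mul_le_mul_of_nonneg_left h10 (by positivity)
          _ = (2 / 3 * θ) ^ 100 := h11.symm
          _ ≤ u j := h2
      linarith
    · have h1 := cmp1 i hi.le
      have h2 := hmax i hi.le
      have h3 : 2 * k ^ (D - 52) ≤ k ^ D := by
        have e : k ^ D = k ^ (D - 52) * k ^ 52 := by
          rw [← pow_add]
          congr 1
          omega
        rw [e]
        have h4 : (2:ℝ) ≤ k ^ 52 := by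
          calc (2:ℝ) ≤ k := le_trans (by norm_num) C.hk
            _ = k ^ 1 := (pow_one k).symm
            _ ≤ k ^ 52 := pow_le_pow_right₀ hk1 (by norm_num)
        have h5 : 0 < k ^ (D - 52) := by positivity
        nlinarith
      linarith

end Crest.Agent.R128.Clock
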