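import Mathlib
import Crest.Agent.R128.Skel
import Crest.Agent.R128.AccBoot
import Crest.Agent.R128.Near

/-!
# Row 128, measure half of V6 (helper22): integration of V2 on the frozen `Skel.lean`

* `measurable_RD`, `RD_mono`, `rho_mono`, `rho_zero`;
* `sum_rho_le`, `rho_ne_top`, `sum_rho_toReal_le` : `V2` data `(D0, C, k)` integrated.
-/

set_option autoImplicit false
open MeasureTheory Filter Topology Finset
open scoped ENNReal NNReal

namespace Crest.Agent.R128.CloseA

open Crest.Agent.R128.Acc Crest.Agent.R128.AccRoot Crest.Agent.R128.Lam0 Crest.Agent.R128.Skel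

theorem measurable_DDn' (k : ℝ) (L N : ℕ) (X : ℝ) (n n' : ℕ) :
    MeasurableSet {z | DDn k L N X z n n'} := by
  by_cases h0 : L ≤ n ∧ n < n' ∧ n' ≤ N
  · have e : {z | DDn k L N X z n n'} =
        ((⋂ (j : ℕ) (_ : j < n), {z | ‖fld k z j‖ < ‖fld k z n‖}) ∩
        (⋂ (j : ℕ) (_ : j ≤ n'), {z | ‖fld k z j‖ ≤ ‖fld k z n‖}) ∩
        {z | ‖fld k z n'‖ ^ 102 ≤ ‖fld k z n‖ ^ 101} ∩ {z | X ≤ ‖fld k z n‖} ∩
        {z | ‖fld k z n‖ ≤ k ^ 2 * X} ∩ {z | RV k L z n}) := by
      ext z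
      simp only [Set.mem_inter_iff, Set.mem_ofPred_eq, Set.mem_iInter]
      constructor
      · rintro ⟨a, b, c, d, e, f, g, h, i⟩
        exact ⟨⟨⟨⟨⟨d, e⟩, f⟩, g⟩, h⟩, i⟩
      · rintro ⟨⟨⟨⟨⟨d, e⟩, f⟩, g⟩, h⟩, i⟩
        exact ⟨h0.1, h0.2.1, h0.2.2, d, e, f, g, h, i⟩
    rw [e]
    refine ((((MeasurableSet.inter ?_ ?_).inter ?_).inter ?_).inter ?_).inter (measurable_RV k L n)
    · exact MeasurableSet.iInter fun j => MeasurableSet.iInter fun _ =>
        measurableSet_lt (measurable_nf k j) (measurable_nf k n)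
    · exact MeasurableSet.iInter fun j => MeasurableSet.iInter fun _ =>
        measurableSet_le (measurable_nf k j) (measurable_nf k n)
    · exact measurableSet_le ((measurable_nf k n').pow_const 102) ((measurable_nf k n).pow_const 101)
    · exact measurableSet_le measurable_const (measurable_nf k n)
    · exact measurableSet_le (measurable_nf k n) measurable_const
  · have e : {z | DDn k L N X z n n'} = ∅ := by
      ext z
      simp only [Set.mem_ofPred_eq, Set.mem_empty_iff_false, iff_false]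
      intro h
      exact h0 ⟨h.hLn, h.lt, h.le⟩
    rw [e]
    exact MeasurableSet.empty

theorem measurable_RD (k : ℝ) (D M : ℕ) : MeasurableSet (RD k D M) := by
  have e : RD k D M = ⋃ (n : ℕ) (n' : ℕ), ({z | DDn k 1000 M (k ^ D) z n n'} ∩
      {z | RV k 1000 z (n' - 1)}) := by
    ext z
    simp only [RD, Set.mem_ofPred_eq, Set.mem_iUnion, Set.mem_inter_iff]
  rw [e]
  exact MeasurableSet.iUnion fun n => MeasurableSet.iUnion fun n' =>
    (measurable_DDn' k 1000 M _ n n').inter (measurable_RV k 1000 _)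

theorem RD_mono (k : ℝ) (D : ℕ) {M M' : ℕ} (h : M ≤ M') : RD k D M ⊆ RD k D M' := by
  rintro z ⟨n, n', hd, h2⟩
  exact ⟨n, n', ⟨hd.hLn, hd.lt, hd.le.trans h, hd.first, hd.max, hd.drop, hd.lo, hd.hi, hd.val⟩, h2⟩

theorem rho_mono (k : ℝ) (D0 : ℕ) : Monotone (rho k D0) := fun _ _ h =>
  ENNReal.tsum_le_tsum fun _ => measure_mono (RD_mono k _ h)

theorem rho_zero (k : ℝ) (D0 : ℕ) : rho k D0 0 = 0 := by
  unfold rho
  have : ∀ D, RD k (D0 + D) 0 = ∅ := by
    intro D
    ext z
    simp only [Set.mem_empty_iff_false, iff_false]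
    rintro ⟨n, n', hd, -⟩
    have h1 := hd.lt
    have h2 := hd.le
    omega
  simp [this]

open Classical in
theorem lintegral_visits {k : ℝ} (s : Finset ℕ) (A : ℕ → Set Tor) (hA : ∀ v, MeasurableSet (A v)) :
    ∫⁻ z : Tor, ((s.filter fun v => (T k)^[v] z ∈ A v).card : ℝ≥0∞) = ∑ v ∈ s, volume (A v) := by
  have e : ∀ z : Tor, ((s.filter fun v => (T k)^[v] z ∈ A v).card : ℝ≥0∞) =
      ∑ v ∈ s, (A v).indicator (fun _ => (1 : ℝ≥0∞)) ((T k)^[v] z) := by
    intro z
    rw [Finset.card_filter, Nat.cast_sum]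
    refine Finset.sum_congr rfl fun i _ => ?_
    by_cases h : (T k)^[i] z ∈ A i <;> simp [h]
  simp only [e]
  have hm : ∀ v ∈ s, Measurable fun z : Tor => (A v).indicator (fun _ => (1 : ℝ≥0∞)) ((T k)^[v] z) :=
    fun v _ => (measurable_const.indicator (hA v)).comp ((mp_T k).iterate v).measurable
  rw [lintegral_finsetSum _ hm]
  refine Finset.sum_congr rfl fun v _ => ?_
  rw [((mp_T k).iterate v).lintegral_comp (measurable_const.indicator (hA v)),
    lintegral_indicator_const (hA v), one_mul]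

open Classical in
/-- `V2` integrated, in `ℝ≥0∞` -/
theorem sum_rho_le {k : ℝ} (hk : 1 < k) {D0 C : ℕ} (N : ℕ)
    (h : ∀ (J : ℕ) (z : Tor),
      ∑ D ∈ range J, #{v ∈ range N | (T k)^[v] z ∈ RD k (D0 + D) (N - v)} ≤ C * cross k N z) :
    ∑ v ∈ range N, rho k D0 (N - v) ≤ ENNReal.ofReal (C * ∫ z : Tor, (cross k N z : ℝ)) := by
  have hk0 : 0 < k := by linarith
  -- swap the sums
  have e1 : ∑ v ∈ range N, rho k D0 (N - v) =
      ∑' D : ℕ, ∑ v ∈ range N, volume (RD k (D0 + D) (N - v)) := by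
    unfold rho
    rw [Summable.tsum_finsetSum (fun _ _ => ENNReal.summable)]
  rw [e1]
  refine ENNReal.tsum_le_of_sum_range_le fun J => ?_
  have e2 : ∑ D ∈ range J, ∑ v ∈ range N, volume (RD k (D0 + D) (N - v)) =
      ∫⁻ z : Tor, ((∑ D ∈ range J, #{v ∈ range N | (T k)^[v] z ∈ RD k (D0 + D) (N - v)} : ℕ) :
        ℝ≥0∞) := by
    have : ∀ D ∈ range J, ∑ v ∈ range N, volume (RD k (D0 + D) (N - v)) =
        ∫⁻ z : Tor, ((#{v ∈ range N | (T k)^[v] z ∈ RD k (D0 + D) (N - v)} : ℕ) : ℝ≥0∞) :=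
      fun D _ => (lintegral_visits (range N) (fun v => RD k (D0 + D) (N - v))
        (fun v => measurable_RD k _ _)).symm
    rw [Finset.sum_congr rfl this]
    rw [← lintegral_finsetSum']
    · refine lintegral_congr fun z => ?_
      push_cast
      rfl
    · intro D _
      have e : (fun z : Tor => ((#{v ∈ range N | (T k)^[v] z ∈ RD k (D0 + D) (N - v)} : ℕ) : ℝ≥0∞)) =
          fun z => ∑ v ∈ range N, (RD k (D0 + D) (N - v)).indicator (fun _ => (1 : ℝ≥0∞))
            ((T k)^[v] z) := by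
        funext z
        rw [Finset.card_filter, Nat.cast_sum]
        refine Finset.sum_congr rfl fun i _ => ?_
        by_cases h : (T k)^[i] z ∈ RD k (D0 + D) (N - i) <;> simp [h]
      rw [e]
      exact (Finset.measurable_sum _ fun v _ => (measurable_const.indicator
        (measurable_RD k _ _)).comp ((mp_T k).iterate v).measurable).aemeasurable
  rw [e2]
  calc _ ≤ ∫⁻ z : Tor, ((C : ℝ≥0∞) * (cross k N z : ℝ≥0∞)) := by
        refine lintegral_mono fun z => ?_
        have h3 := h J z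
        have h4 : (C : ℝ≥0∞) * (cross k N z : ℝ≥0∞) = ((C * cross k N z : ℕ) : ℝ≥0∞) := by
          push_cast; rfl
        rw [h4]
        refine Nat.cast_le.2 (le_trans (le_of_eq ?_) h3)
        refine Finset.sum_congr rfl fun D _ => ?_
        congr 1
    _ = ENNReal.ofReal (C * ∫ z : Tor, (cross k N z : ℝ)) := by
        rw [lintegral_const_mul' _ _ (ENNReal.natCast_ne_top C),
          ENNReal.ofReal_mul (Nat.cast_nonneg C), ENNReal.ofReal_natCast,
          AccBoot.lintegral_cross_eq hk N]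

open Classical in
/-- finiteness: the data of `V2` for all windows `≤ M` (in fact only the window `M` is used) -/
theorem rho_ne_top {k : ℝ} (hk : 1 < k) {D0 C : ℕ} (M : ℕ)
    (h : ∀ (J : ℕ) (z : Tor),
      ∑ D ∈ range J, #{v ∈ range M | (T k)^[v] z ∈ RD k (D0 + D) (M - v)} ≤ C * cross k M z) :
    rho k D0 M ≠ ∞ := by
  rcases Nat.eq_zero_or_pos M with h0 | h0
  · rw [h0, rho_zero]; exact ENNReal.zero_ne_top
  · have h1 : rho k D0 (M - 0) ≤ ∑ v ∈ range M, rho k D0 (M - v) :=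
      Finset.single_le_sum (f := fun v => rho k D0 (M - v)) (fun _ _ => bot_le)
        (Finset.mem_range.2 h0)
    rw [Nat.sub_zero] at h1
    exact ne_top_of_le_ne_top ENNReal.ofReal_ne_top (h1.trans (sum_rho_le hk M h))

open Classical in
/-- (m2), (m3) and the reflected form used by `BootN.result_of_closing` -/
theorem sum_rho_toReal_le {k : ℝ} (hk : 1 < k) {D0 C : ℕ}
    (h : ∀ (N J : ℕ) (z : Tor),
      ∑ D ∈ range J, #{v ∈ range N | (T k)^[v] z ∈ RD k (D0 + D) (N - v)} ≤ C * cross k N z) :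
    (∀ M, rho k D0 M ≠ ∞) ∧ Monotone (fun M => (rho k D0 M).toReal) ∧
    (∀ N : ℕ, ∑ v ∈ range N, (rho k D0 (N - v)).toReal ≤ C * ∫ z : Tor, (cross k N z : ℝ)) ∧
    ∀ N : ℕ, ∑ v ∈ range (N + 1), (rho k D0 v).toReal ≤ C * ∫ z : Tor, (cross k N z : ℝ) := by
  have hfin : ∀ M, rho k D0 M ≠ ∞ := fun M => rho_ne_top hk M (h M)
  have h1 : ∀ N : ℕ, ∑ v ∈ range N, (rho k D0 (N - v)).toReal ≤
      C * ∫ z : Tor, (cross k N z : ℝ) := by
    intro N
    have hI : 0 ≤ ∫ z : Tor, (cross k N z : ℝ) := integral_nonneg fun _ => Nat.cast_nonneg _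
    rw [← ENNReal.toReal_sum fun v _ => hfin _]
    have h3 := ENNReal.toReal_mono ENNReal.ofReal_ne_top (sum_rho_le hk N (h N))
    rwa [ENNReal.toReal_ofReal (by positivity)] at h3
  refine ⟨hfin, fun a b hab => ENNReal.toReal_mono (hfin b) (rho_mono k D0 hab), h1, fun N => ?_⟩
  have e1 : ∑ v ∈ range (N + 1), (rho k D0 v).toReal =
      ∑ v ∈ range N, (rho k D0 (N - v)).toReal := by
    rw [Finset.sum_range_succ', rho_zero, ENNReal.toReal_zero, add_zero]
    rw [← Finset.sum_range_reflect (fun v => (rho k D0 (v + 1)).toReal) N]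
    refine Finset.sum_congr rfl fun v hv => ?_
    rw [Finset.mem_range] at hv
    have : N - 1 - v + 1 = N - v := by omega
    rw [this]
  rw [e1]
  exact h1 N

end Crest.Agent.R128.CloseA
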