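import Mathlib
import Crest.Agent.R128.Close
import Crest.Agent.R128.BootN

/-!
# Row 128, V6 (helper744): the inputs V1, V2, V4, V5 in the window `[0, N]` give S0172
-/

set_option autoImplicit false
open MeasureTheory Filter Topology Finset
open scoped ENNReal
open Crest.AnalysisR.StandardFamily

namespace Crest.Agent.R128.Close

open Crest.Agent.R128.Acc Crest.Agent.R128.AccRoot Crest.Agent.R128.CloseV2

/-- All inputs of the closing at the parameter `k` (constants `C`, `Q0` independent of `k`,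
`e = e(k) → 0`).  `Rp M` (`Rm M`): forward (backward) violation completed within `M` steps; `A i`:
aligned tips with a fresh block of scale `16 ^ i * Q0`; `bad`: near critical / long durations;
`ρ N`: lag sums. -/
structure Inputs (k C e : ℝ) (Q0 : ℕ) (Rp Rm A : ℕ → Set Tor) (bad : Set Tor)
    (nf : ℕ → Tor → ℕ → ℕ → Prop) (ρ : ℕ → ℕ → ℝ) : Prop where
  mRp : ∀ M, MeasurableSet (Rp M)
  mRm : ∀ M, MeasurableSet (Rm M)
  mA : ∀ i, MeasurableSet (A i)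
  mbad : MeasurableSet bad
  /-- V5, deterministic part -/
  fresh : ∀ (N : ℕ) (z : Tor) (t i : ℕ), 16 ^ (i + 1) * Q0 ≤ mt (bz k z) (Real.log k) N t →
    FB (fun r => nf N z t (lv k z t r)) Q0 i → (T k)^[t] z ∈ A i
  /-- V5, area -/
  area : ∀ I, ∑ i ∈ range I, ((16 : ℝ≥0∞) ^ i * Q0) * volume (A i) ≤ ENNReal.ofReal (C * e)
  /-- V1 -/
  charge : ∀ (N : ℕ) (z : Tor) (S : Finset (ℕ × ℕ)),
    (∀ p ∈ S, Comp (bz k z) (Real.log k) N p.1 p.2 ∧ p.2 + Q0 ≤ ⌈bz k z p.1 / Real.log k⌉₊ ∧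
      nf N z p.1 p.2) → (S.card : ℝ≥0∞) ≤ ENNReal.ofReal C *
      (∑ v ∈ range (N + 1), (Rp (N - v) ∩ Rm v).indicator (fun _ => (1 : ℝ≥0∞)) ((T k)^[v] z) +
        vis (T k) bad (N + 1) z)
  vbad : volume bad ≤ ENNReal.ofReal (C * e)
  mono : ∀ N, Monotone (ρ N)
  nonneg : ∀ N n, 0 ≤ ρ N n
  /-- V3 + V4 -/
  double : ∀ N v, v ≤ N → volume (Rp (N - v) ∩ Rm v) ≤
    ENNReal.ofReal (C * ((ρ N (N - v) + e) * (ρ N v + e)))
  /-- V2 -/
  single : ∀ N, ∑ v ∈ range (N + 1), ρ N v ≤ C * ((∫ z : Tor, (cross k N z : ℝ)) + (N + 1) * e)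

theorem Inputs.int_le {k C e : ℝ} {Q0 : ℕ} {Rp Rm A : ℕ → Set Tor} {bad : Set Tor}
    {nf : ℕ → Tor → ℕ → ℕ → Prop} {ρ : ℕ → ℕ → ℝ} (h : Inputs k C e Q0 Rp Rm A bad nf ρ)
    (hk : 1 < k) (hC : 1 ≤ C) (he : 0 < e) (hQ0 : 1 ≤ Q0) (hek : 1 ≤ e * k) (N : ℕ) :
    (∫ z : Tor, (cross k N z : ℝ)) ≤ (800 * C ^ 2 * Q0) * (N + 1) * e +
      (800 * C ^ 2 * Q0) * ∑ v ∈ range (N + 1), (ρ N (N - v) + e) * (ρ N v + e) := by
  have hC0 : 0 < C := by linarith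
  have hk0 : 0 < k := by linarith
  have hQ : (1 : ℝ) ≤ Q0 := by exact_mod_cast hQ0
  set X : ℝ := ∑ v ∈ range (N + 1), (ρ N (N - v) + e) * (ρ N v + e) with hX
  have hX0 : 0 ≤ X := Finset.sum_nonneg fun v _ =>
    mul_nonneg (add_nonneg (h.nonneg _ _) he.le) (add_nonneg (h.nonneg _ _) he.le)
  have h1 := lint_cross_le hk hQ0 (nf N) h.mA (h.fresh N) h.mRp h.mRm h.mbad (h.charge N) h.area
  have h2 : ∫⁻ z : Tor, (cross k N z : ℝ≥0∞) = ENNReal.ofReal (∫ z : Tor, (cross k N z : ℝ)) := by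
    rw [ofReal_integral_eq_lintegral_ofReal (integrable_cross hk N)
      (Eventually.of_forall fun z => Nat.cast_nonneg _)]
    refine lintegral_congr fun z => ?_
    rw [ENNReal.ofReal_natCast]
  have hV : volume {z : Tor | |V k z.2| ≤ 2} ≤ ENNReal.ofReal (2 / k) := by
    have h3 : (volume : Measure Tor).real {z : Tor | |V k z.2| ≤ 2} ≤ 2 / k :=
      volumeReal_V_le hk.le (by positivity)
    rw [measureReal_def] at h3
    rw [ENNReal.le_ofReal_iff_toReal_le (measure_ne_top _ _) (by positivity)]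
    exact h3
  have hS : ∑ v ∈ range (N + 1), volume (Rp (N - v) ∩ Rm v) ≤ ENNReal.ofReal (C * X) := by
    calc ∑ v ∈ range (N + 1), volume (Rp (N - v) ∩ Rm v)
        ≤ ∑ v ∈ range (N + 1), ENNReal.ofReal (C * ((ρ N (N - v) + e) * (ρ N v + e))) :=
          Finset.sum_le_sum fun v hv => h.double N v (by rw [mem_range] at hv; omega)
      _ = ENNReal.ofReal (C * X) := by
          rw [← ENNReal.ofReal_sum_of_nonneg, hX, Finset.mul_sum]
          intro v _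
          exact mul_nonneg hC0.le
            (mul_nonneg (add_nonneg (h.nonneg _ _) he.le) (add_nonneg (h.nonneg _ _) he.le))
  have hN : (N : ℝ≥0∞) = ENNReal.ofReal N := (ENNReal.ofReal_natCast N).symm
  have hQ' : (Q0 : ℝ≥0∞) = ENNReal.ofReal Q0 := (ENNReal.ofReal_natCast Q0).symm
  have h4 : ∫⁻ z : Tor, (cross k N z : ℝ≥0∞) ≤ ENNReal.ofReal
      (N * (16 * Q0 * (2 / k) + 256 * (C * e)) + 256 * (C * (C * X + (N + 1) * (C * e)))) := by
    refine h1.trans ?_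
    have e1 : (N : ℝ≥0∞) * (16 * Q0 * volume {z : Tor | |V k z.2| ≤ 2} +
        256 * ENNReal.ofReal (C * e)) ≤
        ENNReal.ofReal (N * (16 * Q0 * (2 / k) + 256 * (C * e))) := by
      rw [ENNReal.ofReal_mul (Nat.cast_nonneg _), ENNReal.ofReal_add (by positivity) (by positivity),
        ENNReal.ofReal_mul (by positivity : (0:ℝ) ≤ 16 * Q0),
        ENNReal.ofReal_mul (by norm_num : (0:ℝ) ≤ 16), ENNReal.ofReal_mul (by norm_num : (0:ℝ) ≤ 256),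
        hN, hQ']
      have : ENNReal.ofReal 16 = 16 := by simp
      have h256 : ENNReal.ofReal 256 = 256 := by simp
      rw [this, h256]
      gcongr
    have e2 : (256 : ℝ≥0∞) * (ENNReal.ofReal C * (∑ v ∈ range (N + 1),
        volume (Rp (N - v) ∩ Rm v) + (N + 1) * volume bad)) ≤
        ENNReal.ofReal (256 * (C * (C * X + (N + 1) * (C * e)))) := by
      rw [ENNReal.ofReal_mul (by norm_num : (0:ℝ) ≤ 256), ENNReal.ofReal_mul hC0.le,
        ENNReal.ofReal_add (by positivity) (by positivity),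
        ENNReal.ofReal_mul (by positivity : (0:ℝ) ≤ (N:ℝ) + 1)]
      have h256 : ENNReal.ofReal 256 = 256 := by simp
      have hN1 : ENNReal.ofReal ((N:ℝ) + 1) = (N : ℝ≥0∞) + 1 := by
        rw [ENNReal.ofReal_add (Nat.cast_nonneg _) (by norm_num), ENNReal.ofReal_natCast]
        simp
      rw [h256, hN1]
      gcongr
      exact h.vbad
    rw [ENNReal.ofReal_add (by positivity) (by positivity)]
    exact add_le_add e1 e2
  rw [h2] at h4
  have h5 := (ENNReal.ofReal_le_ofReal_iff (by positivity)).mp h4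
  refine h5.trans ?_
  have hN0 : (0 : ℝ) ≤ N := Nat.cast_nonneg N
  have hk2 : 2 / k ≤ 2 * e := by
    rw [div_le_iff₀ hk0]
    nlinarith
  have hCQ : 1 ≤ C ^ 2 * Q0 := by nlinarith [one_le_pow₀ hC (n := 2)]
  have a1 : N * (16 * Q0 * (2 / k)) ≤ 32 * (C ^ 2 * Q0) * ((N + 1) * e) := by
    have b1 : N * (16 * Q0 * (2 / k)) ≤ N * (16 * Q0 * (2 * e)) := by gcongr
    have b2 : (N:ℝ) * (16 * Q0 * (2 * e)) = 32 * (1 * Q0) * (N * e) := by ring
    have b3 : 32 * (1 * (Q0:ℝ)) * (N * e) ≤ 32 * (C ^ 2 * Q0) * ((N + 1) * e) := by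
      have : (1:ℝ) ≤ C ^ 2 := one_le_pow₀ hC
      gcongr
      linarith
    linarith
  have a2 : (N:ℝ) * (256 * (C * e)) ≤ 256 * (C ^ 2 * Q0) * ((N + 1) * e) := by
    have b2 : (N:ℝ) * (256 * (C * e)) = 256 * (C * 1) * (N * e) := by ring
    rw [b2]
    have : C ≤ C ^ 2 := by nlinarith
    gcongr
    linarith
  have a3 : 256 * (C * (C * X)) ≤ 800 * C ^ 2 * Q0 * X := by
    have b2 : 256 * (C * (C * X)) = 256 * C ^ 2 * 1 * X := by ring
    rw [b2]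
    have : (256:ℝ) ≤ 800 := by norm_num
    gcongr
  have a4 : 256 * (C * ((N + 1) * (C * e))) ≤ 256 * (C ^ 2 * Q0) * (((N:ℝ) + 1) * e) := by
    have b2 : 256 * (C * (((N:ℝ) + 1) * (C * e))) = 256 * (C ^ 2 * 1) * (((N:ℝ) + 1) * e) := by ring
    rw [b2]
    gcongr
  nlinarith [mul_nonneg (mul_nonneg (by norm_num : (0:ℝ) ≤ 256) (by positivity : 0 ≤ C ^ 2 * (Q0:ℝ)))
    (by positivity : 0 ≤ ((N:ℝ) + 1) * e)]

/-- **V1, V2, V4, V5 give S0172** -/
theorem result_of_inputs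
    (H : ∃ (C : ℝ) (Q0 : ℕ), 1 ≤ C ∧ 1 ≤ Q0 ∧ ∃ k₁ : ℝ, ∀ k : ℝ, k₁ ≤ k →
      ∃ e : ℝ, 0 < e ∧ 13 ≤ e ^ 2 * k ∧ 72 * (800 * C ^ 2 * Q0) ^ 4 * e ≤ 1 ∧
      ∃ Rp Rm A bad nf ρ, Inputs k C e Q0 Rp Rm A bad nf ρ) :
    ∃ k₀ : ℝ, 0 < k₀ ∧ ∀ k : ℝ, k₀ ≤ k →
      0 < MeasureTheory.volume ({p : ℝ × ℝ | ∃ c : ℝ, 0 < c ∧
          ∃ᶠ n : ℕ in Filter.atTop, c * n ≤ Real.log ‖fderiv ℝ (standardMapLift k)^[n] p‖} ∩
        Set.Ico (0 : ℝ) 1 ×ˢ Set.Ico (0 : ℝ) 1) := by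
  obtain ⟨C, Q0, hC, hQ0, k₁, H⟩ := H
  have hQ : (1 : ℝ) ≤ Q0 := by exact_mod_cast hQ0
  have hC2 : (1:ℝ) ≤ C ^ 2 := one_le_pow₀ hC
  have hbig : 1 ≤ 800 * C ^ 2 * Q0 := by nlinarith
  have hCb : C ≤ 800 * C ^ 2 * Q0 := by nlinarith
  apply BootN.result_of_closing
  refine ⟨800 * C ^ 2 * Q0, hbig, max k₁ 2, fun k hk => ?_⟩
  obtain ⟨e, he, h13, h72, Rp, Rm, A, bad, nf, ρ, h⟩ := H k ((le_max_left _ _).trans hk)
  have hk2 : 2 ≤ k := (le_max_right _ _).trans hk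
  have he1 : e ≤ 1 := by
    have : 1 ≤ 72 * (800 * C ^ 2 * Q0) ^ 4 := by
      have := one_le_pow₀ hbig (n := 4)
      linarith
    nlinarith
  have hek : 1 ≤ e * k := by
    have : e ^ 2 * k ≤ e * k := by
      have : e ^ 2 ≤ e := by nlinarith
      exact mul_le_mul_of_nonneg_right this (by linarith)
    linarith
  refine ⟨e, he, h13, h72, ρ, h.mono, h.nonneg,
    fun N => h.int_le (by linarith) hC he hQ0 hek N, fun N => (h.single N).trans ?_⟩
  have h0 : 0 ≤ (∫ z : Tor, (cross k N z : ℝ)) + (N + 1) * e :=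
    add_nonneg (integral_nonneg fun _ => Nat.cast_nonneg _) (by positivity)
  exact mul_le_mul_of_nonneg_right hCb h0

end Crest.Agent.R128.Close
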