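import Crest.Agent.R128.Close

/-!
# Row 128, V6 with a fraction parameter (helper764)

`CloseV2.FB` asks for fewer than `Q` bad depths among the `15 Q` depths of `[Q, 16 Q)`.  The payment
lemma (grid step of 24 `k`-levels, union over patterns) needs an arbitrary small fraction:
`FBR R` : `R * #bad < Q`.  `lint_cross_le` is `Close.lint_cross_le` with `FB` replaced by `FBR R`
and `256 * C1` by `256 * R * C1`.
-/

set_option autoImplicit false
open MeasureTheory Filter Topology Finset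
open scoped ENNReal
open Crest.AnalysisR.StandardFamily

namespace Crest.Agent.R128.CloseR764

open Crest.Agent.R128.Acc Crest.Agent.R128.AccRoot Crest.Agent.R128.CloseV2 Crest.Agent.R128.Close

open Classical in
/-- `R` times the number of non-fresh depths in the block `[Q, 16 Q)`, `Q = 16 ^ i * Q0`, is
smaller than `Q` -/
def FBR (R : ℕ) (nf : ℕ → Prop) (Q0 i : ℕ) : Prop :=
  R * ((Ico (16 ^ i * Q0) (16 ^ (i + 1) * Q0)).filter nf).card < 16 ^ i * Q0

theorem FBR_one (nf : ℕ → Prop) (Q0 i : ℕ) : FBR 1 nf Q0 i ↔ FB nf Q0 i := by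
  unfold FBR FB
  rw [one_mul]

/-- in a block with `FBR R` the bad depths are few: `R * #bad ≤ Q` and the block has `15 Q` depths -/
theorem FBR.card_Ico (Q0 i : ℕ) : (Ico (16 ^ i * Q0) (16 ^ (i + 1) * Q0)).card = 15 * (16 ^ i * Q0) := by
  rw [Nat.card_Ico]
  have : 16 ^ (i + 1) * Q0 = 16 * (16 ^ i * Q0) := by ring
  omega

open Classical in
/-- pointwise block decomposition -/
theorem block_le {R h Q0 : ℕ} (hR : 1 ≤ R) (hQ0 : 1 ≤ Q0) (nf : ℕ → Prop) (I : ℕ)
    (hI : h < 16 ^ (I + 1) * Q0) :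
    h ≤ 16 * Q0 + 256 * (∑ i ∈ range I,
        if 16 ^ (i + 1) * Q0 ≤ h ∧ FBR R nf Q0 i then 16 ^ i * Q0 else 0) +
      256 * R * ((Ico Q0 h).filter nf).card := by
  induction I with
  | zero =>
    simp only [zero_add, pow_one] at hI
    have h0 := Nat.zero_le (256 * (∑ i ∈ range 0,
        if 16 ^ (i + 1) * Q0 ≤ h ∧ FBR R nf Q0 i then 16 ^ i * Q0 else 0))
    have h1 := Nat.zero_le (256 * R * ((Ico Q0 h).filter nf).card)
    omega
  | succ I ih =>
    rw [Finset.sum_range_succ]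
    rcases lt_or_ge h (16 ^ (I + 1) * Q0) with h1 | h1
    · have h2 := ih h1
      have h3 := Nat.zero_le (if 16 ^ (I + 1) * Q0 ≤ h ∧ FBR R nf Q0 I then 16 ^ I * Q0 else 0)
      rw [Nat.mul_add]
      omega
    · have e : 16 ^ (I + 1 + 1) * Q0 = 256 * (16 ^ I * Q0) := by ring
      rw [e] at hI
      by_cases hf : FBR R nf Q0 I
      · rw [if_pos ⟨h1, hf⟩, Nat.mul_add]
        have h2 := Nat.zero_le (256 * ∑ i ∈ range I,
          if 16 ^ (i + 1) * Q0 ≤ h ∧ FBR R nf Q0 i then 16 ^ i * Q0 else 0)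
        have h3 := Nat.zero_le (256 * R * ((Ico Q0 h).filter nf).card)
        omega
      · unfold FBR at hf
        push Not at hf
        have hsub : (Ico (16 ^ I * Q0) (16 ^ (I + 1) * Q0)).filter nf ⊆ (Ico Q0 h).filter nf := by
          apply Finset.filter_subset_filter
          apply Finset.Ico_subset_Ico
          · have : 1 ≤ 16 ^ I := Nat.one_le_pow _ _ (by norm_num)
            nlinarith
          · exact h1
        have hc := hf.trans (Nat.mul_le_mul_left R (Finset.card_le_card hsub))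
        have h2 := Nat.zero_le (256 * (∑ i ∈ range I,
          (if 16 ^ (i + 1) * Q0 ≤ h ∧ FBR R nf Q0 i then 16 ^ i * Q0 else 0) +
          (if 16 ^ (I + 1) * Q0 ≤ h ∧ FBR R nf Q0 I then 16 ^ I * Q0 else 0)))
        have h4 : 256 * R * ((Ico Q0 h).filter nf).card =
            256 * (R * ((Ico Q0 h).filter nf).card) := by ring
        rw [h4]
        omega

variable {Ω : Type*} [MeasurableSpace Ω] {μ : Measure Ω}

omit [MeasurableSpace Ω] in
open Classical in
/-- **Closing, pointwise** (`CloseV2.close_pt` with the fraction parameter). -/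
theorem close_pt {e : Ω → Ω} {z : Ω} {R N Q0 I : ℕ} (hR : 1 ≤ R) (hQ0 : 1 ≤ Q0)
    {tops : Finset ℕ} {h : ℕ → ℕ}
    {nf : ℕ → ℕ → Prop} {crit bad : Set Ω} {A : ℕ → Set Ω} {C1 : ℝ≥0∞} {N' : ℕ}
    (hI : ∀ t ∈ tops, h t < 16 ^ (I + 1) * Q0)
    (htops : tops ⊆ range N) (hcrit : ∀ t ∈ tops, e^[t] z ∈ crit)
    (hA : ∀ t ∈ tops, ∀ i < I, 16 ^ (i + 1) * Q0 ≤ h t → FBR R (nf t) Q0 i → e^[t] z ∈ A i)
    (hbad : ((∑ t ∈ tops, ((Ico Q0 (h t)).filter (nf t)).card : ℕ) : ℝ≥0∞) ≤ C1 * vis e bad N' z) :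
    ((∑ t ∈ tops, h t : ℕ) : ℝ≥0∞) ≤ 16 * Q0 * vis e crit N z +
      256 * (∑ i ∈ range I, (16 ^ i * Q0) * vis e (A i) N z) +
      256 * R * (C1 * vis e bad N' z) := by
  have h1 : (∑ t ∈ tops, h t) ≤ 16 * Q0 * tops.card +
      256 * (∑ i ∈ range I, (16 ^ i * Q0) *
        (tops.filter (fun t => 16 ^ (i + 1) * Q0 ≤ h t ∧ FBR R (nf t) Q0 i)).card) +
      256 * R * (∑ t ∈ tops, ((Ico Q0 (h t)).filter (nf t)).card) := by
    calc (∑ t ∈ tops, h t) ≤ ∑ t ∈ tops, (16 * Q0 + 256 * (∑ i ∈ range I,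
          if 16 ^ (i + 1) * Q0 ≤ h t ∧ FBR R (nf t) Q0 i then 16 ^ i * Q0 else 0) +
            256 * R * ((Ico Q0 (h t)).filter (nf t)).card) :=
          Finset.sum_le_sum fun t ht => block_le hR hQ0 (nf t) I (hI t ht)
      _ = _ := by
          rw [Finset.sum_add_distrib, Finset.sum_add_distrib, Finset.sum_const, smul_eq_mul,
            ← Finset.mul_sum, ← Finset.mul_sum, Finset.sum_comm]
          have : ∀ i ∈ range I, (∑ t ∈ tops,
              if 16 ^ (i + 1) * Q0 ≤ h t ∧ FBR R (nf t) Q0 i then 16 ^ i * Q0 else 0) =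
              (16 ^ i * Q0) *
                (tops.filter (fun t => 16 ^ (i + 1) * Q0 ≤ h t ∧ FBR R (nf t) Q0 i)).card := by
            intro i _
            rw [← Finset.sum_filter, Finset.sum_const, smul_eq_mul, mul_comm]
          rw [Finset.sum_congr rfl this]
          ring
  have h2 : ((∑ t ∈ tops, h t : ℕ) : ℝ≥0∞) ≤ ((16 * Q0 * tops.card +
      256 * (∑ i ∈ range I, (16 ^ i * Q0) *
        (tops.filter (fun t => 16 ^ (i + 1) * Q0 ≤ h t ∧ FBR R (nf t) Q0 i)).card) +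
      256 * R * (∑ t ∈ tops, ((Ico Q0 (h t)).filter (nf t)).card) : ℕ) : ℝ≥0∞) := by
    exact_mod_cast h1
  refine h2.trans ?_
  push_cast
  gcongr ?_ + ?_ + ?_
  · gcongr
    exact card_le_vis htops hcrit
  · gcongr with i hi
    exact card_le_vis ((Finset.filter_subset _ _).trans htops) (fun t ht => by
      rw [Finset.mem_filter] at ht
      exact hA t ht.1 i (Finset.mem_range.mp hi) ht.2.1 ht.2.2)
  · have := hbad
    push_cast at this
    gcongr

open Classical in
theorem cross_pt {k : ℝ} (hk : 1 < k) {R N Q0 : ℕ} (hR : 1 ≤ R) (hQ0 : 1 ≤ Q0) (z : Tor)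
    (nf : ℕ → ℕ → Prop) (A : ℕ → Set Tor)
    (hfresh : ∀ t i, 16 ^ (i + 1) * Q0 ≤ mt (bz k z) (Real.log k) N t →
      FBR R (fun r => nf t (lv k z t r)) Q0 i → (T k)^[t] z ∈ A i) (Y : ℝ≥0∞)
    (hY : ∀ S : Finset (ℕ × ℕ), (∀ p ∈ S, Comp (bz k z) (Real.log k) N p.1 p.2 ∧
      p.2 + Q0 ≤ ⌈bz k z p.1 / Real.log k⌉₊ ∧ nf p.1 p.2) → (S.card : ℝ≥0∞) ≤ Y) (I : ℕ)
    (hI : ∀ t ∈ range N, mt (bz k z) (Real.log k) N t < 16 ^ (I + 1) * Q0) :
    (cross k N z : ℝ≥0∞) ≤ 16 * Q0 * vis (T k) {z | |V k z.2| ≤ 2} N z +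
      256 * (∑ i ∈ range I, (16 ^ i * Q0) * vis (T k) (A i) N z) + 256 * R * Y := by
  have hl : 0 < Real.log k := Real.log_pos hk
  set β := bz k z with hβ
  set κ := Real.log k with hκ
  set tops : Finset ℕ := {t ∈ range N | mt β κ N t ≠ 0} with htops
  have h1 : cross k N z ≤ ∑ t ∈ tops, mt β κ N t := by
    refine (cross_le_sum_mt hl (bz_zero k z) N).trans (le_of_eq ?_)
    rw [htops, Finset.sum_filter]
    refine Finset.sum_congr rfl fun t _ => ?_
    split_ifs with h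
    · rfl
    · push Not at h; exact h
  have h2 := close_pt (e := T k) (z := z) (N := N) (Q0 := Q0) (I := I) hR hQ0 (tops := tops)
    (h := mt β κ N) (nf := fun t r => nf t (lv k z t r)) (crit := {z | |V k z.2| ≤ 2})
    (bad := Set.univ) (A := A) (C1 := Y) (N' := 1)
    (fun t ht => hI t (mem_filter.mp ht).1) (filter_subset _ _)
    (fun t ht => by
      obtain ⟨l, hl'⟩ := comp_of_mt_pos (mem_filter.mp ht).2
      exact crit_of_comp hl')
    (fun t _ i _ h3 h4 => hfresh t i h3 h4) ?_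
  · have hv : vis (T k) Set.univ 1 z = 1 := by
      unfold vis
      simp
    rw [hv, mul_one] at h2
    refine le_trans ?_ h2
    exact_mod_cast h1
  · have hv : vis (T k) Set.univ 1 z = 1 := by
      unfold vis
      simp
    rw [hv, mul_one]
    -- the pairs (top, level)
    set S : Finset (ℕ × ℕ) := tops.biUnion fun t =>
      ((Ico Q0 (mt β κ N t)).filter (fun r => nf t (lv k z t r))).image (fun r => (t, lv k z t r))
      with hS
    have hcard : S.card = ∑ t ∈ tops, ((Ico Q0 (mt β κ N t)).filter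
        (fun r => nf t (lv k z t r))).card := by
      rw [hS, card_biUnion]
      · refine Finset.sum_congr rfl fun t _ => ?_
        refine card_image_of_injOn ?_
        intro r hr r' hr' he
        rw [Finset.mem_coe, mem_filter, mem_Ico] at hr hr'
        have h3 : mt β κ N t ≤ ⌈β t / κ⌉₊ := mt_le
        simp only [Prod.mk.injEq, true_and] at he
        unfold lv at he
        rw [← hβ, ← hκ] at he
        omega
      · intro t _ t' _ hne
        rw [Function.onFun, Finset.disjoint_left]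
        intro p hp hp'
        rw [mem_image] at hp hp'
        obtain ⟨r, -, h5⟩ := hp
        obtain ⟨r', -, h6⟩ := hp'
        rw [← h5] at h6
        exact hne (congrArg Prod.fst h6).symm
    rw [← hcard]
    refine hY S fun p hp => ?_
    rw [hS, mem_biUnion] at hp
    obtain ⟨t, ht, hp⟩ := hp
    rw [mem_image] at hp
    obtain ⟨r, hr, rfl⟩ := hp
    rw [mem_filter, mem_Ico] at hr
    have h3 : mt β κ N t ≤ ⌈β t / κ⌉₊ := mt_le
    have hc : Comp β κ N t (⌈β t / κ⌉₊ - r) := comp_sub hl (by omega) (by omega)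
    refine ⟨hc, ?_, hr.2⟩
    show lv k z t r + Q0 ≤ ⌈β t / κ⌉₊
    unfold lv
    rw [← hβ, ← hκ]
    omega

/-- **closing in the window `[0, N]`**, fraction parameter `R` -/
theorem lint_cross_le {k : ℝ} (hk : 1 < k) {R N Q0 : ℕ} (hR : 1 ≤ R) (hQ0 : 1 ≤ Q0)
    (nf : Tor → ℕ → ℕ → Prop)
    {A : ℕ → Set Tor} (hA : ∀ i, MeasurableSet (A i))
    (hfresh : ∀ z t i, 16 ^ (i + 1) * Q0 ≤ mt (bz k z) (Real.log k) N t →
      FBR R (fun r => nf z t (lv k z t r)) Q0 i → (T k)^[t] z ∈ A i)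
    {Rp Rm : ℕ → Set Tor} (hRp : ∀ M, MeasurableSet (Rp M)) (hRm : ∀ M, MeasurableSet (Rm M))
    {bad : Set Tor} (hbad : MeasurableSet bad) {C1 s : ℝ≥0∞}
    (hV1 : ∀ z, ∀ S : Finset (ℕ × ℕ), (∀ p ∈ S, Comp (bz k z) (Real.log k) N p.1 p.2 ∧
      p.2 + Q0 ≤ ⌈bz k z p.1 / Real.log k⌉₊ ∧ nf z p.1 p.2) → (S.card : ℝ≥0∞) ≤
      C1 * (∑ v ∈ range (N + 1), (Rp (N - v) ∩ Rm v).indicator (fun _ => (1 : ℝ≥0∞)) ((T k)^[v] z) +
        vis (T k) bad (N + 1) z))
    (hs : ∀ I, ∑ i ∈ range I, ((16 : ℝ≥0∞) ^ i * Q0) * volume (A i) ≤ s) :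
    ∫⁻ z : Tor, (cross k N z : ℝ≥0∞) ≤
      N * (16 * Q0 * volume {z : Tor | |V k z.2| ≤ 2} + 256 * s) +
      256 * R * (C1 * (∑ v ∈ range (N + 1), volume (Rp (N - v) ∩ Rm v) +
        (N + 1) * volume bad)) := by
  have hl : 0 < Real.log k := Real.log_pos hk
  set B : Set Tor := {z | |V k z.2| ≤ 2} with hB
  have hBm : MeasurableSet B :=
    (isClosed_le ((continuous_V k).comp continuous_snd).abs continuous_const).measurableSet
  set Y : Tor → ℝ≥0∞ := fun z => C1 * (∑ v ∈ range (N + 1),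
    (Rp (N - v) ∩ Rm v).indicator (fun _ => (1 : ℝ≥0∞)) ((T k)^[v] z) +
      vis (T k) bad (N + 1) z) with hY
  have hYm1 : Measurable fun z : Tor => ∑ v ∈ range (N + 1),
      (Rp (N - v) ∩ Rm v).indicator (fun _ => (1 : ℝ≥0∞)) ((T k)^[v] z) :=
    Finset.measurable_sum _ fun v _ => measurable_ind ((hRp _).inter (hRm _)) k v
  have hYm2 : Measurable fun z : Tor => vis (T k) bad (N + 1) z :=
    measurable_vis (mp_T k).measurable hbad (N + 1)
  -- a bound for the heights
  obtain ⟨I, hI⟩ : ∃ I : ℕ, ∀ z : Tor, ∀ t ∈ range N,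
      mt (bz k z) (Real.log k) N t < 16 ^ (I + 1) * Q0 := by
    set L := Real.log (3 + 2 * Real.pi * k) with hL
    have hL0 : 0 ≤ L := Real.log_nonneg (by
      have : 0 ≤ 2 * Real.pi * k := by positivity
      linarith)
    refine ⟨⌈N * L / Real.log k⌉₊, fun z t ht => ?_⟩
    have h1 : mt (bz k z) (Real.log k) N t ≤ ⌈bz k z t / Real.log k⌉₊ := mt_le
    have h2 : bz k z t / Real.log k ≤ N * L / Real.log k := by
      refine div_le_div_of_nonneg_right ((bt_le_mul (by linarith) z t).trans ?_) hl.le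
      refine mul_le_mul_of_nonneg_right ?_ hL0
      exact_mod_cast (mem_range.mp ht).le
    have h3 : ⌈bz k z t / Real.log k⌉₊ ≤ ⌈N * L / Real.log k⌉₊ := Nat.ceil_mono h2
    set M := ⌈N * L / Real.log k⌉₊ with hM
    have h4 : M < 16 ^ (M + 1) := by
      calc M < 2 ^ M := Nat.lt_two_pow_self
        _ ≤ 16 ^ M := Nat.pow_le_pow_left (by norm_num) M
        _ ≤ 16 ^ (M + 1) := Nat.pow_le_pow_right (by norm_num) (by omega)
    have h5 : 16 ^ (M + 1) ≤ 16 ^ (M + 1) * Q0 := Nat.le_mul_of_pos_right _ hQ0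
    omega
  have hpt : ∀ z : Tor, (cross k N z : ℝ≥0∞) ≤ 16 * Q0 * vis (T k) B N z +
      256 * (∑ i ∈ range I, (16 ^ i * Q0) * vis (T k) (A i) N z) + 256 * R * Y z := fun z =>
    cross_pt hk hR hQ0 z (nf z) A (hfresh z) (Y z) (hV1 z) I (hI z)
  have hm1 : Measurable fun z : Tor => 16 * (Q0 : ℝ≥0∞) * vis (T k) B N z :=
    (measurable_vis (mp_T k).measurable hBm N).const_mul _
  have hm2 : ∀ i, Measurable fun z : Tor => ((16 : ℝ≥0∞) ^ i * Q0) * vis (T k) (A i) N z := fun i =>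
    (measurable_vis (mp_T k).measurable (hA i) N).const_mul _
  have hm3 : Measurable fun z : Tor =>
      256 * (∑ i ∈ range I, ((16 : ℝ≥0∞) ^ i * Q0) * vis (T k) (A i) N z) :=
    (Finset.measurable_sum _ fun i _ => hm2 i).const_mul _
  have hYm12 : Measurable fun z : Tor => ∑ v ∈ range (N + 1),
      (Rp (N - v) ∩ Rm v).indicator (fun _ => (1 : ℝ≥0∞)) ((T k)^[v] z) +
      vis (T k) bad (N + 1) z := hYm1.add hYm2
  have hY0 : Measurable Y := hYm12.const_mul _
  have hm13 : Measurable fun z : Tor => 16 * (Q0 : ℝ≥0∞) * vis (T k) B N z +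
      256 * (∑ i ∈ range I, ((16 : ℝ≥0∞) ^ i * Q0) * vis (T k) (A i) N z) := hm1.add hm3
  have hYI : ∫⁻ z, Y z = C1 * (∑ v ∈ range (N + 1), volume (Rp (N - v) ∩ Rm v) +
      (N + 1) * volume bad) := by
    simp only [hY]
    rw [lintegral_const_mul _ hYm12, lintegral_add_left hYm1,
      lintegral_finsetSum _ fun v _ => measurable_ind ((hRp _).inter (hRm _)) k v,
      lintegral_vis (mp_T k) hbad]
    rw [Finset.sum_congr rfl fun v _ => lintegral_ind ((hRp _).inter (hRm _)) k v]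
    push_cast
    rfl
  have e0 : ∀ i, ∫⁻ z : Tor, ((16 : ℝ≥0∞) ^ i * Q0) * vis (T k) (A i) N z =
      (16 ^ i * Q0) * (N * volume (A i)) := fun i => by
    rw [lintegral_const_mul _ (measurable_vis (mp_T k).measurable (hA i) N),
      lintegral_vis (mp_T k) (hA i)]
  calc ∫⁻ z : Tor, (cross k N z : ℝ≥0∞)
      ≤ ∫⁻ z : Tor, (16 * Q0 * vis (T k) B N z +
        256 * (∑ i ∈ range I, (16 ^ i * Q0) * vis (T k) (A i) N z) + 256 * R * Y z) :=
        lintegral_mono hpt
    _ = 16 * Q0 * (N * volume B) + 256 * (∑ i ∈ range I, (16 ^ i * Q0) * (N * volume (A i))) +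
        256 * R * (C1 * (∑ v ∈ range (N + 1), volume (Rp (N - v) ∩ Rm v) +
          (N + 1) * volume bad)) := by
        rw [lintegral_add_left hm13, lintegral_add_left hm1,
          lintegral_const_mul _ (measurable_vis (mp_T k).measurable hBm N),
          lintegral_const_mul _ (Finset.measurable_sum _ fun i _ => hm2 i),
          lintegral_finsetSum _ fun i _ => hm2 i, lintegral_const_mul _ hY0, hYI,
          lintegral_vis (mp_T k) hBm]
        simp only [e0]
    _ ≤ _ := by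
        gcongr
        have e1 : ∑ i ∈ range I, ((16 : ℝ≥0∞) ^ i * Q0) * (N * volume (A i)) =
            N * ∑ i ∈ range I, ((16 : ℝ≥0∞) ^ i * Q0) * volume (A i) := by
          rw [Finset.mul_sum]
          refine Finset.sum_congr rfl fun i _ => ?_
          ring
        rw [e1]
        have e2 : 16 * (Q0 : ℝ≥0∞) * (N * volume B) +
            256 * (N * ∑ i ∈ range I, ((16 : ℝ≥0∞) ^ i * Q0) * volume (A i)) =
            N * (16 * Q0 * volume B +
              256 * ∑ i ∈ range I, ((16 : ℝ≥0∞) ^ i * Q0) * volume (A i)) := by ring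
        rw [e2]
        gcongr
        exact hs I

end Crest.Agent.R128.CloseR764
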