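import Mathlib
import Crest.Agent.R128.Lam0D

/-!
Row 128, node LAM0 (P3): a point whose field is comparable (factor two) with the field of an orbit with
a strict first violation is in the relaxed drawdown event or in the relaxed long event.
-/

set_option autoImplicit false

open Finset MeasureTheory

namespace Crest.Agent.R128.Lam0

open Crest.Agent.R128.BVP

/-- the growth of the clean part -/
theorem clean_growth {k : ℝ} (hk : (10:ℝ) ^ 6 ≤ k) {L : ℕ} {a b : ℝ}
    (cl : ∀ m ∈ Icc 1 L, k ^ (2 / 3 : ℝ) ≤ |Vk k (xorb k a b m)|) :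
    ∀ m ≤ L, 100 * |pk k a b m| ≤ |pk k a b (m + 1)| ∧ (k ^ (2 / 3 : ℝ) - 1) ^ m ≤ |pk k a b (m + 1)| := by
  have hk0 : (0:ℝ) < k := by linarith [show (0:ℝ) < 10 ^ 6 by norm_num]
  have hc : (10:ℝ) ^ 4 ≤ k ^ (2 / 3 : ℝ) := by
    have h1 : ((10:ℝ) ^ 6) ^ (2 / 3 : ℝ) ≤ k ^ (2 / 3 : ℝ) := Real.rpow_le_rpow (by norm_num) hk (by norm_num)
    have h2 : ((10:ℝ) ^ 6) ^ (2 / 3 : ℝ) = 10 ^ 4 := by
      rw [← Real.rpow_natCast 10 6, ← Real.rpow_mul (by norm_num), ← Real.rpow_natCast 10 4]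
      norm_num
    rwa [h2] at h1
  set c := k ^ (2 / 3 : ℝ) with hcdef
  intro m
  induction m with
  | zero =>
    intro _
    simp [pk]
  | succ m ih =>
    intro hm
    obtain ⟨h1, h2⟩ := ih (by omega)
    have h3 := cl (m + 1) (Finset.mem_Icc.2 ⟨by omega, hm⟩)
    have e : pk k a b (m + 1 + 1) = Vk k (xorb k a b (m + 1)) * pk k a b (m + 1) - pk k a b m := rfl
    have h4 : |Vk k (xorb k a b (m + 1))| * |pk k a b (m + 1)| - |pk k a b m| ≤ |pk k a b (m + 1 + 1)| := by
      rw [e, ← abs_mul]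
      exact abs_sub_abs_le_abs_sub _ _
    have h5 : 0 ≤ |pk k a b m| := abs_nonneg _
    have h6 : 0 ≤ |pk k a b (m + 1)| := abs_nonneg _
    have h7 : c * |pk k a b (m + 1)| ≤ |Vk k (xorb k a b (m + 1))| * |pk k a b (m + 1)| :=
      mul_le_mul_of_nonneg_right h3 h6
    have h8 : (c - 1) * |pk k a b (m + 1)| ≤ |pk k a b (m + 1 + 1)| := by nlinarith
    refine ⟨?_, ?_⟩
    · have : 100 * |pk k a b (m + 1)| ≤ (c - 1) * |pk k a b (m + 1)| :=
        mul_le_mul_of_nonneg_right (by linarith [show (100:ℝ) + 1 ≤ 10 ^ 4 by norm_num]) h6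
      linarith
    · rw [pow_succ, mul_comm]
      exact (mul_le_mul_of_nonneg_left h2 (by linarith [show (1:ℝ) ≤ 10 ^ 4 by norm_num])).trans h8

theorem nf_clean {k : ℝ} (hk : (10:ℝ) ^ 6 ≤ k) {L : ℕ} {a b : ℝ}
    (cl : ∀ m ∈ Icc 1 L, k ^ (2 / 3 : ℝ) ≤ |Vk k (xorb k a b m)|) {m : ℕ} (hm : m ≤ L) :
    nf k a b m = |pk k a b (m + 1)| := by
  have h := (clean_growth hk cl m hm).1
  have h0 : 0 ≤ |pk k a b m| := abs_nonneg _
  unfold nf
  exact max_eq_right (by linarith)

theorem nf_clean_step {k : ℝ} (hk : (10:ℝ) ^ 6 ≤ k) {L : ℕ} {a b : ℝ}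
    (cl : ∀ m ∈ Icc 1 L, k ^ (2 / 3 : ℝ) ≤ |Vk k (xorb k a b m)|) {i j : ℕ} (hij : i < j) (hj : j ≤ L) :
    100 * nf k a b i ≤ nf k a b j := by
  induction j, hij using Nat.le_induction with
  | base =>
    rw [nf_clean hk cl (by omega), nf_clean hk cl hj]
    exact (clean_growth hk cl (i + 1) hj).1
  | succ j hij ih =>
    have h1 := ih (by omega)
    have h2 : 100 * nf k a b j ≤ nf k a b (j + 1) := by
      rw [nf_clean hk cl (by omega), nf_clean hk cl hj]
      exact (clean_growth hk cl (j + 1) hj).1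
    have h3 : 0 ≤ nf k a b i := (abs_nonneg _).trans (le_max_left _ _)
    linarith

theorem pow_601_le {k : ℝ} (hk : (10:ℝ) ^ 6 ≤ k) : k ^ 601 ≤ (k ^ (2 / 3 : ℝ) - 1) ^ 1000 := by
  have hk0 : (0:ℝ) < k := by linarith [show (0:ℝ) < 10 ^ 6 by norm_num]
  have hk1 : (1:ℝ) ≤ k := by linarith [show (1:ℝ) ≤ 10 ^ 6 by norm_num]
  have h1 : k ^ (601 / 1000 : ℝ) ≤ k ^ (2 / 3 : ℝ) - 1 := by
    have e : k ^ (2 / 3 : ℝ) = k ^ (601 / 1000 : ℝ) * k ^ (197 / 3000 : ℝ) := by
      rw [← Real.rpow_add hk0]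
      congr 1
      norm_num
    have h2 : (2:ℝ) ≤ k ^ (197 / 3000 : ℝ) := by
      have h3 : ((10:ℝ) ^ 6) ^ (197 / 3000 : ℝ) ≤ k ^ (197 / 3000 : ℝ) :=
        Real.rpow_le_rpow (by norm_num) hk (by norm_num)
      refine le_trans ?_ h3
      rw [← Real.rpow_natCast 10 6, ← Real.rpow_mul (by norm_num)]
      have h4 : (10:ℝ) ^ (1 / 3 : ℝ) ≤ (10:ℝ) ^ (((6:ℕ):ℝ) * (197 / 3000)) :=
        Real.rpow_le_rpow_of_exponent_le (by norm_num) (by norm_num)
      refine le_trans ?_ h4
      have h8 : ((2:ℝ) ^ 3) ^ (1 / 3 : ℝ) ≤ (10:ℝ) ^ (1 / 3 : ℝ) :=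
        Real.rpow_le_rpow (by norm_num) (by norm_num) (by norm_num)
      have h9 : ((2:ℝ) ^ 3) ^ (1 / 3 : ℝ) = 2 := by
        rw [← Real.rpow_natCast 2 3, ← Real.rpow_mul (by norm_num)]
        norm_num
      rwa [h9] at h8
    have h5 : (1:ℝ) ≤ k ^ (601 / 1000 : ℝ) := Real.one_le_rpow hk1 (by norm_num)
    rw [e]
    nlinarith
  have h6 : (k ^ (601 / 1000 : ℝ)) ^ 1000 ≤ (k ^ (2 / 3 : ℝ) - 1) ^ 1000 :=
    pow_le_pow_left₀ (Real.rpow_nonneg hk0.le _) h1 1000
  have h7 : (k ^ (601 / 1000 : ℝ)) ^ 1000 = k ^ 601 := by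
    rw [← Real.rpow_natCast (k ^ (601 / 1000 : ℝ)) 1000, ← Real.rpow_mul hk0.le, ← Real.rpow_natCast k 601]
    norm_num
  rwa [h7] at h6

theorem nf_L_big {k : ℝ} (hk : (10:ℝ) ^ 6 ≤ k) {a b : ℝ}
    (cl : ∀ m ∈ Icc 1 1000, k ^ (2 / 3 : ℝ) ≤ |Vk k (xorb k a b m)|) : k ^ 601 ≤ nf k a b 1000 := by
  rw [nf_clean hk cl le_rfl]
  exact (pow_601_le hk).trans (clean_growth hk cl 1000 le_rfl).2

/-- the relaxed drawdown event of class `k ^ D`, with validity up to the violation -/
def DDset (k : ℝ) (M D : ℕ) : Set Tor :=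
  {z | ∃ n n', DDn k 1000 M (k ^ D) z n n' ∧ RV k 1000 z (n' - 1)}

/-- the relaxed long event of class `k ^ D` -/
def LGset (k : ℝ) (D : ℕ) : Set Tor :=
  {z | ∃ e : ℕ, k ^ D ≤ ((2:ℝ) ^ (e + 1)) ^ 400 ∧ ∃ m, LGn k 1000 (2 ^ e) z m}

section classify

variable {k : ℝ} {a b l s : ℝ} {n' D M : ℕ}

theorem nf_nonneg (k a b : ℝ) (m : ℕ) : 0 ≤ nf k a b m := (abs_nonneg _).trans (le_max_left _ _)

theorem classify (hk9 : (10:ℝ) ^ 9 ≤ k) (hM : n' ≤ M) (hn' : 1000 < n') (hsv : SV k 1000 a b n')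
    (hbad : (∃ i, 1000 ≤ i ∧ i < n' ∧ nf k a b n' ^ 100 < nf k a b i ^ 99) ∨
      (∀ i, 1000 ≤ i → i < n' → nf k a b i ≤ (n' : ℝ) ^ 400))
    (hlo : ∃ i < n', k ^ D ≤ nf k a b i) (hhi : ∀ i < n', nf k a b i ≤ k * k ^ D) (hD : 1 ≤ D)
    (hcmp : ∀ m ≤ n', nf k a b m ≤ 2 * nf k l s m ∧ nf k l s m ≤ 2 * nf k a b m) :
    ((l : UnitAddCircle), (s : UnitAddCircle)) ∈ DDset k M (D - 1) ∪ DDset k M D ∪ LGset k D := by
  have hk : (10:ℝ) ^ 6 ≤ k := le_trans (by norm_num) hk9
  have hk0 : (0:ℝ) < k := by linarith [show (0:ℝ) < 10 ^ 6 by norm_num]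
  have hk1 : (1:ℝ) ≤ k := by linarith [show (1:ℝ) ≤ 10 ^ 6 by norm_num]
  set u : ℕ → ℝ := nf k a b with hu
  set v : ℕ → ℝ := nf k l s with hv
  have hfl : ∀ m, ‖fld k ((l : UnitAddCircle), (s : UnitAddCircle)) m‖ = v m := fun m => norm_fld_pk k l s m
  have hL : k ^ 501 ≤ nf k a b 1000 := (pow_le_pow_right₀ hk1 (by norm_num)).trans (nf_L_big hk hsv.cl)
  have hu0 : ∀ m, 0 ≤ u m := fun m => nf_nonneg k a b m
  have hv0 : ∀ m, 0 ≤ v m := fun m => nf_nonneg k l s m
  have h17 : (2:ℝ) ^ 29 ≤ k := le_trans (by norm_num) hk9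
  have hbigL : (2:ℝ) ^ 14500 ≤ u 1000 := by
    refine le_trans ?_ hL
    calc (2:ℝ) ^ 14500 ≤ (2:ℝ) ^ (29 * 501) := pow_le_pow_right₀ (by norm_num) (by norm_num)
      _ = ((2:ℝ) ^ 29) ^ 501 := pow_mul _ _ _
      _ ≤ k ^ 501 := pow_le_pow_left₀ (by norm_num) h17 _
  -- all u i (i in [1000, n')) are large
  have hbig : ∀ i, 1000 ≤ i → i < n' → (2:ℝ) ^ 14300 ≤ u i := by
    intro i hi hin
    have h1 := hsv.v2 1000 i le_rfl hi hin
    have h2 : ((2:ℝ) ^ 14500) ^ 99 ≤ u 1000 ^ 99 := pow_le_pow_left₀ (by positivity) hbigL 99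
    have h3 : ((2:ℝ) ^ 14300) ^ 100 ≤ u i ^ 100 := by
      refine le_trans ?_ (h2.trans h1)
      rw [← pow_mul, ← pow_mul]
      exact pow_le_pow_right₀ (by norm_num) (by norm_num)
    exact le_of_pow_le_pow_left₀ (by norm_num) (hu0 i) h3
  have hupos : ∀ i, 1000 ≤ i → i < n' → 0 < u i := fun i hi hin =>
    lt_of_lt_of_le (by positivity) (hbig i hi hin)
  have hvpos : ∀ i, 1000 ≤ i → i < n' → 0 < v i := fun i hi hin => by
    have := hupos i hi hin
    have := (hcmp i hin.le).1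
    linarith
  have hlog2 : 0 < Real.log 2 := Real.log_pos (by norm_num)
  have hlogu : ∀ i, 1000 ≤ i → i < n' → 14300 * Real.log 2 ≤ Real.log (u i) := by
    intro i hi hin
    have h := Real.log_le_log (by positivity) (hbig i hi hin)
    rw [Real.log_pow] at h
    exact_mod_cast h
  have hlv1 : ∀ i, 1000 ≤ i → i < n' → Real.log (u i) ≤ Real.log 2 + Real.log (v i) := by
    intro i hi hin
    rw [← Real.log_mul (by norm_num) (hvpos i hi hin).ne']
    exact Real.log_le_log (hupos i hi hin) (hcmp i hin.le).1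
  have hlv2 : ∀ i, 1000 ≤ i → i < n' → Real.log (v i) ≤ Real.log 2 + Real.log (u i) := by
    intro i hi hin
    rw [← Real.log_mul (by norm_num) (hupos i hi hin).ne']
    exact Real.log_le_log (hvpos i hi hin) (hcmp i hin.le).2
  -- relaxed validity up to n' - 1
  have hRV : ∀ j0, j0 < n' → RV k 1000 ((l : UnitAddCircle), (s : UnitAddCircle)) j0 := by
    intro j0 hj0
    refine ⟨?_, ?_, ?_⟩
    · rw [hfl]
      have h1 := (hcmp 1000 (by omega)).1
      have h2 : k ^ 501 = k * k ^ 500 := by ring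
      have h3 : 0 < k ^ 500 := by positivity
      have h4 : 2 * k ^ 500 ≤ k * k ^ 500 := mul_le_mul_of_nonneg_right (by linarith [show (2:ℝ) ≤ 10 ^ 6 by norm_num]) h3.le
      have h5 : k * k ^ 500 ≤ u 1000 := h2 ▸ hL
      linarith
    · intro i j hi hij hj
      rw [hfl, hfl]
      have hjn : j < n' := by omega
      have hin : i < n' := by omega
      have hj1 : 1000 ≤ j := by omega
      have h1 := hsv.v2 i j hi hij hjn
      have h2 : 99 * Real.log (u i) ≤ 100 * Real.log (u j) := by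
        have h3 := Real.log_le_log (by have := hupos i hi hin; positivity) h1
        rw [Real.log_pow, Real.log_pow] at h3
        exact_mod_cast h3
      have h4 := hlogu i hi hin
      have h5 := hlv1 j hj1 hjn
      have h6 := hlv2 i hi hin
      have h7 : 89 * Real.log (v i) ≤ 90 * Real.log (v j) := by nlinarith
      have h8 : Real.log (v i ^ 89) ≤ Real.log (v j ^ 90) := by
        rw [Real.log_pow, Real.log_pow]
        exact_mod_cast h7
      exact (Real.log_le_log_iff (by have := hvpos i hi hin; positivity)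
        (by have := hvpos j hj1 hjn; positivity)).1 h8
    · intro j hj hjj
      obtain ⟨i, hi1, hi2, hi3⟩ := hsv.v3 j hj (by omega)
      refine ⟨i, hi1, hi2, ?_⟩
      rw [hfl]
      exact hi3.trans (hcmp i (by omega)).1
  -- u i ≤ max over [1000, n')
  have hclean : ∀ i, i < 1000 → 100 * u i ≤ u 1000 := fun i hi => nf_clean_step hk hsv.cl hi le_rfl
  rcases hbad with hbad | hbad
  · left
    obtain ⟨i0, hi0, hi0n, hdrop⟩ := hbad
    -- first argmax of v on [0, n']
    obtain ⟨n1, hn1mem, hn1max⟩ := Finset.exists_max_image (Finset.range (n' + 1)) v ⟨0, by simp⟩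
    rw [Finset.mem_range] at hn1mem
    have hex : ∃ n, ∀ j ≤ n', v j ≤ v n := ⟨n1, fun j hj => hn1max j (Finset.mem_range.2 (by omega))⟩
    classical
    set n := Nat.find hex with hn
    have hnmax : ∀ j ≤ n', v j ≤ v n := Nat.find_spec hex
    have hnn1 : n ≤ n1 := Nat.find_min' hex (fun j hj => hn1max j (Finset.mem_range.2 (by omega)))
    have hnfirst : ∀ j < n, v j < v n := by
      intro j hj
      have h1 := Nat.find_min hex hj
      push Not at h1
      obtain ⟨j', hj', h2⟩ := h1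
      exact lt_of_lt_of_le h2 (hnmax j' hj')
    have hli0 := hlogu i0 hi0 hi0n
    -- drop
    have hdropv : 102 * Real.log 2 + 102 / 100 * (99 * Real.log (u i0)) ≤ 101 * (Real.log (u i0) - Real.log 2) := by
      nlinarith
    have hvn' : v n' ≤ 2 * u n' := (hcmp n' le_rfl).2
    have hvi0 : Real.log (u i0) ≤ Real.log 2 + Real.log (v n) := by
      have h1 := hlv1 i0 hi0 hi0n
      have h2 := Real.log_le_log (hvpos i0 hi0 hi0n) (hnmax i0 hi0n.le)
      linarith
    have hvnpos : 0 < v n := lt_of_lt_of_le (hvpos i0 hi0 hi0n) (hnmax i0 hi0n.le)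
    have hdr : v n' ^ 102 ≤ v n ^ 101 := by
      rcases (hv0 n').eq_or_lt with h0 | h0
      · rw [← h0]
        simp only [ne_eq, OfNat.ofNat_ne_zero, not_false_eq_true, zero_pow]
        positivity
      · have hun' : 0 < u n' := by linarith
        have h1 : 100 * Real.log (u n') ≤ 99 * Real.log (u i0) := by
          have h3 := Real.log_le_log (by positivity) hdrop.le
          rw [Real.log_pow, Real.log_pow] at h3
          exact_mod_cast h3
        have h2 : Real.log (v n') ≤ Real.log 2 + Real.log (u n') := by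
          rw [← Real.log_mul (by norm_num) hun'.ne']
          exact Real.log_le_log h0 hvn'
        have h3 : Real.log (v n' ^ 102) ≤ Real.log (v n ^ 101) := by
          rw [Real.log_pow, Real.log_pow]
          push_cast
          nlinarith
        exact (Real.log_le_log_iff (by positivity) (by positivity)).1 h3
    have hvnbig : 14299 * Real.log 2 ≤ Real.log (v n) := by nlinarith
    have hvn1 : 1 < v n := by
      by_contra hcon
      push Not at hcon
      have := Real.log_nonpos hvnpos.le hcon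
      nlinarith
    have hlt : n < n' := by
      rcases Nat.lt_or_ge n n' with h | h
      · exact h
      · exfalso
        -- then v n' = v n by maximality
        have hnle : n ≤ n' := by omega
        have e : n = n' := by omega
        rw [← e] at hdr
        have h1 : v n ^ 101 < v n ^ 102 := pow_lt_pow_right₀ hvn1 (by norm_num)
        linarith
    have hLn : 1000 ≤ n := by
      by_contra hcon
      push Not at hcon
      have h1 := hclean n hcon
      have h2 := (hcmp n (by omega)).2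
      have h3 := (hcmp 1000 (by omega)).1
      have h4 := hnmax 1000 (by omega)
      have h5 := hu0 1000
      have h6 : 0 < u 1000 := lt_of_lt_of_le (by positivity) hbigL
      linarith only [h1, h2, h3, h4, h6]
    obtain ⟨il, hil, hlo'⟩ := hlo
    have hvlo : k ^ D ≤ 2 * v n := by
      have h1 := (hcmp il hil.le).1
      have h2 := hnmax il hil.le
      linarith
    have hvhi : v n ≤ 2 * (k * k ^ D) := by
      have h1 := (hcmp n hlt.le).2
      have h2 := hhi n hlt
      linarith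
    have hkD : k ^ D = k * k ^ (D - 1) := by
      rw [← pow_succ']
      congr 1
      omega
    have hkD0 : 0 < k ^ (D - 1) := by positivity
    have hk2 : (2:ℝ) ≤ k := by linarith [show (2:ℝ) ≤ 10 ^ 6 by norm_num]
    have mk : ∀ X : ℝ, X ≤ v n → v n ≤ k ^ 2 * X →
        DDn k 1000 M X ((l : UnitAddCircle), (s : UnitAddCircle)) n n' := by
      intro X hX1 hX2
      refine ⟨hLn, hlt, hM, ?_, ?_, ?_, ?_, ?_, hRV n hlt⟩
      · intro j hj
        rw [hfl, hfl]
        exact hnfirst j hj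
      · intro j hj
        rw [hfl, hfl]
        exact hnmax j hj
      · rw [hfl, hfl]
        exact hdr
      · rw [hfl]
        exact hX1
      · rw [hfl]
        exact hX2
    rcases le_or_gt (v n) (k ^ 2 * k ^ (D - 1)) with hcase | hcase
    · left
      refine ⟨n, n', mk _ ?_ hcase, hRV (n' - 1) (by omega)⟩
      rw [hkD] at hvlo
      nlinarith only [hvlo, hk2, hkD0]
    · right
      refine ⟨n, n', mk _ ?_ ?_, hRV (n' - 1) (by omega)⟩
      · rw [hkD]
        have h1 : k * k ^ (D - 1) ≤ k ^ 2 * k ^ (D - 1) := by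
          apply mul_le_mul_of_nonneg_right _ hkD0.le
          nlinarith only [hk2]
        linarith only [h1, hcase]
      · have h1 : 2 * (k * k ^ D) ≤ k ^ 2 * k ^ D := by
          have h2 : 0 < k ^ D := by positivity
          nlinarith only [hk2, h2, mul_pos hk0 h2]
        linarith only [h1, hvhi]
  · right
    set e := Nat.log 2 n' with he
    have h1 : 2 ^ e ≤ n' := Nat.pow_log_le_self 2 (by omega)
    have h2 : n' < 2 ^ (e + 1) := Nat.lt_pow_succ_log_self (by norm_num) n'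
    refine ⟨e, ?_, n', ?_, ?_, ?_, hRV (n' - 1) (by omega)⟩
    · -- class bound
      obtain ⟨il, hil, hlo'⟩ := hlo
      have h3 : ∃ i, 1000 ≤ i ∧ i < n' ∧ k ^ D ≤ u i := by
        rcases Nat.lt_or_ge il 1000 with h | h
        · refine ⟨1000, le_rfl, hn', ?_⟩
          have h4 := hclean il h
          have h5 := hu0 il
          linarith only [h4, h5, hlo']
        · exact ⟨il, h, hil, hlo'⟩
      obtain ⟨i, hi1, hi2, hi3⟩ := h3
      refine hi3.trans ((hbad i hi1 hi2).trans ?_)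
      apply pow_le_pow_left₀ (Nat.cast_nonneg _)
      exact_mod_cast h2.le
    · exact h1
    · have h3 : 2 ^ (e + 1) = 2 * 2 ^ e := by ring
      omega
    · intro i hi hin
      rw [hfl]
      have h3 := hbad i hi hin
      have h4 := (hcmp i hin.le).2
      linarith only [h3, h4]

end classify

end Crest.Agent.R128.Lam0
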