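import Mathlib
import Crest.Agent.R128.BVP7
import Crest.Agent.R128.Torus

/-!
Row 128, node LAM0 (P3): the separated-points measure inequality (no measurability of the source set).
-/

set_option autoImplicit false

open MeasureTheory Set
open scoped ENNReal

namespace Crest.Agent.R128.Lam0

open Crest.Agent.R128

/-- separated points on one line -/
theorem sep_line {r : ℝ} (hr : 0 < r) {S P : Set ℝ} {Y : ℝ → ℝ}
    (hP : ∀ x ∈ S, ∀ s, |s - Y x| ≤ r → s ∈ P)
    (hsep : ∀ x ∈ S, ∀ x' ∈ S, |Y x - Y x'| ≤ 2 * r → |x - x'| ≤ 50 * r) :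
    volume S ≤ 50 * volume P := by
  obtain ⟨u, hu, hd, hc⟩ := Vitali.exists_disjoint_subfamily_covering_enlargement
    (fun x : ℝ => Metric.closedBall (Y x) r) S (fun _ => (1 : ℝ)) 2 (by norm_num) (by intros; norm_num)
    1 (by intros; norm_num) (fun x _ => ⟨Y x, Metric.mem_closedBall_self hr.le⟩)
  have hcount : u.Countable := by
    refine hd.countable_of_nonempty_interior ?_
    intro x _
    refine ⟨Y x, ?_⟩
    exact Metric.ball_subset_interior_closedBall (Metric.mem_ball_self hr)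
  have hcov : S ⊆ ⋃ x ∈ u, Metric.closedBall x (50 * r) := by
    intro x hx
    obtain ⟨b, hb, ⟨z, hz1, hz2⟩, -⟩ := hc x hx
    simp only [Metric.mem_closedBall, Real.dist_eq] at hz1 hz2
    have h1 : |Y x - Y b| ≤ 2 * r := by
      have h3 := abs_sub_le (Y x) z (Y b)
      rw [abs_sub_comm (Y x) z] at h3
      linarith
    have h2 := hsep x hx b (hu hb) h1
    simp only [Set.mem_iUnion, Metric.mem_closedBall, Real.dist_eq]
    exact ⟨b, hb, h2⟩
  have hball : ∀ (c ρ : ℝ), volume (Metric.closedBall c ρ) = ENNReal.ofReal (2 * ρ) := fun c ρ =>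
    Real.volume_closedBall c ρ
  calc volume S ≤ volume (⋃ x ∈ u, Metric.closedBall x (50 * r)) := measure_mono hcov
    _ ≤ ∑' x : u, volume (Metric.closedBall (x : ℝ) (50 * r)) := measure_biUnion_le _ hcount _
    _ = ∑' x : u, 50 * volume (Metric.closedBall (Y (x : ℝ)) r) := by
        congr 1
        ext x
        rw [hball, hball]
        rw [show (50 : ℝ≥0∞) = ENNReal.ofReal 50 by norm_num, ← ENNReal.ofReal_mul (by norm_num)]
        congr 1
        ring
    _ = 50 * ∑' x : u, volume (Metric.closedBall (Y (x : ℝ)) r) := ENNReal.tsum_mul_left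
    _ = 50 * volume (⋃ x ∈ u, Metric.closedBall (Y x) r) := by
        rw [measure_biUnion hcount hd (fun x _ => Metric.isClosed_closedBall.measurableSet)]
    _ ≤ 50 * volume P := by
        gcongr
        intro s hs
        simp only [Set.mem_iUnion, Metric.mem_closedBall, Real.dist_eq] at hs
        obtain ⟨x, hx, h⟩ := hs
        exact hP x (hu hx) s h

/-- separated points on all vertical lines of the torus -/
theorem sep_tor {a r : ℝ} (hr : 0 < r) (hr1 : r ≤ 1) {g : ℝ → ℝ}
    (hg : ∀ y z, |g y - g z| ≤ 1 / 8 * |y - z|) {S : Set ℝ} (hS : S ⊆ Icc a (a + 1))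
    {U : Set Tor} (hU : MeasurableSet U)
    (h : ∀ l : ℝ, (∀ x ∈ S, |l - g x| ≤ 1) → ∃ Y : ℝ → ℝ,
      (∀ x ∈ S, |Y x - x| ≤ 1 ∧ ∀ s, |s - Y x| ≤ r → ((l : UnitAddCircle), (s : UnitAddCircle)) ∈ U) ∧
      ∀ x ∈ S, ∀ x' ∈ S, |Y x - Y x'| ≤ 2 * r → |x - x'| ≤ 50 * r) :
    volume S ≤ 300 * volume U := by
  have hline : ∀ l ∈ Ioc (g a - 1 / 2) (g a + 1 / 2),
      volume S ≤ 50 * (6 * volume {b : UnitAddCircle | ((l : UnitAddCircle), b) ∈ U}) := by
    intro l hl
    have hb : MeasurableSet {b : UnitAddCircle | ((l : UnitAddCircle), b) ∈ U} := measurable_prodMk_left hU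
    obtain ⟨Y, hY1, hY2⟩ := h l (by
      intro x hx
      have h1 := hg x a
      have h2 := hS hx
      have h3 : |x - a| ≤ 1 := by
        rw [abs_of_nonneg (by linarith [h2.1])]; linarith [h2.2]
      have h4 : |g x - g a| ≤ 1 / 8 := by linarith
      rw [abs_le] at h4 ⊢
      constructor <;> linarith [hl.1, hl.2, h4.1, h4.2])
    have h1 := sep_line hr (S := S) (Y := Y)
      (P := {s : ℝ | s ∈ Ioc (a - 3) (a + 3) ∧ (s : UnitAddCircle) ∈
        {b : UnitAddCircle | ((l : UnitAddCircle), b) ∈ U}}) (by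
      intro x hx s hs
      have h2 := (hY1 x hx).1
      have h3 := hS hx
      have h4 := (hY1 x hx).2 s hs
      rw [abs_le] at h2 hs
      exact ⟨⟨by linarith [h3.1], by linarith [h3.2]⟩, h4⟩) hY2
    refine h1.trans ?_
    gcongr
    have hsub : {s : ℝ | s ∈ Ioc (a - 3) (a + 3) ∧ (s : UnitAddCircle) ∈
        {b : UnitAddCircle | ((l : UnitAddCircle), b) ∈ U}} ⊆
        {s : ℝ | s ∈ Ioc ((a - 2) - 1) ((a - 2) + 2) ∧ (s : UnitAddCircle) ∈
          {b : UnitAddCircle | ((l : UnitAddCircle), b) ∈ U}} ∪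
        {s : ℝ | s ∈ Ioc ((a + 1) - 1) ((a + 1) + 2) ∧ (s : UnitAddCircle) ∈
          {b : UnitAddCircle | ((l : UnitAddCircle), b) ∈ U}} := by
      rintro s ⟨⟨h2, h3⟩, h4⟩
      rcases le_or_gt s a with h5 | h5
      · exact Or.inl ⟨⟨by linarith, by linarith⟩, h4⟩
      · exact Or.inr ⟨⟨by linarith, by linarith⟩, h4⟩
    refine (measure_mono hsub).trans ((measure_union_le _ _).trans ?_)
    refine (add_le_add (BVP.volume_lift_le (a - 2) hb) (BVP.volume_lift_le (a + 1) hb)).trans ?_
    apply le_of_eq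
    ring
  set F : UnitAddCircle → ℝ≥0∞ := fun c => volume {b : UnitAddCircle | (c, b) ∈ U} with hF
  have hFm : Measurable F := measurable_measure_prodMk_left hU
  have hint : ∫⁻ l in Ioc (g a - 1 / 2) (g a + 1 / 2), F (l : UnitAddCircle) = volume U := by
    have e : g a + 1 / 2 = (g a - 1 / 2) + 1 := by ring
    rw [e]
    calc ∫⁻ X in Set.Ioc (g a - 1 / 2) ((g a - 1 / 2) + 1), F (X : UnitAddCircle)
        = ∫⁻ c, F c := UnitAddCircle.lintegral_preimage (g a - 1 / 2) F
      _ = volume U := by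
          rw [Measure.volume_eq_prod, Measure.prod_apply hU]
          rfl
  have hvol : volume (Ioc (g a - 1 / 2) (g a + 1 / 2)) = 1 := by
    rw [Real.volume_Ioc]
    have : g a + 1 / 2 - (g a - 1 / 2) = 1 := by ring
    rw [this, ENNReal.ofReal_one]
  calc volume S = ∫⁻ _ in Ioc (g a - 1 / 2) (g a + 1 / 2), volume S := by
        rw [setLIntegral_const, hvol, mul_one]
    _ ≤ ∫⁻ l in Ioc (g a - 1 / 2) (g a + 1 / 2), 50 * (6 * F (l : UnitAddCircle)) := by
        apply setLIntegral_mono' measurableSet_Ioc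
        intro l hl
        exact hline l hl
    _ = 50 * (6 * ∫⁻ l in Ioc (g a - 1 / 2) (g a + 1 / 2), F (l : UnitAddCircle)) := by
        have hmF : Measurable fun X : ℝ => F (X : UnitAddCircle) := hFm.comp AddCircle.measurable_mk'
        rw [lintegral_const_mul _ (hmF.const_mul 6), lintegral_const_mul _ hmF]
    _ = 50 * (6 * volume U) := by rw [hint]
    _ = 300 * volume U := by ring

end Crest.Agent.R128.Lam0
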