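import Mathlib
import Crest.Agent.R128.Lam0C
import Crest.Agent.R128.Lam0S

/-!
Row 128, node V3 (LAM0, P3): from `CoreStmt`, the measure of the points of a unit curve with clean digits
and a violation of validity is bounded by the areas of the relaxed drawdown events.
-/

set_option autoImplicit false

open MeasureTheory Set
open scoped ENNReal

namespace Crest.Agent.R128.Lam0

open Crest.Agent.R128 Crest.Agent.R128.BVP

theorem measurable_DDn' (k : ℝ) (L N : ℕ) (X : ℝ) (n n' : ℕ) :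
    MeasurableSet {z | DDn k L N X z n n'} := by
  have e : {z | DDn k L N X z n n'} = ⋃ (_ : L ≤ n) (_ : n < n') (_ : n' ≤ N),
      ((⋂ (j : ℕ) (_ : j < n), {z | ‖fld k z j‖ < ‖fld k z n‖}) ∩
      (⋂ (j : ℕ) (_ : j ≤ n'), {z | ‖fld k z j‖ ≤ ‖fld k z n‖}) ∩
      {z | ‖fld k z n'‖ ^ 102 ≤ ‖fld k z n‖ ^ 101} ∩ {z | X ≤ ‖fld k z n‖} ∩
      {z | ‖fld k z n‖ ≤ k ^ 2 * X} ∩ {z | RV k L z n}) := by
    ext z
    simp only [Set.mem_inter_iff, Set.mem_ofPred_eq, Set.mem_iInter, Set.mem_iUnion, exists_prop]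
    constructor
    · rintro ⟨a, b, c, d, e, f, g, h, i⟩
      exact ⟨a, b, c, ⟨⟨⟨⟨⟨d, e⟩, f⟩, g⟩, h⟩, i⟩⟩
    · rintro ⟨a, b, c, ⟨⟨⟨⟨⟨d, e⟩, f⟩, g⟩, h⟩, i⟩⟩
      exact ⟨a, b, c, d, e, f, g, h, i⟩
  rw [e]
  have m := measurable_nf k
  refine MeasurableSet.iUnion fun _ => MeasurableSet.iUnion fun _ => MeasurableSet.iUnion fun _ => ?_
  refine (((((MeasurableSet.iInter fun j => MeasurableSet.iInter fun _ => ?_).inter
    (MeasurableSet.iInter fun j => MeasurableSet.iInter fun _ => ?_)).inter ?_).inter ?_).inter ?_).inter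
    (measurable_RV k L n)
  · exact measurableSet_lt (m j) (m n)
  · exact measurableSet_le (m j) (m n)
  · exact measurableSet_le ((m n').pow_const 102) ((m n).pow_const 101)
  · exact measurableSet_le measurable_const (m n)
  · exact measurableSet_le (m n) measurable_const

theorem measurable_DDset (k : ℝ) (M D : ℕ) : MeasurableSet (DDset k M D) := by
  have e : DDset k M D = ⋃ (n : ℕ) (n' : ℕ),
      ({z | DDn k 1000 M (k ^ D) z n n'} ∩ {z | RV k 1000 z (n' - 1)}) := by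
    ext z
    simp only [DDset, Set.mem_inter_iff, Set.mem_ofPred_eq, Set.mem_iUnion]
  rw [e]
  exact MeasurableSet.iUnion fun n => MeasurableSet.iUnion fun n' =>
    (measurable_DDn' k 1000 M (k ^ D) n n').inter (measurable_RV k 1000 (n' - 1))

theorem measurable_LGset (k : ℝ) (D : ℕ) : MeasurableSet (LGset k D) := by
  have e : LGset k D = ⋃ (e : ℕ) (_ : k ^ D ≤ ((2:ℝ) ^ (e + 1)) ^ 400),
      {z | ∃ m, LGn k 1000 (2 ^ e) z m} := by
    ext z
    simp only [LGset, Set.mem_ofPred_eq, Set.mem_iUnion, exists_prop]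
  rw [e]
  exact MeasurableSet.iUnion fun e => MeasurableSet.iUnion fun _ => measurable_LGn k 1000 (2 ^ e)

/-- measure of the long event of class `D` -/
theorem vol_LGset {k : ℝ} (hk : (10:ℝ) ^ 6 ≤ k) (hk2 : (2:ℝ) ^ 400 ≤ k) {j : ℕ} :
    volume (LGset k (j + 600)) ≤ ENNReal.ofReal (8000 * (1 / k ^ (3 / 2 : ℝ)) * (1 / 2) ^ j) := by
  have hk0 : (0:ℝ) < k := lt_of_lt_of_le (by norm_num) hk
  have hk1 : (1:ℝ) ≤ k := le_trans (by norm_num) hk
  classical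
  have hex : ∃ e : ℕ, k ^ (j + 600) ≤ ((2:ℝ) ^ (e + 1)) ^ 400 := by
    obtain ⟨e, he⟩ := pow_unbounded_of_one_lt (k ^ (j + 600)) (show (1:ℝ) < 2 by norm_num)
    refine ⟨e, he.le.trans ?_⟩
    rw [← pow_mul]
    exact pow_le_pow_right₀ (by norm_num) (by omega)
  set e0 := Nat.find hex with he0
  have hspec : k ^ (j + 600) ≤ ((2:ℝ) ^ (e0 + 1)) ^ 400 := Nat.find_spec hex
  have hmin : ∀ e, k ^ (j + 600) ≤ ((2:ℝ) ^ (e + 1)) ^ 400 → e0 ≤ e := fun e he => Nat.find_min' hex he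
  -- e0 is large
  have he0big : 20 ≤ e0 := by
    by_contra hcon
    push Not at hcon
    have h1 : ((2:ℝ) ^ (e0 + 1)) ^ 400 ≤ ((2:ℝ) ^ 20) ^ 400 :=
      pow_le_pow_left₀ (by positivity) (pow_le_pow_right₀ (by norm_num) (by omega)) 400
    have h2 : ((2:ℝ) ^ 20) ^ 400 = ((2:ℝ) ^ 400) ^ 20 := by rw [← pow_mul, ← pow_mul]
    have h3 : ((2:ℝ) ^ 400) ^ 20 ≤ k ^ 20 := pow_le_pow_left₀ (by positivity) hk2 20
    have h4 : k ^ 20 < k ^ (j + 600) := pow_lt_pow_right₀ (lt_of_lt_of_le (by norm_num) hk) (by omega)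
    exact absurd (hspec.trans (h1.trans (h2.le.trans h3))) (not_le.2 h4)
  have hone : ∀ e, e0 ≤ e → volume {z : Tor | ∃ m, LGn k 1000 (2 ^ e) z m} ≤
      ENNReal.ofReal (2000 * (1 / 2) ^ e) := by
    intro e he
    have h1 := area_LG (k := k) (le_trans (by norm_num) hk) (L := 1000) (M := 2 ^ e) (by norm_num) (by
      have : 2 ^ 20 ≤ 2 ^ e := Nat.pow_le_pow_right (by norm_num) (by omega)
      norm_num at this
      omega)
    have h2 : 2 ^ e / 2 = 2 ^ (e - 1) := by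
      have : 2 ^ e = 2 ^ (e - 1) * 2 := by rw [← pow_succ]; congr 1; omega
      omega
    rw [h2] at h1
    have hne : ((2 ^ (e - 1) : ℕ) : ℝ≥0∞) ≠ 0 := by
      rw [Nat.cast_ne_zero]
      positivity
    have h3 : volume {z : Tor | ∃ m, LGn k 1000 (2 ^ e) z m} ≤ ((1000 : ℕ) : ℝ≥0∞) / ((2 ^ (e - 1) : ℕ) : ℝ≥0∞) := by
      rw [ENNReal.le_div_iff_mul_le (Or.inl hne) (Or.inl (ENNReal.natCast_ne_top _)), mul_comm]
      exact h1
    refine h3.trans ?_
    have h4 : ((1000 : ℕ) : ℝ≥0∞) = ENNReal.ofReal 1000 := by norm_num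
    have h5 : ((2 ^ (e - 1) : ℕ) : ℝ≥0∞) = ENNReal.ofReal (2 ^ (e - 1)) := by
      rw [ENNReal.ofReal_pow (by norm_num)]
      norm_num
    rw [h4, h5, ← ENNReal.ofReal_div_of_pos (by positivity)]
    apply ENNReal.ofReal_le_ofReal
    have h6 : (2:ℝ) ^ e = 2 ^ (e - 1) * 2 := by rw [← pow_succ]; congr 1; omega
    rw [one_div, inv_pow, h6, div_le_iff₀ (by positivity)]
    have h7 : (0:ℝ) < 2 ^ (e - 1) := by positivity
    have h8 : 2000 * ((2:ℝ) ^ (e - 1) * 2)⁻¹ * 2 ^ (e - 1) = 1000 := by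
      field_simp
      norm_num
    rw [h8]
  have hsub : LGset k (j + 600) ⊆ ⋃ i : ℕ, {z : Tor | ∃ m, LGn k 1000 (2 ^ (e0 + i)) z m} := by
    rintro z ⟨e, he, hm⟩
    have h1 := hmin e he
    rw [Set.mem_iUnion]
    refine ⟨e - e0, ?_⟩
    rw [Nat.add_sub_cancel' h1]
    exact hm
  refine (measure_mono hsub).trans ((measure_iUnion_le _).trans ?_)
  have h1 : ∑' i : ℕ, volume {z : Tor | ∃ m, LGn k 1000 (2 ^ (e0 + i)) z m} ≤
      ∑' i : ℕ, ENNReal.ofReal (2000 * (1 / 2) ^ e0 * (1 / 2) ^ i) := by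
    apply ENNReal.tsum_le_tsum
    intro i
    refine (hone (e0 + i) (by omega)).trans (le_of_eq ?_)
    congr 1
    rw [pow_add]
    ring
  refine h1.trans ?_
  have h2 : ∑' i : ℕ, ENNReal.ofReal (2000 * (1 / 2) ^ e0 * (1 / 2) ^ i) =
      ENNReal.ofReal (∑' i : ℕ, 2000 * (1 / 2 : ℝ) ^ e0 * (1 / 2) ^ i) := by
    rw [ENNReal.ofReal_tsum_of_nonneg]
    · intro i; positivity
    · exact (summable_geometric_of_lt_one (by norm_num) (by norm_num)).mul_left _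
  rw [h2, tsum_mul_left, tsum_geometric_of_lt_one (by norm_num) (by norm_num)]
  apply ENNReal.ofReal_le_ofReal
  -- 4000 / 2 ^ e0 ≤ 8000 k ^ (-3/2) 2 ^ (-j)
  have h3 : (k ^ (3 / 2 : ℝ) * 2 ^ j) ≤ 2 ^ (e0 + 1) := by
    have h4 : (k ^ (3 / 2 : ℝ) * 2 ^ j) ^ 400 ≤ ((2:ℝ) ^ (e0 + 1)) ^ 400 := by
      refine le_trans ?_ hspec
      rw [mul_pow, pow_add, mul_comm]
      have h5 : (k ^ (3 / 2 : ℝ)) ^ 400 = k ^ 600 := by
        rw [← Real.rpow_natCast (k ^ (3 / 2 : ℝ)) 400, ← Real.rpow_mul hk0.le, ← Real.rpow_natCast k 600]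
        norm_num
      have h6 : ((2:ℝ) ^ j) ^ 400 ≤ k ^ j := by
        rw [← pow_mul, mul_comm j 400, pow_mul]
        exact pow_le_pow_left₀ (by positivity) hk2 j
      rw [h5]
      exact mul_le_mul_of_nonneg_right h6 (by positivity)
    exact le_of_pow_le_pow_left₀ (by norm_num) (by positivity) h4
  have h7 : 0 < k ^ (3 / 2 : ℝ) * 2 ^ j := by positivity
  have h8 : 1 / (2:ℝ) ^ (e0 + 1) ≤ 1 / (k ^ (3 / 2 : ℝ) * 2 ^ j) := one_div_le_one_div_of_le h7 h3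
  have h9 : 8000 * (1 / k ^ (3 / 2 : ℝ)) * (1 / 2) ^ j = 8000 * (1 / (k ^ (3 / 2 : ℝ) * 2 ^ j)) := by
    rw [one_div_pow]
    field_simp
  have h10 : 2000 * (1 / 2 : ℝ) ^ e0 * (1 - 1 / 2)⁻¹ = 8000 * (1 / (2:ℝ) ^ (e0 + 1)) := by
    rw [one_div_pow, pow_succ]
    field_simp
    norm_num
  rw [h9, h10]
  linarith only [h8]

/-- clean digits at the times `0, …, L-1` -/
def Cln (k : ℝ) (L : ℕ) (z : Tor) : Prop := ∀ m < L, k ^ (2 / 3 : ℝ) ≤ |V k ((T k)^[m] z).2|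

/-- validity up to the time `n` (conditions (c2), (c3)) -/
structure Vld (k : ℝ) (L : ℕ) (z : Tor) (n : ℕ) : Prop where
  v2 : ∀ i j, L ≤ i → i ≤ j → j ≤ n → ‖fld k z i‖ ^ 99 ≤ ‖fld k z j‖ ^ 100
  v3 : ∀ j, L ≤ j → j ≤ n → ∃ i, L ≤ i ∧ i ≤ j ∧ (j : ℝ) ^ 400 ≤ ‖fld k z i‖

/-- the bad points of the unit curve `{(g x, x)}` -/
def badS (k : ℝ) (g : ℝ → ℝ) (a : ℝ) (M : ℕ) : Set ℝ :=
  {x | x ∈ Icc a (a + 1) ∧ Cln k 1000 ((g x : UnitAddCircle), (x : UnitAddCircle)) ∧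
    ∃ n ≤ M, ¬ Vld k 1000 ((g x : UnitAddCircle), (x : UnitAddCircle)) n}

/-- strict first failure in terms of real orbits -/
theorem first_failure {k : ℝ} (hk : (10:ℝ) ^ 6 ≤ k) {a b : ℝ} {M : ℕ}
    (hcl : Cln k 1000 ((a : UnitAddCircle), (b : UnitAddCircle)))
    (hbad : ∃ n ≤ M, ¬ Vld k 1000 ((a : UnitAddCircle), (b : UnitAddCircle)) n) :
    ∃ n' ≤ M, 1000 < n' ∧ SV k 1000 a b n' ∧
      ((∃ i, 1000 ≤ i ∧ i < n' ∧ nf k a b n' ^ 100 < nf k a b i ^ 99) ∨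
        (∀ i, 1000 ≤ i → i < n' → nf k a b i ≤ (n' : ℝ) ^ 400)) := by
  classical
  have hk0 : (0:ℝ) < k := lt_of_lt_of_le (by norm_num) hk
  have hk1 : (1:ℝ) ≤ k := le_trans (by norm_num) hk
  set z : Tor := ((a : UnitAddCircle), (b : UnitAddCircle)) with hz
  have hfl : ∀ m, ‖fld k z m‖ = nf k a b m := fun m => norm_fld_pk k a b m
  have cl : ∀ m ∈ Finset.Icc 1 1000, k ^ (2 / 3 : ℝ) ≤ |Vk k (xorb k a b m)| := by
    intro m hm
    rw [Finset.mem_Icc] at hm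
    have h1 := hcl (m - 1) (by omega)
    rw [hz, xorb_T] at h1
    simp only [V_eq_Vk] at h1
    rwa [Nat.sub_add_cancel hm.1] at h1
  have hbig := nf_L_big hk cl
  have hL1 : (1:ℝ) ≤ nf k a b 1000 := (one_le_pow₀ hk1).trans hbig
  obtain ⟨m0, hm0, hm0b⟩ := hbad
  have hex : ∃ n, ¬ Vld k 1000 z n := ⟨m0, hm0b⟩
  set n' := Nat.find hex with hn'
  have hspec : ¬ Vld k 1000 z n' := Nat.find_spec hex
  have hmin : ∀ j < n', Vld k 1000 z j := fun j hj => by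
    have := Nat.find_min hex hj
    push Not at this
    exact this
  have hle : n' ≤ M := (Nat.find_min' hex hm0b).trans hm0
  have hthou : 1000 < n' := by
    by_contra hcon
    push Not at hcon
    apply hspec
    refine ⟨?_, ?_⟩
    · intro i j hi hij hj
      have e1 : i = 1000 := by omega
      have e2 : j = 1000 := by omega
      rw [e1, e2, hfl]
      exact pow_le_pow_right₀ hL1 (by norm_num)
    · intro j hj hjn
      refine ⟨j, hj, le_rfl, ?_⟩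
      have e2 : j = 1000 := by omega
      rw [e2, hfl]
      refine le_trans ?_ hbig
      calc (((1000:ℕ) : ℝ)) ^ 400 ≤ k ^ 400 := by
            apply pow_le_pow_left₀ (by norm_num)
            exact le_trans (by norm_num) hk
        _ ≤ k ^ 601 := pow_le_pow_right₀ hk1 (by norm_num)
  have v2 : ∀ i j, 1000 ≤ i → i ≤ j → j < n' → nf k a b i ^ 99 ≤ nf k a b j ^ 100 := by
    intro i j hi hij hj
    have := (hmin j hj).v2 i j hi hij le_rfl
    rwa [hfl, hfl] at this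
  have v3 : ∀ j, 1000 ≤ j → j < n' → ∃ i, 1000 ≤ i ∧ i ≤ j ∧ (j : ℝ) ^ 400 ≤ nf k a b i := by
    intro j hj hjn
    obtain ⟨i, h1, h2, h3⟩ := (hmin j hjn).v3 j hj le_rfl
    rw [hfl] at h3
    exact ⟨i, h1, h2, h3⟩
  refine ⟨n', hle, hthou, ⟨cl, v2, v3⟩, ?_⟩
  by_cases h2 : ∀ i j, 1000 ≤ i → i ≤ j → j ≤ n' → ‖fld k z i‖ ^ 99 ≤ ‖fld k z j‖ ^ 100
  · -- (c3) fails
    right
    have h3 : ¬ ∀ j, 1000 ≤ j → j ≤ n' → ∃ i, 1000 ≤ i ∧ i ≤ j ∧ (j : ℝ) ^ 400 ≤ ‖fld k z i‖ :=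
      fun h3 => hspec ⟨h2, h3⟩
    push Not at h3
    obtain ⟨j, hj1, hj2, hj3⟩ := h3
    have e : j = n' := by
      rcases Nat.lt_or_ge j n' with h | h
      · exfalso
        obtain ⟨i, h4, h5, h6⟩ := (hmin j h).v3 j hj1 le_rfl
        exact absurd h6 (not_le.2 (hj3 i h4 h5))
      · omega
    intro i hi hin
    have h4 := hj3 i hi (by omega)
    rw [hfl, e] at h4
    exact h4.le
  · left
    push Not at h2
    obtain ⟨i, j, hi, hij, hj, hlt⟩ := h2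
    have e : j = n' := by
      rcases Nat.lt_or_ge j n' with h | h
      · exfalso
        exact absurd ((hmin j h).v2 i j hi hij le_rfl) (not_le.2 hlt)
      · omega
    rw [e, hfl, hfl] at hlt
    rcases Nat.lt_or_ge i n' with h | h
    · exact ⟨i, hi, h, hlt⟩
    · have e' : i = n' := by omega
      rw [e'] at hlt
      have hlt1 : nf k a b n' < 1 := by
        by_contra hcon
        push Not at hcon
        exact absurd (pow_le_pow_right₀ hcon (by norm_num : 99 ≤ 100)) (not_le.2 hlt)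
      refine ⟨n' - 1, by omega, by omega, ?_⟩
      have h5 : (1:ℝ) ≤ nf k a b (n' - 1) := by
        have h6 := v2 1000 (n' - 1) le_rfl (by omega) (by omega)
        have h7 : (1:ℝ) ≤ nf k a b (n' - 1) ^ 100 := (one_le_pow₀ hL1).trans h6
        by_contra hcon
        push Not at hcon
        exact absurd h7 (not_le.2 (pow_lt_one₀ (nf_nonneg _ _ _ _) hcon (by norm_num)))
      calc nf k a b n' ^ 100 < 1 := pow_lt_one₀ (nf_nonneg _ _ _ _) hlt1 (by norm_num)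
        _ ≤ _ := one_le_pow₀ h5

theorem exists_class {k : ℝ} (hk : (10:ℝ) ^ 6 ≤ k) {a b : ℝ} {n' : ℕ} (hn' : 1000 < n')
    (hsv : SV k 1000 a b n') : ∃ j : ℕ, (∃ i < n', k ^ (j + 600) ≤ nf k a b i) ∧
      ∀ i < n', nf k a b i ≤ k * k ^ (j + 600) := by
  have hk0 : (0:ℝ) < k := lt_of_lt_of_le (by norm_num) hk
  have hk1 : (1:ℝ) < k := lt_of_lt_of_le (by norm_num) hk
  obtain ⟨i0, hi0, hmax⟩ := Finset.exists_max_image (Finset.range n') (nf k a b) ⟨0, by simp; omega⟩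
  rw [Finset.mem_range] at hi0
  have hL := nf_L_big hk hsv.cl
  have h1 : k ^ 601 ≤ nf k a b i0 := hL.trans (hmax 1000 (Finset.mem_range.2 hn'))
  have h2 : (1:ℝ) ≤ nf k a b i0 / k ^ 600 := by
    rw [le_div_iff₀ (by positivity), one_mul]
    exact (pow_le_pow_right₀ hk1.le (by norm_num)).trans h1
  obtain ⟨j, hj1, hj2⟩ := exists_nat_pow_near h2 hk1
  refine ⟨j, ⟨i0, hi0, ?_⟩, ?_⟩
  · rw [le_div_iff₀ (by positivity)] at hj1
    rwa [pow_add]
  · intro i hi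
    have h3 := hmax i (Finset.mem_range.2 hi)
    rw [div_lt_iff₀ (by positivity)] at hj2
    refine h3.trans (hj2.le.trans (le_of_eq ?_))
    ring

/-- **V3** (P3, LAM0) from the shadowing/coherence theorem. -/
theorem V3_of_core (hcore : CoreStmt) : ∃ K0 : ℝ, ∀ k, K0 ≤ k → ∀ g : ℝ → ℝ,
    (∀ y z, |g y - g z| ≤ 1 / 8 * |y - z|) → ∀ (a : ℝ) (M : ℕ),
    volume (badS k g a M) ≤ 600 * ∑' D : ℕ, volume (DDset k M (D + 599)) + ENNReal.ofReal (1 / k) := by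
  obtain ⟨K1, hK1⟩ := hcore
  refine ⟨max K1 (max ((10:ℝ) ^ 9) (max ((2:ℝ) ^ 400) ((4800000:ℝ) ^ 2))), ?_⟩
  intro k hk g hg a M
  have hkK1 : K1 ≤ k := (le_max_left _ _).trans hk
  have hk' := (le_max_right _ _).trans hk
  have hk9 : (10:ℝ) ^ 9 ≤ k := (le_max_left _ _).trans hk'
  have hk'' := (le_max_right _ _).trans hk'
  have hk400 : (2:ℝ) ^ 400 ≤ k := (le_max_left _ _).trans hk''
  have hksq : (4800000:ℝ) ^ 2 ≤ k := (le_max_right _ _).trans hk''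
  have hk6 : (10:ℝ) ^ 6 ≤ k := le_trans (by norm_num) hk9
  have hk0 : (0:ℝ) < k := lt_of_lt_of_le (by norm_num) hk6
  have hk1 : (1:ℝ) ≤ k := le_trans (by norm_num) hk6
  -- choice of the first failure
  have hff : ∀ x, ∃ n' : ℕ, x ∈ badS k g a M → n' ≤ M ∧ 1000 < n' ∧ SV k 1000 (g x) x n' ∧
      ((∃ i, 1000 ≤ i ∧ i < n' ∧ nf k (g x) x n' ^ 100 < nf k (g x) x i ^ 99) ∨
        (∀ i, 1000 ≤ i → i < n' → nf k (g x) x i ≤ (n' : ℝ) ^ 400)) := by
    intro x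
    by_cases hx : x ∈ badS k g a M
    · obtain ⟨n', h⟩ := first_failure hk6 hx.2.1 hx.2.2
      exact ⟨n', fun _ => ⟨h.1, h.2⟩⟩
    · exact ⟨0, fun h => absurd h hx⟩
  choose n' hn' using hff
  set S : ℕ → Set ℝ := fun j => {x | x ∈ badS k g a M ∧ (∃ i < n' x, k ^ (j + 600) ≤ nf k (g x) x i) ∧
      ∀ i < n' x, nf k (g x) x i ≤ k * k ^ (j + 600)} with hS
  have hcov : badS k g a M ⊆ ⋃ j, S j := by
    intro x hx
    obtain ⟨h1, h2, h3, h4⟩ := hn' x hx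
    obtain ⟨j, hj⟩ := exists_class hk6 h2 h3
    exact Set.mem_iUnion.2 ⟨j, hx, hj⟩
  have hclass : ∀ j, volume (S j) ≤ 300 * volume (DDset k M (j + 600 - 1) ∪ DDset k M (j + 600) ∪ LGset k (j + 600)) := by
    intro j
    obtain ⟨r, hr0, hr1, hr⟩ := hK1 k hkK1 (k ^ (j + 600)) (pow_le_pow_right₀ hk1 (by omega))
    refine sep_tor hr0 hr1 hg (S := S j) (a := a) (fun x hx => hx.1.1)
      (((measurable_DDset k M (j + 600 - 1)).union (measurable_DDset k M (j + 600))).union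
        (measurable_LGset k (j + 600))) ?_
    intro l hl
    obtain ⟨Y, hY1, hY2⟩ := hr g hg l (S j) n' (by
      intro x hx
      obtain ⟨h1, h2, h3, h4⟩ := hn' x hx.1
      exact ⟨hl x hx, h3, hx.2.1, hx.2.2⟩)
    refine ⟨Y, ?_, hY2⟩
    intro x hx
    obtain ⟨h1, h2, h3, h4⟩ := hn' x hx.1
    refine ⟨(hY1 x hx).1, ?_⟩
    intro s hs
    exact classify hk9 h1 h2 h3 h4 hx.2.1 hx.2.2 (by omega) ((hY1 x hx).2 s hs)
  refine (measure_mono hcov).trans ((measure_iUnion_le _).trans ?_)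
  have h1 : ∀ j, volume (S j) ≤ 300 * volume (DDset k M (j + 599)) + 300 * volume (DDset k M (j + 1 + 599)) +
      300 * ENNReal.ofReal (8000 * (1 / k ^ (3 / 2 : ℝ)) * (1 / 2) ^ j) := by
    intro j
    refine (hclass j).trans ?_
    rw [← mul_add, ← mul_add]
    gcongr
    refine (measure_union_le _ _).trans ?_
    gcongr
    · exact measure_union_le _ _
    · exact vol_LGset hk6 hk400
  refine (ENNReal.tsum_le_tsum h1).trans ?_
  rw [ENNReal.tsum_add, ENNReal.tsum_add, ENNReal.tsum_mul_left, ENNReal.tsum_mul_left, ENNReal.tsum_mul_left]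
  have h2 : ∑' j : ℕ, volume (DDset k M (j + 1 + 599)) ≤ ∑' j : ℕ, volume (DDset k M (j + 599)) := by
    rw [(tsum_eq_zero_add' (f := fun j : ℕ => volume (DDset k M (j + 599))) ENNReal.summable)]
    exact le_add_self
  have h3 : 300 * ∑' j : ℕ, ENNReal.ofReal (8000 * (1 / k ^ (3 / 2 : ℝ)) * (1 / 2) ^ j) ≤ ENNReal.ofReal (1 / k) := by
    rw [← ENNReal.ofReal_tsum_of_nonneg (fun j => by positivity)
      ((summable_geometric_of_lt_one (by norm_num) (by norm_num)).mul_left _), tsum_mul_left,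
      tsum_geometric_of_lt_one (by norm_num) (by norm_num),
      show (300 : ℝ≥0∞) = ENNReal.ofReal 300 by norm_num, ← ENNReal.ofReal_mul (by norm_num)]
    apply ENNReal.ofReal_le_ofReal
    have h4 : k ^ (3 / 2 : ℝ) = k * k ^ (1 / 2 : ℝ) := by
      rw [← Real.rpow_one_add' hk0.le (by norm_num)]
      norm_num
    have h5 : (4800000 : ℝ) ≤ k ^ (1 / 2 : ℝ) := by
      rw [← Real.sqrt_eq_rpow]
      exact Real.le_sqrt_of_sq_le hksq
    have h6 : 0 < k ^ (1 / 2 : ℝ) := by positivity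
    rw [h4]
    have e1 : 300 * (8000 * (1 / (k * k ^ (1 / 2 : ℝ))) * (1 - 1 / 2)⁻¹) = (1 / k) * (4800000 / k ^ (1 / 2 : ℝ)) := by
      field_simp
      norm_num
    rw [e1]
    have h7 : 4800000 / k ^ (1 / 2 : ℝ) ≤ 1 := by
      rw [div_le_one h6]; exact h5
    calc (1 / k) * (4800000 / k ^ (1 / 2 : ℝ)) ≤ (1 / k) * 1 := by gcongr
      _ = 1 / k := mul_one _
  calc 300 * ∑' j : ℕ, volume (DDset k M (j + 599)) + 300 * ∑' j : ℕ, volume (DDset k M (j + 1 + 599)) +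
        300 * ∑' j : ℕ, ENNReal.ofReal (8000 * (1 / k ^ (3 / 2 : ℝ)) * (1 / 2) ^ j)
      ≤ 300 * ∑' j : ℕ, volume (DDset k M (j + 599)) + 300 * ∑' j : ℕ, volume (DDset k M (j + 599)) +
        ENNReal.ofReal (1 / k) := by gcongr
    _ = 600 * ∑' D : ℕ, volume (DDset k M (D + 599)) + ENNReal.ofReal (1 / k) := by ring

end Crest.Agent.R128.Lam0
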