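import Mathlib
import Crest.Agent.R128.Skel
import Crest.Agent.R128.Lam0V
import Crest.Agent.R128.CoreI

/-!
# Row 128, node V4 (helper287): classification and sum over the pairs of classes

`v4_of_prod` : `Skel.V4` from helper815's product of strips (`prod_of_core`).
-/

set_option autoImplicit false
open MeasureTheory Filter Topology Finset
open scoped ENNReal NNReal

namespace Crest.Agent.R128.Cls287

open Crest.Agent.R128.BVP Crest.Agent.R128.Lam0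

/-! ### growth along regular digits -/

theorem b_facts {k : ℝ} (hk : (10 : ℝ) ^ 30 ≤ k) :
    (10 : ℝ) ^ 19 ≤ k ^ (2 / 3 : ℝ) ∧ k ^ 3 ≤ (k ^ (2 / 3 : ℝ) - 1) ^ 5 := by
  have hk0 : (0 : ℝ) < k := lt_of_lt_of_le (by norm_num) hk
  have h1 : (10 : ℝ) ^ 19 ≤ k ^ (2 / 3 : ℝ) := by
    calc (10 : ℝ) ^ 19 ≤ (10 : ℝ) ^ 20 := by norm_num
      _ = ((10 : ℝ) ^ 30) ^ (2 / 3 : ℝ) := by
          rw [← Real.rpow_natCast (10 : ℝ) 30, ← Real.rpow_mul (by norm_num), ← Real.rpow_natCast]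
          norm_num
      _ ≤ _ := Real.rpow_le_rpow (by positivity) hk (by norm_num)
  refine ⟨h1, ?_⟩
  set b := k ^ (2 / 3 : ℝ) with hb
  have hb3 : b ^ 3 = k ^ 2 := by
    rw [hb, ← Real.rpow_natCast, ← Real.rpow_mul hk0.le, ← Real.rpow_natCast]
    norm_num
  have h2 : b / 2 ≤ b - 1 := by linarith
  have h3 : (b / 2) ^ 15 ≤ (b - 1) ^ 15 := pow_le_pow_left₀ (by linarith) h2 _
  have h4 : (b / 2) ^ 15 = k ^ 10 / 2 ^ 15 := by
    rw [div_pow, show b ^ 15 = (b ^ 3) ^ 5 by ring, hb3]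
    ring
  have h5 : (k ^ 3) ^ 3 ≤ ((b - 1) ^ 5) ^ 3 := by
    rw [← pow_mul, ← pow_mul]
    refine le_trans ?_ h3
    rw [h4, le_div_iff₀ (by positivity)]
    have : k ^ 9 * 2 ^ 15 ≤ k ^ 9 * k := mul_le_mul_of_nonneg_left
      (le_trans (by norm_num) hk) (by positivity)
    calc k ^ (3 * 3) * 2 ^ 15 = k ^ 9 * 2 ^ 15 := by norm_num
      _ ≤ k ^ 9 * k := this
      _ = k ^ 10 := by ring
  have h6 : 0 ≤ (b - 1) ^ 5 := pow_nonneg (by linarith) _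
  exact le_of_pow_le_pow_left₀ (by norm_num) h6 h5

/-- size reached after `j` regular digits -/
theorem grow_big {k : ℝ} (hk : (10 : ℝ) ^ 30 ≤ k) {L : ℕ} {a b : ℝ}
    (cl : ∀ m ∈ Icc 1 L, k ^ (2 / 3 : ℝ) ≤ |Vk k (xorb k a b m)|) {j : ℕ} (hj : j ≤ L) :
    k ^ (3 * (j / 5)) ≤ nf k a b j := by
  obtain ⟨h1, h2⟩ := b_facts hk
  have hb : (2 : ℝ) ≤ k ^ (2 / 3 : ℝ) := le_trans (by norm_num) h1
  have hk0 : (0 : ℝ) < k := lt_of_lt_of_le (by norm_num) hk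
  have hk6 : (10 : ℝ) ^ 6 ≤ k := le_trans (by norm_num) hk
  rw [nf_clean hk6 cl hj]
  refine le_trans ?_ (clean_growth hk6 cl j hj).2
  calc k ^ (3 * (j / 5)) = (k ^ 3) ^ (j / 5) := pow_mul _ _ _
    _ ≤ ((k ^ (2 / 3 : ℝ) - 1) ^ 5) ^ (j / 5) := pow_le_pow_left₀ (by positivity) h2 _
    _ = (k ^ (2 / 3 : ℝ) - 1) ^ (5 * (j / 5)) := (pow_mul _ _ _).symm
    _ ≤ _ := pow_le_pow_right₀ (by linarith) (Nat.mul_div_le j 5)

/-! ### classes -/

/-- first violation at the time `n'`, class `D` -/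
structure CLS (k : ℝ) (M D : ℕ) (z : Tor) (n' : ℕ) : Prop where
  le : n' ≤ M
  gt : 1000 < n'
  cl : Cln k 1000 z
  v2 : ∀ i j, 1000 ≤ i → i ≤ j → j < n' → ‖fld k z i‖ ^ 99 ≤ ‖fld k z j‖ ^ 100
  v3 : ∀ j, 1000 ≤ j → j < n' → ∃ i, 1000 ≤ i ∧ i ≤ j ∧ (j : ℝ) ^ 400 ≤ ‖fld k z i‖
  bad : (∃ i, 1000 ≤ i ∧ i < n' ∧ ‖fld k z n'‖ ^ 100 < ‖fld k z i‖ ^ 99) ∨
    (∀ i, 1000 ≤ i → i < n' → ‖fld k z i‖ ≤ (n' : ℝ) ^ 400)
  lo : ∃ i < n', k ^ D ≤ ‖fld k z i‖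
  hi : ∀ i < n', ‖fld k z i‖ ≤ k * k ^ D

theorem cln_Icc {k : ℝ} {L : ℕ} {a b : ℝ} (h : Cln k L ((a : UnitAddCircle), (b : UnitAddCircle))) :
    ∀ m ∈ Icc 1 L, k ^ (2 / 3 : ℝ) ≤ |Vk k (xorb k a b m)| := by
  intro m hm
  rw [Finset.mem_Icc] at hm
  have h1 := h (m - 1) (by omega)
  rw [xorb_T] at h1
  simp only [V_eq_Vk] at h1
  rwa [Nat.sub_add_cancel hm.1] at h1

theorem CLS.sv {k : ℝ} {M D n' : ℕ} {a b : ℝ}
    (h : CLS k M D ((a : UnitAddCircle), (b : UnitAddCircle)) n') : SV k 1000 a b n' := by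
  refine ⟨cln_Icc h.cl, ?_, ?_⟩
  · intro i j h1 h2 h3
    have := h.v2 i j h1 h2 h3
    rwa [norm_fld_pk, norm_fld_pk] at this
  · intro j h1 h2
    obtain ⟨i, h3, h4, h5⟩ := h.v3 j h1 h2
    rw [norm_fld_pk] at h5
    exact ⟨i, h3, h4, h5⟩

theorem CLS.adm {k : ℝ} {M D n' : ℕ} {a b : ℝ}
    (h : CLS k M D ((a : UnitAddCircle), (b : UnitAddCircle)) n') : Core.Adm k (k ^ D) a b n' := by
  refine ⟨h.sv, ?_, ?_⟩
  · obtain ⟨i, h1, h2⟩ := h.lo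
    rw [norm_fld_pk] at h2
    exact ⟨i, h1, h2⟩
  · intro i hi
    have := h.hi i hi
    rwa [norm_fld_pk] at this

/-- relaxed sets of class `D` -/
def Qs (k : ℝ) (M D : ℕ) : Set Tor := DDset k M (D - 1) ∪ DDset k M D ∪ LGset k D

theorem measurable_Qs (k : ℝ) (M D : ℕ) : MeasurableSet (Qs k M D) :=
  ((measurable_DDset k M (D - 1)).union (measurable_DDset k M D)).union (measurable_LGset k D)

theorem CLS.strip {k : ℝ} (hk9 : (10 : ℝ) ^ 9 ≤ k) {M D n' : ℕ} {a b : ℝ} (hD : 1 ≤ D)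
    (h : CLS k M D ((a : UnitAddCircle), (b : UnitAddCircle)) n') {l s : ℝ}
    (hcmp : ∀ m ≤ n', Lam0.nf k a b m ≤ 2 * Lam0.nf k l s m ∧ Lam0.nf k l s m ≤ 2 * Lam0.nf k a b m) :
    ((l : UnitAddCircle), (s : UnitAddCircle)) ∈ Qs k M D := by
  refine classify hk9 h.le h.gt h.sv ?_ ?_ ?_ hD hcmp
  · rcases h.bad with h1 | h1
    · left
      obtain ⟨i, h2, h3, h4⟩ := h1
      rw [norm_fld_pk, norm_fld_pk] at h4
      exact ⟨i, h2, h3, h4⟩
    · right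
      intro i h2 h3
      have := h1 i h2 h3
      rwa [norm_fld_pk] at this
  · obtain ⟨i, h1, h2⟩ := h.lo
    rw [norm_fld_pk] at h2
    exact ⟨i, h1, h2⟩
  · intro i hi
    have := h.hi i hi
    rwa [norm_fld_pk] at this

/-- the points of class `D` -/
def Bs (k : ℝ) (M D : ℕ) : Set Tor := {z | ∃ n', CLS k M D z n'}

/-- **classification** -/
theorem classify_Rc {k : ℝ} (hk : (10 : ℝ) ^ 30 ≤ k) {D0 L0 M : ℕ} (hL0 : 1010 + 2 * D0 ≤ L0)
    (hkL : (L0 : ℝ) ≤ k) {z : Tor} (hz : z ∈ Skel.Rc k L0 M) :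
    ∃ D, z ∈ Bs k M (600 + D0 + D) := by
  obtain ⟨hC1, -, hV⟩ := hz
  have hk6 : (10 : ℝ) ^ 6 ≤ k := le_trans (by norm_num) hk
  have hk1 : (1 : ℝ) ≤ k := le_trans (by norm_num) hk
  have hk1' : (1 : ℝ) < k := lt_of_lt_of_le (by norm_num) hk
  have hreg : ∀ m, m < L0 → k ^ (2 / 3 : ℝ) ≤ |V k ((T k)^[m] z).2| := by
    intro m hm
    by_contra hcon
    push Not at hcon
    exact hC1 ⟨m, hm, hcon⟩
  have hcln : Cln k 1000 z := fun m hm => hreg m (by omega)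
  have hvld : ¬ Vld k 1000 z M := by
    intro h
    exact hV ⟨fun m hm _ => hreg m hm, h.v2, h.v3⟩
  obtain ⟨a, b, rfl⟩ : ∃ a b : ℝ, z = ((a : UnitAddCircle), (b : UnitAddCircle)) := by
    obtain ⟨a, ha⟩ := QuotientAddGroup.mk_surjective z.1
    obtain ⟨b, hb⟩ := QuotientAddGroup.mk_surjective z.2
    exact ⟨a, b, Prod.ext ha.symm hb.symm⟩
  have clL : ∀ m ∈ Icc 1 L0, k ^ (2 / 3 : ℝ) ≤ |Vk k (xorb k a b m)| :=
    cln_Icc (L := L0) (fun m hm => hreg m hm)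
  obtain ⟨n', h1, h2, h3, h4⟩ := first_failure hk6 hcln ⟨M, le_rfl, hvld⟩
  -- the violation is after `L0`
  have hLn : L0 < n' := by
    by_contra hcon
    push Not at hcon
    have hmono : ∀ i j, i ≤ j → j ≤ L0 → Lam0.nf k a b i ≤ Lam0.nf k a b j := by
      intro i j hij hj
      rcases hij.eq_or_lt with h | h
      · rw [h]
      · have := nf_clean_step hk6 clL h hj
        have h0 := nf_nonneg k a b i
        linarith
    have hbigL : k ^ 600 ≤ Lam0.nf k a b 1000 := by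
      have := grow_big hk clL (j := 1000) (by omega)
      norm_num at this
      exact this
    rcases h4 with ⟨i, hi, hin, hlt⟩ | h4
    · have h5 := hmono i n' hin.le hcon
      have h6 : (1 : ℝ) ≤ Lam0.nf k a b i := (one_le_pow₀ hk1).trans (hbigL.trans (hmono 1000 i hi (by omega)))
      have h7 : Lam0.nf k a b i ^ 99 ≤ Lam0.nf k a b n' ^ 100 := by
        calc Lam0.nf k a b i ^ 99 ≤ Lam0.nf k a b i ^ 100 := pow_le_pow_right₀ h6 (by norm_num)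
          _ ≤ _ := pow_le_pow_left₀ (by linarith) h5 _
      linarith
    · have h5 := h4 1000 le_rfl h2
      have h6 : (n' : ℝ) ^ 400 ≤ k ^ 400 := by
        apply pow_le_pow_left₀ (Nat.cast_nonneg _)
        refine le_trans ?_ hkL
        exact_mod_cast hcon
      have h7 : k ^ 400 < k ^ 600 := pow_lt_pow_right₀ hk1' (by norm_num)
      linarith
  obtain ⟨j, ⟨i0, hi0, hlo⟩, hhi⟩ := exists_class hk6 h2 h3
  have hjbig : D0 + 600 ≤ j + 600 := by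
    have h5 := grow_big hk clL (j := L0) le_rfl
    have h6 := hhi L0 hLn
    have h7 : k ^ (3 * (L0 / 5)) ≤ k ^ (j + 601) := by
      refine h5.trans (h6.trans (le_of_eq ?_))
      ring
    have h8 := (pow_le_pow_iff_right₀ hk1').1 h7
    omega
  refine ⟨j - D0, n', ?_⟩
  have e : 600 + D0 + (j - D0) = j + 600 := by omega
  rw [e]
  have hfl : ∀ m, ‖fld k ((a : UnitAddCircle), (b : UnitAddCircle)) m‖ = Lam0.nf k a b m :=
    fun m => norm_fld_pk k a b m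
  refine ⟨h1, h2, hcln, ?_, ?_, ?_, ⟨i0, hi0, ?_⟩, ?_⟩
  · intro i j h5 h6 h7
    rw [hfl, hfl]
    exact h3.v2 i j h5 h6 h7
  · intro j h5 h6
    obtain ⟨i, h7, h8, h9⟩ := h3.v3 j h5 h6
    exact ⟨i, h7, h8, by rw [hfl]; exact h9⟩
  · rcases h4 with ⟨i, hi, hin, hlt⟩ | h4
    · left
      exact ⟨i, hi, hin, by rw [hfl, hfl]; exact hlt⟩
    · right
      intro i hi hin
      rw [hfl]
      exact h4 i hi hin
  · rw [hfl]
    exact hlo
  · intro i hi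
    rw [hfl]
    exact hhi i hi

/-- total area of the relaxed sets -/
theorem tsum_Qs {k : ℝ} (hk6 : (10 : ℝ) ^ 6 ≤ k) (hk400 : (2 : ℝ) ^ 400 ≤ k)
    (hksq : (16000 : ℝ) ^ 2 ≤ k) (D0 M : ℕ) :
    ∑' D : ℕ, volume (Qs k M (600 + (D0 + 1) + D)) ≤
      2 * (ENNReal.ofReal (Skel.e k) + Skel.rho k D0 M) := by
  have hk0 : (0 : ℝ) < k := lt_of_lt_of_le (by norm_num) hk6
  have hk1 : (1 : ℝ) ≤ k := le_trans (by norm_num) hk6
  have hRD : ∀ D, DDset k M D = Skel.RD k D M := fun D => rfl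
  have h1 : ∀ D, volume (Qs k M (600 + (D0 + 1) + D)) ≤ volume (Skel.RD k (D0 + (600 + D)) M) +
      volume (Skel.RD k (D0 + (601 + D)) M) +
      ENNReal.ofReal (8000 * (1 / k ^ (3 / 2 : ℝ)) * (1 / 2) ^ (D0 + 1 + D)) := by
    intro D
    unfold Qs
    refine (measure_union_le _ _).trans ?_
    gcongr
    · refine (measure_union_le _ _).trans ?_
      rw [hRD, hRD, show 600 + (D0 + 1) + D - 1 = D0 + (600 + D) by omega,
        show 600 + (D0 + 1) + D = D0 + (601 + D) by omega]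
    · rw [show 600 + (D0 + 1) + D = (D0 + 1 + D) + 600 by omega]
      exact vol_LGset hk6 hk400
  refine (ENNReal.tsum_le_tsum h1).trans ?_
  rw [ENNReal.tsum_add, ENNReal.tsum_add]
  have hsh : ∀ c : ℕ, ∑' D : ℕ, volume (Skel.RD k (D0 + (c + D)) M) ≤ Skel.rho k D0 M := by
    intro c
    unfold Skel.rho
    exact ENNReal.tsum_comp_le_tsum_of_injective (f := fun D : ℕ => c + D)
      (fun x y h => Nat.add_left_cancel h) (fun D : ℕ => volume (Skel.RD k (D0 + D) M))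
  have h3 : ∑' D : ℕ, ENNReal.ofReal (8000 * (1 / k ^ (3 / 2 : ℝ)) * (1 / 2) ^ (D0 + 1 + D)) ≤
      ENNReal.ofReal (Skel.e k) := by
    have h4 : ∀ D : ℕ, ENNReal.ofReal (8000 * (1 / k ^ (3 / 2 : ℝ)) * (1 / 2) ^ (D0 + 1 + D)) ≤
        ENNReal.ofReal (8000 * (1 / k ^ (3 / 2 : ℝ)) * (1 / 2) ^ D) := by
      intro D
      apply ENNReal.ofReal_le_ofReal
      apply mul_le_mul_of_nonneg_left _ (by positivity)
      exact pow_le_pow_of_le_one (by norm_num) (by norm_num) (by omega)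
    refine (ENNReal.tsum_le_tsum h4).trans ?_
    rw [← ENNReal.ofReal_tsum_of_nonneg (fun j => by positivity)
      ((summable_geometric_of_lt_one (by norm_num) (by norm_num)).mul_left _), tsum_mul_left,
      tsum_geometric_of_lt_one (by norm_num) (by norm_num)]
    apply ENNReal.ofReal_le_ofReal
    have h5 : k ^ (3 / 2 : ℝ) = k * k ^ (1 / 2 : ℝ) := by
      rw [← Real.rpow_one_add' hk0.le (by norm_num)]
      norm_num
    have h6 : (16000 : ℝ) ≤ k ^ (1 / 2 : ℝ) := by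
      rw [← Real.sqrt_eq_rpow]
      exact Real.le_sqrt_of_sq_le hksq
    have h7 : 0 < k ^ (1 / 2 : ℝ) := by positivity
    have h8 : (1 : ℝ) / k ≤ Skel.e k := by
      unfold Skel.e
      rw [one_div, ← Real.rpow_neg_one]
      exact Real.rpow_le_rpow_of_exponent_le hk1 (by norm_num)
    refine le_trans ?_ h8
    rw [h5]
    have e1 : 8000 * (1 / (k * k ^ (1 / 2 : ℝ))) * (1 - 1 / 2)⁻¹ = (1 / k) * (16000 / k ^ (1 / 2 : ℝ)) := by
      field_simp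
      norm_num
    rw [e1]
    have h9 : 16000 / k ^ (1 / 2 : ℝ) ≤ 1 := by
      rw [div_le_one h7]; exact h6
    calc (1 / k) * (16000 / k ^ (1 / 2 : ℝ)) ≤ (1 / k) * 1 := by gcongr
      _ = 1 / k := mul_one _
  calc _ ≤ Skel.rho k D0 M + Skel.rho k D0 M + ENNReal.ofReal (Skel.e k) := by
        gcongr
        · exact hsh 600
        · exact hsh 601
    _ ≤ 2 * (ENNReal.ofReal (Skel.e k) + Skel.rho k D0 M) := by
        rw [two_mul, ← two_mul (Skel.rho k D0 M)]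
        have : ENNReal.ofReal (Skel.e k) ≤ ENNReal.ofReal (Skel.e k) + ENNReal.ofReal (Skel.e k) := le_self_add
        calc 2 * Skel.rho k D0 M + ENNReal.ofReal (Skel.e k)
            ≤ 2 * Skel.rho k D0 M + (ENNReal.ofReal (Skel.e k) + ENNReal.ofReal (Skel.e k)) := by gcongr
          _ = _ := by rw [two_mul]; ring

/-- helper815's product of strips (conclusion of `prod_of_core`) -/
def ProdStmt : Prop := ∃ K0 : ℝ, ∀ k, K0 ≤ k → ∀ X Y : ℝ, k ^ 600 ≤ X → k ^ 600 ≤ Y →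
  ∀ B₁ B₂ Q₁ Q₂ : Set Tor, MeasurableSet Q₁ → MeasurableSet Q₂ →
  (∀ a b : ℝ, pr (a, b) ∈ B₁ → ∃ n', Core.Adm k X a b n' ∧ ∀ l s : ℝ,
    (∀ m ≤ n', Lam0.nf k a b m ≤ 2 * Lam0.nf k l s m ∧ Lam0.nf k l s m ≤ 2 * Lam0.nf k a b m) →
      pr (l, s) ∈ Q₁) →
  (∀ a b : ℝ, pr (a, b) ∈ B₂ → ∃ n', Core.Adm k Y a b n' ∧ ∀ l s : ℝ,
    (∀ m ≤ n', Lam0.nf k a b m ≤ 2 * Lam0.nf k l s m ∧ Lam0.nf k l s m ≤ 2 * Lam0.nf k a b m) →
      pr (l, s) ∈ Q₂) →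
  volume (B₁ ∩ Prod.swap ⁻¹' B₂) ≤ 10 ^ 7 * (volume Q₁ * volume Q₂)

/-- **V4** from the product of strips -/
theorem v4_of_prod (hP : ProdStmt) : Skel.V4 := by
  obtain ⟨K0, hP⟩ := hP
  intro D0
  refine ⟨1010 + 2 * (D0 + 1), fun L0 hL0 => ⟨4 * 10 ^ 7, ?_⟩⟩
  refine ⟨max K0 (max ((10 : ℝ) ^ 30) (max ((2 : ℝ) ^ 400) (L0 : ℝ))), ?_⟩
  intro k hk M M'
  have hkK : K0 ≤ k := (le_max_left _ _).trans hk
  have hk' := (le_max_right _ _).trans hk
  have hk30 : (10 : ℝ) ^ 30 ≤ k := (le_max_left _ _).trans hk'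
  have hk'' := (le_max_right _ _).trans hk'
  have hk400 : (2 : ℝ) ^ 400 ≤ k := (le_max_left _ _).trans hk''
  have hkL : (L0 : ℝ) ≤ k := (le_max_right _ _).trans hk''
  have hk6 : (10 : ℝ) ^ 6 ≤ k := le_trans (by norm_num) hk30
  have hk9 : (10 : ℝ) ^ 9 ≤ k := le_trans (by norm_num) hk30
  have hk1 : (1 : ℝ) ≤ k := le_trans (by norm_num) hk30
  have hksq : (16000 : ℝ) ^ 2 ≤ k := le_trans (by norm_num) hk30
  set q : ℕ → ℕ → ℝ≥0∞ := fun N D => volume (Qs k N (600 + (D0 + 1) + D)) with hq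
  -- each pair of classes
  have hpair : ∀ D D' : ℕ, volume (Bs k M (600 + (D0 + 1) + D) ∩
      Prod.swap ⁻¹' (Bs k M' (600 + (D0 + 1) + D'))) ≤ 10 ^ 7 * (q M D * q M' D') := by
    intro D D'
    have hone : ∀ N D : ℕ, ∀ a b : ℝ, pr (a, b) ∈ Bs k N (600 + (D0 + 1) + D) →
        ∃ n', Core.Adm k (k ^ (600 + (D0 + 1) + D)) a b n' ∧ ∀ l s : ℝ,
          (∀ m ≤ n', Lam0.nf k a b m ≤ 2 * Lam0.nf k l s m ∧ Lam0.nf k l s m ≤ 2 * Lam0.nf k a b m) →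
          pr (l, s) ∈ Qs k N (600 + (D0 + 1) + D) := by
      rintro N D a b ⟨n', h⟩
      exact ⟨n', h.adm, fun l s hc => h.strip hk9 (by omega) hc⟩
    exact hP k hkK (k ^ (600 + (D0 + 1) + D)) (k ^ (600 + (D0 + 1) + D'))
      (pow_le_pow_right₀ hk1 (by omega)) (pow_le_pow_right₀ hk1 (by omega)) _ _ _ _
      (measurable_Qs _ _ _) (measurable_Qs _ _ _) (hone M D) (hone M' D')
  have hcov : Skel.Rc k L0 M ∩ Skel.bw (Skel.Rc k L0 M') ⊆ ⋃ D : ℕ, ⋃ D' : ℕ,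
      (Bs k M (600 + (D0 + 1) + D) ∩ Prod.swap ⁻¹' (Bs k M' (600 + (D0 + 1) + D'))) := by
    rintro z ⟨h1, h2⟩
    obtain ⟨D, hD⟩ := classify_Rc hk30 hL0 hkL h1
    obtain ⟨D', hD'⟩ := classify_Rc hk30 hL0 hkL (show z.swap ∈ Skel.Rc k L0 M' from h2)
    rw [Set.mem_iUnion]
    refine ⟨D, ?_⟩
    rw [Set.mem_iUnion]
    exact ⟨D', hD, hD'⟩
  calc volume (Skel.Rc k L0 M ∩ Skel.bw (Skel.Rc k L0 M'))
      ≤ ∑' D : ℕ, ∑' D' : ℕ, 10 ^ 7 * (q M D * q M' D') := by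
        refine (measure_mono hcov).trans ((measure_iUnion_le _).trans (ENNReal.tsum_le_tsum fun D => ?_))
        exact (measure_iUnion_le _).trans (ENNReal.tsum_le_tsum fun D' => hpair D D')
    _ = 10 ^ 7 * ((∑' D, q M D) * ∑' D', q M' D') := by
        simp_rw [ENNReal.tsum_mul_left]
        rw [ENNReal.tsum_mul_right]
    _ ≤ 10 ^ 7 * ((2 * (ENNReal.ofReal (Skel.e k) + Skel.rho k D0 M)) *
          (2 * (ENNReal.ofReal (Skel.e k) + Skel.rho k D0 M'))) := by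
        gcongr
        · exact tsum_Qs hk6 hk400 hksq D0 M
        · exact tsum_Qs hk6 hk400 hksq D0 M'
    _ = _ := by
        push_cast
        ring

end Crest.Agent.R128.Cls287
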