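import Crest.Agent.R128.Charge
import Crest.Agent.R128.Alt
import Crest.Agent.R128.CloseV2
import Crest.Agent.R128.AccRoot

set_option autoImplicit false

/-!
Row 128, MASTER v2, node V6 (conversion).  Written by helper430.
Closed integer components of the root contour grouped by their first top.
* `hgt f κ N t` = number of closed levels with top `t`; the levels are exactly the integers
  `⌈f t / κ⌉₊ - r`, `1 ≤ r ≤ hgt t` (`mem_Lset_of_le`, `exists_cmp_of_le`);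
* `cross_le_sum` : `∑_{n<N} (⌈f n/κ⌉₊ - ⌈f (n+1)/κ⌉₊) ≤ ∑_{t<N} hgt t`;
* `count_le` : block decomposition of `∑_t min (hgt t) H` in terms of the non-fresh components.
-/

open Finset
open scoped BigOperators

namespace Crest.Agent.R128.CmpTop

open Crest.Agent.R128

variable {f : ℕ → ℝ} {κ : ℝ} {N : ℕ}

open Classical in
/-- the levels `l` of the closed components with top `t` -/
noncomputable def Lset (f : ℕ → ℝ) (κ : ℝ) (N t : ℕ) : Finset ℕ :=
  (range ⌈f t / κ⌉₊).filter (fun l => ∃ i j, Charge.Cmp f κ N i j (l : ℤ) ∧ Alt.IsTop f i j t)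

/-- number of closed levels of the top `t` -/
noncomputable def hgt (f : ℕ → ℝ) (κ : ℝ) (N t : ℕ) : ℕ := (Lset f κ N t).card

open Classical in
theorem lt_of_mem {t l : ℕ} (h : l ∈ Lset f κ N t) : l < ⌈f t / κ⌉₊ := by
  unfold Lset at h
  rw [mem_filter, mem_range] at h
  exact h.1

open Classical in
theorem of_mem {t l : ℕ} (h : l ∈ Lset f κ N t) :
    ∃ i j, Charge.Cmp f κ N i j (l : ℤ) ∧ Alt.IsTop f i j t := by
  unfold Lset at h
  rw [mem_filter] at h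
  exact h.2

open Classical in
theorem mem_Lset {t l i j : ℕ} (hκ : 0 < κ) (h : Charge.Cmp f κ N i j (l : ℤ)) (ht : Alt.IsTop f i j t) :
    l ∈ Lset f κ N t := by
  unfold Lset
  rw [mem_filter, mem_range]
  refine ⟨?_, i, j, h, ht⟩
  rw [Nat.lt_ceil, lt_div_iff₀ hκ]
  have := h.mid t ht.lt ht.gt
  simpa using this

theorem up {t l l' : ℕ} (hκ : 0 < κ) (h : l ∈ Lset f κ N t) (hl : l ≤ l') (hl' : l' < ⌈f t / κ⌉₊) :
    l' ∈ Lset f κ N t := by
  obtain ⟨i, j, hc, ht⟩ := of_mem h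
  have hl1 : (l : ℝ) ≤ l' := by exact_mod_cast hl
  have hi : f i ≤ l * κ := by simpa using hc.fi
  have hj : f j ≤ l * κ := by simpa using hc.fj
  have hlt : (l' : ℝ) * κ < f t := by
    rw [Nat.lt_ceil, lt_div_iff₀ hκ] at hl'
    exact hl'
  have hle : (l : ℝ) * κ ≤ l' * κ := mul_le_mul_of_nonneg_right hl1 hκ.le
  have hsig : Alt.SigMax f (f t - l * κ) N t := by
    refine ⟨i, j, ht.lt, ht.gt, hc.le, by linarith, by linarith, ?_, ?_⟩
    · intro m h1 h2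
      rcases eq_or_lt_of_le h1 with e | e
      · rw [← e]; linarith
      rcases eq_or_lt_of_le h2 with e' | e'
      · rw [e']; linarith
      exact ht.le m e e'
    · intro m h1 h2
      rcases eq_or_lt_of_le h1 with e | e
      · rw [← e]; linarith
      exact ht.first m e h2
  obtain ⟨i', j', hc', ht'⟩ := Alt.exists_cmp (κ := κ) hsig (l := (l' : ℤ)) (by
    push_cast
    linarith) (by push_cast; exact hlt)
  exact mem_Lset hκ ⟨hc'.lt, hc'.le, hc'.left, hc'.mid, hc'.right⟩ ht'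

open Classical in
theorem mem_Lset_of_le {t r : ℕ} (hκ : 0 < κ) (h1 : 1 ≤ r) (h2 : r ≤ hgt f κ N t) :
    ⌈f t / κ⌉₊ - r ∈ Lset f κ N t ∧ r ≤ ⌈f t / κ⌉₊ := by
  have hle : hgt f κ N t ≤ ⌈f t / κ⌉₊ := by
    unfold hgt Lset
    exact (Finset.card_filter_le _ _).trans (by simp)
  refine ⟨?_, h2.trans hle⟩
  by_contra hcon
  have hsub : Lset f κ N t ⊆ Ioo (⌈f t / κ⌉₊ - r) ⌈f t / κ⌉₊ := by
    intro l hl
    rw [mem_Ioo]
    refine ⟨?_, lt_of_mem hl⟩
    by_contra hlr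
    push Not at hlr
    exact hcon (up hκ hl hlr (by omega))
  have hc := Finset.card_le_card hsub
  rw [Nat.card_Ioo] at hc
  unfold hgt at h2 hle
  omega

/-- the component of depth `r` of the top `t` -/
theorem exists_cmp_of_le {t r : ℕ} (hκ : 0 < κ) (h1 : 1 ≤ r) (h2 : r ≤ hgt f κ N t) :
    ∃ i j, Charge.Cmp f κ N i j ((⌈f t / κ⌉₊ - r : ℕ) : ℤ) ∧ Alt.IsTop f i j t :=
  of_mem (mem_Lset_of_le hκ h1 h2).1

/-- the depth in natural units -/
theorem depth_bounds {t r : ℕ} (hκ : 0 < κ) (ht : 0 ≤ f t) (hr : r ≤ ⌈f t / κ⌉₊) :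
    f t - ((⌈f t / κ⌉₊ - r : ℕ) : ℝ) * κ ≤ r * κ ∧
      (1 ≤ ⌈f t / κ⌉₊ → (r - 1 : ℝ) * κ < f t - ((⌈f t / κ⌉₊ - r : ℕ) : ℝ) * κ) := by
  have e : f t / κ * κ = f t := by field_simp
  have h1 : f t / κ ≤ ⌈f t / κ⌉₊ := Nat.le_ceil _
  have h2 : (⌈f t / κ⌉₊ : ℝ) < f t / κ + 1 := Nat.ceil_lt_add_one (by positivity)
  rw [Nat.cast_sub hr]
  constructor
  · have := mul_le_mul_of_nonneg_right h1 hκ.le
    rw [e] at this
    nlinarith
  · intro _
    have := mul_lt_mul_of_pos_right h2 hκ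
    rw [add_mul, e] at this
    nlinarith

/-- existence of the component to the left of a descent below level `l` -/
theorem exists_cmp_descent (hκ : 0 < κ) (h0 : f 0 ≤ 0) {n l : ℕ} (hn : n < N)
    (h1 : ⌈f (n + 1) / κ⌉₊ ≤ l) (h2 : l < ⌈f n / κ⌉₊) :
    ∃ i t, Charge.Cmp f κ N i (n + 1) (l : ℤ) ∧ Alt.IsTop f i (n + 1) t := by
  classical
  have hb : f (n + 1) ≤ l * κ := by
    have := Nat.ceil_le.mp h1
    rwa [div_le_iff₀ hκ] at this
  have ha : (l : ℝ) * κ < f n := by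
    rwa [Nat.lt_ceil, lt_div_iff₀ hκ] at h2
  have hl0 : (0:ℝ) ≤ l * κ := by positivity
  have hn0 : 0 < n := by
    rcases Nat.eq_zero_or_pos n with e | e
    · rw [e] at ha; linarith
    · exact e
  set S := (range n).filter (fun m => f m ≤ l * κ) with hS
  have h0S : 0 ∈ S := by rw [hS, mem_filter, mem_range]; exact ⟨hn0, by linarith⟩
  set i := S.max' ⟨0, h0S⟩ with hi
  have hiS : i ∈ S := Finset.max'_mem _ _
  rw [hS, mem_filter, mem_range] at hiS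
  have hmid : ∀ m, i < m → m < n + 1 → (l : ℝ) * κ < f m := by
    intro m hm hmn
    rcases eq_or_lt_of_le (Nat.lt_succ_iff.mp hmn) with e | e
    · rw [e]; exact ha
    · by_contra hcon
      push Not at hcon
      have : m ∈ S := by rw [hS, mem_filter, mem_range]; exact ⟨e, hcon⟩
      have := Finset.le_max' S m this
      omega
  obtain ⟨t, t1, t2, t3, t4⟩ := Alt.exists_first_argmax f (show i + 1 ≤ n by omega)
  refine ⟨i, t, ⟨by omega, by omega, ?_, ?_, ?_⟩, ⟨by omega, by omega, ?_, ?_⟩⟩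
  · simpa using hiS.2
  · intro m h3 h4
    simpa using hmid m h3 h4
  · simpa using hb
  · intro m h3 h4
    exact t3 m (by omega) (by omega)
  · intro m h3 h4
    exact t4 m (by omega) h4

theorem cross_le_sum (hκ : 0 < κ) (h0 : f 0 ≤ 0) :
    ∑ n ∈ range N, (⌈f n / κ⌉₊ - ⌈f (n + 1) / κ⌉₊) ≤ ∑ t ∈ range N, hgt f κ N t := by
  classical
  have e1 : ∑ n ∈ range N, (⌈f n / κ⌉₊ - ⌈f (n + 1) / κ⌉₊) =
      ((range N).sigma (fun n => Ico ⌈f (n + 1) / κ⌉₊ ⌈f n / κ⌉₊)).card := by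
    rw [Finset.card_sigma]
    exact Finset.sum_congr rfl fun n _ => (Nat.card_Ico _ _).symm
  have e2 : ∑ t ∈ range N, hgt f κ N t = ((range N).sigma (fun t => Lset f κ N t)).card := by
    rw [Finset.card_sigma]
    rfl
  rw [e1, e2]
  have key : ∀ n l : ℕ, n < N → ⌈f (n + 1) / κ⌉₊ ≤ l → l < ⌈f n / κ⌉₊ →
      ∃ t i, Charge.Cmp f κ N i (n + 1) (l : ℤ) ∧ Alt.IsTop f i (n + 1) t := by
    intro n l h1 h2 h3
    obtain ⟨i, t, h4, h5⟩ := exists_cmp_descent hκ h0 h1 h2 h3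
    exact ⟨t, i, h4, h5⟩
  choose! g gi h1 h2 using key
  refine Finset.card_le_card_of_injOn (fun p => ⟨g p.1 p.2, p.2⟩) ?_ ?_
  · rintro ⟨n, l⟩ hp
    simp only [Finset.coe_sigma, Set.mem_sigma_iff, Finset.mem_coe, Finset.mem_range,
      Finset.mem_Ico] at hp ⊢
    obtain ⟨p1, p2, p3⟩ := hp
    have t1 := h1 n l p1 p2 p3
    have t2 := h2 n l p1 p2 p3
    refine ⟨?_, mem_Lset hκ t1 t2⟩
    have := t2.gt
    omega
  · rintro ⟨n, l⟩ hp ⟨n', l'⟩ hp' e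
    simp only [Finset.coe_sigma, Set.mem_sigma_iff, Finset.mem_coe, Finset.mem_range,
      Finset.mem_Ico] at hp hp'
    obtain ⟨p1, p2, p3⟩ := hp
    obtain ⟨q1, q2, q3⟩ := hp'
    simp only [Sigma.mk.injEq, heq_eq_eq] at e
    obtain ⟨e1, e2⟩ := e
    subst e2
    have t1 := h1 n l p1 p2 p3
    have t2 := h2 n l p1 p2 p3
    have s1 := h1 n' l q1 q2 q3
    have s2 := h2 n' l q1 q2 q3
    have hd := Charge.Cmp.det_mid t1 s1 t2.lt t2.gt (by rw [e1]; exact s2.lt) (by rw [e1]; exact s2.gt)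
    have : n = n' := by omega
    subst this
    rfl

open Classical in
/-- depth `r` of the top `t` is bad for the predicate `Bad i j l` -/
def nf (f : ℕ → ℝ) (κ : ℝ) (N : ℕ) (Bad : ℕ → ℕ → ℤ → Prop) (t r : ℕ) : Prop :=
  ∃ i j, Charge.Cmp f κ N i j ((⌈f t / κ⌉₊ - r : ℕ) : ℤ) ∧ Alt.IsTop f i j t ∧
    Bad i j ((⌈f t / κ⌉₊ - r : ℕ) : ℤ)

open Classical in
/-- the bad depths of all tops are counted by a finite set of components -/
theorem nf_count (hκ : 0 < κ) (hf : ∀ n, 0 ≤ f n) {H Q0 : ℕ} (hQ0 : 1 ≤ Q0)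
    (Bad : ℕ → ℕ → ℤ → Prop) {K : ℕ}
    (hK : ∀ S : Finset (ℕ × ℕ × ℤ), (∀ c ∈ S, Charge.Cmp f κ N c.1 c.2.1 c.2.2 ∧
      ∃ T, Alt.IsTop f c.1 c.2.1 T ∧ f T - c.2.2 * κ ≤ H * κ ∧ (Q0 - 1 : ℝ) * κ < f T - c.2.2 * κ ∧
        Bad c.1 c.2.1 c.2.2) → S.card ≤ K) :
    ∑ t ∈ range N, ((Ico Q0 (min (hgt f κ N t) H)).filter (nf f κ N Bad t)).card ≤ K := by
  rw [← Finset.card_sigma]
  have key : ∀ t r : ℕ, nf f κ N Bad t r → ∃ c : ℕ × ℕ × ℤ, c.2.2 = ((⌈f t / κ⌉₊ - r : ℕ) : ℤ) ∧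
      Charge.Cmp f κ N c.1 c.2.1 c.2.2 ∧ Alt.IsTop f c.1 c.2.1 t ∧ Bad c.1 c.2.1 c.2.2 := by
    rintro t r ⟨i, j, h1, h2, h3⟩
    exact ⟨(i, j, ((⌈f t / κ⌉₊ - r : ℕ) : ℤ)), rfl, h1, h2, h3⟩
  choose! g h1 h2 h3 h4 using key
  set P := (range N).sigma (fun t => (Ico Q0 (min (hgt f κ N t) H)).filter (nf f κ N Bad t)) with hP
  have hmem : ∀ p ∈ P, nf f κ N Bad p.1 p.2 ∧ Q0 ≤ p.2 ∧ p.2 < hgt f κ N p.1 ∧ p.2 < H := by
    rintro ⟨t, r⟩ hp
    rw [hP, mem_sigma, mem_filter, mem_Ico, lt_min_iff] at hp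
    exact ⟨hp.2.2, hp.2.1.1, hp.2.1.2.1, hp.2.1.2.2⟩
  have hinj : Set.InjOn (fun p : (_ : ℕ) × ℕ => g p.1 p.2) P := by
    rintro ⟨t, r⟩ hp ⟨t', r'⟩ hp' e
    simp only at e
    obtain ⟨a1, a2, a3, a4⟩ := hmem _ hp
    obtain ⟨b1, b2, b3, b4⟩ := hmem _ hp'
    have ht : t = t' := by
      have s1 := h3 t r a1
      have s2 := h3 t' r' b1
      rw [e] at s1
      exact s1.unique s2
    subst ht
    have l1 := h1 t r a1
    have l2 := h1 t r' b1
    rw [e, l2] at l1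
    simp only at a1 a2 a3 a4 b1 b2 b3 b4
    have c1 := (mem_Lset_of_le (t := t) hκ (by omega) a3.le).2
    have c2 := (mem_Lset_of_le (t := t) hκ (by omega) b3.le).2
    have : (⌈f t / κ⌉₊ - r' : ℕ) = ⌈f t / κ⌉₊ - r := by exact_mod_cast l1
    have : r = r' := by omega
    subst this
    rfl
  rw [← Finset.card_image_of_injOn hinj]
  apply hK
  intro c hc
  rw [mem_image] at hc
  obtain ⟨⟨t, r⟩, hp, rfl⟩ := hc
  obtain ⟨a1, a2, a3, a4⟩ := hmem _ hp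
  simp only at a1 a2 a3 a4 ⊢
  refine ⟨h2 t r a1, t, h3 t r a1, ?_, ?_, h4 t r a1⟩
  · have c1 := (mem_Lset_of_le (t := t) hκ (by omega) a3.le).2
    have d := (depth_bounds (t := t) hκ (hf t) c1).1
    rw [h1 t r a1]
    have hr : (r : ℝ) ≤ H := by exact_mod_cast a4.le
    have : (r : ℝ) * κ ≤ H * κ := mul_le_mul_of_nonneg_right hr hκ.le
    push_cast
    linarith
  · have c1 := (mem_Lset_of_le (t := t) hκ (by omega) a3.le).2
    have d := (depth_bounds (t := t) hκ (hf t) c1).2 (by omega)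
    rw [h1 t r a1]
    have hr : (Q0 : ℝ) ≤ r := by exact_mod_cast a2
    have : ((Q0 : ℝ) - 1) * κ ≤ ((r : ℝ) - 1) * κ := mul_le_mul_of_nonneg_right (by linarith) hκ.le
    push_cast
    linarith

end Crest.Agent.R128.CmpTop
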