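import Mathlib
import Crest.Agent.R128.CoreI

/-!
Row 128, node V3-CORE, half `CohStmt` (second independent proof, helper251).
-/

set_option autoImplicit false

open Finset

namespace Crest.Agent.R128.Coh251

open Crest.Agent.R128.TreeSum Crest.Agent.R128.BVP Crest.Agent.R128.Lam0 Crest.Agent.R128.Core
open Crest.Agent.R128.Val

variable {n L : ℕ} {a p q : ℕ → ℝ} {b : ℝ}

/-- the explicit majorant of the weights `lw` -/
noncomputable def Bw (b : ℝ) (p : ℕ → ℝ) (m : ℕ) : ℝ :=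
  if m ≤ 30 then 3 * b ^ (-ex b p m) else 2 * b ^ (6 - 97 / 100 * ex b p m)

theorem lamBw (V : Valid b L n a p q) : LamB b n (ex b p) (Bw b p) := by
  have E := V.expo
  have hb0 := E.b0
  have hb := V.hb
  refine ⟨?_, ?_, ?_⟩
  · intro m _
    unfold Bw
    split_ifs <;> positivity
  · intro m hm
    unfold Bw
    rw [if_pos hm]
  · intro m hm
    unfold Bw
    split_ifs with h
    · have h0 := E.nonneg hm
      have h1 : b ^ (-ex b p m) * b ^ (6 : ℝ) ≤ b ^ (6 - 97 / 100 * ex b p m) := by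
        rw [← Real.rpow_add hb0]
        apply E.mono
        linarith
      have h2 : (2 : ℝ) ≤ b ^ (6 : ℝ) := by
        have h3 : b ^ (1 : ℝ) ≤ b ^ (6 : ℝ) := E.mono (by norm_num)
        rw [Real.rpow_one] at h3
        linarith
      have h4 : 0 < b ^ (-ex b p m) := by positivity
      nlinarith
    · exact le_rfl

theorem lw_le_Bw (V : Valid b L n a p q) {m : ℕ} (hm : m ≤ n) : lw n p q m ≤ Bw b p m := by
  unfold Bw
  split_ifs with h
  · exact V.lamB.c m h
  · exact V.lamB.g m hm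

theorem Bw_pos (V : Valid b L n a p q) (m : ℕ) : 0 < Bw b p m := by
  have hb0 := V.expo.b0
  unfold Bw
  split_ifs <;> positivity

theorem K_left' (V : Valid b L n a p q) {m j : ℕ} (hm : m ≤ n) (h : j ≤ m) :
    |K n p q m j| ≤ Bw b p m * |p j| :=
  (V.K_left h).trans (mul_le_mul_of_nonneg_right (lw_le_Bw V hm) (abs_nonneg _))

theorem K_right' (V : Valid b L n a p q) {m j : ℕ} (hj : j ≤ n) (h : m < j) :
    |K n p q m j| ≤ |p m| * Bw b p j :=
  (V.K_right h).trans (mul_le_mul_of_nonneg_left (lw_le_Bw V hj) (abs_nonneg _))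

theorem s2' (V : Valid b L n a p q) :
    ∑ j ∈ Icc 1 n, Bw b p j ^ 2 * W p (j - 1) ≤ 11 / b ^ 2 := by
  have h := sum2 V.expo (lamBw V)
  have hb0 : 0 < b := V.expo.b0
  have e : b ^ (-2 : ℝ) = 1 / b ^ 2 := by
    rw [Real.rpow_neg hb0.le, Real.rpow_two, one_div]
  rw [e] at h
  have : ∑ j ∈ Icc 1 n, Bw b p j ^ 2 * W p (j - 1) =
      ∑ j ∈ Icc 1 n, Bw b p j ^ 2 * b ^ ex b p (j - 1) := by
    apply Finset.sum_congr rfl
    intro j hj
    rw [Finset.mem_Icc] at hj
    rw [V.W_eq (by omega)]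
  rw [this]
  calc _ ≤ 11 * (1 / b ^ 2) := h
    _ = _ := by ring

theorem s3' (V : Valid b L n a p q) {m : ℕ} (hm : m ∈ Icc 1 n) :
    W p (m - 1) * W p m * ∑ j ∈ Ioc m n, Bw b p j ^ 3 ≤ 1 / b ^ 2 := by
  have h := sum3 V.expo (lamBw V) hm
  have hb := V.hb
  have hb0 : 0 < b := V.expo.b0
  have e : b ^ (-3 : ℝ) = 1 / b ^ 3 := by
    rw [Real.rpow_neg hb0.le, one_div]
    congr 1
    exact_mod_cast Real.rpow_natCast b 3
  rw [e] at h
  rw [Finset.mem_Icc] at hm
  rw [V.W_eq (by omega), V.W_eq hm.2]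
  refine h.trans ?_
  rw [mul_one_div, div_le_div_iff₀ (by positivity) (by positivity)]
  have : 0 < b ^ 2 := by positivity
  nlinarith

theorem s1' (V : Valid b L n a p q) {m : ℕ} (hm : m ∈ Icc 1 n) :
    Bw b p m * ∑ j ∈ Icc 1 m, W p (j - 1) ^ 2 * Bw b p j ≤ 10 / b ^ 2 * W p (m - 1) := by
  have h := sum1 V.expo (lamBw V) hm
  have hb0 : 0 < b := V.expo.b0
  rw [Finset.mem_Icc] at hm
  have e : b ^ (-2 : ℝ) = 1 / b ^ 2 := by
    rw [Real.rpow_neg hb0.le, Real.rpow_two, one_div]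
  rw [e, ← V.W_eq (by omega)] at h
  have : ∑ j ∈ Icc 1 m, W p (j - 1) ^ 2 * Bw b p j =
      ∑ j ∈ Icc 1 m, (b ^ ex b p (j - 1)) ^ 2 * Bw b p j := by
    apply Finset.sum_congr rfl
    intro j hj
    rw [Finset.mem_Icc] at hj
    rw [V.W_eq (by omega)]
  rw [this]
  calc _ ≤ 10 * (1 / b ^ 2) * W p (m - 1) := h
    _ = _ := by ring

theorem hsr' (V : Valid b L n a p q) {M ε : ℝ} (hM0 : 0 ≤ M) (hM : 24 * M ≤ ε * b ^ 2)
    {m : ℕ} (hm : m ∈ Icc 1 n) :
    ∑ j ∈ Icc 1 n, |K n p q m j| * (M * Bw b p j) * rh n p j ≤ ε * rh n p m := by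
  have hb0 : 0 < b := V.expo.b0
  have hD := V.Dpos
  have hm' := Finset.mem_Icc.mp hm
  have s1 := s1' V hm
  have s2 := s2' V
  have hWm := W_nonneg p (m - 1)
  have hpt : ∀ j ∈ Icc 1 n, |K n p q m j| * (M * Bw b p j) * rh n p j ≤
      (if j ≤ m then M / |p (n + 1)| * (Bw b p m * (W p (j - 1) ^ 2 * Bw b p j)) else 0) +
        M * rh n p m * (Bw b p j ^ 2 * W p (j - 1)) := by
    intro j hj
    rw [Finset.mem_Icc] at hj
    have hlj := (Bw_pos V j).le
    have hlm := (Bw_pos V m).le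
    have hrm := (V.rh_pos hm).le
    have hWj := W_nonneg p (j - 1)
    rcases Nat.lt_or_ge m j with h | h
    · rw [if_neg (by omega), zero_add]
      have h1 := K_right' V hj.2 h
      have h2 := abs_le_W_pred p hm'.1
      calc |K n p q m j| * (M * Bw b p j) * rh n p j
          ≤ (W p (m - 1) * Bw b p j) * (M * Bw b p j) * rh n p j := by
            have hr : 0 ≤ rh n p j := (V.rh_pos (Finset.mem_Icc.mpr hj)).le
            have : |K n p q m j| ≤ W p (m - 1) * Bw b p j :=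
              h1.trans (mul_le_mul_of_nonneg_right h2 hlj)
            gcongr
        _ = M * rh n p m * (Bw b p j ^ 2 * W p (j - 1)) := by
            unfold rh
            ring
    · rw [if_pos h]
      have h1 := K_left' V hm'.2 h
      have h2 := abs_le_W_pred p hj.1
      have h3 : |K n p q m j| * (M * Bw b p j) * rh n p j ≤
          M / |p (n + 1)| * (Bw b p m * (W p (j - 1) ^ 2 * Bw b p j)) := by
        calc |K n p q m j| * (M * Bw b p j) * rh n p j
            ≤ (Bw b p m * W p (j - 1)) * (M * Bw b p j) * rh n p j := by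
              have hr : 0 ≤ rh n p j := (V.rh_pos (Finset.mem_Icc.mpr hj)).le
              have : |K n p q m j| ≤ Bw b p m * W p (j - 1) :=
                h1.trans (mul_le_mul_of_nonneg_left h2 hlm)
              gcongr
          _ = _ := by
              unfold rh
              ring
      have h4 : 0 ≤ M * rh n p m * (Bw b p j ^ 2 * W p (j - 1)) := by positivity
      linarith
  refine (Finset.sum_le_sum hpt).trans ?_
  rw [Finset.sum_add_distrib, ← Finset.mul_sum, ← Finset.sum_filter]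
  have hf : (Icc 1 n).filter (fun j => j ≤ m) = Icc 1 m := by
    ext j
    simp only [Finset.mem_filter, Finset.mem_Icc]
    omega
  rw [hf, ← Finset.mul_sum, ← Finset.mul_sum]
  have hrm := (V.rh_pos hm).le
  have t1 : M / |p (n + 1)| * (Bw b p m * ∑ j ∈ Icc 1 m, W p (j - 1) ^ 2 * Bw b p j) ≤
      10 * M / b ^ 2 * rh n p m := by
    calc M / |p (n + 1)| * (Bw b p m * ∑ j ∈ Icc 1 m, W p (j - 1) ^ 2 * Bw b p j)
        ≤ M / |p (n + 1)| * (10 / b ^ 2 * W p (m - 1)) := by gcongr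
      _ = 10 * M / b ^ 2 * rh n p m := by unfold rh; ring
  have t2 : M * rh n p m * ∑ j ∈ Icc 1 n, Bw b p j ^ 2 * W p (j - 1) ≤
      11 * M / b ^ 2 * rh n p m := by
    calc M * rh n p m * ∑ j ∈ Icc 1 n, Bw b p j ^ 2 * W p (j - 1)
        ≤ M * rh n p m * (11 / b ^ 2) := by gcongr
      _ = _ := by ring
  have t3 : 21 * M / b ^ 2 ≤ ε := by
    rw [div_le_iff₀ (by positivity)]
    linarith
  have t4 := mul_le_mul_of_nonneg_right t3 hrm
  have t5 : 21 * M / b ^ 2 * rh n p m = 10 * M / b ^ 2 * rh n p m + 11 * M / b ^ 2 * rh n p m := by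
    ring
  linarith

theorem hsl' (V : Valid b L n a p q) {M ε : ℝ} (hM0 : 0 ≤ M) (hM : 24 * M ≤ ε * b ^ 2)
    {m : ℕ} (hm : m ∈ Icc 1 n) :
    ∑ j ∈ Icc 1 n, |K n p q m j| * (M * Bw b p j) * Bw b p j ≤ ε * Bw b p m := by
  have hb0 : 0 < b := V.expo.b0
  have hD := V.Dpos
  have hm' := Finset.mem_Icc.mp hm
  have s2 := s2' V
  have s3 := s3' V hm
  have hWm1 := W_nonneg p (m - 1)
  have hWm := W_pos V.J hm'.2
  have hlm := (Bw_pos V m).le
  have hpt : ∀ j ∈ Icc 1 n, |K n p q m j| * (M * Bw b p j) * Bw b p j ≤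
      M * Bw b p m * (Bw b p j ^ 2 * W p (j - 1)) +
      (if m < j then M * W p (m - 1) * Bw b p j ^ 3 else 0) := by
    intro j hj
    rw [Finset.mem_Icc] at hj
    have hlj := (Bw_pos V j).le
    have hWj := W_nonneg p (j - 1)
    rcases Nat.lt_or_ge m j with h | h
    · rw [if_pos h]
      have h1 := K_right' V hj.2 h
      have h2 := abs_le_W_pred p hm'.1
      have h3 : |K n p q m j| * (M * Bw b p j) * Bw b p j ≤ M * W p (m - 1) * Bw b p j ^ 3 := by
        calc |K n p q m j| * (M * Bw b p j) * Bw b p j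
            ≤ (W p (m - 1) * Bw b p j) * (M * Bw b p j) * Bw b p j := by
              have : |K n p q m j| ≤ W p (m - 1) * Bw b p j :=
                h1.trans (mul_le_mul_of_nonneg_right h2 hlj)
              gcongr
          _ = _ := by ring
      have h4 : 0 ≤ M * Bw b p m * (Bw b p j ^ 2 * W p (j - 1)) := by positivity
      linarith
    · rw [if_neg (by omega), add_zero]
      have h1 := K_left' V hm'.2 h
      have h2 := abs_le_W_pred p hj.1
      calc |K n p q m j| * (M * Bw b p j) * Bw b p j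
          ≤ (Bw b p m * W p (j - 1)) * (M * Bw b p j) * Bw b p j := by
            have : |K n p q m j| ≤ Bw b p m * W p (j - 1) :=
              h1.trans (mul_le_mul_of_nonneg_left h2 hlm)
            gcongr
        _ = _ := by ring
  refine (Finset.sum_le_sum hpt).trans ?_
  rw [Finset.sum_add_distrib, ← Finset.mul_sum, ← Finset.sum_filter]
  have hf : (Icc 1 n).filter (fun j => m < j) = Ioc m n := by
    ext j
    simp only [Finset.mem_filter, Finset.mem_Icc, Finset.mem_Ioc]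
    omega
  rw [hf, ← Finset.mul_sum]
  have t1 : M * Bw b p m * ∑ j ∈ Icc 1 n, Bw b p j ^ 2 * W p (j - 1) ≤
      11 * M / b ^ 2 * Bw b p m := by
    calc M * Bw b p m * ∑ j ∈ Icc 1 n, Bw b p j ^ 2 * W p (j - 1)
        ≤ M * Bw b p m * (11 / b ^ 2) := by gcongr
      _ = _ := by ring
  have t2 : M * W p (m - 1) * ∑ j ∈ Ioc m n, Bw b p j ^ 3 ≤ M / b ^ 2 * Bw b p m := by
    have h1 : W p (m - 1) * ∑ j ∈ Ioc m n, Bw b p j ^ 3 ≤ 1 / b ^ 2 * (1 / W p m) := by
      rw [mul_one_div, le_div_iff₀ hWm]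
      calc W p (m - 1) * (∑ j ∈ Ioc m n, Bw b p j ^ 3) * W p m
          = W p (m - 1) * W p m * ∑ j ∈ Ioc m n, Bw b p j ^ 3 := by ring
        _ ≤ _ := s3
    have h2 := (V.one_div_le_lw hm'.2).trans (lw_le_Bw V hm'.2)
    calc M * W p (m - 1) * ∑ j ∈ Ioc m n, Bw b p j ^ 3
        = M * (W p (m - 1) * ∑ j ∈ Ioc m n, Bw b p j ^ 3) := by ring
      _ ≤ M * (1 / b ^ 2 * (1 / W p m)) := by gcongr
      _ ≤ M * (1 / b ^ 2 * Bw b p m) := by gcongr
      _ = _ := by ring
  have t3 : 12 * M / b ^ 2 ≤ ε := by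
    rw [div_le_iff₀ (by positivity)]
    linarith
  have t4 := mul_le_mul_of_nonneg_right t3 hlm
  have t5 : 12 * M / b ^ 2 * Bw b p m = 11 * M / b ^ 2 * Bw b p m + M / b ^ 2 * Bw b p m := by
    ring
  linarith

/-- the crude constant -/
noncomputable def kp (b E : ℝ) : ℝ := 4 * b ^ (13 + 9 / 100 * E)

theorem ratio_rh (V : Valid b L n a p q) {E : ℝ} (hE : ∀ m ≤ n, ex b p m ≤ E) {m j : ℕ}
    (hm : m ∈ Icc 1 n) (hj : j ∈ Icc 1 n) :
    |K n p q m j| * rh n p j ≤ kp b E * rh n p m := by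
  have EE := V.expo
  have hb0 : 0 < b := EE.b0
  have hD := V.Dpos
  rw [Finset.mem_Icc] at hm hj
  have hWj := W_nonneg p (j - 1)
  have e1 : rh n p j = b ^ ex b p (j - 1) / |p (n + 1)| := by
    unfold rh; rw [V.W_eq (by omega)]
  have e2 : rh n p m = b ^ ex b p (m - 1) / |p (n + 1)| := by
    unfold rh; rw [V.W_eq (by omega)]
  have hE0 : 0 ≤ E := (EE.nonneg (Nat.zero_le n)).trans (hE 0 (Nat.zero_le n))
  rw [e1, e2, ← mul_div_assoc, ← mul_div_assoc]
  apply div_le_div_of_nonneg_right _ hD.le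
  rcases Nat.lt_or_ge m j with h | h
  · have h1 := K_right' V hj.2 h
    have h2 := abs_le_W_pred p hm.1
    have h3 : |K n p q m j| ≤ b ^ ex b p (m - 1) * (2 * b ^ (6 - 97 / 100 * ex b p j)) := by
      refine h1.trans ?_
      rw [V.W_eq (by omega)] at h2
      exact mul_le_mul h2 ((lamBw V).g j hj.2) (Bw_pos V j).le (by positivity)
    have hd := EE.dn (j - 1) (by omega)
    rw [Nat.sub_add_cancel hj.1] at hd
    have he := hE j hj.2
    have hn0 := EE.nonneg hj.2
    calc |K n p q m j| * b ^ ex b p (j - 1)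
        ≤ (b ^ ex b p (m - 1) * (2 * b ^ (6 - 97 / 100 * ex b p j))) * b ^ ex b p (j - 1) := by
          gcongr
      _ = 2 * b ^ (6 - 97 / 100 * ex b p j + ex b p (j - 1)) * b ^ ex b p (m - 1) := by
          rw [Real.rpow_add hb0]; ring
      _ ≤ kp b E * b ^ ex b p (m - 1) := by
          unfold kp
          have h5 : b ^ (6 - 97 / 100 * ex b p j + ex b p (j - 1)) ≤ b ^ (13 + 9 / 100 * E) :=
            EE.mono (by linarith)
          have h6 : 0 < b ^ (13 + 9 / 100 * E) := by positivity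
          apply mul_le_mul_of_nonneg_right _ (by positivity)
          linarith
  · have h1 := K_left' V hm.2 h
    have h2 := abs_le_W_pred p hj.1
    have h3 : |K n p q m j| ≤ (2 * b ^ (6 - 97 / 100 * ex b p m)) * b ^ ex b p (j - 1) := by
      refine h1.trans ?_
      rw [V.W_eq (by omega)] at h2
      exact mul_le_mul ((lamBw V).g m hm.2) h2 (abs_nonneg _) (by positivity)
    have hd := EE.dn (m - 1) (by omega)
    rw [Nat.sub_add_cancel hm.1] at hd
    have hv := EE.v2 (j - 1) (m - 1) (by omega) (by omega)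
    have he := hE (m - 1) (by omega)
    have hn0 := EE.nonneg (by omega : m - 1 ≤ n)
    calc |K n p q m j| * b ^ ex b p (j - 1)
        ≤ ((2 * b ^ (6 - 97 / 100 * ex b p m)) * b ^ ex b p (j - 1)) * b ^ ex b p (j - 1) := by
          gcongr
      _ = 2 * b ^ (6 - 97 / 100 * ex b p m + ex b p (j - 1) + ex b p (j - 1)) := by
          rw [Real.rpow_add hb0, Real.rpow_add hb0]; ring
      _ ≤ 4 * b ^ (13 + 9 / 100 * E + ex b p (m - 1)) := by
          have h5 : b ^ (6 - 97 / 100 * ex b p m + ex b p (j - 1) + ex b p (j - 1)) ≤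
            b ^ (13 + 9 / 100 * E + ex b p (m - 1)) := EE.mono (by linarith)
          have h6 : 0 < b ^ (13 + 9 / 100 * E + ex b p (m - 1)) := by positivity
          linarith
      _ = kp b E * b ^ ex b p (m - 1) := by
          unfold kp
          rw [Real.rpow_add hb0]; ring

theorem ratio_B (V : Valid b L n a p q) {E : ℝ} (hE : ∀ m ≤ n, ex b p m ≤ E) {m j : ℕ}
    (hm : m ∈ Icc 1 n) (hj : j ∈ Icc 1 n) :
    |K n p q m j| * Bw b p j ≤ kp b E * Bw b p m := by
  have EE := V.expo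
  have hb0 : 0 < b := EE.b0
  rw [Finset.mem_Icc] at hm hj
  have hE0 : 0 ≤ E := (EE.nonneg (Nat.zero_le n)).trans (hE 0 (Nat.zero_le n))
  have hBj := Bw_pos V j
  have hBm := Bw_pos V m
  rcases Nat.lt_or_ge m j with h | h
  · have h1 := K_right' V hj.2 h
    have h2 := abs_le_W_pred p hm.1
    have h3 : |K n p q m j| ≤ b ^ ex b p (m - 1) * (2 * b ^ (6 - 97 / 100 * ex b p j)) := by
      refine h1.trans ?_
      rw [V.W_eq (by omega)] at h2
      exact mul_le_mul h2 ((lamBw V).g j hj.2) (Bw_pos V j).le (by positivity)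
    have h4 : b ^ (-ex b p m) ≤ Bw b p m := by
      have h5 := (V.one_div_le_lw hm.2).trans (lw_le_Bw V hm.2)
      rw [V.W_eq hm.2, one_div, ← Real.rpow_neg hb0.le] at h5
      exact h5
    have hv1 := EE.v2 m j h.le hj.2
    have hv2 := EE.v2 (m - 1) j (by omega) hj.2
    have he := hE j hj.2
    have hn0 := EE.nonneg hj.2
    calc |K n p q m j| * Bw b p j
        ≤ (b ^ ex b p (m - 1) * (2 * b ^ (6 - 97 / 100 * ex b p j))) *
          (2 * b ^ (6 - 97 / 100 * ex b p j)) := by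
          apply mul_le_mul h3 ((lamBw V).g j hj.2) hBj.le (by positivity)
      _ = 4 * b ^ (ex b p (m - 1) + (6 - 97 / 100 * ex b p j) + (6 - 97 / 100 * ex b p j)) := by
          rw [Real.rpow_add hb0, Real.rpow_add hb0]; ring
      _ ≤ 4 * b ^ (13 + 9 / 100 * E + (-ex b p m)) := by
          have h5 : b ^ (ex b p (m - 1) + (6 - 97 / 100 * ex b p j) + (6 - 97 / 100 * ex b p j)) ≤
            b ^ (13 + 9 / 100 * E + (-ex b p m)) := EE.mono (by linarith)
          linarith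
      _ = kp b E * b ^ (-ex b p m) := by
          unfold kp
          rw [Real.rpow_add hb0]; ring
      _ ≤ kp b E * Bw b p m := by
          apply mul_le_mul_of_nonneg_left h4
          unfold kp; positivity
  · have h1 := K_left' V hm.2 h
    have h2 := abs_le_W_pred p hj.1
    have h3 : |K n p q m j| ≤ Bw b p m * b ^ ex b p (j - 1) := by
      refine h1.trans ?_
      rw [V.W_eq (by omega)] at h2
      exact mul_le_mul_of_nonneg_left h2 hBm.le
    have hd := EE.dn (j - 1) (by omega)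
    rw [Nat.sub_add_cancel hj.1] at hd
    have he := hE j hj.2
    have hn0 := EE.nonneg hj.2
    calc |K n p q m j| * Bw b p j
        ≤ (Bw b p m * b ^ ex b p (j - 1)) * (2 * b ^ (6 - 97 / 100 * ex b p j)) := by
          apply mul_le_mul h3 ((lamBw V).g j hj.2) hBj.le (by positivity)
      _ = 2 * b ^ (6 - 97 / 100 * ex b p j + ex b p (j - 1)) * Bw b p m := by
          rw [Real.rpow_add hb0]; ring
      _ ≤ kp b E * Bw b p m := by
          unfold kp
          have h5 : b ^ (6 - 97 / 100 * ex b p j + ex b p (j - 1)) ≤ b ^ (13 + 9 / 100 * E) :=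
            EE.mono (by linarith)
          have h6 : 0 < b ^ (13 + 9 / 100 * E) := by positivity
          apply mul_le_mul_of_nonneg_right _ (by positivity)
          linarith

theorem n_le (V : Valid b L n a p q) {E : ℝ} (hE : ∀ m ≤ n, ex b p m ≤ E) :
    (n : ℝ) ≤ b ^ (1 + E / 100) := by
  have EE := V.expo
  have hb0 : 0 < b := EE.b0
  have h1 : ((n : ℝ) + 1) * b ^ (-(E / 100)) ≤ b := by
    calc ((n : ℝ) + 1) * b ^ (-(E / 100)) = ∑ _j ∈ range (n + 1), b ^ (-(E / 100)) := by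
          rw [Finset.sum_const, Finset.card_range, nsmul_eq_mul]; push_cast; ring
      _ ≤ ∑ j ∈ range (n + 1), b ^ (-(1 / 100 * ex b p j)) := by
          apply Finset.sum_le_sum
          intro j hj
          rw [Finset.mem_range] at hj
          have := hE j (by omega)
          exact EE.mono (by linarith)
      _ ≤ b := EE.v3
  have h2 : (n : ℝ) + 1 ≤ b * b ^ (E / 100) := by
    have h3 := mul_le_mul_of_nonneg_right h1 (by positivity : 0 ≤ b ^ (E / 100))
    rw [mul_assoc, ← Real.rpow_add hb0, neg_add_cancel, Real.rpow_zero, mul_one] at h3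
    exact h3
  have h4 : b * b ^ (E / 100) = b ^ (1 + E / 100) := by
    rw [Real.rpow_add hb0, Real.rpow_one]
  rw [h4] at h2
  linarith

/-- the box weight -/
noncomputable def bx (b : ℝ) (p : ℕ → ℝ) (δ : ℝ) (m : ℕ) : ℝ := 20 * Bw b p m + δ * W p m

theorem sum_extra (V : Valid b L n a p q) {E : ℝ} (hE : ∀ m ≤ n, ex b p m ≤ E)
    {M δ : ℝ} (hM0 : 0 ≤ M) (hδ : 0 ≤ δ) {om : ℕ → ℝ} (hom : ∀ j ∈ Icc 1 n, 0 ≤ om j)
    (hr : ∀ m ∈ Icc 1 n, ∀ j ∈ Icc 1 n, |K n p q m j| * om j ≤ kp b E * om m)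
    (hsm : n * (kp b E * (M * (δ * b ^ E))) ≤ 1 / 8) {m : ℕ} (hm : m ∈ Icc 1 n) :
    ∑ j ∈ Icc 1 n, |K n p q m j| * (M * (δ * W p j)) * om j ≤ 1 / 8 * om m := by
  have EE := V.expo
  have hb0 : 0 < b := EE.b0
  calc ∑ j ∈ Icc 1 n, |K n p q m j| * (M * (δ * W p j)) * om j
      ≤ ∑ _j ∈ Icc 1 n, kp b E * om m * (M * (δ * b ^ E)) := by
        apply Finset.sum_le_sum
        intro j hj
        have h1 := hr m hm j hj
        have hj' := Finset.mem_Icc.mp hj
        have h2 : W p j ≤ b ^ E := by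
          rw [V.W_eq hj'.2]
          exact EE.mono (hE j hj'.2)
        have h3 : 0 ≤ M * (δ * W p j) := by
          have := W_nonneg p j
          positivity
        have h4 : M * (δ * W p j) ≤ M * (δ * b ^ E) := by gcongr
        have h5 : 0 ≤ |K n p q m j| * om j := mul_nonneg (abs_nonneg _) (hom j hj)
        calc |K n p q m j| * (M * (δ * W p j)) * om j
            = (|K n p q m j| * om j) * (M * (δ * W p j)) := by ring
          _ ≤ (kp b E * om m) * (M * (δ * b ^ E)) := mul_le_mul h1 h4 h3 (h5.trans h1)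
    _ = (n * (kp b E * (M * (δ * b ^ E)))) * om m := by
        rw [Finset.sum_const, Nat.card_Icc, nsmul_eq_mul, Nat.add_sub_cancel]; ring
    _ ≤ 1 / 8 * om m := mul_le_mul_of_nonneg_right hsm (hom m hm)

theorem hsr_bx (V : Valid b L n a p q) {E : ℝ} (hE : ∀ m ≤ n, ex b p m ≤ E)
    {M δ : ℝ} (hM0 : 0 ≤ M) (hM : 3840 * M ≤ b ^ 2) (hδ : 0 ≤ δ)
    (hsm : n * (kp b E * (M * (δ * b ^ E))) ≤ 1 / 8) {m : ℕ} (hm : m ∈ Icc 1 n) :
    ∑ j ∈ Icc 1 n, |K n p q m j| * (M * bx b p δ j) * rh n p j ≤ 1 / 4 * rh n p m := by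
  have h1 := hsr' V (M := 20 * M) (ε := 1 / 8) (by positivity) (by linarith) hm
  have h2 := sum_extra V hE hM0 hδ (om := rh n p) (fun j hj => (V.rh_pos hj).le)
    (fun m hm j hj => ratio_rh V hE hm hj) hsm hm
  have e : ∑ j ∈ Icc 1 n, |K n p q m j| * (M * bx b p δ j) * rh n p j =
      ∑ j ∈ Icc 1 n, |K n p q m j| * (20 * M * Bw b p j) * rh n p j +
      ∑ j ∈ Icc 1 n, |K n p q m j| * (M * (δ * W p j)) * rh n p j := by
    rw [← Finset.sum_add_distrib]
    apply Finset.sum_congr rfl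
    intro j _
    unfold bx
    ring
  rw [e]
  linarith

theorem hsl_bx (V : Valid b L n a p q) {E : ℝ} (hE : ∀ m ≤ n, ex b p m ≤ E)
    {M δ : ℝ} (hM0 : 0 ≤ M) (hM : 3840 * M ≤ b ^ 2) (hδ : 0 ≤ δ)
    (hsm : n * (kp b E * (M * (δ * b ^ E))) ≤ 1 / 8) {m : ℕ} (hm : m ∈ Icc 1 n) :
    ∑ j ∈ Icc 1 n, |K n p q m j| * (M * bx b p δ j) * Bw b p j ≤ 1 / 4 * Bw b p m := by
  have h1 := hsl' V (M := 20 * M) (ε := 1 / 8) (by positivity) (by linarith) hm
  have h2 := sum_extra V hE hM0 hδ (om := Bw b p) (fun j _ => (Bw_pos V j).le)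
    (fun m hm j hj => ratio_B V hE hm hj) hsm hm
  have e : ∑ j ∈ Icc 1 n, |K n p q m j| * (M * bx b p δ j) * Bw b p j =
      ∑ j ∈ Icc 1 n, |K n p q m j| * (20 * M * Bw b p j) * Bw b p j +
      ∑ j ∈ Icc 1 n, |K n p q m j| * (M * (δ * W p j)) * Bw b p j := by
    rw [← Finset.sum_add_distrib]
    apply Finset.sum_congr rfl
    intro j _
    unfold bx
    ring
  rw [e]
  linarith

/-- two orbits in the box with the same left boundary -/
theorem diff_bx (V : Valid b L n a p q) {f Vd : ℝ → ℝ} {x : ℕ → ℝ} (ha : a = fun m => Vd (x m))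
    {E : ℝ} (hE : ∀ m ≤ n, ex b p m ≤ E)
    {M δ : ℝ} (hM0 : 0 ≤ M) (hM : 3840 * M ≤ b ^ 2) (hδ : 0 ≤ δ) (hNL : NL f Vd M)
    (hsm : n * (kp b E * (M * (δ * b ^ E))) ≤ 1 / 8)
    (y z : ℕ → ℝ) (hy : Orb n f y) (hz : Orb n f z)
    (hyx : ∀ m ∈ Icc 1 n, |y m - x m| ≤ bx b p δ m)
    (hzx : ∀ m ∈ Icc 1 n, |z m - x m| ≤ bx b p δ m) (h0 : z 0 = y 0) :
    |z 1 - y 1| ≤ 2 * (|z (n + 1) - y (n + 1)| / |p (n + 1)|) := by
  have h1n : (1 : ℕ) ∈ Icc 1 n := by
    have := V.hL; have := V.hLn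
    rw [Finset.mem_Icc]; omega
  subst ha
  have h := (orb_diff hM0 hNL x V.J (bx b p δ) (rh n p) (Bw b p) (1 / 4) le_rfl
    (fun m hm => V.rh_pos hm) (fun m hm => V.p_le_rh hm)
    (fun m hm => (V.q_le_lw m).trans (lw_le_Bw V (Finset.mem_Icc.mp hm).2))
    (fun m hm => hsr_bx V hE hM0 hM hδ hsm hm) (fun m hm => hsl_bx V hE hM0 hM hδ hsm hm)
    y z hy hz hyx hzx 1 h1n).1
  have e1 : rh n p 1 = 1 / |p (n + 1)| := by
    unfold rh
    rw [Nat.sub_self, W_zero V.J]
  rw [h0, sub_self, abs_zero, mul_zero, add_zero, e1] at h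
  calc |z 1 - y 1| ≤ 2 * (1 / |p (n + 1)| * |z (n + 1) - y (n + 1)|) := h
    _ = _ := by ring

/-! ### mean value -/

theorem hasDerivAt_xorb (k l s : ℝ) : ∀ m, HasDerivAt (fun s => xorb k l s m) (pk k l s m) s
  | 0 => by
    show HasDerivAt (fun _ : ℝ => l) 0 s
    exact hasDerivAt_const s l
  | 1 => by
    show HasDerivAt (fun s : ℝ => s) 1 s
    exact hasDerivAt_id s
  | m + 2 => by
    have h1 := hasDerivAt_xorb k l s (m + 1)
    have h0 := hasDerivAt_xorb k l s m
    have h2 := (hasDerivAt_fk k (xorb k l s (m + 1))).comp s h1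
    exact h2.sub h0

theorem xorb_sub_le {k l s1 s2 C : ℝ} {m : ℕ}
    (h : ∀ s, |s - s1| ≤ |s2 - s1| → |pk k l s m| ≤ C) :
    |xorb k l s2 m - xorb k l s1 m| ≤ C * |s2 - s1| := by
  have h1 := (convex_uIcc s1 s2).norm_image_sub_le_of_norm_hasDerivWithin_le
    (f := fun s => xorb k l s m) (f' := fun s => pk k l s m) (C := C)
    (fun s _ => (hasDerivAt_xorb k l s m).hasDerivWithinAt)
    (fun s hs => by
      rw [Real.norm_eq_abs]
      apply h
      exact Set.abs_sub_left_of_mem_uIcc hs)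
    Set.left_mem_uIcc Set.right_mem_uIcc
  simpa [Real.norm_eq_abs] using h1

theorem lw_cmp {n1 n2 L1 L2 : ℕ} {a1 a2 p1 q1 p2 q2 : ℕ → ℝ} (V1 : Valid b L1 n1 a1 p1 q1)
    (V2 : Valid b L2 n2 a2 p2 q2) (hn : n1 ≤ n2) {m : ℕ} (hm : m ≤ n1)
    (hc : N p1 m ≤ 4 * N p2 m) : lw n2 p2 q2 m ≤ 6 * Bw b p1 m := by
  have hb0 := V1.expo.b0
  have hb := V1.hb
  have h1 : W p1 m ≤ 6 * W p2 m := by
    have h2 := W_le_N p1 m
    have h3 := N_le_W p2 m
    linarith
  set c6 : ℝ := Real.logb b 6 with hc6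
  have h6 : b ^ c6 = 6 := Real.rpow_logb hb0 (by linarith) (by norm_num)
  have hc60 : 0 ≤ c6 := Real.logb_nonneg (by linarith) (by norm_num)
  have h7 : ex b p1 m ≤ c6 + ex b p2 m := by
    rw [V1.W_eq hm, V2.W_eq (hm.trans hn), ← h6, ← Real.rpow_add hb0] at h1
    exact (Real.rpow_le_rpow_left_iff (by linarith)).mp h1
  unfold Bw
  split_ifs with h
  · refine (V2.lamB.c m h).trans ?_
    have h8 : b ^ (-ex b p2 m) ≤ b ^ (-ex b p1 m + c6) := V1.expo.mono (by linarith)
    rw [Real.rpow_add hb0, h6] at h8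
    linarith
  · refine (V2.lamB.g m (hm.trans hn)).trans ?_
    have h8 : b ^ (6 - 97 / 100 * ex b p2 m) ≤ b ^ (6 - 97 / 100 * ex b p1 m + c6) :=
      V1.expo.mono (by linarith)
    rw [Real.rpow_add hb0, h6] at h8
    linarith

set_option maxHeartbeats 1000000 in
/-- **COHERENCE** -/
theorem coh_stmt : CohStmt := by
  refine ⟨10 ^ 30, fun k hk X hX a1 b1 a2 b2 n1' n2' n1 n2 L1 L2 A1 A2 S1 S2 hn hcmp l s1 s2 ρ
    hl1 hl2 M1 M2 hρ1 hρ2 hs hfield l' s1' s2' hl1' hl2' M1' M2' => ?_⟩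
  obtain ⟨hb19, hbk, hbk2⟩ := base_facts hk
  have hk0 : 0 < k := lt_of_lt_of_le (by positivity) hk
  have V1 := S1.val
  have V2 := S2.val
  set b : ℝ := k ^ (2 / 3 : ℝ) / 2 with hbdef
  set p := pk k a1 b1 with hp
  set p2 := pk k a2 b2 with hp2
  have hb0 : 0 < b := lt_of_lt_of_le (by norm_num) hb19
  have hb1 : 1 < b := lt_of_lt_of_le (by norm_num) hb19
  have hbk' : b ≤ k := by
    by_contra hcon
    push Not at hcon
    nlinarith
  have hX0 : 0 < X := lt_of_lt_of_le (by positivity) hX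
  set x : ℝ := Real.logb b X with hx
  have hXx : b ^ x = X := Real.rpow_logb hb0 (by linarith) hX0
  have hx600 : 600 ≤ x := by
    rw [hx, Real.le_logb_iff_rpow_le hb1 hX0]
    refine le_trans ?_ hX
    have h1 : b ^ (600 : ℝ) = b ^ (600 : ℕ) := by
      rw [← Real.rpow_natCast]; norm_num
    rw [h1]
    exact pow_le_pow_left₀ hb0.le hbk' 600
  have hmono : ∀ {u v : ℝ}, u ≤ v → b ^ u ≤ b ^ v := fun h =>
    Real.rpow_le_rpow_of_exponent_le hb1.le h
  have hX32 : X ^ (-(3 / 2) : ℝ) = b ^ (-(3 / 2) * x) := by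
    rw [← hXx, ← Real.rpow_mul hb0.le]
    congr 1
    ring
  have hX32p : 0 < X ^ (-(3 / 2) : ℝ) := by positivity
  have hρ0 : 0 < ρ := lt_of_lt_of_le (by positivity) hρ1
  -- exponents
  have hE : ∀ m ≤ n1, ex b p m ≤ 2 + x := by
    intro m hm
    have h1 : W p m ≤ b ^ (2 + x) := by
      have h2 := W_le_N p m
      have h3 : N p m ≤ k * X := A1.2.2 m (lt_of_le_of_lt hm S1.lt)
      rw [Real.rpow_add hb0, hXx, Real.rpow_two]
      have h4 : 3 / 2 * (k * X) ≤ b ^ 2 * X := by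
        have h5 : 3 / 2 * k ≤ b ^ 2 := by linarith
        nlinarith
      linarith
    rw [V1.W_eq hm] at h1
    exact (Real.rpow_le_rpow_left_iff hb1).mp h1
  set M : ℝ := 4 * Real.pi ^ 2 * k with hM
  have hM0 : 0 ≤ M := by positivity
  have hM40 : M ≤ 40 * k := M_le hk0
  set δ : ℝ := 4 * X ^ (-(3 / 2) : ℝ) with hδ
  have hδ0 : 0 ≤ δ := by positivity
  have hMb : 3840 * M ≤ b ^ 2 := by linarith
  have hMb2 : M ≤ b ^ (2 : ℝ) := by
    rw [Real.rpow_two]; linarith
  have hsm : n1 * (kp b (2 + x) * (M * (δ * b ^ (2 + x)))) ≤ 1 / 8 := by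
    have h1 := n_le V1 hE
    have h2 : (n1 : ℝ) * (kp b (2 + x) * (M * (δ * b ^ (2 + x)))) ≤
        b ^ (1 + (2 + x) / 100) * (kp b (2 + x) * (b ^ (2 : ℝ) * (δ * b ^ (2 + x)))) := by
      have h3 : 0 ≤ kp b (2 + x) := by unfold kp; positivity
      gcongr
    refine h2.trans ?_
    have h4 : b ^ (1 + (2 + x) / 100) * (kp b (2 + x) * (b ^ (2 : ℝ) * (δ * b ^ (2 + x)))) =
        16 * b ^ (18.2 - 0.4 * x) := by
      rw [hδ, hX32]
      unfold kp
      have e : b ^ (18.2 - 0.4 * x : ℝ) = b ^ (1 + (2 + x) / 100) * b ^ (13 + 9 / 100 * (2 + x)) *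
          b ^ (2 : ℝ) * b ^ (-(3 / 2) * x) * b ^ (2 + x) := by
        rw [← Real.rpow_add hb0, ← Real.rpow_add hb0, ← Real.rpow_add hb0, ← Real.rpow_add hb0]
        congr 1
        ring
      rw [e]
      generalize b ^ (1 + (2 + x) / 100) = y1
      generalize b ^ (13 + 9 / 100 * (2 + x)) = y2
      generalize b ^ (2 : ℝ) = y3
      generalize b ^ (-(3 / 2) * x) = y4
      generalize b ^ (2 + x) = y5
      ring
    rw [h4]
    have h5 : b ^ (18.2 - 0.4 * x) ≤ b ^ (-1 : ℝ) := hmono (by linarith)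
    rw [Real.rpow_neg_one] at h5
    have h6 : b⁻¹ ≤ 1 / 128 := by
      rw [inv_eq_one_div]
      exact one_div_le_one_div_of_le (by norm_num) (by linarith)
    linarith
  -- derivative bounds
  have hd1 : ∀ m ≤ n1, |xorb k l s2 m - xorb k l s1 m| ≤ 2 * N p m * ρ := by
    intro m hm
    have h1 := xorb_sub_le (k := k) (l := l) (s1 := s1) (s2 := s2) (m := m) (C := 2 * N p m)
      (by
        intro s hs'
        have h2 := hfield s (by
          rw [abs_sub_comm s2 s1] at hs'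
          linarith) m hm
        have h3 : |pk k l s m| ≤ nf k l s m := le_max_left _ _
        exact h3.trans h2)
    refine h1.trans ?_
    rw [abs_sub_comm s2 s1]
    exact mul_le_mul_of_nonneg_left hs (by have := N_nonneg p m; linarith)
  have hP : N p n1 = |p (n1 + 1)| := by
    unfold N
    apply max_eq_right
    have h1 := S1.pn
    have h2 := S1.pn1
    rw [← hp] at h1 h2
    linarith
  have hd2 : |xorb k l s2 (n1 + 1) - xorb k l s1 (n1 + 1)| ≤ 2 * |p (n1 + 1)| * ρ := by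
    rw [← hP]
    have h1 := xorb_sub_le (k := k) (l := l) (s1 := s1) (s2 := s2) (m := n1 + 1)
      (C := 2 * N p n1)
      (by
        intro s hs'
        have h2 := hfield s (by
          rw [abs_sub_comm s2 s1] at hs'
          linarith) n1 le_rfl
        have h3 : |pk k l s (n1 + 1)| ≤ nf k l s n1 := le_max_right _ _
        exact h3.trans h2)
    refine h1.trans ?_
    rw [abs_sub_comm s2 s1]
    exact mul_le_mul_of_nonneg_left hs (by have := N_nonneg p n1; linarith)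
  -- boxes
  have hy : ∀ m ∈ Icc 1 n1, |xorb k l' s1' m - xorb k a1 b1 m| ≤ bx b p δ m := by
    intro m hm
    have h1 := M1'.box m hm
    have hm' := Finset.mem_Icc.mp hm
    have h2 := lw_le_Bw V1 hm'.2
    have h3 := W_nonneg p m
    have h4 := Bw_pos V1 m
    have h5 : 0 ≤ δ * W p m := mul_nonneg hδ0 h3
    unfold bx
    linarith
  have hz : ∀ m ∈ Icc 1 n1, |xorb k l' s2' m - xorb k a1 b1 m| ≤ bx b p δ m := by
    intro m hm
    have hm' := Finset.mem_Icc.mp hm
    have hm2 : m ∈ Icc 1 n2 := Finset.mem_Icc.mpr ⟨hm'.1, hm'.2.trans hn⟩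
    have h1 := M2'.box m hm2
    have h2 := M2.box m hm2
    have h3 := M1.box m hm
    have h4 := hd1 m hm'.2
    have h5 := lw_cmp V1 V2 hn hm'.2 (hcmp m hm'.2).1
    have h6 := lw_le_Bw V1 hm'.2
    have h7 := N_le_W p m
    have h8 : 2 * N p m * ρ ≤ δ * W p m := by
      have h9 := N_nonneg p m
      calc 2 * N p m * ρ ≤ 2 * W p m * (2 * X ^ (-(3 / 2) : ℝ)) :=
            mul_le_mul (by linarith) hρ2 hρ0.le (by linarith)
        _ = δ * W p m := by rw [hδ]; ring
    have h10 : |xorb k l' s2' m - xorb k a1 b1 m| ≤ |xorb k l' s2' m - xorb k a2 b2 m| +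
        |xorb k l s2 m - xorb k a2 b2 m| + |xorb k l s2 m - xorb k l s1 m| +
        |xorb k l s1 m - xorb k a1 b1 m| := by
      have e : xorb k l' s2' m - xorb k a1 b1 m = (xorb k l' s2' m - xorb k a2 b2 m) -
        (xorb k l s2 m - xorb k a2 b2 m) + (xorb k l s2 m - xorb k l s1 m) +
        (xorb k l s1 m - xorb k a1 b1 m) := by ring
      rw [e]
      refine (abs_add_le _ _).trans ?_
      gcongr
      refine (abs_add_le _ _).trans ?_
      gcongr
      exact abs_sub _ _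
    have h11 := Bw_pos V1 m
    unfold bx
    linarith
  have hfin := diff_bx V1 (f := fk k) (Vd := Vk k) (x := xorb k a1 b1) rfl hE hM0 hMb hδ0
    (NL_fk hk0.le) hsm (xorb k l' s1') (xorb k l' s2') (xorb_orb k l' s1' n1)
    (xorb_orb k l' s2' n1) hy hz rfl
  have hPX : X ≤ |p (n1 + 1)| := S1.pn1
  have hP0 : 0 < |p (n1 + 1)| := lt_of_lt_of_le hX0 hPX
  -- the end point
  have hT : |xorb k l' s2' (n1 + 1) - xorb k l s2 (n1 + 1)| ≤ ρ * |p (n1 + 1)| := by
    rcases Nat.eq_or_lt_of_le hn with h | h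
    · rw [h, M2'.right, M2.right, sub_self, abs_zero]
      rw [← h]
      positivity
    · have hm2 : n1 + 1 ∈ Icc 1 n2 := Finset.mem_Icc.mpr ⟨by omega, h⟩
      have h1 := M2'.box _ hm2
      have h2 := M2.box _ hm2
      have h3 := V2.lamB.g (n1 + 1) h
      have h4 := V2.expo.dn n1 h
      have h5 : x - 1 ≤ ex b p2 n1 := by
        have h6 : b ^ (x - 1) ≤ b ^ ex b p2 n1 := by
          rw [← V2.W_eq hn, Real.rpow_sub hb0, hXx, Real.rpow_one]
          have h7 := N_le_W p2 n1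
          have h8 : N p n1 ≤ 4 * N p2 n1 := (hcmp n1 le_rfl).1
          rw [hP] at h8
          rw [div_le_iff₀ hb0]
          have h9 : X / 4 ≤ W p2 n1 := by linarith
          have h10 : 0 < X / 4 := by positivity
          nlinarith
        exact (Real.rpow_le_rpow_left_iff hb1).mp h6
      have h6 : lw n2 p2 (qk (dig k a2 b2) n2) (n1 + 1) ≤ 2 * b ^ (9 - 97 / 100 * x) := by
        refine h3.trans ?_
        have h7 : b ^ (6 - 97 / 100 * ex b p2 (n1 + 1)) ≤ b ^ (9 - 97 / 100 * x) :=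
          hmono (by linarith)
        linarith
      have h7 : 6 * b ^ (9 - 97 / 100 * x) ≤ ρ * |p (n1 + 1)| := by
        have h8 : X ^ (-(3 / 2) : ℝ) / 10 ^ 4 * X ≤ ρ * |p (n1 + 1)| :=
          mul_le_mul hρ1 hPX hX0.le hρ0.le
        refine le_trans ?_ h8
        have h9 : X ^ (-(3 / 2) : ℝ) * X = b ^ (-(1 / 2) * x) := by
          rw [hX32]
          calc b ^ (-(3 / 2) * x) * X = b ^ (-(3 / 2) * x) * b ^ x := by rw [hXx]
            _ = b ^ (-(1 / 2) * x) := by
              rw [← Real.rpow_add hb0]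
              congr 1
              ring
        have h10 : X ^ (-(3 / 2) : ℝ) / 10 ^ 4 * X = b ^ (-(1 / 2) * x) / 10 ^ 4 := by
          rw [div_mul_eq_mul_div, h9]
        rw [h10]
        have h11 : b ^ (9 - 97 / 100 * x) ≤ b ^ (-(1 / 2) * x) * b ^ (-1 : ℝ) := by
          rw [← Real.rpow_add hb0]
          exact hmono (by linarith)
        have h12 : b ^ (-1 : ℝ) ≤ 1 / 10 ^ 5 := by
          rw [Real.rpow_neg_one, inv_eq_one_div]
          exact one_div_le_one_div_of_le (by norm_num) (by linarith)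
        have h13 : 0 < b ^ (-(1 / 2) * x) := by positivity
        have h14 : b ^ (-(1 / 2) * x) * b ^ (-1 : ℝ) ≤ b ^ (-(1 / 2) * x) * (1 / 10 ^ 5) :=
          mul_le_mul_of_nonneg_left h12 h13.le
        have h15 : 6 * (b ^ (-(1 / 2) * x) * (1 / 10 ^ 5)) ≤ b ^ (-(1 / 2) * x) / 10 ^ 4 := by
          have : 6 * (b ^ (-(1 / 2) * x) * (1 / 10 ^ 5)) = 6 / 10 * (b ^ (-(1 / 2) * x) / 10 ^ 4) := by
            ring
          rw [this]
          have h16 : 0 < b ^ (-(1 / 2) * x) / 10 ^ 4 := by positivity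
          linarith
        linarith
      have h8 : |xorb k l' s2' (n1 + 1) - xorb k l s2 (n1 + 1)| ≤
          |xorb k l' s2' (n1 + 1) - xorb k a2 b2 (n1 + 1)| +
          |xorb k l s2 (n1 + 1) - xorb k a2 b2 (n1 + 1)| := by
        have e : xorb k l' s2' (n1 + 1) - xorb k l s2 (n1 + 1) =
          (xorb k l' s2' (n1 + 1) - xorb k a2 b2 (n1 + 1)) -
          (xorb k l s2 (n1 + 1) - xorb k a2 b2 (n1 + 1)) := by ring
        rw [e]
        exact abs_sub _ _
      linarith
  have hD : |xorb k l' s2' (n1 + 1) - xorb k l' s1' (n1 + 1)| ≤ 3 * ρ * |p (n1 + 1)| := by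
    have h1 : xorb k l' s1' (n1 + 1) = xorb k l s1 (n1 + 1) := by rw [M1'.right, M1.right]
    rw [h1]
    have e : xorb k l' s2' (n1 + 1) - xorb k l s1 (n1 + 1) =
      (xorb k l' s2' (n1 + 1) - xorb k l s2 (n1 + 1)) +
      (xorb k l s2 (n1 + 1) - xorb k l s1 (n1 + 1)) := by ring
    rw [e]
    refine (abs_add_le _ _).trans ?_
    linarith
  have hlast : |s2' - s1'| ≤ 2 * (3 * ρ * |p (n1 + 1)| / |p (n1 + 1)|) := by
    refine le_trans hfin ?_
    gcongr
  rw [mul_div_assoc, div_self hP0.ne'] at hlast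
  rw [abs_sub_comm]
  linarith

end Crest.Agent.R128.Coh251
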