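import Mathlib
import Crest.Agent.R128.CoreI

/-!
Row 128, node V3-CORE / COH (helper663): proof of helper756's `Core.CohStmt`.
-/

set_option autoImplicit false

open Finset

namespace Crest.Agent.R128.CohX

open Crest.Agent.R128.TreeSum Crest.Agent.R128.BVP Crest.Agent.R128.Val Crest.Agent.R128.Lam0
  Crest.Agent.R128.Core

/-! ### derivative of the orbit in the second initial coordinate -/

theorem hasDerivAt_xorb (k a : ℝ) (m : ℕ) : ∀ s : ℝ,
    HasDerivAt (fun s => xorb k a s m) (pk k a s m) s ∧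
      HasDerivAt (fun s => xorb k a s (m + 1)) (pk k a s (m + 1)) s := by
  induction m with
  | zero =>
    intro s
    refine ⟨?_, ?_⟩
    · show HasDerivAt (fun _ => a) 0 s
      exact hasDerivAt_const s a
    · show HasDerivAt (fun s => s) 1 s
      exact hasDerivAt_id s
  | succ m ih =>
    intro s
    obtain ⟨h1, h2⟩ := ih s
    refine ⟨h2, ?_⟩
    show HasDerivAt (fun s => fk k (xorb k a s (m + 1)) - xorb k a s m)
      (Vk k (xorb k a s (m + 1)) * pk k a s (m + 1) - pk k a s m) s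
    exact ((hasDerivAt_fk k (xorb k a s (m + 1))).comp s h2).sub h1

theorem xorb_diff {k l s1 s2 B : ℝ} {m : ℕ}
    (h : ∀ s, |s - s1| ≤ |s2 - s1| → |pk k l s m| ≤ B) :
    |xorb k l s2 m - xorb k l s1 m| ≤ B * |s2 - s1| := by
  have h1 := (convex_uIcc s1 s2).norm_image_sub_le_of_norm_hasDerivWithin_le
    (f := fun s => xorb k l s m) (f' := fun s => pk k l s m) (C := B)
    (fun s _ => (hasDerivAt_xorb k l m s).1.hasDerivWithinAt)
    (by
      intro s hs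
      rw [Real.norm_eq_abs]
      apply h
      exact Set.abs_sub_left_of_mem_uIcc hs)
    (Set.left_mem_uIcc) (Set.right_mem_uIcc)
  simpa [Real.norm_eq_abs] using h1

variable {b : ℝ} {n : ℕ} {u lam : ℕ → ℝ}

theorem rsq {b : ℝ} (hb0 : 0 < b) (x : ℝ) : (b ^ x) ^ 2 = b ^ (2 * x) := by
  rw [← Real.rpow_natCast (b ^ x) 2, ← Real.rpow_mul hb0.le]
  congr 1
  push_cast
  ring

theorem rcu {b : ℝ} (hb0 : 0 < b) (x : ℝ) : (b ^ x) ^ 3 = b ^ (3 * x) := by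
  rw [← Real.rpow_natCast (b ^ x) 3, ← Real.rpow_mul hb0.le]
  congr 1
  push_cast
  ring

theorem sum5 (E : Expo b n u) (L : LamB b n u lam) :
    ∑ j ∈ Icc 1 n, (b ^ u (j - 1)) ^ 2 * lam j ≤ 2 * b ^ (16 + 11 / 10 * u n) := by
  have hb0 := E.b0
  have hpt : ∀ j ∈ Icc 1 n, (b ^ u (j - 1)) ^ 2 * lam j ≤
      2 * b ^ (15 + 11 / 10 * u n) * b ^ (-(1 / 100 * u j)) := by
    intro j hj
    rw [Finset.mem_Icc] at hj
    have h1 := L.g j hj.2
    have h2 := E.dn (j - 1) (by omega)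
    rw [Nat.sub_add_cancel hj.1] at h2
    have h3 := E.v2 j n hj.2 le_rfl
    have h4 := E.nonneg hj.2
    have h5 := E.nonneg (le_refl n)
    rw [rsq hb0]
    calc b ^ (2 * u (j - 1)) * lam j ≤ b ^ (2 * u (j - 1)) * (2 * b ^ (6 - 97 / 100 * u j)) := by
          gcongr
      _ = 2 * b ^ (2 * u (j - 1) + (6 - 97 / 100 * u j)) := by
          rw [Real.rpow_add hb0]; ring
      _ ≤ 2 * b ^ (15 + 11 / 10 * u n + -(1 / 100 * u j)) := by
          have := E.mono (x := 2 * u (j - 1) + (6 - 97 / 100 * u j))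
            (y := 15 + 11 / 10 * u n + -(1 / 100 * u j)) (by linarith)
          linarith
      _ = _ := by rw [Real.rpow_add hb0]; ring
  refine (Finset.sum_le_sum hpt).trans ?_
  rw [← Finset.mul_sum]
  have g2 := E.sum_le (Icc 1 n) (by
    intro j hj
    rw [Finset.mem_Icc] at hj
    rw [Finset.mem_range]
    omega)
  calc 2 * b ^ (15 + 11 / 10 * u n) * ∑ j ∈ Icc 1 n, b ^ (-(1 / 100 * u j))
      ≤ 2 * b ^ (15 + 11 / 10 * u n) * b := by gcongr
    _ = 2 * (b ^ (15 + 11 / 10 * u n) * b ^ (1 : ℝ)) := by rw [Real.rpow_one]; ring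
    _ = _ := by
      rw [← Real.rpow_add hb0]
      congr 2
      ring

theorem sum4 (E : Expo b n u) (L : LamB b n u lam) {m : ℕ} (hm : m ∈ Icc 1 n) :
    lam m * ∑ j ∈ Icc 1 m, (b ^ u (j - 1)) ^ 3 ≤ 2 * b ^ (17 + 11 / 10 * u n) * b ^ u (m - 1) := by
  have hb0 := E.b0
  rw [Finset.mem_Icc] at hm
  have hS0 : 0 ≤ ∑ j ∈ Icc 1 m, (b ^ u (j - 1)) ^ 3 := by
    apply Finset.sum_nonneg
    intro j _
    positivity
  have hpt : ∀ j ∈ Icc 1 m, (b ^ u (j - 1)) ^ 3 ≤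
      b ^ (631 / 100 + 3041 / 1000 * u m) * b ^ (-(1 / 100 * u j)) := by
    intro j hj
    rw [Finset.mem_Icc] at hj
    have h2 := E.dn (j - 1) (by omega)
    rw [Nat.sub_add_cancel hj.1] at h2
    have h3 := E.v2 j m hj.2 hm.2
    have h4 := E.nonneg (by omega : j ≤ n)
    have h5 := E.nonneg hm.2
    rw [rcu hb0, ← Real.rpow_add hb0]
    apply E.mono
    linarith
  have hS : ∑ j ∈ Icc 1 m, (b ^ u (j - 1)) ^ 3 ≤ b ^ (731 / 100 + 3041 / 1000 * u m) := by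
    refine (Finset.sum_le_sum hpt).trans ?_
    rw [← Finset.mul_sum]
    have g2 := E.sum_le (Icc 1 m) (by
      intro j hj
      rw [Finset.mem_Icc] at hj
      rw [Finset.mem_range]
      omega)
    calc b ^ (631 / 100 + 3041 / 1000 * u m) * ∑ j ∈ Icc 1 m, b ^ (-(1 / 100 * u j))
        ≤ b ^ (631 / 100 + 3041 / 1000 * u m) * b := by gcongr
      _ = (b ^ (631 / 100 + 3041 / 1000 * u m) * b ^ (1 : ℝ)) := by rw [Real.rpow_one]
      _ = _ := by
        rw [← Real.rpow_add hb0]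
        congr 1
        ring
  have h1 := L.g m hm.2
  have h6 := E.up (m - 1) (by omega)
  rw [Nat.sub_add_cancel hm.1] at h6
  have h7 := E.v2 m n hm.2 le_rfl
  have h8 := E.nonneg hm.2
  have h9 := E.nonneg (le_refl n)
  calc lam m * ∑ j ∈ Icc 1 m, (b ^ u (j - 1)) ^ 3
      ≤ (2 * b ^ (6 - 97 / 100 * u m)) * b ^ (731 / 100 + 3041 / 1000 * u m) :=
        mul_le_mul h1 hS hS0 (by positivity)
    _ = 2 * b ^ ((6 - 97 / 100 * u m) + (731 / 100 + 3041 / 1000 * u m)) := by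
        rw [Real.rpow_add hb0 (6 - 97 / 100 * u m) (731 / 100 + 3041 / 1000 * u m)]; ring
    _ ≤ 2 * b ^ (17 + 11 / 10 * u n + u (m - 1)) := by
        have := E.mono (x := (6 - 97 / 100 * u m) + (731 / 100 + 3041 / 1000 * u m))
          (y := 17 + 11 / 10 * u n + u (m - 1)) (by linarith)
        linarith
    _ = _ := by rw [Real.rpow_add hb0]; ring

/-! ### the response sum for the big box -/

variable {L : ℕ} {a p q : ℕ → ℝ}

theorem hsrX (V : Valid b L n a p q) {w : ℕ → ℝ} (hw : LamB b n (ex b p) w)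
    (hlw : ∀ m ≤ n, lw n p q m ≤ w m) {ρ M c ε : ℝ} (hM0 : 0 ≤ M) (hc : 0 ≤ c) (hρ : 0 ≤ ρ)
    (h1 : 42 * (c * M) ≤ ε * b ^ 2)
    (h2 : M * ρ * (2 * b ^ (17 + 11 / 10 * ex b p n)) ≤ ε / 4)
    {m : ℕ} (hm : m ∈ Icc 1 n) :
    ∑ j ∈ Icc 1 n, |K n p q m j| * (M * (c * w j + ρ * W p (j - 1))) * rh n p j ≤ ε * rh n p m := by
  have hb0 : 0 < b := V.expo.b0
  have hD := V.Dpos
  have E := V.expo
  have hm' := Finset.mem_Icc.mp hm
  have hWm := W_nonneg p (m - 1)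
  have hwm := hw.pos m hm'.2
  have eW : ∀ j ∈ Icc 1 n, b ^ ex b p (j - 1) = W p (j - 1) := fun j hj => by
    rw [Finset.mem_Icc] at hj
    exact (V.W_eq (by omega)).symm
  -- the four sums
  have S1 : w m * ∑ j ∈ Icc 1 m, W p (j - 1) ^ 2 * w j ≤ 10 / b ^ 2 * W p (m - 1) := by
    have h := sum1 E hw hm
    have e : b ^ (-2 : ℝ) = 1 / b ^ 2 := by
      rw [Real.rpow_neg hb0.le, Real.rpow_two, one_div]
    rw [e, eW m hm] at h
    have : ∑ j ∈ Icc 1 m, W p (j - 1) ^ 2 * w j = ∑ j ∈ Icc 1 m, (b ^ ex b p (j - 1)) ^ 2 * w j := by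
      apply Finset.sum_congr rfl
      intro j hj
      rw [Finset.mem_Icc] at hj
      rw [eW j (Finset.mem_Icc.mpr ⟨hj.1, by omega⟩)]
    rw [this]
    calc _ ≤ 10 * (1 / b ^ 2) * W p (m - 1) := h
      _ = _ := by ring
  have S2 : ∑ j ∈ Icc 1 n, w j ^ 2 * W p (j - 1) ≤ 11 / b ^ 2 := by
    have h := sum2 E hw
    have e : b ^ (-2 : ℝ) = 1 / b ^ 2 := by
      rw [Real.rpow_neg hb0.le, Real.rpow_two, one_div]
    rw [e] at h
    have : ∑ j ∈ Icc 1 n, w j ^ 2 * W p (j - 1) = ∑ j ∈ Icc 1 n, w j ^ 2 * b ^ ex b p (j - 1) :=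
      Finset.sum_congr rfl fun j hj => by rw [eW j hj]
    rw [this]
    calc _ ≤ 11 * (1 / b ^ 2) := h
      _ = _ := by ring
  set B : ℝ := 2 * b ^ (17 + 11 / 10 * ex b p n) with hB
  have hB0 : 0 ≤ B := by positivity
  have S4 : w m * ∑ j ∈ Icc 1 m, W p (j - 1) ^ 3 ≤ B * W p (m - 1) := by
    have h := sum4 E hw hm
    rw [eW m hm] at h
    have : ∑ j ∈ Icc 1 m, W p (j - 1) ^ 3 = ∑ j ∈ Icc 1 m, (b ^ ex b p (j - 1)) ^ 3 := by
      apply Finset.sum_congr rfl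
      intro j hj
      rw [Finset.mem_Icc] at hj
      rw [eW j (Finset.mem_Icc.mpr ⟨hj.1, by omega⟩)]
    rw [this]
    exact h
  have S5 : ∑ j ∈ Icc 1 n, W p (j - 1) ^ 2 * w j ≤ B := by
    have h := sum5 E hw
    have : ∑ j ∈ Icc 1 n, W p (j - 1) ^ 2 * w j = ∑ j ∈ Icc 1 n, (b ^ ex b p (j - 1)) ^ 2 * w j :=
      Finset.sum_congr rfl fun j hj => by rw [eW j hj]
    rw [this]
    refine h.trans ?_
    have := E.mono (x := 16 + 11 / 10 * ex b p n) (y := 17 + 11 / 10 * ex b p n) (by linarith)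
    linarith
  -- pointwise
  have hpt : ∀ j ∈ Icc 1 n, |K n p q m j| * (M * (c * w j + ρ * W p (j - 1))) * rh n p j ≤
      (if j ≤ m then M * c / |p (n + 1)| * (w m * (W p (j - 1) ^ 2 * w j)) +
        M * ρ / |p (n + 1)| * (w m * W p (j - 1) ^ 3) else 0) +
        (M * c * rh n p m * (w j ^ 2 * W p (j - 1)) + M * ρ * rh n p m * (W p (j - 1) ^ 2 * w j)) := by
    intro j hj
    rw [Finset.mem_Icc] at hj
    have hlj := (V.lw_pos hj.2).le
    have hlj' := hlw j hj.2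
    have hlm' := hlw m hm'.2
    have hwj := hw.pos j hj.2
    have hrm := (V.rh_pos hm).le
    have hWj := W_nonneg p (j - 1)
    have hr : 0 ≤ rh n p j := (V.rh_pos (Finset.mem_Icc.mpr hj)).le
    rcases Nat.lt_or_ge m j with h | h
    · rw [if_neg (by omega), zero_add]
      have h1 := V.K_right h
      have h2 := abs_le_W_pred p hm'.1
      calc |K n p q m j| * (M * (c * w j + ρ * W p (j - 1))) * rh n p j
          ≤ (W p (m - 1) * w j) * (M * (c * w j + ρ * W p (j - 1))) * rh n p j := by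
            have : |K n p q m j| ≤ W p (m - 1) * w j :=
              h1.trans (mul_le_mul h2 hlj' hlj hWm)
            gcongr
        _ = M * c * rh n p m * (w j ^ 2 * W p (j - 1)) + M * ρ * rh n p m * (W p (j - 1) ^ 2 * w j) := by
            unfold rh
            ring
    · rw [if_pos h]
      have h1 := V.K_left h
      have h2 := abs_le_W_pred p hj.1
      have h3 : |K n p q m j| * (M * (c * w j + ρ * W p (j - 1))) * rh n p j ≤
          M * c / |p (n + 1)| * (w m * (W p (j - 1) ^ 2 * w j)) +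
            M * ρ / |p (n + 1)| * (w m * W p (j - 1) ^ 3) := by
        calc |K n p q m j| * (M * (c * w j + ρ * W p (j - 1))) * rh n p j
            ≤ (w m * W p (j - 1)) * (M * (c * w j + ρ * W p (j - 1))) * rh n p j := by
              have : |K n p q m j| ≤ w m * W p (j - 1) :=
                h1.trans (mul_le_mul hlm' h2 (abs_nonneg _) hwm)
              gcongr
          _ = _ := by
              unfold rh
              ring
      have h4 : 0 ≤ M * c * rh n p m * (w j ^ 2 * W p (j - 1)) + M * ρ * rh n p m * (W p (j - 1) ^ 2 * w j) := by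
        positivity
      linarith
  refine (Finset.sum_le_sum hpt).trans ?_
  rw [Finset.sum_add_distrib, Finset.sum_add_distrib, ← Finset.mul_sum, ← Finset.mul_sum,
    ← Finset.sum_filter]
  have hf : (Icc 1 n).filter (fun j => j ≤ m) = Icc 1 m := by
    ext j
    simp only [Finset.mem_filter, Finset.mem_Icc]
    omega
  rw [hf, Finset.sum_add_distrib, ← Finset.mul_sum, ← Finset.mul_sum, ← Finset.mul_sum,
    ← Finset.mul_sum]
  have hrm := (V.rh_pos hm).le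
  have t1 : M * c / |p (n + 1)| * (w m * ∑ j ∈ Icc 1 m, W p (j - 1) ^ 2 * w j) ≤
      10 * (c * M) / b ^ 2 * rh n p m := by
    calc M * c / |p (n + 1)| * (w m * ∑ j ∈ Icc 1 m, W p (j - 1) ^ 2 * w j)
        ≤ M * c / |p (n + 1)| * (10 / b ^ 2 * W p (m - 1)) := by gcongr
      _ = 10 * (c * M) / b ^ 2 * rh n p m := by unfold rh; ring
  have t2 : M * c * rh n p m * ∑ j ∈ Icc 1 n, w j ^ 2 * W p (j - 1) ≤
      11 * (c * M) / b ^ 2 * rh n p m := by
    calc M * c * rh n p m * ∑ j ∈ Icc 1 n, w j ^ 2 * W p (j - 1)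
        ≤ M * c * rh n p m * (11 / b ^ 2) := by gcongr
      _ = _ := by ring
  have t3 : M * ρ / |p (n + 1)| * (w m * ∑ j ∈ Icc 1 m, W p (j - 1) ^ 3) ≤
      M * ρ * B * rh n p m := by
    calc M * ρ / |p (n + 1)| * (w m * ∑ j ∈ Icc 1 m, W p (j - 1) ^ 3)
        ≤ M * ρ / |p (n + 1)| * (B * W p (m - 1)) := by gcongr
      _ = _ := by unfold rh; ring
  have t4 : M * ρ * rh n p m * ∑ j ∈ Icc 1 n, W p (j - 1) ^ 2 * w j ≤ M * ρ * B * rh n p m := by
    calc M * ρ * rh n p m * ∑ j ∈ Icc 1 n, W p (j - 1) ^ 2 * w j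
        ≤ M * ρ * rh n p m * B := by gcongr
      _ = _ := by ring
  have t5 : 21 * (c * M) / b ^ 2 ≤ ε / 2 := by
    rw [div_le_iff₀ (by positivity)]
    linarith
  have t6 := mul_le_mul_of_nonneg_right t5 hrm
  have t7 := mul_le_mul_of_nonneg_right h2 hrm
  have t8 : 21 * (c * M) / b ^ 2 * rh n p m =
      10 * (c * M) / b ^ 2 * rh n p m + 11 * (c * M) / b ^ 2 * rh n p m := by
    ring
  linarith

/-- comparison of two orbits with the same left boundary value in the box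
`c * w + ρ * W` around the valid orbit -/
theorem diffX {f Vd : ℝ → ℝ} {M c ρ ε : ℝ} (hM0 : 0 ≤ M) (hc : 0 ≤ c) (hρ : 0 ≤ ρ)
    (hε : ε ≤ 1 / 4) (hNL : NL f Vd M) (x : ℕ → ℝ)
    (V : Valid b L n (fun m => Vd (x m)) p q) {w : ℕ → ℝ} (hw : LamB b n (ex b p) w)
    (hlw : ∀ m ≤ n, lw n p q m ≤ w m)
    (h1 : 42 * (c * M) ≤ ε * b ^ 2)
    (h2 : M * ρ * (2 * b ^ (17 + 11 / 10 * ex b p n)) ≤ ε / 4)
    (y z : ℕ → ℝ) (hy : Orb n f y) (hz : Orb n f z)
    (hyx : ∀ m ∈ Icc 1 n, |y m - x m| ≤ c * w m + ρ * W p (m - 1))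
    (hzx : ∀ m ∈ Icc 1 n, |z m - x m| ≤ c * w m + ρ * W p (m - 1)) (h0 : z 0 = y 0) :
    ∀ m ∈ Icc 1 n, |z m - y m| ≤ 2 * (rh n p m * |z (n + 1) - y (n + 1)|) := by
  set Λ : ℝ := ∑ m ∈ Icc 1 n, |q m / p (n + 1)| / rh n p m with hΛ
  have hterm : ∀ m ∈ Icc 1 n, 0 ≤ |q m / p (n + 1)| / rh n p m := fun m hm =>
    div_nonneg (abs_nonneg _) (V.rh_pos hm).le
  have hΛ0 : 0 ≤ Λ := Finset.sum_nonneg hterm
  intro m hm
  have h := (orb_diff hM0 hNL x V.J (fun m => c * w m + ρ * W p (m - 1)) (rh n p)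
    (fun m => Λ * rh n p m) ε hε (fun m hm => V.rh_pos hm) (fun m hm => V.p_le_rh hm)
    (fun m hm => by
      have h3 : |q m / p (n + 1)| / rh n p m ≤ Λ := Finset.single_le_sum hterm hm
      rwa [div_le_iff₀ (V.rh_pos hm)] at h3)
    (fun m hm => hsrX V hw hlw hM0 hc hρ h1 h2 hm)
    (fun m hm => by
      have h3 := hsrX V hw hlw hM0 hc hρ h1 h2 hm
      have e : ∑ j ∈ Icc 1 n, |K n p q m j| * (M * (c * w j + ρ * W p (j - 1))) * (Λ * rh n p j) =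
          Λ * ∑ j ∈ Icc 1 n, |K n p q m j| * (M * (c * w j + ρ * W p (j - 1))) * rh n p j := by
        rw [Finset.mul_sum]
        apply Finset.sum_congr rfl
        intro j _
        ring
      rw [e]
      calc _ ≤ Λ * (ε * rh n p m) := mul_le_mul_of_nonneg_left h3 hΛ0
        _ = _ := by ring)
    y z hy hz hyx hzx m hm).1
  rw [h0, sub_self, abs_zero, mul_zero, add_zero] at h
  exact h

/-! ### numerics -/

theorem num1 {k X b W ρ M : ℝ} (hk : (10 : ℝ) ^ 30 ≤ k) (hX : k ^ 600 ≤ X) (hb : 0 < b) (hbk : b ≤ k)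
    (hW0 : 0 ≤ W) (hW : W ≤ 12 * k * X) (hρ : 0 ≤ ρ) (hρ2 : ρ ≤ 2 * X ^ (-(3 / 2) : ℝ))
    (hM0 : 0 ≤ M) (hM : M ≤ 40 * k) :
    M * (2 * ρ) * (2 * (b ^ (17 : ℝ) * W ^ (11 / 10 : ℝ))) ≤ 1 / 16 := by
  have hk0 : 0 < k := lt_of_lt_of_le (by positivity) hk
  have hX0 : 0 < X := lt_of_lt_of_le (by positivity) hX
  have hk12 : 12 ≤ k := le_trans (by norm_num) hk
  have hW2 : W ^ (11 / 10 : ℝ) ≤ k ^ (22 / 10 : ℝ) * X ^ (11 / 10 : ℝ) := by
    have h1 : W ≤ k ^ 2 * X := by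
      refine hW.trans ?_
      have : 12 * k ≤ k ^ 2 := by nlinarith
      exact mul_le_mul_of_nonneg_right this hX0.le
    calc W ^ (11 / 10 : ℝ) ≤ (k ^ 2 * X) ^ (11 / 10 : ℝ) := Real.rpow_le_rpow hW0 h1 (by norm_num)
      _ = _ := by
        rw [Real.mul_rpow (by positivity) hX0.le, ← Real.rpow_natCast, ← Real.rpow_mul hk0.le]
        norm_num
  have hb17 : b ^ (17 : ℝ) ≤ k ^ (17 : ℝ) := Real.rpow_le_rpow hb.le hbk (by norm_num)
  have hXX : X ^ (-(3 / 2) : ℝ) * X ^ (11 / 10 : ℝ) = X ^ (-(4 / 10) : ℝ) := by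
    rw [← Real.rpow_add hX0]; norm_num
  have hX4 : X ^ (-(4 / 10) : ℝ) ≤ k ^ (-240 : ℝ) := by
    calc X ^ (-(4 / 10) : ℝ) ≤ (k ^ 600) ^ (-(4 / 10) : ℝ) :=
          Real.rpow_le_rpow_of_nonpos (by positivity) hX (by norm_num)
      _ = _ := by
        rw [← Real.rpow_natCast, ← Real.rpow_mul hk0.le]
        norm_num
  have hmain : M * (2 * ρ) * (2 * (b ^ (17 : ℝ) * W ^ (11 / 10 : ℝ))) ≤
      (40 * k) * (2 * (2 * X ^ (-(3 / 2) : ℝ))) * (2 * (k ^ (17 : ℝ) * (k ^ (22 / 10 : ℝ) * X ^ (11 / 10 : ℝ)))) := by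
    have : 0 ≤ X ^ (-(3 / 2) : ℝ) := by positivity
    gcongr
  refine hmain.trans ?_
  have e : (40 * k) * (2 * (2 * X ^ (-(3 / 2) : ℝ))) * (2 * (k ^ (17 : ℝ) * (k ^ (22 / 10 : ℝ) * X ^ (11 / 10 : ℝ)))) =
      320 * (k ^ (1 : ℝ) * k ^ (17 : ℝ) * k ^ (22 / 10 : ℝ)) * (X ^ (-(3 / 2) : ℝ) * X ^ (11 / 10 : ℝ)) := by
    rw [Real.rpow_one]; ring
  rw [e, hXX, ← Real.rpow_add hk0, ← Real.rpow_add hk0]
  calc 320 * k ^ ((1 : ℝ) + 17 + 22 / 10) * X ^ (-(4 / 10) : ℝ)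
      ≤ 320 * k ^ ((1 : ℝ) + 17 + 22 / 10) * k ^ (-240 : ℝ) := by gcongr
    _ = 320 * k ^ ((1 : ℝ) + 17 + 22 / 10 + (-240)) := by rw [Real.rpow_add hk0 _ (-240)]; ring
    _ ≤ 320 * k ^ (-1 : ℝ) := by
        have : k ^ ((1 : ℝ) + 17 + 22 / 10 + (-240)) ≤ k ^ (-1 : ℝ) :=
          Real.rpow_le_rpow_of_exponent_le (by linarith) (by norm_num)
        linarith
    _ ≤ 1 / 16 := by
        rw [Real.rpow_neg_one, ← div_eq_mul_inv, div_le_div_iff₀ hk0 (by norm_num)]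
        have : (5120 : ℝ) ≤ 10 ^ 30 := by norm_num
        linarith

theorem num2 {k X b ρ P D e : ℝ} (hk : (10 : ℝ) ^ 30 ≤ k) (hX : k ^ 600 ≤ X) (hb : 1 ≤ b) (hbk : b ≤ k)
    (hρ1 : X ^ (-(3 / 2) : ℝ) / 10 ^ 4 ≤ ρ) (hP : X ≤ P)
    (he : X / 4 ≤ b ^ e) (hD : D ≤ 6 * b ^ (6 - 97 / 100 * (99 / 100 * e - 1 / 10))) :
    2 * (1 / P * D) ≤ 2 * ρ := by
  have hk0 : 0 < k := lt_of_lt_of_le (by positivity) hk
  have hk1 : 1 ≤ k := le_trans (by norm_num) hk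
  have hX0 : 0 < X := lt_of_lt_of_le (by positivity) hX
  have hb0 : 0 < b := by linarith
  have hP0 : 0 < P := lt_of_lt_of_le hX0 hP
  have hXk : k ≤ X := by
    refine le_trans ?_ hX
    calc k = k ^ 1 := (pow_one k).symm
      _ ≤ k ^ 600 := pow_le_pow_right₀ hk1 (by norm_num)
  have hX4 : 1 ≤ X / 4 := by
    have : (4 : ℝ) ≤ 10 ^ 30 := by norm_num
    linarith
  -- bound of D
  have e1 : b ^ (6 - 97 / 100 * (99 / 100 * e - 1 / 10)) =
      b ^ (6097 / 1000 : ℝ) * (b ^ e) ^ (-(9603 / 10000) : ℝ) := by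
    rw [← Real.rpow_mul hb0.le, ← Real.rpow_add hb0]
    congr 1
    ring
  have e2 : (b ^ e) ^ (-(9603 / 10000) : ℝ) ≤ 4 * X ^ (-(96 / 100) : ℝ) := by
    calc (b ^ e) ^ (-(9603 / 10000) : ℝ) ≤ (X / 4) ^ (-(9603 / 10000) : ℝ) :=
          Real.rpow_le_rpow_of_nonpos (by linarith) he (by norm_num)
      _ ≤ (X / 4) ^ (-(96 / 100) : ℝ) := Real.rpow_le_rpow_of_exponent_le hX4 (by norm_num)
      _ = X ^ (-(96 / 100) : ℝ) * (4 : ℝ) ^ (96 / 100 : ℝ) := by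
          rw [Real.div_rpow hX0.le (by norm_num), Real.rpow_neg (by norm_num : (0:ℝ) ≤ 4) (96 / 100),
            div_inv_eq_mul]
      _ ≤ X ^ (-(96 / 100) : ℝ) * (4 : ℝ) ^ (1 : ℝ) := by
          have : (4 : ℝ) ^ (96 / 100 : ℝ) ≤ (4 : ℝ) ^ (1 : ℝ) :=
            Real.rpow_le_rpow_of_exponent_le (by norm_num) (by norm_num)
          gcongr
      _ = _ := by rw [Real.rpow_one]; ring
  have e3 : b ^ (6097 / 1000 : ℝ) ≤ k ^ (7 : ℝ) := by
    calc b ^ (6097 / 1000 : ℝ) ≤ k ^ (6097 / 1000 : ℝ) := Real.rpow_le_rpow hb0.le hbk (by norm_num)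
      _ ≤ _ := Real.rpow_le_rpow_of_exponent_le hk1 (by norm_num)
  have hD2 : D ≤ 24 * (k ^ (7 : ℝ) * X ^ (-(96 / 100) : ℝ)) := by
    refine hD.trans ?_
    rw [e1]
    have : b ^ (6097 / 1000 : ℝ) * (b ^ e) ^ (-(9603 / 10000) : ℝ) ≤
        k ^ (7 : ℝ) * (4 * X ^ (-(96 / 100) : ℝ)) := by gcongr
    linarith
  have hP2 : 1 / P ≤ X ^ (-1 : ℝ) := by
    rw [Real.rpow_neg_one, one_div]
    exact inv_anti₀ hX0 hP
  have h3 : 1 / P * D ≤ X ^ (-1 : ℝ) * (24 * (k ^ (7 : ℝ) * X ^ (-(96 / 100) : ℝ))) := by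
    have p0 : 0 ≤ 1 / P := by positivity
    have p1 : 0 ≤ 24 * (k ^ (7 : ℝ) * X ^ (-(96 / 100) : ℝ)) := by positivity
    calc 1 / P * D ≤ 1 / P * (24 * (k ^ (7 : ℝ) * X ^ (-(96 / 100) : ℝ))) :=
          mul_le_mul_of_nonneg_left hD2 p0
      _ ≤ _ := mul_le_mul_of_nonneg_right hP2 p1
  have e4 : X ^ (-1 : ℝ) * (24 * (k ^ (7 : ℝ) * X ^ (-(96 / 100) : ℝ))) =
      24 * (k ^ (7 : ℝ) * X ^ (-(46 / 100) : ℝ)) * X ^ (-(3 / 2) : ℝ) := by
    have : X ^ (-(46 / 100) : ℝ) * X ^ (-(3 / 2) : ℝ) = X ^ (-1 : ℝ) * X ^ (-(96 / 100) : ℝ) := by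
      rw [← Real.rpow_add hX0, ← Real.rpow_add hX0]; norm_num
    calc _ = 24 * k ^ (7 : ℝ) * (X ^ (-1 : ℝ) * X ^ (-(96 / 100) : ℝ)) := by ring
      _ = 24 * k ^ (7 : ℝ) * (X ^ (-(46 / 100) : ℝ) * X ^ (-(3 / 2) : ℝ)) := by rw [this]
      _ = _ := by ring
  have e5 : k ^ (7 : ℝ) * X ^ (-(46 / 100) : ℝ) ≤ k ^ (-1 : ℝ) := by
    have h4 : X ^ (-(46 / 100) : ℝ) ≤ k ^ (-276 : ℝ) := by
      calc X ^ (-(46 / 100) : ℝ) ≤ (k ^ 600) ^ (-(46 / 100) : ℝ) :=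
            Real.rpow_le_rpow_of_nonpos (by positivity) hX (by norm_num)
        _ = _ := by
          rw [← Real.rpow_natCast, ← Real.rpow_mul hk0.le]
          norm_num
    calc k ^ (7 : ℝ) * X ^ (-(46 / 100) : ℝ) ≤ k ^ (7 : ℝ) * k ^ (-276 : ℝ) := by gcongr
      _ = k ^ ((7 : ℝ) + (-276)) := by rw [← Real.rpow_add hk0]
      _ ≤ _ := Real.rpow_le_rpow_of_exponent_le hk1 (by norm_num)
  have e6 : k ^ (-1 : ℝ) ≤ 1 / 10 ^ 30 := by
    rw [Real.rpow_neg_one, ← one_div]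
    exact one_div_le_one_div_of_le (by positivity) hk
  have hX3 : 0 ≤ X ^ (-(3 / 2) : ℝ) := by positivity
  have h5 : 1 / P * D ≤ 24 * (1 / 10 ^ 30) * X ^ (-(3 / 2) : ℝ) := by
    refine h3.trans ?_
    rw [e4]
    have : k ^ (7 : ℝ) * X ^ (-(46 / 100) : ℝ) ≤ 1 / 10 ^ 30 := e5.trans e6
    gcongr
  have h6 : 24 * (1 / 10 ^ 30) * X ^ (-(3 / 2) : ℝ) ≤ X ^ (-(3 / 2) : ℝ) / 10 ^ 4 := by
    have : (24 : ℝ) * (1 / 10 ^ 30) ≤ 1 / 10 ^ 4 := by norm_num
    calc 24 * (1 / 10 ^ 30) * X ^ (-(3 / 2) : ℝ) ≤ 1 / 10 ^ 4 * X ^ (-(3 / 2) : ℝ) :=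
          mul_le_mul_of_nonneg_right this hX3
      _ = _ := by ring
  have h7 : 0 ≤ ρ := le_trans (by positivity) hρ1
  linarith

/-! ### assembly -/

theorem coh_stmt : CohStmt := by
  refine ⟨10 ^ 30, fun k hk X hX a1 b1 a2 b2 n1' n2' n1 n2 L1 L2 _ _ G1 G2 hn hcomp l s1 s2 ρ _ _ M1 M2
    hρ1 hρ2 hs hfl l' s1' s2' _ _ M1' M2' => ?_⟩
  obtain ⟨hb19, hbk, hbk2⟩ := base_facts hk
  have hk0 : 0 < k := lt_of_lt_of_le (by positivity) hk
  have hk1 : (1 : ℝ) ≤ k := le_trans (by norm_num) hk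
  have hk10 : (10 : ℝ) ≤ k := le_trans (by norm_num) hk
  have hX0 : 0 < X := lt_of_lt_of_le (by positivity) hX
  set b : ℝ := k ^ (2 / 3 : ℝ) / 2 with hb
  set p1 := pk k a1 b1 with hp1
  set q1 := qk (dig k a1 b1) n1 with hq1
  set p2 := pk k a2 b2 with hp2
  set q2 := qk (dig k a2 b2) n2 with hq2
  have V1 : Valid b L1 n1 (dig k a1 b1) p1 q1 := G1.val
  have V2 : Valid b L2 n2 (dig k a2 b2) p2 q2 := G2.val
  have E1 := V1.expo
  have E2 := V2.expo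
  have hb0 : 0 < b := E1.b0
  have hb1 : 1 ≤ b := by linarith [E1.hb]
  have hbk' : b ≤ k := by nlinarith
  have hn35 : 35 ≤ n1 := E1.hn
  have hρ0 : 0 ≤ ρ := le_trans (by positivity) hρ1
  have nf0 : ∀ m, 0 ≤ nf k a1 b1 m := fun m => N_nonneg p1 m
  -- comparison of the norms
  have hW12 : ∀ m ≤ n1, W p1 m ≤ 6 * W p2 m := by
    intro m hm
    have h1 := W_le_N p1 m
    have h2 : N p1 m ≤ 4 * N p2 m := (hcomp m hm).1
    have h3 := N_le_W p2 m
    linarith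
  have hexp : ∀ m ≤ n1, b ^ (-ex b p2 m) ≤ 6 * b ^ (-ex b p1 m) := by
    intro m hm
    have h1 := hW12 m hm
    rw [V1.W_eq hm, V2.W_eq (by omega)] at h1
    rw [Real.rpow_neg hb0.le, Real.rpow_neg hb0.le, ← one_div, ← div_eq_mul_inv,
      div_le_div_iff₀ (by positivity) (by positivity)]
    linarith
  -- the weights
  set w : ℕ → ℝ := fun m => if m ≤ 30 then min (3 * b ^ (-ex b p1 m)) (2 * b ^ (6 - 97 / 100 * ex b p1 m))
    else 2 * b ^ (6 - 97 / 100 * ex b p1 m) with hw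
  have hwB : LamB b n1 (ex b p1) w := by
    refine ⟨fun m _ => ?_, fun m hm => ?_, fun m _ => ?_⟩
    · simp only [hw]
      split_ifs <;> positivity
    · simp only [hw]
      rw [if_pos hm]
      exact min_le_left _ _
    · simp only [hw]
      split_ifs
      · exact min_le_right _ _
      · exact le_rfl
  have hlw : ∀ m ≤ n1, lw n1 p1 q1 m ≤ w m := by
    intro m hm
    simp only [hw]
    split_ifs with h
    · exact le_min (V1.lamB.c m h) (V1.lamB.g m hm)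
    · exact V1.lamB.g m hm
  have hlw2 : ∀ m ≤ n1, lw n2 p2 q2 m ≤ 6 * w m := by
    intro m hm
    have hg : lw n2 p2 q2 m ≤ 6 * (2 * b ^ (6 - 97 / 100 * ex b p1 m)) := by
      refine (V2.lamB.g m (by omega)).trans ?_
      have h1 := hexp m hm
      have h2 : (b ^ (-ex b p2 m)) ^ (97 / 100 : ℝ) ≤ (6 * b ^ (-ex b p1 m)) ^ (97 / 100 : ℝ) :=
        Real.rpow_le_rpow (by positivity) h1 (by norm_num)
      rw [Real.mul_rpow (by norm_num) (by positivity), ← Real.rpow_mul hb0.le,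
        ← Real.rpow_mul hb0.le] at h2
      have h3 : (6 : ℝ) ^ (97 / 100 : ℝ) ≤ 6 := by
        calc (6 : ℝ) ^ (97 / 100 : ℝ) ≤ 6 ^ (1 : ℝ) :=
              Real.rpow_le_rpow_of_exponent_le (by norm_num) (by norm_num)
          _ = 6 := Real.rpow_one 6
      have h4 : (6 : ℝ) ^ (97 / 100 : ℝ) * b ^ (-ex b p1 m * (97 / 100)) ≤
          6 * b ^ (-ex b p1 m * (97 / 100)) := by gcongr
      have h5 := h2.trans h4
      have e1 : b ^ (6 - 97 / 100 * ex b p2 m) = b ^ (6 : ℝ) * b ^ (-ex b p2 m * (97 / 100)) := by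
        rw [← Real.rpow_add hb0]; congr 1; ring
      have e2 : b ^ (6 - 97 / 100 * ex b p1 m) = b ^ (6 : ℝ) * b ^ (-ex b p1 m * (97 / 100)) := by
        rw [← Real.rpow_add hb0]; congr 1; ring
      rw [e1, e2]
      have h6 : b ^ (6 : ℝ) * b ^ (-ex b p2 m * (97 / 100)) ≤
          b ^ (6 : ℝ) * (6 * b ^ (-ex b p1 m * (97 / 100))) := by gcongr
      linarith
    simp only [hw]
    split_ifs with h
    · rw [mul_min_of_nonneg _ _ (by norm_num : (0:ℝ) ≤ 6)]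
      refine le_min ?_ hg
      have h1 := V2.lamB.c m h
      have h2 := hexp m hm
      linarith
    · exact hg
  -- growth between the two orbits at l
  have hz : ∀ m, 1 ≤ m → m ≤ n1 + 1 →
      |xorb k l s2 m - xorb k l s1 m| ≤ 2 * nf k a1 b1 (m - 1) * ρ := by
    intro m hm1 hm2
    have h1 := xorb_diff (k := k) (l := l) (s1 := s1) (s2 := s2) (B := 2 * nf k a1 b1 (m - 1)) (m := m) (by
      intro s hss
      have hss' : |s - s1| ≤ 2 * X ^ (-(3 / 2) : ℝ) := by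
        rw [abs_sub_comm s1 s2] at hs
        linarith
      have h2 := hfl s hss' (m - 1) (by omega)
      have h3 : |pk k l s m| ≤ nf k l s (m - 1) := by
        unfold nf
        rw [Nat.sub_add_cancel hm1]
        exact le_max_right _ _
      linarith)
    refine h1.trans ?_
    rw [abs_sub_comm s1 s2] at hs
    exact mul_le_mul_of_nonneg_left hs (by have := nf0 (m - 1); linarith)
  -- the boxes
  have hbox1 : ∀ m ∈ Icc 1 n1, |xorb k l' s1' m - xorb k a1 b1 m| ≤ 20 * w m + 2 * ρ * W p1 (m - 1) := by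
    intro m hm
    have h1 := M1'.box m hm
    have hm' := Finset.mem_Icc.mp hm
    have h2 := hlw m hm'.2
    have h3 := hwB.pos m hm'.2
    have h4 : 0 ≤ 2 * ρ * W p1 (m - 1) := by
      have := W_nonneg p1 (m - 1)
      positivity
    change _ ≤ 3 / 2 * lw n1 p1 q1 m at h1
    linarith
  have hbox2 : ∀ m ∈ Icc 1 n1, |xorb k l' s2' m - xorb k a1 b1 m| ≤ 20 * w m + 2 * ρ * W p1 (m - 1) := by
    intro m hm
    have hm' := Finset.mem_Icc.mp hm
    have hm2 : m ∈ Icc 1 n2 := Finset.mem_Icc.mpr ⟨hm'.1, by omega⟩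
    have h1 : |xorb k l' s2' m - xorb k a2 b2 m| ≤ 3 / 2 * lw n2 p2 q2 m := M2'.box m hm2
    have h2 : |xorb k l s2 m - xorb k a2 b2 m| ≤ 3 / 2 * lw n2 p2 q2 m := M2.box m hm2
    have h3 : |xorb k l s1 m - xorb k a1 b1 m| ≤ 3 / 2 * lw n1 p1 q1 m := M1.box m hm
    have h4 := hz m hm'.1 (by omega)
    have h5 := hlw m hm'.2
    have h6 := hlw2 m hm'.2
    have h7 := hwB.pos m hm'.2
    have h8 : nf k a1 b1 (m - 1) ≤ W p1 (m - 1) := N_le_W p1 (m - 1)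
    have h9 : 2 * nf k a1 b1 (m - 1) * ρ ≤ 2 * ρ * W p1 (m - 1) := by nlinarith
    rw [abs_le] at h1 h2 h3 h4 ⊢
    constructor <;> linarith
  -- the tip
  have htip : nf k a1 b1 n1 = |p1 (n1 + 1)| := by
    unfold nf
    apply max_eq_right
    have h1 := G1.pn
    have h2 := G1.pn1
    change |pk k a1 b1 n1| ≤ |pk k a1 b1 (n1 + 1)|
    linarith
  have hPX : X ≤ |p1 (n1 + 1)| := G1.pn1
  have hP0 : 0 < |p1 (n1 + 1)| := lt_of_lt_of_le hX0 hPX
  have hM := M_le hk0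
  -- numeric hypotheses
  have hWn : W p1 n1 ≤ 12 * k * X := by
    have h1 := W_le_N p1 n1
    have h2 : N p1 n1 ≤ 8 * k * nf k a1 b1 (n1 - 1) := by
      have := nf_succ_le hk10 a1 b1 (n1 - 1)
      rw [Nat.sub_add_cancel (by omega)] at this
      exact this
    have h3 := G1.small (n1 - 1) (by omega)
    have h4 : 8 * k * nf k a1 b1 (n1 - 1) ≤ 8 * k * X :=
      mul_le_mul_of_nonneg_left h3.le (by positivity)
    linarith
  have hh2 : (4 * Real.pi ^ 2 * k) * (2 * ρ) * (2 * b ^ (17 + 11 / 10 * ex b p1 n1)) ≤ (1 / 4) / 4 := by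
    have h1 := num1 hk hX hb0 hbk' (W_nonneg p1 n1) hWn hρ0 hρ2 (by positivity) hM
    have e : b ^ (17 + 11 / 10 * ex b p1 n1) = b ^ (17 : ℝ) * W p1 n1 ^ (11 / 10 : ℝ) := by
      rw [Real.rpow_add hb0, V1.W_eq le_rfl, ← Real.rpow_mul hb0.le]
      congr 2
      ring
    rw [e]
    linarith
  have hh1 : 42 * (20 * (4 * Real.pi ^ 2 * k)) ≤ 1 / 4 * b ^ 2 := by linarith
  have hd := diffX (f := fk k) (Vd := Vk k) (M := 4 * Real.pi ^ 2 * k) (c := 20) (ρ := 2 * ρ)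
    (ε := 1 / 4) (by positivity) (by norm_num) (by positivity) le_rfl (NL_fk hk0.le)
    (xorb k a1 b1) V1 hwB hlw hh1 hh2 (xorb k l' s1') (xorb k l' s2') (xorb_orb k l' s1' n1)
    (xorb_orb k l' s2' n1) hbox1 hbox2 rfl 1 (Finset.mem_Icc.mpr ⟨le_rfl, by omega⟩)
  have hrh : rh n1 p1 1 = 1 / |p1 (n1 + 1)| := by
    unfold rh
    rw [Nat.sub_self, W_zero V1.J]
  rw [hrh] at hd
  have hd' : |s2' - s1'| ≤ 2 * (1 / |p1 (n1 + 1)| * |xorb k l' s2' (n1 + 1) - xorb k l' s1' (n1 + 1)|) := hd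
  -- the right boundary
  have hz1 := hz (n1 + 1) (by omega) le_rfl
  rw [Nat.add_sub_cancel, htip] at hz1
  have r1 : xorb k l s1 (n1 + 1) = xorb k a1 b1 (n1 + 1) := M1.right
  have r1' : xorb k l' s1' (n1 + 1) = xorb k a1 b1 (n1 + 1) := M1'.right
  obtain ⟨D, hD, hDs⟩ : ∃ D : ℝ, |xorb k l' s2' (n1 + 1) - xorb k l s2 (n1 + 1)| ≤ D ∧
      2 * (1 / |p1 (n1 + 1)| * D) ≤ 2 * ρ := by
    rcases Nat.eq_or_lt_of_le hn with h | h
    · refine ⟨0, ?_, by simp only [mul_zero]; positivity⟩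
      have e1 : xorb k l s2 (n1 + 1) = xorb k a2 b2 (n1 + 1) := by rw [h]; exact M2.right
      have e2 : xorb k l' s2' (n1 + 1) = xorb k a2 b2 (n1 + 1) := by rw [h]; exact M2'.right
      rw [e1, e2, sub_self, abs_zero]
    · have hm2 : n1 + 1 ∈ Icc 1 n2 := Finset.mem_Icc.mpr ⟨by omega, h⟩
      have h1 : |xorb k l' s2' (n1 + 1) - xorb k a2 b2 (n1 + 1)| ≤ 3 / 2 * lw n2 p2 q2 (n1 + 1) :=
        M2'.box _ hm2
      have h2 : |xorb k l s2 (n1 + 1) - xorb k a2 b2 (n1 + 1)| ≤ 3 / 2 * lw n2 p2 q2 (n1 + 1) :=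
        M2.box _ hm2
      have h3 := V2.lamB.g (n1 + 1) h
      have h4 := E2.v2 n1 (n1 + 1) (by omega) h
      refine ⟨6 * b ^ (6 - 97 / 100 * (99 / 100 * ex b p2 n1 - 1 / 10)), ?_, ?_⟩
      · have h5 : b ^ (6 - 97 / 100 * ex b p2 (n1 + 1)) ≤
            b ^ (6 - 97 / 100 * (99 / 100 * ex b p2 n1 - 1 / 10)) := E2.mono (by linarith)
        rw [abs_le] at h1 h2 ⊢
        constructor <;> linarith
      · refine num2 (b := b) (e := ex b p2 n1) hk hX hb1 hbk' hρ1 hPX ?_ le_rfl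
        rw [← V2.W_eq h.le]
        have h6 := (hcomp n1 le_rfl).1
        have h7 : nf k a2 b2 n1 ≤ W p2 n1 := N_le_W p2 n1
        have h8 := G1.big
        linarith
  have hfin : |xorb k l' s2' (n1 + 1) - xorb k l' s1' (n1 + 1)| ≤ D + 2 * |p1 (n1 + 1)| * ρ := by
    rw [r1', ← r1]
    have h1 : xorb k l' s2' (n1 + 1) - xorb k l s1 (n1 + 1) =
        (xorb k l' s2' (n1 + 1) - xorb k l s2 (n1 + 1)) + (xorb k l s2 (n1 + 1) - xorb k l s1 (n1 + 1)) := by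
      ring
    rw [h1]
    exact (abs_add_le _ _).trans (add_le_add hD hz1)
  rw [abs_sub_comm]
  calc |s2' - s1'| ≤ 2 * (1 / |p1 (n1 + 1)| * |xorb k l' s2' (n1 + 1) - xorb k l' s1' (n1 + 1)|) := hd'
    _ ≤ 2 * (1 / |p1 (n1 + 1)| * (D + 2 * |p1 (n1 + 1)| * ρ)) := by gcongr
    _ = 2 * (1 / |p1 (n1 + 1)| * D) + 4 * ρ := by
        field_simp
        ring
    _ ≤ 20 * ρ := by linarith

end Crest.Agent.R128.CohX
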