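/-
R128, node COMP: sublevel sets of holomorphic functions on real intervals are covered by few
intervals (number bounded by the logarithm of the growth).
-/
import Mathlib

open Complex Metric Set

namespace Crest.Agent.R128.Comp

/-- Factor out finitely many distinct zeros. -/
theorem exists_factor (Z : Finset ℂ) : ∀ (f : ℂ → ℂ) (U : Set ℂ), IsOpen U →
    DifferentiableOn ℂ f U → (∀ a ∈ Z, a ∈ U) → (∀ a ∈ Z, f a = 0) →
    ∃ g : ℂ → ℂ, DifferentiableOn ℂ g U ∧ ∀ z, f z = (∏ a ∈ Z, (z - a)) * g z := by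
  classical
  induction Z using Finset.induction_on with
  | empty => intro f U hU hf _ _; exact ⟨f, hf, by simp⟩
  | insert b Z hb ih =>
    intro f U hU hf hZU hZ
    have hbU : b ∈ U := hZU b (Finset.mem_insert_self _ _)
    have hd : DifferentiableOn ℂ (dslope f b) U :=
      (Complex.differentiableOn_dslope (hU.mem_nhds hbU)).2 hf
    have hfb : f b = 0 := hZ b (Finset.mem_insert_self _ _)
    have key : ∀ z, f z = (z - b) * dslope f b z := fun z => by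
      have := sub_smul_dslope f b z
      rw [hfb, sub_zero, smul_eq_mul] at this
      exact this.symm
    obtain ⟨g, hg, hfg⟩ := ih (dslope f b) U hU hd
      (fun a ha => hZU a (Finset.mem_insert_of_mem ha)) (fun a ha => by
        have h1 := key a
        have h2 : f a = 0 := hZ a (Finset.mem_insert_of_mem ha)
        have h3 : a - b ≠ 0 := sub_ne_zero.2 (fun h => hb (h ▸ ha))
        rw [h2] at h1
        exact (mul_eq_zero.1 h1.symm).resolve_left h3)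
    refine ⟨g, hg, fun z => ?_⟩
    rw [key z, hfg z, Finset.prod_insert hb, mul_assoc]

/-- The number of distinct zeros in the unit disc of a holomorphic function on the disc of
radius `4`. -/
theorem card_zeros_le {f : ℂ → ℂ} {c : ℂ} {M : ℝ} (hf : DifferentiableOn ℂ f (ball c 4))
    (hM : ∀ z ∈ ball c 4, ‖f z‖ ≤ M) (Z : Finset ℂ) (hZ : ∀ a ∈ Z, ‖a - c‖ ≤ 1 ∧ f a = 0)
    {z0 : ℂ} (hz0 : ‖z0 - c‖ ≤ 1) : ‖f z0‖ * (5 / 4 : ℝ) ^ Z.card ≤ M := by
  obtain ⟨g, hg, hfg⟩ := exists_factor Z f (ball c 4) isOpen_ball hf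
    (fun a ha => by rw [mem_ball, dist_eq_norm]; linarith [(hZ a ha).1]) (fun a ha => (hZ a ha).2)
  have hMn : 0 ≤ M := (norm_nonneg _).trans (hM c (mem_ball_self (by norm_num)))
  have hg0 : ‖g z0‖ ≤ M / (5 / 2) ^ Z.card := by
    apply Complex.norm_le_of_forall_mem_frontier_norm_le (U := ball c (7 / 2)) isBounded_ball
    · apply DifferentiableOn.diffContOnCl
      rw [closure_ball c (by norm_num)]
      exact hg.mono (closedBall_subset_ball (by norm_num))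
    · intro z hz
      rw [frontier_ball c (by norm_num : (7 / 2 : ℝ) ≠ 0), mem_sphere, dist_eq_norm] at hz
      have h1 : ‖f z‖ ≤ M := hM z (by rw [mem_ball, dist_eq_norm]; linarith)
      have h2 : (5 / 2 : ℝ) ^ Z.card ≤ ∏ a ∈ Z, ‖z - a‖ := by
        rw [← Finset.prod_const]
        apply Finset.prod_le_prod
        · intro i _; norm_num
        · intro a ha
          have := norm_sub_norm_le (z - c) (a - c)
          rw [sub_sub_sub_cancel_right] at this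
          linarith [(hZ a ha).1]
      rw [hfg z, norm_mul, norm_prod] at h1
      rw [le_div_iff₀ (by positivity)]
      calc ‖g z‖ * (5 / 2) ^ Z.card ≤ ‖g z‖ * ∏ a ∈ Z, ‖z - a‖ := by gcongr
        _ ≤ M := by rw [mul_comm]; exact h1
    · rw [closure_ball c (by norm_num), mem_closedBall, dist_eq_norm]; linarith
  have h3 : ∏ a ∈ Z, ‖z0 - a‖ ≤ 2 ^ Z.card := by
    rw [← Finset.prod_const]
    apply Finset.prod_le_prod
    · intro i _; positivity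
    · intro a ha
      have := norm_sub_le (z0 - c) (a - c)
      rw [sub_sub_sub_cancel_right] at this
      linarith [(hZ a ha).1]
  have h4 : ‖f z0‖ ≤ 2 ^ Z.card * (M / (5 / 2) ^ Z.card) := by
    rw [hfg z0, norm_mul, norm_prod]
    exact mul_le_mul h3 hg0 (norm_nonneg _) (by positivity)
  have h5 : (2 : ℝ) ^ Z.card * (M / (5 / 2) ^ Z.card) * (5 / 4) ^ Z.card = M := by
    have : ((5 : ℝ) / 2) ^ Z.card = 2 ^ Z.card * (5 / 4) ^ Z.card := by
      rw [← mul_pow]; norm_num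
    rw [this]
    field_simp
  calc ‖f z0‖ * (5 / 4 : ℝ) ^ Z.card ≤ 2 ^ Z.card * (M / (5 / 2) ^ Z.card) * (5 / 4) ^ Z.card := by
        gcongr
    _ = M := h5

/-- Logarithmic form. -/
theorem card_zeros_le_log {f : ℂ → ℂ} {c : ℂ} {M m : ℝ} (hf : DifferentiableOn ℂ f (ball c 4))
    (hM : ∀ z ∈ ball c 4, ‖f z‖ ≤ M) (Z : Finset ℂ) (hZ : ∀ a ∈ Z, ‖a - c‖ ≤ 1 ∧ f a = 0)
    {z0 : ℂ} (hz0 : ‖z0 - c‖ ≤ 1) (hm : 0 < m) (h0 : m ≤ ‖f z0‖) :
    (Z.card : ℝ) ≤ Real.log (M / m) / Real.log (5 / 4) := by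
  have h1 := card_zeros_le hf hM Z hZ hz0
  have h2 : (5 / 4 : ℝ) ^ Z.card ≤ M / m := by
    rw [le_div_iff₀ hm]
    calc (5 / 4 : ℝ) ^ Z.card * m ≤ (5 / 4 : ℝ) ^ Z.card * ‖f z0‖ := by gcongr
      _ ≤ M := by rw [mul_comm]; exact h1
  have h3 := Real.log_le_log (by positivity) h2
  rw [Real.log_pow] at h3
  rw [le_div_iff₀ (Real.log_pos (by norm_num))]
  exact h3

/-- The maximal intervals of `{h ≤ 0}`. -/
def MI (h : ℝ → ℝ) (a b : ℝ) : Set (ℝ × ℝ) :=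
  {p | a ≤ p.1 ∧ p.1 ≤ p.2 ∧ p.2 ≤ b ∧ (∀ w ∈ Icc p.1 p.2, h w ≤ 0) ∧
    (p.1 = a ∨ ∀ u < p.1, ∃ w ∈ Ioo u p.1, 0 < h w) ∧
    (p.2 = b ∨ ∀ u > p.2, ∃ w ∈ Ioo p.2 u, 0 < h w)}

theorem MI_fst_inj {h : ℝ → ℝ} {a b : ℝ} {p q : ℝ × ℝ} (hp : p ∈ MI h a b) (hq : q ∈ MI h a b)
    (hpq : p.1 = q.1) : p = q := by
  obtain ⟨p1, p2⟩ := p
  obtain ⟨q1, q2⟩ := q
  obtain ⟨ha1, h12, h2b, hle, -, hr⟩ := hp
  obtain ⟨ha1', h12', h2b', hle', -, hr'⟩ := hq
  simp only at *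
  subst hpq
  congr 1
  rcases lt_trichotomy p2 q2 with hlt | heq | hgt
  · rcases hr with h | h
    · linarith
    · obtain ⟨w, hw, hw0⟩ := h q2 hlt
      linarith [hle' w ⟨by linarith [hw.1], hw.2.le⟩]
  · exact heq
  · rcases hr' with h | h
    · linarith
    · obtain ⟨w, hw, hw0⟩ := h p2 hgt
      linarith [hle w ⟨by linarith [hw.1], hw.2.le⟩]

theorem MI_fst_mem {h : ℝ → ℝ} (hc : Continuous h) {a b : ℝ} {p : ℝ × ℝ} (hp : p ∈ MI h a b) :
    p.1 = a ∨ (a < p.1 ∧ h p.1 = 0) := by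
  obtain ⟨ha1, h12, h2b, hle, hl, -⟩ := hp
  by_cases hpa : p.1 = a
  · exact Or.inl hpa
  right
  refine ⟨lt_of_le_of_ne ha1 (Ne.symm hpa), ?_⟩
  have hl' := hl.resolve_left hpa
  have h0 := hle p.1 ⟨le_rfl, h12⟩
  by_contra hne
  have hlt : h p.1 < 0 := lt_of_le_of_ne h0 hne
  have hev : ∀ᶠ w in nhds p.1, h w < 0 := hc.continuousAt.eventually (gt_mem_nhds hlt)
  obtain ⟨δ, hδ, hball⟩ := Metric.eventually_nhds_iff.1 hev
  obtain ⟨w, hw, hw0⟩ := hl' (p.1 - δ) (by linarith)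
  have := hball (y := w) (by rw [Real.dist_eq, abs_lt]; constructor <;> linarith [hw.1, hw.2])
  linarith

theorem MI_disjoint {h : ℝ → ℝ} {a b : ℝ} {p q : ℝ × ℝ} (hp : p ∈ MI h a b) (hq : q ∈ MI h a b)
    (hpq : p ≠ q) : Disjoint (Icc p.1 p.2) (Icc q.1 q.2) := by
  have main : ∀ p q : ℝ × ℝ, p ∈ MI h a b → q ∈ MI h a b → p.1 < q.1 →
      Disjoint (Icc p.1 p.2) (Icc q.1 q.2) := by
    intro p q hp hq hlt
    rw [Set.disjoint_left]
    intro t ht ht'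
    obtain ⟨ha1, h12, h2b, hle, -, -⟩ := hp
    obtain ⟨ha1', h12', h2b', hle', hl', -⟩ := hq
    rcases hl' with h | h
    · linarith
    · obtain ⟨w, hw, hw0⟩ := h p.1 hlt
      linarith [hle w ⟨hw.1.le, by linarith [hw.2, ht'.1, ht.2]⟩]
  rcases lt_trichotomy p.1 q.1 with hlt | heq | hgt
  · exact main p q hp hq hlt
  · exact absurd (MI_fst_inj hp hq heq) hpq
  · exact (main q p hq hp hgt).symm

theorem exists_MI {h : ℝ → ℝ} (hc : Continuous h) {a b t : ℝ} (ht : t ∈ Icc a b) (h0 : h t ≤ 0) :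
    ∃ p ∈ MI h a b, t ∈ Icc p.1 p.2 := by
  -- left end
  have hleft : ∃ l, a ≤ l ∧ l ≤ t ∧ (∀ w ∈ Icc l t, h w ≤ 0) ∧
      (l = a ∨ ∀ u < l, ∃ w ∈ Ioo u l, 0 < h w) := by
    set S : Set ℝ := {u | u ∈ Icc a t ∧ ∀ w ∈ Icc u t, h w ≤ 0} with hS
    have htS : t ∈ S := ⟨⟨ht.1, le_rfl⟩, fun w hw => by
      have : w = t := le_antisymm hw.2 hw.1
      rw [this]; exact h0⟩
    have hbdd : BddBelow S := ⟨a, fun u hu => hu.1.1⟩
    set l := sInf S with hl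
    have hal : a ≤ l := le_csInf ⟨t, htS⟩ (fun u hu => hu.1.1)
    have hlt : l ≤ t := csInf_le hbdd htS
    have hoc : ∀ w ∈ Ioc l t, h w ≤ 0 := by
      intro w hw
      obtain ⟨u, hu, huw⟩ := exists_lt_of_csInf_lt ⟨t, htS⟩ hw.1
      exact hu.2 w ⟨huw.le, hw.2⟩
    have hl0 : ∀ w ∈ Icc l t, h w ≤ 0 := by
      rcases eq_or_lt_of_le hlt with h' | h'
      · intro w hw
        have : w = t := le_antisymm hw.2 (h' ▸ hw.1)
        rw [this]; exact h0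
      · intro w hw
        have hcl : IsClosed {w | h w ≤ 0} := isClosed_le hc continuous_const
        have hsub : closure (Ioc l t) ⊆ {w | h w ≤ 0} := hcl.closure_subset_iff.2 hoc
        rw [closure_Ioc h'.ne] at hsub
        exact hsub hw
    refine ⟨l, hal, hlt, hl0, ?_⟩
    by_cases hla : l = a
    · exact Or.inl hla
    right
    intro u hu
    by_contra hcon
    push Not at hcon
    have hu' : max u a < l := max_lt hu (lt_of_le_of_ne hal (Ne.symm hla))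
    obtain ⟨v, hv1, hv2⟩ := exists_between hu'
    have hvS : v ∈ S := by
      refine ⟨⟨(le_max_right _ _).trans hv1.le, hv2.le.trans hlt⟩, fun w hw => ?_⟩
      rcases lt_or_ge w l with hwl | hwl
      · exact hcon w ⟨lt_of_lt_of_le ((le_max_left _ _).trans_lt hv1) hw.1, hwl⟩
      · exact hl0 w ⟨hwl, hw.2⟩
    linarith [csInf_le hbdd hvS]
  have hright : ∃ r, t ≤ r ∧ r ≤ b ∧ (∀ w ∈ Icc t r, h w ≤ 0) ∧
      (r = b ∨ ∀ u > r, ∃ w ∈ Ioo r u, 0 < h w) := by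
    set S : Set ℝ := {u | u ∈ Icc t b ∧ ∀ w ∈ Icc t u, h w ≤ 0} with hS
    have htS : t ∈ S := ⟨⟨le_rfl, ht.2⟩, fun w hw => by
      have : w = t := le_antisymm hw.2 hw.1
      rw [this]; exact h0⟩
    have hbdd : BddAbove S := ⟨b, fun u hu => hu.1.2⟩
    set r := sSup S with hr
    have hrb : r ≤ b := csSup_le ⟨t, htS⟩ (fun u hu => hu.1.2)
    have htr : t ≤ r := le_csSup hbdd htS
    have hoc : ∀ w ∈ Ico t r, h w ≤ 0 := by
      intro w hw
      obtain ⟨u, hu, huw⟩ := exists_lt_of_lt_csSup ⟨t, htS⟩ hw.2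
      exact hu.2 w ⟨hw.1, huw.le⟩
    have hl0 : ∀ w ∈ Icc t r, h w ≤ 0 := by
      rcases eq_or_lt_of_le htr with h' | h'
      · intro w hw
        have : w = t := le_antisymm (h' ▸ hw.2) hw.1
        rw [this]; exact h0
      · intro w hw
        have hcl : IsClosed {w | h w ≤ 0} := isClosed_le hc continuous_const
        have hsub : closure (Ico t r) ⊆ {w | h w ≤ 0} := hcl.closure_subset_iff.2 hoc
        rw [closure_Ico h'.ne] at hsub
        exact hsub hw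
    refine ⟨r, htr, hrb, hl0, ?_⟩
    by_cases hra : r = b
    · exact Or.inl hra
    right
    intro u hu
    by_contra hcon
    push Not at hcon
    have hu' : r < min u b := lt_min hu (lt_of_le_of_ne hrb hra)
    obtain ⟨v, hv1, hv2⟩ := exists_between hu'
    have hvS : v ∈ S := by
      refine ⟨⟨htr.trans hv1.le, hv2.le.trans (min_le_right _ _)⟩, fun w hw => ?_⟩
      rcases lt_or_ge r w with hwl | hwl
      · exact hcon w ⟨hwl, lt_of_le_of_lt hw.2 (hv2.trans_le (min_le_left _ _))⟩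
      · exact hl0 w ⟨hw.1, hwl⟩
    linarith [le_csSup hbdd hvS]
  obtain ⟨l, hal, hlt, hl0, hlm⟩ := hleft
  obtain ⟨r, htr, hrb, hr0, hrm⟩ := hright
  refine ⟨(l, r), ⟨hal, hlt.trans htr, hrb, fun w hw => ?_, hlm, hrm⟩, hlt, htr⟩
  rcases le_total w t with hwt | hwt
  · exact hl0 w ⟨hw.1, hwt⟩
  · exact hr0 w ⟨hwt, hw.2⟩

/-- The sublevel set of a continuous function with finitely many zeros is a union of few disjoint
closed intervals. -/
theorem intervals_of_cont {h : ℝ → ℝ} (hc : Continuous h) {a b : ℝ} (Z : Finset ℝ)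
    (hZ : ∀ t ∈ Icc a b, h t = 0 → t ∈ Z) :
    ∃ E : Finset (ℝ × ℝ), E.card ≤ Z.card + 1 ∧ (∀ p ∈ E, a ≤ p.1 ∧ p.1 ≤ p.2 ∧ p.2 ≤ b) ∧
      (∀ p ∈ E, ∀ q ∈ E, p ≠ q → Disjoint (Icc p.1 p.2) (Icc q.1 q.2)) ∧
      ∀ t ∈ Icc a b, (h t ≤ 0 ↔ ∃ p ∈ E, t ∈ Icc p.1 p.2) := by
  classical
  have hmaps : ∀ p ∈ MI h a b, p.1 ∈ insert a Z := by
    intro p hp
    rcases MI_fst_mem hc hp with h' | ⟨h1, h2⟩
    · rw [h']; exact Finset.mem_insert_self _ _
    · exact Finset.mem_insert_of_mem (hZ _ ⟨hp.1, hp.2.1.trans hp.2.2.1⟩ h2)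
  have hfin : (MI h a b).Finite := by
    apply Set.Finite.of_finite_image (f := Prod.fst)
    · exact (Finset.finite_toSet (insert a Z)).subset (by rintro _ ⟨p, hp, rfl⟩; exact hmaps p hp)
    · intro p hp q hq hpq; exact MI_fst_inj hp hq hpq
  refine ⟨hfin.toFinset, ?_, ?_, ?_, ?_⟩
  · calc hfin.toFinset.card ≤ (insert a Z).card :=
        Finset.card_le_card_of_injOn Prod.fst
          (fun p hp => hmaps p (hfin.mem_toFinset.1 hp))
          (fun p hp q hq hpq => MI_fst_inj (hfin.mem_toFinset.1 hp) (hfin.mem_toFinset.1 hq) hpq)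
      _ ≤ Z.card + 1 := Finset.card_insert_le _ _
  · intro p hp
    have := hfin.mem_toFinset.1 hp
    exact ⟨this.1, this.2.1, this.2.2.1⟩
  · intro p hp q hq hpq
    exact MI_disjoint (hfin.mem_toFinset.1 hp) (hfin.mem_toFinset.1 hq) hpq
  · intro t ht
    constructor
    · intro h0
      obtain ⟨p, hp, htp⟩ := exists_MI hc ht h0
      exact ⟨p, hfin.mem_toFinset.2 hp, htp⟩
    · rintro ⟨p, hp, htp⟩
      exact (hfin.mem_toFinset.1 hp).2.2.2.1 t htp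

/-- Real zeros of a holomorphic function (as a finite set with a bound of its cardinality). -/
theorem real_zeros {f : ℂ → ℂ} {x0 M m : ℝ} (hf : DifferentiableOn ℂ f (ball (x0 : ℂ) 4))
    (hM : ∀ z ∈ ball (x0 : ℂ) 4, ‖f z‖ ≤ M) {t0 : ℝ} (ht0 : t0 ∈ Icc (x0 - 1) (x0 + 1))
    (hm : 0 < m) (h0 : m ≤ ‖f t0‖) :
    ∃ Z : Finset ℝ, (Z.card : ℝ) ≤ Real.log (M / m) / Real.log (5 / 4) ∧
      ∀ t : ℝ, t ∈ Z ↔ t ∈ Icc (x0 - 1) (x0 + 1) ∧ f t = 0 := by
  classical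
  have hnorm : ∀ t : ℝ, t ∈ Icc (x0 - 1) (x0 + 1) → ‖(t : ℂ) - x0‖ ≤ 1 := by
    intro t ht
    rw [← Complex.ofReal_sub, Complex.norm_real, Real.norm_eq_abs, abs_le]
    constructor <;> linarith [ht.1, ht.2]
  have hcard : ∀ Z : Finset ℝ, (∀ t ∈ Z, t ∈ Icc (x0 - 1) (x0 + 1) ∧ f t = 0) →
      (Z.card : ℝ) ≤ Real.log (M / m) / Real.log (5 / 4) := by
    intro Z hZ
    have := card_zeros_le_log hf hM (Z.map ⟨fun t : ℝ => (t : ℂ), Complex.ofReal_injective⟩)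
      (by
        intro a ha
        obtain ⟨t, ht, rfl⟩ := Finset.mem_map.1 ha
        exact ⟨hnorm t (hZ t ht).1, (hZ t ht).2⟩) (z0 := (t0 : ℂ)) (hnorm t0 ht0) hm h0
    rwa [Finset.card_map] at this
  have hfin : {t : ℝ | t ∈ Icc (x0 - 1) (x0 + 1) ∧ f t = 0}.Finite := by
    by_contra hinf
    obtain ⟨N, hN⟩ := exists_nat_gt (Real.log (M / m) / Real.log (5 / 4))
    obtain ⟨Z, hZ, hZc⟩ := Set.Infinite.exists_subset_card_eq hinf N
    have := hcard Z (fun t ht => hZ ht)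
    rw [hZc] at this
    linarith
  refine ⟨hfin.toFinset, hcard _ (fun t ht => hfin.mem_toFinset.1 ht), fun t => ?_⟩
  rw [hfin.mem_toFinset]
  rfl

/-- **COMP.** The sublevel set `{F ≤ s}` is covered by few disjoint closed intervals on which
`F ≤ 4 s`. -/
theorem exists_intervals {F : ℂ → ℂ} {x0 B s : ℝ} (hF : DifferentiableOn ℂ F (ball (x0 : ℂ) 4))
    (hB : ∀ z ∈ ball (x0 : ℂ) 4, ‖F z‖ ≤ B)
    (hre : ∀ t : ℝ, t ∈ Icc (x0 - 1) (x0 + 1) → (F t).im = 0) (hs : 0 < s) :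
    ∃ E : Finset (ℝ × ℝ), (E.card : ℝ) ≤ 1 + Real.log (max 1 (B / s)) / Real.log (5 / 4) ∧
      (∀ p ∈ E, x0 - 1 ≤ p.1 ∧ p.1 ≤ p.2 ∧ p.2 ≤ x0 + 1) ∧
      (∀ p ∈ E, ∀ q ∈ E, p ≠ q → Disjoint (Icc p.1 p.2) (Icc q.1 q.2)) ∧
      (∀ t ∈ Icc (x0 - 1) (x0 + 1), (F t).re ≤ s → ∃ p ∈ E, t ∈ Icc p.1 p.2) ∧
      (∀ p ∈ E, ∀ t ∈ Icc p.1 p.2, (F t).re ≤ 4 * s) := by
  classical
  have hlog : 0 < Real.log (5 / 4) := Real.log_pos (by norm_num)
  by_cases hall : ∀ t ∈ Icc (x0 - 1) (x0 + 1), (F (t : ℝ)).re ≤ 4 * s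
  · refine ⟨{(x0 - 1, x0 + 1)}, ?_, ?_, ?_, ?_, ?_⟩
    · rw [Finset.card_singleton]
      have : 0 ≤ Real.log (max 1 (B / s)) / Real.log (5 / 4) :=
        div_nonneg (Real.log_nonneg (le_max_left _ _)) hlog.le
      push_cast
      linarith
    · intro p hp
      rw [Finset.mem_singleton.1 hp]
      exact ⟨le_rfl, by linarith, le_rfl⟩
    · intro p hp q hq hpq
      exact absurd ((Finset.mem_singleton.1 hp).trans (Finset.mem_singleton.1 hq).symm) hpq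
    · intro t ht _
      exact ⟨_, Finset.mem_singleton_self _, ht⟩
    · intro p hp t ht
      rw [Finset.mem_singleton.1 hp] at ht
      exact hall t ht
  push Not at hall
  obtain ⟨t0, ht0, ht0s⟩ := hall
  have hmem : ∀ t : ℝ, t ∈ Icc (x0 - 1) (x0 + 1) → (t : ℂ) ∈ ball (x0 : ℂ) 4 := by
    intro t ht
    rw [mem_ball, dist_eq_norm, ← Complex.ofReal_sub, Complex.norm_real, Real.norm_eq_abs, abs_lt]
    constructor <;> linarith [ht.1, ht.2]
  have hBt : 4 * s < B := lt_of_lt_of_le (lt_of_lt_of_le ht0s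
    ((le_abs_self _).trans (Complex.abs_re_le_norm _))) (hB t0 (hmem t0 ht0))
  set G : ℂ → ℂ := fun z => F z - ((2 * s : ℝ) : ℂ) with hG
  have hGd : DifferentiableOn ℂ G (ball (x0 : ℂ) 4) := hF.sub_const _
  have hGB : ∀ z ∈ ball (x0 : ℂ) 4, ‖G z‖ ≤ 2 * B := by
    intro z hz
    calc ‖G z‖ ≤ ‖F z‖ + ‖((2 * s : ℝ) : ℂ)‖ := norm_sub_le _ _
      _ ≤ B + 2 * s := by
        rw [Complex.norm_real, Real.norm_eq_abs, abs_of_pos (by linarith)]
        linarith [hB z hz]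
      _ ≤ 2 * B := by linarith
  have hGt0 : 2 * s ≤ ‖G t0‖ := by
    have h1 : (G t0).re = (F t0).re - 2 * s := by simp [hG]
    have h2 := (le_abs_self (G t0).re).trans (Complex.abs_re_le_norm (G t0))
    linarith
  obtain ⟨Z, hZc, hZ⟩ := real_zeros hGd hGB ht0 (by linarith : (0 : ℝ) < 2 * s) hGt0
  have hab : x0 - 1 ≤ x0 + 1 := by linarith
  set h : ℝ → ℝ := fun t => (G ((projIcc (x0 - 1) (x0 + 1) hab t : ℝ))).re with hh
  have hhc : Continuous h := by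
    apply Complex.continuous_re.comp
    apply ContinuousOn.comp_continuous (s := ball (x0 : ℂ) 4) hGd.continuousOn
    · exact Complex.continuous_ofReal.comp (continuous_subtype_val.comp continuous_projIcc)
    · intro t; exact hmem _ (projIcc (x0 - 1) (x0 + 1) hab t).2
  have hht : ∀ t ∈ Icc (x0 - 1) (x0 + 1), h t = (F t).re - 2 * s := by
    intro t ht
    simp only [hh, projIcc_of_mem hab ht]
    simp [hG]
  obtain ⟨E, hE1, hE2, hE3, hE4⟩ := intervals_of_cont hhc (a := x0 - 1) (b := x0 + 1) Z (by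
    intro t ht ht0
    rw [hZ]
    refine ⟨ht, ?_⟩
    have h1 := hht t ht
    apply Complex.ext
    · simp only [hG, Complex.sub_re, Complex.ofReal_re, Complex.zero_re]
      linarith
    · simp only [hG, Complex.sub_im, Complex.ofReal_im, Complex.zero_im]
      rw [hre t ht]; ring)
  refine ⟨E, ?_, hE2, hE3, ?_, ?_⟩
  · have h1 : (E.card : ℝ) ≤ Z.card + 1 := by exact_mod_cast hE1
    have h2 : 2 * B / (2 * s) = B / s := by field_simp
    rw [h2] at hZc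
    have h3 : Real.log (B / s) ≤ Real.log (max 1 (B / s)) := by
      apply Real.log_le_log
      · exact div_pos (by linarith) hs
      · exact le_max_right _ _
    have h4 : Real.log (B / s) / Real.log (5 / 4) ≤ Real.log (max 1 (B / s)) / Real.log (5 / 4) := by
      gcongr
    linarith
  · intro t ht hts
    apply (hE4 t ht).1
    rw [hht t ht]; linarith
  · intro p hp t ht
    have htI : t ∈ Icc (x0 - 1) (x0 + 1) := ⟨(hE2 p hp).1.trans ht.1, ht.2.trans (hE2 p hp).2.2⟩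
    have := (hE4 t htI).2 ⟨p, hp, ht⟩
    rw [hht t htI] at this
    linarith

/-- `f f^*` is holomorphic. -/
theorem differentiableOn_mul_star {f : ℂ → ℂ} {x0 r : ℝ}
    (hf : DifferentiableOn ℂ f (ball (x0 : ℂ) r)) :
    DifferentiableOn ℂ (fun z => f z * (starRingEnd ℂ) (f ((starRingEnd ℂ) z)))
      (ball (x0 : ℂ) r) := by
  apply hf.mul
  intro z hz
  apply DifferentiableAt.differentiableWithinAt
  have hz' : (starRingEnd ℂ) z ∈ ball (x0 : ℂ) r := by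
    rw [mem_ball, dist_eq_norm] at hz ⊢
    have : (starRingEnd ℂ) z - (x0 : ℂ) = (starRingEnd ℂ) (z - x0) := by
      rw [map_sub, Complex.conj_ofReal]
    rw [this, Complex.norm_conj]
    exact hz
  have h1 : DifferentiableAt ℂ f ((starRingEnd ℂ) z) :=
    (hf _ hz').differentiableAt (isOpen_ball.mem_nhds hz')
  have h2 := h1.conj_conj
  rw [Complex.conj_conj] at h2
  exact h2

/-- **COMP, affine version for finite families** (`∑ ‖f i t‖²`, e.g. the four entries of a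
holomorphic matrix). -/
theorem exists_intervals_sumsq {ι : Type*} [Fintype ι] {f : ι → ℂ → ℂ} {a b B s : ℝ} (hab : a < b)
    (hf : ∀ i, DifferentiableOn ℂ (f i) (ball (((a + b) / 2 : ℝ) : ℂ) (2 * (b - a))))
    (hB : ∀ i, ∀ z ∈ ball (((a + b) / 2 : ℝ) : ℂ) (2 * (b - a)), ‖f i z‖ ≤ B) (hs : 0 < s) :
    ∃ E : Finset (ℝ × ℝ),
      (E.card : ℝ) ≤ 1 + Real.log (max 1 (Fintype.card ι * B ^ 2 / s ^ 2)) / Real.log (5 / 4) ∧
      (∀ p ∈ E, a ≤ p.1 ∧ p.1 ≤ p.2 ∧ p.2 ≤ b) ∧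
      (∀ p ∈ E, ∀ q ∈ E, p ≠ q → Disjoint (Icc p.1 p.2) (Icc q.1 q.2)) ∧
      (∀ t : ℝ, t ∈ Icc a b → ∑ i, ‖f i t‖ ^ 2 ≤ s ^ 2 → ∃ p ∈ E, t ∈ Icc p.1 p.2) ∧
      (∀ p ∈ E, ∀ t : ℝ, t ∈ Icc p.1 p.2 → ∑ i, ‖f i t‖ ^ 2 ≤ 4 * s ^ 2) := by
  classical
  set ρ : ℝ := (b - a) / 2 with hρ
  have hρ0 : 0 < ρ := by rw [hρ]; linarith
  set m : ℝ := (a + b) / 2 with hm
  set φ : ℂ → ℂ := fun w => (m : ℂ) + (ρ : ℂ) * w with hφ
  set F0 : ℂ → ℂ := fun z => ∑ i, f i z * (starRingEnd ℂ) (f i ((starRingEnd ℂ) z)) with hF0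
  set F : ℂ → ℂ := fun w => F0 (φ w) with hF
  have hφm : ∀ w ∈ ball (((0 : ℝ) : ℂ)) 4, φ w ∈ ball (m : ℂ) (2 * (b - a)) := by
    intro w hw
    rw [mem_ball, dist_eq_norm] at hw ⊢
    have h1 : φ w - (m : ℂ) = (ρ : ℂ) * w := by simp [hφ]
    rw [h1, norm_mul, Complex.norm_real, Real.norm_eq_abs, abs_of_pos hρ0]
    rw [Complex.ofReal_zero, sub_zero] at hw
    have : ρ * ‖w‖ < ρ * 4 := by gcongr
    rw [hρ] at this ⊢
    linarith
  have hF0d : DifferentiableOn ℂ F0 (ball (m : ℂ) (2 * (b - a))) := by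
    rw [hF0]
    apply DifferentiableOn.fun_sum
    intro i _
    exact differentiableOn_mul_star (hf i)
  have hFd : DifferentiableOn ℂ F (ball (((0 : ℝ) : ℂ)) 4) := by
    apply hF0d.comp _ hφm
    intro w _
    apply DifferentiableAt.differentiableWithinAt
    simp only [hφ]
    fun_prop
  have hconj : ∀ z ∈ ball (m : ℂ) (2 * (b - a)), (starRingEnd ℂ) z ∈ ball (m : ℂ) (2 * (b - a)) := by
    intro z hz
    rw [mem_ball, dist_eq_norm] at hz ⊢
    have : (starRingEnd ℂ) z - (m : ℂ) = (starRingEnd ℂ) (z - m) := by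
      rw [map_sub, Complex.conj_ofReal]
    rw [this, Complex.norm_conj]
    exact hz
  have hFB : ∀ w ∈ ball (((0 : ℝ) : ℂ)) 4, ‖F w‖ ≤ Fintype.card ι * B ^ 2 := by
    intro w hw
    calc ‖F w‖ ≤ ∑ i, ‖f i (φ w) * (starRingEnd ℂ) (f i ((starRingEnd ℂ) (φ w)))‖ := norm_sum_le _ _
      _ ≤ ∑ _i : ι, B ^ 2 := by
        apply Finset.sum_le_sum
        intro i _
        rw [norm_mul, Complex.norm_conj, sq]
        have h1 := hB i _ (hφm w hw)
        have h2 := hB i _ (hconj _ (hφm w hw))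
        exact mul_le_mul h1 h2 (norm_nonneg _) ((norm_nonneg _).trans h1)
      _ = Fintype.card ι * B ^ 2 := by
        rw [Finset.sum_const, Finset.card_univ, nsmul_eq_mul]
  have hreal : ∀ t : ℝ, F0 (t : ℂ) = ((∑ i, ‖f i t‖ ^ 2 : ℝ) : ℂ) := by
    intro t
    simp only [hF0, Complex.conj_ofReal]
    rw [Complex.ofReal_sum]
    apply Finset.sum_congr rfl
    intro i _
    rw [Complex.mul_conj, Complex.normSq_eq_norm_sq]
  have hφr : ∀ u : ℝ, φ (u : ℂ) = ((m + ρ * u : ℝ) : ℂ) := by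
    intro u; simp [hφ]
  have hFre : ∀ u : ℝ, F (u : ℂ) = ((∑ i, ‖f i ((m + ρ * u : ℝ) : ℂ)‖ ^ 2 : ℝ) : ℂ) := by
    intro u
    have : F (u : ℂ) = F0 (φ u) := rfl
    rw [this, hφr, hreal]
  obtain ⟨E, hE1, hE2, hE3, hE4, hE5⟩ := exists_intervals (x0 := 0) hFd hFB
    (fun t _ => by rw [hFre, Complex.ofReal_im]) (by positivity : 0 < s ^ 2)
  set g : ℝ × ℝ → ℝ × ℝ := fun p => (m + ρ * p.1, m + ρ * p.2) with hg
  have hginj : Function.Injective g := by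
    intro p q hpq
    simp only [hg, Prod.mk.injEq] at hpq
    apply Prod.ext
    · have := hpq.1; exact mul_left_cancel₀ hρ0.ne' (by linarith)
    · have := hpq.2; exact mul_left_cancel₀ hρ0.ne' (by linarith)
  have hmem : ∀ (p : ℝ × ℝ) (t : ℝ), t ∈ Icc (g p).1 (g p).2 ↔ (t - m) / ρ ∈ Icc p.1 p.2 := by
    intro p t
    simp only [hg, mem_Icc, le_div_iff₀ hρ0, div_le_iff₀ hρ0]
    constructor
    · rintro ⟨h1, h2⟩; constructor <;> linarith
    · rintro ⟨h1, h2⟩; constructor <;> linarith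
  have hback : ∀ t : ℝ, m + ρ * ((t - m) / ρ) = t := by
    intro t; field_simp; ring
  refine ⟨E.image g, ?_, ?_, ?_, ?_, ?_⟩
  · rw [Finset.card_image_of_injective _ hginj]; exact hE1
  · intro p hp
    obtain ⟨q, hq, rfl⟩ := Finset.mem_image.1 hp
    have := hE2 q hq
    simp only [hg]
    have e1 : a = m + ρ * (0 - 1) := by rw [hm, hρ]; ring
    have e2 : b = m + ρ * (0 + 1) := by rw [hm, hρ]; ring
    refine ⟨?_, ?_, ?_⟩
    · conv_lhs => rw [e1]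
      gcongr
      exact this.1
    · gcongr
      exact this.2.1
    · conv_rhs => rw [e2]
      gcongr
      exact this.2.2
  · intro p hp q hq hpq
    obtain ⟨p', hp', rfl⟩ := Finset.mem_image.1 hp
    obtain ⟨q', hq', rfl⟩ := Finset.mem_image.1 hq
    have hne : p' ≠ q' := fun h => hpq (by rw [h])
    have := hE3 p' hp' q' hq' hne
    rw [Set.disjoint_left] at this ⊢
    intro t ht ht'
    exact this ((hmem _ _).1 ht) ((hmem _ _).1 ht')
  · intro t ht hts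
    have h1 : (t - m) / ρ ∈ Icc ((0 : ℝ) - 1) (0 + 1) := by
      rw [mem_Icc, le_div_iff₀ hρ0, div_le_iff₀ hρ0]
      constructor
      · rw [hρ, hm]; linarith [ht.1]
      · rw [hρ, hm]; linarith [ht.2]
    obtain ⟨p, hp, htp⟩ := hE4 ((t - m) / ρ) h1 (by
      rw [hFre, Complex.ofReal_re, hback]; exact hts)
    exact ⟨g p, Finset.mem_image_of_mem _ hp, (hmem _ _).2 htp⟩
  · intro p hp t ht
    obtain ⟨q, hq, rfl⟩ := Finset.mem_image.1 hp
    have := hE5 q hq ((t - m) / ρ) ((hmem _ _).1 ht)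
    rw [hFre, Complex.ofReal_re, hback] at this
    exact this

/-- **COMP with the duration factor**: finitely many times `τ ∈ Θ`. -/
theorem exists_intervals_times {ι T : Type*} [Fintype ι] (Θ : Finset T) {f : T → ι → ℂ → ℂ}
    {a b B s : ℝ} (hab : a < b)
    (hf : ∀ τ ∈ Θ, ∀ i, DifferentiableOn ℂ (f τ i) (ball (((a + b) / 2 : ℝ) : ℂ) (2 * (b - a))))
    (hB : ∀ τ ∈ Θ, ∀ i, ∀ z ∈ ball (((a + b) / 2 : ℝ) : ℂ) (2 * (b - a)), ‖f τ i z‖ ≤ B)
    (hs : 0 < s) :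
    ∃ E : Finset (ℝ × ℝ),
      (E.card : ℝ) ≤ Θ.card *
        (1 + Real.log (max 1 (Fintype.card ι * B ^ 2 / s ^ 2)) / Real.log (5 / 4)) ∧
      (∀ p ∈ E, a ≤ p.1 ∧ p.1 ≤ p.2 ∧ p.2 ≤ b) ∧
      (∀ τ ∈ Θ, ∀ t : ℝ, t ∈ Icc a b → ∑ i, ‖f τ i t‖ ^ 2 ≤ s ^ 2 → ∃ p ∈ E, t ∈ Icc p.1 p.2 ∧
        ∀ u : ℝ, u ∈ Icc p.1 p.2 → ∑ i, ‖f τ i u‖ ^ 2 ≤ 4 * s ^ 2) ∧
      (∀ p ∈ E, ∃ τ ∈ Θ, ∀ t : ℝ, t ∈ Icc p.1 p.2 → ∑ i, ‖f τ i t‖ ^ 2 ≤ 4 * s ^ 2) := by
  classical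
  have h : ∀ τ : Θ, ∃ E : Finset (ℝ × ℝ),
      (E.card : ℝ) ≤ 1 + Real.log (max 1 (Fintype.card ι * B ^ 2 / s ^ 2)) / Real.log (5 / 4) ∧
      (∀ p ∈ E, a ≤ p.1 ∧ p.1 ≤ p.2 ∧ p.2 ≤ b) ∧
      (∀ p ∈ E, ∀ q ∈ E, p ≠ q → Disjoint (Icc p.1 p.2) (Icc q.1 q.2)) ∧
      (∀ t : ℝ, t ∈ Icc a b → ∑ i, ‖f τ i t‖ ^ 2 ≤ s ^ 2 → ∃ p ∈ E, t ∈ Icc p.1 p.2) ∧
      (∀ p ∈ E, ∀ t : ℝ, t ∈ Icc p.1 p.2 → ∑ i, ‖f τ i t‖ ^ 2 ≤ 4 * s ^ 2) :=
    fun τ => exists_intervals_sumsq hab (hf τ τ.2) (hB τ τ.2) hs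
  choose E hE1 hE2 _hE3 hE4 hE5 using h
  refine ⟨Finset.univ.biUnion E, ?_, ?_, ?_, ?_⟩
  · calc ((Finset.univ.biUnion E).card : ℝ) ≤ ((∑ τ : Θ, (E τ).card : ℕ) : ℝ) := by
          exact_mod_cast Finset.card_biUnion_le
      _ = ∑ τ : Θ, ((E τ).card : ℝ) := by push_cast; rfl
      _ ≤ ∑ _τ : Θ, (1 + Real.log (max 1 (Fintype.card ι * B ^ 2 / s ^ 2)) / Real.log (5 / 4)) :=
          Finset.sum_le_sum (fun τ _ => hE1 τ)
      _ = _ := by rw [Finset.sum_const, Finset.card_univ, nsmul_eq_mul, Fintype.card_coe]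
  · intro p hp
    obtain ⟨τ, _, hτ⟩ := Finset.mem_biUnion.1 hp
    exact hE2 τ p hτ
  · intro τ hτ t ht hts
    obtain ⟨p, hp, htp⟩ := hE4 ⟨τ, hτ⟩ t ht hts
    exact ⟨p, Finset.mem_biUnion.2 ⟨_, Finset.mem_univ _, hp⟩, htp, fun u hu => hE5 ⟨τ, hτ⟩ p hp u hu⟩
  · intro p hp
    obtain ⟨τ, _, hτ⟩ := Finset.mem_biUnion.1 hp
    exact ⟨τ, τ.2, fun t ht => hE5 τ p hτ t ht⟩

/-- The measure of the points of the intervals which are close to an end. -/
theorem volume_near_ends (E : Finset (ℝ × ℝ)) {δ : ℝ} :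
    MeasureTheory.volume {t : ℝ | ∃ p ∈ E, t ∈ Icc p.1 p.2 ∧ (t - p.1 ≤ δ ∨ p.2 - t ≤ δ)} ≤
      E.card * ENNReal.ofReal (2 * δ) := by
  classical
  have hsub : {t : ℝ | ∃ p ∈ E, t ∈ Icc p.1 p.2 ∧ (t - p.1 ≤ δ ∨ p.2 - t ≤ δ)} ⊆
      ⋃ p ∈ E, (Icc p.1 (p.1 + δ) ∪ Icc (p.2 - δ) p.2) := by
    rintro t ⟨p, hp, ht, h⟩
    refine mem_iUnion₂.2 ⟨p, hp, ?_⟩
    rcases h with h | h
    · left; exact ⟨ht.1, by linarith⟩
    · right; exact ⟨by linarith, ht.2⟩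
  refine (MeasureTheory.measure_mono hsub).trans
    ((MeasureTheory.measure_biUnion_finset_le _ _).trans ?_)
  calc ∑ p ∈ E, MeasureTheory.volume (Icc p.1 (p.1 + δ) ∪ Icc (p.2 - δ) p.2)
      ≤ ∑ _p ∈ E, ENNReal.ofReal (2 * δ) := by
        apply Finset.sum_le_sum
        intro p _
        refine (MeasureTheory.measure_union_le _ _).trans ?_
        rw [Real.volume_Icc, Real.volume_Icc]
        rcases le_or_gt 0 δ with hδ | hδ
        · rw [← ENNReal.ofReal_add (by linarith) (by linarith)]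
          apply ENNReal.ofReal_le_ofReal; linarith
        · rw [ENNReal.ofReal_of_nonpos (by linarith), ENNReal.ofReal_of_nonpos (by linarith)]
          simp
    _ = E.card * ENNReal.ofReal (2 * δ) := by rw [Finset.sum_const, nsmul_eq_mul]

/-- Relative version: the points `t` of the intervals `J ∈ E` with
`dist (t, ends of J) ≤ δ |J|`, when the intervals are pairwise disjoint and contained in
`[a,b]`. -/
theorem volume_near_ends_rel (E : Finset (ℝ × ℝ)) {a b δ : ℝ} (hδ : 0 ≤ δ)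
    (hE : ∀ p ∈ E, a ≤ p.1 ∧ p.1 ≤ p.2 ∧ p.2 ≤ b)
    (hdis : ∀ p ∈ E, ∀ q ∈ E, p ≠ q → Disjoint (Icc p.1 p.2) (Icc q.1 q.2)) :
    MeasureTheory.volume {t : ℝ | ∃ p ∈ E, t ∈ Icc p.1 p.2 ∧
      (t - p.1 ≤ δ * (p.2 - p.1) ∨ p.2 - t ≤ δ * (p.2 - p.1))} ≤
      ENNReal.ofReal (2 * δ * (b - a)) := by
  classical
  have hsub : {t : ℝ | ∃ p ∈ E, t ∈ Icc p.1 p.2 ∧
      (t - p.1 ≤ δ * (p.2 - p.1) ∨ p.2 - t ≤ δ * (p.2 - p.1))} ⊆
      ⋃ p ∈ E, (Icc p.1 (p.1 + δ * (p.2 - p.1)) ∪ Icc (p.2 - δ * (p.2 - p.1)) p.2) := by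
    rintro t ⟨p, hp, ht, h⟩
    refine mem_iUnion₂.2 ⟨p, hp, ?_⟩
    rcases h with h | h
    · left; exact ⟨ht.1, by linarith⟩
    · right; exact ⟨by linarith, ht.2⟩
  have hvol : ∑ p ∈ E, MeasureTheory.volume (Icc p.1 p.2) ≤ MeasureTheory.volume (Icc a b) := by
    rw [← MeasureTheory.measure_biUnion_finset]
    · apply MeasureTheory.measure_mono
      intro t ht
      obtain ⟨p, hp, htp⟩ := mem_iUnion₂.1 ht
      exact ⟨(hE p hp).1.trans htp.1, htp.2.trans (hE p hp).2.2⟩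
    · intro p hp q hq hpq; exact hdis p hp q hq hpq
    · intro p _; exact measurableSet_Icc
  refine (MeasureTheory.measure_mono hsub).trans
    ((MeasureTheory.measure_biUnion_finset_le _ _).trans ?_)
  calc ∑ p ∈ E, MeasureTheory.volume (Icc p.1 (p.1 + δ * (p.2 - p.1)) ∪
          Icc (p.2 - δ * (p.2 - p.1)) p.2)
      ≤ ∑ p ∈ E, ENNReal.ofReal (2 * δ) * MeasureTheory.volume (Icc p.1 p.2) := by
        apply Finset.sum_le_sum
        intro p hp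
        refine (MeasureTheory.measure_union_le _ _).trans ?_
        rw [Real.volume_Icc, Real.volume_Icc, Real.volume_Icc]
        have h0 : 0 ≤ p.2 - p.1 := by linarith [(hE p hp).2.1]
        have h1 : 0 ≤ δ * (p.2 - p.1) := mul_nonneg hδ h0
        rw [← ENNReal.ofReal_add (by linarith) (by linarith), ← ENNReal.ofReal_mul (by linarith)]
        apply ENNReal.ofReal_le_ofReal; linarith
    _ = ENNReal.ofReal (2 * δ) * ∑ p ∈ E, MeasureTheory.volume (Icc p.1 p.2) := by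
        rw [Finset.mul_sum]
    _ ≤ ENNReal.ofReal (2 * δ) * MeasureTheory.volume (Icc a b) := by gcongr
    _ = ENNReal.ofReal (2 * δ * (b - a)) := by
        rw [Real.volume_Icc, ← ENNReal.ofReal_mul (by linarith)]

end Crest.Agent.R128.Comp
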