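/-
R128, node N6-CONTENT: the last regular digits (complex disc, linear bounds, the terms
`1/(y_m' y_{m+1}')`).
-/
import Mathlib
import Crest.Agent.R128.ContClean

set_option autoImplicit false

open Metric Finset Crest.Agent.R128 Crest.Agent.R128.Cell Crest.Agent.R128.CellB
  Crest.Agent.R128.TreeSum Crest.Agent.R128.Disp Crest.Agent.R128.ContClean

namespace Crest.Agent.R128.ContLast

/-- `|dy_m/dt|` at the real point `t0` -/
noncomputable def Qn (k c t0 : ℝ) (m : ℕ) : ℝ := ‖yd k c m (t0 : ℂ)‖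

theorem Qn_nonneg (k c t0 : ℝ) (m : ℕ) : 0 ≤ Qn k c t0 m := norm_nonneg _

theorem y_disp {k c t0 r q : ℝ} {m : ℕ} (hr : 0 ≤ r)
    (h : ∀ z : ℂ, ‖z - t0‖ ≤ r → ‖yd k c m z‖ ≤ q) {z : ℂ} (hz : ‖z - t0‖ ≤ r) :
    ‖y k c m z - y k c m t0‖ ≤ q * ‖z - t0‖ := by
  have := (convex_closedBall (t0 : ℂ) r).norm_image_sub_le_of_norm_hasDerivWithin_le
    (f := y k c m) (f' := yd k c m) (C := q)
    (fun w _ => (hasDerivAt_y k c m w).hasDerivWithinAt)
    (fun w hw => h w (by rwa [mem_closedBall, dist_eq_norm] at hw)) (mem_closedBall_self hr)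
    (by rwa [mem_closedBall, dist_eq_norm])
  exact this

/-- regular digits `y_{b+1}, …, y_{n-1}` with lower bounds `v`, base data at `b+1` -/
structure Last (k c t0 : ℝ) (b n : ℕ) (v e : ℕ → ℝ) (ra : ℝ) : Prop where
  hv : ∀ m, b + 1 ≤ m → m < n → 100 ≤ v m ∧ v m ≤ ‖cV k (y k c m t0)‖
  h0 : 0 < Qn k c t0 (b + 1)
  hq : Qn k c t0 b ≤ Qn k c t0 (b + 1)
  hd : ∀ z : ℂ, ‖z - t0‖ ≤ ra →
    ‖yd k c (b + 1) z - yd k c (b + 1) t0‖ ≤ e (b + 1) * ‖z - t0‖ * Qn k c t0 (b + 1) ∧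
    ‖yd k c b z - yd k c b t0‖ ≤ e (b + 1) * ‖z - t0‖ * Qn k c t0 (b + 1)
  he0 : 0 ≤ e (b + 1)
  he : ∀ m, b + 1 ≤ m → m < n →
    (1 + 4 / v m) * e m + 2 * CL k * Qn k c t0 m / v m ≤ e (m + 1)

variable {k c t0 : ℝ} {b n : ℕ} {v e : ℕ → ℝ} {ra : ℝ}

theorem Last.grow (H : Last k c t0 b n v e ra) : ∀ m, b ≤ m → m + 1 ≤ n →
    0 < Qn k c t0 (m + 1) ∧ Qn k c t0 m ≤ Qn k c t0 (m + 1) := by
  intro m hm
  induction m, hm using Nat.le_induction with
  | base => intro _; exact ⟨H.h0, H.hq⟩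
  | succ m hm ih =>
    intro hmn
    obtain ⟨h1, h2⟩ := ih (by omega)
    obtain ⟨h3, h4⟩ := H.hv (m + 1) (by omega) (by omega)
    have h5 : v (m + 1) * Qn k c t0 (m + 1) - Qn k c t0 m ≤ Qn k c t0 (m + 1 + 1) := by
      unfold Qn
      rw [show m + 1 + 1 = m + 2 from rfl, yd_add_two]
      have := norm_sub_norm_le (cV k (y k c (m + 1) t0) * yd k c (m + 1) t0) (yd k c m t0)
      rw [norm_mul] at this
      have h6 : v (m + 1) * ‖yd k c (m + 1) (t0 : ℂ)‖ ≤
          ‖cV k (y k c (m + 1) t0)‖ * ‖yd k c (m + 1) (t0 : ℂ)‖ := by gcongr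
      linarith
    have h6 : 100 * Qn k c t0 (m + 1) ≤ v (m + 1) * Qn k c t0 (m + 1) := by gcongr
    constructor <;> linarith

theorem Last.grow' (H : Last k c t0 b n v e ra) {m : ℕ} (hm : b + 1 ≤ m) (hmn : m < n) :
    (‖cV k (y k c m t0)‖ - 1) * Qn k c t0 m ≤ Qn k c t0 (m + 1) := by
  obtain ⟨m', rfl⟩ : ∃ m', m = m' + 1 := ⟨m - 1, by omega⟩
  obtain ⟨h1, h2⟩ := H.grow m' (by omega) (by omega)
  unfold Qn at *
  rw [show m' + 1 + 1 = m' + 2 from rfl, yd_add_two]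
  have := norm_sub_norm_le (cV k (y k c (m' + 1) t0) * yd k c (m' + 1) t0) (yd k c m' t0)
  rw [norm_mul] at this
  linarith

theorem Last.e_nonneg (H : Last k c t0 b n v e ra) : ∀ m, b + 1 ≤ m → m ≤ n → 0 ≤ e m := by
  intro m hm
  induction m, hm using Nat.le_induction with
  | base => intro _; exact H.he0
  | succ m hm ih =>
    intro hmn
    have h1 := ih (by omega)
    have h2 := H.he m hm (by omega)
    have h3 := (H.hv m hm (by omega)).1
    have h4 := CL_nonneg k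
    have h5 := Qn_nonneg k c t0 m
    have h6 : 0 ≤ (1 + 4 / v m) * e m + 2 * CL k * Qn k c t0 m / v m := by positivity
    linarith

theorem Last.e_mono (H : Last k c t0 b n v e ra) {m : ℕ} (hm : b + 1 ≤ m) (hmn : m < n) :
    e m ≤ e (m + 1) := by
  have h1 := H.e_nonneg m hm hmn.le
  have h2 := H.he m hm hmn
  have h3 := (H.hv m hm hmn).1
  have h4 := CL_nonneg k
  have h5 := Qn_nonneg k c t0 m
  have h6 : 0 ≤ 4 / v m * e m := by positivity
  have h7 : 0 ≤ 2 * CL k * Qn k c t0 m / v m := by positivity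
  linarith

/-- linear bounds on the complex disc of radius `r` -/
theorem Last.lin (H : Last k c t0 b n v e ra) {r : ℝ} (hr : 0 ≤ r) (hra : r ≤ ra) {M : ℕ}
    (hM : M ≤ n) (he : ∀ m, b + 1 ≤ m → m < M → e m * r ≤ 1 / 4)
    (hQ : ∀ m, b + 1 ≤ m → m < M → r * Qn k c t0 m ≤ 1 / 2) :
    ∀ m, b ≤ m → m + 1 ≤ max M (b + 1) → ∀ z : ℂ, ‖z - t0‖ ≤ r →
      ‖yd k c (m + 1) z - yd k c (m + 1) t0‖ ≤ e (m + 1) * ‖z - t0‖ * Qn k c t0 (m + 1) ∧
      ‖yd k c m z - yd k c m t0‖ ≤ e (m + 1) * ‖z - t0‖ * Qn k c t0 (m + 1) := by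
  intro m hm
  induction m, hm using Nat.le_induction with
  | base => intro _ z hz; exact H.hd z (hz.trans hra)
  | succ m hm ih =>
    intro hmM z hz
    have hmM' : m + 1 < M := by
      rcases le_max_iff.1 hmM with h | h <;> omega
    have ih := ih (by omega)
    obtain ⟨hQpos, hQm⟩ := H.grow m hm (by omega)
    have heN := H.e_nonneg (m + 1) (by omega) (by omega)
    have her := he (m + 1) (by omega) hmM'
    have hQr := hQ (m + 1) (by omega) hmM'
    obtain ⟨hv1, hv2⟩ := H.hv (m + 1) (by omega) (by omega)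
    have hCL := CL_nonneg k
    set Q := Qn k c t0 (m + 1) with hQdef
    set V0 := cV k (y k c (m + 1) t0) with hV0
    -- size of the field on the disc
    have hsz : ∀ w : ℂ, ‖w - t0‖ ≤ r → ‖yd k c (m + 1) w‖ ≤ 5 / 4 * Q := by
      intro w hw
      have h1 := (ih w hw).1
      have h2 : e (m + 1) * ‖w - t0‖ ≤ 1 / 4 :=
        (mul_le_mul_of_nonneg_left hw heN).trans her
      have h3 : e (m + 1) * ‖w - t0‖ * Q ≤ 1 / 4 * Q := by gcongr
      have h4 := norm_le_norm_add_norm_sub' (yd k c (m + 1) w) (yd k c (m + 1) t0)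
      have h5 : ‖yd k c (m + 1) (t0 : ℂ)‖ = Q := rfl
      linarith
    have hy := y_disp (k := k) (c := c) (t0 := t0) (m := m + 1) hr hsz hz
    have hy1 : ‖y k c (m + 1) z - y k c (m + 1) t0‖ ≤ 1 := by
      have h1 : 5 / 4 * Q * ‖z - t0‖ ≤ 5 / 4 * Q * r := by gcongr
      nlinarith
    have him : |(y k c (m + 1) z).im| ≤ 1 := by
      have h4 : (y k c (m + 1) z).im = (y k c (m + 1) z - y k c (m + 1) t0).im := by
        rw [Complex.sub_im, im_y_ofReal, sub_zero]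
      rw [h4]
      exact (Complex.abs_im_le_norm _).trans hy1
    have hV : ‖cV k (y k c (m + 1) z) - V0‖ ≤ CL k * (5 / 4 * Q * ‖z - t0‖) :=
      (norm_cV_sub_le k him (by rw [im_y_ofReal]; simp)).trans
        (mul_le_mul_of_nonneg_left hy hCL)
    obtain ⟨i1, i2⟩ := ih z hz
    have hgrow := H.grow' (m := m + 1) (by omega) (by omega)
    have hstep := H.he (m + 1) (by omega) (by omega)
    set T := ‖z - t0‖ with hT
    have hT0 : 0 ≤ T := norm_nonneg _
    -- main estimate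
    have hmain : ‖yd k c (m + 1 + 1) z - yd k c (m + 1 + 1) t0‖ ≤
        T * Q * (25 / 16 * CL k * Q + (‖V0‖ + 1) * e (m + 1)) := by
      have e1 : yd k c (m + 1 + 1) z - yd k c (m + 1 + 1) t0 =
          (cV k (y k c (m + 1) z) - V0) * yd k c (m + 1) z +
          V0 * (yd k c (m + 1) z - yd k c (m + 1) t0) - (yd k c m z - yd k c m t0) := by
        rw [show m + 1 + 1 = m + 2 from rfl, yd_add_two, yd_add_two]
        ring
      rw [e1]
      have h1 : ‖(cV k (y k c (m + 1) z) - V0) * yd k c (m + 1) z‖ ≤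
          CL k * (5 / 4 * Q * T) * (5 / 4 * Q) := by
        rw [norm_mul]
        exact mul_le_mul hV (hsz z hz) (norm_nonneg _) (by positivity)
      have h2 : ‖V0 * (yd k c (m + 1) z - yd k c (m + 1) t0)‖ ≤ ‖V0‖ * (e (m + 1) * T * Q) := by
        rw [norm_mul]
        exact mul_le_mul_of_nonneg_left i1 (norm_nonneg _)
      calc _ ≤ ‖(cV k (y k c (m + 1) z) - V0) * yd k c (m + 1) z‖ +
            ‖V0 * (yd k c (m + 1) z - yd k c (m + 1) t0)‖ + ‖yd k c m z - yd k c m t0‖ :=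
            (norm_sub_le _ _).trans (add_le_add_left (norm_add_le _ _) _)
        _ ≤ CL k * (5 / 4 * Q * T) * (5 / 4 * Q) + ‖V0‖ * (e (m + 1) * T * Q) +
            e (m + 1) * T * Q := by gcongr
        _ = _ := by ring
    have hV0ge : 100 ≤ ‖V0‖ := hv1.trans hv2
    have hvpos : 0 < v (m + 1) := by linarith
    -- comparison with `e (m+2)`
    have hcomp : Q * (25 / 16 * CL k * Q + (‖V0‖ + 1) * e (m + 1)) ≤
        e (m + 1 + 1) * Qn k c t0 (m + 1 + 1) := by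
      have h1 : 25 / 16 * CL k * Q ≤ 2 * CL k * Q / v (m + 1) * (‖V0‖ - 1) := by
        have e2 : 2 * CL k * Q / v (m + 1) * (‖V0‖ - 1) =
            (2 * CL k * Q * (‖V0‖ - 1)) / v (m + 1) := by ring
        rw [e2, le_div_iff₀ hvpos]
        have : 25 / 16 * v (m + 1) ≤ 2 * (‖V0‖ - 1) := by linarith
        have h2 : 0 ≤ CL k * Q := by positivity
        nlinarith
      have h2 : (‖V0‖ + 1) * e (m + 1) ≤ (1 + 4 / v (m + 1)) * e (m + 1) * (‖V0‖ - 1) := by
        have h3 : ‖V0‖ + 1 ≤ (1 + 4 / v (m + 1)) * (‖V0‖ - 1) := by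
          have h4 : 2 ≤ 4 / v (m + 1) * (‖V0‖ - 1) := by
            rw [div_mul_eq_mul_div, le_div_iff₀ hvpos]
            linarith
          linarith
        calc _ ≤ (1 + 4 / v (m + 1)) * (‖V0‖ - 1) * e (m + 1) := by gcongr
          _ = _ := by ring
      have hV1 : 0 ≤ ‖V0‖ - 1 := by linarith
      calc _ ≤ Q * (2 * CL k * Q / v (m + 1) * (‖V0‖ - 1) +
            (1 + 4 / v (m + 1)) * e (m + 1) * (‖V0‖ - 1)) := by gcongr
        _ = ((1 + 4 / v (m + 1)) * e (m + 1) + 2 * CL k * Q / v (m + 1)) *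
            ((‖V0‖ - 1) * Q) := by ring
        _ ≤ e (m + 1 + 1) * ((‖V0‖ - 1) * Q) := by gcongr
        _ ≤ e (m + 1 + 1) * Qn k c t0 (m + 1 + 1) := by
            have := H.e_nonneg (m + 1 + 1) (by omega) (by omega)
            gcongr
    constructor
    · calc _ ≤ _ := hmain
        _ = T * (Q * (25 / 16 * CL k * Q + (‖V0‖ + 1) * e (m + 1))) := by ring
        _ ≤ T * (e (m + 1 + 1) * Qn k c t0 (m + 1 + 1)) := by gcongr
        _ = _ := by ring
    · have h1 := H.e_mono (m := m + 1) (by omega) (by omega)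
      obtain ⟨h2, h3⟩ := H.grow (m + 1) (by omega) (by omega)
      have h6 := H.e_nonneg (m + 1 + 1) (by omega) (by omega)
      calc _ ≤ _ := i1
        _ ≤ e (m + 1 + 1) * T * Qn k c t0 (m + 1 + 1) :=
          mul_le_mul (mul_le_mul_of_nonneg_right h1 hT0) h3 hQpos.le (by positivity)

theorem Last.e_mono' (H : Last k c t0 b n v e ra) {j : ℕ} (hj : b + 1 ≤ j) :
    ∀ m, j ≤ m → m ≤ n → e j ≤ e m := by
  intro m hm
  induction m, hm using Nat.le_induction with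
  | base => intro _; exact le_rfl
  | succ m hm ih => intro hmn; exact (ih (by omega)).trans (H.e_mono (by omega) (by omega))

theorem Last.Q_mono' (H : Last k c t0 b n v e ra) {j : ℕ} (hj : b ≤ j) :
    ∀ m, j ≤ m → m ≤ n → Qn k c t0 j ≤ Qn k c t0 m := by
  intro m hm
  induction m, hm using Nat.le_induction with
  | base => intro _; exact le_rfl
  | succ m hm ih => intro hmn; exact (ih (by omega)).trans (H.grow m (by omega) (by omega)).2

/-- the fields `y_m', y_{m+1}'` on the disc of radius `r` -/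
theorem Last.low (H : Last k c t0 b n v e ra) {r : ℝ} (hr : 0 ≤ r) (hra : r ≤ ra) {m : ℕ}
    (hbm : b + 1 ≤ m) (hm : m < n) (he : e (m + 1) * r ≤ 1 / 4)
    (hQ : r * Qn k c t0 m ≤ 1 / 2) {z : ℂ} (hz : ‖z - t0‖ ≤ r) :
    ‖yd k c m z - yd k c m t0‖ ≤ e m * ‖z - t0‖ * Qn k c t0 m ∧
    ‖yd k c (m + 1) z - yd k c (m + 1) t0‖ ≤ e (m + 1) * ‖z - t0‖ * Qn k c t0 (m + 1) ∧
    3 / 4 * Qn k c t0 m ≤ ‖yd k c m z‖ ∧ 3 / 4 * Qn k c t0 (m + 1) ≤ ‖yd k c (m + 1) z‖ := by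
  have hlin := H.lin hr hra (M := m + 1) (by omega)
    (fun j hj hjm => by
      have := H.e_mono' hj (m + 1) (by omega) (by omega)
      exact (mul_le_mul_of_nonneg_right this hr).trans he)
    (fun j hj hjm => by
      have := H.Q_mono' (j := j) (by omega) m (by omega) (by omega)
      exact (mul_le_mul_of_nonneg_left this hr).trans hQ)
  obtain ⟨m', rfl⟩ : ∃ m', m = m' + 1 := ⟨m - 1, by omega⟩
  have h1 := (hlin m' (by omega) (by simp) z hz).1
  have h2 := (hlin (m' + 1) (by omega) (by simp) z hz).1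
  have hQ0 := Qn_nonneg k c t0 (m' + 1)
  have hQ1 := Qn_nonneg k c t0 (m' + 1 + 1)
  have he1 := H.e_nonneg (m' + 1) (by omega) (by omega)
  have he2 := H.e_nonneg (m' + 1 + 1) (by omega) (by omega)
  have hmono := H.e_mono (m := m' + 1) (by omega) (by omega)
  have hT0 : 0 ≤ ‖z - t0‖ := norm_nonneg _
  have e1 : e (m' + 1) * ‖z - t0‖ ≤ 1 / 4 := by
    calc _ ≤ e (m' + 1 + 1) * r := mul_le_mul hmono hz hT0 he2
      _ ≤ _ := he
  have e2 : e (m' + 1 + 1) * ‖z - t0‖ ≤ 1 / 4 :=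
    (mul_le_mul_of_nonneg_left hz he2).trans he
  refine ⟨h1, h2, ?_, ?_⟩
  · have h3 := norm_sub_norm_le (yd k c (m' + 1) t0) (yd k c (m' + 1) z)
    rw [norm_sub_rev] at h3
    have h4 : ‖yd k c (m' + 1) (t0 : ℂ)‖ = Qn k c t0 (m' + 1) := rfl
    have h5 : e (m' + 1) * ‖z - t0‖ * Qn k c t0 (m' + 1) ≤ 1 / 4 * Qn k c t0 (m' + 1) := by
      gcongr
    linarith
  · have h3 := norm_sub_norm_le (yd k c (m' + 1 + 1) t0) (yd k c (m' + 1 + 1) z)
    rw [norm_sub_rev] at h3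
    have h4 : ‖yd k c (m' + 1 + 1) (t0 : ℂ)‖ = Qn k c t0 (m' + 1 + 1) := rfl
    have h5 : e (m' + 1 + 1) * ‖z - t0‖ * Qn k c t0 (m' + 1 + 1) ≤
        1 / 4 * Qn k c t0 (m' + 1 + 1) := by gcongr
    linarith

/-- **Content of the last regular digits.** -/
theorem Last.content (H : Last k c t0 b n v e ra) (hbn : b + 1 ≤ n) (rad : ℕ → ℝ) {R : ℝ}
    (hR : 0 < R) (hrad : ∀ m, b + 1 ≤ m → m < n → 2 * R ≤ rad m)
    (hra : ∀ m, b + 1 ≤ m → m < n → rad m ≤ ra)
    (h1 : ∀ m, b + 1 ≤ m → m < n → e (m + 1) * rad m ≤ 1 / 4)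
    (h2 : ∀ m, b + 1 ≤ m → m < n → rad m * Qn k c t0 m ≤ 1 / 2) (d : ℕ) :
    ∃ p : Polynomial ℝ, p.natDegree ≤ d ∧ ∀ t : ℝ, |t - t0| ≤ R →
      |(Align.mu (aC k c t) n - Align.mu (aC k c t) (b + 1)).re - p.eval t| ≤
        ∑ m ∈ Ico (b + 1) n, 2 * (2 / (Qn k c t0 m * Qn k c t0 (m + 1))) *
          (R / rad m) ^ (d + 1) := by
  rcases hbn.eq_or_lt with hbn' | hbn'
  · refine ⟨0, by simp, fun t _ => ?_⟩
    rw [← hbn']
    simp
  have hpos : ∀ m, b + 1 ≤ m → m ≤ n → 0 < Qn k c t0 m := by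
    intro m hm hmn
    obtain ⟨m', rfl⟩ : ∃ m', m = m' + 1 := ⟨m - 1, by omega⟩
    exact (H.grow m' (by omega) (by omega)).1
  have hlow : ∀ m, b + 1 ≤ m → m < n → ∀ z ∈ closedBall (t0 : ℂ) (rad m),
      3 / 4 * Qn k c t0 m ≤ ‖Align.Q (aC k c z) m‖ ∧
      3 / 4 * Qn k c t0 (m + 1) ≤ ‖Align.Q (aC k c z) (m + 1)‖ := by
    intro m hm hmn z hz
    rw [mem_closedBall, dist_eq_norm] at hz
    have hr0 := hrad m hm hmn
    have := H.low (r := rad m) (by linarith) (hra m hm hmn) hm hmn (h1 m hm hmn) (h2 m hm hmn) hz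
    rw [Q_eq, Q_eq]
    exact this.2.2
  set g : ℕ → ℂ → ℂ := fun m z => 1 / (Align.Q (aC k c z) m * Align.Q (aC k c z) (m + 1)) with hg
  have hne : ∀ m, b + 1 ≤ m → m < n → ∀ z ∈ closedBall (t0 : ℂ) (rad m),
      Align.Q (aC k c z) m ≠ 0 ∧ Align.Q (aC k c z) (m + 1) ≠ 0 := by
    intro m hm hmn z hz
    obtain ⟨h3, h4⟩ := hlow m hm hmn z hz
    have h5 := hpos m hm hmn.le
    have h6 := hpos (m + 1) (by omega) hmn
    exact ⟨norm_pos_iff.1 (by linarith), norm_pos_iff.1 (by linarith)⟩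
  obtain ⟨p, hpd, hp⟩ := PolyC.blocks (Ico (b + 1) n) (x0 := t0) (g := g) (R' := rad)
    (B := fun m => 2 / (Qn k c t0 m * Qn k c t0 (m + 1))) hR
    (fun m hm => hrad m (mem_Ico.1 hm).1 (mem_Ico.1 hm).2)
    (by
      intro m hm z hz
      obtain ⟨h3, h4⟩ := hne m (mem_Ico.1 hm).1 (mem_Ico.1 hm).2 z hz
      apply DifferentiableAt.differentiableWithinAt
      simp only [hg]
      exact (differentiableAt_const _).div
        ((differentiable_Q k c m z).mul (differentiable_Q k c (m + 1) z)) (mul_ne_zero h3 h4))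
    (by
      intro m hm z hz
      obtain ⟨hm1, hm2⟩ := mem_Ico.1 hm
      obtain ⟨h3, h4⟩ := hlow m hm1 hm2 z hz
      have h5 := hpos m hm1 hm2.le
      have h6 := hpos (m + 1) (by omega) hm2
      simp only [hg]
      rw [norm_div, norm_one, norm_mul]
      have h7 : 3 / 4 * Qn k c t0 m * (3 / 4 * Qn k c t0 (m + 1)) ≤
          ‖Align.Q (aC k c z) m‖ * ‖Align.Q (aC k c z) (m + 1)‖ :=
        mul_le_mul h3 h4 (by positivity) (norm_nonneg _)
      rw [div_le_div_iff₀ (by nlinarith [mul_pos h5 h6]) (by positivity)]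
      nlinarith [mul_pos h5 h6]) d
  refine ⟨p, hpd, fun t ht => ?_⟩
  have hball : ∀ m, b + 1 ≤ m → m < n → (t : ℂ) ∈ closedBall (t0 : ℂ) (rad m) := by
    intro m hm hmn
    rw [mem_closedBall, dist_eq_norm, ← Complex.ofReal_sub, Complex.norm_real, Real.norm_eq_abs]
    have := hrad m hm hmn
    linarith
  have hsum := Align.mu_sub (a := aC k c t) (m := b + 1) (n := n) hbn (by
    intro i hi hin
    rcases hin.eq_or_lt with h | h
    · obtain ⟨n', rfl⟩ : ∃ n', n = n' + 1 := ⟨n - 1, by omega⟩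
      rw [h]
      exact (hne n' (by omega) (by omega) t (hball n' (by omega) (by omega))).2
    · exact (hne i hi h t (hball i hi h)).1)
  rw [hsum]
  exact hp t ht

end Crest.Agent.R128.ContLast
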