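import Mathlib

set_option autoImplicit false

/-!
Row 128 (helper155): algebra of the "content" of a tip.
`u (n+1) + u (n-1) = V n * u n` on `ℤ`.  `e` = solution with `e 0 = 0`, `e 1 = 1`
(= `d x_n / dt` on the curve `x_0 = c`, `x_1 = t`), `b` = solution with `b 0 = 1`, `b 1 = 0`
(= `d x_n / dc`).  `mu n = - b n / e n`; the alignment function of the window `(i, j)` is
`b i / e i - b j / e j`.
-/

namespace Crest.Agent.R128.Content

/-- solution of the Jacobi recursion -/
def IsSol (V u : ℤ → ℝ) : Prop := ∀ n, u (n + 1) + u (n - 1) = V n * u n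

variable {V e b u w : ℤ → ℝ}

theorem IsSol.add (hu : IsSol V u) (hw : IsSol V w) (α β : ℝ) :
    IsSol V (fun n => α * u n + β * w n) := by
  intro n
  have h1 := hu n
  have h2 := hw n
  simp only
  linear_combination α * h1 + β * h2

/-- two solutions which agree at `0` and `1` agree everywhere -/
theorem IsSol.ext (hu : IsSol V u) (hw : IsSol V w) (h0 : u 0 = w 0) (h1 : u 1 = w 1) :
    ∀ n, u n = w n := by
  have key : ∀ n : ℕ, u n = w n ∧ u (n + 1) = w (n + 1) := by
    intro n
    induction n with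
    | zero => simpa using ⟨h0, h1⟩
    | succ n ih =>
      refine ⟨by push_cast; exact ih.2, ?_⟩
      have a := hu ((n : ℤ) + 1)
      have c := hw ((n : ℤ) + 1)
      have e1 : ((n : ℤ) + 1 - 1) = n := by ring
      rw [e1] at a c
      push_cast
      rw [ih.1, ih.2] at a
      linarith
  have key' : ∀ n : ℕ, u (-(n : ℤ)) = w (-(n : ℤ)) ∧ u (-(n : ℤ) + 1) = w (-(n : ℤ) + 1) := by
    intro n
    induction n with
    | zero => simpa using ⟨h0, h1⟩
    | succ n ih =>
      have a := hu (-(n : ℤ))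
      have c := hw (-(n : ℤ))
      rw [ih.1, ih.2] at a
      have e1 : (-((n + 1 : ℕ) : ℤ)) = -(n : ℤ) - 1 := by push_cast; ring
      have e2 : (-((n + 1 : ℕ) : ℤ)) + 1 = -(n : ℤ) := by push_cast; ring
      rw [e2, e1]
      exact ⟨by linarith, ih.1⟩
  intro n
  rcases Int.eq_nat_or_neg n with ⟨m, rfl | rfl⟩
  · exact (key m).1
  · exact (key' m).1

/-- the Wronskian is constant -/
theorem wronskian (hu : IsSol V u) (hw : IsSol V w) (n : ℤ) :
    u n * w (n + 1) - u (n + 1) * w n = u 0 * w 1 - u 1 * w 0 := by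
  have step : ∀ m : ℤ, u (m + 1) * w (m + 1 + 1) - u (m + 1 + 1) * w (m + 1)
      = u m * w (m + 1) - u (m + 1) * w m := by
    intro m
    have a := hu (m + 1)
    have c := hw (m + 1)
    have e1 : m + 1 - 1 = m := by ring
    rw [e1] at a c
    linear_combination u (m + 1) * c - w (m + 1) * a
  have key : ∀ n : ℕ, u n * w (n + 1) - u (n + 1) * w n = u 0 * w 1 - u 1 * w 0 := by
    intro n
    induction n with
    | zero => simp
    | succ n ih =>
      have := step n
      push_cast
      linarith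
  have key' : ∀ n : ℕ, u (-(n : ℤ)) * w (-(n : ℤ) + 1) - u (-(n : ℤ) + 1) * w (-(n : ℤ))
      = u 0 * w 1 - u 1 * w 0 := by
    intro n
    induction n with
    | zero => simp
    | succ n ih =>
      have := step (-(n : ℤ) - 1)
      have e1 : -(n : ℤ) - 1 + 1 = -(n : ℤ) := by ring
      rw [e1] at this
      have e2 : (-((n + 1 : ℕ) : ℤ)) = -(n : ℤ) - 1 := by push_cast; ring
      rw [e2, e1]
      linarith
  rcases Int.eq_nat_or_neg n with ⟨m, rfl | rfl⟩
  · exact key m
  · exact key' m

/-- the pair `(b, e)` of fundamental solutions -/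
structure Fund (V e b : ℤ → ℝ) : Prop where
  he : IsSol V e
  hb : IsSol V b
  e0 : e 0 = 0
  e1 : e 1 = 1
  b0 : b 0 = 1
  b1 : b 1 = 0

/-- `η = η_0 b + η_1 e` -/
theorem Fund.decomp (h : Fund V e b) (hu : IsSol V u) (n : ℤ) : u n = u 0 * b n + u 1 * e n :=
  IsSol.ext hu (h.hb.add h.he (u 0) (u 1)) (by simp [h.b0, h.e0]) (by simp [h.b1, h.e1]) n

theorem Fund.wr (h : Fund V e b) (n : ℤ) : b n * e (n + 1) - b (n + 1) * e n = 1 := by
  rw [wronskian h.hb h.he, h.b0, h.b1, h.e1, h.e0]
  ring

/-- one more digit on the `+` side -/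
theorem Fund.step (h : Fund V e b) {n : ℤ} (h1 : e n ≠ 0) (h2 : e (n + 1) ≠ 0) :
    b n / e n - b (n + 1) / e (n + 1) = 1 / (e n * e (n + 1)) := by
  have := h.wr n
  field_simp
  linarith

/-- one more digit on the `-` side -/
theorem Fund.step' (h : Fund V e b) {n : ℤ} (h1 : e n ≠ 0) (h2 : e (n - 1) ≠ 0) :
    b (n - 1) / e (n - 1) - b n / e n = 1 / (e n * e (n - 1)) := by
  have := h.wr (n - 1)
  have e1 : n - 1 + 1 = n := by ring
  rw [e1] at this
  field_simp
  linarith

/-- the first fresh term on the `+` side in terms of the digit `V n` -/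
theorem Fund.term (h : Fund V e b) {n : ℤ} (h1 : e n ≠ 0) :
    e n * e (n + 1) = e n ^ 2 * (V n - e (n - 1) / e n) := by
  have := h.he n
  have e2 : e (n + 1) = V n * e n - e (n - 1) := by linarith
  rw [e2]
  field_simp

theorem Fund.term' (h : Fund V e b) {n : ℤ} (h1 : e n ≠ 0) :
    e n * e (n - 1) = e n ^ 2 * (V n - e (n + 1) / e n) := by
  have := h.he n
  have e2 : e (n - 1) = V n * e n - e (n + 1) := by linarith
  rw [e2]
  field_simp

/-- a solution `u` with `u 0 ≠ 0` which is small at `i` and `j` makes the alignment function small -/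
theorem Fund.align (h : Fund V e b) (hu : IsSol V u) (h0 : u 0 ≠ 0) {i j : ℤ}
    (hi : e i ≠ 0) (hj : e j ≠ 0) :
    |b i / e i - b j / e j| ≤ (|u i| / |e i| + |u j| / |e j|) / |u 0| := by
  have hui := h.decomp hu i
  have huj := h.decomp hu j
  have key : b i / e i - b j / e j = (u i / e i - u j / e j) / u 0 := by
    rw [hui, huj]
    field_simp
    ring
  rw [key, abs_div]
  apply div_le_div_of_nonneg_right _ (abs_nonneg _)
  calc |u i / e i - u j / e j| ≤ |u i / e i| + |u j / e j| := abs_sub _ _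
    _ = _ := by rw [abs_div, abs_div]

/-- conversely: a small alignment function gives a solution which is small at both ends -/
theorem Fund.align_conv (h : Fund V e b) {i j : ℤ} (hi : e i ≠ 0) (hj : e j ≠ 0) :
    ∃ u : ℤ → ℝ, IsSol V u ∧ u 0 = 1 ∧ u j = 0 ∧ |u i| = |e i| * |b i / e i - b j / e j| := by
  refine ⟨fun n => 1 * b n + (-(b j / e j)) * e n, h.hb.add h.he _ _, ?_, ?_, ?_⟩
  · simp [h.b0, h.e0]
  · field_simp
    ring
  · rw [← abs_mul]
    congr 1
    field_simp
    ring

end Crest.Agent.R128.Content
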