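import Mathlib
import Crest.Agent.R128.Lam0D

/-!
Row 128, `Core2` (helper953's note 15905 (3), frozen by helper279): the 2-D form of the
shadowing/coherence theorem, and `Core2 → CoreStmt`.
-/

set_option autoImplicit false

open Finset MeasureTheory

namespace Crest.Agent.R128.Lam0

open Crest.Agent.R128.BVP

/-- The shadowing/coherence theorem, 2-D form. -/
def Core2 : Prop :=
  ∃ K0 : ℝ, ∀ k, K0 ≤ k → ∀ X, k ^ 600 ≤ X → ∃ r, 0 < r ∧ r ≤ 1 / 1000 ∧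
    ∀ (S : Set (ℝ × ℝ)) (n' : ℝ × ℝ → ℕ),
    (∀ z ∈ S, SV k 1000 z.1 z.2 (n' z) ∧ (∃ i < n' z, X ≤ nf k z.1 z.2 i) ∧
      ∀ i < n' z, nf k z.1 z.2 i ≤ k * X) →
    ∃ Y : ℝ × ℝ → ℝ → ℝ,
      (∀ z ∈ S, Y z z.1 = z.2 ∧
        (∀ l l', |l - z.1| ≤ 1 → |l' - z.1| ≤ 1 → |Y z l - Y z l'| ≤ 1 / 8 * |l - l'|) ∧
        ∀ l, |l - z.1| ≤ 1 → ∀ s, |s - Y z l| ≤ r → ∀ m ≤ n' z,
          nf k z.1 z.2 m ≤ 2 * nf k l s m ∧ nf k l s m ≤ 2 * nf k z.1 z.2 m) ∧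
      ∀ z ∈ S, ∀ z' ∈ S, ∀ l l', |l - z.1| ≤ 1 → |l - z'.1| ≤ 1 → |l' - z.1| ≤ 1 → |l' - z'.1| ≤ 1 →
        |Y z l - Y z' l| ≤ 2 * r → |Y z l' - Y z' l'| ≤ 49 * r

theorem coreStmt_of_core2 (h : Core2) : CoreStmt := by
  obtain ⟨K0, h⟩ := h
  refine ⟨K0, fun k hk X hX => ?_⟩
  obtain ⟨r, hr, hr1, h⟩ := h k hk X hX
  refine ⟨r, hr, by linarith, ?_⟩
  intro g hg l S n' hS
  obtain ⟨Y, h1, h2⟩ := h ((fun x => (g x, x)) '' S) (fun z => n' z.2) (by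
    rintro _ ⟨x, hx, rfl⟩
    exact ⟨(hS x hx).2.1, (hS x hx).2.2.1, (hS x hx).2.2.2⟩)
  have hm : ∀ x ∈ S, (g x, x) ∈ (fun x => (g x, x)) '' S := fun x hx => ⟨x, hx, rfl⟩
  have hY : ∀ x ∈ S, |Y (g x, x) l - x| ≤ 1 / 8 := by
    intro x hx
    obtain ⟨a, b, -⟩ := h1 _ (hm x hx)
    have hb := b l (g x) (hS x hx).1 (by rw [sub_self, abs_zero]; norm_num)
    simp only at a
    rw [a] at hb
    have := (hS x hx).1
    linarith
  refine ⟨fun x => Y (g x, x) l, fun x hx => ⟨(hY x hx).trans (by norm_num), ?_⟩, ?_⟩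
  · intro s hs m hmn
    exact (h1 _ (hm x hx)).2.2 l (hS x hx).1 s hs m hmn
  · intro x hx x' hx' hYY
    have e1 := hY x hx
    have e2 := hY x' hx'
    have hxx : |x - x'| ≤ 3 := by
      rw [abs_le] at e1 e2 ⊢
      have e3 := abs_le.1 hYY
      simp only at e3
      constructor <;> linarith [e1.1, e1.2, e2.1, e2.2, e3.1, e3.2]
    have hgg : |g x - g x'| ≤ 1 / 8 * |x - x'| := hg x x'
    have hgg1 : |g x - g x'| ≤ 1 := by linarith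
    have hc := h2 _ (hm x hx) _ (hm x' hx') l (g x) (hS x hx).1 (hS x' hx').1
      (by rw [sub_self, abs_zero]; norm_num) hgg1 hYY
    obtain ⟨a, -, -⟩ := h1 _ (hm x hx)
    obtain ⟨a', b', -⟩ := h1 _ (hm x' hx')
    simp only at a a'
    rw [a] at hc
    have hb := b' (g x) (g x') hgg1 (by rw [sub_self, abs_zero]; norm_num)
    rw [a'] at hb
    have htri := abs_sub_le x (Y (g x', x') (g x)) x'
    linarith

end Crest.Agent.R128.Lam0
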