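import Crest.Agent.R128.ValNum
import Crest.Agent.R128.BVP8
import Crest.Agent.R128.Lam0D

/-!
Row 128, node V3-CORE, SHADOW half (helper334).
-/

set_option autoImplicit false

open Finset

namespace Crest.Agent.R128.CoreB334

open Crest.Agent.R128.TreeSum Crest.Agent.R128.BVP Crest.Agent.R128.Val

/-- the segment `[0, N]` of the base orbit: exponents `ex b p m = logb b (W p m)` -/
structure Seg (b : ℝ) (N : ℕ) (a p : ℕ → ℝ) : Prop where
  hb : 10000 ≤ b
  hN : 400 ≤ N
  p0 : p 0 = 0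
  p1 : p 1 = 1
  hrec : ∀ m, p (m + 2) = a (m + 1) * p (m + 1) - p m
  hA : ∀ m, |a m| + 2 ≤ b ^ 2
  cl : ∀ m ∈ Icc 1 400, 2 * b ≤ |a m|
  v2 : ∀ i j, i ≤ j → j ≤ N → 99 / 100 * ex b p i - 3 ≤ ex b p j
  v3 : ∑ j ∈ range (N + 1), b ^ (-(1 / 100 * ex b p j)) ≤ b

section base

variable {b : ℝ} {a p : ℕ → ℝ}

theorem fldp (p0 : p 0 = 0) (p1 : p 1 = 1) (hrec : ∀ m, p (m + 2) = a (m + 1) * p (m + 1) - p m) :
    ∀ m, fld (fun m => a (m + 1)) (0, 1) m = (p m, p (m + 1)) := by
  intro m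
  induction m with
  | zero => rw [p0, p1]; rfl
  | succ m ih =>
    show stp (a (m + 1)) (fld _ _ m) = _
    rw [ih]
    unfold stp
    simp only [hrec]

theorem Wpos (p0 : p 0 = 0) (p1 : p 1 = 1) (hrec : ∀ m, p (m + 2) = a (m + 1) * p (m + 1) - p m)
    (m : ℕ) : 0 < W p m := by
  have h := (fld_isField (fun m => a (m + 1)) (0, 1)).pos (Nat.zero_le m) (by
    show 0 < nn ((0 : ℝ), (1 : ℝ))
    unfold nn
    norm_num)
  rw [fldp p0 p1 hrec m] at h
  exact h

theorem Weq (hb : 10000 ≤ b) (p0 : p 0 = 0) (p1 : p 1 = 1)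
    (hrec : ∀ m, p (m + 2) = a (m + 1) * p (m + 1) - p m) (m : ℕ) : W p m = b ^ ex b p m := by
  unfold ex
  rw [Real.rpow_logb (by linarith) (by linarith) (Wpos p0 p1 hrec m)]

theorem exle (hb : 10000 ≤ b) (p0 : p 0 = 0) (p1 : p 1 = 1)
    (hrec : ∀ m, p (m + 2) = a (m + 1) * p (m + 1) - p m) {i j : ℕ} {x : ℝ}
    (h : W p i ≤ b ^ x * W p j) : ex b p i ≤ x + ex b p j := by
  rw [Weq hb p0 p1 hrec, Weq hb p0 p1 hrec, ← Real.rpow_add (by linarith)] at h
  exact (Real.rpow_le_rpow_left_iff (by linarith)).mp h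

theorem Wsucc (hrec : ∀ m, p (m + 2) = a (m + 1) * p (m + 1) - p m) (m : ℕ) :
    W p (m + 1) ≤ (|a (m + 1)| + 2) * W p m := by
  have := nn_stp_le (a (m + 1)) (p m, p (m + 1))
  have e : stp (a (m + 1)) (p m, p (m + 1)) = (p (m + 1), p (m + 2)) := by
    unfold stp; simp only [hrec]
  rw [e] at this
  exact this

theorem Wpred (hrec : ∀ m, p (m + 2) = a (m + 1) * p (m + 1) - p m) (m : ℕ) :
    W p m ≤ (|a (m + 1)| + 2) * W p (m + 1) := by
  have := nn_le_stp (a (m + 1)) (p m, p (m + 1))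
  have e : stp (a (m + 1)) (p m, p (m + 1)) = (p (m + 1), p (m + 2)) := by
    unfold stp; simp only [hrec]
  rw [e] at this
  exact this

theorem exup (hb : 10000 ≤ b) (p0 : p 0 = 0) (p1 : p 1 = 1)
    (hrec : ∀ m, p (m + 2) = a (m + 1) * p (m + 1) - p m) (hA : ∀ m, |a m| + 2 ≤ b ^ 2) (m : ℕ) :
    ex b p (m + 1) ≤ ex b p m + 2 := by
  have h1 := Wsucc hrec m
  have h3 : W p (m + 1) ≤ b ^ (2 : ℝ) * W p m := by
    rw [Real.rpow_two]
    exact h1.trans (mul_le_mul_of_nonneg_right (hA _) (W_nonneg p m))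
  have := exle hb p0 p1 hrec h3
  linarith

theorem exdn (hb : 10000 ≤ b) (p0 : p 0 = 0) (p1 : p 1 = 1)
    (hrec : ∀ m, p (m + 2) = a (m + 1) * p (m + 1) - p m) (hA : ∀ m, |a m| + 2 ≤ b ^ 2) (m : ℕ) :
    ex b p m ≤ ex b p (m + 1) + 2 := by
  have h1 := Wpred hrec m
  have h3 : W p m ≤ b ^ (2 : ℝ) * W p (m + 1) := by
    rw [Real.rpow_two]
    exact h1.trans (mul_le_mul_of_nonneg_right (hA _) (W_nonneg p (m + 1)))
  have := exle hb p0 p1 hrec h3
  linarith

theorem exzero (hb : 10000 ≤ b) (p0 : p 0 = 0) (p1 : p 1 = 1) : ex b p 0 = 0 := by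
  unfold ex
  have : W p 0 = 1 := by
    unfold W nn
    rw [p0, p1]
    simp
  rw [this, Real.logb_one]

theorem ratio (hb : 10000 ≤ b) (p0 : p 0 = 0)
    (hrec : ∀ m, p (m + 2) = a (m + 1) * p (m + 1) - p m) {L : ℕ}
    (cl : ∀ m ∈ Icc 1 L, 2 * b ≤ |a m|) : ∀ m ≤ L, b * |p m| ≤ |p (m + 1)| := by
  intro m
  induction m with
  | zero => intro _; rw [p0]; simp
  | succ m ih =>
    intro hm
    have h1 := ih (by omega)
    have h2 := hrec m
    have h3 := cl (m + 1) (Finset.mem_Icc.mpr ⟨by omega, hm⟩)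
    show b * |p (m + 1)| ≤ |p (m + 2)|
    rw [h2]
    have h4 : |a (m + 1)| * |p (m + 1)| - |p m| ≤ |a (m + 1) * p (m + 1) - p m| := by
      rw [← abs_mul]
      exact abs_sub_abs_le_abs_sub _ _
    have h5 : |p m| ≤ |p (m + 1)| := by
      have := abs_nonneg (p m)
      nlinarith
    have h6 := abs_nonneg (p (m + 1))
    nlinarith

theorem cleanstep (hb : 10000 ≤ b) (p0 : p 0 = 0)
    (hrec : ∀ m, p (m + 2) = a (m + 1) * p (m + 1) - p m) {L : ℕ}
    (cl : ∀ m ∈ Icc 1 L, 2 * b ≤ |a m|) {m : ℕ} (hm : m < L) :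
    (|a (m + 1)| + 2) * W p m ≤ 5 / 4 * W p (m + 1) := by
  have h1 := ratio hb p0 hrec cl m hm.le
  have h2 := hrec m
  have h3 := cl (m + 1) (Finset.mem_Icc.mpr ⟨by omega, by omega⟩)
  have h4 : |a (m + 1)| * |p (m + 1)| - |p m| ≤ |a (m + 1) * p (m + 1) - p m| := by
    rw [← abs_mul]
    exact abs_sub_abs_le_abs_sub _ _
  rw [← h2] at h4
  have h5 : 100 * |p m| ≤ |p (m + 1)| := by
    have := abs_nonneg (p m)
    nlinarith
  have h6 := abs_nonneg (p (m + 1))
  have h7 := W_le_add p m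
  have h8 : |p (m + 2)| ≤ W p (m + 1) := abs_succ_le_W p (m + 1)
  have h9 : 0 ≤ |a (m + 1)| := abs_nonneg _
  have h10 : (|a (m + 1)| + 2) * W p m ≤ (|a (m + 1)| + 2) * (101 / 100 * |p (m + 1)|) := by
    apply mul_le_mul_of_nonneg_left _ (by linarith)
    linarith
  have h11 : 200 * |p (m + 1)| ≤ |a (m + 1)| * |p (m + 1)| := by
    apply mul_le_mul_of_nonneg_right _ h6
    linarith
  nlinarith

theorem cleanex (hb : 10000 ≤ b) (p0 : p 0 = 0) (p1 : p 1 = 1)
    (hrec : ∀ m, p (m + 2) = a (m + 1) * p (m + 1) - p m) {L : ℕ}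
    (cl : ∀ m ∈ Icc 1 L, 2 * b ≤ |a m|) {m : ℕ} (hm : m < L) :
    ex b p m + 1 ≤ ex b p (m + 1) := by
  have h1 := cleanstep hb p0 hrec cl hm
  have h3 := cl (m + 1) (Finset.mem_Icc.mpr ⟨by omega, by omega⟩)
  have h4 : W p m ≤ b ^ (-1 : ℝ) * W p (m + 1) := by
    have hW := W_nonneg p m
    have h5 : b * W p m ≤ W p (m + 1) := by nlinarith
    rw [Real.rpow_neg_one, inv_mul_eq_div, le_div_iff₀ (by linarith)]
    linarith
  have := exle hb p0 p1 hrec h4
  linarith

theorem clean (hb : 10000 ≤ b) (p0 : p 0 = 0) (p1 : p 1 = 1)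
    (hrec : ∀ m, p (m + 2) = a (m + 1) * p (m + 1) - p m) {L : ℕ}
    (cl : ∀ m ∈ Icc 1 L, 2 * b ≤ |a m|) {i j : ℕ} (hij : i ≤ j) (hj : j ≤ L) :
    ex b p i + ((j - i : ℕ) : ℝ) ≤ ex b p j := by
  induction j, hij using Nat.le_induction with
  | base => simp
  | succ j hij ih =>
    have h1 := ih (by omega)
    have h2 := cleanex hb p0 p1 hrec cl (by omega : j < L)
    have h3 : ((j + 1 - i : ℕ) : ℝ) = ((j - i : ℕ) : ℝ) + 1 := by
      rw [Nat.sub_add_comm hij]; push_cast; ring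
    rw [h3]; linarith

end base

section seg

variable {b : ℝ} {N : ℕ} {a p : ℕ → ℝ}

theorem Seg.b0 (S : Seg b N a p) : 0 < b := by linarith [S.hb]

theorem Seg.W_pos (S : Seg b N a p) (m : ℕ) : 0 < W p m := Wpos S.p0 S.p1 S.hrec m

theorem Seg.W_eq (S : Seg b N a p) (m : ℕ) : W p m = b ^ ex b p m := Weq S.hb S.p0 S.p1 S.hrec m

theorem Seg.ub (S : Seg b N a p) (m : ℕ) : ex b p m ≤ 2 * m := by
  induction m with
  | zero => simp [exzero S.hb S.p0 S.p1]
  | succ m ih =>
    have := exup S.hb S.p0 S.p1 S.hrec S.hA m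
    push_cast
    linarith

theorem Seg.clean (S : Seg b N a p) {i j : ℕ} (hij : i ≤ j) (hj : j ≤ 400) :
    ex b p i + ((j - i : ℕ) : ℝ) ≤ ex b p j := CoreB334.clean S.hb S.p0 S.p1 S.hrec S.cl hij hj

theorem Seg.lb (S : Seg b N a p) {j : ℕ} (hj : j ≤ 400) : (j : ℝ) ≤ ex b p j := by
  have h := S.clean (Nat.zero_le j) hj
  rw [exzero S.hb S.p0 S.p1] at h
  simpa using h

/-- after a clean time `i ≤ 30` the exponents never come back -/
theorem Seg.after (S : Seg b N a p) {i j : ℕ} (hi : i ≤ 30) (hj : 400 ≤ j) (hjN : j ≤ N) :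
    ex b p i + 300 ≤ ex b p j := by
  have h1 := S.clean (by omega : i ≤ 400) le_rfl
  have h2 : (370 : ℝ) ≤ ((400 - i : ℕ) : ℝ) := by
    have : 370 ≤ 400 - i := by omega
    exact_mod_cast this
  have h3 := S.v2 400 j hj hjN
  have h4 := S.ub i
  have h5 : (i : ℝ) ≤ 30 := by exact_mod_cast hi
  linarith

theorem Seg.mono30 (S : Seg b N a p) {i j : ℕ} (hi : i ≤ 30) (hij : i ≤ j) (hjN : j ≤ N) :
    ex b p i ≤ ex b p j := by
  rcases Nat.lt_or_ge j 400 with h | h
  · have h1 := S.clean hij h.le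
    have : (0 : ℝ) ≤ ((j - i : ℕ) : ℝ) := Nat.cast_nonneg _
    linarith
  · have := S.after hi h hjN
    linarith

theorem Seg.nonneg (S : Seg b N a p) {j : ℕ} (hjN : j ≤ N) : 0 ≤ ex b p j := by
  have := S.mono30 (by norm_num : 0 ≤ 30) (Nat.zero_le j) hjN
  rwa [exzero S.hb S.p0 S.p1] at this

theorem Seg.big (S : Seg b N a p) {j : ℕ} (hj : 30 < j) (hjN : j ≤ N) : 31 ≤ ex b p j := by
  rcases Nat.lt_or_ge j 400 with h | h
  · have h1 := S.lb h.le
    have : (31 : ℝ) ≤ (j : ℝ) := by exact_mod_cast hj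
    linarith
  · have h1 := S.after (by norm_num : 0 ≤ 30) h hjN
    rw [exzero S.hb S.p0 S.p1] at h1
    linarith

theorem Seg.sum_le (S : Seg b N a p) (s : Finset ℕ) (hs : s ⊆ range (N + 1)) :
    ∑ j ∈ s, b ^ (-(1 / 100 * ex b p j)) ≤ b := by
  refine le_trans ?_ S.v3
  exact Finset.sum_le_sum_of_subset_of_nonneg hs fun j _ _ => Real.rpow_nonneg S.b0.le _

theorem Seg.mono (S : Seg b N a p) {x y : ℝ} (h : x ≤ y) : b ^ x ≤ b ^ y :=
  Real.rpow_le_rpow_of_exponent_le (by linarith [S.hb]) h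

theorem Seg.pow_inv (S : Seg b N a p) (k : ℕ) : (b⁻¹) ^ k = b ^ (-(k : ℝ)) := by
  rw [Real.rpow_neg S.b0.le, Real.rpow_natCast, inv_pow]

theorem Seg.sq_rpow (S : Seg b N a p) (x : ℝ) : (b ^ x) ^ 2 = b ^ (2 * x) := by
  rw [← Real.rpow_natCast (b ^ x) 2, ← Real.rpow_mul S.b0.le]
  congr 1
  push_cast
  ring

theorem Seg.small (S : Seg b N a p) {x : ℝ} {k : ℕ} (h : x ≤ -(k : ℝ)) :
    b ^ x ≤ (1 / 10000) ^ k := by
  refine (S.mono h).trans ?_
  rw [← S.pow_inv]
  apply pow_le_pow_left₀ (by have := S.b0; positivity)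
  rw [inv_eq_one_div]
  exact one_div_le_one_div_of_le (by norm_num) S.hb

theorem Seg.term_le (S : Seg b N a p) (j : ℕ) :
    (|a (j + 1)| + 2) / (W p j * W p (j + 1)) ≤ b ^ (4 - 2 * ex b p j) := by
  have hb0 := S.b0
  have h1 := Wpred S.hrec j
  have h2 := S.hA (j + 1)
  have hWj := S.W_pos j
  have hWj' := S.W_pos (j + 1)
  have h3 : 0 ≤ |a (j + 1)| := abs_nonneg _
  have h4 : W p j ≤ b ^ 2 * W p (j + 1) := h1.trans (mul_le_mul_of_nonneg_right h2 hWj'.le)
  have h5 : b ^ (4 - 2 * ex b p j) = b ^ 4 / W p j ^ 2 := by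
    rw [Real.rpow_sub hb0, S.W_eq j]
    congr 1
    · exact_mod_cast Real.rpow_natCast b 4
    · rw [S.sq_rpow]
  rw [h5, div_le_div_iff₀ (by positivity) (by positivity)]
  calc (|a (j + 1)| + 2) * W p j ^ 2 ≤ b ^ 2 * (W p j * (b ^ 2 * W p (j + 1))) := by
        rw [sq (W p j)]
        gcongr
    _ = b ^ 4 * (W p j * W p (j + 1)) := by ring

/-- norm of the fundamental field -/
theorem Seg.fundW (S : Seg b N a p) {j m : ℕ} (hjm : j ≤ m) :
    nn (fund a j m, fund a j (m + 1)) ≤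
      W p m / W p j * (1 + (W p j / W p m) ^ 2 + W p j ^ 2 * wtt a p j m) := by
  obtain ⟨i, rfl⟩ := Nat.exists_eq_add_of_le hjm
  set c : ℕ → ℝ := fun i => a (j + i + 1) with hc
  set w : ℕ → ℝ × ℝ := fun i => (p (j + i), p (j + i + 1)) with hw
  set z : ℕ → ℝ × ℝ := fun i => (fundAux a j i, fundAux a j (i + 1)) with hz
  have hwF : IsField c w := by
    intro i
    simp only [hw, hc]
    unfold stp
    simp only
    have := S.hrec (j + i)
    show (p (j + i + 1), p (j + i + 2)) = _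
    rw [this]
  have hzF : IsField c z := fun i => rfl
  have h0 : 0 < nn (w 0) := S.W_pos j
  have h := tree_ineq hwF hzF (Nat.zero_le i) h0
  have hz0 : nn (z 0) = 1 := by
    show nn ((0 : ℝ), (1 : ℝ)) = 1
    unfold nn
    norm_num
  have e1 : z i = (fund a j (j + i), fund a j (j + i + 1)) := by
    simp only [hz]
    unfold fund
    rw [Nat.add_sub_cancel_left]
    have : j + i + 1 - j = i + 1 := by omega
    rw [this]
  have e2 : wt c w 0 i = wtt a p j (j + i) := by
    unfold wt wtt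
    have : ∑ l ∈ Ico j (j + i), (|a (l + 1)| + 2) / (W p l * W p (l + 1)) =
        ∑ l ∈ Ico 0 i, (|a (l + j + 1)| + 2) / (W p (l + j) * W p (l + j + 1)) := by
      rw [Finset.sum_Ico_add' (fun l => (|a (l + 1)| + 2) / (W p l * W p (l + 1))) 0 i j]
      rw [Nat.zero_add, Nat.add_comm i j]
    rw [this]
    refine Finset.sum_congr rfl fun l _ => ?_
    simp only [hc, hw]
    rw [Nat.add_comm l j]
    rfl
  rw [hz0, one_mul, e1, e2] at h
  have hW1 : nn (w i) = W p (j + i) := rfl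
  have hW0 : nn (w 0) = W p j := rfl
  rw [hW1, hW0] at h
  have p1 := S.W_pos j
  have p2 := S.W_pos (j + i)
  refine h.trans (le_of_eq ?_)
  field_simp

theorem Seg.T_late (S : Seg b N a p) {j m : ℕ} (hjm : j ≤ m) (hm : m ≤ N) :
    1 + (W p j / W p m) ^ 2 + W p j ^ 2 * wtt a p j m ≤ b ^ (12 + 3 / 100 * ex b p j) := by
  have hb := S.hb
  have hb0 := S.b0
  have hu := S.nonneg (hjm.trans hm)
  have t1 : (W p j / W p m) ^ 2 ≤ b ^ (11 + 3 / 100 * ex b p j) := by
    have h := S.v2 j m hjm hm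
    rw [S.W_eq j, S.W_eq m, ← Real.rpow_sub hb0, S.sq_rpow]
    apply S.mono
    linarith
  have t2 : W p j ^ 2 * wtt a p j m ≤ b ^ (11 + 3 / 100 * ex b p j) := by
    have hpt : ∀ i ∈ Ico j m, W p j ^ 2 * ((|a (i + 1)| + 2) / (W p i * W p (i + 1))) ≤
        b ^ (10 + 3 / 100 * ex b p j) * b ^ (-(1 / 100 * ex b p i)) := by
      intro i hi
      rw [Finset.mem_Ico] at hi
      have h1 := S.term_le i
      have h2 := S.v2 j i hi.1 (by omega)
      calc W p j ^ 2 * ((|a (i + 1)| + 2) / (W p i * W p (i + 1)))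
          ≤ W p j ^ 2 * b ^ (4 - 2 * ex b p i) := by gcongr
        _ ≤ _ := by
          rw [S.W_eq j, S.sq_rpow, ← Real.rpow_add hb0, ← Real.rpow_add hb0]
          apply S.mono
          linarith
    unfold wtt
    rw [Finset.mul_sum]
    refine (Finset.sum_le_sum hpt).trans ?_
    rw [← Finset.mul_sum]
    have g2 := S.sum_le (Ico j m) (by
      intro i hi
      rw [Finset.mem_Ico] at hi
      rw [Finset.mem_range]
      omega)
    calc b ^ (10 + 3 / 100 * ex b p j) * ∑ i ∈ Ico j m, b ^ (-(1 / 100 * ex b p i))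
        ≤ b ^ (10 + 3 / 100 * ex b p j) * b := by gcongr
      _ = b ^ (10 + 3 / 100 * ex b p j) * b ^ (1 : ℝ) := by rw [Real.rpow_one]
      _ = b ^ (11 + 3 / 100 * ex b p j) := by
        rw [← Real.rpow_add hb0]
        congr 1
        ring
  have t3 : 1 ≤ b ^ (11 + 3 / 100 * ex b p j) := by
    apply Real.one_le_rpow (by linarith)
    linarith
  have t4 : 3 * b ^ (11 + 3 / 100 * ex b p j) ≤ b ^ (12 + 3 / 100 * ex b p j) := by
    have e : b ^ (12 + 3 / 100 * ex b p j) = b ^ (1 : ℝ) * b ^ (11 + 3 / 100 * ex b p j) := by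
      rw [← Real.rpow_add hb0]
      congr 1
      ring
    rw [e, Real.rpow_one]
    apply mul_le_mul_of_nonneg_right (by linarith) (by linarith)
  linarith

theorem Seg.T_early (S : Seg b N a p) {j m : ℕ} (hj : j ≤ 30) (hjm : j ≤ m) (hm : m ≤ N) :
    1 + (W p j / W p m) ^ 2 + W p j ^ 2 * wtt a p j m ≤ 4 := by
  have hb := S.hb
  have hb0 := S.b0
  have hWj := S.W_pos j
  have hWm := S.W_pos m
  have t1 : (W p j / W p m) ^ 2 ≤ 1 := by
    have h := S.mono30 hj hjm hm
    have h2 : W p j ≤ W p m := by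
      rw [S.W_eq j, S.W_eq m]
      exact S.mono h
    have h3 : W p j / W p m ≤ 1 := by
      rw [div_le_one hWm]; exact h2
    have h4 : 0 ≤ W p j / W p m := by positivity
    nlinarith
  have t2 : W p j ^ 2 * wtt a p j m ≤ 2 := by
    have hpt : ∀ i ∈ Ico j m, W p j ^ 2 * ((|a (i + 1)| + 2) / (W p i * W p (i + 1))) ≤
        5 / 4 * (if j ≤ i then (b⁻¹) ^ (i - j) else 0) +
          b ^ (-2 : ℝ) * b ^ (-(1 / 100 * ex b p i)) := by
      intro i hi
      rw [Finset.mem_Ico] at hi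
      rw [if_pos hi.1]
      have hWi := S.W_pos i
      have hWi' := S.W_pos (i + 1)
      rcases Nat.lt_or_ge i 400 with h | h
      · have h2 := cleanstep S.hb S.p0 S.hrec S.cl h
        have h3 : (|a (i + 1)| + 2) / (W p i * W p (i + 1)) ≤ 5 / 4 / W p i ^ 2 := by
          rw [div_le_div_iff₀ (by positivity) (by positivity)]
          nlinarith
        have h4 : W p j ^ 2 * (5 / 4 / W p i ^ 2) = 5 / 4 * b ^ (2 * ex b p j - 2 * ex b p i) := by
          rw [Real.rpow_sub hb0, ← S.sq_rpow, ← S.sq_rpow, ← S.W_eq, ← S.W_eq]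
          ring
        have h5 : b ^ (2 * ex b p j - 2 * ex b p i) ≤ (b⁻¹) ^ (i - j) := by
          rw [S.pow_inv]
          apply S.mono
          have h6 := S.clean hi.1 h.le
          have h7 : (0 : ℝ) ≤ ((i - j : ℕ) : ℝ) := Nat.cast_nonneg _
          linarith
        calc W p j ^ 2 * ((|a (i + 1)| + 2) / (W p i * W p (i + 1)))
            ≤ W p j ^ 2 * (5 / 4 / W p i ^ 2) := by gcongr
          _ = 5 / 4 * b ^ (2 * ex b p j - 2 * ex b p i) := h4
          _ ≤ 5 / 4 * (b⁻¹) ^ (i - j) := by gcongr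
          _ ≤ _ := by
            have : 0 ≤ b ^ (-2 : ℝ) * b ^ (-(1 / 100 * ex b p i)) := by positivity
            linarith
      · have h2 := S.term_le i
        have h3 := S.after hj h (by omega)
        have h30 := S.nonneg (by omega : j ≤ N)
        have h4 : W p j ^ 2 * b ^ (4 - 2 * ex b p i) ≤ b ^ (-2 : ℝ) * b ^ (-(1 / 100 * ex b p i)) := by
          rw [S.W_eq, S.sq_rpow, ← Real.rpow_add hb0, ← Real.rpow_add hb0]
          apply S.mono
          have h31 := S.ub j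
          have h32 : (j : ℝ) ≤ 30 := by exact_mod_cast hj
          linarith
        calc W p j ^ 2 * ((|a (i + 1)| + 2) / (W p i * W p (i + 1)))
            ≤ W p j ^ 2 * b ^ (4 - 2 * ex b p i) := by gcongr
          _ ≤ b ^ (-2 : ℝ) * b ^ (-(1 / 100 * ex b p i)) := h4
          _ ≤ _ := by
            have : 0 ≤ 5 / 4 * (b⁻¹) ^ (i - j) := by positivity
            linarith
    unfold wtt
    rw [Finset.mul_sum]
    refine (Finset.sum_le_sum hpt).trans ?_
    rw [Finset.sum_add_distrib, ← Finset.mul_sum, ← Finset.mul_sum, ← Finset.sum_filter]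
    have g1 := geom_le (by linarith : 16 ≤ b) (Ico j m) j
    have g2 := S.sum_le (Ico j m) (by
      intro i hi
      rw [Finset.mem_Ico] at hi
      rw [Finset.mem_range]
      omega)
    have g3 : b ^ (-2 : ℝ) * b = b ^ (-1 : ℝ) := by
      conv_lhs => rw [← Real.rpow_one b, ← Real.rpow_mul hb0.le, ← Real.rpow_add hb0]
      norm_num
    have g4 : b ^ (-1 : ℝ) ≤ (1 / 10000) ^ 1 := S.small (by norm_num)
    have p2 : 0 ≤ b ^ (-2 : ℝ) := by positivity
    have g5 := mul_le_mul_of_nonneg_left g2 p2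
    rw [g3] at g5
    rw [pow_one] at g4
    linarith
  linarith

/-- the comparison weight at index `m`: `|p m| ≤ Wh m`, `Wh m ≤ W m` (`m ≤ N`), `Wh (m+1) ≤ W m` -/
noncomputable def Wh (p : ℕ → ℝ) (N m : ℕ) : ℝ := if m ≤ N then min (W p (m - 1)) (W p m) else W p (m - 1)

theorem Seg.Wh_pos (S : Seg b N a p) (m : ℕ) : 0 < Wh p N m := by
  unfold Wh
  split_ifs
  · exact lt_min (S.W_pos _) (S.W_pos _)
  · exact S.W_pos _

theorem Wh_le_pred (p : ℕ → ℝ) (N m : ℕ) : Wh p N m ≤ W p (m - 1) := by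
  unfold Wh
  split_ifs
  · exact min_le_left _ _
  · exact le_rfl

theorem Wh_le (p : ℕ → ℝ) {N m : ℕ} (hm : m ≤ N) : Wh p N m ≤ W p m := by
  unfold Wh
  rw [if_pos hm]
  exact min_le_right _ _

theorem Seg.p_le_Wh (S : Seg b N a p) (m : ℕ) : |p m| ≤ Wh p N m := by
  have h1 : |p m| ≤ W p (m - 1) := by
    rcases Nat.eq_zero_or_pos m with h | h
    · subst h
      rw [S.p0, abs_zero]
      exact (S.W_pos _).le
    · exact abs_le_W_pred p h
  unfold Wh
  split_ifs
  · exact le_min h1 (abs_le_W p m)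
  · exact h1

/-- bound for the fundamental solution, given a bound `T` for the bracket -/
theorem Seg.fund_le (S : Seg b N a p) {j m : ℕ} {T : ℝ} (hjm : j < m) (hm : m ≤ N + 1)
    (hT : ∀ i, j ≤ i → i ≤ N → 1 + (W p j / W p i) ^ 2 + W p j ^ 2 * wtt a p j i ≤ T) :
    |fund a j m| * W p j ≤ T * Wh p N m := by
  have hWj := S.W_pos j
  have h1 : |fund a j m| * W p j ≤ T * W p (m - 1) := by
    have h2 := S.fundW (by omega : j ≤ m - 1)
    have h3 := hT (m - 1) (by omega) (by omega)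
    have h4 := abs_snd_le (fund a j (m - 1), fund a j (m - 1 + 1))
    simp only at h4
    rw [Nat.sub_add_cancel (by omega : 1 ≤ m)] at h4 h2
    have hW := S.W_pos (m - 1)
    calc |fund a j m| * W p j ≤ (W p (m - 1) / W p j *
          (1 + (W p j / W p (m - 1)) ^ 2 + W p j ^ 2 * wtt a p j (m - 1))) * W p j :=
          mul_le_mul_of_nonneg_right (h4.trans h2) hWj.le
      _ = (1 + (W p j / W p (m - 1)) ^ 2 + W p j ^ 2 * wtt a p j (m - 1)) * W p (m - 1) := by
          field_simp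
      _ ≤ T * W p (m - 1) := mul_le_mul_of_nonneg_right h3 hW.le
  unfold Wh
  split_ifs with h
  · have h5 : |fund a j m| * W p j ≤ T * W p m := by
      have h2 := S.fundW (by omega : j ≤ m)
      have h3 := hT m (by omega) h
      have h4 := abs_fst_le (fund a j m, fund a j (m + 1))
      simp only at h4
      have hW := S.W_pos m
      calc |fund a j m| * W p j ≤ (W p m / W p j *
            (1 + (W p j / W p m) ^ 2 + W p j ^ 2 * wtt a p j m)) * W p j :=
            mul_le_mul_of_nonneg_right (h4.trans h2) hWj.le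
        _ = (1 + (W p j / W p m) ^ 2 + W p j ^ 2 * wtt a p j m) * W p m := by
            field_simp
        _ ≤ T * W p m := mul_le_mul_of_nonneg_right h3 hW.le
    rcases min_choice (W p (m - 1)) (W p m) with e | e
    · rw [e]; exact h1
    · rw [e]; exact h5
  · exact h1

theorem Seg.fund_early (S : Seg b N a p) {j m : ℕ} (hj : j ≤ 30) (hjm : j < m) (hm : m ≤ N + 1) :
    |fund a j m| * W p j ≤ 4 * Wh p N m :=
  S.fund_le hjm hm fun _ h1 h2 => S.T_early hj h1 h2

theorem Seg.fund_late (S : Seg b N a p) {j m : ℕ} (hjm : j < m) (hm : m ≤ N + 1) :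
    |fund a j m| * W p j ≤ b ^ (12 + 3 / 100 * ex b p j) * Wh p N m :=
  S.fund_le hjm hm fun _ h1 h2 => S.T_late h1 h2

/-- **the sum lemma** -/
theorem Seg.sum_fund (S : Seg b N a p) {M ρ : ℝ} {D : ℕ → ℝ} (hM0 : 0 ≤ M) (hM : 100000 * M ≤ b ^ 2)
    (hρ0 : 0 ≤ ρ) (hρ : ∀ j ≤ N, ρ * b ^ (104 / 100 * ex b p j) ≤ b ^ (-20 : ℝ))
    (hD0 : ∀ j, 0 ≤ D j)
    (hD1 : ∀ j, 1 ≤ j → j ≤ 30 → D j ≤ 5 * b ^ (-ex b p j) + ρ * b ^ ex b p j)
    (hD2 : ∀ j, 30 < j → j ≤ N → D j ≤ 3 * b ^ (6 - 90 / 100 * ex b p j) + ρ * b ^ ex b p j) :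
    ∀ m ≤ N + 1, ∑ j ∈ Ico 1 m, |fund a j m| * (M * D j) * Wh p N j ≤ 1 / 32 * Wh p N m := by
  intro m hm
  have hb := S.hb
  have hb0 := S.b0
  have hN := S.hN
  have hMb : M ≤ b ^ (2 : ℝ) := by
    rw [Real.rpow_two]
    have : 0 ≤ M := hM0
    linarith
  have hWm := S.Wh_pos m
  have hpt : ∀ j ∈ Ico 1 m, |fund a j m| * (M * D j) * Wh p N j ≤
      (1 / 4000 * (if 1 ≤ j then (b⁻¹) ^ (j - 1) else 0) + b ^ (-4 : ℝ) * b ^ (-(1 / 100 * ex b p j))) *
        Wh p N m := by
    intro j hj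
    rw [Finset.mem_Ico] at hj
    have hjN : j ≤ N := by omega
    rw [if_pos hj.1]
    have hWj := S.W_pos j
    have hu := S.nonneg hjN
    have hρj := hρ j hjN
    have hDj := hD0 j
    rcases Nat.lt_or_ge 30 j with h | h
    · have h1 := S.fund_late hj.2 hm
      have h2 := hD2 j h hjN
      have h3 := Wh_le p hjN
      have h31 := S.big h hjN
      have h4 : b ^ (12 + 3 / 100 * ex b p j) * (M * D j) ≤ b ^ (-4 : ℝ) * b ^ (-(1 / 100 * ex b p j)) := by
        have e1 : b ^ (12 + 3 / 100 * ex b p j) * (b ^ (2 : ℝ) * (3 * b ^ (6 - 90 / 100 * ex b p j))) ≤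
            1 / 2 * (b ^ (-4 : ℝ) * b ^ (-(1 / 100 * ex b p j))) := by
          have e2 : b ^ (12 + 3 / 100 * ex b p j) * (b ^ (2 : ℝ) * (3 * b ^ (6 - 90 / 100 * ex b p j))) =
              3 * b ^ (20 - 87 / 100 * ex b p j) := by
            have : (20 : ℝ) - 87 / 100 * ex b p j =
                (12 + 3 / 100 * ex b p j) + (2 + (6 - 90 / 100 * ex b p j)) := by ring
            rw [this, Real.rpow_add hb0 (12 + 3 / 100 * ex b p j) _, Real.rpow_add hb0 2 _]
            ring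
          rw [e2]
          have e3 : b ^ (20 - 87 / 100 * ex b p j) ≤
              b ^ (-1 : ℝ) * (b ^ (-4 : ℝ) * b ^ (-(1 / 100 * ex b p j))) := by
            rw [← Real.rpow_add hb0, ← Real.rpow_add hb0]
            apply S.mono
            linarith
          have e4 : b ^ (-1 : ℝ) ≤ (1 / 10000) ^ 1 := S.small (by norm_num)
          rw [pow_one] at e4
          have e5 : 0 ≤ b ^ (-4 : ℝ) * b ^ (-(1 / 100 * ex b p j)) := by positivity
          have e6 := mul_le_mul_of_nonneg_right e4 e5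
          linarith
        have e7 : b ^ (12 + 3 / 100 * ex b p j) * (b ^ (2 : ℝ) * (ρ * b ^ ex b p j)) ≤
            1 / 2 * (b ^ (-4 : ℝ) * b ^ (-(1 / 100 * ex b p j))) := by
          have e8 : b ^ (12 + 3 / 100 * ex b p j) * (b ^ (2 : ℝ) * (ρ * b ^ ex b p j)) =
              b ^ (14 - 1 / 100 * ex b p j) * (ρ * b ^ (104 / 100 * ex b p j)) := by
            have : b ^ (14 - 1 / 100 * ex b p j) * (ρ * b ^ (104 / 100 * ex b p j)) =
                ρ * b ^ ((14 - 1 / 100 * ex b p j) + 104 / 100 * ex b p j) := by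
              rw [Real.rpow_add hb0]; ring
            rw [this]
            have : (14 - 1 / 100 * ex b p j) + 104 / 100 * ex b p j =
                (12 + 3 / 100 * ex b p j) + (2 + ex b p j) := by ring
            rw [this, Real.rpow_add hb0 (12 + 3 / 100 * ex b p j) _, Real.rpow_add hb0 2 _]
            ring
          rw [e8]
          have e9 : b ^ (14 - 1 / 100 * ex b p j) * (ρ * b ^ (104 / 100 * ex b p j)) ≤
              b ^ (14 - 1 / 100 * ex b p j) * b ^ (-20 : ℝ) := by gcongr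
          refine e9.trans ?_
          have e10 : b ^ (14 - 1 / 100 * ex b p j) * b ^ (-20 : ℝ) ≤
              b ^ (-1 : ℝ) * (b ^ (-4 : ℝ) * b ^ (-(1 / 100 * ex b p j))) := by
            rw [← Real.rpow_add hb0, ← Real.rpow_add hb0, ← Real.rpow_add hb0]
            apply S.mono
            linarith
          have e4 : b ^ (-1 : ℝ) ≤ (1 / 10000) ^ 1 := S.small (by norm_num)
          rw [pow_one] at e4
          have e5 : 0 ≤ b ^ (-4 : ℝ) * b ^ (-(1 / 100 * ex b p j)) := by positivity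
          have e6 := mul_le_mul_of_nonneg_right e4 e5
          linarith
        calc b ^ (12 + 3 / 100 * ex b p j) * (M * D j)
            ≤ b ^ (12 + 3 / 100 * ex b p j) *
              (b ^ (2 : ℝ) * (3 * b ^ (6 - 90 / 100 * ex b p j) + ρ * b ^ ex b p j)) := by gcongr
          _ ≤ b ^ (-4 : ℝ) * b ^ (-(1 / 100 * ex b p j)) := by
            rw [mul_add, mul_add]
            linarith
      calc |fund a j m| * (M * D j) * Wh p N j ≤ |fund a j m| * (M * D j) * W p j := by gcongr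
        _ = (|fund a j m| * W p j) * (M * D j) := by ring
        _ ≤ (b ^ (12 + 3 / 100 * ex b p j) * Wh p N m) * (M * D j) := by gcongr
        _ = (b ^ (12 + 3 / 100 * ex b p j) * (M * D j)) * Wh p N m := by ring
        _ ≤ (b ^ (-4 : ℝ) * b ^ (-(1 / 100 * ex b p j))) * Wh p N m := by gcongr
        _ ≤ _ := by
          apply mul_le_mul_of_nonneg_right _ hWm.le
          have : 0 ≤ 1 / 4000 * (b⁻¹) ^ (j - 1) := by positivity
          linarith
    · have h1 := S.fund_early h hj.2 hm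
      have h2 := hD1 j hj.1 h
      have h3 : b * Wh p N j ≤ W p j := by
        have h4 := Wh_le_pred p N j
        have h5 := cleanex S.hb S.p0 S.p1 S.hrec S.cl (by omega : j - 1 < 400)
        rw [Nat.sub_add_cancel hj.1] at h5
        have h6 : b * W p (j - 1) ≤ W p j := by
          rw [S.W_eq (j - 1), S.W_eq j]
          calc b * b ^ ex b p (j - 1) = b ^ (1 + ex b p (j - 1)) := by
                rw [Real.rpow_add hb0, Real.rpow_one]
            _ ≤ _ := S.mono (by linarith)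
        exact (mul_le_mul_of_nonneg_left h4 hb0.le).trans h6
      have hub := S.ub j
      have hj30 : (j : ℝ) ≤ 30 := by exact_mod_cast h
      have hlb := S.lb (by omega : j ≤ 400)
      -- coefficient
      have h4 : 4 * (M * D j) ≤ b *
          (1 / 4000 * (b⁻¹) ^ (j - 1) + b ^ (-4 : ℝ) * b ^ (-(1 / 100 * ex b p j))) := by
        have e1 : 4 * (M * (5 * b ^ (-ex b p j))) ≤ b * (1 / 4000 * (b⁻¹) ^ (j - 1)) := by
          have e2 : b ^ (-ex b p j) ≤ (b⁻¹) ^ j := by
            rw [S.pow_inv]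
            apply S.mono
            linarith
          have e3 : (b⁻¹) ^ j = (b⁻¹) ^ (j - 1) * b⁻¹ := by
            rw [← pow_succ, Nat.sub_add_cancel hj.1]
          have e4 : 0 < (b⁻¹) ^ (j - 1) := by positivity
          calc 4 * (M * (5 * b ^ (-ex b p j))) ≤ 4 * (b ^ 2 / 100000 * (5 * (b⁻¹) ^ j)) := by
                gcongr
                linarith
            _ = b * (1 / 5000 * (b⁻¹) ^ (j - 1)) := by
                rw [e3]
                field_simp
                norm_num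
            _ ≤ _ := by
                gcongr
                norm_num
        have e5 : 4 * (M * (ρ * b ^ ex b p j)) ≤ b * (b ^ (-4 : ℝ) * b ^ (-(1 / 100 * ex b p j))) := by
          have e6 : ρ * b ^ ex b p j ≤ b ^ (-20 : ℝ) := by
            refine le_trans ?_ hρj
            apply mul_le_mul_of_nonneg_left _ hρ0
            apply S.mono
            linarith
          have e7 : 4 * M ≤ b ^ (2 : ℝ) := by
            rw [Real.rpow_two]
            linarith
          calc 4 * (M * (ρ * b ^ ex b p j)) = (4 * M) * (ρ * b ^ ex b p j) := by ring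
            _ ≤ b ^ (2 : ℝ) * b ^ (-20 : ℝ) := by
                have : 0 ≤ ρ * b ^ ex b p j := by positivity
                gcongr
            _ ≤ b ^ (1 : ℝ) * (b ^ (-4 : ℝ) * b ^ (-(1 / 100 * ex b p j))) := by
                rw [← Real.rpow_add hb0, ← Real.rpow_add hb0, ← Real.rpow_add hb0]
                apply S.mono
                linarith
            _ = _ := by rw [Real.rpow_one]
        calc 4 * (M * D j) ≤ 4 * (M * (5 * b ^ (-ex b p j) + ρ * b ^ ex b p j)) := by gcongr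
          _ ≤ _ := by
            rw [mul_add M, mul_add, mul_add b]
            linarith
      have hWhj := S.Wh_pos j
      set c := 1 / 4000 * (b⁻¹) ^ (j - 1) + b ^ (-4 : ℝ) * b ^ (-(1 / 100 * ex b p j)) with hc
      have hkey : b * (|fund a j m| * (M * D j) * Wh p N j) ≤ b * (c * Wh p N m) := by
        calc b * (|fund a j m| * (M * D j) * Wh p N j) = |fund a j m| * (b * Wh p N j) * (M * D j) := by
              ring
          _ ≤ |fund a j m| * W p j * (M * D j) := by gcongr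
          _ ≤ (4 * Wh p N m) * (M * D j) := by gcongr
          _ = (4 * (M * D j)) * Wh p N m := by ring
          _ ≤ (b * c) * Wh p N m := by gcongr
          _ = b * (c * Wh p N m) := by ring
      exact le_of_mul_le_mul_left hkey hb0
  refine (Finset.sum_le_sum hpt).trans ?_
  rw [← Finset.sum_mul]
  apply mul_le_mul_of_nonneg_right _ hWm.le
  rw [Finset.sum_add_distrib, ← Finset.mul_sum, ← Finset.mul_sum, ← Finset.sum_filter]
  have g1 := geom_le (by linarith : 16 ≤ b) (Ico 1 m) 1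
  have g2 := S.sum_le (Ico 1 m) (by
    intro i hi
    rw [Finset.mem_Ico] at hi
    rw [Finset.mem_range]
    omega)
  have g3 : b ^ (-4 : ℝ) * b = b ^ (-3 : ℝ) := by
    conv_lhs => rw [← Real.rpow_one b, ← Real.rpow_mul hb0.le, ← Real.rpow_add hb0]
    norm_num
  have g4 : b ^ (-3 : ℝ) ≤ (1 / 10000) ^ 3 := S.small (by norm_num)
  have p2 : 0 ≤ b ^ (-4 : ℝ) := by positivity
  have g5 := mul_le_mul_of_nonneg_left g2 p2
  rw [g3] at g5
  have g6 : ((1 : ℝ) / 10000) ^ 3 ≤ 1 / 1000 := by norm_num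
  linarith

end seg

end Crest.Agent.R128.CoreB334
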