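import Crest.Agent.R128.CoreB334S
import Crest.Agent.R128.Lam0D

/-!
Row 128, node V3-CORE, SHADOW half (helper334), part 3: strict validity gives `Seg`, final form.
-/

set_option autoImplicit false

open Finset

namespace Crest.Agent.R128.CoreB334

open Crest.Agent.R128.TreeSum Crest.Agent.R128.BVP Crest.Agent.R128.Val Crest.Agent.R128.Lam0

/-- raw hypotheses in natural powers -/
structure Raw (b : ℝ) (L N : ℕ) (a p : ℕ → ℝ) : Prop where
  hb : 10000 ≤ b
  hN : 400 ≤ N
  hL : 400 ≤ L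
  hLb : 4 * (L : ℝ) ≤ b
  p0 : p 0 = 0
  p1 : p 1 = 1
  hrec : ∀ m, p (m + 2) = a (m + 1) * p (m + 1) - p m
  hA : ∀ m, |a m| + 2 ≤ b ^ 2
  cl : ∀ m ∈ Icc 1 L, 2 * b ≤ |a m|
  V2 : ∀ i j, L ≤ i → i ≤ j → j < N → Val.N p i ^ 99 ≤ Val.N p j ^ 100
  V3 : ∀ j, L ≤ j → j < N → ∃ i, L ≤ i ∧ i ≤ j ∧ (j : ℝ) ^ 400 ≤ Val.N p i

variable {b : ℝ} {L N : ℕ} {a p : ℕ → ℝ}

theorem Raw.exmono (R : Raw b L N a p) {i j : ℕ} (hij : i ≤ j) (hj : j ≤ L) : ex b p i ≤ ex b p j := by
  have h := clean R.hb R.p0 R.p1 R.hrec R.cl hij hj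
  have : (0 : ℝ) ≤ ((j - i : ℕ) : ℝ) := Nat.cast_nonneg _
  linarith

theorem Raw.exnn (R : Raw b L N a p) {j : ℕ} (hj : j ≤ L) : 0 ≤ ex b p j := by
  have := R.exmono (Nat.zero_le j) hj
  rwa [exzero R.hb R.p0 R.p1] at this

theorem Raw.Npos (R : Raw b L N a p) (m : ℕ) : 0 < Val.N p m := by
  have h1 := Wpos R.p0 R.p1 R.hrec m
  have h2 := W_le_N p m
  linarith

theorem Raw.key (R : Raw b L N a p) {i j : ℕ} (hi : L ≤ i) (hij : i ≤ j) (hj : j < N) :
    99 / 100 * ex b p i - 1 / 2 ≤ ex b p j := by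
  have hb := R.hb
  have hb0 : 0 < b := by linarith
  have h1 := R.V2 i j hi hij hj
  have h2 := N_le_W p j
  have h3 := W_le_N p i
  have n1 := R.Npos i
  have n2 := R.Npos j
  have w1 := Wpos R.p0 R.p1 R.hrec i
  have w2 := Wpos R.p0 R.p1 R.hrec j
  have h4 : (3 / 2 : ℝ) ≤ b ^ (1 / 2 : ℝ) := by
    have h5 : ((100 : ℝ) ^ (2 : ℕ)) ^ (1 / 2 : ℝ) ≤ b ^ (1 / 2 : ℝ) := by
      apply Real.rpow_le_rpow (by positivity) _ (by norm_num)
      norm_num
      linarith
    have h6 : ((100 : ℝ) ^ (2 : ℕ)) ^ (1 / 2 : ℝ) = 100 := by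
      rw [← Real.rpow_natCast, ← Real.rpow_mul (by norm_num)]
      norm_num
    linarith
  have h7 : b ^ (ex b p i - 1 / 2) ≤ Val.N p i := by
    rw [Real.rpow_sub hb0, ← Weq R.hb R.p0 R.p1 R.hrec, div_le_iff₀ (Real.rpow_pos_of_pos hb0 _)]
    calc W p i ≤ 3 / 2 * Val.N p i := h3
      _ ≤ b ^ (1 / 2 : ℝ) * Val.N p i := mul_le_mul_of_nonneg_right h4 (N_nonneg p i)
      _ = _ := mul_comm _ _
  have h8 : (b ^ (ex b p i - 1 / 2)) ^ 99 ≤ (b ^ ex b p j) ^ 100 := by
    rw [← Weq R.hb R.p0 R.p1 R.hrec j]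
    calc (b ^ (ex b p i - 1 / 2)) ^ 99 ≤ Val.N p i ^ 99 :=
          pow_le_pow_left₀ (Real.rpow_nonneg hb0.le _) h7 99
      _ ≤ Val.N p j ^ 100 := h1
      _ ≤ W p j ^ 100 := pow_le_pow_left₀ n2.le h2 100
  rw [← Real.rpow_natCast, ← Real.rpow_natCast, ← Real.rpow_mul hb0.le, ← Real.rpow_mul hb0.le] at h8
  have h9 := (Real.rpow_le_rpow_left_iff (by linarith)).mp h8
  push_cast at h9
  linarith

theorem Raw.exn (R : Raw b L N a p) {j : ℕ} (hj : j < N) : -(1 / 2) ≤ ex b p j := by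
  rcases Nat.lt_or_ge j L with h | h
  · have := R.exnn h.le
    linarith
  · have h1 := R.key le_rfl h hj
    have h2 := R.exnn (le_refl L)
    linarith

theorem Raw.seg (R : Raw b L N a p) : Seg b N a p where
  hb := R.hb
  hN := R.hN
  p0 := R.p0
  p1 := R.p1
  hrec := R.hrec
  hA := R.hA
  cl := fun m hm => R.cl m (by
    rw [Finset.mem_Icc] at hm ⊢
    exact ⟨hm.1, hm.2.trans R.hL⟩)
  v2 := by
    intro i j hij hj
    have hN := R.hN
    have hL := R.hL
    have main : ∀ j, i ≤ j → j < N → 99 / 100 * ex b p i - 1 / 2 ≤ ex b p j := by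
      intro j hij hj
      rcases Nat.lt_or_ge i L with h | h
      · rcases Nat.lt_or_ge j L with h' | h'
        · have h1 := R.exmono hij h'.le
          have h2 := R.exnn h.le
          linarith
        · have h1 := R.key le_rfl h' hj
          have h2 := R.exmono h.le le_rfl
          linarith
      · exact R.key h hij hj
    rcases Nat.eq_or_lt_of_le hj with h | h
    · obtain ⟨l, rfl⟩ : ∃ l, j = l + 1 := ⟨j - 1, by omega⟩
      have h1 := exdn R.hb R.p0 R.p1 R.hrec R.hA l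
      rcases Nat.eq_or_lt_of_le hij with h2 | h2
      · subst h2
        have h3 := R.exn (by omega : l < N)
        linarith
      · have h3 := main l (by omega) (by omega)
        linarith
    · have := main j hij h
      linarith
  v3 := by
    have hb := R.hb
    have hb0 : 0 < b := by linarith
    have hLb := R.hLb
    have hL := R.hL
    have hN := R.hN
    have hu0 : ∀ j < N, L ≤ j → 0 ≤ ex b p j := by
      intro j hj hLj
      have h1 := R.key le_rfl hLj hj
      have h2 := clean R.hb R.p0 R.p1 R.hrec R.cl (Nat.zero_le L) le_rfl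
      rw [exzero R.hb R.p0 R.p1] at h2
      have h3 : (400 : ℝ) ≤ (L : ℝ) := by exact_mod_cast hL
      rw [Nat.sub_zero] at h2
      linarith
    have huN : 0 ≤ ex b p N := by
      obtain ⟨l, hl⟩ : ∃ l, N = l + 1 := ⟨N - 1, by omega⟩
      have h1 := exdn R.hb R.p0 R.p1 R.hrec R.hA l
      rw [← hl] at h1
      have h2 : 2 ≤ ex b p l := by
        have h3 : (400 : ℝ) ≤ (L : ℝ) := by exact_mod_cast hL
        rcases Nat.lt_or_ge l L with h | h
        · have h4 := clean R.hb R.p0 R.p1 R.hrec R.cl (Nat.zero_le l) h.le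
          rw [exzero R.hb R.p0 R.p1, Nat.sub_zero] at h4
          have h5 : (2 : ℝ) ≤ (l : ℝ) := by
            have : 2 ≤ l := by omega
            exact_mod_cast this
          linarith
        · have h4 := R.key le_rfl h (by omega)
          have h5 := clean R.hb R.p0 R.p1 R.hrec R.cl (Nat.zero_le L) le_rfl
          rw [exzero R.hb R.p0 R.p1, Nat.sub_zero] at h5
          linarith
      linarith
    have hpt : ∀ j ∈ range (N + 1), b ^ (-(1 / 100 * ex b p j)) ≤
        (if j < L then 1 else 0) + (if j = N then 1 else 0) +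
          b * (if L ≤ j then ((j : ℝ) ^ 2)⁻¹ else 0) := by
      intro j hj
      rw [Finset.mem_range] at hj
      rcases Nat.lt_or_ge j L with h | h
      · rw [if_pos h, if_neg (by omega : ¬ L ≤ j)]
        have h1 := R.exnn h.le
        have h2 : b ^ (-(1 / 100 * ex b p j)) ≤ 1 :=
          Real.rpow_le_one_of_one_le_of_nonpos (by linarith) (by linarith)
        have h3 : (0 : ℝ) ≤ (if j = N then 1 else 0) := by split_ifs <;> norm_num
        linarith
      · rw [if_neg (by omega), if_pos h, zero_add]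
        rcases Nat.eq_or_lt_of_le (Nat.lt_succ_iff.mp hj) with hjN | hjN
        · rw [if_pos hjN]
          have h2 : b ^ (-(1 / 100 * ex b p j)) ≤ 1 := by
            rw [hjN]
            exact Real.rpow_le_one_of_one_le_of_nonpos (by linarith) (by linarith)
          have h3 : 0 ≤ b * ((j : ℝ) ^ 2)⁻¹ := by positivity
          linarith
        · rw [if_neg (by omega), zero_add]
          obtain ⟨i, hLi, hij, hi⟩ := R.V3 j h hjN
          have h1 := R.key hLi hij hjN
          have hj0 : (0 : ℝ) < (j : ℝ) := by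
            have : 0 < j := by omega
            exact_mod_cast this
          have h2 : (j : ℝ) ^ 400 ≤ b ^ ex b p i := by
            rw [← Weq R.hb R.p0 R.p1 R.hrec]
            exact hi.trans (N_le_W p i)
          have h4 : (j : ℝ) ^ 2 ≤ b ^ (1 / 200 * ex b p i) := by
            have h5 : ((j : ℝ) ^ 400) ^ (1 / 200 : ℝ) ≤ (b ^ ex b p i) ^ (1 / 200 : ℝ) :=
              Real.rpow_le_rpow (by positivity) h2 (by norm_num)
            have h6 : ((j : ℝ) ^ 400) ^ (1 / 200 : ℝ) = (j : ℝ) ^ 2 := by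
              rw [← Real.rpow_natCast, ← Real.rpow_natCast, ← Real.rpow_mul hj0.le]
              norm_num
            rw [h6, ← Real.rpow_mul hb0.le] at h5
            rwa [mul_comm (ex b p i) (1 / 200)] at h5
          have h6 : b ^ (-(1 / 100 * ex b p j)) * (j : ℝ) ^ 2 ≤ b := by
            calc b ^ (-(1 / 100 * ex b p j)) * (j : ℝ) ^ 2
                ≤ b ^ (-(1 / 100 * ex b p j)) * b ^ (1 / 200 * ex b p i) := by gcongr
              _ = b ^ (-(1 / 100 * ex b p j) + 1 / 200 * ex b p i) := by rw [← Real.rpow_add hb0]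
              _ ≤ b ^ (1 : ℝ) := by
                apply Real.rpow_le_rpow_of_exponent_le (by linarith)
                have h7 := hu0 i (by omega) hLi
                linarith
              _ = b := Real.rpow_one b
          rw [← div_eq_mul_inv, le_div_iff₀ (by positivity)]
          exact h6
    refine (Finset.sum_le_sum hpt).trans ?_
    rw [Finset.sum_add_distrib, Finset.sum_add_distrib, ← Finset.mul_sum]
    have s1 : ∑ j ∈ range (N + 1), (if j < L then (1 : ℝ) else 0) ≤ L := by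
      rw [← Finset.sum_filter, Finset.sum_const, nsmul_eq_mul, mul_one]
      have : ((range (N + 1)).filter (fun j => j < L)).card ≤ L := by
        calc ((range (N + 1)).filter (fun j => j < L)).card ≤ (range L).card := by
              apply Finset.card_le_card
              intro j hj
              rw [Finset.mem_filter] at hj
              rw [Finset.mem_range]
              exact hj.2
          _ = L := Finset.card_range L
      exact_mod_cast this
    have s3 : ∑ j ∈ range (N + 1), (if j = N then (1 : ℝ) else 0) ≤ 1 := by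
      rw [Finset.sum_ite_eq']
      split_ifs <;> norm_num
    have s2 : ∑ j ∈ range (N + 1), (if L ≤ j then ((j : ℝ) ^ 2)⁻¹ else 0) ≤ 1 / 2 := by
      rw [← Finset.sum_filter]
      have h1 : (range (N + 1)).filter (fun j => L ≤ j) = Ioo (L - 1) (N + 1) := by
        ext j
        simp only [Finset.mem_filter, Finset.mem_range, Finset.mem_Ioo]
        omega
      rw [h1]
      have h2 := sum_Ioo_inv_sq_le (α := ℝ) (L - 1) (N + 1)
      refine h2.trans ?_
      rw [div_le_div_iff₀ (by positivity) (by norm_num)]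
      have : (400 : ℝ) ≤ (L : ℝ) := by exact_mod_cast hL
      have h3 : ((L - 1 : ℕ) : ℝ) = (L : ℝ) - 1 := by
        rw [Nat.cast_sub (by omega)]; simp
      rw [h3]
      linarith
    have s4 := mul_le_mul_of_nonneg_left s2 hb0.le
    linarith

/-- facts on the base `b = k^(2/3)/2` for huge `k` -/
theorem basefacts {k : ℝ} (hk : (10 : ℝ) ^ 30 ≤ k) :
    (10 : ℝ) ^ 19 ≤ k ^ (2 / 3 : ℝ) / 2 ∧ 10 ^ 9 * k ≤ (k ^ (2 / 3 : ℝ) / 2) ^ 2 := by
  have hk0 : 0 < k := lt_of_lt_of_le (by positivity) hk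
  have h1 : (10 : ℝ) ^ 10 ≤ k ^ (1 / 3 : ℝ) := by
    have h2 : ((10 : ℝ) ^ 30) ^ (1 / 3 : ℝ) ≤ k ^ (1 / 3 : ℝ) :=
      Real.rpow_le_rpow (by positivity) hk (by norm_num)
    have h3 : ((10 : ℝ) ^ 30) ^ (1 / 3 : ℝ) = 10 ^ 10 := by
      rw [← Real.rpow_natCast, ← Real.rpow_natCast, ← Real.rpow_mul (by norm_num)]
      norm_num
    linarith
  have e2 : k ^ (2 / 3 : ℝ) = (k ^ (1 / 3 : ℝ)) ^ 2 := by
    rw [← Real.rpow_natCast, ← Real.rpow_mul hk0.le]
    norm_num
  have e3 : k = (k ^ (1 / 3 : ℝ)) ^ 3 := by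
    rw [← Real.rpow_natCast, ← Real.rpow_mul hk0.le]
    norm_num
  set c := k ^ (1 / 3 : ℝ) with hc
  have hc0 : 0 < c := lt_of_lt_of_le (by positivity) h1
  rw [e2]
  refine ⟨?_, ?_⟩
  · have : (10 : ℝ) ^ 10 * 10 ^ 10 ≤ c ^ 2 := by nlinarith
    norm_num at this ⊢
    linarith
  · rw [e3]
    have h5 : (4 : ℝ) * 10 ^ 9 ≤ c := by
      norm_num at h1 ⊢
      linarith
    have h6 : 0 < c ^ 3 := by positivity
    have h7 : 4 * 10 ^ 9 * c ^ 3 ≤ c * c ^ 3 := mul_le_mul_of_nonneg_right h5 h6.le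
    have h8 : (c ^ 2 / 2) ^ 2 = c * c ^ 3 / 4 := by ring
    rw [h8]
    linarith

theorem abs_Vk_le {k : ℝ} (hk : 10 ≤ k) (x : ℝ) : |Vk k x| + 2 ≤ 8 * k := by
  unfold Vk
  have h1 : |2 + 2 * Real.pi * k * Real.cos (2 * Real.pi * x)| ≤ 2 + 2 * Real.pi * k := by
    refine (abs_add_le _ _).trans ?_
    rw [abs_mul, abs_of_nonneg (by positivity : 0 ≤ 2 * Real.pi * k)]
    have := Real.abs_cos_le_one (2 * Real.pi * x)
    have h2 : 0 ≤ 2 * Real.pi * k := by positivity
    have h3 : |(2 : ℝ)| = 2 := by norm_num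
    rw [h3]
    nlinarith
  have hpi := Real.pi_lt_d2
  nlinarith

theorem raw_of_SV {k a c : ℝ} {n' : ℕ} (hk : (10 : ℝ) ^ 30 ≤ k) (hn' : 400 ≤ n')
    (h : SV k 1000 a c n') :
    Raw (k ^ (2 / 3 : ℝ) / 2) 1000 n' (fun m => Vk k (xorb k a c m)) (pk k a c) where
  hb := by
    have := (basefacts hk).1
    refine le_trans ?_ this
    norm_num
  hN := hn'
  hL := by norm_num
  hLb := by
    have := (basefacts hk).1
    refine le_trans ?_ this
    norm_num
  p0 := rfl
  p1 := rfl
  hrec := fun m => rfl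
  hA := by
    intro m
    have h1 := (basefacts hk).2
    have hk10 : (10 : ℝ) ≤ k := le_trans (by norm_num) hk
    have h2 := abs_Vk_le hk10 (xorb k a c m)
    have h3 : 8 * k ≤ 10 ^ 9 * k := by
      apply mul_le_mul_of_nonneg_right (by norm_num) (by linarith)
    exact h2.trans (h3.trans h1)
  cl := by
    intro m hm
    have := h.cl m hm
    linarith
  V2 := h.v2
  V3 := h.v3

/-- **SHADOW, final form.** -/
theorem shadow2 {k X a c l s0 : ℝ} {n n' L : ℕ} {q : ℕ → ℝ} (hk : (10 : ℝ) ^ 30 ≤ k)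
    (hX : k ^ 600 ≤ X) (h : SV k 1000 a c n') (hnn : n < n') (hXn : X ≤ nf k a c n)
    (hkX : ∀ i < n', nf k a c i ≤ k * X)
    (hV : Val.Valid (k ^ (2 / 3 : ℝ) / 2) L n (fun m => Vk k (xorb k a c m)) (pk k a c) q)
    (hD : X ≤ |pk k a c (n + 1)|)
    (hright : xorb k l s0 (n + 1) = xorb k a c (n + 1))
    (hbox : ∀ m ∈ Icc 1 n, |xorb k l s0 m - xorb k a c m| ≤ 3 / 2 * Val.lw n (pk k a c) q m) :
    ∀ s, |s - s0| ≤ X ^ (-(3 / 2 : ℝ)) →
      (∀ m ≤ n', nf k a c m ≤ 2 * nf k l s m ∧ nf k l s m ≤ 2 * nf k a c m) ∧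
      ∀ m ≤ n' + 1, |xorb k l s m - xorb k l s0 m| ≤
        2 * X ^ (-(3 / 2 : ℝ)) * Wh (pk k a c) n' m := by
  intro s hs
  obtain ⟨hb19, hbk⟩ := basefacts hk
  have hk0 : 0 < k := lt_of_lt_of_le (by positivity) hk
  have hk1 : (1 : ℝ) ≤ k := le_trans (by norm_num) hk
  have hk10 : (10 : ℝ) ≤ k := le_trans (by norm_num) hk
  set b := k ^ (2 / 3 : ℝ) / 2 with hbdef
  have hb4 : 10000 ≤ b := le_trans (by norm_num) hb19
  have hb0 : 0 < b := by linarith
  have hX0 : 0 < X := lt_of_lt_of_le (by positivity) hX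
  set p := pk k a c with hp
  have hpr : ∀ m, p (m + 2) = Vk k (xorb k a c (m + 1)) * p (m + 1) - p m := fun m => rfl
  have hA : ∀ m, |Vk k (xorb k a c m)| + 2 ≤ b ^ 2 := by
    intro m
    have h2 := abs_Vk_le hk10 (xorb k a c m)
    have h3 : 8 * k ≤ 10 ^ 9 * k := by
      apply mul_le_mul_of_nonneg_right (by norm_num) (by linarith)
    exact h2.trans (h3.trans hbk)
  -- the level exponent
  set ξ := Real.logb b X with hξd
  have hbξ : b ^ ξ = X := Real.rpow_logb hb0 (by linarith) hX0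
  have hξ900 : 900 ≤ ξ := by
    have h1 : b ^ (900 : ℝ) ≤ b ^ ξ := by
      rw [hbξ]
      refine le_trans ?_ hX
      have h2 : b ≤ k ^ (2 / 3 : ℝ) := by
        have : 0 ≤ k ^ (2 / 3 : ℝ) := by positivity
        rw [hbdef]
        linarith
      calc b ^ (900 : ℝ) ≤ (k ^ (2 / 3 : ℝ)) ^ (900 : ℝ) := Real.rpow_le_rpow hb0.le h2 (by norm_num)
        _ = k ^ (600 : ℝ) := by
            rw [← Real.rpow_mul hk0.le]
            norm_num
        _ = k ^ 600 := by
            rw [← Real.rpow_natCast]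
            norm_num
    exact (Real.rpow_le_rpow_left_iff (by linarith)).mp h1
  have hWeq : ∀ m, W p m = b ^ ex b p m := fun m =>
    Weq (a := fun m => Vk k (xorb k a c m)) hb4 rfl rfl hpr m
  have hup : ∀ m, ex b p (m + 1) ≤ ex b p m + 2 := fun m =>
    exup (a := fun m => Vk k (xorb k a c m)) hb4 rfl rfl hpr hA m
  have hun : ξ ≤ ex b p n := by
    have h1 : b ^ ξ ≤ b ^ ex b p n := by
      rw [hbξ, ← hWeq]
      exact hXn.trans (N_le_W p n)
    exact (Real.rpow_le_rpow_left_iff (by linarith)).mp h1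
  have hub : ∀ m, ex b p m ≤ 2 * m := by
    intro m
    induction m with
    | zero => simp [exzero hb4 (rfl : p 0 = 0) (rfl : p 1 = 1)]
    | succ m ih =>
      have := hup m
      push_cast
      linarith
  have hn400 : 400 ≤ n := by
    have h1 := hub n
    have h2 : (400 : ℝ) ≤ (n : ℝ) := by linarith
    exact_mod_cast h2
  have S := (raw_of_SV hk (by omega) h).seg
  have hkb : 3 / 2 * k ≤ b ^ 2 := by
    have h3 : 3 / 2 * k ≤ 10 ^ 9 * k := by
      apply mul_le_mul_of_nonneg_right (by norm_num) (by linarith)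
    exact h3.trans hbk
  have hu1 : ∀ j < n', ex b p j ≤ ξ + 2 := by
    intro j hj
    have h1 : b ^ ex b p j ≤ b ^ (ξ + 2) := by
      rw [← hWeq, Real.rpow_add hb0, hbξ, Real.rpow_two]
      have h2 := W_le_N p j
      have h3 : Val.N p j ≤ k * X := hkX j hj
      have h4 : 3 / 2 * k * X ≤ b ^ 2 * X := mul_le_mul_of_nonneg_right hkb hX0.le
      linarith
    exact (Real.rpow_le_rpow_left_iff (by linarith)).mp h1
  have hu : ∀ j ≤ n', ex b p j ≤ ξ + 4 := by
    intro j hj
    rcases Nat.eq_or_lt_of_le hj with h1 | h1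
    · obtain ⟨i, hi⟩ : ∃ i, j = i + 1 := ⟨j - 1, by omega⟩
      have h2 := hup i
      have h3 := hu1 i (by omega)
      rw [hi]
      linarith
    · have := hu1 j h1
      linarith
  have hXr : X ^ (-(3 / 2 : ℝ)) = b ^ (-(3 / 2 * ξ)) := by
    rw [← hbξ, ← Real.rpow_mul hb0.le]
    congr 1
    ring
  have hM0 : 0 ≤ 4 * Real.pi ^ 2 * k := by positivity
  have hM : 100000 * (4 * Real.pi ^ 2 * k) ≤ b ^ 2 := by
    have hpi := Real.pi_lt_d2
    have hpi0 := Real.pi_pos
    have h1 : Real.pi ^ 2 ≤ 10 := by nlinarith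
    have h2 : 100000 * (4 * Real.pi ^ 2 * k) ≤ 10 ^ 9 * k := by nlinarith
    exact h2.trans hbk
  have hL35 := hV.hL
  have hlb := hV.lamB
  have key := shadow (b := b) (ξ := ξ) (M := 4 * Real.pi ^ 2 * k) (r := X ^ (-(3 / 2 : ℝ)))
    (f := fk k) (V := Vk k)
    (N := n') (n := n) (x := xorb k a c) (y := xorb k l s0) (z := xorb k l s) (p := p)
    (p' := pk k l s) hM0 hM (NL_fk hk0.le) (Vk_lip hk0.le) S (by linarith) hu hun hnn.le
    (fun m hm => xorb_orb k a c (m + 1) m (by omega)) (fun m hm => xorb_orb k l s0 (m + 1) m (by omega))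
    (fun m hm => xorb_orb k l s (m + 1) m (by omega))
    hright (by
      have h1 := hbox n (Finset.mem_Icc.mpr ⟨by omega, le_rfl⟩)
      refine h1.trans ?_
      have h2 : Val.lw n p q n ≤ b ^ (-ξ) := by
        unfold Val.lw
        have h3 : W q n = 1 := by
          unfold W nn
          rw [hV.J.qn, hV.J.qn1]
          norm_num
        rw [h3, Real.rpow_neg hb0.le, hbξ, one_div]
        exact inv_anti₀ hX0 hD
      have h4 : 0 ≤ b ^ (-ξ) := by positivity
      linarith)
    (by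
      intro j hj
      rw [Finset.mem_Icc] at hj
      have h1 := hbox j (Finset.mem_Icc.mpr ⟨hj.1, by omega⟩)
      have h2 := hlb.c j hj.2
      have h3 : 0 ≤ b ^ (-ex b p j) := by positivity
      linarith)
    (by
      intro j hj1 hj2
      have h1 := hbox j (Finset.mem_Icc.mpr ⟨by omega, hj2⟩)
      have h2 := hlb.g j hj2
      linarith)
    rfl hs (le_of_eq hXr) rfl rfl (fun m _ => rfl)
  refine ⟨?_, fun m hm => (key m hm).1⟩
  intro m hm
  exact shadow_N (fun m hm => (key m hm).2) m hm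

end Crest.Agent.R128.CoreB334
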