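import Crest.Agent.R128.CoreB334

/-!
Row 128, node V3-CORE, SHADOW half (helper334), part 2: the shadow theorem.
-/

set_option autoImplicit false

open Finset

namespace Crest.Agent.R128.CoreB334

open Crest.Agent.R128.TreeSum Crest.Agent.R128.BVP Crest.Agent.R128.Val

section shadow

variable {b ξ M r : ℝ} {f V : ℝ → ℝ} {N n : ℕ} {a x y z p p' : ℕ → ℝ}

theorem Seg.card_le (S : Seg b N a p) (hu : ∀ j ≤ N, ex b p j ≤ ξ + 4) :
    (N : ℝ) + 1 ≤ b ^ (2 + 1 / 100 * ξ) := by
  have hb0 := S.b0
  have h1 : ∑ j ∈ range (N + 1), b ^ (-(1 / 100 * (ξ + 4))) ≤ b := by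
    refine le_trans (Finset.sum_le_sum fun j hj => ?_) S.v3
    rw [Finset.mem_range] at hj
    apply S.mono
    have := hu j (by omega)
    linarith
  rw [Finset.sum_const, Finset.card_range, nsmul_eq_mul] at h1
  push_cast at h1
  have h2 : ((N : ℝ) + 1) * b ^ (-(1 / 100 * (ξ + 4))) * b ^ (1 / 100 * (ξ + 4)) = (N : ℝ) + 1 := by
    rw [mul_assoc, ← Real.rpow_add hb0]
    simp
  have h3 := mul_le_mul_of_nonneg_right h1 (Real.rpow_nonneg hb0.le (1 / 100 * (ξ + 4)))
  rw [h2] at h3
  refine h3.trans ?_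
  calc b * b ^ (1 / 100 * (ξ + 4)) = b ^ (1 : ℝ) * b ^ (1 / 100 * (ξ + 4)) := by rw [Real.rpow_one]
    _ = b ^ (1 + 1 / 100 * (ξ + 4)) := by rw [Real.rpow_add hb0]
    _ ≤ _ := S.mono (by linarith)

/-- after the crossing -/
theorem after_n (hM0 : 0 ≤ M) (hM : 100000 * M ≤ b ^ 2) (hNL : NL f V M)
    (S : Seg b N (fun m => V (x m)) p)
    (hξ : 600 ≤ ξ) (hu : ∀ j ≤ N, ex b p j ≤ ξ + 4) (hun : ξ ≤ ex b p n) (hnN : n ≤ N)
    (hx : ∀ m < N, x (m + 2) + x m = f (x (m + 1)))
    (hy : ∀ m < N, y (m + 2) + y m = f (y (m + 1)))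
    (hyn1 : y (n + 1) = x (n + 1)) (hyn : |y n - x n| ≤ 2 * b ^ (-ξ)) :
    ∀ m, n ≤ m → m ≤ N + 1 → |y m - x m| ≤ 4 * b ^ (19 - 96 / 100 * ξ) := by
  have hb := S.hb
  have hb0 := S.b0
  set B := b ^ (19 + 4 / 100 * ξ) with hBd
  have hB1 : 1 ≤ B := Real.one_le_rpow (by linarith) (by linarith)
  have hB : ∀ j m, n + 1 ≤ j → j ≤ m → m ≤ N + 1 → |fund (fun i => V (x i)) j m| ≤ B := by
    intro j m h1 h2 h3
    rcases Nat.eq_or_lt_of_le h2 with h | h
    · subst h
      rw [fund_self, abs_zero]
      linarith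
    · have h4 := S.fund_late h h3
      have h5 := Wh_le_pred p N m
      have h6 := S.v2 n j (by omega) (by omega)
      have h7 := hu (m - 1) (by omega)
      have h8 : |fund (fun i => V (x i)) j m| * W p j ≤ B * W p j := by
        refine h4.trans ?_
        calc b ^ (12 + 3 / 100 * ex b p j) * Wh p N m ≤ b ^ (12 + 3 / 100 * ex b p j) * W p (m - 1) := by
              gcongr
          _ ≤ B * W p j := by
              rw [S.W_eq (m - 1), S.W_eq j, hBd, ← Real.rpow_add hb0, ← Real.rpow_add hb0]
              apply S.mono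
              linarith
      exact le_of_mul_le_mul_right h8 (S.W_pos j)
  have hsmall : 4 * B ^ 2 * M * ((N : ℝ) - n) * |y n - x n| ≤ 1 := by
    have h1 := S.card_le hu
    have h2 : (0 : ℝ) ≤ (N : ℝ) - n := by
      have : (n : ℝ) ≤ N := by exact_mod_cast hnN
      linarith
    have h3 : (N : ℝ) - n ≤ b ^ (2 + 1 / 100 * ξ) := by
      have : (0 : ℝ) ≤ n := Nat.cast_nonneg _
      linarith
    have h4 : 8 * M ≤ b ^ (2 : ℝ) := by
      rw [Real.rpow_two]
      linarith
    calc 4 * B ^ 2 * M * ((N : ℝ) - n) * |y n - x n|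
        ≤ 4 * B ^ 2 * M * b ^ (2 + 1 / 100 * ξ) * (2 * b ^ (-ξ)) := by gcongr
      _ = (8 * M) * (B ^ 2 * b ^ (2 + 1 / 100 * ξ) * b ^ (-ξ)) := by ring
      _ ≤ b ^ (2 : ℝ) * (B ^ 2 * b ^ (2 + 1 / 100 * ξ) * b ^ (-ξ)) := by gcongr
      _ ≤ b ^ (0 : ℝ) := by
          rw [hBd, S.sq_rpow, ← Real.rpow_add hb0, ← Real.rpow_add hb0, ← Real.rpow_add hb0]
          apply S.mono
          linarith
      _ = 1 := Real.rpow_zero b
  have h := fwd hM0 hNL (s := n) (N := N) (x := x) (z := y) (fun m _ h => hx m h) (fun m _ h => hy m h)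
    hyn1 hB1 hB hsmall
  intro m h1 h2
  refine (h m h1 h2).trans ?_
  calc 2 * B * |y n - x n| ≤ 2 * B * (2 * b ^ (-ξ)) := by gcongr
    _ = 4 * (B * b ^ (-ξ)) := by ring
    _ = 4 * b ^ (19 - 96 / 100 * ξ) := by
        rw [hBd, ← Real.rpow_add hb0]
        congr 2
        ring

/-- **SHADOW** (abstract form) -/
theorem shadow (hM0 : 0 ≤ M) (hM : 100000 * M ≤ b ^ 2) (hNL : NL f V M)
    (hVL : ∀ s t, |V s - V t| ≤ M * |s - t|)
    (S : Seg b N (fun m => V (x m)) p)
    (hξ : 600 ≤ ξ) (hu : ∀ j ≤ N, ex b p j ≤ ξ + 4) (hun : ξ ≤ ex b p n) (hnN : n ≤ N)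
    (hx : ∀ m < N, x (m + 2) + x m = f (x (m + 1)))
    (hy : ∀ m < N, y (m + 2) + y m = f (y (m + 1)))
    (hz : ∀ m < N, z (m + 2) + z m = f (z (m + 1)))
    (hyn1 : y (n + 1) = x (n + 1)) (hyn : |y n - x n| ≤ 2 * b ^ (-ξ))
    (hy1 : ∀ j ∈ Icc 1 30, |y j - x j| ≤ 5 * b ^ (-ex b p j))
    (hy2 : ∀ j, 30 < j → j ≤ n → |y j - x j| ≤ 3 * b ^ (6 - 97 / 100 * ex b p j))
    (hz0 : z 0 = y 0) (hz1 : |z 1 - y 1| ≤ r) (hr : r ≤ b ^ (-(3 / 2 * ξ)))
    (hp0' : p' 0 = 0) (hp1' : p' 1 = 1)
    (hp' : ∀ m < N, p' (m + 2) = V (z (m + 1)) * p' (m + 1) - p' m) :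
    ∀ m ≤ N + 1, |z m - y m| ≤ 2 * r * Wh p N m ∧ |p' m - p m| ≤ 1 / 16 * Wh p N m := by
  have hb := S.hb
  have hb0 := S.b0
  have hr0 : 0 ≤ r := (abs_nonneg _).trans hz1
  have hafter := after_n hM0 hM hNL S hξ hu hun hnN hx hy hyn1 hyn
  have hn30 : 30 ≤ n := by
    have h1 := S.ub n
    have h2 : (30 : ℝ) ≤ (n : ℝ) := by linarith
    exact_mod_cast h2
  set a : ℕ → ℝ := fun m => V (x m) with ha
  set D : ℕ → ℝ := fun j => |y j - x j| + 2 * r * b ^ ex b p j with hD
  have hsum := S.sum_fund (M := M) (ρ := 2 * r) (D := D) hM0 hM (by positivity) (by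
      intro j hj
      have h1 := hu j hj
      have h2 : 2 * r ≤ b ^ (1 - 3 / 2 * ξ) := by
        have e : b ^ (1 - 3 / 2 * ξ) = b * b ^ (-(3 / 2 * ξ)) := by
          rw [sub_eq_add_neg, Real.rpow_add hb0, Real.rpow_one]
        rw [e]
        have p1 : 0 ≤ b ^ (-(3 / 2 * ξ)) := by positivity
        nlinarith
      calc 2 * r * b ^ (104 / 100 * ex b p j) ≤ b ^ (1 - 3 / 2 * ξ) * b ^ (104 / 100 * ex b p j) := by
            gcongr
        _ ≤ b ^ (-20 : ℝ) := by
            rw [← Real.rpow_add hb0]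
            apply S.mono
            linarith)
    (fun j => by simp only [hD]; positivity)
    (by
      intro j h1 h2
      simp only [hD]
      have := hy1 j (Finset.mem_Icc.mpr ⟨h1, h2⟩)
      linarith)
    (by
      intro j h1 h2
      simp only [hD]
      have hunn := S.nonneg h2
      have key : |y j - x j| ≤ 3 * b ^ (6 - 90 / 100 * ex b p j) := by
        rcases Nat.lt_or_ge n j with h | h
        · have h3 := hafter j h.le (by omega)
          have h4 := hu j h2
          refine h3.trans ?_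
          have e1 : 4 * b ^ (19 - 96 / 100 * ξ) ≤ b ^ (20 - 96 / 100 * ξ) := by
            have e : b ^ (20 - 96 / 100 * ξ) = b ^ (1 : ℝ) * b ^ (19 - 96 / 100 * ξ) := by
              rw [← Real.rpow_add hb0]
              congr 1
              ring
            rw [e, Real.rpow_one]
            have p1 : 0 ≤ b ^ (19 - 96 / 100 * ξ) := by positivity
            nlinarith
          have e2 : b ^ (20 - 96 / 100 * ξ) ≤ b ^ (6 - 90 / 100 * ex b p j) := by
            apply S.mono
            linarith
          have p1 : 0 ≤ b ^ (6 - 90 / 100 * ex b p j) := by positivity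
          linarith
        · refine (hy2 j h1 h).trans ?_
          have : b ^ (6 - 97 / 100 * ex b p j) ≤ b ^ (6 - 90 / 100 * ex b p j) := by
            apply S.mono
            linarith
          linarith
      linarith)
  -- representation of e = z - y
  set R : ℕ → ℝ := fun j => f (z j) - f (y j) - V (x j) * (z j - y j) with hR
  have hrep : ∀ m ≤ N + 1, z m - y m = (z 1 - y 1) * p m + ∑ j ∈ Ico 1 m, fund a j m * R j := by
    have hv := voc (a := a) (a' := fun j => a j + R j) (e := fun m => z m - y m - (z 1 - y 1) * p m)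
      (s := 0) (N := N) (by
        intro m _ hm
        have h1 := hy m hm
        have h2 := hz m hm
        have h3 := S.hrec m
        have h4 : y (m + 2) = f (y (m + 1)) - y m := by linarith
        have h5 : z (m + 2) = f (z (m + 1)) - z m := by linarith
        simp only [hR]
        rw [h3, h4, h5]
        simp only [ha]
        ring) (by rw [hz0, S.p0]; ring) (by
          show z 1 - y 1 - (z 1 - y 1) * p 1 = 0
          rw [S.p1]; ring)
    intro m hm
    have key : ∀ j, a j + R j - a j = R j := fun j => by ring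
    rcases Nat.lt_or_ge N m with h1 | h1
    · have e : m = N + 1 := by omega
      subst e
      have := (hv N (Nat.zero_le _) le_rfl).2
      simp only [key] at this
      linarith
    · have := (hv m (Nat.zero_le _) h1).1
      simp only [key] at this
      linarith
  have hRle : ∀ j, |R j| ≤ M * (|y j - x j| + |z j - y j|) * |z j - y j| := by
    intro j
    have h1 := hNL (x j) (z j - x j) (y j - x j)
    rw [add_sub_cancel, add_sub_cancel, sub_sub_sub_cancel_right] at h1
    refine h1.trans ?_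
    have h2 : max |z j - x j| |y j - x j| ≤ |y j - x j| + |z j - y j| := by
      apply max_le
      · have h3 := abs_add_le (y j - x j) (z j - y j)
        rwa [show y j - x j + (z j - y j) = z j - x j by ring] at h3
      · have := abs_nonneg (z j - y j)
        linarith
    have h3 := abs_nonneg (z j - y j)
    gcongr
  have he : ∀ m, m ≤ N + 1 → |z m - y m| ≤ 2 * r * Wh p N m := by
    intro m
    induction m using Nat.strong_induction_on with
    | _ m ih =>
      intro hm
      rw [hrep m hm]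
      refine (abs_add_le _ _).trans ?_
      have h1 : |(z 1 - y 1) * p m| ≤ r * Wh p N m := by
        rw [abs_mul]
        exact mul_le_mul hz1 (S.p_le_Wh m) (abs_nonneg _) hr0
      have h2 : |∑ j ∈ Ico 1 m, fund a j m * R j| ≤ 2 * r * (1 / 32 * Wh p N m) := by
        calc |∑ j ∈ Ico 1 m, fund a j m * R j| ≤ ∑ j ∈ Ico 1 m, |fund a j m * R j| :=
              Finset.abs_sum_le_sum_abs _ _
          _ ≤ ∑ j ∈ Ico 1 m, 2 * r * (|fund a j m| * (M * D j) * Wh p N j) := by
              refine Finset.sum_le_sum fun j hj => ?_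
              rw [Finset.mem_Ico] at hj
              have h3 := ih j hj.2 (by omega)
              have h4 := hRle j
              have h5 : Wh p N j ≤ b ^ ex b p j := by
                rw [← S.W_eq]
                exact Wh_le p (by omega)
              have h6 := (S.Wh_pos j).le
              have h7 : |y j - x j| + |z j - y j| ≤ D j := by
                simp only [hD]
                have : 2 * r * Wh p N j ≤ 2 * r * b ^ ex b p j := by gcongr
                linarith
              have h8 : 0 ≤ D j := by simp only [hD]; positivity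
              rw [abs_mul]
              calc |fund a j m| * |R j| ≤ |fund a j m| * (M * (|y j - x j| + |z j - y j|) * |z j - y j|) := by
                    gcongr
                _ ≤ |fund a j m| * (M * D j * (2 * r * Wh p N j)) := by gcongr
                _ = _ := by ring
          _ = 2 * r * ∑ j ∈ Ico 1 m, |fund a j m| * (M * D j) * Wh p N j := by rw [Finset.mul_sum]
          _ ≤ 2 * r * (1 / 32 * Wh p N m) := by
              have := hsum m hm
              gcongr
      have h3 : 0 ≤ r * Wh p N m := mul_nonneg hr0 (S.Wh_pos m).le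
      linarith
  have hf := field_pert (N := N) (a := a) (a' := fun j => V (z j)) (p := p) (p' := p') (W := Wh p N)
    (η := 1 / 32) (by norm_num) S.p0 S.p1 (fun m _ => S.hrec m) hp0' hp1' hp'
    (fun m _ => S.p_le_Wh m) (by
      intro m hm
      refine le_trans (Finset.sum_le_sum fun j hj => ?_) (hsum m hm)
      rw [Finset.mem_Ico] at hj
      have h3 := he j (by omega)
      have h5 : Wh p N j ≤ b ^ ex b p j := by
        rw [← S.W_eq]
        exact Wh_le p (by omega)
      have h6 := (S.Wh_pos j).le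
      have h7 : |V (z j) - a j| ≤ M * D j := by
        refine (hVL (z j) (x j)).trans ?_
        have h9 : |z j - x j| ≤ D j := by
          have h10 := abs_add_le (y j - x j) (z j - y j)
          rw [show y j - x j + (z j - y j) = z j - x j by ring] at h10
          simp only [hD]
          have : 2 * r * Wh p N j ≤ 2 * r * b ^ ex b p j := by gcongr
          linarith
        gcongr
      gcongr)
  intro m hm
  refine ⟨he m hm, ?_⟩
  have := hf m hm
  linarith

/-- consequence for the max-norm fields -/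
theorem shadow_N (h : ∀ m ≤ N + 1, |p' m - p m| ≤ 1 / 16 * Wh p N m) :
    ∀ m ≤ N, Val.N p m ≤ 2 * Val.N p' m ∧ Val.N p' m ≤ 2 * Val.N p m := by
  intro m hm
  have h1 := h m (by omega)
  have h2 := h (m + 1) (by omega)
  have w1 : Wh p N m ≤ W p m := Wh_le p hm
  have w2 : Wh p N (m + 1) ≤ W p m := Wh_le_pred p N (m + 1)
  have w3 := W_le_N p m
  have n0 := N_nonneg p m
  have a1 : |p' m - p m| ≤ 3 / 32 * Val.N p m := by linarith
  have a2 : |p' (m + 1) - p (m + 1)| ≤ 3 / 32 * Val.N p m := by linarith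
  have b1 := abs_sub_abs_le_abs_sub (p m) (p' m)
  have b2 := abs_sub_abs_le_abs_sub (p (m + 1)) (p' (m + 1))
  have b3 := abs_sub_abs_le_abs_sub (p' m) (p m)
  have b4 := abs_sub_abs_le_abs_sub (p' (m + 1)) (p (m + 1))
  rw [abs_sub_comm] at b1 b2
  have c1 : |p' m| ≤ Val.N p' m := le_max_left _ _
  have c2 : |p' (m + 1)| ≤ Val.N p' m := le_max_right _ _
  have d1 : |p m| ≤ Val.N p m := le_max_left _ _
  have d2 : |p (m + 1)| ≤ Val.N p m := le_max_right _ _
  constructor
  · have : Val.N p m ≤ Val.N p' m + 3 / 32 * Val.N p m := max_le (by linarith) (by linarith)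
    linarith
  · exact max_le (by linarith) (by linarith)

end shadow

end Crest.Agent.R128.CoreB334
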