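import Mathlib
import Crest.Agent.R128.CoreF

/-!
Row 128, node V3-CORE: weights `G`, the sums (S1)-(S3) and the linear recursion (LIN).
-/

set_option autoImplicit false

open Finset

namespace Crest.Agent.R128.CoreF

open Crest.Agent.R128.TreeSum Crest.Agent.R128.BVP Crest.Agent.R128.Val

variable {b : ℝ} {N : ℕ} {a p : ℕ → ℝ}

/-- weights -/
noncomputable def G (N : ℕ) (p : ℕ → ℝ) (m : ℕ) : ℝ :=
  if m ≤ N then min (W p m) (W p (m - 1)) else W p (m - 1)

theorem G_nonneg (N : ℕ) (p : ℕ → ℝ) (m : ℕ) : 0 ≤ G N p m := by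
  unfold G
  split_ifs
  · exact le_min (W_nonneg p m) (W_nonneg p (m - 1))
  · exact W_nonneg p (m - 1)

theorem G_le_pred (N : ℕ) (p : ℕ → ℝ) (m : ℕ) : G N p m ≤ W p (m - 1) := by
  unfold G
  split_ifs
  · exact min_le_right _ _
  · exact le_rfl

theorem G_le (N : ℕ) (p : ℕ → ℝ) {m : ℕ} (hm : m ≤ N) : G N p m ≤ W p m := by
  unfold G
  rw [if_pos hm]
  exact min_le_left _ _

theorem FE.p_le_G (F : FE b N a p) (m : ℕ) : |p m| ≤ G N p m := by
  rcases Nat.eq_zero_or_pos m with h | h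
  · subst h
    rw [F.p0, abs_zero]
    exact G_nonneg N p 0
  · have h1 : |p m| ≤ W p (m - 1) := abs_le_W_pred p h
    unfold G
    split_ifs
    · exact le_min (abs_le_W p m) h1
    · exact h1

theorem FE.fund_G (F : FE b N a p) {j m : ℕ} (hjm : j < m) (hm : m ≤ N + 1) :
    |fund a j m| ≤ Fb b p j * G N p m := by
  have hb0 : 0 < b := by linarith [F.hb]
  have h2 : |fund a j m| ≤ Fb b p j * W p (m - 1) := by
    have h := F.fund_le (j := j) (m := m - 1) (by omega) (by omega)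
    rw [Nat.sub_add_cancel (by omega)] at h
    exact (abs_snd_le (fund a j (m - 1), fund a j m)).trans h
  unfold G
  split_ifs with hmN
  · have h1 : |fund a j m| ≤ Fb b p j * W p m :=
      (abs_fst_le (fund a j m, fund a j (m + 1))).trans (F.fund_le hjm.le hmN)
    rcases min_choice (W p m) (W p (m - 1)) with h | h
    · rw [h]; exact h1
    · rw [h]; exact h2
  · exact h2

/-- `Fb j * G j` in the clean part -/
theorem FE.FG_clean (F : FE b N a p) {j : ℕ} (hj1 : 1 ≤ j) (hj : j ≤ 30) :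
    Fb b p j * G N p j ≤ 3 * b⁻¹ := by
  have hb := F.hb
  have hb0 : 0 < b := by linarith
  have hN := F.hN
  have h1 := G_le_pred N p j
  have h2 := F.E.clean (i := j - 1) (j := j) (by omega) (by omega)
  have h3 : ((j - (j - 1) : ℕ) : ℝ) = 1 := by
    have : j - (j - 1) = 1 := by omega
    rw [this]; norm_num
  rw [h3] at h2
  unfold Fb
  rw [if_pos hj]
  calc 3 * b ^ (-ex b p j) * G N p j ≤ 3 * b ^ (-ex b p j) * W p (j - 1) := by gcongr
    _ = 3 * b ^ (-ex b p j + ex b p (j - 1)) := by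
        rw [F.W_eq (by omega : j - 1 ≤ N), Real.rpow_add hb0]; ring
    _ ≤ 3 * b ^ (-1 : ℝ) := by
        apply mul_le_mul_of_nonneg_left _ (by norm_num)
        apply F.E.mono
        linarith
    _ = 3 * b⁻¹ := by rw [Real.rpow_neg_one]

/-- (S1) -/
theorem FE.S1 (F : FE b N a p) {n : ℕ} (hn : n ≤ N - 1) {C0 : ℝ} (hC0 : 0 ≤ C0) {D : ℕ → ℝ}
    (hD0 : ∀ j, 0 ≤ D j)
    (hD1 : ∀ j, 1 ≤ j → j ≤ 30 → D j ≤ C0 * b ^ (-ex b p j))
    (hD2 : ∀ j, 30 < j → j ≤ n → D j ≤ C0 * b ^ (6 - 97 / 100 * ex b p j)) :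
    ∑ j ∈ Icc 1 n, Fb b p j * G N p j * D j ≤ 4 * C0 / b ^ 2 := by
  have hb := F.hb
  have hb0 : 0 < b := by linarith
  have hN := F.hN
  have E := F.E
  have hpt : ∀ j ∈ Icc 1 n, Fb b p j * G N p j * D j ≤
      3 * C0 * b ^ (-2 : ℝ) * (if 1 ≤ j then (b⁻¹) ^ (j - 1) else 0) +
        2 * C0 * b ^ (-15 : ℝ) * b ^ (-(1 / 100 * ex b p j)) := by
    intro j hj
    rw [Finset.mem_Icc] at hj
    rw [if_pos hj.1]
    have p1 : 0 ≤ 3 * C0 * b ^ (-2 : ℝ) * (b⁻¹) ^ (j - 1) := by positivity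
    have p2 : 0 ≤ 2 * C0 * b ^ (-15 : ℝ) * b ^ (-(1 / 100 * ex b p j)) := by positivity
    rcases Nat.lt_or_ge 30 j with h | h
    · have hFG : Fb b p j * G N p j ≤ 2 * b ^ (6 - 97 / 100 * ex b p j) * b ^ ex b p j := by
        unfold Fb
        rw [if_neg (by omega), ← F.W_eq (by omega : j ≤ N)]
        have := G_le N p (by omega : j ≤ N)
        gcongr
      have hu := E.big (by omega : 30 ≤ j) (by omega)
      calc Fb b p j * G N p j * D j
          ≤ 2 * b ^ (6 - 97 / 100 * ex b p j) * b ^ ex b p j * (C0 * b ^ (6 - 97 / 100 * ex b p j)) := by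
            have := hD2 j h hj.2
            have h0 := hD0 j
            have h00 : 0 ≤ Fb b p j * G N p j := mul_nonneg (Fb_nonneg hb0 j) (G_nonneg N p j)
            gcongr
        _ = 2 * C0 * (b ^ (12 - 94 / 100 * ex b p j)) := by
            have : b ^ (12 - 94 / 100 * ex b p j) =
                b ^ (6 - 97 / 100 * ex b p j) * b ^ ex b p j * b ^ (6 - 97 / 100 * ex b p j) := by
              rw [← Real.rpow_add hb0, ← Real.rpow_add hb0]
              congr 1
              ring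
            rw [this]; ring
        _ ≤ 2 * C0 * (b ^ (-15 : ℝ) * b ^ (-(1 / 100 * ex b p j))) := by
            rw [← Real.rpow_add hb0]
            apply mul_le_mul_of_nonneg_left _ (by positivity)
            apply E.mono
            linarith
        _ ≤ _ := by linarith
    · have hFG := F.FG_clean hj.1 h
      have hu := E.clean (Nat.zero_le j) (by omega)
      rw [E.u0, Nat.sub_zero] at hu
      have hD := hD1 j hj.1 h
      have h3 : b ^ (-ex b p j) ≤ (b⁻¹) ^ j := by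
        rw [E.pow_inv]
        apply E.mono
        linarith
      have h4 : (b⁻¹) ^ j = b⁻¹ * (b⁻¹) ^ (j - 1) := by
        rw [← pow_succ', Nat.sub_add_cancel hj.1]
      have h5 : b ^ (-2 : ℝ) = b⁻¹ * b⁻¹ := by
        rw [Real.rpow_neg hb0.le, Real.rpow_two, sq, mul_inv]
      calc Fb b p j * G N p j * D j ≤ 3 * b⁻¹ * (C0 * (b⁻¹ * (b⁻¹) ^ (j - 1))) := by
            have h0 := hD0 j
            have h6 : D j ≤ C0 * (b⁻¹ * (b⁻¹) ^ (j - 1)) := by
              rw [← h4]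
              exact hD.trans (mul_le_mul_of_nonneg_left h3 hC0)
            gcongr
        _ = 3 * C0 * b ^ (-2 : ℝ) * (b⁻¹) ^ (j - 1) := by rw [h5]; ring
        _ ≤ _ := by linarith
  refine (Finset.sum_le_sum hpt).trans ?_
  rw [Finset.sum_add_distrib, ← Finset.mul_sum, ← Finset.mul_sum, ← Finset.sum_filter]
  have g1 := geom_le E.hb (Icc 1 n) 1
  have g2 := E.sum_le (Icc 1 n) (by
    intro i hi
    rw [Finset.mem_Icc] at hi
    rw [Finset.mem_range]
    omega)
  have e2 : b ^ (-2 : ℝ) = 1 / b ^ 2 := by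
    rw [Real.rpow_neg hb0.le, Real.rpow_two, one_div]
  have e3 : b ^ (-15 : ℝ) * b ≤ 1 / 100 * b ^ (-2 : ℝ) := by
    have h1 : b ^ (-15 : ℝ) * b = b ^ (-14 : ℝ) := by
      conv_lhs => rw [← Real.rpow_one b, ← Real.rpow_mul hb0.le, ← Real.rpow_add hb0]
      norm_num
    rw [h1]
    have h2 : b ^ (-14 : ℝ) ≤ b ^ (-1 + -2 : ℝ) := E.mono (by norm_num)
    refine h2.trans ?_
    rw [Real.rpow_add hb0, Real.rpow_neg_one]
    have h3 : b⁻¹ ≤ 1 / 100 := by
      rw [inv_eq_one_div]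
      exact one_div_le_one_div_of_le (by norm_num) hb
    gcongr
  have q1 : 3 * C0 * b ^ (-2 : ℝ) * ∑ j ∈ Icc 1 n with 1 ≤ j, (b⁻¹) ^ (j - 1) ≤
      3 * C0 * b ^ (-2 : ℝ) * (16 / 15) := by gcongr
  have q2 : 2 * C0 * b ^ (-15 : ℝ) * ∑ j ∈ Icc 1 n, b ^ (-(1 / 100 * ex b p j)) ≤
      2 * C0 * (1 / 100 * b ^ (-2 : ℝ)) := by
    calc 2 * C0 * b ^ (-15 : ℝ) * ∑ j ∈ Icc 1 n, b ^ (-(1 / 100 * ex b p j))
        ≤ 2 * C0 * b ^ (-15 : ℝ) * b := by gcongr
      _ = 2 * C0 * (b ^ (-15 : ℝ) * b) := by ring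
      _ ≤ _ := by gcongr
  have q3 : 0 ≤ C0 * b ^ (-2 : ℝ) := by positivity
  have q4 : 4 * C0 / b ^ 2 = 4 * (C0 * b ^ (-2 : ℝ)) := by rw [e2]; ring
  rw [q4]
  nlinarith

/-- upper bound of the fields -/
theorem FE.FG_late (F : FE b N a p) {Y : ℝ} (hY1 : 1 ≤ Y) (hY : ∀ j < N, W p j ≤ Y) {j : ℕ}
    (h30 : 30 < j) (hj : j ≤ N) :
    Fb b p j * G N p j ≤ 2 * b ^ (8 : ℝ) * Y ^ (4 / 100 : ℝ) *
      (if j < N then b ^ (-1 : ℝ) * b ^ (-(1 / 100 * ex b p j)) else 1) := by
  have hb := F.hb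
  have hb0 : 0 < b := by linarith
  have hN := F.hN
  have E := F.E
  unfold Fb
  rw [if_neg (by omega)]
  split_ifs with h
  · have hu := E.nonneg (by omega : j ≤ N - 1)
    have hW : b ^ ex b p j ≤ Y := by
      rw [← F.W_eq hj]; exact hY j h
    have h1 : b ^ (4 / 100 * ex b p j) ≤ Y ^ (4 / 100 : ℝ) := by
      rw [mul_comm, Real.rpow_mul hb0.le]
      exact Real.rpow_le_rpow (by positivity) hW (by norm_num)
    calc 2 * b ^ (6 - 97 / 100 * ex b p j) * G N p j
        ≤ 2 * b ^ (6 - 97 / 100 * ex b p j) * W p j := by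
          have := G_le N p hj
          gcongr
      _ = 2 * (b ^ (6 : ℝ) * b ^ (4 / 100 * ex b p j) * b ^ (-(1 / 100 * ex b p j))) := by
          rw [F.W_eq hj, mul_assoc, ← Real.rpow_add hb0, ← Real.rpow_add hb0, ← Real.rpow_add hb0]
          congr 2
          ring
      _ ≤ 2 * (b ^ (6 : ℝ) * Y ^ (4 / 100 : ℝ) * b ^ (-(1 / 100 * ex b p j))) := by gcongr
      _ ≤ 2 * (b ^ (7 : ℝ) * Y ^ (4 / 100 : ℝ) * b ^ (-(1 / 100 * ex b p j))) := by
          have : b ^ (6 : ℝ) ≤ b ^ (7 : ℝ) := E.mono (by norm_num)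
          gcongr
      _ = _ := by
          have : b ^ (7 : ℝ) = b ^ (8 : ℝ) * b ^ (-1 : ℝ) := by
            rw [← Real.rpow_add hb0]; norm_num
          rw [this]; ring
  · have e : j = N := by omega
    subst e
    have hl := F.last
    have hu := E.nonneg (le_refl (j - 1))
    have hW : b ^ ex b p (j - 1) ≤ Y := by
      rw [← F.W_eq (by omega : j - 1 ≤ j)]; exact hY (j - 1) (by omega)
    have h1 : b ^ (4 / 100 * ex b p (j - 1)) ≤ Y ^ (4 / 100 : ℝ) := by
      rw [mul_comm, Real.rpow_mul hb0.le]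
      exact Real.rpow_le_rpow (by positivity) hW (by norm_num)
    calc 2 * b ^ (6 - 97 / 100 * ex b p j) * G j p j
        ≤ 2 * b ^ (6 - 97 / 100 * ex b p j) * W p (j - 1) := by
          have := G_le_pred j p j
          gcongr
      _ = 2 * b ^ (6 - 97 / 100 * ex b p j + ex b p (j - 1)) := by
          rw [F.W_eq (by omega : j - 1 ≤ j), mul_assoc, ← Real.rpow_add hb0]
      _ ≤ 2 * b ^ (8 + 4 / 100 * ex b p (j - 1)) := by
          apply mul_le_mul_of_nonneg_left _ (by norm_num)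
          apply E.mono
          linarith
      _ = 2 * (b ^ (8 : ℝ) * b ^ (4 / 100 * ex b p (j - 1))) := by rw [Real.rpow_add hb0]
      _ ≤ 2 * (b ^ (8 : ℝ) * Y ^ (4 / 100 : ℝ)) := by gcongr
      _ = _ := by ring

/-- (S2) -/
theorem FE.S2 (F : FE b N a p) {Y : ℝ} (hY1 : 1 ≤ Y) (hY : ∀ j < N, W p j ≤ Y) :
    ∑ j ∈ Icc 1 N, Fb b p j * G N p j ≤ 5 * b ^ (8 : ℝ) * Y ^ (4 / 100 : ℝ) := by
  have hb := F.hb
  have hb0 : 0 < b := by linarith
  have hN := F.hN
  have E := F.E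
  have hYp : 1 ≤ Y ^ (4 / 100 : ℝ) := Real.one_le_rpow hY1 (by norm_num)
  have hpt : ∀ j ∈ Icc 1 N, Fb b p j * G N p j ≤
      (if j ≤ 30 then 3 * b⁻¹ else 0) + 2 * b ^ (8 : ℝ) * Y ^ (4 / 100 : ℝ) *
      (if j < N then b ^ (-1 : ℝ) * b ^ (-(1 / 100 * ex b p j)) else 1) := by
    intro j hj
    rw [Finset.mem_Icc] at hj
    rcases Nat.lt_or_ge 30 j with h | h
    · rw [if_neg (by omega), zero_add]
      exact F.FG_late hY1 hY h hj.2
    · rw [if_pos h]
      have h1 := F.FG_clean hj.1 h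
      have h2 : 0 ≤ 2 * b ^ (8 : ℝ) * Y ^ (4 / 100 : ℝ) *
        (if j < N then b ^ (-1 : ℝ) * b ^ (-(1 / 100 * ex b p j)) else 1) := by
        split_ifs <;> positivity
      linarith
  refine (Finset.sum_le_sum hpt).trans ?_
  rw [Finset.sum_add_distrib, ← Finset.mul_sum]
  have s1 : ∑ j ∈ Icc 1 N, (if j ≤ 30 then 3 * b⁻¹ else 0) ≤ 90 * b⁻¹ := by
    rw [← Finset.sum_filter, Finset.sum_const, nsmul_eq_mul]
    have hc : ((Icc 1 N).filter (fun j => j ≤ 30)).card ≤ 30 := by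
      calc ((Icc 1 N).filter (fun j => j ≤ 30)).card ≤ (Icc 1 30).card := by
            apply Finset.card_le_card
            intro j hj
            rw [Finset.mem_filter, Finset.mem_Icc] at hj
            rw [Finset.mem_Icc]
            omega
        _ = 30 := by simp
    have hc' : (((Icc 1 N).filter (fun j => j ≤ 30)).card : ℝ) ≤ 30 := by exact_mod_cast hc
    have hi : 0 ≤ b⁻¹ := by positivity
    nlinarith
  have s2 : ∑ j ∈ Icc 1 N, (if j < N then b ^ (-1 : ℝ) * b ^ (-(1 / 100 * ex b p j)) else 1) ≤ 2 := by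
    obtain ⟨N', rfl⟩ : ∃ N', N = N' + 1 := ⟨N - 1, by omega⟩
    rw [← Finset.insert_Icc_right_eq_Icc_add_one (by omega : 1 ≤ N' + 1), Finset.sum_insert (by simp)]
    rw [if_neg (lt_irrefl _)]
    have e : ∑ j ∈ Icc 1 N', (if j < N' + 1 then b ^ (-1 : ℝ) * b ^ (-(1 / 100 * ex b p j)) else 1) =
        b ^ (-1 : ℝ) * ∑ j ∈ Icc 1 N', b ^ (-(1 / 100 * ex b p j)) := by
      rw [Finset.mul_sum]
      apply Finset.sum_congr rfl
      intro j hj
      rw [Finset.mem_Icc] at hj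
      rw [if_pos (by omega)]
    rw [e]
    have g2 := E.sum_le (Icc 1 N') (by
      intro i hi
      rw [Finset.mem_Icc] at hi
      rw [Finset.mem_range]
      omega)
    have : b ^ (-1 : ℝ) * ∑ j ∈ Icc 1 N', b ^ (-(1 / 100 * ex b p j)) ≤ b ^ (-1 : ℝ) * b := by gcongr
    rw [Real.rpow_neg_one, inv_mul_cancel₀ hb0.ne'] at this
    rw [Real.rpow_neg_one]
    linarith
  have h8 : (1 : ℝ) ≤ b ^ (8 : ℝ) := Real.one_le_rpow (by linarith) (by norm_num)
  have hP : 1 ≤ b ^ (8 : ℝ) * Y ^ (4 / 100 : ℝ) := by nlinarith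
  have h9 : b⁻¹ ≤ 1 / 100 := by
    rw [inv_eq_one_div]
    exact one_div_le_one_div_of_le (by norm_num) hb
  have s3 : 2 * b ^ (8 : ℝ) * Y ^ (4 / 100 : ℝ) *
      ∑ j ∈ Icc 1 N, (if j < N then b ^ (-1 : ℝ) * b ^ (-(1 / 100 * ex b p j)) else 1) ≤
      2 * b ^ (8 : ℝ) * Y ^ (4 / 100 : ℝ) * 2 := by gcongr
  linarith

/-- (S3) -/
theorem FE.S3 (F : FE b N a p) {Y : ℝ} (hY1 : 1 ≤ Y) (hY : ∀ j < N, W p j ≤ Y) :
    ∑ j ∈ Icc 1 N, Fb b p j * G N p j * G N p j ≤ 5 * b ^ (8 : ℝ) * Y ^ (104 / 100 : ℝ) := by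
  have hb0 : 0 < b := by linarith [F.hb]
  have hY0 : 0 < Y := by linarith
  have h : ∑ j ∈ Icc 1 N, Fb b p j * G N p j * G N p j ≤ ∑ j ∈ Icc 1 N, Fb b p j * G N p j * Y := by
    apply Finset.sum_le_sum
    intro j hj
    rw [Finset.mem_Icc] at hj
    have h1 := (G_le_pred N p j).trans (hY (j - 1) (by omega))
    have h00 : 0 ≤ Fb b p j * G N p j := mul_nonneg (Fb_nonneg hb0 j) (G_nonneg N p j)
    gcongr
  refine h.trans ?_
  rw [← Finset.sum_mul]
  calc (∑ j ∈ Icc 1 N, Fb b p j * G N p j) * Y ≤ 5 * b ^ (8 : ℝ) * Y ^ (4 / 100 : ℝ) * Y := by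
        have := F.S2 hY1 hY
        gcongr
    _ = 5 * b ^ (8 : ℝ) * (Y ^ (4 / 100 : ℝ) * Y ^ (1 : ℝ)) := by rw [Real.rpow_one]; ring
    _ = _ := by rw [← Real.rpow_add hY0]; norm_num

/-- **(LIN)** -/
theorem FE.lin (F : FE b N a p) {e R D : ℕ → ℝ} {T : ℕ} (hT : T ≤ N) {κ η M : ℝ} (hκ : κ ≤ 1) (hη : η ≤ 1 / 4)
    (he : ∀ m < T, e (m + 2) = a (m + 1) * e (m + 1) - e m + R (m + 1))
    (hR : ∀ j ∈ Icc 1 T, |e j| ≤ 2 * |e 1| * G N p j → |R j| ≤ M * D j * |e j|)
    (hMD : ∀ j ∈ Icc 1 T, 0 ≤ M * D j)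
    (h0 : |e 0| ≤ κ * |e 1|)
    (hsum : ∑ j ∈ Icc 1 T, Fb b p j * G N p j * (M * D j) ≤ η) :
    ∀ m, 1 ≤ m → m ≤ T + 1 → |e m| ≤ 2 * |e 1| * G N p m ∧
      |e m - e 1 * p m| ≤ (κ * (3 * b⁻¹) + 2 * η) * |e 1| * G N p m := by
  have hb := F.hb
  have hb0 : 0 < b := by linarith
  have hN := F.hN
  have hκ0 : 0 ≤ κ * |e 1| := (abs_nonneg _).trans h0
  set ê : ℕ → ℝ := fun m => if m = 0 then 0 else e m - e 1 * p m + e 0 * fund a 1 m with hê
  have hp := F.hp
  have hv := voc (a := a) (a' := fun j => a j + R j) (e := ê) (s := 0) (N := T) (by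
    intro m _ hm
    simp only [hê]
    rcases Nat.eq_zero_or_pos m with h | h
    · subst h
      have h1 := he 0 hm
      have h2 := hp 0 (by omega)
      simp only [Nat.zero_add] at h1 h2 ⊢
      rw [if_neg (by norm_num), if_neg (by norm_num), if_pos trivial, h1, h2, F.p1, F.p0, fund_self]
      have : fund a 1 2 = 1 := fund_succ a 1
      rw [this]
      ring
    · have h1 := he m hm
      have h2 := hp m (by omega)
      rw [if_neg (by omega), if_neg (by omega), if_neg (by omega), h1, h2, fund_rec a 1 m h]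
      ring) (by simp only [hê]; simp) (by
        simp only [hê]
        rw [if_neg (by norm_num), F.p1, fund_self]
        ring)
  have hrep : ∀ m, 1 ≤ m → m ≤ T + 1 → e m - e 1 * p m =
      -(e 0 * fund a 1 m) + ∑ j ∈ Ico 1 m, fund a j m * R j := by
    intro m hm1 hm
    have key : ∀ j, (a j + R j) - a j = R j := fun j => by ring
    have hh : ê m = ∑ j ∈ Ico 1 m, fund a j m * R j := by
      rcases Nat.lt_or_ge T m with h1 | h1
      · have e' : m = T + 1 := by omega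
        subst e'
        have := (hv T (Nat.zero_le _) le_rfl).2
        simp only [key] at this
        exact this
      · have := (hv m (Nat.zero_le _) h1).1
        simp only [key] at this
        exact this
    simp only [hê] at hh
    rw [if_neg (by omega)] at hh
    linarith
  have hF1 : ∀ m, 1 ≤ m → m ≤ T + 1 → |fund a 1 m| ≤ 3 * b⁻¹ * G N p m := by
    intro m hm1 hm
    rcases Nat.eq_or_lt_of_le hm1 with h | h
    · rw [← h, fund_self, abs_zero]
      have := G_nonneg N p 1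
      positivity
    · refine (F.fund_G h (by omega)).trans ?_
      apply mul_le_mul_of_nonneg_right _ (G_nonneg N p m)
      unfold Fb
      rw [if_pos (by norm_num)]
      apply mul_le_mul_of_nonneg_left _ (by norm_num)
      have h1 := F.E.clean (Nat.zero_le 1) (by norm_num)
      rw [F.E.u0] at h1
      norm_num at h1
      calc b ^ (-ex b p 1) ≤ b ^ (-1 : ℝ) := F.E.mono (by linarith)
        _ = b⁻¹ := Real.rpow_neg_one b
  have hbi : b⁻¹ ≤ 1 / 100 := by
    rw [inv_eq_one_div]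
    exact one_div_le_one_div_of_le (by norm_num) hb
  have hbi0 : 0 ≤ b⁻¹ := by positivity
  intro m
  induction m using Nat.strong_induction_on with
  | _ m ih =>
    intro hm1 hm
    have hG := G_nonneg N p m
    have hA1 : |e m - e 1 * p m| ≤ κ * |e 1| * (3 * b⁻¹ * G N p m) + 2 * |e 1| * G N p m * η := by
      rw [hrep m hm1 hm]
      refine (abs_add_le _ _).trans ?_
      rw [abs_neg, abs_mul]
      have t1 : |e 0| * |fund a 1 m| ≤ κ * |e 1| * (3 * b⁻¹ * G N p m) :=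
        mul_le_mul h0 (hF1 m hm1 hm) (abs_nonneg _) hκ0
      have t2 : |∑ j ∈ Ico 1 m, fund a j m * R j| ≤ 2 * |e 1| * G N p m * η := by
        calc |∑ j ∈ Ico 1 m, fund a j m * R j| ≤ ∑ j ∈ Ico 1 m, |fund a j m * R j| :=
              Finset.abs_sum_le_sum_abs _ _
          _ ≤ ∑ j ∈ Ico 1 m, 2 * |e 1| * G N p m * (Fb b p j * G N p j * (M * D j)) := by
              apply Finset.sum_le_sum
              intro j hj
              rw [Finset.mem_Ico] at hj
              have i1 := (ih j hj.2 hj.1 (by omega)).1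
              have hjT : j ∈ Icc 1 T := Finset.mem_Icc.mpr ⟨hj.1, by omega⟩
              have i2 := hR j hjT i1
              have i3 := F.fund_G hj.2 (by omega : m ≤ N + 1)
              have i4 := hMD j hjT
              have i5 : |R j| ≤ M * D j * (2 * |e 1| * G N p j) :=
                i2.trans (mul_le_mul_of_nonneg_left i1 i4)
              rw [abs_mul]
              calc |fund a j m| * |R j| ≤ (Fb b p j * G N p m) * (M * D j * (2 * |e 1| * G N p j)) :=
                    mul_le_mul i3 i5 (abs_nonneg _) (mul_nonneg (Fb_nonneg hb0 j) hG)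
                _ = _ := by ring
          _ = 2 * |e 1| * G N p m * ∑ j ∈ Ico 1 m, Fb b p j * G N p j * (M * D j) := by
              rw [Finset.mul_sum]
          _ ≤ 2 * |e 1| * G N p m * ∑ j ∈ Icc 1 T, Fb b p j * G N p j * (M * D j) := by
              apply mul_le_mul_of_nonneg_left _ (by positivity)
              apply Finset.sum_le_sum_of_subset_of_nonneg
              · intro j hj
                rw [Finset.mem_Ico] at hj
                rw [Finset.mem_Icc]
                omega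
              · intro j hj _
                exact mul_nonneg (mul_nonneg (Fb_nonneg hb0 j) (G_nonneg N p j)) (hMD j hj)
          _ ≤ _ := mul_le_mul_of_nonneg_left hsum (by positivity)
      linarith
    refine ⟨?_, by linarith⟩
    have hpG := F.p_le_G m
    have h5 : |e m| ≤ |e m - e 1 * p m| + |e 1| * |p m| := by
      have := abs_add_le (e m - e 1 * p m) (e 1 * p m)
      rwa [sub_add_cancel, abs_mul] at this
    have h6 : |e 1| * |p m| ≤ |e 1| * G N p m := mul_le_mul_of_nonneg_left hpG (abs_nonneg _)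
    have h7 : 0 ≤ |e 1| * G N p m := by positivity
    have h8 : κ * |e 1| * (3 * b⁻¹ * G N p m) ≤ 3 / 100 * (|e 1| * G N p m) := by
      have : κ * (3 * b⁻¹) ≤ 3 / 100 := by nlinarith
      nlinarith
    have h9 : 2 * |e 1| * G N p m * η ≤ 1 / 2 * (|e 1| * G N p m) := by nlinarith
    linarith

end Crest.Agent.R128.CoreF
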