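import Mathlib
import Crest.Agent.R128.Iter

/-!
Row 128 (helper754): counting (Chernoff) form of the payment.
`B l` = union of dyadic cells of a deeper level, `volume (B l ∩ J) ≤ (1 - δ) * volume J` for every cell
`J` of level `l`.  Then the set of points which lie in `B l` for at least `(1 - δ/4)` of the levels has
measure at most `exp (- δ N / 3)`.
-/

set_option autoImplicit false
open MeasureTheory Set
open scoped ENNReal

namespace Crest.Agent.R128.CountPay

open Crest.Agent.R128.Iter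

/-- `B` is a union of dyadic cells of level `n` -/
def IsUnion (n : ℕ) (B : Set ℝ) : Prop := ∀ t t', idx n t = idx n t' → (t ∈ B ↔ t' ∈ B)

theorem idx_eq_of_le {n n' : ℕ} (h : n ≤ n') {t t' : ℝ} (ht : idx n' t = idx n' t') :
    idx n t = idx n t' := by
  obtain ⟨g, rfl⟩ := Nat.exists_eq_add_of_le h
  have h1 := idx_bounds (n := n) (g := g) (mem_cell_idx n t)
  have h2 := idx_bounds (n := n) (g := g) (mem_cell_idx n t')
  rw [ht] at h1
  have hg : (0:ℤ) < 2 ^ g := by positivity
  have h3 : idx n t * 2 ^ g < (idx n t' + 1) * 2 ^ g := lt_of_le_of_lt h1.1 h2.2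
  have h4 : idx n t' * 2 ^ g < (idx n t + 1) * 2 ^ g := lt_of_le_of_lt h2.1 h1.2
  have h5 := lt_of_mul_lt_mul_right h3 hg.le
  have h6 := lt_of_mul_lt_mul_right h4 hg.le
  omega

theorem IsUnion.mono {n n' : ℕ} (h : n ≤ n') {B : Set ℝ} (hB : IsUnion n B) : IsUnion n' B :=
  fun _ _ ht => hB _ _ (idx_eq_of_le h ht)

theorem isUnion_cell (n : ℕ) (m : ℤ) : IsUnion n (cell n m) := by
  intro t t' h
  rw [mem_cell_iff, mem_cell_iff, h]

theorem IsUnion.inter {n : ℕ} {B B' : Set ℝ} (hB : IsUnion n B) (hB' : IsUnion n B') :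
    IsUnion n (B ∩ B') := fun t t' h => and_congr (hB t t' h) (hB' t t' h)

theorem IsUnion.compl {n : ℕ} {B : Set ℝ} (hB : IsUnion n B) : IsUnion n Bᶜ :=
  fun t t' h => not_congr (hB t t' h)

theorem IsUnion.eq {n : ℕ} {B : Set ℝ} (hB : IsUnion n B) :
    B = ⋃ m ∈ {m : ℤ | ∃ t ∈ B, idx n t = m}, cell n m := by
  ext t
  constructor
  · intro ht
    rw [mem_iUnion₂]
    exact ⟨idx n t, ⟨t, ht, rfl⟩, mem_cell_idx n t⟩
  · intro h
    obtain ⟨m, ⟨t', ht', hm⟩, ht⟩ := mem_iUnion₂.1 h
    exact (hB t t' (by rw [hm, ← (mem_cell_iff n m t).1 ht])).2 ht'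

theorem IsUnion.measurableSet {n : ℕ} {B : Set ℝ} (hB : IsUnion n B) : MeasurableSet B := by
  rw [hB.eq]
  exact MeasurableSet.biUnion (Set.to_countable _) fun m _ => measurableSet_cell n m

/-- an estimate of an integral on all cells of level `n` gives it on all unions of such cells -/
theorem IsUnion.lintegral_le {n : ℕ} {B : Set ℝ} (hB : IsUnion n B) {W : ℝ → ℝ≥0∞} {r : ℝ≥0∞}
    (h : ∀ m, ∫⁻ t in cell n m, W t ≤ r * volume (cell n m)) :
    ∫⁻ t in B, W t ≤ r * volume B := by
  have hd : PairwiseDisjoint {m : ℤ | ∃ t ∈ B, idx n t = m} (cell n) :=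
    fun m _ m' _ hm => cell_disjoint n hm
  rw [hB.eq, lintegral_biUnion (Set.to_countable _) (fun m _ => measurableSet_cell n m) hd,
    measure_biUnion (Set.to_countable _) hd (fun m _ => measurableSet_cell n m),
    ← ENNReal.tsum_mul_left]
  exact ENNReal.tsum_le_tsum fun m => h m

/-- weight -/
noncomputable def w (θ : ℝ≥0∞) (B : Set ℝ) (t : ℝ) : ℝ≥0∞ := B.indicator 1 t + Bᶜ.indicator (fun _ => θ) t

theorem w_mem {θ : ℝ≥0∞} {B : Set ℝ} {t : ℝ} (h : t ∈ B) : w θ B t = 1 := by
  unfold w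
  rw [indicator_of_mem h, indicator_of_notMem (by simpa using h)]
  simp

theorem w_not_mem {θ : ℝ≥0∞} {B : Set ℝ} {t : ℝ} (h : t ∉ B) : w θ B t = θ := by
  unfold w
  rw [indicator_of_notMem h, indicator_of_mem (by simpa using h)]
  simp

/-- the product of the weights of the steps `j, …, N - 1` -/
noncomputable def W (θ : ℝ≥0∞) (B : ℕ → Set ℝ) (N j : ℕ) (t : ℝ) : ℝ≥0∞ :=
  ∏ i ∈ Finset.Ico j N, w θ (B i) t

theorem lintegral_W {B : ℕ → Set ℝ} {n : ℕ → ℕ} {N : ℕ} {δ θ : ℝ≥0∞} (hδ : δ ≤ 1) (hθ : θ ≤ 1)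
    (hn : ∀ j, j < N → n j ≤ n (j + 1))
    (hB : ∀ j, j < N → IsUnion (n (j + 1)) (B j))
    (hvol : ∀ j, j < N → ∀ m, volume (B j ∩ cell (n j) m) ≤ (1 - δ) * volume (cell (n j) m)) :
    ∀ d j, j + d = N → ∀ m,
      ∫⁻ t in cell (n j) m, W θ B N j t ≤ ((1 - δ) + θ * δ) ^ d * volume (cell (n j) m) := by
  intro d
  induction d with
  | zero =>
    intro j hj m
    have : ∀ t, W θ B N j t = 1 := by
      intro t
      unfold W
      rw [Finset.Ico_eq_empty (by omega), Finset.prod_empty]
    simp [this]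
  | succ d ih =>
    intro j hj m
    have hjN : j < N := by omega
    set C := cell (n j) m with hC
    have hCU : IsUnion (n (j + 1)) C := (isUnion_cell (n j) m).mono (hn j hjN)
    have hBj := hB j hjN
    have hih := ih (j + 1) (by omega)
    have hW : ∀ t, W θ B N j t = w θ (B j) t * W θ B N (j + 1) t := by
      intro t
      unfold W
      rw [Finset.prod_eq_prod_Ico_succ_bot hjN]
    have h1 : ∫⁻ t in C, W θ B N j t =
        (∫⁻ t in C ∩ B j, W θ B N j t) + ∫⁻ t in C \ B j, W θ B N j t :=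
      (lintegral_inter_add_sdiff _ _ hBj.measurableSet).symm
    have h2 : ∫⁻ t in C ∩ B j, W θ B N j t ≤ ((1 - δ) + θ * δ) ^ d * volume (C ∩ B j) := by
      have e : ∫⁻ t in C ∩ B j, W θ B N j t = ∫⁻ t in C ∩ B j, W θ B N (j + 1) t := by
        refine setLIntegral_congr_fun (hCU.measurableSet.inter hBj.measurableSet) ?_
        intro t ht
        show W θ B N j t = W θ B N (j + 1) t
        rw [hW, w_mem ht.2, one_mul]
      rw [e]
      exact (hCU.inter hBj).lintegral_le hih
    have h3 : ∫⁻ t in C \ B j, W θ B N j t ≤ θ * (((1 - δ) + θ * δ) ^ d * volume (C \ B j)) := by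
      have e : ∫⁻ t in C \ B j, W θ B N j t = ∫⁻ t in C \ B j, θ * W θ B N (j + 1) t := by
        refine setLIntegral_congr_fun (hCU.measurableSet.diff hBj.measurableSet) ?_
        intro t ht
        show W θ B N j t = θ * W θ B N (j + 1) t
        rw [hW, w_not_mem ht.2]
      rw [e, lintegral_const_mul' _ _ (ne_top_of_le_ne_top ENNReal.one_ne_top hθ)]
      gcongr
      exact (hCU.inter hBj.compl).lintegral_le hih
    have hCfin : volume C ≠ ∞ := volume_cell_ne_top _ _
    have h4 : volume (C ∩ B j) + θ * volume (C \ B j) ≤ ((1 - δ) + θ * δ) * volume C := by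
      have hx : volume (C ∩ B j) ≤ (1 - δ) * volume C := by
        rw [inter_comm]; exact hvol j hjN m
      have hsum : volume (C ∩ B j) + volume (C \ B j) = volume C :=
        measure_inter_add_sdiff _ hBj.measurableSet
      -- go to real numbers
      have hafin : volume (C ∩ B j) ≠ ∞ := ne_top_of_le_ne_top hCfin (measure_mono inter_subset_left)
      have hbfin : volume (C \ B j) ≠ ∞ := ne_top_of_le_ne_top hCfin (measure_mono sdiff_subset)
      have hθfin : θ ≠ ∞ := ne_top_of_le_ne_top ENNReal.one_ne_top hθ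
      have hδfin : δ ≠ ∞ := ne_top_of_le_ne_top ENNReal.one_ne_top hδ
      lift volume (C ∩ B j) to NNReal using hafin with a ha
      lift volume (C \ B j) to NNReal using hbfin with b hb
      lift volume C to NNReal using hCfin with c hc
      lift θ to NNReal using hθfin with θ' hθ'
      lift δ to NNReal using hδfin with δ' hδ'
      have hθ1 : θ' ≤ 1 := by exact_mod_cast hθ
      have hδ1 : δ' ≤ 1 := by exact_mod_cast hδ
      have hsum' : a + b = c := by exact_mod_cast hsum
      have hx' : a ≤ (1 - δ') * c := by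
        have : ((a : ℝ≥0∞)) ≤ (((1 - δ') * c : NNReal) : ℝ≥0∞) := by
          push_cast
          exact hx
        exact_mod_cast this
      have goal' : a + θ' * b ≤ ((1 - δ') + θ' * δ') * c := by
        rw [← NNReal.coe_le_coe]
        have hx'' : (a : ℝ) ≤ (1 - δ') * c := by
          have := NNReal.coe_le_coe.2 hx'
          rwa [NNReal.coe_mul, NNReal.coe_sub hδ1, NNReal.coe_one] at this
        have hs'' : (a : ℝ) + b = c := by exact_mod_cast hsum'
        have hθ'' : (θ' : ℝ) ≤ 1 := by exact_mod_cast hθ1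
        rw [NNReal.coe_add, NNReal.coe_mul, NNReal.coe_mul, NNReal.coe_add, NNReal.coe_sub hδ1,
          NNReal.coe_mul, NNReal.coe_one]
        nlinarith [mul_nonneg (sub_nonneg.2 hθ'') (sub_nonneg.2 hx'')]
      have : ((a + θ' * b : NNReal) : ℝ≥0∞) ≤ ((((1 - δ') + θ' * δ') * c : NNReal) : ℝ≥0∞) := by
        exact_mod_cast goal'
      push_cast at this
      exact this
    calc ∫⁻ t in C, W θ B N j t
        ≤ ((1 - δ) + θ * δ) ^ d * volume (C ∩ B j) +
          θ * (((1 - δ) + θ * δ) ^ d * volume (C \ B j)) := by rw [h1]; gcongr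
      _ = ((1 - δ) + θ * δ) ^ d * (volume (C ∩ B j) + θ * volume (C \ B j)) := by ring
      _ ≤ ((1 - δ) + θ * δ) ^ d * (((1 - δ) + θ * δ) * volume C) := by gcongr
      _ = ((1 - δ) + θ * δ) ^ (d + 1) * volume C := by rw [pow_succ, mul_assoc]

open Classical in
/-- number of steps `j < N` with `t ∈ B j` -/
noncomputable def cnt (B : ℕ → Set ℝ) (N : ℕ) (t : ℝ) : ℕ :=
  ((Finset.range N).filter fun j => t ∈ B j).card

theorem W_eq (B : ℕ → Set ℝ) (N : ℕ) (t : ℝ) (θ : ℝ≥0∞) :
    W θ B N 0 t = θ ^ (N - cnt B N t) := by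
  classical
  unfold W cnt
  rw [← Finset.range_eq_Ico]
  have h : ∀ i ∈ Finset.range N, w θ (B i) t = if t ∈ B i then 1 else θ := by
    intro i _
    split_ifs with h
    · exact w_mem h
    · exact w_not_mem h
  rw [Finset.prod_congr rfl h, Finset.prod_ite, Finset.prod_const_one, one_mul, Finset.prod_const]
  congr 1
  have := Finset.card_filter_add_card_filter_not (s := Finset.range N) (fun j => t ∈ B j)
  rw [Finset.card_range] at this
  omega

theorem exp_num {δ : ℝ} (hδ0 : 0 ≤ δ) (hδ1 : δ ≤ 1) (N : ℕ) :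
    Real.exp (δ * N / 4) * ((1 - δ) + Real.exp (-1) * δ) ^ N ≤ Real.exp (-(δ * N / 3)) := by
  have he : Real.exp (-1) ≤ 5 / 12 := by
    rw [Real.exp_neg, inv_le_comm₀ (Real.exp_pos _) (by norm_num)]
    have := Real.exp_one_gt_d9
    norm_num at this ⊢
    linarith
  have h1 : (1 - δ) + Real.exp (-1) * δ ≤ Real.exp (-(7 / 12 * δ)) := by
    have := Real.add_one_le_exp (-(7 / 12 * δ))
    nlinarith
  have h0 : 0 ≤ (1 - δ) + Real.exp (-1) * δ := by
    have := (Real.exp_pos (-1)).le
    have := mul_nonneg this hδ0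
    linarith
  calc Real.exp (δ * N / 4) * ((1 - δ) + Real.exp (-1) * δ) ^ N
      ≤ Real.exp (δ * N / 4) * Real.exp (-(7 / 12 * δ)) ^ N := by gcongr
    _ = Real.exp (-(δ * N / 3)) := by
        rw [← Real.exp_nat_mul, ← Real.exp_add]
        congr 1
        ring

theorem measurable_W {B : ℕ → Set ℝ} {N : ℕ} {θ : ℝ≥0∞} (hB : ∀ j, j < N → MeasurableSet (B j)) :
    Measurable (W θ B N 0) := by
  unfold W
  refine Finset.measurable_prod _ fun i hi => ?_
  rw [Finset.mem_Ico] at hi
  exact (measurable_one.indicator (hB i hi.2)).add (measurable_const.indicator (hB i hi.2).compl)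

/-- **Counting form of the payment, one residue class.** -/
theorem count_one {B : ℕ → Set ℝ} {n : ℕ → ℕ} {N : ℕ} {δ : ℝ} (hδ0 : 0 ≤ δ) (hδ1 : δ ≤ 1)
    (hn : ∀ j, j < N → n j ≤ n (j + 1))
    (hB : ∀ j, j < N → IsUnion (n (j + 1)) (B j))
    (hvol : ∀ j, j < N → ∀ m,
      volume (B j ∩ cell (n j) m) ≤ ENNReal.ofReal (1 - δ) * volume (cell (n j) m))
    {U : Set ℝ} (hU : IsUnion (n 0) U) :
    volume {t | t ∈ U ∧ (1 - δ / 4) * N ≤ cnt B N t} ≤
      ENNReal.ofReal (Real.exp (-(δ * N / 3))) * volume U := by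
  classical
  set θ : ℝ≥0∞ := ENNReal.ofReal (Real.exp (-1)) with hθ
  have hθ1 : θ ≤ 1 := by
    rw [hθ, ENNReal.ofReal_le_one]
    exact Real.exp_le_one_iff.2 (by norm_num)
  have hδe : (1:ℝ≥0∞) - ENNReal.ofReal δ = ENNReal.ofReal (1 - δ) := by
    rw [ENNReal.ofReal_sub _ hδ0, ENNReal.ofReal_one]
  have hr : ((1:ℝ≥0∞) - ENNReal.ofReal δ) + θ * ENNReal.ofReal δ =
      ENNReal.ofReal ((1 - δ) + Real.exp (-1) * δ) := by
    rw [hδe, hθ, ← ENNReal.ofReal_mul (Real.exp_pos _).le, ← ENNReal.ofReal_add (by linarith)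
      (mul_nonneg (Real.exp_pos _).le hδ0)]
  have hmain := lintegral_W (B := B) (n := n) (N := N) (δ := ENNReal.ofReal δ) (θ := θ)
    (by rw [ENNReal.ofReal_le_one]; exact hδ1) hθ1 hn hB
    (fun j hj m => by rw [hδe]; exact hvol j hj m) N 0 (by omega)
  rw [hr] at hmain
  have hInt := hU.lintegral_le hmain
  -- Markov
  set E : Set ℝ := {t | t ∈ U ∧ (1 - δ / 4) * N ≤ cnt B N t} with hE
  have hlow : ∀ t ∈ E, ENNReal.ofReal (Real.exp (-(δ * N / 4))) ≤ W θ B N 0 t := by
    intro t ht
    rw [W_eq, hθ, ← ENNReal.ofReal_pow (Real.exp_pos _).le, ← Real.exp_nat_mul]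
    apply ENNReal.ofReal_le_ofReal
    apply Real.exp_le_exp.2
    have h1 := ht.2
    have h2 : cnt B N t ≤ N := by
      unfold cnt
      exact (Finset.card_filter_le _ _).trans (by simp)
    rw [Nat.cast_sub h2]
    nlinarith
  have hEU : E ⊆ U := fun t ht => ht.1
  have h1 : ENNReal.ofReal (Real.exp (-(δ * N / 4))) * volume E ≤ ∫⁻ t in U, W θ B N 0 t := by
    calc ENNReal.ofReal (Real.exp (-(δ * N / 4))) * volume E
        = ∫⁻ _ in E, ENNReal.ofReal (Real.exp (-(δ * N / 4))) := by
          rw [setLIntegral_const]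
      _ ≤ ∫⁻ t in E, W θ B N 0 t := setLIntegral_mono (measurable_W fun j hj =>
          (hB j hj).measurableSet) hlow
      _ ≤ ∫⁻ t in U, W θ B N 0 t := lintegral_mono_set hEU
  have h2 := h1.trans hInt
  have h3 : volume E = ENNReal.ofReal (Real.exp (δ * N / 4)) *
      (ENNReal.ofReal (Real.exp (-(δ * N / 4))) * volume E) := by
    rw [← mul_assoc, ← ENNReal.ofReal_mul (Real.exp_pos _).le, ← Real.exp_add, add_neg_cancel,
      Real.exp_zero, ENNReal.ofReal_one, one_mul]
  rw [h3]
  calc ENNReal.ofReal (Real.exp (δ * N / 4)) *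
      (ENNReal.ofReal (Real.exp (-(δ * N / 4))) * volume E)
      ≤ ENNReal.ofReal (Real.exp (δ * N / 4)) *
        (ENNReal.ofReal ((1 - δ) + Real.exp (-1) * δ) ^ N * volume U) := by gcongr
    _ = ENNReal.ofReal (Real.exp (δ * N / 4) * ((1 - δ) + Real.exp (-1) * δ) ^ N) * volume U := by
        rw [ENNReal.ofReal_mul (Real.exp_pos _).le, ENNReal.ofReal_pow, mul_assoc]
        have := mul_nonneg (Real.exp_pos (-1)).le hδ0
        linarith
    _ ≤ ENNReal.ofReal (Real.exp (-(δ * N / 3))) * volume U := by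
        gcongr
        exact exp_num hδ0 hδ1 N

open Classical in
/-- number of levels `l ∈ [L0, L0 + n)` with `t ∈ B l` -/
noncomputable def cntL (B : ℕ → Set ℝ) (L0 n : ℕ) (t : ℝ) : ℕ :=
  ((Finset.Ico L0 (L0 + n)).filter fun l => t ∈ B l).card

/-- pigeonhole over the residue classes -/
theorem exists_residue (B : ℕ → Set ℝ) (L0 : ℕ) {M N : ℕ} (hM : 1 ≤ M) {κ : ℝ} {t : ℝ}
    (h : κ * (M * N : ℕ) ≤ cntL B L0 (M * N) t) :
    ∃ r < M, κ * N ≤ cnt (fun j => B (L0 + r + j * M)) N t := by
  classical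
  by_contra hcon
  push Not at hcon
  have hsum : cntL B L0 (M * N) t = ∑ r ∈ Finset.range M, cnt (fun j => B (L0 + r + j * M)) N t := by
    unfold cntL cnt
    simp only [Finset.card_filter]
    rw [Finset.sum_Ico_eq_sum_range, Nat.add_sub_cancel_left]
    rw [← Finset.sum_product']
    refine Finset.sum_nbij' (fun i => (i % M, i / M)) (fun p => p.1 + p.2 * M) ?_ ?_ ?_ ?_ ?_
    · intro i hi
      rw [Finset.mem_range] at hi
      rw [Finset.mem_product, Finset.mem_range, Finset.mem_range]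
      exact ⟨Nat.mod_lt _ hM, Nat.div_lt_of_lt_mul hi⟩
    · rintro ⟨a, b⟩ hp
      rw [Finset.mem_product, Finset.mem_range, Finset.mem_range] at hp
      rw [Finset.mem_range]
      calc a + b * M < M + b * M := by simpa using hp.1
        _ = M * (b + 1) := by ring
        _ ≤ M * N := Nat.mul_le_mul_left _ hp.2
    · intro i _
      simp only
      rw [mul_comm]
      exact Nat.mod_add_div i M
    · rintro ⟨a, b⟩ hp
      rw [Finset.mem_product, Finset.mem_range, Finset.mem_range] at hp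
      simp only
      rw [Nat.add_mul_mod_self_right, Nat.mod_eq_of_lt hp.1, Nat.add_mul_div_right _ _ (by omega),
        Nat.div_eq_of_lt hp.1, zero_add]
    · intro i _
      simp only
      have : L0 + i = L0 + i % M + i / M * M := by
        have := Nat.mod_add_div i M
        rw [mul_comm] at this
        omega
      rw [← this]
  have hlt : (cntL B L0 (M * N) t : ℝ) < κ * (M * N : ℕ) := by
    rw [hsum]
    push_cast
    calc ∑ r ∈ Finset.range M, (cnt (fun j => B (L0 + r + j * M)) N t : ℝ)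
        < ∑ r ∈ Finset.range M, κ * N := by
          refine Finset.sum_lt_sum_of_nonempty ⟨0, Finset.mem_range.2 (by omega)⟩ fun r hr => ?_
          exact hcon r (Finset.mem_range.1 hr)
      _ = κ * (M * N) := by
          rw [Finset.sum_const, Finset.card_range, nsmul_eq_mul]
          ring
  linarith

/-- **Counting form of the payment.** `g` dyadic steps per level; `B l` is a union of cells of level
`l + M`, which occupies at most the proportion `1 - δ` of every cell of level `l`; `U` a union of cells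
of level `L0`.  The points which are in `B l` for at least `(1 - δ/4)` of the `M * N` levels of the
block occupy at most the proportion `M * exp (- δ N / 3)` of `U`. -/
theorem count_pay {B : ℕ → Set ℝ} {g L0 M N : ℕ} (hM : 1 ≤ M) {δ : ℝ} (hδ0 : 0 ≤ δ) (hδ1 : δ ≤ 1)
    (hB : ∀ l, L0 ≤ l → l < L0 + M * N → IsUnion (g * (l + M)) (B l))
    (hvol : ∀ l, L0 ≤ l → l < L0 + M * N → ∀ m,
      volume (B l ∩ cell (g * l) m) ≤ ENNReal.ofReal (1 - δ) * volume (cell (g * l) m))
    {U : Set ℝ} (hU : IsUnion (g * L0) U) :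
    volume {t | t ∈ U ∧ (1 - δ / 4) * (M * N : ℕ) ≤ cntL B L0 (M * N) t} ≤
      M * ENNReal.ofReal (Real.exp (-(δ * N / 3))) * volume U := by
  classical
  have hsub : {t | t ∈ U ∧ (1 - δ / 4) * (M * N : ℕ) ≤ cntL B L0 (M * N) t} ⊆
      ⋃ r ∈ Finset.range M, {t | t ∈ U ∧ (1 - δ / 4) * N ≤ cnt (fun j => B (L0 + r + j * M)) N t} := by
    intro t ht
    obtain ⟨r, hr, h⟩ := exists_residue B L0 hM ht.2
    rw [mem_iUnion₂]
    exact ⟨r, Finset.mem_range.2 hr, ht.1, h⟩
  refine (measure_mono hsub).trans ?_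
  refine (measure_biUnion_finset_le _ _).trans ?_
  have hterm : ∀ r ∈ Finset.range M,
      volume {t | t ∈ U ∧ (1 - δ / 4) * N ≤ cnt (fun j => B (L0 + r + j * M)) N t} ≤
        ENNReal.ofReal (Real.exp (-(δ * N / 3))) * volume U := by
    intro r hr
    rw [Finset.mem_range] at hr
    have hlt : ∀ j, j < N → L0 + r + j * M < L0 + M * N := by
      intro j hj
      calc L0 + r + j * M < L0 + M + j * M := by omega
        _ = L0 + M * (j + 1) := by ring
        _ ≤ L0 + M * N := by gcongr; omega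
    refine count_one (n := fun j => g * (L0 + r + j * M)) hδ0 hδ1 ?_ ?_ ?_ ?_
    · intro j _
      exact Nat.mul_le_mul_left _ (by gcongr; omega)
    · intro j hj
      have := hB (L0 + r + j * M) (by omega) (hlt j hj)
      have e : L0 + r + j * M + M = L0 + r + (j + 1) * M := by ring
      rw [e] at this
      exact this
    · intro j hj m
      exact hvol (L0 + r + j * M) (by omega) (hlt j hj) m
    · exact hU.mono (Nat.mul_le_mul_left _ (by omega))
  refine (Finset.sum_le_sum hterm).trans ?_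
  rw [Finset.sum_const, Finset.card_range, nsmul_eq_mul, mul_assoc]

end Crest.Agent.R128.CountPay
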