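import Mathlib

/-!
Row 128, node N4-2 (single cover), PATH VERSION of helper279's note 15512 (2) (helper250).

`f : ℕ → ℝ` is the one-root contour on `[0,N]`, `DN f N` the number of integer down-crossings.
* `sum_val_le`, `sum_tip_le` (Lemma V): distinct valleys / tips with two-sided sizes `r` satisfy
  `∑ r ≤ DN f N`.
* `viol`: a backward violation seen from `n` (drop `q` from the distance `D`) produces a tip or a
  valley of `f` of two-sided size `≥ q/10` strictly between the violation and `n`.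
* `cover`: the number of violating starts is `≤ C * DN`.
-/

set_option autoImplicit false

open Finset

namespace Crest.Agent.R128.Cover

/-- number of integer down-crossings `(t,l)`, `f (t+1) ≤ l < f t`, `t < N`. -/
noncomputable def DN (f : ℕ → ℝ) (N : ℕ) : ℕ :=
  ∑ t ∈ range N, (⌈f t⌉ - ⌈f (t + 1)⌉).toNat

noncomputable def dcset (f : ℕ → ℝ) (N : ℕ) : Finset (Σ _ : ℕ, ℤ) :=
  (range N).sigma (fun t => Ico ⌈f (t + 1)⌉ ⌈f t⌉)

theorem card_dcset (f : ℕ → ℝ) (N : ℕ) : (dcset f N).card = DN f N := by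
  unfold dcset DN
  rw [Finset.card_sigma]
  apply Finset.sum_congr rfl
  intro t _
  rw [Int.card_Ico]

theorem mem_dcset {f : ℕ → ℝ} {N : ℕ} {p : Σ _ : ℕ, ℤ} :
    p ∈ dcset f N ↔ p.1 < N ∧ f (p.1 + 1) ≤ p.2 ∧ (p.2 : ℝ) < f p.1 := by
  unfold dcset
  rw [Finset.mem_sigma, Finset.mem_range, Finset.mem_Ico, Int.ceil_le, Int.lt_ceil]

/-- `u` is a valley of two-sided rise `≥ r` inside `[lo,hi]` (strict on the left). -/
def IsVal (f : ℕ → ℝ) (r : ℝ) (lo hi u : ℕ) : Prop :=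
  ∃ s e, lo ≤ s ∧ s < u ∧ u < e ∧ e ≤ hi ∧ f u + r ≤ f s ∧ f u + r ≤ f e ∧
    (∀ m, s ≤ m → m < u → f u < f m) ∧ (∀ m, u ≤ m → m ≤ e → f u ≤ f m)

/-- `t` is a tip of two-sided drop `≥ r` inside `[lo,hi]` (strict on the left). -/
def IsTip (f : ℕ → ℝ) (r : ℝ) (lo hi t : ℕ) : Prop :=
  ∃ s e, lo ≤ s ∧ s < t ∧ t < e ∧ e ≤ hi ∧ f s ≤ f t - r ∧ f e ≤ f t - r ∧
    (∀ m, s ≤ m → m < t → f m < f t) ∧ (∀ m, t ≤ m → m ≤ e → f m ≤ f t)

theorem IsVal.mono {f : ℕ → ℝ} {r r' : ℝ} {lo hi lo' hi' u : ℕ} (h : IsVal f r lo hi u)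
    (hr : r' ≤ r) (h1 : lo' ≤ lo) (h2 : hi ≤ hi') : IsVal f r' lo' hi' u := by
  obtain ⟨s, e, a1, a2, a3, a4, a5, a6, a7, a8⟩ := h
  exact ⟨s, e, by omega, a2, a3, by omega, by linarith, by linarith, a7, a8⟩

theorem IsTip.mono {f : ℕ → ℝ} {r r' : ℝ} {lo hi lo' hi' u : ℕ} (h : IsTip f r lo hi u)
    (hr : r' ≤ r) (h1 : lo' ≤ lo) (h2 : hi ≤ hi') : IsTip f r' lo' hi' u := by
  obtain ⟨s, e, a1, a2, a3, a4, a5, a6, a7, a8⟩ := h
  exact ⟨s, e, by omega, a2, a3, by omega, by linarith, by linarith, a7, a8⟩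

/-- last time before `u` above level `l`. -/
theorem exists_last {f : ℕ → ℝ} {s u : ℕ} {l : ℤ} (hs : s < u) (h : (l : ℝ) < f s) :
    ∃ t, s ≤ t ∧ t < u ∧ (l : ℝ) < f t ∧ ∀ m, t < m → m < u → f m ≤ l := by
  classical
  set S := (range u).filter (fun m => (l : ℝ) < f m) with hS
  have hne : S.Nonempty := ⟨s, by simp [hS, hs, h]⟩
  have hmem : S.max' hne ∈ (range u).filter (fun m => (l : ℝ) < f m) := S.max'_mem hne
  rw [Finset.mem_filter, Finset.mem_range] at hmem
  refine ⟨S.max' hne, S.le_max' s (by simp [hS, hs, h]), hmem.1, hmem.2, ?_⟩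
  · intro m h1 h2
    by_contra h3
    push Not at h3
    have : m ≤ S.max' hne := S.le_max' m (by simp [hS, h2, h3])
    omega

/-- first time from `t` on whose successor is at most `l`. -/
theorem exists_first {f : ℕ → ℝ} {t e : ℕ} {l : ℤ} (ht : (l : ℝ) < f t) (he : t < e)
    (h : f e ≤ l) :
    ∃ j, t ≤ j ∧ j < e ∧ (∀ m, t ≤ m → m ≤ j → (l : ℝ) < f m) ∧ f (j + 1) ≤ l := by
  classical
  have hex : ∃ m, t ≤ m ∧ f m ≤ l := ⟨e, he.le, h⟩
  set n := Nat.find hex with hn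
  have h1 := Nat.find_spec hex
  rw [← hn] at h1
  have h2 : ∀ m, m < n → t ≤ m → (l : ℝ) < f m := by
    intro m hm htm
    have := Nat.find_min hex hm
    push Not at this
    exact this htm
  have h3 : n ≤ e := Nat.find_min' hex ⟨he.le, h⟩
  have h4 : n ≠ t := by
    intro h5
    rw [h5] at h1
    linarith [h1.2]
  refine ⟨n - 1, by omega, by omega, ?_, ?_⟩
  · intro m hm1 hm2
    exact h2 m (by omega) hm1
  · have : n - 1 + 1 = n := by omega
    rw [this]
    exact h1.2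

/-- **Lemma V, valleys.** -/
theorem sum_val_le (f : ℕ → ℝ) (N : ℕ) (U : Finset ℕ) (r : ℕ → ℕ)
    (hU : ∀ u ∈ U, IsVal f (r u) 0 N u) : ∑ u ∈ U, r u ≤ DN f N := by
  classical
  set A : Finset (Σ _ : ℕ, ℤ) := U.sigma (fun u => Ico ⌈f u⌉ (⌈f u⌉ + r u)) with hA
  have hcard : A.card = ∑ u ∈ U, r u := by
    rw [hA, Finset.card_sigma]
    apply Finset.sum_congr rfl
    intro u _
    rw [Int.card_Ico]
    simp
  rw [← hcard, ← card_dcset]
  -- levels
  have hlev : ∀ p ∈ A, f p.1 ≤ p.2 ∧ (p.2 : ℝ) < f p.1 + r p.1 := by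
    intro p hp
    rw [hA, Finset.mem_sigma, Finset.mem_Ico] at hp
    refine ⟨Int.ceil_le.mp hp.2.1, ?_⟩
    have h1 : p.2 - r p.1 < ⌈f p.1⌉ := by linarith [hp.2.2]
    rw [Int.lt_ceil] at h1
    push_cast at h1
    linarith
  have hex : ∀ p ∈ A, ∃ t, t < p.1 ∧ (p.2 : ℝ) < f t ∧ ∀ m, t < m → m < p.1 → f m ≤ p.2 := by
    intro p hp
    have hpU : p.1 ∈ U := by
      rw [hA, Finset.mem_sigma] at hp; exact hp.1
    obtain ⟨s, e, a1, a2, a3, a4, a5, a6, a7, a8⟩ := hU _ hpU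
    have hl := hlev p hp
    obtain ⟨t, h1, h2, h3, h4⟩ := exists_last (f := f) (l := p.2) a2 (by linarith)
    exact ⟨t, h2, h3, h4⟩
  let φ : (Σ _ : ℕ, ℤ) → (Σ _ : ℕ, ℤ) := fun p =>
    if h : ∃ t, t < p.1 ∧ (p.2 : ℝ) < f t ∧ ∀ m, t < m → m < p.1 → f m ≤ p.2
    then ⟨Classical.choose h, p.2⟩ else p
  have hφ : ∀ p ∈ A, (φ p).2 = p.2 ∧ (φ p).1 < p.1 ∧ (p.2 : ℝ) < f (φ p).1 ∧
      ∀ m, (φ p).1 < m → m < p.1 → f m ≤ p.2 := by
    intro p hp
    have h := hex p hp
    have e : φ p = ⟨Classical.choose h, p.2⟩ := by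
      simp only [φ]; rw [dif_pos h]
    rw [e]
    exact ⟨rfl, Classical.choose_spec h⟩
  apply Finset.card_le_card_of_injOn φ
  · intro p hp
    have hp' : p ∈ A := hp
    obtain ⟨b1, b2, b3, b4⟩ := hφ p hp'
    have hpU : p.1 ∈ U := by
      rw [hA, Finset.mem_sigma] at hp'; exact hp'.1
    obtain ⟨s, e, a1, a2, a3, a4, a5, a6, a7, a8⟩ := hU _ hpU
    have hl := hlev p hp'
    show φ p ∈ dcset f N
    rw [mem_dcset, b1]
    refine ⟨by omega, ?_, b3⟩
    rcases Nat.lt_or_ge ((φ p).1 + 1) p.1 with h | h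
    · exact b4 _ (by omega) h
    · have : (φ p).1 + 1 = p.1 := by omega
      rw [this]; exact hl.1
  · intro p hp p' hp' heq
    have hp1 : p ∈ A := hp
    have hp1' : p' ∈ A := hp'
    obtain ⟨b1, b2, b3, b4⟩ := hφ p hp1
    obtain ⟨b1', b2', b3', b4'⟩ := hφ p' hp1'
    have hl := hlev p hp1
    have hl' := hlev p' hp1'
    have e2 : p.2 = p'.2 := by rw [← b1, ← b1', heq]
    have hpU : p.1 ∈ U := by
      rw [hA, Finset.mem_sigma] at hp1; exact hp1.1
    have hpU' : p'.1 ∈ U := by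
      rw [hA, Finset.mem_sigma] at hp1'; exact hp1'.1
    obtain ⟨s, e, a1, a2, a3, a4, a5, a6, a7, a8⟩ := hU _ hpU
    obtain ⟨s', e', a1', a2', a3', a4', a5', a6', a7', a8'⟩ := hU _ hpU'
    have e1 : p.1 = p'.1 := by
      rw [← heq] at b2' b3' b4'
      rw [← e2] at b3' b4' hl'
      rcases lt_trichotomy p.1 p'.1 with h | h | h
      · exfalso
        -- u < u'
        have he : p'.1 < e := by
          by_contra hc
          push Not at hc
          have h1 : f e ≤ p.2 := by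
            rcases Nat.lt_or_ge e p'.1 with h5 | h5
            · exact b4' e (by omega) h5
            · have : e = p'.1 := by omega
              rw [this]; exact hl'.1
          linarith
        have h2 : f p.1 ≤ f p'.1 := a8 _ h.le he.le
        have hs : s' ≤ (φ p).1 := by
          by_contra hc
          push Not at hc
          have h1 : f s' ≤ p.2 := b4' s' hc a2'
          linarith
        have h3 : f p'.1 < f p.1 := a7' _ (by omega) h
        linarith
      · exact h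
      · exfalso
        have he : p.1 < e' := by
          by_contra hc
          push Not at hc
          have h1 : f e' ≤ p.2 := by
            rcases Nat.lt_or_ge e' p.1 with h5 | h5
            · exact b4 e' (by omega) h5
            · have : e' = p.1 := by omega
              rw [this]; exact hl.1
          linarith
        have h2 : f p'.1 ≤ f p.1 := a8' _ h.le he.le
        have hs : s ≤ (φ p).1 := by
          by_contra hc
          push Not at hc
          have h1 : f s ≤ p.2 := b4 s hc a2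
          linarith
        have h3 : f p.1 < f p'.1 := a7 _ (by omega) h
        linarith
    exact Sigma.ext e1 (heq_of_eq e2)

/-- **Lemma V, tips.** -/
theorem sum_tip_le (f : ℕ → ℝ) (N : ℕ) (U : Finset ℕ) (r : ℕ → ℕ)
    (hU : ∀ u ∈ U, IsTip f (r u) 0 N u) : ∑ u ∈ U, r u ≤ DN f N := by
  classical
  set A : Finset (Σ _ : ℕ, ℤ) := U.sigma (fun u => Ico (⌈f u⌉ - r u) ⌈f u⌉) with hA
  have hcard : A.card = ∑ u ∈ U, r u := by
    rw [hA, Finset.card_sigma]
    apply Finset.sum_congr rfl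
    intro u _
    rw [Int.card_Ico]
    simp
  rw [← hcard, ← card_dcset]
  have hlev : ∀ p ∈ A, f p.1 - r p.1 ≤ p.2 ∧ (p.2 : ℝ) < f p.1 := by
    intro p hp
    rw [hA, Finset.mem_sigma, Finset.mem_Ico] at hp
    refine ⟨?_, Int.lt_ceil.mp hp.2.2⟩
    have h1 : ⌈f p.1⌉ ≤ p.2 + r p.1 := by linarith [hp.2.1]
    rw [Int.ceil_le] at h1
    push_cast at h1
    linarith
  have hex : ∀ p ∈ A, ∃ j, p.1 ≤ j ∧ j < N ∧ (∀ m, p.1 ≤ m → m ≤ j → (p.2 : ℝ) < f m) ∧
      f (j + 1) ≤ p.2 := by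
    intro p hp
    have hpU : p.1 ∈ U := by
      rw [hA, Finset.mem_sigma] at hp; exact hp.1
    obtain ⟨s, e, a1, a2, a3, a4, a5, a6, a7, a8⟩ := hU _ hpU
    have hl := hlev p hp
    obtain ⟨j, h1, h2, h3, h4⟩ := exists_first (f := f) (l := p.2) hl.2 a3 (by linarith)
    exact ⟨j, h1, by omega, h3, h4⟩
  let φ : (Σ _ : ℕ, ℤ) → (Σ _ : ℕ, ℤ) := fun p =>
    if h : ∃ j, p.1 ≤ j ∧ j < N ∧ (∀ m, p.1 ≤ m → m ≤ j → (p.2 : ℝ) < f m) ∧ f (j + 1) ≤ p.2
    then ⟨Classical.choose h, p.2⟩ else p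
  have hφ : ∀ p ∈ A, (φ p).2 = p.2 ∧ p.1 ≤ (φ p).1 ∧ (φ p).1 < N ∧
      (∀ m, p.1 ≤ m → m ≤ (φ p).1 → (p.2 : ℝ) < f m) ∧ f ((φ p).1 + 1) ≤ p.2 := by
    intro p hp
    have h := hex p hp
    have e : φ p = ⟨Classical.choose h, p.2⟩ := by
      simp only [φ]; rw [dif_pos h]
    rw [e]
    exact ⟨rfl, Classical.choose_spec h⟩
  apply Finset.card_le_card_of_injOn φ
  · intro p hp
    have hp' : p ∈ A := hp
    obtain ⟨b1, b2, b3, b4, b5⟩ := hφ p hp'
    show φ p ∈ dcset f N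
    rw [mem_dcset, b1]
    exact ⟨b3, b5, b4 _ b2 le_rfl⟩
  · intro p hp p' hp' heq
    have hp1 : p ∈ A := hp
    have hp1' : p' ∈ A := hp'
    obtain ⟨b1, b2, b3, b4, b5⟩ := hφ p hp1
    obtain ⟨b1', b2', b3', b4', b5'⟩ := hφ p' hp1'
    have hl := hlev p hp1
    have hl' := hlev p' hp1'
    have e2 : p.2 = p'.2 := by rw [← b1, ← b1', heq]
    have hpU : p.1 ∈ U := by
      rw [hA, Finset.mem_sigma] at hp1; exact hp1.1
    have hpU' : p'.1 ∈ U := by
      rw [hA, Finset.mem_sigma] at hp1'; exact hp1'.1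
    obtain ⟨s, e, a1, a2, a3, a4, a5, a6, a7, a8⟩ := hU _ hpU
    obtain ⟨s', e', a1', a2', a3', a4', a5', a6', a7', a8'⟩ := hU _ hpU'
    have e1 : p.1 = p'.1 := by
      rw [← heq] at b2' b3' b4' b5'
      rw [← e2] at b4' b5' hl'
      rcases lt_trichotomy p.1 p'.1 with h | h | h
      · exfalso
        have hs : s' < p.1 := by
          by_contra hc
          push Not at hc
          have h1 : (p.2 : ℝ) < f s' := b4 s' hc (by omega)
          linarith
        have h3 : f p.1 < f p'.1 := a7' _ hs.le h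
        have he : (φ p).1 < e := by
          by_contra hc
          push Not at hc
          have h1 : (p.2 : ℝ) < f e := b4 e (by omega) hc
          linarith
        have h2 : f p'.1 ≤ f p.1 := a8 _ h.le (by omega)
        linarith
      · exact h
      · exfalso
        have hs : s < p'.1 := by
          by_contra hc
          push Not at hc
          have h1 : (p.2 : ℝ) < f s := b4' s hc (by omega)
          linarith
        have h3 : f p'.1 < f p.1 := a7 _ hs.le h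
        have he : (φ p).1 < e' := by
          by_contra hc
          push Not at hc
          have h1 : (p.2 : ℝ) < f e' := b4' e' (by omega) hc
          linarith
        have h2 : f p.1 ≤ f p'.1 := a8' _ h.le (by omega)
        linarith
    exact Sigma.ext e1 (heq_of_eq e2)

/-- first argmin on an interval -/
theorem exists_argmin (f : ℕ → ℝ) {a b : ℕ} (hab : a ≤ b) :
    ∃ u, a ≤ u ∧ u ≤ b ∧ (∀ m, a ≤ m → m < u → f u < f m) ∧ (∀ m, a ≤ m → m ≤ b → f u ≤ f m) := by
  classical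
  obtain ⟨u0, hu0, hmin⟩ := Finset.exists_min_image (Icc a b) f ⟨a, by simp [hab]⟩
  rw [Finset.mem_Icc] at hu0
  have hex : ∃ u, a ≤ u ∧ f u ≤ f u0 := ⟨u0, hu0.1, le_rfl⟩
  set u := Nat.find hex with hu
  have h1 := Nat.find_spec hex
  rw [← hu] at h1
  have h3 : u ≤ u0 := Nat.find_min' hex ⟨hu0.1, le_rfl⟩
  refine ⟨u, h1.1, by omega, ?_, ?_⟩
  · intro m hm1 hm2
    have := Nat.find_min hex hm2
    push Not at this
    exact lt_of_le_of_lt h1.2 (this hm1)
  · intro m hm1 hm2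
    exact h1.2.trans (hmin m (by simp [hm1, hm2]))

/-- first argmax on an interval -/
theorem exists_argmax (f : ℕ → ℝ) {a b : ℕ} (hab : a ≤ b) :
    ∃ u, a ≤ u ∧ u ≤ b ∧ (∀ m, a ≤ m → m < u → f m < f u) ∧ (∀ m, a ≤ m → m ≤ b → f m ≤ f u) := by
  obtain ⟨u, h1, h2, h3, h4⟩ := exists_argmin (fun n => - f n) hab
  refine ⟨u, h1, h2, ?_, ?_⟩
  · intro m a1 a2
    have := h3 m a1 a2
    simp at this
    exact this
  · intro m a1 a2
    have := h4 m a1 a2
    simp at this
    exact this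

/-- A rise followed by a fall of size `> η` gives a tip. -/
theorem tip_of_bump {f : ℕ → ℝ} {η : ℝ} {a m b : ℕ} (h1 : a ≤ m) (h2 : m ≤ b)
    (h3 : f a + η < f m) (h4 : f b + η < f m) (hη : 0 ≤ η) :
    ∃ t, a < t ∧ t < b ∧ IsTip f η a b t := by
  obtain ⟨t, b1, b2, b3, b4⟩ := exists_argmax f (h1.trans h2)
  have h5 : f m ≤ f t := b4 m h1 h2
  have h6 : a ≠ t := by rintro rfl; linarith
  have h7 : t ≠ b := by rintro rfl; linarith
  refine ⟨t, by omega, by omega, a, b, le_rfl, by omega, by omega, le_rfl, by linarith,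
    by linarith, b3, ?_⟩
  intro j j1 j2
  exact b4 j (by omega) j2

/-- **The violation lemma.** `g j` = distance from `j` to the start `n` (`d j n`); `T1` is where
`g` is `D`, `s1` where it is `≤ D - q`. -/
theorem viol {f : ℕ → ℝ} {g : ℕ → ℝ} {s1 T1 n : ℕ} {D q E : ℝ}
    (h1 : s1 < T1) (h2 : T1 < n) (hq : 0 < q) (hqD : q ≤ D) (hE : E ≤ q / 40)
    (hT : g T1 = D) (hs : g s1 ≤ D - q)
    -- (I1)
    (I1 : ∀ j, s1 ≤ j → j ≤ n → |f j - f n| ≤ g j)
    -- (I2)
    (I2 : ∀ j β, s1 ≤ j → j ≤ n → (∀ i, j ≤ i → i ≤ n → β ≤ f i) → g j ≤ f j + f n - 2 * β + E) :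
    ∃ t, s1 < t ∧ t < n ∧ (IsTip f (q / 10) s1 n t ∨ IsVal f (q / 10) s1 n t) := by
  obtain ⟨u, u1, u2, u3, u4⟩ := exists_argmin f (show s1 ≤ n by omega)
  by_cases hA1 : ∃ m m', s1 ≤ m ∧ m ≤ m' ∧ m' ≤ u ∧ f m + q / 10 < f m'
  · obtain ⟨m, m', a1, a2, a3, a4⟩ := hA1
    have hu : f u ≤ f m := u4 m a1 (by omega)
    obtain ⟨t, t1, t2, t3⟩ := tip_of_bump (f := f) (η := q / 10) a2 a3 a4 (by linarith)
      (by positivity)
    exact ⟨t, by omega, by omega, Or.inl (t3.mono le_rfl a1 u2)⟩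
  by_cases hA2 : ∃ m m', u ≤ m ∧ m ≤ m' ∧ m' ≤ n ∧ f m' + q / 10 < f m
  · obtain ⟨m, m', a1, a2, a3, a4⟩ := hA2
    have hu : f u ≤ f m' := u4 m' (by omega) a3
    obtain ⟨t, t1, t2, t3⟩ := tip_of_bump (f := f) (η := q / 10) a1 a2 (by linarith) a4
      (by positivity)
    exact ⟨t, by omega, by omega, Or.inl (t3.mono le_rfl u1 a3)⟩
  push Not at hA1 hA2
  have i1s := I1 s1 le_rfl (by omega)
  rw [abs_le] at i1s
  -- the valley
  have key : ∀ x, s1 ≤ x → x < n → f u + q / 10 ≤ f x → f u + q / 10 ≤ f n → x < u →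
      ∃ t, s1 < t ∧ t < n ∧ (IsTip f (q / 10) s1 n t ∨ IsVal f (q / 10) s1 n t) := by
    intro x x1 x2 x3 x4 x5
    have hun : u ≠ n := by rintro rfl; linarith
    refine ⟨u, by omega, by omega, Or.inr ⟨x, n, x1, x5, by omega, le_rfl, x3, x4, ?_, ?_⟩⟩
    · intro m m1 m2
      exact u3 m (by omega) m2
    · intro m m1 m2
      exact u4 m (by omega) m2
  rcases Nat.lt_or_ge T1 u with hTu | hTu
  · -- `T1 < u`
    have i2 := I2 T1 (f u) h1.le h2.le (fun i i1 i2 => u4 i (by omega) i2)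
    rw [hT] at i2
    have v1 : f T1 ≤ f s1 + q / 10 := hA1 s1 T1 le_rfl h1.le hTu.le
    have hn : f u + q / 10 ≤ f n := by linarith
    rcases le_total (f s1) (f T1) with hc | hc
    · exact key T1 h1.le h2 (by linarith) hn hTu
    · exact key s1 le_rfl (by omega) (by linarith) hn (by omega)
  · -- `u ≤ T1`
    have i2 := I2 T1 (f T1 - q / 10) h1.le h2.le
      (fun i i1 i2 => by linarith [hA2 T1 i hTu i1 i2])
    rw [hT] at i2
    have hu : f u ≤ f T1 := u4 T1 h1.le h2.le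
    have hn : f u + q / 10 ≤ f n := by linarith
    have hs' : f u + q / 10 ≤ f s1 := by linarith
    have hsu : s1 ≠ u := by rintro rfl; linarith
    exact key s1 le_rfl (by omega) hs' hn (by omega)

/-- Counting: every `n ∈ R` chooses `t n < n` with two-sided size `ρ n ≥ 1` (natural number), and
for every `t` and every bound `ρ ≤ M` at most `C * M` of the `n` choose `t`.  Then `#R ≤ C * ∑ r`. -/
theorem card_le_of_choice {R : Finset ℕ} (t : ℕ → ℕ) (ρ : ℕ → ℕ) (C : ℕ)
    (hC : ∀ u M, (R.filter (fun n => t n = u ∧ ρ n ≤ M)).card ≤ C * M) :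
    R.card ≤ C * ∑ u ∈ R.image t, (R.filter (fun n => t n = u)).sup ρ := by
  classical
  calc R.card = ∑ u ∈ R.image t, (R.filter (fun n => t n = u)).card :=
        Finset.card_eq_sum_card_image t R
    _ ≤ ∑ u ∈ R.image t, C * (R.filter (fun n => t n = u)).sup ρ := by
        apply Finset.sum_le_sum
        intro u _
        refine le_trans (Finset.card_le_card ?_) (hC u ((R.filter (fun n => t n = u)).sup ρ))
        intro n hn
        rw [Finset.mem_filter] at hn ⊢
        exact ⟨hn.1, hn.2, Finset.le_sup (f := ρ) (by rw [Finset.mem_filter]; exact hn)⟩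
    _ = _ := by rw [Finset.mul_sum]

theorem exists_sup {R : Finset ℕ} (ρ : ℕ → ℕ) (h : R.Nonempty) : ∃ n ∈ R, R.sup ρ = ρ n := by
  obtain ⟨n, hn, he⟩ := Finset.exists_mem_eq_sup R h ρ
  exact ⟨n, hn, he⟩

/-- **Single cover, path version.**  `R ⊆ [0,N]` = starts with a (backward) violation by a drop.
`g n j` = distance from `j` to the start `n`; `s1 n < T1 n < n`; `D n` the distance of the tip,
`q n` the drop; all `n` see their points in `(s1 n, n)` at distance `≤ D n`;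
one start per level: for every `u` and `c` at most `C1` starts `n` have `s1 n < u < n` and
`c ≤ g n u < c + 1`. -/
theorem cover {f : ℕ → ℝ} {N : ℕ} {R : Finset ℕ} (hR : ∀ n ∈ R, n ≤ N)
    (g : ℕ → ℕ → ℝ) (s1 T1 : ℕ → ℕ) (D q E : ℕ → ℝ) (b : ℕ) (C1 : ℕ)
    (h1 : ∀ n ∈ R, s1 n < T1 n) (h2 : ∀ n ∈ R, T1 n < n)
    (hqD : ∀ n ∈ R, q n ≤ D n) (hq1 : ∀ n ∈ R, 10 ≤ q n) (hb : ∀ n ∈ R, D n ≤ b * q n)
    (hE : ∀ n ∈ R, E n ≤ q n / 40)
    (hT : ∀ n ∈ R, g n (T1 n) = D n) (hs : ∀ n ∈ R, g n (s1 n) ≤ D n - q n)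
    (hg0 : ∀ n ∈ R, ∀ j, s1 n < j → j < n → 0 ≤ g n j)
    (hgD : ∀ n ∈ R, ∀ j, s1 n < j → j < n → g n j ≤ D n)
    (I1 : ∀ n ∈ R, ∀ j, s1 n ≤ j → j ≤ n → |f j - f n| ≤ g n j)
    (I2 : ∀ n ∈ R, ∀ j β, s1 n ≤ j → j ≤ n → (∀ i, j ≤ i → i ≤ n → β ≤ f i) →
      g n j ≤ f j + f n - 2 * β + E n)
    (hone : ∀ u c : ℕ, (R.filter (fun n => s1 n < u ∧ u < n ∧ (c : ℝ) ≤ g n u ∧
      g n u < c + 1)).card ≤ C1) :
    R.card ≤ (C1 * (20 * b + 1)) * (2 * DN f N) := by
  classical
  have hv : ∀ n ∈ R, ∃ t, s1 n < t ∧ t < n ∧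
      (IsTip f (q n / 10) (s1 n) n t ∨ IsVal f (q n / 10) (s1 n) n t) := fun n hn =>
    viol (h1 n hn) (h2 n hn) (by linarith [hq1 n hn]) (hqD n hn) (hE n hn) (hT n hn) (hs n hn)
      (I1 n hn) (I2 n hn)
  choose! t t1 t2 t3 using hv
  -- the integer sizes
  set ρ : ℕ → ℕ := fun n => ⌊q n / 10⌋₊ with hρ
  have hρ1 : ∀ n ∈ R, 1 ≤ ρ n := by
    intro n hn
    rw [hρ]
    apply Nat.le_floor
    push_cast
    linarith [hq1 n hn]
  have hρle : ∀ n ∈ R, (ρ n : ℝ) ≤ q n / 10 := fun n hn =>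
    Nat.floor_le (by linarith [hq1 n hn])
  have hρge : ∀ n ∈ R, q n / 10 < ρ n + 1 := fun n hn => Nat.lt_floor_add_one _
  -- counting for one `u`
  have hcount : ∀ (R' : Finset ℕ), R' ⊆ R → ∀ u M,
      (R'.filter (fun n => t n = u ∧ ρ n ≤ M)).card ≤ (C1 * (20 * b + 1)) * M := by
    intro R' hR' u M
    rcases Nat.eq_zero_or_pos M with h0 | h0
    · subst h0
      have : R'.filter (fun n => t n = u ∧ ρ n ≤ 0) = ∅ := by
        apply Finset.filter_eq_empty_iff.mpr
        intro n hn hh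
        have := hρ1 n (hR' hn)
        omega
      rw [this]; simp
    -- the classes
    have hsub : R'.filter (fun n => t n = u ∧ ρ n ≤ M) ⊆
        (range (20 * b * M + 1)).biUnion (fun c => R.filter (fun n => s1 n < u ∧ u < n ∧
          (c : ℝ) ≤ g n u ∧ g n u < c + 1)) := by
      intro n hn
      rw [Finset.mem_filter] at hn
      obtain ⟨hn, hn1, hn2⟩ := hn
      have hnR := hR' hn
      have hsu : s1 n < u := by rw [← hn1]; exact t1 n hnR
      have hun : u < n := by rw [← hn1]; exact t2 n hnR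
      have hg := hg0 n hnR u hsu hun
      rw [Finset.mem_biUnion]
      refine ⟨⌊g n u⌋₊, ?_, ?_⟩
      · rw [Finset.mem_range]
        have e1 : g n u ≤ D n := hgD n hnR u hsu hun
        have e2 : D n ≤ b * q n := hb n hnR
        have e3 : q n ≤ 10 * (ρ n + 1) := by linarith [hρge n hnR]
        have e4 : (ρ n : ℝ) ≤ M := by exact_mod_cast hn2
        have e5 : (1 : ℝ) ≤ M := by exact_mod_cast h0
        have hb0 : (0 : ℝ) ≤ b := Nat.cast_nonneg b
        have e6 : g n u ≤ ((20 * b * M : ℕ) : ℝ) := by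
          push_cast
          calc g n u ≤ b * q n := e1.trans e2
            _ ≤ b * (10 * (M + M)) := by
                apply mul_le_mul_of_nonneg_left _ hb0
                linarith
            _ = 20 * b * M := by ring
        have := Nat.floor_le_of_le e6
        omega
      · rw [Finset.mem_filter]
        exact ⟨hnR, hsu, hun, Nat.floor_le hg, Nat.lt_floor_add_one _⟩
    calc (R'.filter (fun n => t n = u ∧ ρ n ≤ M)).card
        ≤ ((range (20 * b * M + 1)).biUnion (fun c => R.filter (fun n => s1 n < u ∧ u < n ∧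
          (c : ℝ) ≤ g n u ∧ g n u < c + 1))).card := Finset.card_le_card hsub
      _ ≤ (range (20 * b * M + 1)).card * C1 :=
          Finset.card_biUnion_le_card_mul _ _ _ (fun c _ => hone u c)
      _ = (20 * b * M + 1) * C1 := by rw [Finset.card_range]
      _ ≤ (C1 * (20 * b + 1)) * M := by
          have : 20 * b * M + 1 ≤ (20 * b + 1) * M := by
            rw [Nat.add_mul]; omega
          calc (20 * b * M + 1) * C1 ≤ ((20 * b + 1) * M) * C1 := Nat.mul_le_mul_right _ this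
            _ = _ := by ring
  -- split into tips and valleys
  set Rt := R.filter (fun n => IsTip f (q n / 10) (s1 n) n (t n)) with hRt
  set Rv := R.filter (fun n => IsVal f (q n / 10) (s1 n) n (t n)) with hRv
  have hsplit : R ⊆ Rt ∪ Rv := by
    intro n hn
    rw [Finset.mem_union, hRt, hRv, Finset.mem_filter, Finset.mem_filter]
    rcases t3 n hn with h | h
    · exact Or.inl ⟨hn, h⟩
    · exact Or.inr ⟨hn, h⟩
  have hRtR : Rt ⊆ R := Finset.filter_subset _ _
  have hRvR : Rv ⊆ R := Finset.filter_subset _ _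
  have ct : Rt.card ≤ (C1 * (20 * b + 1)) * DN f N := by
    refine (card_le_of_choice t ρ (C1 * (20 * b + 1)) (hcount Rt hRtR)).trans ?_
    apply Nat.mul_le_mul_left
    apply sum_tip_le f N (Rt.image t) (fun u => (Rt.filter (fun n => t n = u)).sup ρ)
    intro u hu
    rw [Finset.mem_image] at hu
    obtain ⟨n0, hn0, hu0⟩ := hu
    obtain ⟨n, hn, he⟩ := exists_sup (R := Rt.filter (fun n => t n = u)) ρ
      ⟨n0, by rw [Finset.mem_filter]; exact ⟨hn0, hu0⟩⟩
    rw [Finset.mem_filter] at hn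
    have htip : IsTip f (q n / 10) (s1 n) n (t n) := by
      have := hn.1
      rw [hRt, Finset.mem_filter] at this
      exact this.2
    rw [hn.2] at htip
    have hnR := hRtR hn.1
    rw [he]
    exact htip.mono (hρle n hnR) (Nat.zero_le _) (hR n hnR)
  have cv : Rv.card ≤ (C1 * (20 * b + 1)) * DN f N := by
    refine (card_le_of_choice t ρ (C1 * (20 * b + 1)) (hcount Rv hRvR)).trans ?_
    apply Nat.mul_le_mul_left
    apply sum_val_le f N (Rv.image t) (fun u => (Rv.filter (fun n => t n = u)).sup ρ)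
    intro u hu
    rw [Finset.mem_image] at hu
    obtain ⟨n0, hn0, hu0⟩ := hu
    obtain ⟨n, hn, he⟩ := exists_sup (R := Rv.filter (fun n => t n = u)) ρ
      ⟨n0, by rw [Finset.mem_filter]; exact ⟨hn0, hu0⟩⟩
    rw [Finset.mem_filter] at hn
    have htip : IsVal f (q n / 10) (s1 n) n (t n) := by
      have := hn.1
      rw [hRv, Finset.mem_filter] at this
      exact this.2
    rw [hn.2] at htip
    have hnR := hRvR hn.1
    rw [he]
    exact htip.mono (hρle n hnR) (Nat.zero_le _) (hR n hnR)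
  calc R.card ≤ (Rt ∪ Rv).card := Finset.card_le_card hsplit
    _ ≤ Rt.card + Rv.card := Finset.card_union_le _ _
    _ ≤ _ := by
        have : (C1 * (20 * b + 1)) * (2 * DN f N) =
          (C1 * (20 * b + 1)) * DN f N + (C1 * (20 * b + 1)) * DN f N := by ring
        rw [this]
        exact Nat.add_le_add ct cv

end Crest.Agent.R128.Cover
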