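import Mathlib
import Crest.Agent.R128.Torus
import Crest.Agent.R128.CellOrb
import Crest.Agent.R128.BVP4

/-!
Row 128, node N5 (helper802): DOUBLE COVER, measure part of helper279's note 15512 (3) in helper58's form (15576):
if every point of `Rm` lies on a unit unstable curve contained in `Rm'` (on a neighbourhood in the parameter `t`
of the line `{x_{-n} = X}`), and every unit curve carries at most `lam` of `Rp`, then
`vol (Rm ∩ Rp) ≤ C lam vol Rm'`.
-/

set_option autoImplicit false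

open MeasureTheory Set Topology Filter Metric
open scoped ENNReal NNReal

namespace Crest.Agent.R128.DCover

open Crest.Agent.R128 Crest.Agent.R128.Cell

/-- Vitali covering in one dimension. No measurability. -/
theorem vitali_cover {A B G : Set ℝ} {R : ℝ} {c : ℝ≥0∞}
    (h : ∀ s ∈ A, ∃ r, 0 < r ∧ r ≤ R ∧ closedBall s r ⊆ B ∧
      volume (closedBall s (5 * r) ∩ G) ≤ c * volume (closedBall s r)) :
    volume (A ∩ G) ≤ c * volume B := by
  classical
  choose! r hr0 hrR hrB hrG using h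
  obtain ⟨u, huA, hdisj, hcov⟩ := Vitali.exists_disjoint_subfamily_covering_enlargement_closedBall
    A (fun s : ℝ => s) r R hrR 5 (by norm_num)
  have hcount : u.Countable := by
    refine hdisj.countable_of_nonempty_interior fun s hs => ?_
    refine ⟨s, ?_⟩
    have h1 : ball s (r s) ⊆ interior (closedBall s (r s)) := ball_subset_interior_closedBall
    exact h1 (mem_ball_self (hr0 s (huA hs)))
  have hsub : A ∩ G ⊆ ⋃ s ∈ u, (closedBall s (5 * r s) ∩ G) := by
    rintro x ⟨hxA, hxG⟩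
    obtain ⟨b, hb, hbs⟩ := hcov x hxA
    exact mem_biUnion hb ⟨hbs (mem_closedBall_self (hr0 x hxA).le), hxG⟩
  calc volume (A ∩ G) ≤ volume (⋃ s ∈ u, (closedBall s (5 * r s) ∩ G)) := measure_mono hsub
    _ ≤ ∑' s : u, volume (closedBall (s : ℝ) (5 * r s) ∩ G) := measure_biUnion_le volume hcount _
    _ ≤ ∑' s : u, c * volume (closedBall (s : ℝ) (r s)) :=
        ENNReal.tsum_le_tsum fun s => hrG s (huA s.2)
    _ = c * ∑' s : u, volume (closedBall (s : ℝ) (r s)) := ENNReal.tsum_mul_left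
    _ = c * volume (⋃ s ∈ u, closedBall (s : ℝ) (r s)) := by
        rw [measure_biUnion hcount hdisj fun s _ => measurableSet_closedBall]
    _ ≤ c * volume B := by
        gcongr
        exact iUnion₂_subset fun s hs => hrB s (huA hs)

/-- `P_S(Rp) ≤ lam` for every unit curve `S = {(g y, y)}`, slope at most `1/8`. -/
def Slice (lam : ℝ≥0∞) (Rp : Set Tor) : Prop :=
  ∀ (g : ℝ → ℝ) (y0 : ℝ), LipschitzWith (1 / 8) g →
    volume {y ∈ Icc y0 (y0 + 1) | (((g y : ℝ) : UnitAddCircle), ((y : ℝ) : UnitAddCircle)) ∈ Rp} ≤ lam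

/-- A parametrised piece of an unstable curve: `t ↦ (ψ t, φ t)` on an interval `I` whose image under `φ` has
length at most one; `|φ s - φ t| ≥ m |s - t|`, slope at most `1/8`. -/
theorem piece {lam : ℝ≥0∞} {Rp : Set Tor} (hS : Slice lam Rp) {I : Set ℝ} {ψ φ : ℝ → ℝ} {C : ℝ≥0}
    {y0 : ℝ} (hI : ∀ t ∈ I, φ t ∈ Icc y0 (y0 + 1))
    (hexp : ∀ s ∈ I, ∀ t ∈ I, |t - s| ≤ C * |φ t - φ s|)
    (hslope : ∀ s ∈ I, ∀ t ∈ I, |ψ t - ψ s| ≤ 1 / 8 * |φ t - φ s|) :
    volume {t ∈ I | (((ψ t : ℝ) : UnitAddCircle), ((φ t : ℝ) : UnitAddCircle)) ∈ Rp} ≤ C * lam := by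
  classical
  have hinj : InjOn φ I := by
    intro s hs t ht e
    have := hexp s hs t ht
    rw [e, sub_self, abs_zero, mul_zero] at this
    have h0 : t - s = 0 := abs_eq_zero.mp (le_antisymm this (abs_nonneg _))
    linarith
  set g0 : ℝ → ℝ := fun y => ψ (Function.invFunOn φ I y) with hg0
  have hinv : ∀ t ∈ I, Function.invFunOn φ I (φ t) = t := fun t ht => hinj.leftInvOn_invFunOn ht
  have hL : LipschitzOnWith (1 / 8) g0 (φ '' I) := by
    rw [lipschitzOnWith_iff_dist_le_mul]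
    rintro _ ⟨s, hs, rfl⟩ _ ⟨t, ht, rfl⟩
    simp only [hg0]
    rw [hinv s hs, hinv t ht, Real.dist_eq, Real.dist_eq]
    simpa using hslope t ht s hs
  obtain ⟨g, hgL, hgE⟩ := hL.extend_real
  set D : Set ℝ := {t ∈ I | (((ψ t : ℝ) : UnitAddCircle), ((φ t : ℝ) : UnitAddCircle)) ∈ Rp} with hD
  have h1 : volume D ≤ C * volume (φ '' D) :=
    BVP.volume_le_of_expand fun y hy z hz => hexp y hy.1 z hz.1
  have h2 : φ '' D ⊆ {y ∈ Icc y0 (y0 + 1) |
      (((g y : ℝ) : UnitAddCircle), ((y : ℝ) : UnitAddCircle)) ∈ Rp} := by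
    rintro _ ⟨t, ⟨htI, htR⟩, rfl⟩
    refine ⟨hI t htI, ?_⟩
    have : g (φ t) = ψ t := by
      rw [← hgE (mem_image_of_mem φ htI)]
      simp only [hg0]
      rw [hinv t htI]
    rw [this]
    exact htR
  calc volume D ≤ C * volume (φ '' D) := h1
    _ ≤ C * volume {y ∈ Icc y0 (y0 + 1) |
        (((g y : ℝ) : UnitAddCircle), ((y : ℝ) : UnitAddCircle)) ∈ Rp} := by
        gcongr
    _ ≤ C * lam := by
        gcongr
        exact hS g y0 hgL

/-- The unstable leaf through every point `T^n (X, s)` of `Rm`, at lag `n`: on the `r`-neighbourhood of `s` the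
image stays in `Rm'`, on the `5r`-neighbourhood the image is a curve of length at most one, of slope at most
`1/8`, expanded by the factor `1/L`, `L ≤ C r`. -/
def Leaf (k : ℝ) (n : ℕ) (C : ℝ≥0) (Rm Rm' : Set Tor) : Prop :=
  ∀ X s : ℝ, (T k)^[n] (pr (X, s)) ∈ Rm → ∃ (r : ℝ) (L : ℝ≥0), 0 < r ∧ r ≤ 1 ∧ (L : ℝ) ≤ C * r ∧
    (∀ t, |t - s| ≤ r → (T k)^[n] (pr (X, t)) ∈ Rm') ∧
    (∀ t, |t - s| ≤ 5 * r → |(rorb k n (X, t)).2 - (rorb k n (X, s)).2| ≤ 1 / 2) ∧
    (∀ t t', |t - s| ≤ 5 * r → |t' - s| ≤ 5 * r →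
      |t' - t| ≤ L * |(rorb k n (X, t')).2 - (rorb k n (X, t)).2| ∧
      |(rorb k n (X, t')).1 - (rorb k n (X, t)).1| ≤
        1 / 8 * |(rorb k n (X, t')).2 - (rorb k n (X, t)).2|)

theorem fiber {k : ℝ} {n : ℕ} {C : ℝ≥0} {Rm Rm' Rp : Set Tor} {lam : ℝ≥0∞} (hL : Leaf k n C Rm Rm')
    (hS : Slice lam Rp) (X : ℝ) :
    volume ({t ∈ Ioc (0:ℝ) 1 | (T k)^[n] (pr (X, t)) ∈ Rm} ∩ {t | (T k)^[n] (pr (X, t)) ∈ Rp}) ≤
      C * lam * volume {t ∈ Icc (-1:ℝ) 2 | (T k)^[n] (pr (X, t)) ∈ Rm'} := by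
  refine vitali_cover (R := 1) fun s hs => ?_
  obtain ⟨r, L, hr0, hr1, hLC, hR', hy, hg⟩ := hL X s hs.2
  refine ⟨r, hr0, hr1, ?_, ?_⟩
  · intro t ht
    rw [mem_closedBall, Real.dist_eq] at ht
    refine ⟨?_, hR' t ht⟩
    have h1 := abs_le.1 ht
    constructor
    · linarith [hs.1.1]
    · linarith [hs.1.2]
  · have hpc := piece (lam := lam) (Rp := Rp) hS (I := closedBall s (5 * r))
      (ψ := fun t => (rorb k n (X, t)).1) (φ := fun t => (rorb k n (X, t)).2) (C := L)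
      (y0 := (rorb k n (X, s)).2 - 1 / 2) (by
        intro t ht
        rw [mem_closedBall, Real.dist_eq] at ht
        have := abs_le.1 (hy t ht)
        constructor <;> linarith [this.1, this.2]) (by
        intro u hu t ht
        rw [mem_closedBall, Real.dist_eq] at hu ht
        exact (hg u t hu ht).1) (by
        intro u hu t ht
        rw [mem_closedBall, Real.dist_eq] at hu ht
        exact (hg u t hu ht).2)
    have hset : closedBall s (5 * r) ∩ {t | (T k)^[n] (pr (X, t)) ∈ Rp} =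
        {t ∈ closedBall s (5 * r) | ((((rorb k n (X, t)).1 : ℝ) : UnitAddCircle),
          (((rorb k n (X, t)).2 : ℝ) : UnitAddCircle)) ∈ Rp} := by
      ext t
      simp only [mem_inter_iff, mem_ofPred_eq]
      rw [← pr_rorb]
      rfl
    rw [hset]
    refine hpc.trans ?_
    rw [Real.volume_closedBall]
    have h1 : (L : ℝ≥0∞) ≤ C * ENNReal.ofReal (2 * r) := by
      rw [← ENNReal.ofReal_coe_nnreal, ← ENNReal.ofReal_coe_nnreal, ← ENNReal.ofReal_mul (NNReal.coe_nonneg C)]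
      apply ENNReal.ofReal_le_ofReal
      have : (0:ℝ) ≤ C * r := mul_nonneg C.2 hr0.le
      linarith
    calc (L : ℝ≥0∞) * lam ≤ (C * ENNReal.ofReal (2 * r)) * lam := by gcongr
      _ = C * lam * ENNReal.ofReal (2 * r) := by ring

/-- periodicity: three unit intervals -/
theorem three {k : ℝ} {n : ℕ} (R : Set Tor) (X : ℝ) :
    volume {t ∈ Icc (-1:ℝ) 2 | (T k)^[n] (pr (X, t)) ∈ R} ≤
      3 * volume {t ∈ Ioc (0:ℝ) 1 | (T k)^[n] (pr (X, t)) ∈ R} := by
  set S : Set ℝ := {t ∈ Ioc (0:ℝ) 1 | (T k)^[n] (pr (X, t)) ∈ R} with hS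
  have hp : ∀ (t : ℝ) (j : ℤ), pr (X, t + j) = pr (X, t) := by
    intro t j
    unfold pr
    have : (((t + (j : ℝ) : ℝ)) : UnitAddCircle) = (t : UnitAddCircle) := by
      rw [AddCircle.coe_add]
      have : ((j : ℝ) : UnitAddCircle) = 0 := by
        rw [AddCircle.coe_eq_zero_iff]
        exact ⟨j, by simp⟩
      rw [this, add_zero]
    simp only [this]
  have hsub : {t ∈ Icc (-1:ℝ) 2 | (T k)^[n] (pr (X, t)) ∈ R} ⊆
      ({-1} : Set ℝ) ∪ (((fun t => t + (1:ℝ)) ⁻¹' S) ∪ (S ∪ ((fun t => t + (-1:ℝ)) ⁻¹' S))) := by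
    rintro t ⟨⟨h1, h2⟩, h3⟩
    rcases eq_or_lt_of_le h1 with h | h
    · left; exact h.symm
    right
    rcases le_or_gt t 0 with h0 | h0
    · left
      refine ⟨⟨by linarith, by linarith⟩, ?_⟩
      have := hp t 1
      simp only [Int.cast_one] at this
      rw [this]; exact h3
    right
    rcases le_or_gt t 1 with h4 | h4
    · left; exact ⟨⟨h0, h4⟩, h3⟩
    · right
      refine ⟨⟨by linarith, by linarith⟩, ?_⟩
      have := hp t (-1)
      simp only [Int.cast_neg, Int.cast_one] at this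
      rw [this]; exact h3
  have e1 : volume ((fun t => t + (1:ℝ)) ⁻¹' S) = volume S := measure_preimage_add_right volume 1 S
  have e2 : volume ((fun t => t + (-1:ℝ)) ⁻¹' S) = volume S := measure_preimage_add_right volume (-1) S
  calc volume {t ∈ Icc (-1:ℝ) 2 | (T k)^[n] (pr (X, t)) ∈ R}
      ≤ volume (({-1} : Set ℝ) ∪ (((fun t => t + (1:ℝ)) ⁻¹' S) ∪ (S ∪ ((fun t => t + (-1:ℝ)) ⁻¹' S)))) :=
        measure_mono hsub
    _ ≤ volume ({-1} : Set ℝ) + (volume ((fun t => t + (1:ℝ)) ⁻¹' S) + (volume S +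
          volume ((fun t => t + (-1:ℝ)) ⁻¹' S))) := by
        refine (measure_union_le _ _).trans ?_
        gcongr
        refine (measure_union_le _ _).trans ?_
        gcongr
        exact measure_union_le _ _
    _ = 3 * volume S := by
        rw [e1, e2, Real.volume_singleton]
        ring

theorem vol_fib {R : Set Tor} (hR : MeasurableSet R) :
    volume R = ∫⁻ X in Ioc (0:ℝ) 1, volume {t ∈ Ioc (0:ℝ) 1 | pr (X, t) ∈ R} := by
  have h := mp_pr.measure_preimage hR.nullMeasurableSet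
  have e : (volume.restrict Q : Measure (ℝ × ℝ)) =
      (volume.restrict (Set.Ioc (0:ℝ) 1)).prod (volume.restrict (Set.Ioc (0:ℝ) 1)) := by
    unfold Q
    rw [Measure.volume_eq_prod, ← Measure.prod_restrict, restrict_Ico_eq_restrict_Ioc]
  have hm : Measurable pr := by
    unfold pr
    exact (((AddCircle.continuous_mk' 1).comp continuous_fst).prodMk
      ((AddCircle.continuous_mk' 1).comp continuous_snd)).measurable
  rw [← h, e, Measure.prod_apply (hm hR)]
  refine lintegral_congr fun X => ?_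
  rw [Measure.restrict_apply (measurable_prodMk_left (hm hR))]
  congr 1
  ext t
  simp only [mem_inter_iff, mem_preimage, mem_ofPred_eq]
  exact and_comm

/-- **Double cover, one lag.** -/
theorem dcover {k : ℝ} {n : ℕ} {C : ℝ≥0} {Rm Rm' Rp : Set Tor} {lam : ℝ≥0∞}
    (mRm : MeasurableSet Rm) (mRm' : MeasurableSet Rm') (mRp : MeasurableSet Rp)
    (hL : Leaf k n C Rm Rm') (hS : Slice lam Rp) (hlam : lam ≠ ⊤) :
    volume (Rm ∩ Rp) ≤ 3 * C * lam * volume Rm' := by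
  have mT : Measurable (T k)^[n] := (continuous_T k).measurable.iterate n
  have hmp := (mp_T k).iterate n
  have e1 : volume (Rm ∩ Rp) = volume ((T k)^[n] ⁻¹' (Rm ∩ Rp)) :=
    (hmp.measure_preimage (mRm.inter mRp).nullMeasurableSet).symm
  have e2 : volume Rm' = volume ((T k)^[n] ⁻¹' Rm') :=
    (hmp.measure_preimage mRm'.nullMeasurableSet).symm
  rw [e1, e2, vol_fib (mT (mRm.inter mRp)), vol_fib (mT mRm'), ← lintegral_const_mul']
  · refine lintegral_mono fun X => ?_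
    have h1 := fiber hL hS X
    have h2 := three (k := k) (n := n) Rm' X
    have hset : {t | t ∈ Ioc (0:ℝ) 1 ∧ pr (X, t) ∈ (T k)^[n] ⁻¹' (Rm ∩ Rp)} =
        {t ∈ Ioc (0:ℝ) 1 | (T k)^[n] (pr (X, t)) ∈ Rm} ∩ {t | (T k)^[n] (pr (X, t)) ∈ Rp} := by
      ext t
      simp only [mem_inter_iff, mem_preimage, mem_ofPred_eq]
      tauto
    rw [hset]
    calc _ ≤ C * lam * volume {t ∈ Icc (-1:ℝ) 2 | (T k)^[n] (pr (X, t)) ∈ Rm'} := h1
      _ ≤ C * lam * (3 * volume {t ∈ Ioc (0:ℝ) 1 | (T k)^[n] (pr (X, t)) ∈ Rm'}) := by gcongr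
      _ = 3 * C * lam * volume {t | t ∈ Ioc (0:ℝ) 1 ∧ pr (X, t) ∈ (T k)^[n] ⁻¹' Rm'} := by
          simp only [mem_preimage]
          ring
  · exact ENNReal.mul_ne_top (ENNReal.mul_ne_top (by norm_num) ENNReal.coe_ne_top) hlam

/-- **Double cover, all lags.** -/
theorem dcover_sum {k : ℝ} {C : ℝ≥0} {R Rp : Set Tor} {Rm Rm' : ℕ → Set Tor} {lam : ℝ≥0∞} {ns : ℕ → ℕ}
    (hR : R ⊆ ⋃ i, Rm i)
    (mRm : ∀ i, MeasurableSet (Rm i)) (mRm' : ∀ i, MeasurableSet (Rm' i)) (mRp : MeasurableSet Rp)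
    (hL : ∀ i, Leaf k (ns i) C (Rm i) (Rm' i)) (hS : Slice lam Rp) (hlam : lam ≠ ⊤) :
    volume (R ∩ Rp) ≤ 3 * C * lam * ∑' i, volume (Rm' i) := by
  calc volume (R ∩ Rp) ≤ volume (⋃ i, (Rm i ∩ Rp)) := by
        refine measure_mono ?_
        rintro z ⟨h1, h2⟩
        obtain ⟨i, hi⟩ := mem_iUnion.1 (hR h1)
        exact mem_iUnion.2 ⟨i, hi, h2⟩
    _ ≤ ∑' i, volume (Rm i ∩ Rp) := measure_iUnion_le _
    _ ≤ ∑' i, 3 * C * lam * volume (Rm' i) :=
        ENNReal.tsum_le_tsum fun i => dcover (mRm i) (mRm' i) mRp (hL i) hS hlam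
    _ = 3 * C * lam * ∑' i, volume (Rm' i) := ENNReal.tsum_mul_left

end Crest.Agent.R128.DCover
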