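import Mathlib

/-!
# Row 128, V2 in root form, part 1: pure one-dimensional combinatorics (helper136)

* `Pk`, `Vl`: first top / first bottom of two-sided prominence `x` of a real sequence.
* `osc`: oscillation lemma.
* `sum_Pk`, `sum_Vl`: the sum of the prominences of distinct first tops (first bottoms) is at most the
  number of integer down-crossings.
* `count_pairs`: counting of pairs `(s, D)` charged to extrema.
-/

set_option autoImplicit false

open Finset

namespace Crest.Agent.R128.DDRoot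

/-- `t` is a first top of prominence `x` inside `[a, b]` -/
def Pk (f : ℕ → ℝ) (a b t : ℕ) (x : ℝ) : Prop :=
  ∃ u w, a ≤ u ∧ u < t ∧ t < w ∧ w ≤ b ∧ f u + x ≤ f t ∧ f w + x ≤ f t ∧
    (∀ m, u ≤ m → m ≤ w → f m ≤ f t) ∧ (∀ m, u ≤ m → m < t → f m < f t)

/-- `t` is a first bottom of prominence `x` inside `[a, b]` -/
def Vl (f : ℕ → ℝ) (a b t : ℕ) (x : ℝ) : Prop :=
  ∃ u w, a ≤ u ∧ u < t ∧ t < w ∧ w ≤ b ∧ f t + x ≤ f u ∧ f t + x ≤ f w ∧
    (∀ m, u ≤ m → m ≤ w → f t ≤ f m) ∧ (∀ m, u ≤ m → m < t → f t < f m)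

theorem Pk.mono {f : ℕ → ℝ} {a b a' b' t : ℕ} {x : ℝ} (h : Pk f a b t x) (ha : a' ≤ a) (hb : b ≤ b') :
    Pk f a' b' t x := by
  obtain ⟨u, w, h1, h2, h3, h4, h5⟩ := h
  exact ⟨u, w, by omega, h2, h3, by omega, h5⟩

theorem Vl.mono {f : ℕ → ℝ} {a b a' b' t : ℕ} {x : ℝ} (h : Vl f a b t x) (ha : a' ≤ a) (hb : b ≤ b') :
    Vl f a' b' t x := by
  obtain ⟨u, w, h1, h2, h3, h4, h5⟩ := h
  exact ⟨u, w, by omega, h2, h3, by omega, h5⟩

theorem Vl_iff {f : ℕ → ℝ} {a b t : ℕ} {x : ℝ} : Vl f a b t x ↔ Pk (fun n => - f n) a b t x := by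
  unfold Vl Pk
  constructor
  · rintro ⟨u, w, h1, h2, h3, h4, h5, h6, h7, h8⟩
    refine ⟨u, w, h1, h2, h3, h4, ?_, ?_, fun m hm hm' => ?_, fun m hm hm' => ?_⟩
    · simp only; linarith
    · simp only; linarith
    · have := h7 m hm hm'; simp only; linarith
    · have := h8 m hm hm'; simp only; linarith
  · rintro ⟨u, w, h1, h2, h3, h4, h5, h6, h7, h8⟩
    simp only at h5 h6 h7 h8
    refine ⟨u, w, h1, h2, h3, h4, ?_, ?_, fun m hm hm' => ?_, fun m hm hm' => ?_⟩
    · linarith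
    · linarith
    · have := h7 m hm hm'; linarith
    · have := h8 m hm hm'; linarith

theorem exists_Pk {f : ℕ → ℝ} {a c u v w : ℕ} {x : ℝ} (hx : 0 < x) (hu : a ≤ u) (huv : u < v)
    (hvw : v < w) (hw : w ≤ c) (h1 : f u + x ≤ f v) (h2 : f w + x ≤ f v) : ∃ t, Pk f a c t x := by
  classical
  have hex : ∃ t, u ≤ t ∧ t ≤ w ∧ ∀ m, u ≤ m → m ≤ w → f m ≤ f t := by
    obtain ⟨t, ht, hmax⟩ := (Finset.Icc u w).exists_max_image f ⟨u, by simp; omega⟩
    rw [Finset.mem_Icc] at ht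
    exact ⟨t, ht.1, ht.2, fun m h3 h4 => hmax m (Finset.mem_Icc.mpr ⟨h3, h4⟩)⟩
  obtain ⟨t1, t2, t3⟩ := Nat.find_spec hex
  have hfirst : ∀ m, u ≤ m → m < Nat.find hex → f m < f (Nat.find hex) := by
    intro m hm hmt
    by_contra hc
    push Not at hc
    exact Nat.find_min hex hmt ⟨hm, by omega, fun m' h3 h4 => (t3 m' h3 h4).trans hc⟩
  set t := Nat.find hex
  have hv := t3 v huv.le hvw.le
  have hut : u ≠ t := by
    intro h
    rw [← h] at hv
    linarith
  have hwt : w ≠ t := by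
    intro h
    rw [← h] at hv
    linarith
  exact ⟨t, u, w, hu, by omega, by omega, hw, by linarith, by linarith, t3, hfirst⟩

theorem exists_Vl {f : ℕ → ℝ} {a c u v w : ℕ} {x : ℝ} (hx : 0 < x) (hu : a ≤ u) (huv : u < v)
    (hvw : v < w) (hw : w ≤ c) (h1 : f v + x ≤ f u) (h2 : f v + x ≤ f w) : ∃ t, Vl f a c t x := by
  obtain ⟨t, ht⟩ := exists_Pk (f := fun n => - f n) hx hu huv hvw hw (by linarith)
    (by linarith)
  exact ⟨t, Vl_iff.mpr ht⟩

/-- **oscillation lemma** -/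
theorem osc {f : ℕ → ℝ} {a b c : ℕ} {x dab dac c0 c1 : ℝ} (hx : 0 < x) (hab : a ≤ b) (hbc : b ≤ c)
    (h0 : 0 ≤ dac + c1) (h1 : |f a - f c| ≤ dac + c1)
    (h2 : ∃ u, a ≤ u ∧ u ≤ b ∧ (∀ m, a ≤ m → m ≤ b → f u ≤ f m) ∧ dab ≤ f a + f b - 2 * f u + c0)
    (h : dac + c1 + 4 * x + c0 < dab) : (∃ t, Pk f a c t x) ∨ (∃ t, Vl f a c t x) := by
  by_contra hcon
  push Not at hcon
  obtain ⟨hnP, hnV⟩ := hcon
  have hP : ∀ u v w, a ≤ u → u < v → v < w → w ≤ c → f u + x ≤ f v → f v < f w + x := by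
    intro u v w hu huv hvw hw h3
    by_contra hc
    push Not at hc
    obtain ⟨t, ht⟩ := exists_Pk hx hu huv hvw hw h3 hc
    exact hnP t ht
  have hV : ∀ u v w, a ≤ u → u < v → v < w → w ≤ c → f v + x ≤ f u → f w < f v + x := by
    intro u v w hu huv hvw hw h3
    by_contra hc
    push Not at hc
    obtain ⟨t, ht⟩ := exists_Vl hx hu huv hvw hw h3 hc
    exact hnV t ht
  obtain ⟨p, hp, hpm⟩ := (Finset.Icc a c).exists_max_image f ⟨a, by simp; omega⟩
  obtain ⟨v, hv, hvm⟩ := (Finset.Icc a c).exists_min_image f ⟨a, by simp; omega⟩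
  rw [Finset.mem_Icc] at hp hv
  have hpm' : ∀ m, a ≤ m → m ≤ c → f m ≤ f p := fun m h3 h4 => hpm m (Finset.mem_Icc.mpr ⟨h3, h4⟩)
  have hvm' : ∀ m, a ≤ m → m ≤ c → f v ≤ f m := fun m h3 h4 => hvm m (Finset.mem_Icc.mpr ⟨h3, h4⟩)
  obtain ⟨u, hu1, hu2, hu3, hu4⟩ := h2
  have fa1 := hpm' a le_rfl (by omega)
  have fa2 := hvm' a le_rfl (by omega)
  have fb1 := hpm' b hab hbc
  have fb2 := hvm' b hab hbc
  have fu2 := hvm' u hu1 (by omega)
  have fc1 := hpm' c (by omega) le_rfl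
  have fc2 := hvm' c (by omega) le_rfl
  have hA := abs_le.mp h1
  by_cases hsmall : f p - f v < x
  · linarith
  push Not at hsmall
  rcases lt_trichotomy v p with hvp | hvp | hvp
  · -- valley first
    have g1 : f p < f c + x := by
      rcases Nat.lt_or_ge p c with h3 | h3
      · exact hP v p c hv.1 hvp h3 le_rfl (by linarith)
      · have : p = c := by omega
        rw [this]; linarith
    have g2 : f a < f v + x := by
      rcases Nat.lt_or_ge a v with h3 | h3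
      · by_contra hc
        push Not at hc
        have := hV a v p le_rfl h3 hvp hp.2 hc
        linarith
      · have : a = v := by omega
        rw [this]; linarith
    linarith [hA.1]
  · rw [hvp] at hsmall
    linarith
  · have g1 : f p < f a + x := by
      rcases Nat.lt_or_ge a p with h3 | h3
      · by_contra hc
        push Not at hc
        have := hP a p v le_rfl h3 hvp hv.2 hc
        linarith
      · have : a = p := by omega
        rw [this]; linarith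
    have g2 : f c < f v + x := by
      rcases Nat.lt_or_ge v c with h3 | h3
      · exact hV p v c hp.1 hvp h3 le_rfl (by linarith)
      · have : v = c := by omega
        rw [← this]; linarith
    by_cases hcase : f u + x ≤ f a
    · have g3 : f b < f u + x := by
        rcases Nat.lt_or_ge u b with h3 | h3
        · have hau : a < u := by
            rcases Nat.lt_or_ge a u with h4 | h4
            · exact h4
            · have : u = a := by omega
              rw [this] at hcase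
              linarith
          exact hV a u b le_rfl hau h3 hbc hcase
        · have : u = b := by omega
          rw [this]; linarith
      linarith [hA.2]
    · push Not at hcase
      linarith

/-- number of integer down-crossings -/
noncomputable def cr (f : ℕ → ℝ) (N : ℕ) : ℕ := ∑ n ∈ range N, (⌈f n⌉₊ - ⌈f (n + 1)⌉₊)

theorem card_cr (f : ℕ → ℝ) (N : ℕ) :
    #((range N).sigma (fun n => Finset.Ico ⌈f (n + 1)⌉₊ ⌈f n⌉₊)) = cr f N := by
  rw [Finset.card_sigma]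
  simp [cr]

theorem floor_le_ceil_sub (a y : ℝ) (hy : 0 ≤ y) (hay : 0 ≤ a - y) : ⌊y⌋₊ ≤ ⌈a⌉₊ - ⌈a - y⌉₊ := by
  have h1 : ⌈a - y⌉₊ + ⌊y⌋₊ ≤ ⌈a⌉₊ := by
    have h2 : ⌈a - y⌉₊ + ⌊y⌋₊ = ⌈a - y + (⌊y⌋₊ : ℝ)⌉₊ := by
      rw [Nat.ceil_add_natCast hay]
    rw [h2]
    apply Nat.ceil_mono
    have := Nat.floor_le hy
    linarith
  omega

/-- **Lemma V, tops** -/
theorem sum_Pk {f : ℕ → ℝ} (hf : ∀ n, 0 ≤ f n) {N : ℕ} {S : Finset ℕ} {x : ℕ → ℝ}
    (hx : ∀ t ∈ S, 0 ≤ x t) (hS : ∀ t ∈ S, Pk f 0 N t (x t)) :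
    ∑ t ∈ S, ⌊x t⌋₊ ≤ cr f N := by
  classical
  rw [← card_cr]
  have h1 : ∑ t ∈ S, ⌊x t⌋₊ ≤ #(S.sigma (fun t => Finset.Ico ⌈f t - x t⌉₊ ⌈f t⌉₊)) := by
    rw [Finset.card_sigma]
    apply Finset.sum_le_sum
    intro t ht
    rw [Nat.card_Ico]
    apply floor_le_ceil_sub _ _ (hx t ht)
    obtain ⟨u, w, _, _, _, _, h5, _⟩ := hS t ht
    have := hf u
    linarith
  refine h1.trans ?_
  set g : (Σ _ : ℕ, ℕ) → (Σ _ : ℕ, ℕ) := fun p => ⟨sInf {n | p.1 ≤ n ∧ f (n + 1) ≤ p.2}, p.2⟩ with hg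
  -- properties of the crossing time
  have key : ∀ p ∈ S.sigma (fun t => Finset.Ico ⌈f t - x t⌉₊ ⌈f t⌉₊),
      p.1 ≤ (g p).1 ∧ f ((g p).1 + 1) ≤ p.2 ∧ (∀ m, p.1 ≤ m → m ≤ (g p).1 → (p.2 : ℝ) < f m) ∧
      (g p).1 < N := by
    rintro ⟨t, l⟩ hp
    rw [Finset.mem_sigma, Finset.mem_Ico] at hp
    obtain ⟨ht, hl1, hl2⟩ := hp
    simp only at ht hl1 hl2
    rw [Nat.ceil_le] at hl1
    rw [Nat.lt_ceil] at hl2
    obtain ⟨u, w, h1, h2, h3, h4, h5, h6, h7, h8⟩ := hS t ht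
    have hw : w - 1 ∈ {n | t ≤ n ∧ f (n + 1) ≤ l} := by
      refine ⟨by omega, ?_⟩
      have : w - 1 + 1 = w := by omega
      rw [this]
      linarith
    have hmem := Nat.sInf_mem ⟨_, hw⟩
    have hle : sInf {n | t ≤ n ∧ f (n + 1) ≤ l} ≤ w - 1 := Nat.sInf_le hw
    simp only [hg]
    refine ⟨hmem.1, hmem.2, ?_, by omega⟩
    intro m hm1 hm2
    rcases Nat.eq_or_lt_of_le hm1 with h | h
    · rw [← h]; exact hl2
    · by_contra hc
      push Not at hc
      have hm3 : m - 1 ∈ {n | t ≤ n ∧ f (n + 1) ≤ l} := by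
        refine ⟨by omega, ?_⟩
        have : m - 1 + 1 = m := by omega
        rw [this]
        exact hc
      have := Nat.sInf_le hm3
      omega
  apply Finset.card_le_card_of_injOn g
  · intro p hp
    have hp' := Finset.mem_coe.mp hp
    obtain ⟨k1, k2, k3, k4⟩ := key p hp'
    rw [Finset.mem_coe, Finset.mem_sigma, Finset.mem_range, Finset.mem_Ico]
    refine ⟨k4, ?_, ?_⟩
    · rw [Nat.ceil_le]
      exact k2
    · rw [Nat.lt_ceil]
      exact k3 _ k1 le_rfl
  · intro p hp q hq hpq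
    have hp' := Finset.mem_coe.mp hp
    have hq' := Finset.mem_coe.mp hq
    obtain ⟨k1, k2, k3, k4⟩ := key p hp'
    obtain ⟨j1, j2, j3, j4⟩ := key q hq'
    rw [Finset.mem_sigma, Finset.mem_Ico] at hp' hq'
    obtain ⟨hpS, hp1, hp2⟩ := hp'
    obtain ⟨hqS, hq1, hq2⟩ := hq'
    have e2 : p.2 = q.2 := by
      have := congrArg (fun r : (Σ _ : ℕ, ℕ) => r.2) hpq
      exact this
    have e1 : (g p).1 = (g q).1 := by rw [hpq]
    -- main claim
    have main : ∀ (t t' l : ℕ) (n : ℕ), t ∈ S → t' ∈ S → t < t' → t' ≤ n → f t - x t ≤ l →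
        f t' - x t' ≤ l → (∀ m, t ≤ m → m ≤ n → (l : ℝ) < f m) → False := by
      intro t t' l n ht ht' htt htn hl hl' hgt
      obtain ⟨u, w, h1, h2, h3, h4, h5, h6, h7, h8⟩ := hS t ht
      obtain ⟨u', w', h1', h2', h3', h4', h5', h6', h7', h8'⟩ := hS t' ht'
      have hu' : u' < t := by
        by_contra hc
        push Not at hc
        have := hgt u' hc (by omega)
        linarith
      have hw : n < w := by
        by_contra hc
        push Not at hc
        have := hgt w (by omega) hc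
        linarith
      have a1 := h8' t hu'.le htt
      have a2 := h7 t' (by omega) (by omega)
      linarith
    rw [Nat.ceil_le] at hp1 hq1
    have e : p.1 = q.1 := by
      rcases lt_trichotomy p.1 q.1 with h | h | h
      · exfalso
        apply main p.1 q.1 p.2 (g p).1 hpS hqS h (by rw [e1]; exact j1) hp1 (by rw [e2]; exact hq1) k3
      · exact h
      · exfalso
        apply main q.1 p.1 q.2 (g q).1 hqS hpS h (by rw [← e1]; exact k1) hq1
          (by rw [← e2]; exact hp1) j3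
    obtain ⟨p1, p2⟩ := p
    obtain ⟨q1, q2⟩ := q
    simp only at e e2
    rw [e, e2]

/-- **Lemma V, bottoms** -/
theorem sum_Vl {f : ℕ → ℝ} (hf : ∀ n, 0 ≤ f n) {N : ℕ} {S : Finset ℕ} {x : ℕ → ℝ}
    (hx : ∀ t ∈ S, 0 ≤ x t) (hS : ∀ t ∈ S, Vl f 0 N t (x t)) :
    ∑ t ∈ S, ⌊x t⌋₊ ≤ cr f N := by
  classical
  rw [← card_cr]
  have h1 : ∑ t ∈ S, ⌊x t⌋₊ ≤ #(S.sigma (fun t => Finset.Ico ⌈f t⌉₊ ⌈f t + x t⌉₊)) := by
    rw [Finset.card_sigma]
    apply Finset.sum_le_sum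
    intro t ht
    rw [Nat.card_Ico]
    have := floor_le_ceil_sub (f t + x t) (x t) (hx t ht) (by have := hf t; linarith)
    have e : f t + x t - x t = f t := by ring
    rwa [e] at this
  refine h1.trans ?_
  set g : (Σ _ : ℕ, ℕ) → (Σ _ : ℕ, ℕ) := fun p =>
    ⟨Nat.findGreatest (fun n => (p.2 : ℝ) < f n) p.1, p.2⟩ with hg
  have key : ∀ p ∈ S.sigma (fun t => Finset.Ico ⌈f t⌉₊ ⌈f t + x t⌉₊),
      (g p).1 < p.1 ∧ (p.2 : ℝ) < f (g p).1 ∧ (∀ m, (g p).1 < m → m ≤ p.1 → f m ≤ (p.2 : ℝ)) ∧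
      (g p).1 < N := by
    rintro ⟨t, l⟩ hp
    rw [Finset.mem_sigma, Finset.mem_Ico] at hp
    obtain ⟨ht, hl1, hl2⟩ := hp
    simp only at ht hl1 hl2
    rw [Nat.ceil_le] at hl1
    rw [Nat.lt_ceil] at hl2
    obtain ⟨u, w, h1, h2, h3, h4, h5, h6, h7, h8⟩ := hS t ht
    have hu : (fun n => (l : ℝ) < f n) u := by
      simp only
      linarith
    have hspec := Nat.findGreatest_spec (P := fun n => (l : ℝ) < f n) (n := t) h2.le hu
    have hle : Nat.findGreatest (fun n => (l : ℝ) < f n) t ≤ t := Nat.findGreatest_le t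
    have hne : Nat.findGreatest (fun n => (l : ℝ) < f n) t ≠ t := by
      intro hc
      rw [hc] at hspec
      linarith
    simp only [hg]
    refine ⟨by omega, hspec, ?_, by omega⟩
    intro m hm1 hm2
    exact not_lt.mp (Nat.findGreatest_is_greatest (P := fun n => (l : ℝ) < f n) hm1 hm2)
  apply Finset.card_le_card_of_injOn g
  · intro p hp
    have hp' := Finset.mem_coe.mp hp
    obtain ⟨k1, k2, k3, k4⟩ := key p hp'
    rw [Finset.mem_coe, Finset.mem_sigma, Finset.mem_range, Finset.mem_Ico]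
    refine ⟨k4, ?_, ?_⟩
    · rw [Nat.ceil_le]
      exact k3 _ (by omega) (by omega)
    · rw [Nat.lt_ceil]
      exact k2
  · intro p hp q hq hpq
    have hp' := Finset.mem_coe.mp hp
    have hq' := Finset.mem_coe.mp hq
    obtain ⟨k1, k2, k3, k4⟩ := key p hp'
    obtain ⟨j1, j2, j3, j4⟩ := key q hq'
    rw [Finset.mem_sigma, Finset.mem_Ico] at hp' hq'
    obtain ⟨hpS, hp1, hp2⟩ := hp'
    obtain ⟨hqS, hq1, hq2⟩ := hq'
    have e2 : p.2 = q.2 := by
      have := congrArg (fun r : (Σ _ : ℕ, ℕ) => r.2) hpq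
      exact this
    have e1 : (g p).1 = (g q).1 := by rw [hpq]
    have main : ∀ (t t' l : ℕ) (n : ℕ), t ∈ S → t' ∈ S → t < t' → n < t → (l : ℝ) < f t + x t →
        (l : ℝ) < f t' + x t' → (∀ m, n < m → m ≤ t' → f m ≤ (l : ℝ)) → False := by
      intro t t' l n ht ht' htt htn hl hl' hgt
      obtain ⟨u, w, h1, h2, h3, h4, h5, h6, h7, h8⟩ := hS t ht
      obtain ⟨u', w', h1', h2', h3', h4', h5', h6', h7', h8'⟩ := hS t' ht'
      have hu' : u' ≤ n := by
        by_contra hc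
        push Not at hc
        have := hgt u' hc (by omega)
        linarith
      have hw : t' < w := by
        by_contra hc
        push Not at hc
        have := hgt w (by omega) hc
        linarith
      have a1 := h8' t (by omega) htt
      have a2 := h7 t' (by omega) (by omega)
      linarith
    rw [Nat.lt_ceil] at hp2 hq2
    have e : p.1 = q.1 := by
      rcases lt_trichotomy p.1 q.1 with h | h | h
      · exfalso
        apply main p.1 q.1 p.2 (g p).1 hpS hqS h k1 hp2 (by rw [e2]; exact hq2)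
        rw [e1, e2]
        exact j3
      · exact h
      · exfalso
        apply main q.1 p.1 q.2 (g q).1 hqS hpS h j1 hq2 (by rw [← e2]; exact hp2)
        rw [← e1, ← e2]
        exact k3
    obtain ⟨p1, p2⟩ := p
    obtain ⟨q1, q2⟩ := q
    simp only at e e2
    rw [e, e2]

/-- counting of pairs `(s, D)` charged to a finite family of times with a prominence bound -/
theorem count_pairs {P : Finset (ℕ × ℕ)} {τ : ℕ × ℕ → ℕ} {L A C : ℕ} (hA : 0 < A)
    (hD : ∀ p ∈ P, A ≤ p.2) (hmult : ∀ t D, #{p ∈ P | τ p = t ∧ p.2 = D} ≤ L)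
    (hsum : ∀ x : ℕ → ℕ, (∀ t ∈ P.image τ, ∃ p ∈ P, τ p = t ∧ x t = p.2) →
      ∑ t ∈ P.image τ, x t / A ≤ C) :
    #P ≤ 2 * A * L * C := by
  classical
  -- maximal D for each t
  have hex : ∀ t ∈ P.image τ, ∃ p ∈ P, τ p = t ∧ ∀ q ∈ P, τ q = t → q.2 ≤ p.2 := by
    intro t ht
    rw [Finset.mem_image] at ht
    obtain ⟨p0, hp0, hp0t⟩ := ht
    obtain ⟨p, hp, hmax⟩ := (P.filter (fun q => τ q = t)).exists_max_image (fun q => q.2)
      ⟨p0, by rw [Finset.mem_filter]; exact ⟨hp0, hp0t⟩⟩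
    rw [Finset.mem_filter] at hp
    exact ⟨p, hp.1, hp.2, fun q hq hqt => hmax q (by rw [Finset.mem_filter]; exact ⟨hq, hqt⟩)⟩
  choose! m hm1 hm2 hm3 using hex
  have h1 := hsum (fun t => (m t).2) (fun t ht => ⟨m t, hm1 t ht, hm2 t ht, rfl⟩)
  have h2 : #P = ∑ t ∈ P.image τ, #{p ∈ P | τ p = t} :=
    Finset.card_eq_sum_card_image τ P
  have h3 : ∀ t ∈ P.image τ, #{p ∈ P | τ p = t} ≤ 2 * A * L * ((m t).2 / A) := by
    intro t ht
    have h4 : {p ∈ P | τ p = t} ⊆ (Finset.Icc A (m t).2).biUnion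
        (fun D => {p ∈ P | τ p = t ∧ p.2 = D}) := by
      intro p hp
      rw [Finset.mem_filter] at hp
      rw [Finset.mem_biUnion]
      exact ⟨p.2, Finset.mem_Icc.mpr ⟨hD p hp.1, hm3 t ht p hp.1 hp.2⟩, by
        rw [Finset.mem_filter]; exact ⟨hp.1, hp.2, rfl⟩⟩
    have h5 : #{p ∈ P | τ p = t} ≤ (m t).2 * L := by
      calc #{p ∈ P | τ p = t} ≤ _ := Finset.card_le_card h4
        _ ≤ ∑ D ∈ Finset.Icc A (m t).2, #{p ∈ P | τ p = t ∧ p.2 = D} := Finset.card_biUnion_le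
        _ ≤ ∑ D ∈ Finset.Icc A (m t).2, L := Finset.sum_le_sum fun D _ => hmult t D
        _ = ((m t).2 + 1 - A) * L := by rw [Finset.sum_const, Nat.card_Icc, smul_eq_mul]
        _ ≤ (m t).2 * L := by
            apply Nat.mul_le_mul_right
            omega
    have h6 : (m t).2 ≤ 2 * A * ((m t).2 / A) := by
      have hAm : A ≤ (m t).2 := hD _ (hm1 t ht)
      have h7 : 1 ≤ (m t).2 / A := (Nat.one_le_div_iff hA).mpr hAm
      have h8 := Nat.div_add_mod (m t).2 A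
      have h9 := Nat.mod_lt (m t).2 hA
      nlinarith
    calc #{p ∈ P | τ p = t} ≤ (m t).2 * L := h5
      _ ≤ (2 * A * ((m t).2 / A)) * L := Nat.mul_le_mul_right _ h6
      _ = 2 * A * L * ((m t).2 / A) := by ring
  calc #P = _ := h2
    _ ≤ ∑ t ∈ P.image τ, 2 * A * L * ((m t).2 / A) := Finset.sum_le_sum h3
    _ = 2 * A * L * ∑ t ∈ P.image τ, ((m t).2 / A) := by rw [Finset.mul_sum]
    _ ≤ 2 * A * L * C := Nat.mul_le_mul_left _ h1

end Crest.Agent.R128.DDRoot
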