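import Crest.Agent.R128.DDRootA
import Crest.Agent.R128.Chain
import Crest.Agent.R128.Lam0U

/-!
# Row 128, V2 in root form, part 2: geometry (helper136)

The root contour `β = bt (rr k z)` has a first top or a first bottom of prominence `D/2000` levels in
the window of a relaxed drawdown event of class `k ^ D`.
-/

set_option autoImplicit false

open MeasureTheory Finset
open scoped Matrix.Norms.L2Operator

namespace Crest.Agent.R128.DDRoot

open Crest.Agent.R128.TreeSum Crest.Agent.R128.Acc Crest.Agent.R128.Hyp Crest.Agent.R128.Lam0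
open Crest.Agent.R128.Chain

theorem nnv (v : E2) : nn (v 0, v 1) = ‖v‖ := by
  have h1 := norm_sq v
  have h2 := nn_sq (v 0, v 1)
  simp only at h2
  exact (sq_eq_sq₀ (nn_nonneg _) (norm_nonneg _)).mp (by rw [h1, h2])

theorem nn_act_le (M : M2) (v : ℝ × ℝ) : nn (act M v) ≤ ‖M‖ * nn v := by
  have h := norm_ap_le M !₂[v.1, v.2]
  rw [← nnv, ← nnv] at h
  simpa [ap_apply, act] using h

theorem norm_le_of_act {M : M2} {C : ℝ} (hC : 0 ≤ C) (h : ∀ v, nn (act M v) ≤ C * nn v) :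
    ‖M‖ ≤ C := by
  apply norm_le_of_ap hC
  intro v
  have := h (v 0, v 1)
  rw [nnv] at this
  rw [← nnv (ap M v), ap_apply, ap_apply]
  exact this

theorem opn_le (M : M2) : max (rn M 0) (rn M 1) ≤ 2 * ‖M‖ := by
  obtain ⟨e, he, h⟩ := exists_max M
  have h1 := nn_act_le M e
  have h2 := nn_le_norm e
  have h3 := norm_le_nn (act M e)
  have h4 : nn e ≤ 2 := by linarith
  calc max (rn M 0) (rn M 1) ≤ ‖act M e‖ := h
    _ ≤ nn (act M e) := h3
    _ ≤ ‖M‖ * nn e := h1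
    _ ≤ ‖M‖ * 2 := mul_le_mul_of_nonneg_left h4 (norm_nonneg _)
    _ = 2 * ‖M‖ := mul_comm _ _

theorem le_opn (M : M2) : ‖M‖ ≤ 2 * max (rn M 0) (rn M 1) := by
  have h0 : 0 ≤ max (rn M 0) (rn M 1) := le_max_of_le_left (by unfold rn; positivity)
  apply norm_le_of_act (by positivity)
  intro v
  have h1 := norm_act_le M v
  have h2 := nn_le_norm (act M v)
  have h3 := norm_le_nn v
  calc nn (act M v) ≤ 2 * ‖act M v‖ := h2
    _ ≤ 2 * (max (rn M 0) (rn M 1) * ‖v‖) := by linarith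
    _ ≤ 2 * (max (rn M 0) (rn M 1) * nn v) := by gcongr
    _ = _ := by ring

theorem nm_eq (k : ℝ) (n : ℕ) (z : Tor) : nm k n z = max (rn (Mn k n z) 0) (rn (Mn k n z) 1) := by
  unfold nm
  rw [rr_succ]
  rfl

theorem nm_le (k : ℝ) (n : ℕ) (z : Tor) : nm k n z ≤ 2 * ‖Mn k n z‖ := by
  rw [nm_eq]
  exact opn_le _

theorem le_nm (k : ℝ) (n : ℕ) (z : Tor) : ‖Mn k n z‖ ≤ 2 * nm k n z := by
  rw [nm_eq]
  exact le_opn _

theorem transfer_eq (k : ℝ) (z : Tor) (a m : ℕ) :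
    Mn k (a + m) z * (Mn k a z)⁻¹ = Mn k m ((T k)^[a] z) := by
  rw [add_comm, Mn_add, Matrix.mul_assoc, Matrix.mul_nonsing_inv _ (by
    rw [det_Mn]; exact isUnit_one), Matrix.mul_one]

theorem step_norm_le {k : ℝ} (hk : 4 ≤ k) (z : Tor) (l : ℕ) :
    ‖Mn k (l + 1) z * (Mn k l z)⁻¹‖ ≤ 8 * k := by
  rw [transfer_eq, Mn_succ, Mn_zero, one_mul]
  apply norm_le_of_act (by linarith)
  intro v
  rw [act_Am]
  refine (nn_stp_le _ _).trans ?_
  exact mul_le_mul_of_nonneg_right (abs_V_le hk _) (nn_nonneg _)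

/-- (F2) -/
theorem trans_le {k : ℝ} (hk : 4 ≤ k) (z : Tor) {a b u : ℕ} (hab : a < b)
    (hu : ∀ m, a ≤ m → m ≤ b → bt (rr k z) u ≤ bt (rr k z) m) :
    ‖Mn k b z * (Mn k a z)⁻¹‖ ≤ 128 * k * (b - a : ℕ) *
      Real.exp (bt (rr k z) a + bt (rr k z) b - 2 * bt (rr k z) u) := by
  have hg : ∀ i, ((fun j => Mn k j z) i).det = 1 := fun i => det_Mn k i z
  have h1 := chain (g := fun j => Mn k j z) hg hab
  have hk0 : 0 < k := by linarith
  have hlow : ∀ m, a ≤ m → m ≤ b → Real.exp (bt (rr k z) u) / 2 ≤ ‖Mn k m z‖ := by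
    intro m h3 h4
    have h5 := nm_le k m z
    have h6 : Real.exp (bt (rr k z) u) ≤ nm k m z := by
      rw [← exp_bt]
      exact Real.exp_le_exp.mpr (hu m h3 h4)
    linarith
  have h2 : ∑ j ∈ Ico a b, Chain.wt (fun j => Mn k j z) j ≤
      ∑ _j ∈ Ico a b, 32 * k * Real.exp (- (2 * bt (rr k z) u)) := by
    apply Finset.sum_le_sum
    intro j hj
    rw [Finset.mem_Ico] at hj
    have p1 := hlow j hj.1 hj.2.le
    have p2 := hlow (j + 1) (by omega) (by omega)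
    have e0 := Real.exp_pos (bt (rr k z) u)
    unfold Chain.wt ch
    have h3 := step_norm_le hk z j
    have h4 : (Real.exp (bt (rr k z) u) / 2) * (Real.exp (bt (rr k z) u) / 2) ≤
        ‖Mn k j z‖ * ‖Mn k (j + 1) z‖ := mul_le_mul p1 p2 (by positivity) (norm_nonneg _)
    calc ‖Mn k (j + 1) z * (Mn k j z)⁻¹‖ / (‖Mn k j z‖ * ‖Mn k (j + 1) z‖)
        ≤ (8 * k) / ((Real.exp (bt (rr k z) u) / 2) * (Real.exp (bt (rr k z) u) / 2)) := by
          gcongr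
      _ = 32 * k * Real.exp (- (2 * bt (rr k z) u)) := by
          rw [Real.exp_neg, two_mul, Real.exp_add]
          field_simp
          ring
  rw [Finset.sum_const, Nat.card_Ico, nsmul_eq_mul] at h2
  have ha := le_nm k a z
  have hb := le_nm k b z
  rw [← exp_bt] at ha hb
  calc ‖Mn k b z * (Mn k a z)⁻¹‖ ≤ _ := h1
    _ ≤ (2 * Real.exp (bt (rr k z) a)) * (2 * Real.exp (bt (rr k z) b)) *
        ((b - a : ℕ) * (32 * k * Real.exp (- (2 * bt (rr k z) u)))) := by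
          gcongr
          exact Finset.sum_nonneg fun j _ => Chain.wt_nonneg _ _
    _ = 128 * k * (b - a : ℕ) * (Real.exp (bt (rr k z) a) * Real.exp (bt (rr k z) b) *
        Real.exp (- (2 * bt (rr k z) u))) := by ring
    _ = _ := by
        rw [← Real.exp_add, ← Real.exp_add, sub_eq_add_neg]

/-- (F1) -/
theorem bt_diff (k : ℝ) (z : Tor) (a c : ℕ) :
    |bt (rr k z) a - bt (rr k z) c| ≤ Real.log ‖Mn k c z * (Mn k a z)⁻¹‖ + 2 * Real.log 2 := by
  have hg : ∀ i, ((fun j => Mn k j z) i).det = 1 := fun i => det_Mn k i z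
  have hpos : 0 < ‖Mn k c z * (Mn k a z)⁻¹‖ := norm_pos' (det_mul_inv (det_Mn k c z) (det_Mn k a z))
  have key : ∀ x y : ℕ, Real.exp (bt (rr k z) y) ≤
      4 * ‖Mn k y z * (Mn k x z)⁻¹‖ * Real.exp (bt (rr k z) x) := by
    intro x y
    have h1 := le_transfer (g := fun j => Mn k j z) hg x y
    have h2 := nm_le k y z
    have h3 := le_nm k x z
    rw [← exp_bt] at h2 h3
    calc Real.exp (bt (rr k z) y) ≤ 2 * ‖Mn k y z‖ := h2
      _ ≤ 2 * (‖Mn k y z * (Mn k x z)⁻¹‖ * ‖Mn k x z‖) := by linarith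
      _ ≤ 2 * (‖Mn k y z * (Mn k x z)⁻¹‖ * (2 * Real.exp (bt (rr k z) x))) := by gcongr
      _ = _ := by ring
  have conv : ∀ x y : ℕ, ‖Mn k y z * (Mn k x z)⁻¹‖ = ‖Mn k c z * (Mn k a z)⁻¹‖ →
      bt (rr k z) y - bt (rr k z) x ≤ Real.log ‖Mn k c z * (Mn k a z)⁻¹‖ + 2 * Real.log 2 := by
    intro x y hxy
    have h := key x y
    rw [hxy] at h
    have h4 := Real.log_le_log (Real.exp_pos _) h
    rw [Real.log_exp, Real.log_mul (by positivity) (Real.exp_pos _).ne', Real.log_exp,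
      Real.log_mul (by norm_num) hpos.ne'] at h4
    have h5 : Real.log 4 = 2 * Real.log 2 := by
      rw [show (4:ℝ) = 2 ^ 2 by norm_num, Real.log_pow]
      push_cast
      ring
    linarith
  rw [abs_le]
  constructor
  · have := conv a c rfl
    linarith
  · exact conv c a (Chain.norm_symm (det_Mn k a z) (det_Mn k c z))

/-- normal form of a relaxed drawdown event -/
structure Ev (k : ℝ) (L M : ℕ) (X : ℝ) (y : Tor) (n c σ : ℕ) : Prop where
  hLn : L ≤ n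
  hσ : σ < n
  hnc : n < c
  hcM : c ≤ M
  max : ∀ j, j ≤ c → ‖fld k y j‖ ≤ ‖fld k y n‖
  endc : ‖fld k y c‖ ^ 102 ≤ ‖fld k y n‖ ^ 101
  ends : ‖fld k y σ‖ ^ 102 ≤ ‖fld k y n‖ ^ 101
  mid : ∀ j, σ < j → j < c → ‖fld k y n‖ ^ 101 < ‖fld k y j‖ ^ 102
  lo : X ≤ ‖fld k y n‖
  hi : ‖fld k y n‖ ≤ k ^ 2 * X
  vl : RV k L y (c - 1)

theorem rv_mono {k : ℝ} {L : ℕ} {z : Tor} {n m : ℕ} (h : RV k L z n) (hm : m ≤ n) : RV k L z m :=
  ⟨h.big, fun i j h1 h2 h3 => h.v2 i j h1 h2 (by omega), fun j h1 h2 => h.v3 j h1 (by omega)⟩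

theorem ev_of {k : ℝ} {L M : ℕ} {X : ℝ} (hX : 1 < X) {y : Tor} {n n' : ℕ} (h : DDn k L M X y n n')
    (hv : RV k L y (n' - 1)) : ∃ n c σ, Ev k L M X y n c σ := by
  classical
  have hn1 : 1 < ‖fld k y n‖ := lt_of_lt_of_le hX h.lo
  have hex : ∃ c, n < c ∧ ‖fld k y c‖ ^ 102 ≤ ‖fld k y n‖ ^ 101 := ⟨n', h.lt, h.drop⟩
  obtain ⟨c1, c2⟩ := Nat.find_spec hex
  have c3 : Nat.find hex ≤ n' := Nat.find_min' hex ⟨h.lt, h.drop⟩
  have c4 : ∀ j, n < j → j < Nat.find hex → ‖fld k y n‖ ^ 101 < ‖fld k y j‖ ^ 102 := by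
    intro j h1 h2
    by_contra hc
    push Not at hc
    exact Nat.find_min hex h2 ⟨h1, hc⟩
  set c := Nat.find hex
  set σ := Nat.findGreatest (fun j => ‖fld k y j‖ ^ 102 ≤ ‖fld k y n‖ ^ 101) n with hσ
  have s0 : ‖fld k y 0‖ ^ 102 ≤ ‖fld k y n‖ ^ 101 := by
    rw [fld_zero]
    have e1 : ‖((0, 1) : ℝ × ℝ)‖ = 1 := by simp [Prod.norm_def]
    rw [e1, one_pow]
    exact one_le_pow₀ hn1.le
  have s1 : ‖fld k y σ‖ ^ 102 ≤ ‖fld k y n‖ ^ 101 :=
    Nat.findGreatest_spec (P := fun j => ‖fld k y j‖ ^ 102 ≤ ‖fld k y n‖ ^ 101) (Nat.zero_le n) s0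
  have s2 : σ ≤ n := Nat.findGreatest_le n
  have hnn : ‖fld k y n‖ ^ 101 < ‖fld k y n‖ ^ 102 := pow_lt_pow_right₀ hn1 (by norm_num)
  have s3 : σ ≠ n := by
    intro hc
    rw [hc] at s1
    linarith
  refine ⟨n, c, σ, h.hLn, by omega, c1, by have := h.le; omega, fun j hj => h.max j (by omega), c2, s1, ?_,
    h.lo, h.hi, rv_mono hv (by omega)⟩
  intro j h1 h2
  rcases Nat.lt_or_ge n j with h3 | h3
  · exact c4 j h3 h2
  · exact not_le.mp (Nat.findGreatest_is_greatest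
      (P := fun j => ‖fld k y j‖ ^ 102 ≤ ‖fld k y n‖ ^ 101) h1 h3)

theorem fld_step_le {k : ℝ} (hk : 4 ≤ k) (y : Tor) (j : ℕ) : nn (fld k y (j + 1)) ≤ 8 * k * nn (fld k y j) := by
  rw [fld_succ]
  exact (nn_stp_le _ _).trans (mul_le_mul_of_nonneg_right (abs_V_le hk _) (nn_nonneg _))

theorem fld_step_ge {k : ℝ} (hk : 4 ≤ k) (y : Tor) (j : ℕ) : nn (fld k y j) ≤ 8 * k * nn (fld k y (j + 1)) := by
  rw [fld_succ]
  exact (nn_le_stp _ _).trans (mul_le_mul_of_nonneg_right (abs_V_le hk _) (nn_nonneg _))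

/-- numeric contradiction used in `Ev.overlap` -/
theorem pow_contra {k X u v n1 n2 : ℝ} (hk : 1 ≤ k) (hX : 0 < X) (hu : 0 ≤ u)
    (hn1 : 0 ≤ n1) (b5 : k ^ 397 * u ≤ v) (b6 : v ^ 102 ≤ n1 ^ 101) (b7 : n1 ≤ k ^ 2 * X)
    (b8 : X ≤ n2) (b1 : n2 ^ 101 < u ^ 102) : False := by
  have hk0 : 0 < k := by linarith
  -- `k ^ 2 ≤ k ^ 397`
  have g1 : k ^ 2 ≤ k ^ 397 := pow_le_pow_right₀ hk (by norm_num)
  have g2 : 1 ≤ k ^ 397 := one_le_pow₀ hk
  generalize k ^ 397 = A at *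
  generalize k ^ 2 = B at *
  have hA0 : 0 < A := by linarith
  have f1 : (A * u) ^ 102 ≤ (A * X) ^ 101 := by
    calc (A * u) ^ 102 ≤ v ^ 102 := pow_le_pow_left₀ (by positivity) b5 _
      _ ≤ n1 ^ 101 := b6
      _ ≤ _ := pow_le_pow_left₀ hn1 (b7.trans (mul_le_mul_of_nonneg_right g1 hX.le)) _
  have f2 : X ^ 101 < u ^ 102 := lt_of_le_of_lt (pow_le_pow_left₀ hX.le b8 _) b1
  rw [mul_pow, mul_pow] at f1
  have f3 : A ^ 102 * X ^ 101 < A ^ 101 * X ^ 101 := by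
    refine lt_of_lt_of_le ?_ f1
    exact mul_lt_mul_of_pos_left f2 (by positivity)
  have f4 : A ^ 102 < A ^ 101 := lt_of_mul_lt_mul_right f3 (by positivity)
  have f5 : A ^ 101 ≤ A ^ 102 := pow_le_pow_right₀ g2 (by norm_num)
  linarith

/-- **multiplicity**: two events of the same class with overlapping windows have close starts -/
theorem Ev.overlap {k : ℝ} (hk : (10:ℝ) ^ 3 ≤ k) {L M M' : ℕ} (hL : 3 ≤ L) {X : ℝ} (hX : 0 < X) {y : Tor} {m : ℕ}
    {n1 c1 σ1 n2 c2 σ2 : ℕ} (h1 : Ev k L M X y n1 c1 σ1) (h2 : Ev k L M' X ((T k)^[m] y) n2 c2 σ2)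
    (hm : L ≤ m) (hov : m + σ2 < c1) : False := by
  have hk1 : (100:ℝ) ≤ k := le_trans (by norm_num) hk
  have hk0 : (0:ℝ) < k := by linarith
  rcases Nat.lt_or_ge (m + n2) c1 with hcase | hcase
  · have hv : RV k L y (m + n2) := rv_mono h1.vl (by omega)
    have hs := sep hk1 hL hm hv (κ := k ^ 3) (by positivity) (pow_le_pow_right₀ (by linarith) (by norm_num))
    have a1 := h1.max (m + n2) hcase.le
    have a2 := h1.hi
    have a3 := h2.lo
    have hk3 : k ^ 3 * X ≤ 2 * (k ^ 2 * X) := by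
      calc k ^ 3 * X ≤ k ^ 3 * ‖fld k ((T k)^[m] y) n2‖ := mul_le_mul_of_nonneg_left a3 (by positivity)
        _ ≤ 2 * ‖fld k y (m + n2)‖ := hs
        _ ≤ _ := by linarith
    have hpos : 0 < k ^ 2 * X := by positivity
    nlinarith
  · -- `c1 ≤ m + n2`
    obtain ⟨j, hj⟩ : ∃ j, c1 = m + (j + 1) := ⟨c1 - m - 1, by omega⟩
    have hjn : j + 1 ≤ n2 := by omega
    have hjσ : σ2 < j + 1 := by omega
    have hv : RV k L y (m + j) := rv_mono h1.vl (by omega)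
    have hs := sep hk1 hL hm hv (κ := k ^ 400) (by positivity) le_rfl
    have b1 := h2.mid (j + 1) hjσ (by have := h2.hnc; omega)
    have b2 := fld_step_le (by linarith : (4:ℝ) ≤ k) ((T k)^[m] y) j
    have b3 := fld_step_ge (by linarith : (4:ℝ) ≤ k) y (m + j)
    have b4 : fld k y (m + j + 1) = fld k y c1 := by rw [hj]; rfl
    rw [b4] at b3
    -- `k^397 ‖w2 (j+1)‖ ≤ ‖w1 c1‖`
    have b5 : k ^ 397 * ‖fld k ((T k)^[m] y) (j + 1)‖ ≤ ‖fld k y c1‖ := by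
      have d1 := norm_le_nn (fld k ((T k)^[m] y) (j + 1))
      have d2 := nn_le_norm (fld k ((T k)^[m] y) j)
      have d3 := norm_le_nn (fld k y (m + j))
      have d4 := nn_le_norm (fld k y c1)
      have hk3 : (512:ℝ) ≤ k := le_trans (by norm_num) hk
      have e1 : ‖fld k ((T k)^[m] y) (j + 1)‖ ≤ 16 * k * ‖fld k ((T k)^[m] y) j‖ := by nlinarith
      have e2 : ‖fld k y (m + j)‖ ≤ 16 * k * ‖fld k y c1‖ := by nlinarith
      have hc0 := norm_nonneg (fld k y c1)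
      have hp : (0:ℝ) < k ^ 2 := by positivity
      have e3 : k ^ 400 * ‖fld k ((T k)^[m] y) (j + 1)‖ ≤ (512 * k ^ 2) * ‖fld k y c1‖ := by
        calc k ^ 400 * ‖fld k ((T k)^[m] y) (j + 1)‖
            ≤ k ^ 400 * (16 * k * ‖fld k ((T k)^[m] y) j‖) := by gcongr
          _ = 16 * k * (k ^ 400 * ‖fld k ((T k)^[m] y) j‖) := by ring
          _ ≤ 16 * k * (2 * ‖fld k y (m + j)‖) := by gcongr
          _ ≤ 16 * k * (2 * (16 * k * ‖fld k y c1‖)) := by gcongr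
          _ = (512 * k ^ 2) * ‖fld k y c1‖ := by ring
      have e4 : (512 * k ^ 2) * ‖fld k y c1‖ ≤ k ^ 3 * ‖fld k y c1‖ := by
        apply mul_le_mul_of_nonneg_right _ hc0
        nlinarith
      have e5 : k ^ 400 = k ^ 3 * k ^ 397 := by rw [← pow_add]
      rw [e5, mul_assoc] at e3
      exact le_of_mul_le_mul_left (e3.trans e4) (by positivity)
    have b6 := h1.endc
    have b7 := h1.hi
    have b8 := h2.lo
    -- powers
    exact pow_contra (by linarith) hX (norm_nonneg _) (norm_nonneg _) b5 b6 b7 b8 b1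

end Crest.Agent.R128.DDRoot
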