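import Mathlib

set_option autoImplicit false

/-!
Variation of constants and displacement bounds for the second order recursion
`x_{n+1} = f(x_n) - x_{n-1}` (row 128; helper421).
-/

namespace Crest.Agent.R128.Dist

variable {𝕜 : Type*} [NormedField 𝕜]

/-- fundamental solution `G V m n`: `G V m n = 0` for `n ≤ m`, `G V m (m+1) = 1`,
`G V m (n+2) = V (n+1) * G V m (n+1) - G V m n` for `n ≥ m`. -/
def G (V : ℕ → 𝕜) (m : ℕ) : ℕ → 𝕜
  | 0 => 0
  | 1 => if m = 0 then 1 else 0
  | n + 2 => if n + 1 < m then 0 else if n + 1 = m then 1 else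
      V (n + 1) * G V m (n + 1) - G V m n

theorem G_of_le (V : ℕ → 𝕜) (m : ℕ) : ∀ n, n ≤ m → G V m n = 0
  | 0, _ => rfl
  | 1, h => by
      rw [G, if_neg (by omega)]
  | n + 2, h => by
      rw [G, if_pos (by omega)]

theorem G_self_succ (V : ℕ → 𝕜) : ∀ m, G V m (m + 1) = 1
  | 0 => by simp [G]
  | m + 1 => by
      rw [G, if_neg (by omega), if_pos rfl]

theorem G_succ_succ (V : ℕ → 𝕜) (m n : ℕ) (h : m ≤ n) :
    G V m (n + 2) = V (n + 1) * G V m (n + 1) - G V m n := by
  rw [G, if_neg (by omega), if_neg (by omega)]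

/-- homogeneous solution with given initial values -/
def S (V : ℕ → 𝕜) (a b : 𝕜) : ℕ → 𝕜
  | 0 => a
  | 1 => b
  | n + 2 => V (n + 1) * S V a b (n + 1) - S V a b n

@[simp] theorem S_zero (V : ℕ → 𝕜) (a b : 𝕜) : S V a b 0 = a := rfl
@[simp] theorem S_one (V : ℕ → 𝕜) (a b : 𝕜) : S V a b 1 = b := rfl
theorem S_succ_succ (V : ℕ → 𝕜) (a b : 𝕜) (n : ℕ) :
    S V a b (n + 2) = V (n + 1) * S V a b (n + 1) - S V a b n := rfl

/-- variation of constants -/
theorem voc (V R δ : ℕ → 𝕜)
    (h : ∀ n, δ (n + 2) = V (n + 1) * δ (n + 1) - δ n + R (n + 1)) (n : ℕ) :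
    δ n = S V (δ 0) (δ 1) n + ∑ m ∈ Finset.Ico 1 n, G V m n * R m := by
  induction n using Nat.strong_induction_on with
  | _ n ih =>
    match n with
    | 0 => simp
    | 1 => simp
    | n + 2 =>
      rw [h, ih (n + 1) (by omega), ih n (by omega), S_succ_succ]
      rw [Finset.sum_Ico_succ_top (by omega : 1 ≤ n + 1), G_self_succ]
      have e1 : ∑ m ∈ Finset.Ico 1 (n + 1), G V m (n + 2) * R m =
          V (n + 1) * (∑ m ∈ Finset.Ico 1 (n + 1), G V m (n + 1) * R m) -
            ∑ m ∈ Finset.Ico 1 (n + 1), G V m n * R m := by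
        rw [Finset.mul_sum, ← Finset.sum_sub_distrib]
        apply Finset.sum_congr rfl
        intro m hm
        rw [Finset.mem_Ico] at hm
        rw [G_succ_succ V m n (by omega)]
        ring
      have e2 : ∑ m ∈ Finset.Ico 1 (n + 1), G V m n * R m =
          ∑ m ∈ Finset.Ico 1 n, G V m n * R m := by
        rcases Nat.eq_zero_or_pos n with h0 | h0
        · subst h0; simp
        · rw [Finset.sum_Ico_succ_top (by omega : 1 ≤ n), G_of_le V n n le_rfl]
          simp
      rw [e1, e2]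
      ring

/-- DISPLACEMENT BOUND.  If the remainder is quadratic, `‖R m‖ ≤ c ‖δ m‖²`, and the numbers
`b n` dominate the linear displacement and are self-consistent, then the true displacement is
within `b' n` of the linear one. -/
theorem displacement (V R δ : ℕ → 𝕜) (N : ℕ)
    (h : ∀ n, δ (n + 2) = V (n + 1) * δ (n + 1) - δ n + R (n + 1))
    (c : ℝ) (hc : 0 ≤ c) (hR : ∀ m, m < N → ‖R m‖ ≤ c * ‖δ m‖ ^ 2)
    (b b' : ℕ → ℝ) (hb : ∀ n, n ≤ N → ‖S V (δ 0) (δ 1) n‖ ≤ b n)
    (hb' : ∀ n, n ≤ N →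
      ∑ m ∈ Finset.Ico 1 n, ‖G V m n‖ * (c * (b m + b' m) ^ 2) ≤ b' n) :
    ∀ n, n ≤ N → ‖δ n - S V (δ 0) (δ 1) n‖ ≤ b' n := by
  intro n
  induction n using Nat.strong_induction_on with
  | _ n ih =>
    intro hn
    refine le_trans ?_ (hb' n hn)
    rw [voc V R δ h n, add_sub_cancel_left]
    refine (norm_sum_le _ _).trans (Finset.sum_le_sum fun m hm => ?_)
    rw [Finset.mem_Ico] at hm
    rw [norm_mul]
    refine mul_le_mul_of_nonneg_left ?_ (norm_nonneg _)
    refine (hR m (by omega)).trans ?_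
    refine mul_le_mul_of_nonneg_left ?_ hc
    refine pow_le_pow_left₀ (norm_nonneg _) ?_ 2
    have h1 := ih m (by omega) (by omega)
    have h2 := hb m (by omega)
    calc ‖δ m‖ = ‖S V (δ 0) (δ 1) m + (δ m - S V (δ 0) (δ 1) m)‖ := by
          rw [add_sub_cancel]
      _ ≤ ‖S V (δ 0) (δ 1) m‖ + ‖δ m - S V (δ 0) (δ 1) m‖ := norm_add_le _ _
      _ ≤ b m + b' m := by linarith

/-- COCYCLE PERTURBATION.  `u` solves the perturbed homogeneous equation with coefficients
`V + θ`; the difference to the unperturbed solution with the same initial values. -/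
theorem perturb (V θ u : ℕ → 𝕜) (N : ℕ)
    (h : ∀ n, u (n + 2) = (V (n + 1) + θ (n + 1)) * u (n + 1) - u n)
    (b b' t : ℕ → ℝ) (hθ : ∀ m, m < N → ‖θ m‖ ≤ t m)
    (hb : ∀ n, n ≤ N → ‖S V (u 0) (u 1) n‖ ≤ b n)
    (hb' : ∀ n, n ≤ N →
      ∑ m ∈ Finset.Ico 1 n, ‖G V m n‖ * (t m * (b m + b' m)) ≤ b' n) :
    ∀ n, n ≤ N → ‖u n - S V (u 0) (u 1) n‖ ≤ b' n := by
  have h' : ∀ n, u (n + 2) = V (n + 1) * u (n + 1) - u n + (fun m => θ m * u m) (n + 1) := by
    intro n
    rw [h n]
    ring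
  intro n
  induction n using Nat.strong_induction_on with
  | _ n ih =>
    intro hn
    refine le_trans ?_ (hb' n hn)
    rw [voc V (fun m => θ m * u m) u h' n, add_sub_cancel_left]
    refine (norm_sum_le _ _).trans (Finset.sum_le_sum fun m hm => ?_)
    rw [Finset.mem_Ico] at hm
    rw [norm_mul]
    refine mul_le_mul_of_nonneg_left ?_ (norm_nonneg _)
    rw [norm_mul]
    have h1 := ih m (by omega) (by omega)
    have h2 := hb m (by omega)
    have h3 : ‖u m‖ ≤ b m + b' m := by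
      calc ‖u m‖ = ‖S V (u 0) (u 1) m + (u m - S V (u 0) (u 1) m)‖ := by
            rw [add_sub_cancel]
        _ ≤ ‖S V (u 0) (u 1) m‖ + ‖u m - S V (u 0) (u 1) m‖ := norm_add_le _ _
        _ ≤ b m + b' m := by linarith
    exact mul_le_mul (hθ m (by omega)) h3 (norm_nonneg _) ((norm_nonneg _).trans (hθ m (by omega)))

/-- the fundamental solution is dominated by the shifted homogeneous solution -/
theorem G_eq_S (V : ℕ → 𝕜) (m j : ℕ) : G V m (m + j) = S (fun i => V (m + i)) 0 1 j := by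
  induction j using Nat.strong_induction_on with
  | _ j ih =>
    match j with
    | 0 => simpa using G_of_le V m m le_rfl
    | 1 => simpa using G_self_succ V m
    | j + 2 =>
      rw [show m + (j + 2) = (m + j) + 2 by ring, G_succ_succ V m (m + j) (by omega),
        S_succ_succ]
      rw [show m + j + 1 = m + (j + 1) by ring, ih (j + 1) (by omega), ih j (by omega)]

end Crest.Agent.R128.Dist
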