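import Mathlib

set_option autoImplicit false

open MeasureTheory

namespace Crest.Agent.R128.Dyadic

/-- **Dyadic formula**: for a measure preserving map `f` and an arbitrary sequence of integrable functions
`φ n` (think of `φ n x = log ‖A^{(n)}(x)‖`),
`∫ φ_{2^J} = 2^J (∫ φ_1 - ∑_{j<J} 2^{-j} ∫ G_{2^j})`, `G_T = (φ_T + φ_T ∘ f^T - φ_{2T})/2`. -/
theorem dyadic_formula {X : Type*} [MeasurableSpace X] {μ : Measure X} {f : X → X}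
    (hf : MeasurePreserving f μ μ) (φ : ℕ → X → ℝ) (hint : ∀ n, Integrable (φ n) μ) (J : ℕ) :
    ∫ x, φ (2 ^ J) x ∂μ = 2 ^ J * (∫ x, φ 1 x ∂μ - ∑ j ∈ Finset.range J, (1 / 2 ^ j : ℝ) *
      ∫ x, (φ (2 ^ j) x + φ (2 ^ j) (f^[2 ^ j] x) - φ (2 ^ (j + 1)) x) / 2 ∂μ) := by
  induction J with
  | zero => simp
  | succ J ih =>
    have hmp : MeasurePreserving f^[2 ^ J] μ μ := hf.iterate _
    have h1 : ∫ x, φ (2 ^ J) (f^[2 ^ J] x) ∂μ = ∫ x, φ (2 ^ J) x ∂μ := by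
      have := hmp.map_eq
      conv_rhs => rw [← this]
      rw [integral_map hmp.measurable.aemeasurable]
      rw [this]
      exact (hint _).aestronglyMeasurable
    have hi1 : Integrable (fun x => φ (2 ^ J) (f^[2 ^ J] x)) μ :=
      hmp.integrable_comp_of_integrable (hint _)
    have h2 : ∫ x, (φ (2 ^ J) x + φ (2 ^ J) (f^[2 ^ J] x) - φ (2 ^ (J + 1)) x) / 2 ∂μ =
        ∫ x, φ (2 ^ J) x ∂μ - (∫ x, φ (2 ^ (J + 1)) x ∂μ) / 2 := by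
      have e1 : ∫ x, (φ (2 ^ J) x + φ (2 ^ J) (f^[2 ^ J] x) - φ (2 ^ (J + 1)) x) ∂μ =
          ∫ x, (φ (2 ^ J) x + φ (2 ^ J) (f^[2 ^ J] x)) ∂μ - ∫ x, φ (2 ^ (J + 1)) x ∂μ :=
        integral_sub ((hint _).add hi1) (hint _)
      have e2 : ∫ x, (φ (2 ^ J) x + φ (2 ^ J) (f^[2 ^ J] x)) ∂μ =
          ∫ x, φ (2 ^ J) x ∂μ + ∫ x, φ (2 ^ J) (f^[2 ^ J] x) ∂μ :=
        integral_add (hint _) hi1
      rw [integral_div, e1, e2, h1]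
      ring
    rw [Finset.sum_range_succ, h2, pow_succ]
    have hp : (2:ℝ) ^ J ≠ 0 := by positivity
    have e : ∑ j ∈ Finset.range J, (1 / 2 ^ j : ℝ) *
      ∫ x, (φ (2 ^ j) x + φ (2 ^ j) (f^[2 ^ j] x) - φ (2 ^ (j + 1)) x) / 2 ∂μ =
      ∫ x, φ 1 x ∂μ - (∫ x, φ (2 ^ J) x ∂μ) / 2 ^ J := by
      rw [ih]
      field_simp
      ring
    rw [e]
    field_simp
    ring

/-- If `∑_{j<J} 2^{-j} ∫ G_{2^j} ≤ ∫ φ_1 - c` for all `J`, then `c 2^J ≤ ∫ φ_{2^J}` for all `J`. -/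
theorem dyadic_lower {X : Type*} [MeasurableSpace X] {μ : Measure X} {f : X → X}
    (hf : MeasurePreserving f μ μ) (φ : ℕ → X → ℝ) (hint : ∀ n, Integrable (φ n) μ) (c : ℝ)
    (g : ℕ → ℝ)
    (hg : ∀ j, ∫ x, (φ (2 ^ j) x + φ (2 ^ j) (f^[2 ^ j] x) - φ (2 ^ (j + 1)) x) / 2 ∂μ ≤ g j)
    (hsum : ∀ J, ∑ j ∈ Finset.range J, (1 / 2 ^ j : ℝ) * g j ≤ ∫ x, φ 1 x ∂μ - c) (J : ℕ) :
    c * (2 ^ J : ℕ) ≤ ∫ x, φ (2 ^ J) x ∂μ := by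
  rw [dyadic_formula hf φ hint J]
  have h1 : ∑ j ∈ Finset.range J, (1 / 2 ^ j : ℝ) *
      ∫ x, (φ (2 ^ j) x + φ (2 ^ j) (f^[2 ^ j] x) - φ (2 ^ (j + 1)) x) / 2 ∂μ ≤
      ∑ j ∈ Finset.range J, (1 / 2 ^ j : ℝ) * g j :=
    Finset.sum_le_sum fun j _ => mul_le_mul_of_nonneg_left (hg j) (by positivity)
  have h2 := hsum J
  push_cast
  rw [mul_comm c]
  apply mul_le_mul_of_nonneg_left _ (by positivity)
  linarith

theorem dyadic_frequently {X : Type*} [MeasurableSpace X] {μ : Measure X} {f : X → X}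
    (hf : MeasurePreserving f μ μ) (φ : ℕ → X → ℝ) (hint : ∀ n, Integrable (φ n) μ) (c : ℝ)
    (g : ℕ → ℝ)
    (hg : ∀ j, ∫ x, (φ (2 ^ j) x + φ (2 ^ j) (f^[2 ^ j] x) - φ (2 ^ (j + 1)) x) / 2 ∂μ ≤ g j)
    (hsum : ∀ J, ∑ j ∈ Finset.range J, (1 / 2 ^ j : ℝ) * g j ≤ ∫ x, φ 1 x ∂μ - c) :
    ∃ᶠ n : ℕ in Filter.atTop, c * n ≤ ∫ x, φ n x ∂μ := by
  rw [Filter.frequently_atTop]
  intro a
  refine ⟨2 ^ a, (Nat.lt_two_pow_self).le, ?_⟩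
  exact dyadic_lower hf φ hint c g hg hsum a

end Crest.Agent.R128.Dyadic
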