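import Crest.Agent.R128.LocDef
import Crest.Agent.R128.DictY
import Crest.Agent.R128.Good

/-!
# Row 128, node V5-LOC, (H4) (helper220)

A very fresh point `t` near the centre of a cell `Cell3` is a `Good3` point.

* `core` : one side, real sequences;
* `zs` : base point of a side; `dg_eq`, `D_eq`, `mu_eq`, `cont_eq` : dictionary with `LocDef`;
* `good3` : the two sides together, for `Good.VF`.
-/

set_option autoImplicit false

open Metric MeasureTheory
open Crest.Agent.R128 Crest.Agent.R128.Cell Crest.Agent.R128.CellB Crest.Agent.R128.CellDy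
open Crest.Agent.R128.AlignMn Crest.Agent.R128.DictY Crest.Agent.R128.Two Crest.Agent.R128.Acc

namespace Crest.Agent.R128.H4

/-! ## one side -/

/-- growth upper bound -/
theorem up {a : ℕ → ℝ} {B H : ℝ} {n : ℕ} (hB : 1 ≤ B) (ha : ∀ j, |a j| + 1 ≤ B)
    (h0 : |Align.Q a n| ≤ H) (h1 : |Align.Q a (n + 1)| ≤ H) (i : ℕ) :
    |Align.Q a (n + i)| ≤ B ^ i * H ∧ |Align.Q a (n + 1 + i)| ≤ B ^ i * H := by
  have hH : 0 ≤ H := le_trans (abs_nonneg _) h0
  induction i with
  | zero => simpa using ⟨h0, h1⟩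
  | succ i ih =>
    have hp : 0 ≤ B ^ i * H := by positivity
    constructor
    · have e : n + (i + 1) = n + 1 + i := by ring
      rw [e]
      refine ih.2.trans ?_
      rw [pow_succ]
      nlinarith [ih.2]
    · have e : n + 1 + (i + 1) = n + i + 2 := by ring
      have e2 : n + 1 + i = n + i + 1 := by ring
      rw [e, Align.Q_add_two]
      rw [e2] at ih
      calc |a (n + i + 1) * Align.Q a (n + i + 1) - Align.Q a (n + i)|
          ≤ |a (n + i + 1) * Align.Q a (n + i + 1)| + |Align.Q a (n + i)| := abs_sub _ _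
        _ = |a (n + i + 1)| * |Align.Q a (n + i + 1)| + |Align.Q a (n + i)| := by rw [abs_mul]
        _ ≤ |a (n + i + 1)| * (B ^ i * H) + B ^ i * H := by
            have := mul_le_mul_of_nonneg_left ih.2 (abs_nonneg (a (n + i + 1)))
            linarith [ih.1]
        _ = (|a (n + i + 1)| + 1) * (B ^ i * H) := by ring
        _ ≤ B * (B ^ i * H) := mul_le_mul_of_nonneg_right (ha _) hp
        _ = B ^ (i + 1) * H := by ring

/-- expansion is stable along regular digits -/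
theorem expand {a : ℕ → ℝ} {u v A : ℝ} {w J j : ℕ} (hA : 2 ≤ A)
    (run : ∀ i, w ≤ i → i ≤ J → A ≤ |a i|) (hw : w ≤ j)
    (h : |Align.sol a u v j| ≤ |Align.sol a u v (j + 1)|) :
    ∀ i, j ≤ i → i ≤ J → |Align.sol a u v i| ≤ |Align.sol a u v (i + 1)| ∧
      |Align.sol a u v (j + 1)| ≤ |Align.sol a u v (i + 1)| := by
  intro i hi
  induction i, hi using Nat.le_induction with
  | base => exact fun _ => ⟨h, le_rfl⟩
  | succ i hi ih =>
    intro hJ
    obtain ⟨h1, h2⟩ := ih (by omega)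
    have hr := run (i + 1) (by omega) hJ
    have e : Align.sol a u v (i + 1 + 1) = a (i + 1) * Align.sol a u v (i + 1) - Align.sol a u v i :=
      Align.sol_add_two a u v i
    have h3 : |a (i + 1)| * |Align.sol a u v (i + 1)| ≤ |Align.sol a u v (i + 1 + 1)| +
        |Align.sol a u v i| := by
      rw [← abs_mul]
      calc |a (i + 1) * Align.sol a u v (i + 1)|
          = |Align.sol a u v (i + 1 + 1) + Align.sol a u v i| := by rw [e]; ring_nf
        _ ≤ _ := abs_add_le _ _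
    have h4 : |Align.sol a u v (i + 1)| ≤ |Align.sol a u v (i + 1 + 1)| := by
      have := abs_nonneg (Align.sol a u v (i + 1))
      nlinarith [mul_le_mul_of_nonneg_right (hA.trans hr) this]
    exact ⟨h4, h2.trans h4⟩

/-- **one side**: the exit `n + 1` lies in the run, and the contracted solution is tiny there -/
theorem core {a : ℕ → ℝ} {u v A B H F e : ℝ} {w M n : ℕ} (hu : |u| = 1) (hA : 4 ≤ A) (hB : 1 ≤ B)
    (ha : ∀ j, |a j| + 1 ≤ B)
    (run : ∀ j, w ≤ j → j ≤ w + M → A ≤ |a j|)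
    (end0 : |Align.sol a u v (w + M)| ≤ e) (end1 : |Align.sol a u v (w + M + 1)| ≤ e)
    (foot : ∀ j ≤ w, |Align.Q a j| ≤ F) (hF : F < |Align.Q a (n + 1)|)
    (hH : ∀ j ≤ n + 1, |Align.Q a j| ≤ H) (hQ : |Align.Q a n| ≤ |Align.Q a (n + 1)|)
    (small : 2 * B ^ 5 * H * e < 1) :
    w ≤ n ∧ n + 6 ≤ w + M ∧
    (A / 2 * |Align.Q a (n + 1)| ≤ |Align.Q a (n + 2)|) ∧
    |Align.sol a u v (n + 2) / Align.Q a (n + 2)| ≤ 16 / (A ^ 3 * Align.Q a (n + 1) ^ 2) ∧
    |Align.sol a u v (n + 3) / Align.Q a (n + 3)| ≤ 16 / (A ^ 3 * Align.Q a (n + 2) ^ 2) := by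
  have hH0 : 0 ≤ H := le_trans (abs_nonneg _) (hH 0 (by omega))
  have he0 : 0 ≤ e := le_trans (abs_nonneg _) end0
  have hw : w ≤ n := by
    by_contra h
    have := foot (n + 1) (by omega)
    linarith
  have hQ6 : ∀ j ≤ n + 6, |Align.Q a j| ≤ B ^ 5 * H := by
    intro j hj
    rcases le_or_gt j (n + 1) with h | h
    · refine (hH j h).trans ?_
      have : (1 : ℝ) ≤ B ^ 5 := one_le_pow₀ hB
      nlinarith
    · obtain ⟨i, rfl⟩ : ∃ i, j = n + 1 + i := ⟨j - (n + 1), by omega⟩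
      refine (up hB ha (hH n (by omega)) (hH (n + 1) le_rfl) i).2.trans ?_
      exact mul_le_mul_of_nonneg_right (pow_le_pow_right₀ hB (by omega)) hH0
  have wr : ∀ j, |Align.sol a u v j| ≤ e → |Align.sol a u v (j + 1)| ≤ e → j + 1 ≤ n + 6 → False := by
    intro j h1 h2 h3
    have h4 := Align.wronskian_Q a u v j
    have h5 : (1 : ℝ) ≤ |Align.sol a u v j| * |Align.Q a (j + 1)| +
        |Align.sol a u v (j + 1)| * |Align.Q a j| := by
      calc (1 : ℝ) = |Align.sol a u v j * Align.Q a (j + 1) - Align.sol a u v (j + 1) * Align.Q a j| := by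
            rw [h4, hu]
        _ ≤ |Align.sol a u v j * Align.Q a (j + 1)| + |Align.sol a u v (j + 1) * Align.Q a j| :=
            abs_sub _ _
        _ = _ := by rw [abs_mul, abs_mul]
    have h6 := hQ6 j (by omega)
    have h7 := hQ6 (j + 1) h3
    have h8 : |Align.sol a u v j| * |Align.Q a (j + 1)| ≤ e * (B ^ 5 * H) :=
      mul_le_mul h1 h7 (abs_nonneg _) he0
    have h9 : |Align.sol a u v (j + 1)| * |Align.Q a j| ≤ e * (B ^ 5 * H) :=
      mul_le_mul h2 h6 (abs_nonneg _) he0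
    nlinarith
  have hM : n + 6 ≤ w + M := by
    by_contra h
    exact wr (w + M) end0 end1 (by omega)
  -- contraction
  have dec : ∀ j, w ≤ j → j ≤ n + 5 → |Align.sol a u v (j + 1)| < |Align.sol a u v j| := by
    intro j h1 h2
    by_contra h
    push Not at h
    have h3 := (expand (a := a) (u := u) (v := v) (J := w + M) (by linarith) run h1 h (w + M)
      (by omega) le_rfl).2
    have h4 := h3.trans end1
    exact wr j (h.trans h4) h4 (by omega)
  have con : ∀ j, w ≤ j → j ≤ n + 4 →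
      A / 2 * |Align.sol a u v (j + 1)| ≤ |Align.sol a u v j| := by
    intro j h1 h2
    have h3 := dec (j + 1) (by omega) (by omega)
    have hr := run (j + 1) (by omega) (by omega)
    have e1 : Align.sol a u v (j + 1 + 1) = a (j + 1) * Align.sol a u v (j + 1) - Align.sol a u v j :=
      Align.sol_add_two a u v j
    have h4 : |a (j + 1)| * |Align.sol a u v (j + 1)| ≤ |Align.sol a u v (j + 1 + 1)| +
        |Align.sol a u v j| := by
      rw [← abs_mul]
      calc |a (j + 1) * Align.sol a u v (j + 1)|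
          = |Align.sol a u v (j + 1 + 1) + Align.sol a u v j| := by rw [e1]; ring_nf
        _ ≤ _ := abs_add_le _ _
    have h5 := mul_le_mul_of_nonneg_right hr (abs_nonneg (Align.sol a u v (j + 1)))
    have h6 := mul_le_mul_of_nonneg_right hA (abs_nonneg (Align.sol a u v (j + 1)))
    have h7 := abs_nonneg (Align.sol a u v (j + 1))
    linarith
  -- growth of Q
  have gr : ∀ j, n ≤ j → j ≤ n + 4 → |Align.Q a j| ≤ |Align.Q a (j + 1)| ∧
      (j + 1 ≤ n + 4 → A / 2 * |Align.Q a (j + 1)| ≤ |Align.Q a (j + 2)|) := by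
    intro j hj
    have key : ∀ j, n ≤ j → j + 1 ≤ n + 4 → |Align.Q a j| ≤ |Align.Q a (j + 1)| →
        A / 2 * |Align.Q a (j + 1)| ≤ |Align.Q a (j + 2)| := by
      intro j h1 h2 h3
      have hr := run (j + 1) (by omega) (by omega)
      have e1 := Align.Q_add_two a j
      have h4 : |a (j + 1)| * |Align.Q a (j + 1)| ≤ |Align.Q a (j + 2)| + |Align.Q a j| := by
        rw [← abs_mul]
        calc |a (j + 1) * Align.Q a (j + 1)| = |Align.Q a (j + 2) + Align.Q a j| := by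
              rw [e1]; ring_nf
          _ ≤ _ := abs_add_le _ _
      have h5 := mul_le_mul_of_nonneg_right hr (abs_nonneg (Align.Q a (j + 1)))
      have h6 := mul_le_mul_of_nonneg_right hA (abs_nonneg (Align.Q a (j + 1)))
      have h7 := abs_nonneg (Align.Q a (j + 1))
      linarith
    induction j, hj using Nat.le_induction with
    | base => exact fun _ => ⟨hQ, fun h => key n le_rfl h hQ⟩
    | succ j hj ih =>
      intro h
      obtain ⟨h1, h2⟩ := ih (by omega)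
      have h3 := h2 (by omega)
      have h4 : |Align.Q a (j + 1)| ≤ |Align.Q a (j + 1 + 1)| := by
        have := abs_nonneg (Align.Q a (j + 1))
        have e2 : j + 1 + 1 = j + 2 := rfl
        rw [e2]
        nlinarith
      exact ⟨h4, fun h' => key (j + 1) (by omega) h' h4⟩
  have hFn : 0 ≤ F := le_trans (abs_nonneg _) (foot 0 (by omega))
  have hQ1 : 0 < |Align.Q a (n + 1)| := lt_of_le_of_lt hFn hF
  have g2 := (gr n le_rfl (by omega)).2 (by omega)
  have g3 := (gr (n + 1) (by omega) (by omega)).2 (by omega)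
  have g4 := (gr (n + 2) (by omega) (by omega)).2 (by omega)
  have e2 : n + 1 + 1 = n + 2 := rfl
  have e3 : n + 1 + 2 = n + 3 := rfl
  have e4 : n + 2 + 1 = n + 3 := rfl
  have e5 : n + 2 + 2 = n + 4 := rfl
  rw [e2, e3] at g3
  rw [e4, e5] at g4
  -- general estimate
  have est : ∀ j, w ≤ j → j ≤ n + 3 → 0 < |Align.Q a j| →
      A / 2 * |Align.Q a j| ≤ |Align.Q a (j + 1)| →
      |Align.sol a u v j / Align.Q a j| ≤ 4 / (A * |Align.Q a j| ^ 2) := by
    intro j h1 h2 h3 h4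
    have h5 := con j h1 (by omega)
    have h6 := Align.wronskian_Q a u v j
    have h7 : |Align.sol a u v j| * |Align.Q a (j + 1)| ≤ 1 +
        |Align.sol a u v (j + 1)| * |Align.Q a j| := by
      calc |Align.sol a u v j| * |Align.Q a (j + 1)|
          = |u + Align.sol a u v (j + 1) * Align.Q a j| := by
            rw [← abs_mul]
            congr 1
            linarith
        _ ≤ |u| + |Align.sol a u v (j + 1) * Align.Q a j| := abs_add_le _ _
        _ = _ := by rw [abs_mul, hu]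
    set X := |Align.sol a u v j|
    set X' := |Align.sol a u v (j + 1)|
    set q := |Align.Q a j|
    set q' := |Align.Q a (j + 1)|
    have hX : 0 ≤ X := abs_nonneg _
    have hX' : 0 ≤ X' := abs_nonneg _
    -- X' q ≤ (2/A) X * (2/A) q' ≤ X q' / 4
    have h8 : X' * q ≤ 1 / 4 * (X * q') := by
      have s1 : 2 * X' ≤ X := by nlinarith
      have s2 : 2 * q ≤ q' := by nlinarith
      nlinarith [mul_le_mul s1 s2 (by positivity) hX]
    have h9 : X * q' ≤ 4 / 3 := by linarith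
    have h10 : X * (A / 2 * q) ≤ 4 / 3 :=
      (mul_le_mul_of_nonneg_left h4 hX).trans h9
    rw [abs_div, div_le_div_iff₀ h3 (by positivity)]
    change X * (A * q ^ 2) ≤ 4 * q
    nlinarith [mul_le_mul_of_nonneg_right h10 h3.le]
  have p1 : 0 < |Align.Q a (n + 2)| := by nlinarith
  have p2 : 0 < |Align.Q a (n + 3)| := by nlinarith
  refine ⟨hw, hM, g2, ?_, ?_⟩
  · refine (est (n + 2) (by omega) (by omega) p1 g3).trans ?_
    rw [← sq_abs (Align.Q a (n + 1))]
    have hA0 : 0 < A := by linarith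
    rw [div_le_div_iff₀ (by positivity) (by positivity)]
    have : (A / 2 * |Align.Q a (n + 1)|) ^ 2 ≤ |Align.Q a (n + 2)| ^ 2 :=
      pow_le_pow_left₀ (by positivity) g2 2
    nlinarith [mul_le_mul_of_nonneg_left this hA0.le]
  · refine (est (n + 3) (by omega) (by omega) p2 g4).trans ?_
    rw [← sq_abs (Align.Q a (n + 2))]
    have hA0 : 0 < A := by linarith
    rw [div_le_div_iff₀ (by positivity) (by positivity)]
    have : (A / 2 * |Align.Q a (n + 2)|) ^ 2 ≤ |Align.Q a (n + 3)| ^ 2 :=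
      pow_le_pow_left₀ (by positivity) g3 2
    nlinarith [mul_le_mul_of_nonneg_left this hA0.le]

/-! ## dictionary -/

/-- base point of the side `s` -/
noncomputable def zs (k c : ℝ) (s : Bool) (t : ℝ) : Tor :=
  if s then zt k c t else Rev k (zt k c t)

theorem dg_eq (k c : ℝ) (s : Bool) (t : ℝ) (n : ℕ) :
    ((ap k (zs k c s t) n : ℝ) : ℂ) = Loc.dg k c s t n := by
  unfold Loc.dg Loc.Y zs Loc.sdC
  cases s with
  | true => simpa using ap_eq k c t n
  | false =>
    have h := am_eq k c t n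
    rw [am_eq_ap] at h
    simp only [Bool.false_eq_true, if_false]
    rw [h]
    congr 2
    unfold tb kap
    push_cast
    ring

theorem D_eq (k c : ℝ) (s : Bool) (t : ℝ) (n : ℕ) :
    ((Align.Q (ap k (zs k c s t)) n : ℝ) : ℂ) = Loc.D k c s n t := by
  rw [← Loc.Q_dg]
  have := sol_cast (A := Loc.dg k c s t) (fun n => dg_eq k c s t n) 0 1 n
  rw [Complex.ofReal_zero, Complex.ofReal_one] at this
  exact this

theorem mu_eq (k c : ℝ) (s : Bool) (t : ℝ) (n : ℕ) :
    ((Align.mu (ap k (zs k c s t)) n : ℝ) : ℂ) = Loc.mu k c s n t := by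
  unfold Loc.mu Align.mu
  have h1 := sol_cast (A := Loc.dg k c s t) (fun n => dg_eq k c s t n) 0 1 n
  have h2 := sol_cast (A := Loc.dg k c s t) (fun n => dg_eq k c s t n) 1 0 n
  rw [Complex.ofReal_zero, Complex.ofReal_one] at h1 h2
  push_cast
  unfold Align.Q Align.P
  rw [h1, h2]

theorem norm_dg (k c : ℝ) (s : Bool) (t : ℝ) (n : ℕ) :
    ‖Loc.dg k c s t n‖ = |ap k (zs k c s t) n| := by
  rw [← dg_eq, Complex.norm_real, Real.norm_eq_abs]

theorem norm_D (k c : ℝ) (s : Bool) (t : ℝ) (n : ℕ) :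
    ‖Loc.D k c s n t‖ = |Align.Q (ap k (zs k c s t)) n| := by
  rw [← D_eq, Complex.norm_real, Real.norm_eq_abs]

theorem cont_eq (k c : ℝ) (s : Bool) (n n' : ℕ) (t : ℝ) :
    ((V k (c : UnitAddCircle) - Align.mu (ap k (zs k c s t)) n
      - Align.mu (ap k (zs k c (!s) t)) n' : ℝ) : ℂ) = Loc.cont k c s n n' t := by
  unfold Loc.cont
  push_cast
  rw [mu_eq, mu_eq, cV_ofReal]

/-- the content in terms of the two halves of a tip field -/
theorem norm_cont_le {k c : ℝ} {s : Bool} {n n' : ℕ} {t u v v' : ℝ} (hu : |u| = 1)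
    (hrec : v + v' = V k (c : UnitAddCircle) * u)
    (h : Align.Q (ap k (zs k c s t)) n ≠ 0) (h' : Align.Q (ap k (zs k c (!s) t)) n' ≠ 0) :
    ‖Loc.cont k c s n n' t‖ ≤
      |Align.sol (ap k (zs k c s t)) u v n / Align.Q (ap k (zs k c s t)) n| +
      |Align.sol (ap k (zs k c (!s) t)) u v' n' / Align.Q (ap k (zs k c (!s) t)) n'| := by
  rw [← cont_eq, Complex.norm_real, Real.norm_eq_abs, ← Align.sub_mu u v h, ← Align.sub_mu u v' h']
  calc |V k (c : UnitAddCircle) - Align.mu (ap k (zs k c s t)) n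
        - Align.mu (ap k (zs k c (!s) t)) n'|
      = |u * (V k (c : UnitAddCircle) - Align.mu (ap k (zs k c s t)) n
        - Align.mu (ap k (zs k c (!s) t)) n')| := by rw [abs_mul, hu, one_mul]
    _ = |(v - u * Align.mu (ap k (zs k c s t)) n) +
          (v' - u * Align.mu (ap k (zs k c (!s) t)) n')| := by
        congr 1
        linear_combination -hrec
    _ ≤ _ := abs_add_le _ _

theorem eq_sol' {a x : ℕ → ℝ} (h : ∀ n, x (n + 2) = a (n + 1) * x (n + 1) - x n) (n : ℕ) :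
    Align.sol a (x 0) (x 1) n = x n := by
  induction n using Nat.strong_induction_on with
  | _ n ih =>
    match n with
    | 0 => rfl
    | 1 => rfl
    | n + 2 => rw [Align.sol_add_two, ih (n + 1) (by omega), ih n (by omega), h]

/-- **one side of a very fresh point** -/
theorem side_core {k ρ F H : ℝ} {L n w M : ℕ} {y : Tor} {x : ℕ → ℝ} (hk : 64 ≤ k)
    (S : Good.Side k L ρ y x w M)
    (foot : ∀ j ≤ w, |Align.Q (ap k y) j| ≤ F) (hF : F < |Align.Q (ap k y) (n + 1)|)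
    (hH : ∀ j ≤ n + 1, |Align.Q (ap k y) j| ≤ H)
    (hQ : |Align.Q (ap k y) n| ≤ |Align.Q (ap k y) (n + 1)|)
    (small : 2 * (8 * k) ^ 5 * H * Real.exp (-ρ - 80 * Real.log k) < 1) :
    (∀ i < 3, k ^ ((2 : ℝ) / 3) ≤ |ap k y (n + 1 + i)|) ∧
    0 < |Align.Q (ap k y) (n + 2)| ∧ 0 < |Align.Q (ap k y) (n + 3)| ∧
    |Align.sol (ap k y) (x 0) (x 1) (n + 2) / Align.Q (ap k y) (n + 2)| ≤
      16 / (k ^ 2 * Align.Q (ap k y) (n + 1) ^ 2) ∧
    |Align.sol (ap k y) (x 0) (x 1) (n + 3) / Align.Q (ap k y) (n + 3)| ≤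
      16 / (k ^ 2 * Align.Q (ap k y) (n + 2) ^ 2) := by
  have hk0 : (0 : ℝ) < k := by linarith
  have hA : (4 : ℝ) ≤ k ^ ((2 : ℝ) / 3) := by
    calc (4 : ℝ) ≤ (64 : ℝ) ^ ((2 : ℝ) / 3) := by
          rw [show (64 : ℝ) = 4 ^ (3 : ℝ) by norm_num, ← Real.rpow_mul (by norm_num)]
          norm_num
      _ ≤ _ := Real.rpow_le_rpow (by norm_num) hk (by norm_num)
  have hA3 : (k ^ ((2 : ℝ) / 3)) ^ 3 = k ^ 2 := by
    rw [← Real.rpow_natCast, ← Real.rpow_mul hk0.le]
    norm_num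
  have hlog : 0 < Real.log k := Real.log_pos (by linarith)
  have hM : 1 ≤ M := by
    by_contra hM
    have hM0 : M = 0 := by omega
    have h1 := S.fin
    have h2 := S.lo
    rw [hM0] at h1
    have h3 := h2.trans (by simpa using h1)
    rw [Real.exp_le_exp] at h3
    linarith
  have hw := S.hw
  have e1 : w + (M - 1) = w + M - 1 := by omega
  have e2 : w + (M - 1) + 1 = w + M := by omega
  have hsol := eq_sol' S.xrec
  obtain ⟨c1, c2, c3, c4, c5⟩ := core (a := ap k y) (u := x 0) (v := x 1) (A := k ^ ((2 : ℝ) / 3))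
    (B := 8 * k) (H := H) (F := F) (e := Real.exp (-ρ - 80 * Real.log k)) (w := w) (M := M - 1)
    (n := n) S.x0 hA (by linarith)
    (fun j => by
      have := Lam0.abs_V_le (k := k) (by linarith) (Tz k j y)
      change |V k (Tz k j y).2| + 1 ≤ 8 * k
      linarith)
    (fun j h1 h2 => S.run j h1 (by omega))
    (by rw [hsol, e1]; exact (le_max_left _ _).trans S.fin)
    (by rw [hsol, e2]; exact (le_max_right _ _).trans S.fin)
    foot hF hH hQ small
  have hF0 : 0 ≤ F := le_trans (abs_nonneg _) (foot 0 (by omega))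
  have hQ1 : 0 < |Align.Q (ap k y) (n + 1)| := lt_of_le_of_lt hF0 hF
  have hA0 : 0 < k ^ ((2 : ℝ) / 3) := by linarith
  have p1 : 0 < |Align.Q (ap k y) (n + 2)| := by nlinarith
  have p2 : 0 < |Align.Q (ap k y) (n + 3)| := by
    have hr := S.run (n + 2) (by omega) (by omega)
    have e3 : Align.Q (ap k y) (n + 3) = ap k y (n + 2) * Align.Q (ap k y) (n + 2) -
      Align.Q (ap k y) (n + 1) := Align.Q_add_two _ _
    have h4 : |ap k y (n + 2)| * |Align.Q (ap k y) (n + 2)| ≤ |Align.Q (ap k y) (n + 3)| +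
        |Align.Q (ap k y) (n + 1)| := by
      rw [← abs_mul]
      calc |ap k y (n + 2) * Align.Q (ap k y) (n + 2)|
          = |Align.Q (ap k y) (n + 3) + Align.Q (ap k y) (n + 1)| := by rw [e3]; ring_nf
        _ ≤ _ := abs_add_le _ _
    nlinarith
  rw [hA3] at c4 c5
  refine ⟨fun i hi => S.run _ (by omega) (by omega), p1, p2, c4, c5⟩

theorem sides {k c u ρ : ℝ} {L : ℕ} (s : Bool) (h : Good.VF k L ρ (zt k c u)) :
    ∃ (x x' : ℕ → ℝ) (w M w' M' : ℕ), Good.Side k L ρ (zs k c s u) x w M ∧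
      Good.Side k L ρ (zs k c (!s) u) x' w' M' ∧ x 0 = x' 0 ∧
      x 1 + x' 1 = V k (c : UnitAddCircle) * x 0 := by
  obtain ⟨xp, xm, w, M, w', M', h1, h2, h3, h4⟩ := h
  rw [zt_snd] at h4
  cases s with
  | true => exact ⟨xp, xm, w, M, w', M', h1, h2, h3, h4⟩
  | false => exact ⟨xm, xp, w', M', w, M, h2, h1, h3.symm, by rw [← h3]; linarith⟩

/-- from the sizes of the two halves of the tip field to `Good3` -/
theorem final {k c u R b v v' : ℝ} {s : Bool} {n1 n1' : ℕ} (hk : 10 ^ 4 ≤ k) (hR0 : 0 < R)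
    (hb : |b| = 1) (erec : v + v' = V k (c : UnitAddCircle) * b)
    (r1 : ∀ i < 3, k ^ ((2 : ℝ) / 3) ≤ |ap k (zs k c s u) (n1 + 1 + i)|)
    (r1' : ∀ i < 3, k ^ ((2 : ℝ) / 3) ≤ |ap k (zs k c (!s) u) (n1' + 1 + i)|)
    (p1 : 0 < |Align.Q (ap k (zs k c s u)) (n1 + 2)|)
    (p2 : 0 < |Align.Q (ap k (zs k c s u)) (n1 + 3)|)
    (p1' : 0 < |Align.Q (ap k (zs k c (!s) u)) (n1' + 2)|)
    (p2' : 0 < |Align.Q (ap k (zs k c (!s) u)) (n1' + 3)|)
    (g1 : |Align.sol (ap k (zs k c s u)) b v (n1 + 2) / Align.Q (ap k (zs k c s u)) (n1 + 2)| ≤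
      16 / (k ^ 2 * Align.Q (ap k (zs k c s u)) (n1 + 1) ^ 2))
    (g2 : |Align.sol (ap k (zs k c s u)) b v (n1 + 3) / Align.Q (ap k (zs k c s u)) (n1 + 3)| ≤
      16 / (k ^ 2 * Align.Q (ap k (zs k c s u)) (n1 + 2) ^ 2))
    (g1' : |Align.sol (ap k (zs k c (!s) u)) b v' (n1' + 2) /
        Align.Q (ap k (zs k c (!s) u)) (n1' + 2)| ≤
      16 / (k ^ 2 * Align.Q (ap k (zs k c (!s) u)) (n1' + 1) ^ 2))
    (g2' : |Align.sol (ap k (zs k c (!s) u)) b v' (n1' + 3) /
        Align.Q (ap k (zs k c (!s) u)) (n1' + 3)| ≤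
      16 / (k ^ 2 * Align.Q (ap k (zs k c (!s) u)) (n1' + 2) ^ 2))
    (hQ : R / 2 ≤ |Align.Q (ap k (zs k c s u)) (n1 + 1)|)
    (hQ' : R / 2 ≤ |Align.Q (ap k (zs k c (!s) u)) (n1' + 1)|) :
    Loc.Good3 k c s n1 n1' R u := by
  have hk0 : 0 < k := by linarith
  have hpi := Real.pi_pos
  have hpi4 : Real.pi < 4 := by linarith [Real.pi_lt_d2]
  have hk2 : 0 < k ^ 2 := by positivity
  have hzD : ‖Loc.D k c s (n1 + 2) u‖ = |Align.Q (ap k (zs k c s u)) (n1 + 2)| := norm_D k c s u _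
  have hzD' : ‖Loc.D k c (!s) (n1' + 2) u‖ = |Align.Q (ap k (zs k c (!s) u)) (n1' + 2)| :=
    norm_D k c (!s) u _
  generalize ha : ap k (zs k c s u) = a at *
  generalize ha' : ap k (zs k c (!s) u) = a' at *
  have step : ∀ {X Y W : ℝ}, 0 < W → W ≤ |Y| → X ≤ 16 / (k ^ 2 * Y ^ 2) →
      X ≤ 16 / (k ^ 2 * W ^ 2) := by
    intro X Y W hW hWY hX
    refine hX.trans (div_le_div_of_nonneg_left (by norm_num) (by positivity)
      (mul_le_mul_of_nonneg_left ?_ hk2.le))
    rw [← sq_abs Y]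
    exact pow_le_pow_left₀ hW.le hWY 2
  refine ⟨?_, ?_, ?_, ?_⟩
  · intro i hi
    rw [norm_dg, ha]
    exact r1 i hi
  · intro i hi
    rw [norm_dg, ha']
    exact r1' i hi
  · have h1 := norm_cont_le (k := k) (c := c) (s := s) (n := n1 + 2) (n' := n1' + 2) (t := u)
      (u := b) (v := v) (v' := v') hb erec (by rw [ha]; exact abs_pos.mp p1)
      (by rw [ha']; exact abs_pos.mp p1')
    rw [ha, ha'] at h1
    have hR2 : 0 < R / 2 := by linarith
    have h2 := step hR2 hQ g1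
    have h3 := step hR2 hQ' g1'
    have h4 : ‖Loc.cont k c s (n1 + 2) (n1' + 2) u‖ ≤ 128 / (k ^ 2 * R ^ 2) := by
      refine h1.trans ((add_le_add h2 h3).trans (le_of_eq ?_))
      field_simp
      ring
    calc (2 * Real.pi * k * R ^ 2) * ‖Loc.cont k c s (n1 + 2) (n1' + 2) u‖
        ≤ (2 * Real.pi * k * R ^ 2) * (128 / (k ^ 2 * R ^ 2)) :=
          mul_le_mul_of_nonneg_left h4 (by positivity)
      _ = 256 * Real.pi / k := by field_simp; ring
      _ ≤ 1 / 8 := by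
          rw [div_le_div_iff₀ hk0 (by norm_num)]
          linarith
  · have h1 := norm_cont_le (k := k) (c := c) (s := s) (n := n1 + 3) (n' := n1' + 3) (t := u)
      (u := b) (v := v) (v' := v') hb erec (by rw [ha]; exact abs_pos.mp p2)
      (by rw [ha']; exact abs_pos.mp p2')
    rw [ha, ha'] at h1
    have m1 : min ‖Loc.D k c s (n1 + 2) u‖ ‖Loc.D k c (!s) (n1' + 2) u‖ ≤ |Align.Q a (n1 + 2)| := by
      rw [← hzD]; exact min_le_left _ _
    have m2 : min ‖Loc.D k c s (n1 + 2) u‖ ‖Loc.D k c (!s) (n1' + 2) u‖ ≤ |Align.Q a' (n1' + 2)| := by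
      rw [← hzD']; exact min_le_right _ _
    have m0 : 0 < min ‖Loc.D k c s (n1 + 2) u‖ ‖Loc.D k c (!s) (n1' + 2) u‖ := by
      rw [hzD, hzD']; exact lt_min p1 p1'
    generalize min ‖Loc.D k c s (n1 + 2) u‖ ‖Loc.D k c (!s) (n1' + 2) u‖ = μ at *
    have h2 := step m0 m1 g2
    have h3 := step m0 m2 g2'
    have h4 : ‖Loc.cont k c s (n1 + 3) (n1' + 3) u‖ ≤ 32 / (k ^ 2 * μ ^ 2) := by
      refine h1.trans ((add_le_add h2 h3).trans (le_of_eq ?_))
      ring
    calc (2 * Real.pi * k * μ ^ 2) * ‖Loc.cont k c s (n1 + 3) (n1' + 3) u‖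
        ≤ (2 * Real.pi * k * μ ^ 2) * (32 / (k ^ 2 * μ ^ 2)) :=
          mul_le_mul_of_nonneg_left h4 (by positivity)
      _ = 64 * Real.pi / k := by field_simp; ring
      _ ≤ 1 / 8 := by
          rw [div_le_div_iff₀ hk0 (by norm_num)]
          linarith

set_option maxHeartbeats 1000000 in
/-- **(H4)**: a very fresh point near the centre of a cell is a `Good3` point.  Hypotheses: `foot`
(sizes before the foot, from cleanness) and `size`, `size'` (sizes before the exits). -/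
theorem good3 (C1 : ℝ) (L : ℕ) : ∃ k1 : ℝ, ∀ k : ℝ, k1 ≤ k →
    (∀ (ρ : ℝ) (y : Tor) (x : ℕ → ℝ) (w M : ℕ), 0 ≤ ρ → Good.Side k L ρ y x w M →
      ∀ j ≤ w, |Align.Q (ap k y) j| ≤ k ^ 50 * Real.exp ρ) →
    ∀ (c u : ℝ) (n : ℕ) (s : Bool) (n1 n1' : ℕ) (m R lam q0 q1 q2 : ℝ),
    zt k c u ∈ Good.G k L n → k ^ 60 * 2 ^ n ≤ R / 4 → R ≤ k ^ 74 * 2 ^ n →
    |lam| ≤ C1 * Real.sqrt k → Loc.Cell3 k c s n1 n1' m R lam C1 q0 q1 q2 → |u - m| ≤ 3 / R →
    (∀ i ≤ n1, ‖Loc.D k c s i u‖ ≤ k ^ 74 * Real.sqrt k * 2 ^ n) →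
    (∀ i ≤ n1', ‖Loc.D k c (!s) i u‖ ≤ k ^ 74 * Real.sqrt k * 2 ^ n) →
    Loc.Good3 k c s n1 n1' R u := by
  obtain ⟨C2, hC2⟩ : ∃ C2, C2 = max C1 1 := ⟨_, rfl⟩
  have hC21 : 1 ≤ C2 := hC2 ▸ le_max_right _ _
  have hC12 : C1 ≤ C2 := hC2 ▸ le_max_left _ _
  refine ⟨10 ^ 11 * C2 ^ 4, ?_⟩
  intro k hk foot c u n s n1 n1' m R lam q0 q1 q2 hG hR1 hR2 hlam hC hu size size'
  have hk4 : (10 : ℝ) ^ 11 ≤ k := by
    have : (1 : ℝ) ≤ C2 ^ 4 := one_le_pow₀ hC21
    nlinarith
  have hk0 : (0 : ℝ) < k := by linarith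
  obtain ⟨q, hq⟩ : ∃ q, q = Real.sqrt k := ⟨_, rfl⟩
  have hqq : q * q = k := by rw [hq]; exact Real.mul_self_sqrt hk0.le
  have hq0 : 0 < q := by rw [hq]; exact Real.sqrt_pos.mpr hk0
  have hqC : 3 * 10 ^ 5 * C2 ^ 2 ≤ q := by
    rw [hq]
    refine Real.le_sqrt_of_sq_le ?_
    nlinarith [hk]
  rw [← hq] at hlam size size'
  have hC2q : C2 ≤ q / (3 * 10 ^ 5) := by
    rw [le_div_iff₀ (by norm_num)]
    nlinarith
  have hR0 : 0 < R := lt_of_lt_of_le one_pos hC.hR
  have hmem : (u : ℂ) ∈ ball (m : ℂ) (4 / R) := by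
    rw [mem_ball, dist_eq_norm, ← Complex.ofReal_sub, Complex.norm_real, Real.norm_eq_abs]
    refine hu.trans_lt ?_
    exact div_lt_div_of_pos_right (by norm_num) hR0
  -- slow side sizes
  have hC1k : 2 * C1 ≤ k := by
    have h1 : C2 ≤ C2 ^ 4 := le_self_pow₀ hC21 (by norm_num)
    linarith
  have hCk : C1 * R / k ≤ R / 2 := by
    rw [div_le_div_iff₀ hk0 (by norm_num)]
    have := mul_le_mul_of_nonneg_right hC1k hR0.le
    linarith
  have slow1 : R / 2 ≤ ‖Loc.D k c s (n1 + 1) u‖ ∧ ‖Loc.D k c s (n1 + 1) u‖ ≤ 3 / 2 * R := by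
    obtain ⟨σ, hσ, h⟩ := hC.slow
    have h1 := (h u hmem).trans hCk
    have hn : ‖((σ * R : ℝ) : ℂ)‖ = R := by
      rw [Complex.norm_real, Real.norm_eq_abs, abs_mul, abs_of_pos hR0]
      rcases hσ with h | h <;> rw [h] <;> norm_num
    have h2 := abs_norm_sub_norm_le (Loc.D k c s (n1 + 1) u) ((σ * R : ℝ) : ℂ)
    rw [hn] at h2
    have h3 := abs_le.mp (h2.trans h1)
    constructor <;> linarith [h3.1, h3.2]
  have slow0 : ‖Loc.D k c s n1 u‖ ≤ R / 2 := (hC.slow0 u hmem).trans hCk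
  -- fast side sizes
  have hl0 : 0 < |lam| := lt_of_lt_of_le one_pos hC.hlam
  have hlR : R ≤ |lam| * R := by nlinarith [hC.hlam]
  have hlam2 : |lam| ≤ C2 * q := hlam.trans (mul_le_mul_of_nonneg_right hC12 hq0.le)
  have hCl : C1 * |lam| ≤ q * q / 2 := by
    calc C1 * |lam| ≤ C2 * |lam| := mul_le_mul_of_nonneg_right hC12 hl0.le
      _ ≤ C2 * (C2 * q) := mul_le_mul_of_nonneg_left hlam2 (by linarith)
      _ ≤ q * q / 2 := by nlinarith
  have hCk2 : C1 * |lam| ^ 2 * R / k ≤ |lam| * R / 2 := by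
    rw [div_le_div_iff₀ hk0 (by norm_num), ← hqq]
    have := mul_le_mul_of_nonneg_right hCl (by positivity : 0 ≤ |lam| * R)
    nlinarith
  have hCk3 : C1 * |lam| * R / k ≤ |lam| * R / 2 := by
    rw [div_le_div_iff₀ hk0 (by norm_num), ← hqq]
    have := mul_le_mul_of_nonneg_right hCl hR0.le
    have h3 : q * q ≤ q * q * |lam| := by nlinarith [hC.hlam, mul_pos hq0 hq0]
    nlinarith
  have fast1 : |lam| * R / 2 ≤ ‖Loc.D k c (!s) (n1' + 1) u‖ ∧
      ‖Loc.D k c (!s) (n1' + 1) u‖ ≤ 3 / 2 * (|lam| * R) := by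
    have h1 := (hC.fast u hmem).trans hCk2
    have hn : ‖((lam * R : ℝ) : ℂ)‖ = |lam| * R := by
      rw [Complex.norm_real, Real.norm_eq_abs, abs_mul, abs_of_pos hR0]
    have h2 := abs_norm_sub_norm_le (Loc.D k c (!s) (n1' + 1) u) ((lam * R : ℝ) : ℂ)
    rw [hn] at h2
    have h3 := abs_le.mp (h2.trans h1)
    constructor <;> linarith [h3.1, h3.2]
  have fast0 : ‖Loc.D k c (!s) n1' u‖ ≤ |lam| * R / 2 := (hC.fast0 u hmem).trans hCk3
  -- the tip field
  obtain ⟨-, ρ, hρ1, hρ2, hVF⟩ := hG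
  have hρ0 : 0 ≤ ρ := le_trans (by positivity) hρ1
  obtain ⟨x, x', w, M, w', M', S, S', e0, erec⟩ := sides s hVF
  have hexp : Real.exp ρ ≤ 2 ^ n * k ^ 2 := by
    refine (Real.exp_le_exp.mpr hρ2).trans (le_of_eq ?_)
    rw [Real.exp_add, Real.exp_nat_mul, Real.exp_log (by norm_num),
      show (2 : ℝ) * Real.log k = ((2 : ℕ) : ℝ) * Real.log k by norm_num, Real.exp_nat_mul,
      Real.exp_log hk0]
  have hexp2 : Real.exp (-ρ - 80 * Real.log k) ≤ 1 / (2 ^ n * k ^ 80) := by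
    rw [show -ρ - 80 * Real.log k = -(ρ + ((80 : ℕ) : ℝ) * Real.log k) by push_cast; ring,
      Real.exp_neg, ← one_div, Real.exp_add, Real.exp_nat_mul, Real.exp_log hk0]
    refine one_div_le_one_div_of_le (by positivity) ?_
    refine mul_le_mul_of_nonneg_right ?_ (by positivity)
    calc (2 : ℝ) ^ n = Real.exp (n * Real.log 2) := by
          rw [Real.exp_nat_mul, Real.exp_log (by norm_num)]
      _ ≤ _ := Real.exp_le_exp.mpr hρ1
  set z := zs k c s u with hz
  set z' := zs k c (!s) u with hz'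
  have h2n : (0 : ℝ) < 2 ^ n := by positivity
  have hFF : k ^ 50 * Real.exp ρ < R / 2 := by
    have h1 : k ^ 50 * Real.exp ρ ≤ k ^ 52 * 2 ^ n := by
      calc k ^ 50 * Real.exp ρ ≤ k ^ 50 * (2 ^ n * k ^ 2) :=
            mul_le_mul_of_nonneg_left hexp (by positivity)
        _ = k ^ 52 * 2 ^ n := by ring
    have h2 : k ^ 52 * 2 ^ n < k ^ 60 * 2 ^ n :=
      mul_lt_mul_of_pos_right (pow_lt_pow_right₀ (by linarith) (by norm_num)) h2n
    linarith
  obtain ⟨H, hH⟩ : ∃ H, H = 3 / 2 * C2 * (k ^ 74 * q * 2 ^ n) := ⟨_, rfl⟩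
  have hbase : 0 < k ^ 74 * q * 2 ^ n := by positivity
  have hH1 : k ^ 74 * q * 2 ^ n ≤ H := by rw [hH]; nlinarith
  have hH2 : 3 / 2 * (|lam| * R) ≤ H := by
    rw [hH]
    have : |lam| * R ≤ C2 * q * (k ^ 74 * 2 ^ n) := mul_le_mul hlam2 hR2 hR0.le (by positivity)
    nlinarith
  have hH3 : 3 / 2 * R ≤ H := by linarith
  have small : 2 * (8 * k) ^ 5 * H * Real.exp (-ρ - 80 * Real.log k) < 1 := by
    have hH0 : 0 < H := by linarith
    refine (mul_le_mul_of_nonneg_left hexp2 (by positivity)).trans_lt ?_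
    rw [mul_one_div, div_lt_one (by positivity), hH]
    have e1 : 2 * (8 * k) ^ 5 * (3 / 2 * C2 * (k ^ 74 * q * 2 ^ n)) =
        98304 * C2 * q * (k ^ 79 * 2 ^ n) := by ring
    have e2 : (2 : ℝ) ^ n * k ^ 80 = (q * q) * (k ^ 79 * 2 ^ n) := by rw [hqq]; ring
    rw [e1, e2]
    refine mul_lt_mul_of_pos_right ?_ (by positivity)
    nlinarith
  have hk64 : (64 : ℝ) ≤ k := by linarith
  have hzD : ∀ i, ‖Loc.D k c s i u‖ = |Align.Q (ap k z) i| := fun i => norm_D k c s u i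
  have hzD' : ∀ i, ‖Loc.D k c (!s) i u‖ = |Align.Q (ap k z') i| := fun i => norm_D k c (!s) u i
  obtain ⟨r1, p1, p2, g1, g2⟩ := side_core (n := n1) hk64 S (foot ρ z x w M hρ0 S)
    (by rw [← hzD]; linarith [slow1.1])
    (by
      intro j hj
      rw [← hzD]
      rcases Nat.lt_or_ge j (n1 + 1) with h | h
      · exact (size j (by omega)).trans hH1
      · have : j = n1 + 1 := by omega
        rw [this]
        linarith [slow1.2])
    (by rw [← hzD, ← hzD]; linarith [slow1.1]) small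
  obtain ⟨r1', p1', p2', g1', g2'⟩ := side_core (n := n1') hk64 S' (foot ρ z' x' w' M' hρ0 S')
    (by rw [← hzD']; linarith [fast1.1])
    (by
      intro j hj
      rw [← hzD']
      rcases Nat.lt_or_ge j (n1' + 1) with h | h
      · exact (size' j (by omega)).trans hH1
      · have : j = n1' + 1 := by omega
        rw [this]
        linarith [fast1.2])
    (by rw [← hzD', ← hzD']; linarith [fast1.1]) small
  rw [← e0] at g1' g2'
  exact final (by linarith) hR0 S.x0 erec r1 r1' p1 p2 p1' p2' g1 g2 g1' g2'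
    (by rw [← hzD]; exact slow1.1)
    (by rw [← hzD']; linarith [fast1.1])

end Crest.Agent.R128.H4
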