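import Crest.Agent.R128.Good
import Crest.Agent.R128.H4

/-!
# Row 128, V5: final packaging of `Good.LocA L` (helper365)

`LocA` = (very fresh point ⟹ base data of both sides, `VFBase`) + (595's `locA4`, `LocA4Stmt`) +
(220's `H4.good3`, `H4Stmt`).  Everything is stated over an abstract base predicate
`B k c s n0 M t0 r0 r` (595: `LocA.Base`).
-/

set_option autoImplicit false

open Metric MeasureTheory
open Crest.Agent.R128 Crest.Agent.R128.Cell Crest.Agent.R128.CellB Crest.Agent.R128.CellDy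
open Crest.Agent.R128.AlignMn Crest.Agent.R128.DictY

namespace Crest.Agent.R128.LocGlue365

/-- the conclusion of 595's `locA4` at a base point -/
def Out (k c t0 r : ℝ) (n0 : Bool → ℕ) : Prop :=
  ∃ N : Set ℝ, N ⊆ Set.Icc (t0 - r) (t0 + r) ∧ ENNReal.ofReal r ≤ volume N ∧
    ∀ m ∈ N, ∃ (s : Bool) (n n' : ℕ) (R lam q0 q1 q2 : ℝ), k ≤ R * (2 * r) ∧ R * (2 * r) ≤ k ^ 8 ∧
      |lam| ≤ 10 ^ 19 * Real.sqrt k ∧ Loc.Cell3 k c s n n' m R lam (10 ^ 19) q0 q1 q2 ∧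
      (∀ i, n0 s + 1 ≤ i → i ≤ n + 1 → ∀ t ∈ ball (m : ℂ) (4 / R), ‖Loc.D k c s i t‖ ≤ 2 * R) ∧
      (∀ i, n0 (!s) + 1 ≤ i → i ≤ n' + 1 → ∀ t ∈ ball (m : ℂ) (4 / R),
        ‖Loc.D k c (!s) i t‖ ≤ 2 * |lam| * R)

/-- the old content is quadratic -/
def OldC (k c t0 r : ℝ) (n0 : Bool → ℕ) : Prop :=
  ∃ p0 p1 p2 : ℝ, ∀ z ∈ ball (t0 : ℂ) (2 * r),
    ‖Loc.cont k c true (n0 true + 1) (n0 false + 1) z -
      (p0 + p1 * (z - t0) + p2 * (z - t0) ^ 2)‖ ≤ r ^ 2 / k ^ 18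

def LocA4Stmt (B : ℝ → ℝ → Bool → ℕ → ℕ → ℝ → ℝ → ℝ → Prop) : Prop :=
  ∃ k1 : ℝ, ∀ k : ℝ, k1 ≤ k → ∀ c t0 r : ℝ, 2 * r ≤ 1 → ∀ (n0 M : Bool → ℕ) (r0 : Bool → ℝ),
    (∀ s, B k c s (n0 s) (M s) t0 (r0 s) r) → OldC k c t0 r n0 → Out k c t0 r n0

/-- very fresh ⟹ base data, old content, old sizes (`r = 1 / (k^60 2^n)`) -/
def VFBase (L : ℕ) (B : ℝ → ℝ → Bool → ℕ → ℕ → ℝ → ℝ → ℝ → Prop) : Prop :=
  ∃ k1 : ℝ, ∀ k : ℝ, k1 ≤ k → ∀ (c t0 : ℝ) (n : ℕ), zt k c t0 ∈ Good.G k L n →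
    ∃ (n0 M : Bool → ℕ) (r0 : Bool → ℝ),
      (∀ s, B k c s (n0 s) (M s) t0 (r0 s) (1 / (k ^ 60 * 2 ^ n))) ∧
      OldC k c t0 (1 / (k ^ 60 * 2 ^ n)) n0 ∧
      ∀ s, ∀ i ≤ n0 s, ∀ u : ℝ, |u - t0| ≤ 2 * (1 / (k ^ 60 * 2 ^ n)) →
        ‖Loc.D k c s i u‖ ≤ k ^ 74 * 2 ^ n

/-- 220's `H4.good3` (after FOOT) -/
def H4Stmt (L : ℕ) : Prop :=
  ∀ C1 : ℝ, ∃ k1 : ℝ, ∀ k : ℝ, k1 ≤ k →
    ∀ (c u : ℝ) (n : ℕ) (s : Bool) (n1 n1' : ℕ) (m R lam q0 q1 q2 : ℝ),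
    zt k c u ∈ Good.G k L n → k ^ 60 * 2 ^ n ≤ R / 4 → R ≤ k ^ 74 * 2 ^ n →
    |lam| ≤ C1 * Real.sqrt k → Loc.Cell3 k c s n1 n1' m R lam C1 q0 q1 q2 → |u - m| ≤ 3 / R →
    (∀ i ≤ n1, ‖Loc.D k c s i u‖ ≤ k ^ 74 * Real.sqrt k * 2 ^ n) →
    (∀ i ≤ n1', ‖Loc.D k c (!s) i u‖ ≤ k ^ 74 * Real.sqrt k * 2 ^ n) →
    Loc.Good3 k c s n1 n1' R u

theorem locA_of {L : ℕ} {B : ℝ → ℝ → Bool → ℕ → ℕ → ℝ → ℝ → ℝ → Prop} (hA : LocA4Stmt B)
    (hB : VFBase L B) (hH : H4Stmt L) : Good.LocA L := by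
  obtain ⟨ka, hA⟩ := hA
  obtain ⟨kb, hB⟩ := hB
  obtain ⟨kh, hH⟩ := hH (10 ^ 19)
  refine ⟨10 ^ 19, by norm_num, max (max ka kb) (max kh (10 ^ 20)), ?_⟩
  intro k hk c t0 n hG
  have hka : ka ≤ k := (le_max_left _ _).trans ((le_max_left _ _).trans hk)
  have hkb : kb ≤ k := (le_max_right _ _).trans ((le_max_left _ _).trans hk)
  have hkh : kh ≤ k := (le_max_left _ _).trans ((le_max_right _ _).trans hk)
  have hk20 : (10 : ℝ) ^ 20 ≤ k := (le_max_right _ _).trans ((le_max_right _ _).trans hk)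
  have hk0 : 0 < k := lt_of_lt_of_le (by norm_num) hk20
  have hk1 : 1 ≤ k := le_trans (by norm_num) hk20
  have h2n : (1 : ℝ) ≤ 2 ^ n := one_le_pow₀ (by norm_num)
  set X : ℝ := k ^ 60 * 2 ^ n with hX
  have hX1 : 2 ≤ X := by
    have h1 : k ≤ k ^ 60 := le_self_pow₀ hk1 (by norm_num)
    have h2 : k ^ 60 * 1 ≤ k ^ 60 * 2 ^ n := mul_le_mul_of_nonneg_left h2n (by positivity)
    have h3 : (2 : ℝ) ≤ 10 ^ 20 := by norm_num
    linarith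
  have hX0 : 0 < X := by linarith
  obtain ⟨n0, M, r0, hb, hc, hs⟩ := hB k hkb c t0 n hG
  have hr2 : 2 * (1 / X) ≤ 1 := by
    rw [mul_one_div, div_le_one hX0]
    exact hX1
  obtain ⟨N, hN1, hN2, hN3⟩ := hA k hka c t0 (1 / X) hr2 n0 M r0 hb hc
  refine ⟨N, hN1, hN2, fun m hm => ?_⟩
  obtain ⟨s, n1, n1', R, lam, q0, q1, q2, h1, h2, h3, h4, h5, h6⟩ := hN3 m hm
  have hR0 : 0 < R := lt_of_lt_of_le one_pos h4.hR
  -- the window of `R`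
  have e1 : R * (2 * (1 / X)) = 2 * R / X := by ring
  rw [e1, le_div_iff₀ hX0] at h1
  rw [e1, div_le_iff₀ hX0] at h2
  have hlo : X ≤ R / 4 := by
    have : (10 : ℝ) ^ 20 * X ≤ k * X := mul_le_mul_of_nonneg_right hk20 hX0.le
    have h7 : (8 : ℝ) * X ≤ 10 ^ 20 * X := mul_le_mul_of_nonneg_right (by norm_num) hX0.le
    linarith
  have hk68 : k ^ 8 * X = k ^ 68 * 2 ^ n := by rw [hX]; ring
  have hR68 : 2 * R ≤ k ^ 68 * 2 ^ n := by rw [← hk68]; exact h2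
  have hR74 : R ≤ k ^ 74 * 2 ^ n := by
    have : k ^ 68 * 2 ^ n ≤ k ^ 74 * 2 ^ n :=
      mul_le_mul_of_nonneg_right (pow_le_pow_right₀ hk1 (by norm_num)) (by positivity)
    linarith
  refine ⟨s, n1, n1', R, lam, q0, q1, q2, hlo, hR74, h3, h4, fun u hu hGu => ?_⟩
  have hq1 : 1 ≤ Real.sqrt k := by
    rw [Real.one_le_sqrt]
    exact hk1
  have h74 : k ^ 74 * 2 ^ n ≤ k ^ 74 * Real.sqrt k * 2 ^ n := by
    have h7 : k ^ 74 * 1 ≤ k ^ 74 * Real.sqrt k := mul_le_mul_of_nonneg_left hq1 (by positivity)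
    calc k ^ 74 * 2 ^ n = k ^ 74 * 1 * 2 ^ n := by ring
      _ ≤ _ := mul_le_mul_of_nonneg_right h7 (by positivity)
  -- `u` is close to `t0`
  have hut : |u - t0| ≤ 2 * (1 / X) := by
    have hmN := hN1 hm
    have h7 : |m - t0| ≤ 1 / X := abs_le.2 ⟨by linarith [hmN.1], by linarith [hmN.2]⟩
    have h8 : 3 / R ≤ 1 / X := by
      rw [div_le_div_iff₀ hR0 hX0]
      linarith
    calc |u - t0| ≤ |u - m| + |m - t0| := abs_sub_le _ _ _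
      _ ≤ 3 / R + 1 / X := add_le_add hu h7
      _ ≤ _ := by linarith
  have hmem : (u : ℂ) ∈ ball (m : ℂ) (4 / R) := by
    rw [mem_ball, dist_eq_norm, ← Complex.ofReal_sub, Complex.norm_real, Real.norm_eq_abs]
    exact hu.trans_lt (div_lt_div_of_pos_right (by norm_num) hR0)
  refine hH k hkh c u n s n1 n1' m R lam q0 q1 q2 hGu hlo hR74 h3 h4 hu ?_ ?_
  · intro i hi
    rcases Nat.lt_or_ge (n0 s) i with h7 | h7
    · refine (h5 i h7 (by omega) u hmem).trans ?_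
      have : k ^ 68 * 2 ^ n ≤ k ^ 74 * 2 ^ n :=
        mul_le_mul_of_nonneg_right (pow_le_pow_right₀ hk1 (by norm_num)) (by positivity)
      linarith
    · exact (hs s i h7 u hut).trans h74
  · intro i hi
    rcases Nat.lt_or_ge (n0 (!s)) i with h7 | h7
    · refine (h6 i h7 (by omega) u hmem).trans ?_
      calc 2 * |lam| * R = |lam| * (2 * R) := by ring
        _ ≤ (10 ^ 19 * Real.sqrt k) * (k ^ 68 * 2 ^ n) :=
            mul_le_mul h3 hR68 (by positivity) (by positivity)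
        _ = 10 ^ 19 * (k ^ 68 * Real.sqrt k * 2 ^ n) := by ring
        _ ≤ k * (k ^ 68 * Real.sqrt k * 2 ^ n) :=
            mul_le_mul_of_nonneg_right (le_trans (by norm_num) hk20) (by positivity)
        _ = k ^ 69 * Real.sqrt k * 2 ^ n := by ring
        _ ≤ k ^ 74 * Real.sqrt k * 2 ^ n := by
            refine mul_le_mul_of_nonneg_right (mul_le_mul_of_nonneg_right
              (pow_le_pow_right₀ hk1 (by norm_num)) (by positivity)) (by positivity)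
    · exact (hs (!s) i h7 u hut).trans h74

/-- `H4Stmt` from the landed `H4.good3` and FOOT -/
theorem h4_of {L : ℕ} (hF : ∃ k1 : ℝ, ∀ k : ℝ, k1 ≤ k → ∀ (ρ : ℝ) (y : Tor) (x : ℕ → ℝ) (w M : ℕ),
      Good.Side k L ρ y x w M → ∀ j ≤ w, |Align.Q (ap k y) j| ≤ k ^ 50 * Real.exp ρ) :
    H4Stmt L := by
  intro C1
  obtain ⟨k1, h1⟩ := H4.good3 C1 L
  obtain ⟨k2, h2⟩ := hF
  refine ⟨max k1 k2, fun k hk => ?_⟩
  exact h1 k ((le_max_left _ _).trans hk)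
    (fun ρ y x w M _ S => h2 k ((le_max_right _ _).trans hk) ρ y x w M S)

end Crest.Agent.R128.LocGlue365
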