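import Crest.Agent.R128.H4Fin
import Crest.Agent.R128.LocGlue365

/-! Row 128: `H4Stmt` of the final packaging of `Good.LocA` (helper220). -/

set_option autoImplicit false

namespace Crest.Agent.R128.H4Fin

/-- (H4) in the form of the final packaging -/
theorem h4 {L : ℕ} (hL : 20 ≤ L) : LocGlue365.H4Stmt L := fun C1 => good3 C1 hL

/-- `Good.LocA` from the two remaining statements -/
theorem locA_of {L : ℕ} (hL : 20 ≤ L) {B : ℝ → ℝ → Bool → ℕ → ℕ → ℝ → ℝ → ℝ → Prop}
    (hA : LocGlue365.LocA4Stmt B) (hB : LocGlue365.VFBase L B) : Good.LocA L :=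
  LocGlue365.locA_of hA hB (h4 hL)

end Crest.Agent.R128.H4Fin
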