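import Crest.Agent.R128.LocA5

/-!
# LocA, final theorem (row 128, helper595)
-/

set_option autoImplicit false

open MeasureTheory Metric Set
open Crest.Agent.R128 Crest.Agent.R128.Cell Crest.Agent.R128.CellB

namespace Crest.Agent.R128.LocA

variable {k c u : ℝ} {s : Bool} {n0 M jS : ℕ} {t₀ r0 r t₁ ρ δ A : ℝ}

/-- slopes up to the exit are at most the slope at the exit -/
theorem SideOK.mon (N : NumB k A δ ρ) (S : SideOK k c s n0 jS r0 ρ δ A t₁) {i : ℕ} (hi2 : 2 ≤ i)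
    (hi6 : i ≤ 6) (hb : 1 ≤ ‖Ds k c s (n0 + 1 + (jS + i)) t₁‖ * ρ) {t : ℂ}
    (ht : ‖t - t₁‖ < k / (10 ^ 19 * ‖Ds k c s (n0 + 1 + (jS + i)) t₁‖)) :
    ∀ j ≤ jS + i, ‖Ds k c s (n0 + 1 + j) t‖ ≤ 3 / 2 * ‖Ds k c s (n0 + 1 + (jS + i)) t₁‖ := by
  have hrad := S.rad_ge N hi2 hi6 hb
  obtain ⟨c1, c2⟩ := S.chain' N
  have hA := N.A_pos
  have hanti : ∀ m, ∀ j, j + m = jS + i → rad k (Loc.Y k c s) (Ds k c s) n0 r0 t₁ (jS + i) ≤
      rad k (Loc.Y k c s) (Ds k c s) n0 r0 t₁ j ∧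
      ‖Ds k c s (n0 + 1 + j) t₁‖ ≤ ‖Ds k c s (n0 + 1 + (jS + i)) t₁‖ := by
    intro m
    induction m with
    | zero =>
      intro j hj
      have : j = jS + i := by omega
      rw [this]
      exact ⟨le_rfl, le_rfl⟩
    | succ m ih =>
      intro j hj
      obtain ⟨h1, h2⟩ := ih (j + 1) (by omega)
      refine ⟨h1.trans (c2 j (by omega)).1, le_trans ?_ h2⟩
      have h3 := (c2 j (by omega)).2.1
      have h4 := S.start.dig j (by omega)
      have h5 := (c1 j (by omega)).2.1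
      nlinarith
  intro j hj
  obtain ⟨h1, h2⟩ := hanti (jS + i - j) j (by omega)
  have h3 := (c1 j (by omega)).1.close t (by
    rw [mem_ball, dist_eq_norm]
    exact lt_of_lt_of_le ht (hrad.trans h1))
  have e : n0 + j + 1 = n0 + 1 + j := by omega
  rw [e] at h3
  have h4 : ‖Ds k c s (n0 + 1 + j) t‖ ≤ ‖Ds k c s (n0 + 1 + j) t - Ds k c s (n0 + 1 + j) t₁‖ +
      ‖Ds k c s (n0 + 1 + j) t₁‖ := by
    calc ‖Ds k c s (n0 + 1 + j) t‖ =
        ‖(Ds k c s (n0 + 1 + j) t - Ds k c s (n0 + 1 + j) t₁) + Ds k c s (n0 + 1 + j) t₁‖ := by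
          rw [sub_add_cancel]
      _ ≤ _ := norm_add_le _ _
  have h5 := norm_nonneg (Ds k c s (n0 + 1 + (jS + i)) t₁)
  linarith

/-- output at a good centre `m`: the cell and the sizes of all slopes between the foot and the exit -/
structure Out (k c : ℝ) (n0 : Bool → ℕ) (m R lam : ℝ) (s : Bool) (n n' : ℕ) (q0 q1 q2 : ℝ) :
    Prop where
  cell : Loc.Cell3 k c s n n' m R lam CC q0 q1 q2
  lam_le : |lam| ≤ CC * Real.sqrt k
  foot : n0 s + 4 ≤ n
  foot' : n0 (!s) + 4 ≤ n'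
  mon : ∀ i, n0 s + 1 ≤ i → i ≤ n + 1 → ∀ t ∈ ball (m : ℂ) (4 / R), ‖Loc.D k c s i t‖ ≤ 2 * R
  mon' : ∀ i, n0 (!s) + 1 ≤ i → i ≤ n' + 1 → ∀ t ∈ ball (m : ℂ) (4 / R),
    ‖Loc.D k c (!s) i t‖ ≤ 2 * |lam| * R

theorem out_of_pair (N : NumB k A δ ρ) (hρ1 : ρ ≤ 1) {n0 jS : Bool → ℕ} {r0 : Bool → ℝ}
    (S : ∀ s, SideOK k c s (n0 s) (jS s) (r0 s) ρ δ A t₁) (hj1 : ∀ s, 1 ≤ jS s) {ε : ℝ}
    (old : ∃ p0 p1 p2 : ℝ, ∀ z ∈ ball (t₁ : ℂ) (4 * ρ / k),
      ‖Loc.cont k c true (n0 true + 1) (n0 false + 1) z -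
        (p0 + p1 * (z - t₁) + p2 * (z - t₁) ^ 2)‖ ≤ ε)
    (hε : 10 ^ 3 * k ^ 17 * ε ≤ ρ ^ 2) (s : Bool) {i j : ℕ} (hi3 : 3 ≤ i) (hi6 : i ≤ 6) (hj3 : 3 ≤ j)
    (hj6 : j ≤ 6)
    (hab : ‖Ds k c s (n0 s + 1 + (jS s + i)) t₁‖ ≤ ‖Ds k c (!s) (n0 (!s) + 1 + (jS (!s) + j)) t₁‖)
    (hba : ‖Ds k c (!s) (n0 (!s) + 1 + (jS (!s) + j)) t₁‖ ≤
      4 * Real.sqrt k * ‖Ds k c s (n0 s + 1 + (jS s + i)) t₁‖)
    (hlo : k ≤ ‖Ds k c s (n0 s + 1 + (jS s + i)) t₁‖ * ρ)
    (hhi : ‖Ds k c s (n0 s + 1 + (jS s + i)) t₁‖ * ρ ≤ k ^ 8) :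
    ∃ (n n' : ℕ) (R lam q0 q1 q2 : ℝ), k ≤ R * ρ ∧ R * ρ ≤ k ^ 8 ∧
      Out k c n0 t₁ R lam s n n' q0 q1 q2 := by
  obtain ⟨lam, q0, q1, q2, hl, hc⟩ := cell3 sideSum N hρ1 S old hε s hi3 hi6 hj3 hj6 hab hba hlo hhi
  have hk := N.k_large
  have hk0 : 0 < k := by linarith
  have hρ := N.ρ_pos
  set R := ‖Ds k c s (n0 s + 1 + (jS s + i)) t₁‖ with hRd
  set b := ‖Ds k c (!s) (n0 (!s) + 1 + (jS (!s) + j)) t₁‖ with hbd
  have hR0 : 0 < R := (((S s).chain' N).1 (jS s + i) (by omega)).2.1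
  have hb0 : 0 < b := lt_of_lt_of_le hR0 hab
  have hRρ : 1 ≤ R * ρ := by linarith
  have hbρ : 1 ≤ b * ρ := hRρ.trans (by gcongr)
  have hsq : Real.sqrt k * Real.sqrt k = k := Real.mul_self_sqrt hk0.le
  have hsq0 : 0 < Real.sqrt k := Real.sqrt_pos.mpr hk0
  have hsqL : 10 ^ 60 ≤ Real.sqrt k := by
    rw [show (10 : ℝ) ^ 60 = Real.sqrt ((10 ^ 60) ^ 2) by
      rw [Real.sqrt_sq (by positivity)]]
    apply Real.sqrt_le_sqrt
    norm_num at hk ⊢
    linarith
  have h4R : 4 / R ≤ k / (10 ^ 19 * R) := by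
    rw [div_le_div_iff₀ hR0 (by positivity)]
    have : 4 * 10 ^ 19 ≤ k := by norm_num at hk ⊢; linarith
    calc 4 * (10 ^ 19 * R) = (4 * 10 ^ 19) * R := by ring
      _ ≤ k * R := by gcongr
  have h4b : 4 / R ≤ k / (10 ^ 19 * b) := by
    rw [div_le_div_iff₀ hR0 (by positivity)]
    calc 4 * (10 ^ 19 * b) ≤ 4 * (10 ^ 19 * (4 * Real.sqrt k * R)) := by gcongr
      _ = (16 * 10 ^ 19) * (Real.sqrt k * R) := by ring
      _ ≤ Real.sqrt k * (Real.sqrt k * R) := by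
          gcongr
          norm_num at hsqL ⊢
          linarith
      _ = k * R := by rw [← mul_assoc, hsq]
  refine ⟨n0 s + (jS s + i), n0 (!s) + (jS (!s) + j), R, lam, q0, q1, q2, hlo, hhi,
    ⟨hc, hl, ?_, ?_, ?_, ?_⟩⟩
  · have := hj1 s; omega
  · have := hj1 (!s); omega
  · intro l hl1 hl2 t ht
    have ht' : ‖t - t₁‖ < 4 / R := by rw [← dist_eq_norm]; exact mem_ball.mp ht
    have := (S s).mon N (i := i) (by omega) hi6 hRρ (lt_of_lt_of_le ht' h4R) (l - (n0 s + 1))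
      (by omega)
    rw [norm_Ds] at this
    have e : n0 s + 1 + (l - (n0 s + 1)) = l := by omega
    rw [e, ← hRd] at this
    linarith
  · intro l hl1 hl2 t ht
    have ht' : ‖t - t₁‖ < 4 / R := by rw [← dist_eq_norm]; exact mem_ball.mp ht
    have := (S (!s)).mon N (i := j) (by omega) hj6 hbρ (lt_of_lt_of_le ht' h4b)
      (l - (n0 (!s) + 1)) (by omega)
    rw [norm_Ds] at this
    have e : n0 (!s) + 1 + (l - (n0 (!s) + 1)) = l := by omega
    rw [e, ← hbd] at this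
    have hlamb : b ≤ 11 / 10 * (|lam| * R) := by
      -- from the cell: `‖D t₁ - lam R‖ ≤ ...`
      have h1 := hc.fast t₁ (mem_ball_self (by positivity))
      have e2 : n0 (!s) + (jS (!s) + j) + 1 = n0 (!s) + 1 + (jS (!s) + j) := by omega
      rw [e2] at h1
      have h2 : b ≤ ‖Loc.D k c (!s) (n0 (!s) + 1 + (jS (!s) + j)) t₁ - (lam * R : ℝ)‖ +
          ‖((lam * R : ℝ) : ℂ)‖ := by
        rw [hbd, norm_Ds]
        calc _ = ‖(Loc.D k c (!s) (n0 (!s) + 1 + (jS (!s) + j)) t₁ - (lam * R : ℝ)) +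
            ((lam * R : ℝ) : ℂ)‖ := by rw [sub_add_cancel]
          _ ≤ _ := norm_add_le _ _
      have h3 : ‖((lam * R : ℝ) : ℂ)‖ = |lam| * R := by
        rw [Complex.norm_real, Real.norm_eq_abs, abs_mul, abs_of_pos hR0]
      rw [h3] at h2
      have h4 : CC * |lam| ^ 2 * R / k ≤ 1 / 10 * (|lam| * R) := by
        rw [div_le_iff₀ hk0]
        have h5 : CC * |lam| ≤ 1 / 10 * k := by
          have h6 : CC * |lam| ≤ CC * (CC * Real.sqrt k) := by
            have : 0 ≤ CC := by unfold CC; positivity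
            gcongr
          refine h6.trans ?_
          have h7 : CC * (CC * Real.sqrt k) = (CC * CC) * Real.sqrt k := by ring
          rw [h7]
          have h8 : CC * CC ≤ 1 / 10 * Real.sqrt k := by
            unfold CC
            norm_num at hsqL ⊢
            linarith
          calc (CC * CC) * Real.sqrt k ≤ (1 / 10 * Real.sqrt k) * Real.sqrt k := by gcongr
            _ = 1 / 10 * k := by rw [mul_assoc, hsq]
        calc CC * |lam| ^ 2 * R = (CC * |lam|) * (|lam| * R) := by ring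
          _ ≤ (1 / 10 * k) * (|lam| * R) := by gcongr
          _ = _ := by ring
      linarith
    have h9 : 0 ≤ |lam| * R := by positivity
    nlinarith

/-- **LocA**: from the base data of both sides at `t₀` to a large set of good centres -/
theorem locA4 {k : ℝ} (hk : 10 ^ 1000 ≤ k) {c t₀ r : ℝ} (hr1 : 2 * r ≤ 1) {n0 M : Bool → ℕ}
    {r0 : Bool → ℝ} (B : ∀ s, Base k c s (n0 s) (M s) t₀ (r0 s) r)
    (old : ∃ p0 p1 p2 : ℝ, ∀ z ∈ ball (t₀ : ℂ) (2 * r),
      ‖Loc.cont k c true (n0 true + 1) (n0 false + 1) z -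
        (p0 + p1 * (z - t₀) + p2 * (z - t₀) ^ 2)‖ ≤ r ^ 2 / k ^ 18) :
    ∃ N : Set ℝ, N ⊆ Icc (t₀ - r) (t₀ + r) ∧ ENNReal.ofReal r ≤ volume N ∧
      ∀ m ∈ N, ∃ (s : Bool) (n n' : ℕ) (R lam q0 q1 q2 : ℝ), k ≤ R * (2 * r) ∧ R * (2 * r) ≤ k ^ 8 ∧
        Out k c n0 m R lam s n n' q0 q1 q2 := by
  obtain ⟨u, h⟩ := exists_u hk
  have hk240 : (10 : ℝ) ^ 240 ≤ k := le_trans (pow_le_pow_right₀ (by norm_num) (by norm_num)) hk
  have hr := (B true).r_pos
  have hu0 := h.u_pos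
  have hk0 : 0 < k := lt_of_lt_of_le (by positivity) hk
  have hk1 : 1 ≤ k := le_trans (one_le_pow₀ (by norm_num)) hk
  have hk100 : (10 : ℝ) ^ 100 ≤ k := le_trans (pow_le_pow_right₀ (by norm_num) (by norm_num)) hk
  have hk6 : (1000000 : ℝ) ≤ k := le_trans (by norm_num) hk100
  clear hk
  have N := h.numB (ρ := 2 * r) (by linarith)
  choose jS E using fun s => (B s).exit h
  -- the good set
  set I : Set ℝ := Icc (t₀ - r) (t₀ + r) with hI
  set X : Bool → Set ℝ := fun s => {t : ℝ | t ∈ I ∧ ¬ Nice k c s (n0 s) (jS s) t} with hX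
  set G : Set ℝ := {t | t ∈ I ∧ Nice k c true (n0 true) (jS true) t ∧
    Nice k c false (n0 false) (jS false) t} with hG
  refine ⟨G, fun t ht => ht.1, ?_, ?_⟩
  · have h1 := (B true).nice_measure h hk240 (E true)
    have h2 := (B false).nice_measure h hk240 (E false)
    have hcov : I ⊆ G ∪ (X true ∪ X false) := by
      intro t ht
      by_cases ha : Nice k c true (n0 true) (jS true) t
      · by_cases hb : Nice k c false (n0 false) (jS false) t
        · exact Or.inl ⟨ht, ha, hb⟩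
        · exact Or.inr (Or.inr ⟨ht, hb⟩)
      · exact Or.inr (Or.inl ⟨ht, ha⟩)
    have h3 : ENNReal.ofReal (2 * r) ≤ volume G + (ENNReal.ofReal (2 * r / 8) +
        ENNReal.ofReal (2 * r / 8)) := by
      calc ENNReal.ofReal (2 * r) = volume I := by
            rw [hI, Real.volume_Icc]; congr 1; ring
        _ ≤ volume (G ∪ (X true ∪ X false)) := measure_mono hcov
        _ ≤ volume G + volume (X true ∪ X false) := measure_union_le _ _
        _ ≤ volume G + (volume (X true) + volume (X false)) := by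
            gcongr
            exact measure_union_le _ _
        _ ≤ _ := by gcongr
    have h4 : ENNReal.ofReal (2 * r / 8) + ENNReal.ofReal (2 * r / 8) = ENNReal.ofReal (r / 2) := by
      rw [← ENNReal.ofReal_add (by positivity) (by positivity)]
      congr 1; ring
    rw [h4] at h3
    have h5 : ENNReal.ofReal (3 / 2 * r) + ENNReal.ofReal (r / 2) ≤ volume G +
        ENNReal.ofReal (r / 2) := by
      rw [← ENNReal.ofReal_add (by positivity) (by positivity)]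
      refine le_trans (le_of_eq ?_) h3
      congr 1; ring
    have h6 : ENNReal.ofReal (3 / 2 * r) ≤ volume G :=
      (ENNReal.add_le_add_iff_right ENNReal.ofReal_ne_top).mp h5
    exact le_trans (ENNReal.ofReal_le_ofReal (by linarith)) h6
  · clear hk240
    rintro m ⟨hmI, hnt, hnf⟩
    have hmr : |m - t₀| ≤ r := by
      rw [abs_le]; constructor <;> linarith [hmI.1, hmI.2]
    have hN : ∀ s, Nice k c s (n0 s) (jS s) m := by
      intro s
      cases s with
      | true => exact hnt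
      | false => exact hnf
    have S : ∀ s, SideOK k c s (n0 s) (jS s) (r0 s) (2 * r) (1 / u ^ 21) (u ^ 36) m := fun s =>
      (B s).sideOK h (E s) hmr (hN s)
    -- the old content around `m`
    obtain ⟨p0, p1, p2, hp⟩ := old
    have hold : ∃ p0 p1 p2 : ℝ, ∀ z ∈ ball (m : ℂ) (4 * (2 * r) / k),
        ‖Loc.cont k c true (n0 true + 1) (n0 false + 1) z -
          (p0 + p1 * (z - m) + p2 * (z - m) ^ 2)‖ ≤ r ^ 2 / k ^ 18 := by
      refine ⟨p0 + p1 * (m - t₀) + p2 * (m - t₀) ^ 2, p1 + 2 * p2 * (m - t₀), p2, fun z hz => ?_⟩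
      have hz' : z ∈ ball (t₀ : ℂ) (2 * r) := by
        rw [mem_ball] at hz ⊢
        have h1 : dist (m : ℂ) (t₀ : ℂ) ≤ r := by
          rw [Complex.dist_eq, ← Complex.ofReal_sub, Complex.norm_real, Real.norm_eq_abs]
          exact hmr
        have h2 : 4 * (2 * r) / k ≤ r := by
          rw [div_le_iff₀ hk0]
          nlinarith
        have h3 := dist_triangle z (m : ℂ) (t₀ : ℂ)
        linarith
      have h1 := hp z hz'
      have e : Loc.cont k c true (n0 true + 1) (n0 false + 1) z -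
          (((p0 + p1 * (m - t₀) + p2 * (m - t₀) ^ 2 : ℝ) : ℂ) +
            ((p1 + 2 * p2 * (m - t₀) : ℝ) : ℂ) * (z - m) + (p2 : ℂ) * (z - m) ^ 2) =
          Loc.cont k c true (n0 true + 1) (n0 false + 1) z -
          (p0 + p1 * (z - t₀) + p2 * (z - t₀) ^ 2) := by
        push_cast
        ring
      rw [e]
      exact h1
    have hε : 10 ^ 3 * k ^ 17 * (r ^ 2 / k ^ 18) ≤ (2 * r) ^ 2 := by
      rw [mul_div_assoc', div_le_iff₀ (by positivity)]
      have h1 : (10 : ℝ) ^ 3 ≤ k := le_trans (by norm_num) hk6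
      calc (10 : ℝ) ^ 3 * k ^ 17 * r ^ 2 ≤ k * k ^ 17 * r ^ 2 := by gcongr
        _ = r ^ 2 * k ^ 18 := by ring
        _ ≤ (2 * r) ^ 2 * k ^ 18 := by
            gcongr
            nlinarith
    -- the pair
    have cht := (S true).chain' N
    have chf := (S false).chain' N
    have hA60 := N.A_pos
    have key1 : ∀ s, (u ^ 36) / 2 * ‖Ds k c s (n0 s + 1 + (jS s + 0)) m‖ ≤
        ‖Ds k c s (n0 s + 1 + (jS s + 1)) m‖ := by
      intro s
      have h1 := (((S s).chain' N).2 (jS s) (by omega)).2.1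
      have h2 := (S s).start.dig (jS s) (by omega)
      have e : n0 s + 1 + (jS s + 1) = n0 s + 1 + (jS s + 1) := rfl
      refine le_trans ?_ h1
      simp only [add_zero]
      gcongr
      linarith
    have key2 : ∀ s, ∀ j, 1 ≤ j → j ≤ 5 → k / 10 ^ 5 * ‖Ds k c s (n0 s + 1 + (jS s + j)) m‖ ≤
        ‖Ds k c s (n0 s + 1 + (jS s + (j + 1))) m‖ := by
      intro s j hj1 hj5
      have h1 := (((S s).chain' N).2 (jS s + j) (by omega)).2.1
      have h2 := (S s).mac j hj1 hj5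
      have e : n0 s + 1 + (jS s + j + 1) = n0 s + 1 + (jS s + (j + 1)) := by omega
      rw [e] at h1
      refine le_trans ?_ h1
      gcongr
      have h3 : k / 10 ^ 5 + 1 ≤ k / 10 ^ 4 := by
        clear hk100
        linarith
      linarith
    have key3 : ∀ s, ∀ j ≤ 5, ‖Ds k c s (n0 s + 1 + (jS s + (j + 1))) m‖ ≤
        11 * k * ‖Ds k c s (n0 s + 1 + (jS s + j)) m‖ := by
      intro s j hj5
      have h1 := (((S s).chain' N).2 (jS s + j) (by omega)).2.2.1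
      have h2 := vv_le10 (c := c) (s := s) hk1 (n0 s + 1 + (jS s + j)) m
      have e : n0 s + 1 + (jS s + j + 1) = n0 s + 1 + (jS s + (j + 1)) := by omega
      rw [e] at h1
      refine h1.trans ?_
      gcongr
      linarith
    obtain ⟨i, j, hi3, hi6, hj3, hj6, hpair, hka, hkb, ha8, hb8⟩ :=
      LocSel.select_k (k := k) (A := u ^ 36) (δ := 1 / u ^ 21) (ρ := 2 * r)
        (a := fun j => ‖Ds k c true (n0 true + 1 + (jS true + j)) m‖)
        (b := fun j => ‖Ds k c false (n0 false + 1 + (jS false + j)) m‖)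
        hk100 N.A2
        (le_trans (pow_le_pow_right₀ (by norm_num) (by norm_num)) N.A_pos) N.δ_pos N.δ_le N.Aδ N.ρ_pos
        (by simpa using (S true).lo) (by simpa using (S true).hi)
        (by simpa using (S false).lo) (by simpa using (S false).hi)
        (key1 true) (key1 false) (key2 true) (key2 false) (key3 true) (key3 false)
    rcases hpair with ⟨h1, h2⟩ | ⟨h1, h2⟩
    · obtain ⟨n, n', R, lam, q0, q1, q2, g1, g2, g3⟩ := out_of_pair N hr1 S (fun s => (E s).one_le)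
        hold hε true hi3 hi6 hj3 hj6 h1 h2 hka ha8
      exact ⟨true, n, n', R, lam, q0, q1, q2, g1, g2, g3⟩
    · obtain ⟨n, n', R, lam, q0, q1, q2, g1, g2, g3⟩ := out_of_pair N hr1 S (fun s => (E s).one_le)
        hold hε false hj3 hj6 hi3 hi6 h1 h2 hkb hb8
      exact ⟨false, n, n', R, lam, q0, q1, q2, g1, g2, g3⟩

end Crest.Agent.R128.LocA
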