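import Mathlib

set_option autoImplicit false

namespace Crest.Agent.R128.Mirror

open MeasureTheory Set Real

/-- Equidistribution for a bi-Lipschitz function: the measure of the points of `[u,v]` where `f` is
within `d` of a half integer. -/
theorem eq_count {f : ℝ → ℝ} {u v b L d : ℝ} (huv : u ≤ v) (hb : 0 < b) (hL : 0 ≤ L) (hd : 0 ≤ d)
    (hlow : ∀ x ∈ Icc u v, ∀ y ∈ Icc u v, b * |y - x| ≤ |f y - f x|)
    (hup : ∀ x ∈ Icc u v, ∀ y ∈ Icc u v, |f y - f x| ≤ L * |y - x|) :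
    volume {x : ℝ | x ∈ Icc u v ∧ ∃ n : ℤ, |f x - n / 2| ≤ d}
      ≤ ENNReal.ofReal ((4 * (L * (v - u) + d) + 1) * (2 * d / b)) := by
  have hvu : 0 ≤ v - u := sub_nonneg.mpr huv
  obtain ⟨W, hW⟩ : ∃ W, W = L * (v - u) + d := ⟨_, rfl⟩
  have hW0 : 0 ≤ W := by rw [hW]; positivity
  let N : Finset ℤ := Finset.Icc ⌈2 * (f u - W)⌉ ⌊2 * (f u + W)⌋
  have hcard : (N.card : ℝ) ≤ 4 * W + 1 := by
    have h1 : N.card = (⌊2 * (f u + W)⌋ + 1 - ⌈2 * (f u - W)⌉).toNat := Int.card_Icc _ _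
    rw [h1]
    have h2 : (⌊2 * (f u + W)⌋ : ℝ) ≤ 2 * (f u + W) := Int.floor_le _
    have h3 : 2 * (f u - W) ≤ (⌈2 * (f u - W)⌉ : ℝ) := Int.le_ceil _
    rcases le_total 0 (⌊2 * (f u + W)⌋ + 1 - ⌈2 * (f u - W)⌉) with h | h
    · have h4 : (((⌊2 * (f u + W)⌋ + 1 - ⌈2 * (f u - W)⌉).toNat : ℤ) : ℝ)
          = ((⌊2 * (f u + W)⌋ + 1 - ⌈2 * (f u - W)⌉ : ℤ) : ℝ) := by
        rw [Int.toNat_of_nonneg h]
      rw [Int.cast_natCast] at h4
      rw [h4]; push_cast; linarith
    · rw [Int.toNat_of_nonpos h]; push_cast; linarith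
  have hsub : {x : ℝ | x ∈ Icc u v ∧ ∃ n : ℤ, |f x - n / 2| ≤ d}
      ⊆ ⋃ n ∈ N, {x : ℝ | x ∈ Icc u v ∧ |f x - n / 2| ≤ d} := by
    rintro x ⟨hx, n, hn⟩
    simp only [mem_iUnion, mem_ofPred_eq, exists_prop]
    refine ⟨n, ?_, hx, hn⟩
    have h1 := hup u (left_mem_Icc.mpr huv) x hx
    have h2 : |x - u| ≤ v - u := by rw [abs_of_nonneg (by linarith [hx.1])]; linarith [hx.2]
    have h3 : |f x - f u| ≤ L * (v - u) := h1.trans (mul_le_mul_of_nonneg_left h2 hL)
    rw [abs_le] at h3 hn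
    rw [Finset.mem_Icc]
    constructor
    · apply Int.ceil_le.mpr; linarith [h3.1, h3.2, hn.1, hn.2]
    · apply Int.le_floor.mpr; linarith [h3.1, h3.2, hn.1, hn.2]
  have hpiece : ∀ n ∈ N, volume {x : ℝ | x ∈ Icc u v ∧ |f x - n / 2| ≤ d}
      ≤ ENNReal.ofReal (2 * d / b) := by
    intro n _
    refine (Real.volume_le_diam _).trans ?_
    apply Metric.ediam_le
    rintro x ⟨hx, hx2⟩ y ⟨hy, hy2⟩
    rw [edist_dist]
    apply ENNReal.ofReal_le_ofReal
    rw [Real.dist_eq, le_div_iff₀ hb]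
    have h1 := hlow x hx y hy
    have h2 : |f y - f x| ≤ 2 * d := by
      rw [abs_le] at hx2 hy2 ⊢
      constructor <;> linarith [hx2.1, hx2.2, hy2.1, hy2.2]
    rw [abs_sub_comm x y]; linarith
  have h2db : 0 ≤ 2 * d / b := by positivity
  calc volume {x : ℝ | x ∈ Icc u v ∧ ∃ n : ℤ, |f x - n / 2| ≤ d}
      ≤ volume (⋃ n ∈ N, {x : ℝ | x ∈ Icc u v ∧ |f x - n / 2| ≤ d}) := measure_mono hsub
    _ ≤ ∑ n ∈ N, volume {x : ℝ | x ∈ Icc u v ∧ |f x - n / 2| ≤ d} :=
        measure_biUnion_finset_le _ _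
    _ ≤ ∑ n ∈ N, ENNReal.ofReal (2 * d / b) := Finset.sum_le_sum hpiece
    _ = ENNReal.ofReal ((N.card : ℝ) * (2 * d / b)) := by
        rw [Finset.sum_const, nsmul_eq_mul, ENNReal.ofReal_mul (Nat.cast_nonneg _),
          ENNReal.ofReal_natCast]
    _ ≤ ENNReal.ofReal ((4 * (L * (v - u) + d) + 1) * (2 * d / b)) := by
        apply ENNReal.ofReal_le_ofReal
        rw [← hW]
        exact mul_le_mul_of_nonneg_right hcard h2db


lemma abs_sin_two_pi (y : ℝ) : |sin (2 * π * y)| ≤ 6.284 * |y| := by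
  have h : |sin (2 * π * y)| ≤ |2 * π * y| := abs_sin_le_abs
  rw [abs_mul, abs_of_pos (by positivity : (0:ℝ) < 2 * π)] at h
  have := pi_lt_d4
  nlinarith [abs_nonneg y]

lemma one_sub_cos_two_pi (y : ℝ) : 1 - cos (2 * π * y) ≤ 20 * y ^ 2 := by
  have h := one_sub_sq_div_two_le_cos (x := 2 * π * y)
  have h1 : (2 * π * y) ^ 2 / 2 = 2 * π ^ 2 * y ^ 2 := by ring
  rw [h1] at h
  have h3 : π ^ 2 ≤ 10 := by nlinarith [pi_lt_d4, pi_pos]
  nlinarith [sq_nonneg y]

lemma one_sub_cos_nonneg (y : ℝ) : 0 ≤ 1 - cos (2 * π * y) := by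
  have := cos_le_one (2 * π * y); linarith

lemma four_le_sin_nonneg {y : ℝ} (h0 : 0 ≤ y) (h1 : y ≤ 1 / 4) : 4 * y ≤ sin (2 * π * y) := by
  have h := mul_le_sin (x := 2 * π * y) (by positivity) (by nlinarith [pi_pos])
  have h2 : 2 / π * (2 * π * y) = 4 * y := by field_simp; ring
  linarith

lemma four_le_abs_sin {y : ℝ} (h1 : |y| ≤ 1 / 4) : 4 * |y| ≤ |sin (2 * π * y)| := by
  rcases le_total 0 y with h | h
  · rw [abs_of_nonneg h] at h1 ⊢
    exact (four_le_sin_nonneg h h1).trans (le_abs_self _)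
  · rw [abs_of_nonpos h] at h1 ⊢
    have := four_le_sin_nonneg (y := -y) (by linarith) h1
    have h2 : sin (2 * π * -y) = - sin (2 * π * y) := by rw [mul_neg, sin_neg]
    rw [h2] at this
    exact this.trans (neg_le_abs _)

/-- the smooth part of `Q₂ + σ ε P₂` in the coordinate `p = P`, `Q = ε p + 1/2 + η p`. -/
noncomputable def g (k ε σ : ℝ) (η : ℝ → ℝ) (p : ℝ) : ℝ :=
  2 * η p + σ * ε * k * (sin (2 * π * p) * (1 - σ * cos (2 * π * η p)))
    - k * (cos (2 * π * p) * sin (2 * π * η p))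

/-- its derivative (y = η p, e = η' p) -/
noncomputable def g' (k ε σ y e p : ℝ) : ℝ :=
  2 * e + σ * ε * k * (2 * π * cos (2 * π * p) * (1 - σ * cos (2 * π * y)))
    + σ * σ * ε * k * (sin (2 * π * p) * (sin (2 * π * y) * (2 * π * e)))
    + k * (2 * π * sin (2 * π * p) * sin (2 * π * y))
    - k * (cos (2 * π * p) * (cos (2 * π * y) * (2 * π * e)))

theorem hasDerivAt_g {k ε σ e p : ℝ} {η : ℝ → ℝ} (h : HasDerivAt η e p) :
    HasDerivAt (g k ε σ η) (g' k ε σ (η p) e p) p := by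
  have hlin : HasDerivAt (fun p : ℝ => 2 * π * p) (2 * π) p := by
    simpa using (hasDerivAt_id p).const_mul (2 * π)
  have hlin2 : HasDerivAt (fun p : ℝ => 2 * π * η p) (2 * π * e) p := h.const_mul (2 * π)
  have hs := hlin.sin
  have hc := hlin.cos
  have hS := hlin2.sin
  have hC := hlin2.cos
  have h1 := h.const_mul 2
  have h2 : HasDerivAt (fun p => σ * ε * k * (sin (2 * π * p) * (1 - σ * cos (2 * π * η p))))
      (σ * ε * k * (cos (2 * π * p) * (2 * π) * (1 - σ * cos (2 * π * η p))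
        + sin (2 * π * p) * (-(σ * (-sin (2 * π * η p) * (2 * π * e)))))) p := by
    have hh : HasDerivAt (fun p => 1 - σ * cos (2 * π * η p))
        (-(σ * (-sin (2 * π * η p) * (2 * π * e)))) p := (hC.const_mul σ).const_sub 1
    exact (hs.mul hh).const_mul (σ * ε * k)
  have h3 : HasDerivAt (fun p => k * (cos (2 * π * p) * sin (2 * π * η p)))
      (k * (-sin (2 * π * p) * (2 * π) * sin (2 * π * η p)
        + cos (2 * π * p) * (cos (2 * π * η p) * (2 * π * e)))) p :=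
    (hc.mul hS).const_mul k
  refine ((h1.add h2).sub h3).congr_deriv ?_
  rw [g']
  ring

lemma abs5 (a b c d e : ℝ) : |a + b + c + d - e| ≤ |a| + |b| + |c| + |d| + |e| := by
  have h1 := abs_sub (a + b + c + d) e
  have h2 := abs_add_le (a + b + c) d
  have h3 := abs_add_le (a + b) c
  have h4 := abs_add_le a b
  linarith

lemma abs5d (a b c d e : ℝ) : |d| - |a| - |b| - |c| - |e| ≤ |a + b + c + d - e| := by
  have h := abs5 (a + b + c + d - e) (-a) (-b) (-c) (-e)
  have h1 : a + b + c + d - e + -a + -b + -c - -e = d := by ring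
  rw [h1, abs_neg, abs_neg, abs_neg, abs_neg] at h
  linarith

lemma abs5b (a b c d e : ℝ) : |b| - |a| - |c| - |d| - |e| ≤ |a + b + c + d - e| := by
  have h := abs5 (a + b + c + d - e) (-a) (-c) (-d) (-e)
  have h1 : a + b + c + d - e + -a + -c + -d - -e = b := by ring
  rw [h1, abs_neg, abs_neg, abs_neg, abs_neg] at h
  linarith

lemma abs5_le {a b c d e A B C D E : ℝ} (ha : |a| ≤ A) (hb : |b| ≤ B) (hc : |c| ≤ C)
    (hd : |d| ≤ D) (he : |e| ≤ E) : |a + b + c + d - e| ≤ A + B + C + D + E := by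
  have := abs5 a b c d e; linarith

lemma abs5d_le {a b c d e A B C D E : ℝ} (ha : |a| ≤ A) (hb : |b| ≤ B) (hc : |c| ≤ C)
    (hd : D ≤ |d|) (he : |e| ≤ E) : D - A - B - C - E ≤ |a + b + c + d - e| := by
  have := abs5d a b c d e; linarith

lemma abs5b_le {a b c d e A B C D E : ℝ} (ha : |a| ≤ A) (hb : B ≤ |b|) (hc : |c| ≤ C)
    (hd : |d| ≤ D) (he : |e| ≤ E) : B - A - C - D - E ≤ |a + b + c + d - e| := by
  have := abs5b a b c d e; linarith

section bounds

variable {k ε σ y e p : ℝ}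

lemma t2_eq (hk : 0 ≤ k) (hε : |ε| = 1) (hσ : |σ| = 1) :
    |σ * ε * k * (2 * π * cos (2 * π * p) * (1 - σ * cos (2 * π * y)))|
      = 2 * π * k * (|cos (2 * π * p)| * |1 - σ * cos (2 * π * y)|) := by
  rw [abs_mul, abs_mul, abs_mul, hε, hσ, abs_of_nonneg hk, abs_mul, abs_mul,
    abs_of_pos (by positivity : (0:ℝ) < 2 * π)]
  ring

lemma t3_le (hk : 0 ≤ k) (hε : |ε| = 1) (hσ : |σ| = 1) :
    |σ * σ * ε * k * (sin (2 * π * p) * (sin (2 * π * y) * (2 * π * e)))|
      ≤ 40 * k * (|y| * |e|) := by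
  rw [abs_mul, abs_mul, abs_mul, abs_mul, hε, hσ, abs_of_nonneg hk, abs_mul, abs_mul, abs_mul,
    abs_of_pos (by positivity : (0:ℝ) < 2 * π)]
  have h1 := abs_sin_two_pi y
  have h2 : |sin (2 * π * p)| ≤ 1 := abs_sin_le_one _
  have h3 : |sin (2 * π * p)| * (|sin (2 * π * y)| * (2 * π * |e|))
      ≤ 1 * ((6.284 * |y|) * (6.284 * |e|)) := by
    apply mul_le_mul h2 _ (by positivity) (by norm_num)
    apply mul_le_mul h1 _ (by positivity) (by positivity)
    apply mul_le_mul_of_nonneg_right _ (abs_nonneg e)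
    linarith [pi_lt_d4]
  have h4 : 1 * ((6.284 * |y|) * (6.284 * |e|)) ≤ 40 * (|y| * |e|) := by
    nlinarith [mul_nonneg (abs_nonneg y) (abs_nonneg e)]
  calc 1 * 1 * 1 * k * (|sin (2 * π * p)| * (|sin (2 * π * y)| * (2 * π * |e|)))
      = k * (|sin (2 * π * p)| * (|sin (2 * π * y)| * (2 * π * |e|))) := by ring
    _ ≤ k * (40 * (|y| * |e|)) := mul_le_mul_of_nonneg_left (h3.trans h4) hk
    _ = _ := by ring

lemma t4_eq (hk : 0 ≤ k) :
    |k * (2 * π * sin (2 * π * p) * sin (2 * π * y))|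
      = 2 * π * k * (|sin (2 * π * p)| * |sin (2 * π * y)|) := by
  rw [abs_mul, abs_of_nonneg hk, abs_mul, abs_mul, abs_of_pos (by positivity : (0:ℝ) < 2 * π)]
  ring

lemma t4_le (hk : 0 ≤ k) :
    |k * (2 * π * sin (2 * π * p) * sin (2 * π * y))| ≤ 40 * k * |y| := by
  rw [t4_eq hk]
  have h1 := abs_sin_two_pi y
  have h2 : |sin (2 * π * p)| ≤ 1 := abs_sin_le_one _
  have h3 : |sin (2 * π * p)| * |sin (2 * π * y)| ≤ 1 * (6.284 * |y|) :=
    mul_le_mul h2 h1 (abs_nonneg _) (by norm_num)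
  have h4 : 2 * π * k * (|sin (2 * π * p)| * |sin (2 * π * y)|)
      ≤ 6.2832 * k * (1 * (6.284 * |y|)) := by
    apply mul_le_mul _ h3 (by positivity) (by positivity)
    apply mul_le_mul_of_nonneg_right _ hk
    linarith [pi_lt_d4]
  nlinarith [mul_nonneg hk (abs_nonneg y)]

lemma t5_le (hk : 0 ≤ k) :
    |k * (cos (2 * π * p) * (cos (2 * π * y) * (2 * π * e)))|
      ≤ 6.2832 * k * (|cos (2 * π * p)| * |e|) := by
  rw [abs_mul, abs_of_nonneg hk, abs_mul, abs_mul, abs_mul,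
    abs_of_pos (by positivity : (0:ℝ) < 2 * π)]
  have h2 : |cos (2 * π * y)| ≤ 1 := abs_cos_le_one _
  have h3 : |cos (2 * π * p)| * (|cos (2 * π * y)| * (2 * π * |e|))
      ≤ |cos (2 * π * p)| * (1 * (6.2832 * |e|)) := by
    apply mul_le_mul_of_nonneg_left _ (abs_nonneg _)
    apply mul_le_mul h2 _ (by positivity) (by norm_num)
    apply mul_le_mul_of_nonneg_right _ (abs_nonneg e)
    linarith [pi_lt_d4]
  calc k * (|cos (2 * π * p)| * (|cos (2 * π * y)| * (2 * π * |e|)))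
      ≤ k * (|cos (2 * π * p)| * (1 * (6.2832 * |e|))) := mul_le_mul_of_nonneg_left h3 hk
    _ = _ := by ring

/-- upper bound for the `+` function -/
lemma g'_plus_le (hk : 0 ≤ k) (hε : |ε| = 1) :
    |g' k ε 1 y e p| ≤ 2 * |e| + 126 * k * y ^ 2 + 40 * k * (|y| * |e|) + 40 * k * |y|
      + 6.2832 * k * |e| := by
  have h1 : |2 * e| = 2 * |e| := by rw [abs_mul]; norm_num
  have h2 := t2_eq (y := y) (p := p) hk hε (by norm_num : |(1:ℝ)| = 1)
  have h3 := t3_le (y := y) (p := p) (e := e) hk hε (by norm_num : |(1:ℝ)| = 1)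
  have h4 := t4_le (y := y) (p := p) hk
  have h5 := t5_le (y := y) (p := p) (e := e) hk
  have hc : |cos (2 * π * p)| ≤ 1 := abs_cos_le_one _
  have h6 : |1 - 1 * cos (2 * π * y)| ≤ 20 * y ^ 2 := by
    rw [one_mul, abs_of_nonneg (one_sub_cos_nonneg y)]; exact one_sub_cos_two_pi y
  have h7 : 2 * π * k * (|cos (2 * π * p)| * |1 - 1 * cos (2 * π * y)|) ≤ 126 * k * y ^ 2 := by
    calc 2 * π * k * (|cos (2 * π * p)| * |1 - 1 * cos (2 * π * y)|)
        ≤ 6.2832 * k * (1 * (20 * y ^ 2)) := by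
          apply mul_le_mul _ (mul_le_mul hc h6 (abs_nonneg _) (by norm_num)) (by positivity)
            (by positivity)
          apply mul_le_mul_of_nonneg_right _ hk
          linarith [pi_lt_d4]
      _ ≤ 126 * k * y ^ 2 := by nlinarith [mul_nonneg hk (sq_nonneg y)]
  have h8 : 6.2832 * k * (|cos (2 * π * p)| * |e|) ≤ 6.2832 * k * |e| := by
    apply mul_le_mul_of_nonneg_left _ (by positivity)
    nlinarith [abs_nonneg e]
  rw [g']
  exact abs5_le h1.le (h2.le.trans h7) h3 h4 (h5.trans h8)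

/-- lower bound for the `+` function near a zero of `cos 2πp` -/
lemma le_g'_plus (hk : 0 ≤ k) (hε : |ε| = 1) (hy : |y| ≤ 1 / 4)
    (hs : 0.998 ≤ |sin (2 * π * p)|) (hc : |cos (2 * π * p)| ≤ 0.063) :
    25 * k * |y| - 2 * |e| - 8 * k * y ^ 2 - 40 * k * (|y| * |e|) - 0.4 * k * |e|
      ≤ |g' k ε 1 y e p| := by
  have h1 : |2 * e| = 2 * |e| := by rw [abs_mul]; norm_num
  have h2 := t2_eq (y := y) (p := p) hk hε (by norm_num : |(1:ℝ)| = 1)
  have h3 := t3_le (y := y) (p := p) (e := e) hk hε (by norm_num : |(1:ℝ)| = 1)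
  have h4 := t4_eq (y := y) (p := p) hk
  have h5 := t5_le (y := y) (p := p) (e := e) hk
  have h6 : |1 - 1 * cos (2 * π * y)| ≤ 20 * y ^ 2 := by
    rw [one_mul, abs_of_nonneg (one_sub_cos_nonneg y)]; exact one_sub_cos_two_pi y
  have h7 : 2 * π * k * (|cos (2 * π * p)| * |1 - 1 * cos (2 * π * y)|) ≤ 8 * k * y ^ 2 := by
    calc 2 * π * k * (|cos (2 * π * p)| * |1 - 1 * cos (2 * π * y)|)
        ≤ 6.2832 * k * (0.063 * (20 * y ^ 2)) := by
          apply mul_le_mul _ (mul_le_mul hc h6 (abs_nonneg _) (by norm_num)) (by positivity)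
            (by positivity)
          apply mul_le_mul_of_nonneg_right _ hk
          linarith [pi_lt_d4]
      _ ≤ 8 * k * y ^ 2 := by nlinarith [mul_nonneg hk (sq_nonneg y)]
  have h8 : 6.2832 * k * (|cos (2 * π * p)| * |e|) ≤ 0.4 * k * |e| := by
    have : |cos (2 * π * p)| * |e| ≤ 0.063 * |e| := mul_le_mul_of_nonneg_right hc (abs_nonneg e)
    calc 6.2832 * k * (|cos (2 * π * p)| * |e|) ≤ 6.2832 * k * (0.063 * |e|) :=
          mul_le_mul_of_nonneg_left this (by positivity)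
      _ ≤ 0.4 * k * |e| := by nlinarith [mul_nonneg hk (abs_nonneg e)]
  have h9 : 25 * k * |y| ≤ 2 * π * k * (|sin (2 * π * p)| * |sin (2 * π * y)|) := by
    have h10 := four_le_abs_sin hy
    calc 25 * k * |y| ≤ 6.28 * k * (0.998 * (4 * |y|)) := by
          nlinarith [mul_nonneg hk (abs_nonneg y)]
      _ ≤ 2 * π * k * (|sin (2 * π * p)| * |sin (2 * π * y)|) := by
          apply mul_le_mul _ (mul_le_mul hs h10 (by positivity) (abs_nonneg _)) (by positivity)
            (by positivity)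
          apply mul_le_mul_of_nonneg_right _ hk
          linarith [pi_gt_d4]
  rw [g']
  refine le_trans ?_ (abs5d_le h1.le (h2.le.trans h7) h3 (h9.trans h4.ge) (h5.trans h8))
  exact le_of_eq (by ring)

/-- lower bound for the `-` function away from the zeros of `cos 2πp` -/
lemma le_g'_minus (hk : 0 ≤ k) (hε : |ε| = 1) (hy : |y| ≤ 1 / 4) {κ : ℝ} (hκ : 0 ≤ κ)
    (hc : κ ≤ |cos (2 * π * p)|) :
    6.28 * k * κ - 2 * |e| - 40 * k * (|y| * |e|) - 40 * k * |y| - 6.2832 * k * |e|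
      ≤ |g' k ε (-1) y e p| := by
  have h1 : |2 * e| = 2 * |e| := by rw [abs_mul]; norm_num
  have h2 := t2_eq (y := y) (p := p) hk hε (by norm_num : |(-1:ℝ)| = 1)
  have h3 := t3_le (y := y) (p := p) (e := e) hk hε (by norm_num : |(-1:ℝ)| = 1)
  have h4 := t4_le (y := y) (p := p) hk
  have h5 := t5_le (y := y) (p := p) (e := e) hk
  have hc1 : |cos (2 * π * p)| ≤ 1 := abs_cos_le_one _
  have hcy : 0 ≤ cos (2 * π * y) := by
    rw [abs_le] at hy
    apply cos_nonneg_of_neg_pi_div_two_le_of_le <;> nlinarith [pi_pos, hy.1, hy.2]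
  have h6 : 1 ≤ |1 - -1 * cos (2 * π * y)| := by
    rw [abs_of_nonneg (by linarith)]; linarith
  have h7 : 6.28 * k * κ ≤ 2 * π * k * (|cos (2 * π * p)| * |1 - -1 * cos (2 * π * y)|) := by
    calc 6.28 * k * κ = 6.28 * k * (κ * 1) := by ring
      _ ≤ 2 * π * k * (|cos (2 * π * p)| * |1 - -1 * cos (2 * π * y)|) := by
          apply mul_le_mul _ (mul_le_mul hc h6 (by norm_num) (abs_nonneg _)) (by positivity)
            (by positivity)
          apply mul_le_mul_of_nonneg_right _ hk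
          linarith [pi_gt_d4]
  have h8 : 6.2832 * k * (|cos (2 * π * p)| * |e|) ≤ 6.2832 * k * |e| := by
    apply mul_le_mul_of_nonneg_left _ (by positivity)
    nlinarith [abs_nonneg e]
  rw [g']
  refine le_trans ?_ (abs5b_le h1.le (h7.trans h2.ge) h3 h4 (h5.trans h8))
  exact le_of_eq (by ring)

/-- upper bound for the `-` function -/
lemma g'_minus_le (hk : 0 ≤ k) (hε : |ε| = 1) :
    |g' k ε (-1) y e p| ≤ 12.6 * k + 2 * |e| + 40 * k * (|y| * |e|) + 40 * k * |y|
      + 6.2832 * k * |e| := by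
  have h1 : |2 * e| = 2 * |e| := by rw [abs_mul]; norm_num
  have h2 := t2_eq (y := y) (p := p) hk hε (by norm_num : |(-1:ℝ)| = 1)
  have h3 := t3_le (y := y) (p := p) (e := e) hk hε (by norm_num : |(-1:ℝ)| = 1)
  have h4 := t4_le (y := y) (p := p) hk
  have h5 := t5_le (y := y) (p := p) (e := e) hk
  have hc : |cos (2 * π * p)| ≤ 1 := abs_cos_le_one _
  have h6 : |1 - -1 * cos (2 * π * y)| ≤ 2 := by
    have h61 := neg_one_le_cos (2 * π * y)
    have h62 := cos_le_one (2 * π * y)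
    rw [abs_le]; constructor <;> linarith
  have h7 : 2 * π * k * (|cos (2 * π * p)| * |1 - -1 * cos (2 * π * y)|) ≤ 12.6 * k := by
    calc 2 * π * k * (|cos (2 * π * p)| * |1 - -1 * cos (2 * π * y)|)
        ≤ 6.2832 * k * (1 * 2) := by
          apply mul_le_mul _ (mul_le_mul hc h6 (abs_nonneg _) (by norm_num)) (by positivity)
            (by positivity)
          apply mul_le_mul_of_nonneg_right _ hk
          linarith [pi_lt_d4]
      _ ≤ 12.6 * k := by nlinarith
  have h8 : 6.2832 * k * (|cos (2 * π * p)| * |e|) ≤ 6.2832 * k * |e| := by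
    apply mul_le_mul_of_nonneg_left _ (by positivity)
    nlinarith [abs_nonneg e]
  rw [g']
  refine (abs5_le h1.le (h2.le.trans h7) h3 h4 (h5.trans h8)).trans (le_of_eq (by ring))

end bounds



section mainthm

variable {k C1 d1 ε α : ℝ} {η e1 e2 : ℝ → ℝ}

/-- bound of the first derivative -/
lemma e1_bound {B : ℝ} (hk : 0 < k)
    (h1 : ∀ p ∈ Icc α (α + 2), HasDerivAt η (e1 p) p)
    (h2 : ∀ p ∈ Icc α (α + 2), HasDerivAt e1 (e2 p) p)
    (h3 : ∀ p ∈ Icc α (α + 2), |e2 p| ≤ C1 / k)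
    (hB : ∀ p ∈ Icc α (α + 2), k * |η p| ≤ B) :
    ∀ p ∈ Icc α (α + 2), k * |e1 p| ≤ B + 2 * C1 := by
  have hlt : α < α + 2 := by linarith
  obtain ⟨ξ, hξ, hξ2⟩ := exists_hasDerivAt_eq_slope η e1 hlt
    (fun p hp => (h1 p hp).continuousAt.continuousWithinAt)
    (fun p hp => h1 p (Ioo_subset_Icc_self hp))
  have hξI : ξ ∈ Icc α (α + 2) := Ioo_subset_Icc_self hξ
  have hξ3 : k * |e1 ξ| ≤ B := by
    have e : α + 2 - α = 2 := by ring
    rw [e] at hξ2
    rw [hξ2, abs_div, abs_two]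
    have ha := hB α ⟨le_refl _, hlt.le⟩
    have hb := hB (α + 2) ⟨hlt.le, le_refl _⟩
    have := abs_sub (η (α + 2)) (η α)
    have h5 : k * |η (α + 2) - η α| ≤ 2 * B := by nlinarith
    have h6 : k * (|η (α + 2) - η α| / 2) = (k * |η (α + 2) - η α|) / 2 := by ring
    rw [h6]; linarith
  intro p hp
  have hC : |e1 p - e1 ξ| ≤ C1 / k * |p - ξ| := by
    have := (convex_Icc α (α + 2)).norm_image_sub_le_of_norm_hasDerivWithin_le
      (f := e1) (f' := e2) (C := C1 / k)
      (fun x hx => (h2 x hx).hasDerivWithinAt) (fun x hx => h3 x hx) hξI hp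
    simpa [Real.norm_eq_abs] using this
  have hp2 : |p - ξ| ≤ 2 := by
    rw [abs_le]; constructor <;> linarith [hp.1, hp.2, hξI.1, hξI.2]
  have hC0 : 0 ≤ C1 / k := le_trans (abs_nonneg _) (h3 ξ hξI)
  have hC2 : |e1 p - e1 ξ| ≤ C1 / k * 2 := hC.trans (mul_le_mul_of_nonneg_left hp2 hC0)
  have h7 : |e1 p| ≤ |e1 ξ| + C1 / k * 2 := by
    have := abs_sub_abs_le_abs_sub (e1 p) (e1 ξ); linarith
  have h8 : k * |e1 p| ≤ k * |e1 ξ| + k * (C1 / k * 2) := by nlinarith
  have h9 : k * (C1 / k * 2) = 2 * C1 := by field_simp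
  linarith

/-- Lipschitz upper / lower bounds from the derivative plus a Lipschitz perturbation -/
lemma lip_of_deriv {f R : ℝ → ℝ} {f' : ℝ → ℝ} {u v b L ρ : ℝ}
    (hf : ∀ p ∈ Icc u v, HasDerivAt f (f' p) p)
    (hlow : ∀ p ∈ Icc u v, b ≤ |f' p|) (hup : ∀ p ∈ Icc u v, |f' p| ≤ L)
    (hR : ∀ x ∈ Icc u v, ∀ y ∈ Icc u v, |R y - R x| ≤ ρ * |y - x|) :
    (∀ x ∈ Icc u v, ∀ y ∈ Icc u v, (b - ρ) * |y - x| ≤ |(f y + R y) - (f x + R x)|) ∧
    (∀ x ∈ Icc u v, ∀ y ∈ Icc u v, |(f y + R y) - (f x + R x)| ≤ (L + ρ) * |y - x|) := by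
  have key : ∀ x ∈ Icc u v, ∀ y ∈ Icc u v, b * |y - x| ≤ |f y - f x| ∧ |f y - f x| ≤ L * |y - x| := by
    have main : ∀ x ∈ Icc u v, ∀ y ∈ Icc u v, x < y →
        b * |y - x| ≤ |f y - f x| ∧ |f y - f x| ≤ L * |y - x| := by
      intro x hx y hy hxy
      have hsub : Icc x y ⊆ Icc u v := Icc_subset_Icc hx.1 hy.2
      obtain ⟨ξ, hξ, hξ2⟩ := exists_hasDerivAt_eq_slope f f' hxy
        (fun p hp => (hf p (hsub hp)).continuousAt.continuousWithinAt)
        (fun p hp => hf p (hsub (Ioo_subset_Icc_self hp)))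
      have hξI := hsub (Ioo_subset_Icc_self hξ)
      have hyx : 0 < y - x := by linarith
      have e : f y - f x = f' ξ * (y - x) := by
        rw [hξ2]; field_simp
      rw [e, abs_mul]
      exact ⟨mul_le_mul_of_nonneg_right (hlow ξ hξI) (abs_nonneg _),
        mul_le_mul_of_nonneg_right (hup ξ hξI) (abs_nonneg _)⟩
    intro x hx y hy
    rcases lt_trichotomy x y with h | h | h
    · exact main x hx y hy h
    · subst h; simp
    · have := main y hy x hx h
      rw [abs_sub_comm y x, abs_sub_comm (f y) (f x)]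
      exact this
  constructor
  · intro x hx y hy
    have h1 := (key x hx y hy).1
    have h2 := hR x hx y hy
    have h3 : (f y + R y) - (f x + R x) = (f y - f x) + (R y - R x) := by ring
    rw [h3]
    have h4 := abs_sub_abs_le_abs_sub (f y - f x) (-(R y - R x))
    rw [abs_neg, sub_neg_eq_add] at h4
    linarith
  · intro x hx y hy
    have h1 := (key x hx y hy).2
    have h2 := hR x hx y hy
    have h3 : (f y + R y) - (f x + R x) = (f y - f x) + (R y - R x) := by ring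
    rw [h3]
    have h4 := abs_add_le (f y - f x) (R y - R x)
    linarith

/-- trigonometric facts near a zero `P` of `cos 2πp` -/
lemma near_zero {P p : ℝ} (hP : cos (2 * π * P) = 0) (h : |p - P| ≤ 1 / 100) :
    0.998 ≤ |sin (2 * π * p)| ∧ |cos (2 * π * p)| ≤ 0.063 := by
  have hsP : |sin (2 * π * P)| = 1 := by
    have := sin_sq_add_cos_sq (2 * π * P)
    rw [hP] at this
    have h2 : sin (2 * π * P) ^ 2 = 1 := by linarith
    rw [← sq_abs] at h2
    nlinarith [abs_nonneg (sin (2 * π * P))]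
  have e : 2 * π * p = 2 * π * P + 2 * π * (p - P) := by ring
  have h1 : sin (2 * π * p) = sin (2 * π * P) * cos (2 * π * (p - P)) := by
    rw [e, sin_add, hP]; ring
  have h2 : cos (2 * π * p) = - (sin (2 * π * P) * sin (2 * π * (p - P))) := by
    rw [e, cos_add, hP]; ring
  constructor
  · rw [h1, abs_mul, hsP, one_mul]
    have h3 := one_sub_cos_two_pi (p - P)
    have h4 : (p - P) ^ 2 ≤ 1 / 10000 := by
      rw [← sq_abs]; nlinarith [abs_nonneg (p - P)]
    refine le_trans ?_ (le_abs_self _)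
    linarith
  · rw [h2, abs_neg, abs_mul, hsP, one_mul]
    have := abs_sin_two_pi (p - P)
    nlinarith [abs_nonneg (p - P)]

/-- lower bound of `|cos 2πp|` between two consecutive zeros -/
lemma cos_lower {P p : ℝ} (hP : cos (2 * π * P) = 0) {r : ℝ} (hr : 0 ≤ r) (h0 : r ≤ p - P)
    (h1 : p - P ≤ 1 / 2 - r) : 4 * r ≤ |cos (2 * π * p)| := by
  have hsP : |sin (2 * π * P)| = 1 := by
    have := sin_sq_add_cos_sq (2 * π * P)
    rw [hP] at this
    have h2 : sin (2 * π * P) ^ 2 = 1 := by linarith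
    rw [← sq_abs] at h2
    nlinarith [abs_nonneg (sin (2 * π * P))]
  have e : 2 * π * p = 2 * π * P + 2 * π * (p - P) := by ring
  have h2 : cos (2 * π * p) = - (sin (2 * π * P) * sin (2 * π * (p - P))) := by
    rw [e, cos_add, hP]; ring
  rw [h2, abs_neg, abs_mul, hsP, one_mul]
  refine le_trans ?_ (le_abs_self _)
  rcases le_total (p - P) (1 / 4) with h | h
  · have := four_le_sin_nonneg (y := p - P) (by linarith) h
    linarith
  · have h3 := four_le_sin_nonneg (y := 1 / 2 - (p - P)) (by linarith) (by linarith)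
    have h4 : 2 * π * (1 / 2 - (p - P)) = π - 2 * π * (p - P) := by ring
    rw [h4, sin_pi_sub] at h3
    linarith

end mainthm



/-- final combination on one good subinterval `[u,v]` -/
lemma combine {f1 f2 : ℝ → ℝ} {α u v d : ℝ} (hu : α ≤ u) (huv : u ≤ v) (hv : v ≤ α + 2)
    (h1 : volume {x : ℝ | x ∈ Icc u v ∧ ∃ n : ℤ, |f1 x - n / 2| ≤ d}
      ≤ ENNReal.ofReal ((v - u) / 4))
    (h2 : volume {x : ℝ | x ∈ Icc u v ∧ ∃ n : ℤ, |f2 x - n / 2| ≤ d}
      ≤ ENNReal.ofReal ((v - u) / 4)) :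
    volume {x : ℝ | x ∈ Icc α (α + 2) ∧ ∃ n : ℤ, |f1 x - n / 2| ≤ d ∨ |f2 x - n / 2| ≤ d}
      ≤ ENNReal.ofReal (2 - (v - u) / 2) := by
  have hsub : {x : ℝ | x ∈ Icc α (α + 2) ∧ ∃ n : ℤ, |f1 x - n / 2| ≤ d ∨ |f2 x - n / 2| ≤ d}
      ⊆ (Icc α (α + 2) \ Icc u v) ∪ ({x : ℝ | x ∈ Icc u v ∧ ∃ n : ℤ, |f1 x - n / 2| ≤ d}
        ∪ {x : ℝ | x ∈ Icc u v ∧ ∃ n : ℤ, |f2 x - n / 2| ≤ d}) := by
    rintro x ⟨hx, n, hn⟩
    by_cases hxT : x ∈ Icc u v
    · rcases hn with hn | hn
      · exact Or.inr (Or.inl ⟨hxT, n, hn⟩)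
      · exact Or.inr (Or.inr ⟨hxT, n, hn⟩)
    · exact Or.inl ⟨hx, hxT⟩
  have hdiff : volume (Icc α (α + 2) \ Icc u v) = ENNReal.ofReal (2 - (v - u)) := by
    rw [measure_sdiff (Icc_subset_Icc hu hv) measurableSet_Icc.nullMeasurableSet
      (by rw [Real.volume_Icc]; exact ENNReal.ofReal_ne_top), Real.volume_Icc, Real.volume_Icc,
      ← ENNReal.ofReal_sub _ (by linarith)]
    congr 1; ring
  have huv0 : 0 ≤ v - u := by linarith
  calc volume {x : ℝ | x ∈ Icc α (α + 2) ∧ ∃ n : ℤ, |f1 x - n / 2| ≤ d ∨ |f2 x - n / 2| ≤ d}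
      ≤ volume ((Icc α (α + 2) \ Icc u v) ∪ ({x : ℝ | x ∈ Icc u v ∧ ∃ n : ℤ, |f1 x - n / 2| ≤ d}
        ∪ {x : ℝ | x ∈ Icc u v ∧ ∃ n : ℤ, |f2 x - n / 2| ≤ d})) := measure_mono hsub
    _ ≤ ENNReal.ofReal (2 - (v - u)) + (ENNReal.ofReal ((v - u) / 4)
        + ENNReal.ofReal ((v - u) / 4)) := by
        refine (measure_union_le _ _).trans (add_le_add hdiff.le ?_)
        exact (measure_union_le _ _).trans (add_le_add h1 h2)
    _ = ENNReal.ofReal (2 - (v - u) / 2) := by
        rw [← ENNReal.ofReal_add (by linarith) (by linarith),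
          ← ENNReal.ofReal_add (by linarith) (by linarith)]
        congr 1; ring

section mainthm2

variable {k C1 ε α : ℝ} {η e1 e2 : ℝ → ℝ}

/-- the minus function is equidistributed on `[u,v]` as soon as `|cos 2πp| ≥ r` there. -/
lemma minus_count {r : ℝ} (hr : 0 < r) (hr1 : r ≤ 1 / 16000) (hk : 4 / r ≤ k) (hε : |ε| = 1)
    {u v : ℝ} (huv : 3 / 4 * r ≤ v - u)
    {R : ℝ → ℝ} (hR : ∀ x ∈ Icc u v, ∀ y ∈ Icc u v, |R y - R x| ≤ 1 / 2 * |y - x|)
    (h1 : ∀ p ∈ Icc u v, HasDerivAt η (e1 p) p)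
    (hη : ∀ p ∈ Icc u v, |η p| ≤ r / 30) (he : ∀ p ∈ Icc u v, |e1 p| ≤ r / 15)
    (hcos : ∀ p ∈ Icc u v, r ≤ |cos (2 * π * p)|) :
    volume {x : ℝ | x ∈ Icc u v ∧ ∃ n : ℤ, |(g k ε (-1) η x + R x) - n / 2| ≤ r / 200}
      ≤ ENNReal.ofReal ((v - u) / 4) := by
  have hk0 : 0 < k := lt_of_lt_of_le (by positivity) hk
  have hkr : 4 ≤ k * r := by rw [div_le_iff₀ hr] at hk; exact hk
  have hk1 : 64000 ≤ k := by nlinarith
  have hder : ∀ p ∈ Icc u v, HasDerivAt (g k ε (-1) η) (g' k ε (-1) (η p) (e1 p) p) p :=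
    fun p hp => hasDerivAt_g (h1 p hp)
  have herr : ∀ p ∈ Icc u v, 2 * |e1 p| + 40 * k * (|η p| * |e1 p|) + 40 * k * |η p|
      + 6.2832 * k * |e1 p| ≤ 1.8 * k * r := by
    intro p hp
    have ha := hη p hp
    have hb := he p hp
    have hc : |η p| * |e1 p| ≤ (r / 30) * (r / 15) := mul_le_mul ha hb (abs_nonneg _) (by positivity)
    have hc2 : (r / 30) * (r / 15) ≤ r / 1000000 := by nlinarith
    have hd : k * (|η p| * |e1 p|) ≤ k * (r / 1000000) :=
      mul_le_mul_of_nonneg_left (hc.trans hc2) hk0.le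
    have he' : k * |η p| ≤ k * (r / 30) := mul_le_mul_of_nonneg_left ha hk0.le
    have hf : k * |e1 p| ≤ k * (r / 15) := mul_le_mul_of_nonneg_left hb hk0.le
    nlinarith
  have hlow : ∀ p ∈ Icc u v, 4.4 * k * r ≤ |g' k ε (-1) (η p) (e1 p) p| := by
    intro p hp
    have hy : |η p| ≤ 1 / 4 := (hη p hp).trans (by linarith)
    have := le_g'_minus (e := e1 p) hk0.le hε hy hr.le (hcos p hp)
    have h2 := herr p hp
    linarith
  have hup : ∀ p ∈ Icc u v, |g' k ε (-1) (η p) (e1 p) p| ≤ 12.8 * k := by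
    intro p hp
    have := g'_minus_le (y := η p) (e := e1 p) (p := p) hk0.le hε
    have h2 := herr p hp
    nlinarith
  obtain ⟨hl, hu⟩ := lip_of_deriv hder hlow hup hR
  have huv0 : u ≤ v := by nlinarith
  have hkr' : 0 < k * r := by positivity
  have hb : 0 < 4 * k * r := by positivity
  have hlow' : ∀ x ∈ Icc u v, ∀ y ∈ Icc u v,
      4 * k * r * |y - x| ≤ |(fun p => g k ε (-1) η p + R p) y - (fun p => g k ε (-1) η p + R p) x| := by
    intro x hx y hy
    refine le_trans ?_ (hl x hx y hy)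
    apply mul_le_mul_of_nonneg_right _ (abs_nonneg _)
    nlinarith
  have hup' : ∀ x ∈ Icc u v, ∀ y ∈ Icc u v,
      |(fun p => g k ε (-1) η p + R p) y - (fun p => g k ε (-1) η p + R p) x| ≤ 13 * k * |y - x| := by
    intro x hx y hy
    refine le_trans (hu x hx y hy) ?_
    apply mul_le_mul_of_nonneg_right _ (abs_nonneg _)
    nlinarith
  have hcount := eq_count (d := r / 200) huv0 hb (by positivity) (by positivity) hlow' hup'
  refine hcount.trans (ENNReal.ofReal_le_ofReal ?_)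
  have e1' : (4 * (13 * k * (v - u) + r / 200) + 1) * (2 * (r / 200) / (4 * k * r))
      = (52 * k * (v - u) + r / 50 + 1) / (400 * k) := by
    field_simp; ring
  rw [e1', div_le_iff₀ (by positivity)]
  nlinarith [mul_le_mul_of_nonneg_left huv hk0.le]


set_option maxHeartbeats 4000000 in
theorem main (hC1 : 1 ≤ C1) {r : ℝ} (hr : r = 1 / (16000 * C1)) (hk : 10 ^ 11 * C1 ^ 2 ≤ k)
    (hε : ε = 1 ∨ ε = -1)
    (h1 : ∀ p ∈ Icc α (α + 2), HasDerivAt η (e1 p) p)
    (h2 : ∀ p ∈ Icc α (α + 2), HasDerivAt e1 (e2 p) p)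
    (h3 : ∀ p ∈ Icc α (α + 2), |e2 p| ≤ C1 / k)
    (hη : ∀ p ∈ Icc α (α + 2), |η p| ≤ r / 30)
    {R1 R2 : ℝ → ℝ}
    (hR1 : ∀ x ∈ Icc α (α + 2), ∀ y ∈ Icc α (α + 2), |R1 y - R1 x| ≤ 1 / 2 * |y - x|)
    (hR2 : ∀ x ∈ Icc α (α + 2), ∀ y ∈ Icc α (α + 2), |R2 y - R2 x| ≤ 1 / 2 * |y - x|) :
    volume {x : ℝ | x ∈ Icc α (α + 2) ∧ ∃ n : ℤ,
        |(4 * ε * x + g k ε 1 η x + R1 x) - n / 2| ≤ r / 200
          ∨ |(g k ε (-1) η x + R2 x) - n / 2| ≤ r / 200}
      ≤ ENNReal.ofReal (2 - 3 / 8 * r) := by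
  have hC0 : 0 < C1 := by linarith
  have hr0 : 0 < r := by rw [hr]; positivity
  have hrC : r * C1 = 1 / 16000 := by rw [hr]; field_simp
  have hr1 : r ≤ 1 / 16000 := by nlinarith
  have hk0 : 0 < k := lt_of_lt_of_le (by positivity) hk
  have hk1 : 10 ^ 11 ≤ k := by nlinarith
  have hkC : 10 ^ 11 * C1 ≤ k := by nlinarith
  have hk4 : 4 / r ≤ k := by
    rw [hr]
    have : 4 / (1 / (16000 * C1)) = 64000 * C1 := by field_simp; norm_num
    rw [this]; linarith
  have hεa : |ε| = 1 := by rcases hε with h | h <;> rw [h] <;> norm_num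
  -- the maximum of |η|
  have hcont : ContinuousOn (fun p => |η p|) (Icc α (α + 2)) :=
    fun p hp => (h1 p hp).continuousAt.abs.continuousWithinAt
  obtain ⟨ps, hps, hmax⟩ := isCompact_Icc.exists_isMaxOn
    (nonempty_Icc.mpr (by linarith : α ≤ α + 2)) hcont
  obtain ⟨B, hBdef⟩ : ∃ B, B = k * |η ps| := ⟨_, rfl⟩
  have hB : ∀ p ∈ Icc α (α + 2), k * |η p| ≤ B := by
    intro p hp
    rw [hBdef]
    exact mul_le_mul_of_nonneg_left (hmax hp) hk0.le
  have hB0 : 0 ≤ B := by rw [hBdef]; positivity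
  have hBr : B ≤ k * (r / 30) := by
    rw [hBdef]; exact mul_le_mul_of_nonneg_left (hη ps hps) hk0.le
  have he1 := e1_bound hk0 h1 h2 h3 hB
  have he : ∀ p ∈ Icc α (α + 2), |e1 p| ≤ r / 15 := by
    intro p hp
    have h := he1 p hp
    have h5 : 2 * C1 ≤ k * (r / 30) := by
      have h6 : k * r ≥ 10 ^ 11 * C1 ^ 2 * r := mul_le_mul_of_nonneg_right hk hr0.le
      have h7 : 10 ^ 11 * C1 ^ 2 * r = 10 ^ 11 * C1 * (r * C1) := by ring
      rw [h7, hrC] at h6
      nlinarith
    have h8 : k * |e1 p| ≤ k * (r / 15) := by linarith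
    exact le_of_mul_le_mul_left h8 hk0
  -- two adjacent zeros of cos
  obtain ⟨n, hn⟩ : ∃ n : ℤ, n = ⌈2 * α + 1⌉ := ⟨_, rfl⟩
  have hn1 : 2 * α + 1 ≤ n := by rw [hn]; exact Int.le_ceil _
  have hn2 : (n : ℝ) < 2 * α + 1 + 1 := by rw [hn]; exact Int.ceil_lt_add_one _
  obtain ⟨P, hP⟩ : ∃ P : ℝ, P = 1 / 4 + n / 2 := ⟨_, rfl⟩
  have hPa : α + 3 / 4 ≤ P := by rw [hP]; linarith
  have hPb : P < α + 5 / 4 := by rw [hP]; linarith
  have hcosP : cos (2 * π * P) = 0 := by
    rw [cos_eq_zero_iff]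
    exact ⟨n, by rw [hP]; ring⟩
  have hcosP' : cos (2 * π * (P + 1 / 2)) = 0 := by
    rw [cos_eq_zero_iff]
    exact ⟨n + 1, by rw [hP]; push_cast; ring⟩
  have hPI : P ∈ Icc α (α + 2) := ⟨by linarith, by linarith⟩
  have hPI' : P + 1 / 2 ∈ Icc α (α + 2) := ⟨by linarith, by linarith⟩
  -- derivative of the plus function
  have hderp : ∀ p ∈ Icc α (α + 2),
      HasDerivAt (fun x => 4 * ε * x + g k ε 1 η x) (4 * ε + g' k ε 1 (η p) (e1 p) p) p := by
    intro p hp
    have ha : HasDerivAt (fun x : ℝ => 4 * ε * x) (4 * ε) p := by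
      simpa using (hasDerivAt_id p).const_mul (4 * ε)
    exact ha.add (hasDerivAt_g (h1 p hp))
  have h4ε : |4 * ε| = 4 := by rw [abs_mul, hεa]; norm_num
  rcases le_or_gt B (40 * C1) with hBA | hBA
  · -- CASE A
    have hky : ∀ p ∈ Icc α (α + 2), k * |η p| ≤ 40 * C1 := fun p hp => (hB p hp).trans hBA
    have hke : ∀ p ∈ Icc α (α + 2), k * |e1 p| ≤ 42 * C1 := fun p hp => by
      have := he1 p hp; linarith
    have hky2 : ∀ p ∈ Icc α (α + 2), k * η p ^ 2 ≤ C1 / 10 ^ 7 := by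
      intro p hp
      have ha := hky p hp
      have hb : (k * |η p|) ^ 2 ≤ (40 * C1) ^ 2 := pow_le_pow_left₀ (by positivity) ha 2
      have hc : (k * |η p|) ^ 2 = k * (k * η p ^ 2) := by rw [mul_pow, sq_abs]; ring
      rw [hc] at hb
      have hd : k * (k * η p ^ 2) ≤ k * (C1 / 10 ^ 7) := by
        refine hb.trans ?_
        nlinarith
      exact le_of_mul_le_mul_left hd hk0
    have hky2' : ∀ p ∈ Icc α (α + 2), k * η p ^ 2 ≤ 1 / 10 ^ 4 := by
      intro p hp
      have ha := hky p hp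
      have hb : (k * |η p|) ^ 2 ≤ (40 * C1) ^ 2 := pow_le_pow_left₀ (by positivity) ha 2
      have hc : (k * |η p|) ^ 2 = k * (k * η p ^ 2) := by rw [mul_pow, sq_abs]; ring
      rw [hc] at hb
      have hd : k * (k * η p ^ 2) ≤ k * (1 / 10 ^ 4) := by
        refine hb.trans ?_
        nlinarith
      exact le_of_mul_le_mul_left hd hk0
    have hupp : ∀ p ∈ Icc α (α + 2), |4 * ε + g' k ε 1 (η p) (e1 p) p| ≤ 1999 * C1 := by
      intro p hp
      have ha := g'_plus_le (y := η p) (e := e1 p) (p := p) hk0.le hεa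
      have hb := abs_add_le (4 * ε) (g' k ε 1 (η p) (e1 p) p)
      have hc := hky p hp
      have hd := hke p hp
      have he3 := hky2 p hp
      have hf := he p hp
      have hg : k * (|η p| * |e1 p|) ≤ C1 := by
        have h9 : |e1 p| ≤ 1 / 40 := by linarith
        calc k * (|η p| * |e1 p|) = (k * |η p|) * |e1 p| := by ring
          _ ≤ (40 * C1) * (1 / 40) := mul_le_mul hc h9 (abs_nonneg _) (by positivity)
          _ = C1 := by ring
      have hg2 : 40 * k * (|η p| * |e1 p|) ≤ 40 * C1 := by linarith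
      have hk2 : 126 * k * η p ^ 2 ≤ C1 := by
        have : 126 * k * η p ^ 2 = 126 * (k * η p ^ 2) := by ring
        rw [this]; nlinarith
      rw [h4ε] at hb
      linarith
    obtain ⟨_, hLip⟩ := lip_of_deriv (b := 0) hderp (fun p hp => abs_nonneg _) hupp hR1
    obtain ⟨F, hF⟩ : ∃ F : ℝ → ℝ, F = fun x => 4 * ε * x + g k ε 1 η x + R1 x := ⟨_, rfl⟩
    have hLipF : ∀ x ∈ Icc α (α + 2), ∀ y ∈ Icc α (α + 2), |F y - F x| ≤ 2000 * C1 * |y - x| := by
      intro x hx y hy
      rw [hF]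
      refine (hLip x hx y hy).trans ?_
      apply mul_le_mul_of_nonneg_right _ (abs_nonneg _)
      linarith
    have hFcont : ContinuousOn F (Icc α (α + 2)) := by
      have : LipschitzOnWith (Real.toNNReal (2000 * C1)) F (Icc α (α + 2)) := by
        apply LipschitzOnWith.of_dist_le_mul
        intro x hx y hy
        rw [Real.dist_eq, Real.dist_eq, Real.coe_toNNReal _ (by positivity), abs_sub_comm (F x),
          abs_sub_comm x]
        exact hLipF x hx y hy
      exact this.continuousOn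
    -- the values at the two zeros
    have hval : ∀ q ∈ Icc α (α + 2), cos (2 * π * q) = 0 →
        |F q - (4 * ε * q + R1 q)| ≤ 1 / 100 := by
      intro q hq hcq
      have e5 : F q - (4 * ε * q + R1 q)
          = 2 * η q + ε * k * (sin (2 * π * q) * (1 - cos (2 * π * η q))) := by
        rw [hF]; simp only [g, hcq]; ring
      rw [e5]
      have ha : |2 * η q| ≤ 1 / 1000 := by
        rw [abs_mul, abs_two]; have := hη q hq; linarith
      have hb : |ε * k * (sin (2 * π * q) * (1 - cos (2 * π * η q)))| ≤ 2 / 1000 := by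
        rw [abs_mul, abs_mul, hεa, abs_mul, abs_of_pos hk0, one_mul,
          abs_of_nonneg (one_sub_cos_nonneg (η q))]
        have h6 := one_sub_cos_two_pi (η q)
        have h7 := abs_sin_le_one (2 * π * q)
        have h8 := hky2' q hq
        calc k * (|sin (2 * π * q)| * (1 - cos (2 * π * η q)))
            ≤ k * (1 * (20 * η q ^ 2)) := by
              apply mul_le_mul_of_nonneg_left _ hk0.le
              exact mul_le_mul h7 h6 (one_sub_cos_nonneg _) (by norm_num)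
          _ = 20 * (k * η q ^ 2) := by ring
          _ ≤ 2 / 1000 := by linarith
      have := abs_add_le (2 * η q) (ε * k * (sin (2 * π * q) * (1 - cos (2 * π * η q))))
      linarith
    have hdiff : 17 / 10 ≤ |F (P + 1 / 2) - F P| := by
      have ha := hval P hPI hcosP
      have hb := hval (P + 1 / 2) hPI' hcosP'
      have hc := hR1 P hPI (P + 1 / 2) hPI'
      have hc' : |P + 1 / 2 - P| = 1 / 2 := by
        rw [show P + 1 / 2 - P = (1 / 2 : ℝ) by ring]; norm_num
      rw [hc'] at hc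
      rw [abs_le] at ha hb hc
      rcases hε with h | h
      · refine le_trans ?_ (le_abs_self _)
        rw [h] at ha hb
        linarith [ha.1, ha.2, hb.1, hb.2, hc.1, hc.2]
      · refine le_trans ?_ (neg_le_abs _)
        rw [h] at ha hb
        linarith [ha.1, ha.2, hb.1, hb.2, hc.1, hc.2]
    -- intermediate value
    obtain ⟨p1, hp1, m, hm⟩ : ∃ p1 ∈ Icc P (P + 1 / 2), ∃ m : ℤ, F p1 = m / 2 + 1 / 4 := by
      obtain ⟨A0, hA0⟩ : ∃ A0, A0 = min (F P) (F (P + 1 / 2)) := ⟨_, rfl⟩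
      obtain ⟨m, hm⟩ : ∃ m : ℤ, m = ⌈2 * A0 - 1 / 2⌉ := ⟨_, rfl⟩
      have hm1 : 2 * A0 - 1 / 2 ≤ m := by rw [hm]; exact Int.le_ceil _
      have hm2 : (m : ℝ) < 2 * A0 - 1 / 2 + 1 := by rw [hm]; exact Int.ceil_lt_add_one _
      have hsubP : uIcc P (P + 1 / 2) ⊆ Icc α (α + 2) := by
        rw [uIcc_of_le (by linarith)]
        exact Icc_subset_Icc (by linarith) (by linarith)
      have hivt := intermediate_value_uIcc (hFcont.mono hsubP)
      have hmem : (m / 2 + 1 / 4 : ℝ) ∈ uIcc (F P) (F (P + 1 / 2)) := by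
        rcases le_total (F P) (F (P + 1 / 2)) with h | h
        · rw [uIcc_of_le h]
          rw [min_eq_left h] at hA0
          rw [abs_of_nonneg (by linarith)] at hdiff
          constructor <;> linarith
        · rw [uIcc_of_ge h]
          rw [min_eq_right h] at hA0
          rw [abs_of_nonpos (by linarith)] at hdiff
          constructor <;> linarith
      obtain ⟨p1, hp1, hp2⟩ := hivt hmem
      rw [uIcc_of_le (by linarith)] at hp1
      exact ⟨p1, hp1, m, hp2⟩
    have hp1I : p1 ∈ Icc α (α + 2) := ⟨by linarith [hp1.1], by linarith [hp1.2]⟩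
    -- no half integers near p1
    have hno : ∀ p ∈ Icc α (α + 2), |p - p1| ≤ r → ∀ q : ℤ, ¬ |F p - q / 2| ≤ r / 200 := by
      intro p hp hpp q hq
      have ha := hLipF p1 hp1I p hp
      have hb : |F p - F p1| ≤ 1 / 8 := by
        refine ha.trans ?_
        calc 2000 * C1 * |p - p1| ≤ 2000 * C1 * r := mul_le_mul_of_nonneg_left hpp (by positivity)
          _ = 2000 * (r * C1) := by ring
          _ = 1 / 8 := by rw [hrC]; norm_num
      rw [hm] at hb
      have hc : |(m / 2 + 1 / 4 : ℝ) - q / 2| ≤ 1 / 8 + r / 200 := by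
        rw [abs_le] at hb hq ⊢
        constructor <;> linarith [hb.1, hb.2, hq.1, hq.2]
      have hd : |(m / 2 + 1 / 4 : ℝ) - q / 2| ≤ 1 / 5 := by linarith
      rw [abs_le] at hd
      have h9 : (m - q : ℝ) ≤ -1/10 ∧ (-9/10 : ℝ) ≤ m - q := ⟨by linarith [hd.2], by linarith [hd.1]⟩
      have h10 : ((m - q : ℤ) : ℝ) < 0 := by push_cast; linarith [h9.1]
      have h11 : (-1 : ℝ) < ((m - q : ℤ) : ℝ) := by push_cast; linarith [h9.2]
      have h12 : m - q < 0 := by exact_mod_cast h10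
      have h13 : -1 < m - q := by exact_mod_cast h11
      omega
    -- choice of the interval
    obtain ⟨u, v, hvu, hup1, hTI, hcosT⟩ : ∃ u v : ℝ, v - u = 3 / 4 * r ∧
        (∀ p ∈ Icc u v, |p - p1| ≤ r) ∧ (Icc u v ⊆ Icc P (P + 1 / 2)) ∧
        (∀ p ∈ Icc u v, r ≤ |cos (2 * π * p)|) := by
      rcases le_total (p1 - P) (1 / 4) with h | h
      · refine ⟨p1 + r / 4, p1 + r, by ring, ?_, ?_, ?_⟩
        · intro p hp; rw [abs_le]; constructor <;> linarith [hp.1, hp.2]
        · intro p hp; constructor <;> linarith [hp.1, hp.2, hp1.1]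
        · intro p hp
          have := cos_lower (p := p) hcosP (r := r / 4) (by positivity)
            (by linarith [hp.1, hp1.1]) (by linarith [hp.2])
          linarith
      · refine ⟨p1 - r, p1 - r / 4, by ring, ?_, ?_, ?_⟩
        · intro p hp; rw [abs_le]; constructor <;> linarith [hp.1, hp.2]
        · intro p hp; constructor <;> linarith [hp.1, hp.2, hp1.2]
        · intro p hp
          have := cos_lower (p := p) hcosP (r := r / 4) (by positivity)
            (by linarith [hp.1]) (by linarith [hp.2, hp1.2])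
          linarith
    have huv : u ≤ v := by nlinarith
    have hTP := hTI
    have hTI2 : Icc u v ⊆ Icc α (α + 2) :=
      hTI.trans (Icc_subset_Icc (by linarith) (by linarith))
    have huI := hTI2 (left_mem_Icc.mpr huv)
    have hvI := hTI2 (right_mem_Icc.mpr huv)
    have hcomb := combine (f1 := F) (f2 := fun x => g k ε (-1) η x + R2 x) (d := r / 200)
      huI.1 huv hvI.2 (by
        have hempty : {x : ℝ | x ∈ Icc u v ∧ ∃ n : ℤ, |F x - n / 2| ≤ r / 200} = ∅ := by
          apply Set.eq_empty_of_forall_notMem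
          rintro x ⟨hx, q, hq⟩
          exact hno x (hTI2 hx) (hup1 x hx) q hq
        rw [hempty, measure_empty]; exact zero_le)
      (minus_count hr0 hr1 hk4 hεa (by linarith)
        (fun x hx y hy => hR2 x (hTI2 hx) y (hTI2 hy)) (fun p hp => h1 p (hTI2 hp))
        (fun p hp => hη p (hTI2 hp)) (fun p hp => he p (hTI2 hp)) hcosT)
    rw [hF] at hcomb
    refine hcomb.trans (ENNReal.ofReal_le_ofReal ?_)
    rw [hvu]; linarith
  · -- CASE B
    have hB40 : 40 ≤ B := by linarith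
    have hke : ∀ p ∈ Icc α (α + 2), k * |e1 p| ≤ 1.05 * B := fun p hp => by
      have := he1 p hp; linarith
    -- a zero where η is large
    obtain ⟨Z, hZcos, hZa, hZb, hZη⟩ : ∃ Z : ℝ, cos (2 * π * Z) = 0 ∧ α + 3 / 4 ≤ Z ∧
        Z ≤ α + 7 / 4 ∧ B / 8 ≤ k * |η Z| := by
      by_contra hcon
      push Not at hcon
      have ha := hcon P hcosP hPa (by linarith)
      have hb := hcon (P + 1 / 2) hcosP' (by linarith) (by linarith)
      have hlt : P < P + 1 / 2 := by linarith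
      have hsubP : Icc P (P + 1 / 2) ⊆ Icc α (α + 2) := Icc_subset_Icc hPI.1 hPI'.2
      obtain ⟨ξ, hξ, hξ2⟩ := exists_hasDerivAt_eq_slope η e1 hlt
        (fun p hp => (h1 p (hsubP hp)).continuousAt.continuousWithinAt)
        (fun p hp => h1 p (hsubP (Ioo_subset_Icc_self hp)))
      have hξI : ξ ∈ Icc α (α + 2) := hsubP (Ioo_subset_Icc_self hξ)
      have hξ3 : k * |e1 ξ| ≤ B / 2 := by
        have e : P + 1 / 2 - P = 1 / 2 := by ring
        rw [e] at hξ2
        rw [hξ2, abs_div, abs_of_pos (by norm_num : (0:ℝ) < 1 / 2)]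
        have := abs_sub (η (P + 1 / 2)) (η P)
        have h6 : k * (|η (P + 1 / 2) - η P| / (1 / 2)) = 2 * (k * |η (P + 1 / 2) - η P|) := by ring
        rw [h6]
        nlinarith
      have hslope : ∀ p ∈ Icc α (α + 2), k * |e1 p| ≤ 0.55 * B := by
        intro p hp
        have hC : |e1 p - e1 ξ| ≤ C1 / k * |p - ξ| := by
          have := (convex_Icc α (α + 2)).norm_image_sub_le_of_norm_hasDerivWithin_le
            (f := e1) (f' := e2) (C := C1 / k)
            (fun x hx => (h2 x hx).hasDerivWithinAt) (fun x hx => h3 x hx) hξI hp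
          simpa [Real.norm_eq_abs] using this
        have hp2 : |p - ξ| ≤ 2 := by
          rw [abs_le]; constructor <;> linarith [hp.1, hp.2, hξI.1, hξI.2]
        have hC0 : 0 ≤ C1 / k := by positivity
        have hC2 : |e1 p - e1 ξ| ≤ C1 / k * 2 := hC.trans (mul_le_mul_of_nonneg_left hp2 hC0)
        have h7 : |e1 p| ≤ |e1 ξ| + C1 / k * 2 := by
          have := abs_sub_abs_le_abs_sub (e1 p) (e1 ξ); linarith
        have h8 : k * |e1 p| ≤ k * |e1 ξ| + k * (C1 / k * 2) := by nlinarith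
        have h9 : k * (C1 / k * 2) = 2 * C1 := by field_simp
        linarith
      have hfar : ∀ Z ∈ Icc α (α + 2), k * |η Z| < B / 8 → |ps - Z| ≤ 5 / 4 → False := by
        intro Z hZ hZ2 hZ3
        have hM : |η ps - η Z| ≤ 0.55 * B / k * |ps - Z| := by
          have := (convex_Icc α (α + 2)).norm_image_sub_le_of_norm_hasDerivWithin_le
            (f := η) (f' := e1) (C := 0.55 * B / k)
            (fun x hx => (h1 x hx).hasDerivWithinAt)
            (fun x hx => by
              rw [Real.norm_eq_abs, le_div_iff₀ hk0, mul_comm]; exact hslope x hx) hZ hps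
          simpa [Real.norm_eq_abs] using this
        have hM2 : |η ps - η Z| ≤ 0.55 * B / k * (5 / 4) :=
          hM.trans (mul_le_mul_of_nonneg_left hZ3 (by positivity))
        have hM3 : |η ps| ≤ |η Z| + 0.55 * B / k * (5 / 4) := by
          have := abs_sub_abs_le_abs_sub (η ps) (η Z); linarith
        have hM4 : k * |η ps| ≤ k * |η Z| + k * (0.55 * B / k * (5 / 4)) := by nlinarith
        have hM5 : k * (0.55 * B / k * (5 / 4)) = 0.6875 * B := by field_simp; ring
        rw [← hBdef, hM5] at hM4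
        linarith
      rcases le_total ps (α + 5 / 4) with h | h
      · refine hfar P hPI ha ?_
        rw [abs_le]; constructor <;> linarith [hps.1, hps.2]
      · refine hfar (P + 1 / 2) hPI' hb ?_
        rw [abs_le]; constructor <;> linarith [hps.1, hps.2]
    have hZI : Z ∈ Icc α (α + 2) := ⟨by linarith, by linarith⟩
    obtain ⟨u, hu⟩ : ∃ u, u = Z + 1 / 200 := ⟨_, rfl⟩
    obtain ⟨v, hv⟩ : ∃ v, v = Z + 1 / 100 := ⟨_, rfl⟩
    have huv : u ≤ v := by linarith
    have hvu : v - u = 1 / 200 := by rw [hu, hv]; ring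
    have hTI2 : Icc u v ⊆ Icc α (α + 2) := Icc_subset_Icc (by linarith) (by linarith)
    have hkη : ∀ p ∈ Icc u v, 0.114 * B ≤ k * |η p| := by
      intro p hp
      have hpI := hTI2 hp
      have hM : |η Z - η p| ≤ 1.05 * B / k * |Z - p| := by
        have := (convex_Icc α (α + 2)).norm_image_sub_le_of_norm_hasDerivWithin_le
          (f := η) (f' := e1) (C := 1.05 * B / k)
          (fun x hx => (h1 x hx).hasDerivWithinAt)
          (fun x hx => by
            rw [Real.norm_eq_abs, le_div_iff₀ hk0, mul_comm]; exact hke x hx) hpI hZI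
        simpa [Real.norm_eq_abs] using this
      have hpZ : |Z - p| ≤ 1 / 100 := by
        rw [abs_le]; constructor <;> linarith [hp.1, hp.2]
      have hM2 : |η Z - η p| ≤ 1.05 * B / k * (1 / 100) :=
        hM.trans (mul_le_mul_of_nonneg_left hpZ (by positivity))
      have hM3 : |η Z| ≤ |η p| + 1.05 * B / k * (1 / 100) := by
        have := abs_sub_abs_le_abs_sub (η Z) (η p); linarith
      have hM4 : k * |η Z| ≤ k * |η p| + k * (1.05 * B / k * (1 / 100)) := by nlinarith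
      have hM5 : k * (1.05 * B / k * (1 / 100)) = 0.0105 * B := by field_simp; ring
      rw [hM5] at hM4
      linarith
    have hlowp : ∀ p ∈ Icc u v, 2.3 * B ≤ |4 * ε + g' k ε 1 (η p) (e1 p) p| := by
      intro p hp
      have hpI := hTI2 hp
      have hpZ : |p - Z| ≤ 1 / 100 := by
        rw [abs_le]; constructor <;> linarith [hp.1, hp.2]
      obtain ⟨hs, hc⟩ := near_zero hZcos hpZ
      have hy : |η p| ≤ 1 / 4 := (hη p hpI).trans (by linarith)
      have ha := le_g'_plus (e := e1 p) hk0.le hεa hy hs hc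
      have hb := hkη p hp
      have hcc := hB p hpI
      have hd := hke p hpI
      have hηs : |η p| ≤ 1 / 400000 := (hη p hpI).trans (by linarith)
      have he3 : k * η p ^ 2 ≤ 1 / 400000 * B := by
        have : k * η p ^ 2 = (k * |η p|) * |η p| := by rw [← sq_abs]; ring
        rw [this]
        calc (k * |η p|) * |η p| ≤ B * (1 / 400000) := mul_le_mul hcc hηs (abs_nonneg _) hB0
          _ = _ := by ring
      have hf : k * (|η p| * |e1 p|) ≤ 1 / 300000 * B := by
        calc k * (|η p| * |e1 p|) = (k * |e1 p|) * |η p| := by ring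
          _ ≤ (1.05 * B) * (1 / 400000) := mul_le_mul hd hηs (abs_nonneg _) (by positivity)
          _ ≤ _ := by linarith
      have hg : |e1 p| ≤ 1 / 100000 * B := by
        have : |e1 p| ≤ r / 15 := he p hpI
        linarith
      have hh := abs_sub_abs_le_abs_sub (g' k ε 1 (η p) (e1 p) p) (-(4 * ε))
      rw [abs_neg, h4ε, sub_neg_eq_add, add_comm (g' k ε 1 (η p) (e1 p) p) (4 * ε)] at hh
      have hi : 8 * k * η p ^ 2 = 8 * (k * η p ^ 2) := by ring
      have hj : 40 * k * (|η p| * |e1 p|) = 40 * (k * (|η p| * |e1 p|)) := by ring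
      have hkk : 25 * k * |η p| = 25 * (k * |η p|) := by ring
      have hll : 0.4 * k * |e1 p| = 0.4 * (k * |e1 p|) := by ring
      rw [hi, hj, hkk, hll] at ha
      linarith
    have hupp : ∀ p ∈ Icc u v, |4 * ε + g' k ε 1 (η p) (e1 p) p| ≤ 47.5 * B := by
      intro p hp
      have hpI := hTI2 hp
      have ha := g'_plus_le (y := η p) (e := e1 p) (p := p) hk0.le hεa
      have hb := abs_add_le (4 * ε) (g' k ε 1 (η p) (e1 p) p)
      have hcc := hB p hpI
      have hd := hke p hpI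
      have hηs : |η p| ≤ 1 / 400000 := (hη p hpI).trans (by linarith)
      have he3 : k * η p ^ 2 ≤ 1 / 400000 * B := by
        have : k * η p ^ 2 = (k * |η p|) * |η p| := by rw [← sq_abs]; ring
        rw [this]
        calc (k * |η p|) * |η p| ≤ B * (1 / 400000) := mul_le_mul hcc hηs (abs_nonneg _) hB0
          _ = _ := by ring
      have hf : k * (|η p| * |e1 p|) ≤ 1 / 300000 * B := by
        calc k * (|η p| * |e1 p|) = (k * |e1 p|) * |η p| := by ring
          _ ≤ (1.05 * B) * (1 / 400000) := mul_le_mul hd hηs (abs_nonneg _) (by positivity)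
          _ ≤ _ := by linarith
      have hg : |e1 p| ≤ 1 / 100000 * B := by
        have : |e1 p| ≤ r / 15 := he p hpI
        linarith
      have hi : 126 * k * η p ^ 2 = 126 * (k * η p ^ 2) := by ring
      have hj : 40 * k * (|η p| * |e1 p|) = 40 * (k * (|η p| * |e1 p|)) := by ring
      have hkk : 40 * k * |η p| = 40 * (k * |η p|) := by ring
      have hll : 6.2832 * k * |e1 p| = 6.2832 * (k * |e1 p|) := by ring
      rw [hi, hj, hkk, hll] at ha
      rw [h4ε] at hb
      linarith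
    obtain ⟨hl, huL⟩ := lip_of_deriv (fun p hp => hderp p (hTI2 hp)) hlowp hupp
      (fun x hx y hy => hR1 x (hTI2 hx) y (hTI2 hy))
    have hBpos : 0 < B := by linarith
    have hcount := eq_count (f := fun x => 4 * ε * x + g k ε 1 η x + R1 x) (b := 2 * B)
      (L := 48 * B) (d := r / 200) huv (by positivity) (by positivity) (by positivity)
      (fun x hx y hy => le_trans (mul_le_mul_of_nonneg_right (by linarith) (abs_nonneg _))
        (hl x hx y hy))
      (fun x hx y hy => le_trans (huL x hx y hy)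
        (mul_le_mul_of_nonneg_right (by linarith) (abs_nonneg _)))
    have hcomb := combine (f1 := fun x => 4 * ε * x + g k ε 1 η x + R1 x)
      (f2 := fun x => g k ε (-1) η x + R2 x) (d := r / 200)
      (by linarith : α ≤ u) huv (by linarith : v ≤ α + 2)
      (hcount.trans (ENNReal.ofReal_le_ofReal (by
        have e7 : (4 * (48 * B * (v - u) + r / 200) + 1) * (2 * (r / 200) / (2 * B))
            = (192 * B * (v - u) + r / 50 + 1) * (r / 200) / B := by
          field_simp; ring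
        rw [e7, hvu, div_le_iff₀ hBpos]
        nlinarith [mul_nonneg hr0.le hBpos.le])))
      (minus_count hr0 hr1 hk4 hεa (by linarith)
        (fun x hx y hy => hR2 x (hTI2 hx) y (hTI2 hy)) (fun p hp => h1 p (hTI2 hp))
        (fun p hp => hη p (hTI2 hp)) (fun p hp => he p (hTI2 hp))
        (fun p hp => by
          have := cos_lower (p := p) hZcos (r := 1 / 200) (by norm_num)
            (by linarith [hp.1]) (by linarith [hp.2])
          linarith))
    refine hcomb.trans (ENNReal.ofReal_le_ofReal ?_)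
    rw [hvu]; linarith

end mainthm2


/-- **The mirror relation is broken on the next level** (digit form). `p` = first digit `P` itself (two
laps), `Q = ε p + 1/2 + m + η p` the mirrored digit, `P₂ = 2P + k sin 2πP - P₀`,
`Q₂ = 2Q + k sin 2πQ - Q₀` the next digits. With `r = 1/(16000 C₁)`: the set of `p` for which
`Q₂ + P₂` or `Q₂ - P₂` is within `r/200` of a half integer has measure `≤ 2 - 3r/8`. -/
theorem mirror_broken {k C1 ε α r : ℝ} {η e1 e2 P0 Q0 Q : ℝ → ℝ} {m : ℤ}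
    (hC1 : 1 ≤ C1) (hr : r = 1 / (16000 * C1)) (hk : 10 ^ 11 * C1 ^ 2 ≤ k)
    (hε : ε = 1 ∨ ε = -1)
    (h1 : ∀ p ∈ Icc α (α + 2), HasDerivAt η (e1 p) p)
    (h2 : ∀ p ∈ Icc α (α + 2), HasDerivAt e1 (e2 p) p)
    (h3 : ∀ p ∈ Icc α (α + 2), |e2 p| ≤ C1 / k)
    (hη : ∀ p ∈ Icc α (α + 2), |η p| ≤ r / 30)
    (hQ : ∀ p ∈ Icc α (α + 2), Q p = ε * p + 1 / 2 + m + η p)
    (hP0 : ∀ x ∈ Icc α (α + 2), ∀ y ∈ Icc α (α + 2), |P0 y - P0 x| ≤ 1 / 4 * |y - x|)
    (hQ0 : ∀ x ∈ Icc α (α + 2), ∀ y ∈ Icc α (α + 2), |Q0 y - Q0 x| ≤ 1 / 4 * |y - x|) :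
    volume {p : ℝ | p ∈ Icc α (α + 2) ∧ ∃ n : ℤ,
        |((2 * Q p + k * sin (2 * π * Q p) - Q0 p) + (2 * p + k * sin (2 * π * p) - P0 p)) - n / 2|
            ≤ r / 200
          ∨ |((2 * Q p + k * sin (2 * π * Q p) - Q0 p) - (2 * p + k * sin (2 * π * p) - P0 p))
              - n / 2| ≤ r / 200}
      ≤ ENNReal.ofReal (2 - 3 / 8 * r) := by
  have hsin : ∀ p ∈ Icc α (α + 2), sin (2 * π * Q p)
      = -(ε * sin (2 * π * p) * cos (2 * π * η p) + cos (2 * π * p) * sin (2 * π * η p)) := by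
    intro p hp
    have e0 : 2 * π * Q p = (ε * (2 * π * p) + 2 * π * η p) + π + m * (2 * π) := by
      rw [hQ p hp]; ring
    rw [e0, sin_add_int_mul_two_pi, sin_add_pi, sin_add]
    rcases hε with h | h
    · rw [h, one_mul, one_mul]
    · rw [h]
      have e1' : (-1 : ℝ) * (2 * π * p) = -(2 * π * p) := by ring
      rw [e1', sin_neg, cos_neg]; ring
  have hεε : ε * ε = 1 := by rcases hε with h | h <;> rw [h] <;> norm_num
  have hεa : |ε| = 1 := by rcases hε with h | h <;> rw [h] <;> norm_num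
  have key := main (R1 := fun p => (1 + 2 * m) - Q0 p - ε * P0 p)
    (R2 := fun p => (1 + 2 * m) - Q0 p + ε * P0 p) hC1 hr hk hε h1 h2 h3 hη
    (by
      intro x hx y hy
      have ha := hP0 x hx y hy
      have hb := hQ0 x hx y hy
      have hc : ((1 + 2 * m) - Q0 y - ε * P0 y) - ((1 + 2 * m) - Q0 x - ε * P0 x)
          = -(Q0 y - Q0 x) + -(ε * (P0 y - P0 x)) := by ring
      have hd := abs_add_le (-(Q0 y - Q0 x)) (-(ε * (P0 y - P0 x)))
      rw [abs_neg, abs_neg, abs_mul, hεa, one_mul] at hd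
      show |((1 + 2 * m) - Q0 y - ε * P0 y) - ((1 + 2 * m) - Q0 x - ε * P0 x)| ≤ _
      rw [hc]; linarith)
    (by
      intro x hx y hy
      have ha := hP0 x hx y hy
      have hb := hQ0 x hx y hy
      have hc : ((1 + 2 * m) - Q0 y + ε * P0 y) - ((1 + 2 * m) - Q0 x + ε * P0 x)
          = -(Q0 y - Q0 x) + ε * (P0 y - P0 x) := by ring
      have hd := abs_add_le (-(Q0 y - Q0 x)) (ε * (P0 y - P0 x))
      rw [abs_neg, abs_mul, hεa, one_mul] at hd
      show |((1 + 2 * m) - Q0 y + ε * P0 y) - ((1 + 2 * m) - Q0 x + ε * P0 x)| ≤ _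
      rw [hc]; linarith)
  refine le_trans (measure_mono ?_) key
  rintro p ⟨hp, n, hn⟩
  refine ⟨hp, n, ?_⟩
  have hplus : (2 * Q p + k * sin (2 * π * Q p) - Q0 p)
        + ε * (2 * p + k * sin (2 * π * p) - P0 p)
      = 4 * ε * p + g k ε 1 η p + ((1 + 2 * m) - Q0 p - ε * P0 p) := by
    rw [hsin p hp, hQ p hp, g]; ring
  have hminus : (2 * Q p + k * sin (2 * π * Q p) - Q0 p)
        - ε * (2 * p + k * sin (2 * π * p) - P0 p)
      = g k ε (-1) η p + ((1 + 2 * m) - Q0 p + ε * P0 p) := by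
    rw [hsin p hp, hQ p hp, g]; ring
  show |(4 * ε * p + g k ε 1 η p + ((1 + 2 * m) - Q0 p - ε * P0 p)) - n / 2| ≤ r / 200
    ∨ |(g k ε (-1) η p + ((1 + 2 * m) - Q0 p + ε * P0 p)) - n / 2| ≤ r / 200
  rw [← hplus, ← hminus]
  rcases hε with h | h
  · rw [h]; simpa using hn
  · rw [h]
    rcases hn with hn | hn
    · right; convert hn using 2; ring
    · left; convert hn using 2; ring

end Crest.Agent.R128.Mirror
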