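import Mathlib

/-!
Row 128, node ROUGH (one level), helper86.  Pure real analysis: if
`q(y) + a sec(2π(x0+λy)) + sec(2πy)` (`q` quadratic, `a ≈ λ⁻²`, `1 ≤ |λ|`) is bounded by `1` on most of
`[0,3]` then `x0 + λ y = ± y + 1/2 + m` up to `δ` (the mirror conspiracy).
-/

set_option autoImplicit false

namespace Crest.Agent.R128.Rough

open MeasureTheory Real Set

/-- `sec t = 1 / cos (2 π t)`. -/
noncomputable def sec (t : ℝ) : ℝ := 1 / Real.cos (2 * π * t)

/-- Jordan: the distance to the nearest pole `1/4 + n/2`. -/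
theorem near_pole (x : ℝ) :
    4 * |x - 1 / 4 - (round (2 * x - 1 / 2) : ℝ) / 2| ≤ |Real.cos (2 * π * x)| := by
  set n : ℤ := round (2 * x - 1 / 2) with hn
  have h1 : |2 * x - 1 / 2 - (n : ℝ)| ≤ 1 / 2 := by
    simpa [hn] using abs_sub_round (2 * x - 1 / 2)
  set d : ℝ := x - 1 / 4 - (n : ℝ) / 2 with hd
  have hd' : |d| ≤ 1 / 4 := by
    have : 2 * x - 1 / 2 - (n : ℝ) = 2 * d := by rw [hd]; ring
    rw [this, abs_mul] at h1
    norm_num at h1
    linarith
  have hx : 2 * π * x = (2 * π * d + π / 2) + (n : ℝ) * π := by rw [hd]; ring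
  have hc : |Real.cos (2 * π * x)| = |Real.sin (2 * π * d)| := by
    rw [hx, Real.cos_add_int_mul_pi, abs_mul, Real.cos_add_pi_div_two, abs_neg]
    have : |((-1 : ℝ) ^ n)| = 1 := by
      rw [abs_zpow]; simp
    rw [this, one_mul]
  rw [hc]
  have hle : |2 * π * d| ≤ π / 2 := by
    rw [abs_mul, abs_of_pos (by positivity : (0 : ℝ) < 2 * π)]
    nlinarith [Real.pi_pos]
  have := Real.mul_abs_le_abs_sin hle
  rw [abs_mul, abs_of_pos (by positivity : (0 : ℝ) < 2 * π)] at this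
  have h3 : 2 / π * (2 * π * |d|) = 4 * |d| := by
    field_simp
    ring
  linarith [h3 ▸ this]

/-- Measure of the set where a nearly affine digit is near critical. -/
theorem vol_cos {x0 lam a b kap : ℝ} (hlam : lam ≠ 0) (hab : a ≤ b) (hk : 0 ≤ kap) :
    volume {y : ℝ | y ∈ Icc a b ∧ |Real.cos (2 * π * (x0 + lam * y))| < kap} ≤
      ENNReal.ofReal (((b - a) + 1 / |lam|) * kap) := by
  have hl : 0 < |lam| := abs_pos.mpr hlam
  -- the range of `2 (x0 + lam y) - 1/2`
  set A : ℝ := min (2 * (x0 + lam * a) - 1 / 2) (2 * (x0 + lam * b) - 1 / 2) with hA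
  set B : ℝ := max (2 * (x0 + lam * a) - 1 / 2) (2 * (x0 + lam * b) - 1 / 2) with hB
  have hBA : B - A = 2 * |lam| * (b - a) := by
    rcases le_total 0 lam with h | h
    · have h1 : 2 * (x0 + lam * a) - 1 / 2 ≤ 2 * (x0 + lam * b) - 1 / 2 := by
        nlinarith
      rw [hA, hB, min_eq_left h1, max_eq_right h1, abs_of_nonneg h]; ring
    · have h1 : 2 * (x0 + lam * b) - 1 / 2 ≤ 2 * (x0 + lam * a) - 1 / 2 := by
        nlinarith
      rw [hA, hB, min_eq_right h1, max_eq_left h1, abs_of_nonpos h]; ring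
  have hrange : ∀ y ∈ Icc a b, A ≤ 2 * (x0 + lam * y) - 1 / 2 ∧ 2 * (x0 + lam * y) - 1 / 2 ≤ B := by
    intro y hy
    rcases le_total 0 lam with h | h
    · refine ⟨(min_le_left _ _).trans ?_, le_trans ?_ (le_max_right _ _)⟩
      · nlinarith [hy.1]
      · nlinarith [hy.2]
    · refine ⟨(min_le_right _ _).trans ?_, le_trans ?_ (le_max_left _ _)⟩
      · nlinarith [hy.2]
      · nlinarith [hy.1]
  set T : Finset ℤ := Finset.Icc ⌈A - 1 / 2⌉ ⌊B + 1 / 2⌋ with hT
  set c : ℤ → ℝ := fun n => (1 / 4 + (n : ℝ) / 2 - x0) / lam with hc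
  set r : ℝ := kap / (4 * |lam|) with hr
  have hsub : {y : ℝ | y ∈ Icc a b ∧ |Real.cos (2 * π * (x0 + lam * y))| < kap} ⊆
      ⋃ n ∈ T, Icc (c n - r) (c n + r) := by
    rintro y ⟨hy, hcos⟩
    set n : ℤ := round (2 * (x0 + lam * y) - 1 / 2) with hn
    have h1 : |2 * (x0 + lam * y) - 1 / 2 - (n : ℝ)| ≤ 1 / 2 := by
      simpa [hn] using abs_sub_round (2 * (x0 + lam * y) - 1 / 2)
    have h2 := near_pole (x0 + lam * y)
    rw [← hn] at h2
    obtain ⟨h3, h4⟩ := hrange y hy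
    have h5 := abs_le.mp h1
    simp only [mem_iUnion]
    refine ⟨n, ?_, ?_⟩
    · rw [hT, Finset.mem_Icc]
      constructor
      · rw [Int.ceil_le]; linarith [h5.2]
      · rw [Int.le_floor]; linarith [h5.1]
    · have h6 : |x0 + lam * y - 1 / 4 - (n : ℝ) / 2| ≤ kap / 4 := by linarith
      have h7 : x0 + lam * y - 1 / 4 - (n : ℝ) / 2 = lam * (y - c n) := by
        rw [hc]; field_simp; ring
      rw [h7, abs_mul] at h6
      have h8 : |y - c n| ≤ r := by
        rw [hr, le_div_iff₀ (by positivity)]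
        nlinarith
      have h9 := abs_le.mp h8
      exact ⟨by linarith [h9.1], by linarith [h9.2]⟩
  refine (measure_mono hsub).trans ?_
  refine (measure_biUnion_finset_le _ _).trans ?_
  have hvol : ∀ n : ℤ, volume (Icc (c n - r) (c n + r)) = ENNReal.ofReal (2 * r) := by
    intro n
    rw [Real.volume_Icc]; congr 1; ring
  simp only [hvol, Finset.sum_const, nsmul_eq_mul]
  have hr0 : 0 ≤ r := by rw [hr]; positivity
  have hcard : (T.card : ℝ) ≤ B - A + 2 := by
    rw [hT, Int.card_Icc]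
    have hle : (⌊B + 1 / 2⌋ : ℝ) ≤ B + 1 / 2 := Int.floor_le _
    have hge : A - 1 / 2 ≤ (⌈A - 1 / 2⌉ : ℝ) := Int.le_ceil _
    have hAB : A ≤ B := by
      have : 0 ≤ B - A := by rw [hBA]; have := sub_nonneg.mpr hab; positivity
      linarith
    have h0 : (0 : ℝ) ≤ B - A + 2 := by linarith
    rcases le_or_gt 0 (⌊B + 1 / 2⌋ + 1 - ⌈A - 1 / 2⌉) with h | h
    · have : (((⌊B + 1 / 2⌋ + 1 - ⌈A - 1 / 2⌉).toNat : ℕ) : ℝ) =
          ((⌊B + 1 / 2⌋ + 1 - ⌈A - 1 / 2⌉ : ℤ) : ℝ) := by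
        have := Int.toNat_of_nonneg h
        exact_mod_cast this
      rw [this]; push_cast; linarith
    · rw [Int.toNat_of_nonpos h.le]; simpa using h0
  have : (T.card : ENNReal) * ENNReal.ofReal (2 * r) = ENNReal.ofReal ((T.card : ℝ) * (2 * r)) := by
    rw [ENNReal.ofReal_mul (by positivity)]; simp
  rw [this]
  apply ENNReal.ofReal_le_ofReal
  have h1 : (T.card : ℝ) * (2 * r) ≤ (B - A + 2) * (2 * r) :=
    mul_le_mul_of_nonneg_right hcard (by positivity)
  refine h1.trans (le_of_eq ?_)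
  rw [hBA, hr]
  field_simp
  ring


theorem exists_good {a b c : ℝ} {s : Set ℝ} (hc : volume s ≤ ENNReal.ofReal c) (h : c < b - a)
    (h0 : 0 ≤ c) : ∃ y ∈ Icc a b, y ∉ s := by
  by_contra hcon
  push Not at hcon
  have hsub : Icc a b ⊆ s := fun y hy => hcon y hy
  have h1 : ENNReal.ofReal (b - a) ≤ ENNReal.ofReal c := by
    rw [← Real.volume_Icc]; exact (measure_mono hsub).trans hc
  have h2 := (ENNReal.ofReal_le_ofReal_iff h0).mp h1
  linarith

/-- the singular part -/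
noncomputable def S (a x0 lam y : ℝ) : ℝ := sec y + a * sec (x0 + lam * y)

/-- the full one-level function -/
noncomputable def F (q0 q1 q2 a x0 lam y : ℝ) : ℝ := q0 + q1 * y + q2 * y ^ 2 + S a x0 lam y

/-- the bad set -/
def Bad (q0 q1 q2 a x0 lam : ℝ) : Set ℝ := {y | y ∈ Icc (0 : ℝ) 3 ∧ 1 < |F q0 q1 q2 a x0 lam y|}

theorem abs_sec_le {t κ : ℝ} (hκ : 0 < κ) (h : κ ≤ |Real.cos (2 * π * t)|) : |sec t| ≤ 1 / κ := by
  rw [sec, abs_div, abs_one]
  exact one_div_le_one_div_of_le hκ h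

theorem vol_badj {q0 q1 q2 a x0 lam c0 y j : ℝ} (hlam : 1 ≤ |lam|) (hj : 1 ≤ j)
    (hc0 : 0 ≤ c0) (hbad : volume (Bad q0 q1 q2 a x0 lam) ≤ ENNReal.ofReal c0) :
    volume ({H : ℝ | y + j * H ∈ Bad q0 q1 q2 a x0 lam} ∪
      ({H : ℝ | H ∈ Icc (1 / 10 : ℝ) (4 / 10) ∧ |Real.cos (2 * π * (y + j * H))| < 1 / 100} ∪
       {H : ℝ | H ∈ Icc (1 / 10 : ℝ) (4 / 10) ∧
          |Real.cos (2 * π * ((x0 + lam * y) + (lam * j) * H))| < 1 / 100})) ≤
      ENNReal.ofReal (c0 + 26 / 1000) := by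
  have hj0 : j ≠ 0 := by positivity
  have hlam0 : lam ≠ 0 := by
    intro h; rw [h, abs_zero] at hlam; linarith
  have h1 : volume {H : ℝ | y + j * H ∈ Bad q0 q1 q2 a x0 lam} ≤ ENNReal.ofReal c0 := by
    have e : {H : ℝ | y + j * H ∈ Bad q0 q1 q2 a x0 lam} =
        (fun H => j * H) ⁻¹' ((fun z => y + z) ⁻¹' (Bad q0 q1 q2 a x0 lam)) := rfl
    rw [e, Real.volume_preimage_mul_left hj0, measure_preimage_add]
    have hle : |j⁻¹| ≤ 1 := by
      rw [abs_inv, abs_of_pos (by linarith : (0 : ℝ) < j)]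
      exact inv_le_one_of_one_le₀ hj
    calc ENNReal.ofReal |j⁻¹| * volume (Bad q0 q1 q2 a x0 lam)
        ≤ 1 * ENNReal.ofReal c0 := by
          gcongr
          exact ENNReal.ofReal_le_one.mpr hle
      _ = ENNReal.ofReal c0 := one_mul _
  have h2 : volume {H : ℝ | H ∈ Icc (1 / 10 : ℝ) (4 / 10) ∧
      |Real.cos (2 * π * (y + j * H))| < 1 / 100} ≤ ENNReal.ofReal (13 / 1000) := by
    refine (vol_cos (x0 := y) (lam := j) hj0 (by norm_num) (by norm_num)).trans ?_
    apply ENNReal.ofReal_le_ofReal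
    have : 1 / |j| ≤ 1 := by
      rw [abs_of_pos (by linarith : (0 : ℝ) < j), div_le_one (by linarith)]; exact hj
    linarith
  have h3 : volume {H : ℝ | H ∈ Icc (1 / 10 : ℝ) (4 / 10) ∧
      |Real.cos (2 * π * ((x0 + lam * y) + (lam * j) * H))| < 1 / 100} ≤
        ENNReal.ofReal (13 / 1000) := by
    refine (vol_cos (x0 := x0 + lam * y) (lam := lam * j) (mul_ne_zero hlam0 hj0)
      (by norm_num) (by norm_num)).trans ?_
    apply ENNReal.ofReal_le_ofReal
    have h4 : 1 ≤ |lam * j| := by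
      rw [abs_mul, abs_of_pos (by linarith : (0 : ℝ) < j)]; nlinarith
    have : 1 / |lam * j| ≤ 1 := by
      rw [div_le_one (by linarith)]; exact h4
    linarith
  calc _ ≤ ENNReal.ofReal c0 + (ENNReal.ofReal (13 / 1000) + ENNReal.ofReal (13 / 1000)) := by
        refine (measure_union_le _ _).trans (add_le_add h1 ?_)
        exact (measure_union_le _ _).trans (add_le_add h2 h3)
    _ = ENNReal.ofReal (c0 + 26 / 1000) := by
        rw [← ENNReal.ofReal_add (by norm_num) (by norm_num), ← ENNReal.ofReal_add hc0 (by norm_num)]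
        congr 1; norm_num

/-- Step 1: the singular part is bounded on good points. -/
theorem S_bound {q0 q1 q2 a x0 lam c0 y : ℝ} (hlam : 1 ≤ |lam|) (ha0 : 0 ≤ a) (ha : a ≤ 101 / 100)
    (hc0 : 0 ≤ c0) (hc1 : c0 ≤ 1 / 100)
    (hbad : volume (Bad q0 q1 q2 a x0 lam) ≤ ENNReal.ofReal c0)
    (hy : y ∈ Icc (0 : ℝ) (3 / 2)) (hFy : |F q0 q1 q2 a x0 lam y| ≤ 1) :
    |S a x0 lam y| ≤ 1500 := by
  have hb := fun (j : ℝ) (hj : 1 ≤ j) =>
    vol_badj (q0 := q0) (q1 := q1) (q2 := q2) (a := a) (x0 := x0) (lam := lam) (y := y)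
      hlam hj hc0 hbad
  set U : ℝ → Set ℝ := fun j => ({H : ℝ | y + j * H ∈ Bad q0 q1 q2 a x0 lam} ∪
      ({H : ℝ | H ∈ Icc (1 / 10 : ℝ) (4 / 10) ∧ |Real.cos (2 * π * (y + j * H))| < 1 / 100} ∪
       {H : ℝ | H ∈ Icc (1 / 10 : ℝ) (4 / 10) ∧
          |Real.cos (2 * π * ((x0 + lam * y) + (lam * j) * H))| < 1 / 100})) with hU
  have htot : volume (U 1 ∪ (U 2 ∪ U 3)) ≤ ENNReal.ofReal (3 * (c0 + 26 / 1000)) := by
    calc _ ≤ ENNReal.ofReal (c0 + 26 / 1000) + (ENNReal.ofReal (c0 + 26 / 1000) +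
            ENNReal.ofReal (c0 + 26 / 1000)) := by
          refine (measure_union_le _ _).trans (add_le_add (hb 1 le_rfl) ?_)
          exact (measure_union_le _ _).trans
            (add_le_add (hb 2 (by norm_num)) (hb 3 (by norm_num)))
      _ = _ := by
          rw [← ENNReal.ofReal_add (by positivity) (by positivity),
            ← ENNReal.ofReal_add (by positivity) (by positivity)]
          congr 1; ring
  obtain ⟨H, hH, hnot⟩ := exists_good (a := 1 / 10) (b := 4 / 10) htot (by linarith)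
    (by positivity)
  have key : ∀ j : ℝ, 1 ≤ j → j ≤ 3 → H ∉ U j →
      |F q0 q1 q2 a x0 lam (y + j * H)| ≤ 1 ∧ |S a x0 lam (y + j * H)| ≤ 201 := by
    intro j hj hj3 hHj
    rw [hU] at hHj
    simp only [mem_union, mem_ofPred_eq, not_or, not_and, not_lt] at hHj
    obtain ⟨g1, g2, g3⟩ := hHj
    have g2' := g2 hH
    have g3' := g3 hH
    have hmem : y + j * H ∈ Icc (0 : ℝ) 3 := by
      constructor
      · nlinarith [hy.1, hH.1]
      · nlinarith [hy.2, hH.2, hH.1]
    constructor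
    · by_contra hc
      exact g1 ⟨hmem, not_le.mp hc⟩
    · have e1 : |sec (y + j * H)| ≤ 1 / (1 / 100) := abs_sec_le (by norm_num) g2'
      have e2 : |sec (x0 + lam * (y + j * H))| ≤ 1 / (1 / 100) := by
        apply abs_sec_le (by norm_num)
        have : x0 + lam * (y + j * H) = (x0 + lam * y) + (lam * j) * H := by ring
        rw [this]; exact g3'
      have e3 : |a * sec (x0 + lam * (y + j * H))| ≤ 101 / 100 * (1 / (1 / 100)) := by
        rw [abs_mul, abs_of_nonneg ha0]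
        exact mul_le_mul ha e2 (abs_nonneg _) (by norm_num)
      calc |S a x0 lam (y + j * H)| ≤ |sec (y + j * H)| + |a * sec (x0 + lam * (y + j * H))| :=
            abs_add_le _ _
        _ ≤ 1 / (1 / 100) + 101 / 100 * (1 / (1 / 100)) := add_le_add e1 e3
        _ = 201 := by norm_num
  simp only [mem_union, not_or] at hnot
  obtain ⟨n1, n2, n3⟩ := hnot
  obtain ⟨f1, s1⟩ := key 1 le_rfl (by norm_num) n1
  obtain ⟨f2, s2⟩ := key 2 (by norm_num) (by norm_num) n2
  obtain ⟨f3, s3⟩ := key 3 (by norm_num) le_rfl n3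
  have hid : S a x0 lam y = F q0 q1 q2 a x0 lam y - 3 * F q0 q1 q2 a x0 lam (y + 1 * H)
      + 3 * F q0 q1 q2 a x0 lam (y + 2 * H) - F q0 q1 q2 a x0 lam (y + 3 * H)
      + 3 * S a x0 lam (y + 1 * H) - 3 * S a x0 lam (y + 2 * H) + S a x0 lam (y + 3 * H) := by
    simp only [F]; ring
  rw [hid]
  have a0 := abs_le.mp hFy
  have a1 := abs_le.mp f1
  have a2 := abs_le.mp f2
  have a3 := abs_le.mp f3
  have b1 := abs_le.mp s1
  have b2 := abs_le.mp s2
  have b3 := abs_le.mp s3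
  rw [abs_le]
  constructor <;> linarith


theorem cos_at (n : ℤ) (w : ℝ) :
    Real.cos (2 * π * (1 / 4 + (n : ℝ) / 2 + w)) = -((-1 : ℝ) ^ n * Real.sin (2 * π * w)) := by
  have hx : 2 * π * (1 / 4 + (n : ℝ) / 2 + w) = (2 * π * w + π / 2) + (n : ℝ) * π := by ring
  rw [hx, Real.cos_add_int_mul_pi, Real.cos_add_pi_div_two]; ring

theorem abs_cos_at (n : ℤ) (w : ℝ) :
    |Real.cos (2 * π * (1 / 4 + (n : ℝ) / 2 + w))| = |Real.sin (2 * π * w)| := by
  rw [cos_at, abs_neg, abs_mul]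
  have : |((-1 : ℝ) ^ n)| = 1 := by rw [abs_zpow]; simp
  rw [this, one_mul]

/-- lower bound for `sec` near its pole. -/
theorem sec_lower {n : ℤ} {v : ℝ} (hv : 0 < v) (hv1 : v ≤ 1 / 100) :
    1 / (2 * π * v) ≤ |sec (1 / 4 + (n : ℝ) / 2 + v)| := by
  rw [sec, abs_div, abs_one, abs_cos_at]
  have hpi := Real.pi_pos
  have hpi4 := Real.pi_lt_four
  have hs : 0 < Real.sin (2 * π * v) := by
    apply Real.sin_pos_of_pos_of_lt_pi (by positivity)
    nlinarith
  rw [abs_of_pos hs]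
  exact one_div_le_one_div_of_le hs (Real.sin_le (by positivity))

/-- Step 2. -/
theorem cos_small {n : ℤ} {a x0 lam v eta : ℝ} (ha : 0 < a) (hv : 0 < v) (hve : v ≤ eta)
    (heta : eta ≤ 1 / 1000000) (hS : |S a x0 lam (1 / 4 + (n : ℝ) / 2 + v)| ≤ 1500) :
    |Real.cos (2 * π * (x0 + lam * (1 / 4 + (n : ℝ) / 2 + v)))| < 13 * eta * a := by
  have hpi := Real.pi_pos
  have hpi4 : π < 3.15 := Real.pi_lt_d2
  have h1 := sec_lower (n := n) hv (by linarith)
  set y : ℝ := 1 / 4 + (n : ℝ) / 2 + v with hy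
  set C : ℝ := |Real.cos (2 * π * (x0 + lam * y))| with hC
  have h2 : |a * sec (x0 + lam * y)| = a / C := by
    rw [sec, abs_mul, abs_div, abs_one, abs_of_pos ha, ← hC]; ring
  have h3 : |sec y| ≤ |S a x0 lam y| + |a * sec (x0 + lam * y)| := by
    have : sec y = S a x0 lam y - a * sec (x0 + lam * y) := by rw [S]; ring
    calc |sec y| = |S a x0 lam y - a * sec (x0 + lam * y)| := by rw [← this]
      _ ≤ _ := abs_sub _ _
  have h4 : 1 / (2 * π * v) - 1500 ≤ a / C := by linarith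
  have h5 : 1500 ≤ 1 / (4 * π * v) := by
    rw [le_div_iff₀ (by positivity)]
    nlinarith
  have h6 : 1 / (2 * π * v) = 2 * (1 / (4 * π * v)) := by field_simp; ring
  have h7 : 1 / (4 * π * v) ≤ a / C := by linarith
  have hCnn : 0 ≤ C := abs_nonneg _
  have hCpos : 0 < C := by
    rcases hCnn.eq_or_lt with h | h
    · exfalso
      have hC0 : C = 0 := h.symm
      rw [hC0, div_zero] at h7
      have : 0 < 1 / (4 * π * v) := by positivity
      linarith
    · exact h
  rw [div_le_div_iff₀ (by positivity) hCpos] at h7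
  have h8 : C ≤ 4 * π * v * a := by nlinarith only [h7]
  have h9 : 4 * π * v * a < 13 * eta * a := by
    have : 4 * π * v < 13 * eta := by nlinarith only [hpi4, hv, hve, hpi]
    exact mul_lt_mul_of_pos_right this ha
  linarith

set_option maxHeartbeats 2000000 in
/-- **One-level roughness lemma (mirror conspiracy).** -/
theorem rough1 {del a x0 lam q0 q1 q2 : ℝ} (hd0 : 0 < del) (hd : del ≤ 1 / 10000)
    (hlam : 1 ≤ |lam|) (ha : |a * lam ^ 2 - 1| ≤ 1 / 100)
    (hbad : volume (Bad q0 q1 q2 a x0 lam) ≤ ENNReal.ofReal (del / 400)) :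
    ∃ m : ℤ, (0 < lam ∧ ∀ y ∈ Icc (0 : ℝ) 3, |x0 + lam * y - y - 1 / 2 - m| ≤ del) ∨
      (lam < 0 ∧ ∀ y ∈ Icc (0 : ℝ) 3, |x0 + lam * y + y - 1 / 2 - m| ≤ del) := by
  have hpi := Real.pi_pos
  have hpi4 : π < 3.15 := Real.pi_lt_d2
  obtain ⟨eta, heta⟩ : ∃ eta : ℝ, eta = del / 100 := ⟨_, rfl⟩
  have he0 : 0 < eta := by rw [heta]; positivity
  have he1 : eta ≤ 1 / 1000000 := by rw [heta]; linarith
  have hc0 : del / 400 = eta / 4 := by rw [heta]; ring
  rw [hc0] at hbad
  set L : ℝ := |lam| with hL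
  have hL2 : lam ^ 2 = L ^ 2 := by rw [hL, sq_abs]
  rw [hL2] at ha
  have ha' := abs_le.mp ha
  have hL0 : 0 < L := by linarith
  have haL : a * L ^ 2 ≤ 101 / 100 := by linarith [ha'.2]
  have hapos : 0 < a := by
    by_contra hcon
    have : a * L ^ 2 ≤ 0 := mul_nonpos_of_nonpos_of_nonneg (not_lt.mp hcon) (by positivity)
    linarith [ha'.1]
  have ha1 : a ≤ 101 / 100 := by
    have h1 : (1 : ℝ) ≤ L ^ 2 := by nlinarith only [hlam]
    have h2 := mul_le_mul_of_nonneg_left h1 hapos.le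
    linarith
  have hlam0 : lam ≠ 0 := by
    intro h; rw [hL, h, abs_zero] at hlam; linarith
  -- good points near a pole
  have hgood : ∀ (lo hi : ℝ) (n : ℤ), 0 ≤ 1 / 4 + (n : ℝ) / 2 + lo → 1 / 4 + (n : ℝ) / 2 + hi ≤ 3 / 2 →
      eta / 4 < hi - lo → ∃ v ∈ Icc lo hi, 1 / 4 + (n : ℝ) / 2 + v ∉ Bad q0 q1 q2 a x0 lam := by
    intro lo hi n _ _ hlen
    obtain ⟨y, hy, hyn⟩ := exists_good (a := 1 / 4 + (n : ℝ) / 2 + lo) (b := 1 / 4 + (n : ℝ) / 2 + hi)
      hbad (by linarith) (by positivity)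
    refine ⟨y - (1 / 4 + (n : ℝ) / 2), ⟨by linarith [hy.1], by linarith [hy.2]⟩, ?_⟩
    have : 1 / 4 + (n : ℝ) / 2 + (y - (1 / 4 + (n : ℝ) / 2)) = y := by ring
    rw [this]; exact hyn
  have hSgood : ∀ y ∈ Icc (0 : ℝ) (3 / 2), y ∉ Bad q0 q1 q2 a x0 lam → |S a x0 lam y| ≤ 1500 := by
    intro y hy hyn
    apply S_bound hlam hapos.le ha1 (by positivity : (0 : ℝ) ≤ eta / 4) (by linarith) hbad hy
    by_contra hcon
    exact hyn ⟨⟨hy.1, by linarith [hy.2]⟩, not_le.mp hcon⟩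
  -- Step 3 : `L < 2.8`
  have hLlt : L < 28 / 10 := by
    by_contra hcon
    have hcon := not_lt.mp hcon
    set Z : Set ℝ := {y : ℝ | y ∈ Icc (1 / 4 + eta / 8) (1 / 4 + eta) ∧
      |Real.cos (2 * π * (x0 + lam * y))| < 13 * eta * a} with hZ
    have hZv : volume Z ≤ ENNReal.ofReal ((7 * eta / 8 + 1 / L) * (13 * eta * a)) := by
      have := vol_cos (x0 := x0) (lam := lam) (a := 1 / 4 + eta / 8) (b := 1 / 4 + eta)
        (kap := 13 * eta * a) hlam0 (by linarith) (by positivity)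
      refine this.trans (le_of_eq ?_)
      congr 2
      rw [← hL]; ring
    have hU : volume (Bad q0 q1 q2 a x0 lam ∪ Z) ≤
        ENNReal.ofReal (eta / 4 + (7 * eta / 8 + 1 / L) * (13 * eta * a)) := by
      rw [ENNReal.ofReal_add (by positivity) (by positivity)]
      exact (measure_union_le _ _).trans (add_le_add hbad hZv)
    have hnum : eta / 4 + (7 * eta / 8 + 1 / L) * (13 * eta * a) <
        (1 / 4 + eta) - (1 / 4 + eta / 8) := by
      have h1 : 1 / L ≤ 10 / 28 := by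
        rw [div_le_div_iff₀ hL0 (by norm_num)]; linarith
      have h2 : a ≤ 101 / 100 / (28 / 10) ^ 2 := by
        rw [le_div_iff₀ (by norm_num)]
        have : (28 / 10 : ℝ) ^ 2 ≤ L ^ 2 := by nlinarith only [hcon]
        nlinarith only [haL, this, hapos]
      have h3 : 7 * eta / 8 + 1 / L ≤ 3572 / 10000 := by linarith
      have h4 : (7 * eta / 8 + 1 / L) * a ≤ 3572 / 10000 * (101 / 100 / (28 / 10) ^ 2) :=
        mul_le_mul h3 h2 hapos.le (by norm_num)
      have h5 : (7 * eta / 8 + 1 / L) * (13 * eta * a) =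
          13 * eta * ((7 * eta / 8 + 1 / L) * a) := by ring
      rw [h5]
      have h6 : 13 * eta * ((7 * eta / 8 + 1 / L) * a) ≤
          13 * eta * (3572 / 10000 * (101 / 100 / (28 / 10) ^ 2)) :=
        mul_le_mul_of_nonneg_left h4 (by positivity)
      have h7 : 13 * eta * (3572 / 10000 * (101 / 100 / (28 / 10) ^ 2)) < eta * (6 / 10) := by
        have : (13 : ℝ) * (3572 / 10000 * (101 / 100 / (28 / 10) ^ 2)) < 6 / 10 := by norm_num
        nlinarith only [this, he0]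
      linarith
    obtain ⟨y, hy, hyn⟩ := exists_good hU hnum (by positivity)
    simp only [mem_union, not_or] at hyn
    have hv : y = 1 / 4 + ((0 : ℤ) : ℝ) / 2 + (y - 1 / 4) := by push_cast; ring
    have hS := hSgood y ⟨by linarith [hy.1], by linarith [hy.2]⟩ hyn.1
    rw [hv] at hS
    have := cos_small (n := 0) (eta := eta) hapos (by linarith [hy.1]) (by linarith [hy.2]) he1 hS
    rw [← hv] at this
    exact hyn.2 ⟨hy, this⟩
  -- Step 4
  have hstep4 : ∀ k : ℤ, (k = 0 ∨ k = 1) → ∃ n : ℤ,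
      |x0 + lam * (1 / 4 + (k : ℝ) / 2) - 1 / 4 - (n : ℝ) / 2| ≤ 7 * eta := by
    intro k hk
    have hk0 : (0 : ℝ) ≤ (k : ℝ) / 2 := by
      rcases hk with rfl | rfl <;> norm_num
    have hk1 : (k : ℝ) / 2 ≤ 1 / 2 := by
      rcases hk with rfl | rfl <;> norm_num
    obtain ⟨v, hv, hvn⟩ := hgood (eta / 8) eta k (by linarith) (by linarith) (by linarith)
    have hS := hSgood _ ⟨by linarith [hv.1], by linarith [hv.2]⟩ hvn
    have hc := cos_small (eta := eta) hapos (by linarith [hv.1]) hv.2 he1 hS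
    have hp := near_pole (x0 + lam * (1 / 4 + (k : ℝ) / 2 + v))
    refine ⟨round (2 * (x0 + lam * (1 / 4 + (k : ℝ) / 2 + v)) - 1 / 2), ?_⟩
    set n : ℤ := round (2 * (x0 + lam * (1 / 4 + (k : ℝ) / 2 + v)) - 1 / 2)
    have h1 : |x0 + lam * (1 / 4 + (k : ℝ) / 2 + v) - 1 / 4 - (n : ℝ) / 2| ≤ 35 / 10 * eta := by
      have : 13 * eta * a ≤ 13 * eta * (101 / 100) :=
        mul_le_mul_of_nonneg_left ha1 (by positivity)
      linarith
    have h2 : |lam * v| ≤ 28 / 10 * eta := by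
      rw [abs_mul, abs_of_nonneg (by linarith [hv.1] : 0 ≤ v)]
      exact mul_le_mul hLlt.le hv.2 (by linarith [hv.1]) (by norm_num)
    have h3 : x0 + lam * (1 / 4 + (k : ℝ) / 2) - 1 / 4 - (n : ℝ) / 2 =
        (x0 + lam * (1 / 4 + (k : ℝ) / 2 + v) - 1 / 4 - (n : ℝ) / 2) - lam * v := by ring
    rw [h3]
    refine (abs_sub _ _).trans ?_
    linarith
  obtain ⟨n1, hn1⟩ := hstep4 0 (Or.inl rfl)
  obtain ⟨n2, hn2⟩ := hstep4 1 (Or.inr rfl)
  have hNlam : |lam - ((n2 - n1 : ℤ) : ℝ)| ≤ 28 * eta := by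
    have h1 := abs_le.mp hn1
    have h2 := abs_le.mp hn2
    push_cast at h1 h2 ⊢
    rw [abs_le]
    constructor
    · nlinarith only [h1.1, h1.2, h2.1, h2.2, he0]
    · nlinarith only [h1.1, h1.2, h2.1, h2.2, he0]
  set e : ℝ := x0 + lam * (1 / 4) - 1 / 4 - (n1 : ℝ) / 2 with he
  have hee : |e| ≤ 7 * eta := by
    have : e = x0 + lam * (1 / 4 + ((0 : ℤ) : ℝ) / 2) - 1 / 4 - (n1 : ℝ) / 2 := by
      rw [he]; push_cast; ring
    rw [this]; exact hn1
  have hee' := abs_le.mp hee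
  -- Step 5 : a good point at distance `20 eta .. 40 eta` of the pole `1/4`
  obtain ⟨v, hv, hvn⟩ := hgood (20 * eta) (40 * eta) 0 (by push_cast; linarith)
    (by push_cast; linarith) (by linarith)
  have hv0 : 0 < v := by linarith [hv.1]
  have hS := hSgood _ ⟨by push_cast; linarith [hv.1], by push_cast; linarith [hv.2]⟩ hvn
  set w : ℝ := e + lam * v with hw
  have hX : x0 + lam * (1 / 4 + ((0 : ℤ) : ℝ) / 2 + v) = 1 / 4 + (n1 : ℝ) / 2 + w := by
    rw [hw, he]; push_cast; ring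
  have hcosy : Real.cos (2 * π * (1 / 4 + ((0 : ℤ) : ℝ) / 2 + v)) = - Real.sin (2 * π * v) := by
    rw [cos_at]; simp
  have hsinv : 0 < Real.sin (2 * π * v) := by
    apply Real.sin_pos_of_pos_of_lt_pi (by positivity)
    nlinarith only [hv.2, hpi, he1]
  have hsinv2 : 1 / (2 * π * v) ≤ 1 / Real.sin (2 * π * v) :=
    one_div_le_one_div_of_le hsinv (Real.sin_le (by positivity))
  have hbig : 3900 ≤ 1 / (2 * π * v) := by
    rw [le_div_iff₀ (by positivity)]
    nlinarith only [hv.2, hpi4, hv0, he1]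
  have hSeq : S a x0 lam (1 / 4 + ((0 : ℤ) : ℝ) / 2 + v) =
      -(1 / Real.sin (2 * π * v)) + a / Real.cos (2 * π * (1 / 4 + (n1 : ℝ) / 2 + w)) := by
    rw [S, sec, sec, hX, hcosy]; rw [div_neg]; ring
  rw [hSeq] at hS
  have hS' := abs_le.mp hS
  have habsw : |lam * v| = L * v := by rw [abs_mul, abs_of_pos hv0]
  have hwup : |w| ≤ 1 / 4 := by
    calc |w| ≤ |e| + |lam * v| := abs_add_le _ _
      _ ≤ 7 * eta + 28 / 10 * (40 * eta) := by
          rw [habsw]
          exact add_le_add hee (mul_le_mul hLlt.le hv.2 hv0.le (by norm_num))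
      _ ≤ 1 / 4 := by linarith
  -- `|n2 - n1| = 1`
  have hN1 : (1 : ℝ) - 28 * eta ≤ |((n2 - n1 : ℤ) : ℝ)| := by
    have h1 : |lam| ≤ |lam - ((n2 - n1 : ℤ) : ℝ)| + |((n2 - n1 : ℤ) : ℝ)| := by
      have := abs_add_le (lam - ((n2 - n1 : ℤ) : ℝ)) ((n2 - n1 : ℤ) : ℝ)
      rwa [sub_add_cancel] at this
    linarith
  have hN2 : |((n2 - n1 : ℤ) : ℝ)| ≤ 28 / 10 + 28 * eta := by
    have h1 : |((n2 - n1 : ℤ) : ℝ)| ≤ |lam - ((n2 - n1 : ℤ) : ℝ)| + |lam| := by
      have := abs_sub (lam) (lam - ((n2 - n1 : ℤ) : ℝ))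
      have h2 : lam - (lam - ((n2 - n1 : ℤ) : ℝ)) = ((n2 - n1 : ℤ) : ℝ) := by ring
      rw [h2] at this; linarith
    linarith
  have hNint : |n2 - n1| = 1 ∨ |n2 - n1| = 2 := by
    have h1 : (0 : ℝ) < ((|n2 - n1| : ℤ) : ℝ) := by push_cast at hN1 ⊢; linarith
    have h2 : ((|n2 - n1| : ℤ) : ℝ) < 3 := by push_cast at hN2 ⊢; linarith
    have h3 : 0 < |n2 - n1| := by exact_mod_cast h1
    have h4 : |n2 - n1| < 3 := by exact_mod_cast h2
    omega
  have hNone : |n2 - n1| = 1 := by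
    rcases hNint with h | h
    · exact h
    · exfalso
      have hLge : 199 / 100 ≤ L := by
        have h1 : |((n2 - n1 : ℤ) : ℝ)| = 2 := by
          have : ((|n2 - n1| : ℤ) : ℝ) = 2 := by rw [h]; norm_num
          rw [← this]; push_cast; rfl
        have h2 : |((n2 - n1 : ℤ) : ℝ)| ≤ |lam - ((n2 - n1 : ℤ) : ℝ)| + |lam| := by
          have := abs_sub (lam) (lam - ((n2 - n1 : ℤ) : ℝ))
          have h3 : lam - (lam - ((n2 - n1 : ℤ) : ℝ)) = ((n2 - n1 : ℤ) : ℝ) := by ring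
          rw [h3] at this; linarith
        rw [h1] at h2
        have : L = |lam| := hL
        linarith
      have ha2 : a ≤ 256 / 1000 := by
        have : (199 / 100 : ℝ) ^ 2 ≤ L ^ 2 := by nlinarith only [hLge]
        nlinarith only [haL, this, hapos]
      have hwlow : 164 / 100 * v ≤ |w| := by
        have h1 : |lam * v| ≤ |w| + |e| := by
          have h2 : lam * v = w - e := by rw [hw]; ring
          rw [h2]; exact abs_sub _ _
        rw [habsw] at h1
        have h3 : 199 / 100 * v ≤ L * v := mul_le_mul_of_nonneg_right hLge hv0.le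
        have h4 : 7 * eta ≤ 35 / 100 * v := by linarith [hv.1]
        linarith
      have hcosw : 4 * |w| ≤ |Real.cos (2 * π * (1 / 4 + (n1 : ℝ) / 2 + w))| := by
        rw [abs_cos_at]
        have hle : |2 * π * w| ≤ π / 2 := by
          rw [abs_mul, abs_of_pos (by positivity : (0 : ℝ) < 2 * π)]
          nlinarith only [hwup, hpi]
        have := Real.mul_abs_le_abs_sin hle
        rw [abs_mul, abs_of_pos (by positivity : (0 : ℝ) < 2 * π)] at this
        have h3 : 2 / π * (2 * π * |w|) = 4 * |w| := by field_simp; ring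
        linarith [h3 ▸ this]
      have hq : |a / Real.cos (2 * π * (1 / 4 + (n1 : ℝ) / 2 + w))| ≤ 4 / 100 / v := by
        rw [abs_div, abs_of_pos hapos, div_le_div_iff₀ (by linarith only [hcosw, hwlow, hv0]) hv0]
        nlinarith only [ha2, hv0, hcosw, hwlow]
      have hq' := abs_le.mp hq
      have h1 : 15 / 100 / v ≤ 1 / (2 * π * v) := by
        rw [div_le_div_iff₀ hv0 (by positivity)]
        nlinarith only [hpi4, hv0]
      have h2 : 1500 < 11 / 100 / v := by
        rw [lt_div_iff₀ hv0]; nlinarith only [hv.2, he1]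
      have h3 : 15 / 100 / v = 4 / 100 / v + 11 / 100 / v := by ring
      linarith [hS'.1]
  -- sign
  have hcospos : 0 < Real.cos (2 * π * (1 / 4 + (n1 : ℝ) / 2 + w)) := by
    by_contra hcon
    have h1 : a / Real.cos (2 * π * (1 / 4 + (n1 : ℝ) / 2 + w)) ≤ 0 :=
      div_nonpos_of_nonneg_of_nonpos hapos.le (not_lt.mp hcon)
    linarith [hS'.1]
  have hwle := abs_le.mp hwup
  rcases lt_or_gt_of_ne hlam0 with hneg | hpos
  · -- lam < 0
    have hLm : L = -lam := by rw [hL, abs_of_neg hneg]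
    have hw0 : w < 0 := by
      rw [hw]; nlinarith only [hv.1, hee'.2, hLm, hlam, hv0, he0]
    have hsinw : Real.sin (2 * π * w) < 0 := by
      apply Real.sin_neg_of_neg_of_neg_pi_lt
      · nlinarith only [hw0, hwle.1, hpi]
      · nlinarith only [hw0, hwle.1, hpi]
    obtain ⟨m, hm | hm⟩ := Int.even_or_odd' n1
    · refine ⟨m, Or.inr ⟨hneg, ?_⟩⟩
      have hNneg : n2 - n1 = -1 := by
        have h0 : ((n2 - n1 : ℤ) : ℝ) < 0 := by
          have := abs_le.mp hNlam
          linarith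
        have h0' : n2 - n1 < 0 := by exact_mod_cast h0
        rw [abs_of_neg h0'] at hNone
        omega
      have hl1 : |lam + 1| ≤ 28 * eta := by
        have : lam - ((n2 - n1 : ℤ) : ℝ) = lam + 1 := by rw [hNneg]; push_cast; ring
        rw [← this]; exact hNlam
      intro y hy
      have hid : x0 + lam * y + y - 1 / 2 - (m : ℝ) = e + (lam + 1) * (y - 1 / 4) := by
        rw [he, hm]; push_cast; ring
      rw [hid]
      have h1 : |(lam + 1) * (y - 1 / 4)| ≤ 28 * eta * 3 := by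
        rw [abs_mul]
        refine mul_le_mul hl1 ?_ (abs_nonneg _) (by positivity)
        rw [abs_le]; constructor <;> linarith [hy.1, hy.2]
      calc |e + (lam + 1) * (y - 1 / 4)| ≤ |e| + |(lam + 1) * (y - 1 / 4)| := abs_add_le _ _
        _ ≤ 7 * eta + 28 * eta * 3 := add_le_add hee h1
        _ ≤ del := by rw [heta]; linarith
    · exfalso
      rw [cos_at, hm] at hcospos
      have : ((-1 : ℝ) ^ (2 * m + 1)) = -1 := by
        rw [zpow_add₀ (by norm_num), zpow_mul]; norm_num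
      rw [this] at hcospos
      linarith
  · -- lam > 0
    have hLm : L = lam := by rw [hL, abs_of_pos hpos]
    have hw0 : 0 < w := by
      rw [hw]; nlinarith only [hv.1, hee'.1, hLm, hlam, hv0, he0]
    have hsinw : 0 < Real.sin (2 * π * w) := by
      apply Real.sin_pos_of_pos_of_lt_pi
      · positivity
      · nlinarith only [hw0, hwle.2, hpi]
    obtain ⟨m, hm | hm⟩ := Int.even_or_odd' n1
    · exfalso
      rw [cos_at, hm] at hcospos
      have : ((-1 : ℝ) ^ (2 * m)) = 1 := by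
        rw [zpow_mul]; norm_num
      rw [this] at hcospos
      linarith
    · refine ⟨m, Or.inl ⟨hpos, ?_⟩⟩
      have hNpos : n2 - n1 = 1 := by
        have h0 : (0 : ℝ) < ((n2 - n1 : ℤ) : ℝ) := by
          have := abs_le.mp hNlam
          linarith
        have h0' : 0 < n2 - n1 := by exact_mod_cast h0
        rw [abs_of_pos h0'] at hNone
        omega
      have hl1 : |lam - 1| ≤ 28 * eta := by
        have : lam - ((n2 - n1 : ℤ) : ℝ) = lam - 1 := by rw [hNpos]; push_cast; ring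
        rw [← this]; exact hNlam
      intro y hy
      have hid : x0 + lam * y - y - 1 / 2 - (m : ℝ) = e + (lam - 1) * (y - 1 / 4) := by
        rw [he, hm]; push_cast; ring
      rw [hid]
      have h1 : |(lam - 1) * (y - 1 / 4)| ≤ 28 * eta * 3 := by
        rw [abs_mul]
        refine mul_le_mul hl1 ?_ (abs_nonneg _) (by positivity)
        rw [abs_le]; constructor <;> linarith [hy.1, hy.2]
      calc |e + (lam - 1) * (y - 1 / 4)| ≤ |e| + |(lam - 1) * (y - 1 / 4)| := abs_add_le _ _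
        _ ≤ 7 * eta + 28 * eta * 3 := add_le_add hee h1
        _ ≤ del := by rw [heta]; linarith

end Crest.Agent.R128.Rough
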