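import Mathlib
import Crest.Agent.R128.Rough
import Crest.Agent.R128.Mirror

/-!
Row 128, node RA-BROKEN (helper123): abstract real part.
-/

set_option autoImplicit false

namespace Crest.Agent.R128.RABroken

open MeasureTheory Real Set Metric Filter Topology
open Crest.Agent.R128.Rough

/-- Lipschitz image bound for the outer Lebesgue measure -/
theorem vol_image_le {f : ℝ → ℝ} {s : Set ℝ}
    (h : ∀ x ∈ s, ∀ y ∈ s, |f x - f y| ≤ 2 * |x - y|) : volume (f '' s) ≤ 2 * volume s := by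
  have hl : LipschitzOnWith 2 f s := by
    apply LipschitzOnWith.of_dist_le_mul
    intro x hx y hy
    rw [Real.dist_eq, Real.dist_eq]
    exact h x hx y hy
  have := hl.hausdorffMeasure_image_le (d := 1) zero_le_one
  rw [hausdorffMeasure_real, ENNReal.rpow_one] at this
  simpa using this

theorem abstract_broken {k E ε δ r : ℝ} {M : ℤ} {P P1 P2 Q Q1 Q2 P0 Q0 : ℝ → ℝ}
    (hE : 1 ≤ E) (hr : r = 1 / (16000 * (7 * E))) (hk : 10 ^ 11 * (7 * E) ^ 2 ≤ k)
    (hε : ε = 1 ∨ ε = -1) (hδ : δ ≤ r / 1000)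
    (dP : ∀ u, |u| < 2 → HasDerivAt P (P1 u) u) (dP1 : ∀ u, |u| < 2 → HasDerivAt P1 (P2 u) u)
    (dQ : ∀ u, |u| < 2 → HasDerivAt Q (Q1 u) u) (dQ1 : ∀ u, |u| < 2 → HasDerivAt Q1 (Q2 u) u)
    (bP1 : ∀ u, |u| < 2 → |P1 u - 1| ≤ E / k) (bP2 : ∀ u, |u| < 2 → |P2 u| ≤ E / k)
    (bQ1 : ∀ u, |u| < 2 → |Q1 u| ≤ 5) (bQ2 : ∀ u, |u| < 2 → |Q2 u| ≤ E / k)
    (lP0 : ∀ u v, |u| < 2 → |v| < 2 → |P0 u - P0 v| ≤ 1 / 8 * |u - v|)
    (lQ0 : ∀ u v, |u| < 2 → |v| < 2 → |Q0 u - Q0 v| ≤ 1 / 8 * |u - v|)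
    (hmir : ∀ u, |u| < 2 → |Q u - ε * P u - 1 / 2 - M| ≤ δ) :
    ENNReal.ofReal (r / 10) ≤ volume {u : ℝ | |u| ≤ 3 / 2 ∧
      r / 64 ≤ |Real.cos (2 * π * P u)| ∧ r / 64 ≤ |Real.cos (2 * π * Q u)| ∧
      ∀ j : ℤ,
        r / 200 < |(2 * Q u + k * Real.sin (2 * π * Q u) - Q0 u) +
          (2 * P u + k * Real.sin (2 * π * P u) - P0 u) - j / 2| ∧
        r / 200 < |(2 * Q u + k * Real.sin (2 * π * Q u) - Q0 u) -
          (2 * P u + k * Real.sin (2 * π * P u) - P0 u) - j / 2|} := by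
  have hpi := Real.pi_lt_d2
  have hpi3 := Real.pi_gt_three
  have hE0 : 0 < E := by linarith
  have hr0 : 0 < r := by rw [hr]; positivity
  have hr1 : r ≤ 1 / 100000 := by
    rw [hr]
    apply one_div_le_one_div_of_le (by norm_num)
    nlinarith
  have hk0 : 0 < k := lt_of_lt_of_le (by positivity) hk
  have hEk : E / k ≤ 1 / 100 := by
    rw [div_le_div_iff₀ hk0 (by norm_num)]
    nlinarith
  -- slopes
  have slope : ∀ u v, |u| < 2 → |v| < 2 → |(P v - P u) - (v - u)| ≤ 1 / 100 * |v - u| := by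
    have key : ∀ u v, |u| < 2 → |v| < 2 → u < v →
        |(P v - P u) - (v - u)| ≤ 1 / 100 * |v - u| := by
      intro u v hu hv huv
      rw [abs_lt] at hu hv
      have hin : ∀ x ∈ Icc u v, |x| < 2 := fun x hx => by
        rw [abs_lt]; constructor <;> linarith [hx.1, hx.2, hu.1, hv.2]
      obtain ⟨c, hc, hc'⟩ := exists_hasDerivAt_eq_slope P P1 huv
        (fun x hx => (dP x (hin x hx)).continuousAt.continuousWithinAt)
        (fun x hx => dP x (hin x ⟨hx.1.le, hx.2.le⟩))
      have h1 := (bP1 c (hin c ⟨hc.1.le, hc.2.le⟩)).trans hEk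
      have hvu : 0 < v - u := by linarith
      rw [hc'] at h1
      have e : (P v - P u) / (v - u) - 1 = ((P v - P u) - (v - u)) / (v - u) := by
        field_simp
      rw [e, abs_div, div_le_iff₀ (abs_pos.mpr hvu.ne')] at h1
      exact h1
    intro u v hu hv
    rcases lt_trichotomy u v with h | h | h
    · exact key u v hu hv h
    · subst h; simp
    · have := key v u hv hu h
      rw [abs_sub_comm v u]
      have e : P v - P u - (v - u) = -(P u - P v - (u - v)) := by ring
      rw [e, abs_neg]; exact this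
  -- inverse function
  have hex : ∀ x, ∃ u, |x - P 0| < 6 / 5 → |u| ≤ 3 / 2 ∧ P u = x := by
    intro x
    by_cases hx : |x - P 0| < 6 / 5
    · rw [abs_lt] at hx
      have h1 := abs_le.mp (slope 0 (3 / 2) (by norm_num) (by norm_num [abs_lt]))
      have h2 := abs_le.mp (slope (-(3 / 2)) 0 (by norm_num [abs_lt]) (by norm_num))
      norm_num at h1 h2
      have hcont : ContinuousOn P (Icc (-(3 / 2)) (3 / 2)) := fun u hu =>
        (dP u (by rw [abs_lt]; constructor <;> linarith [hu.1, hu.2])).continuousAt.continuousWithinAt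
      have := intermediate_value_Icc (by norm_num : (-(3 / 2) : ℝ) ≤ 3 / 2) hcont
      obtain ⟨u, hu, hux⟩ := this (show x ∈ Icc (P (-(3 / 2))) (P (3 / 2)) by
        constructor <;> linarith [h1.1, h1.2, h2.1, h2.2, hx.1, hx.2])
      exact ⟨u, fun _ => ⟨abs_le.mpr hu, hux⟩⟩
    · exact ⟨0, fun h => absurd h hx⟩
  choose φ hφ using hex
  have hφ2 : ∀ x, |x - P 0| < 6 / 5 → |φ x| < 2 := fun x hx => by
    have := (hφ x hx).1; linarith
  have hφlip : ∀ x y, |x - P 0| < 6 / 5 → |y - P 0| < 6 / 5 → |φ x - φ y| ≤ 2 * |x - y| := by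
    intro x y hx hy
    have h1 := slope (φ y) (φ x) (hφ2 y hy) (hφ2 x hx)
    rw [(hφ x hx).2, (hφ y hy).2] at h1
    have h2 : |φ x - φ y| - |x - y| ≤ |(x - y) - (φ x - φ y)| := by
      rw [abs_sub_comm (x - y)]
      exact abs_sub_abs_le_abs_sub _ _
    linarith [abs_nonneg (φ x - φ y)]
  have hφc : ∀ x, |x - P 0| < 6 / 5 → ContinuousAt φ x := by
    intro x hx
    rw [Metric.continuousAt_iff]
    intro e he
    refine ⟨min (e / 2) (6 / 5 - |x - P 0|), lt_min (by linarith) (by linarith), ?_⟩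
    intro y hy
    rw [Real.dist_eq] at hy ⊢
    have hy1 := hy.trans_le (min_le_left _ _)
    have hy2 := hy.trans_le (min_le_right _ _)
    have hyP : |y - P 0| < 6 / 5 := by
      have : |y - P 0| ≤ |y - x| + |x - P 0| := abs_sub_le _ _ _
      linarith
    have := hφlip y x hyP hx
    linarith
  have hφd : ∀ x, |x - P 0| < 6 / 5 → HasDerivAt φ (P1 (φ x))⁻¹ x := by
    intro x hx
    refine HasDerivAt.of_local_left_inverse (hφc x hx) (dP _ (hφ2 x hx)) ?_ ?_
    · have := abs_le.mp ((bP1 _ (hφ2 x hx)).trans hEk)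
      intro h0
      rw [h0] at this
      linarith [this.1]
    · have hopen : ∀ᶠ y in 𝓝 x, |y - P 0| < 6 / 5 := by
        have hc : Continuous fun y : ℝ => |y - P 0| := by fun_prop
        exact hc.continuousAt.eventually_lt continuousAt_const hx
      filter_upwards [hopen] with y hy
      exact (hφ y hy).2
  have hI : ∀ p ∈ Icc (P 0 - 1) (P 0 - 1 + 2), |p - P 0| < 6 / 5 := by
    intro p hp
    rw [abs_lt]; constructor <;> linarith [hp.1, hp.2]
  have key := Mirror.mirror_broken (k := k) (C1 := 7 * E) (ε := ε) (α := P 0 - 1) (r := r)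
    (η := fun x => Q (φ x) - ε * x - 1 / 2 - M)
    (e1 := fun x => Q1 (φ x) * (P1 (φ x))⁻¹ - ε)
    (e2 := fun x => (Q2 (φ x) * (P1 (φ x))⁻¹) * (P1 (φ x))⁻¹ +
      Q1 (φ x) * (-(P2 (φ x) * (P1 (φ x))⁻¹) / (P1 (φ x)) ^ 2))
    (P0 := fun x => P0 (φ x)) (Q0 := fun x => Q0 (φ x)) (Q := fun x => Q (φ x)) (m := M)
    (by linarith) hr hk hε
    (by
      intro p hp
      have h1 := (dQ _ (hφ2 p (hI p hp))).comp p (hφd p (hI p hp))
      have h2 := (((h1.sub ((hasDerivAt_id p).const_mul ε)).sub_const (1 / 2)).sub_const (M : ℝ))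
      simpa using h2)
    (by
      intro p hp
      have hne : P1 (φ p) ≠ 0 := by
        have := abs_le.mp ((bP1 _ (hφ2 p (hI p hp))).trans hEk)
        intro h0
        rw [h0] at this
        linarith [this.1]
      have h1 := (dQ1 _ (hφ2 p (hI p hp))).comp p (hφd p (hI p hp))
      have h2 := (dP1 _ (hφ2 p (hI p hp))).comp p (hφd p (hI p hp))
      have h3 := (h1.mul (h2.inv hne)).sub_const ε
      exact h3)
    (by
      intro p hp
      have hb1 := (bP1 _ (hφ2 p (hI p hp))).trans hEk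
      have hb2 := bP2 _ (hφ2 p (hI p hp))
      have hb3 := bQ1 _ (hφ2 p (hI p hp))
      have hb4 := bQ2 _ (hφ2 p (hI p hp))
      have ha := abs_le.mp hb1
      have hlow : 99 / 100 ≤ P1 (φ p) := by linarith [ha.1]
      have hinv : |(P1 (φ p))⁻¹| ≤ 100 / 99 := by
        rw [abs_inv, abs_of_pos (by linarith)]
        rw [inv_le_comm₀ (by linarith) (by norm_num)]
        norm_num; linarith
      have hinv0 := abs_nonneg (P1 (φ p))⁻¹
      have hek0 : 0 ≤ E / k := by positivity
      have t1 : |Q2 (φ p) * (P1 (φ p))⁻¹ * (P1 (φ p))⁻¹| ≤ E / k * (100 / 99) * (100 / 99) := by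
        rw [abs_mul, abs_mul]
        exact mul_le_mul (mul_le_mul hb4 hinv hinv0 hek0) hinv hinv0 (by positivity)
      have t2 : |Q1 (φ p) * (-(P2 (φ p) * (P1 (φ p))⁻¹) / (P1 (φ p)) ^ 2)| ≤
          5 * (E / k * (100 / 99) * ((100 / 99) * (100 / 99))) := by
        have e : -(P2 (φ p) * (P1 (φ p))⁻¹) / (P1 (φ p)) ^ 2 =
            -(P2 (φ p) * (P1 (φ p))⁻¹ * ((P1 (φ p))⁻¹ * (P1 (φ p))⁻¹)) := by
          field_simp
        rw [e, abs_mul, abs_neg, abs_mul, abs_mul, abs_mul]
        refine mul_le_mul hb3 ?_ (by positivity) (by norm_num)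
        exact mul_le_mul (mul_le_mul hb2 hinv hinv0 hek0) (mul_le_mul hinv hinv hinv0 (by norm_num))
          (by positivity) (by positivity)
      refine (abs_add_le _ _).trans ((add_le_add t1 t2).trans ?_)
      have : 7 * E / k = 7 * (E / k) := by ring
      rw [this]
      nlinarith)
    (by
      intro p hp
      have := hmir _ (hφ2 p (hI p hp))
      rw [(hφ p (hI p hp)).2] at this
      refine this.trans (hδ.trans ?_)
      linarith)
    (by intro p hp; ring)
    (by
      intro x hx y hy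
      refine (lP0 _ _ (hφ2 y (hI y hy)) (hφ2 x (hI x hx))).trans ?_
      have := hφlip y x (hI y hy) (hI x hx)
      linarith)
    (by
      intro x hx y hy
      refine (lQ0 _ _ (hφ2 y (hI y hy)) (hφ2 x (hI x hx))).trans ?_
      have := hφlip y x (hI y hy) (hI x hx)
      linarith)
  -- the set of good `x`
  set T : Set ℝ := {u : ℝ | |u| ≤ 3 / 2 ∧
      r / 64 ≤ |Real.cos (2 * π * P u)| ∧ r / 64 ≤ |Real.cos (2 * π * Q u)| ∧
      ∀ j : ℤ,
        r / 200 < |(2 * Q u + k * Real.sin (2 * π * Q u) - Q0 u) +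
          (2 * P u + k * Real.sin (2 * π * P u) - P0 u) - j / 2| ∧
        r / 200 < |(2 * Q u + k * Real.sin (2 * π * Q u) - Q0 u) -
          (2 * P u + k * Real.sin (2 * π * P u) - P0 u) - j / 2|} with hT
  set Bx : Set ℝ := {p : ℝ | p ∈ Icc (P 0 - 1) (P 0 - 1 + 2) ∧ ∃ n : ℤ,
        |((2 * Q (φ p) + k * sin (2 * π * Q (φ p)) - Q0 (φ p)) +
          (2 * p + k * sin (2 * π * p) - P0 (φ p))) - n / 2| ≤ r / 200
          ∨ |((2 * Q (φ p) + k * sin (2 * π * Q (φ p)) - Q0 (φ p)) -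
            (2 * p + k * sin (2 * π * p) - P0 (φ p))) - n / 2| ≤ r / 200} with hBx
  set Cx : Set ℝ := {y : ℝ | y ∈ Icc (P 0 - 1) (P 0 - 1 + 2) ∧
    |Real.cos (2 * π * (0 + 1 * y))| < r / 32} with hCx
  have hCv : volume Cx ≤ ENNReal.ofReal (3 * (r / 32)) := by
    refine (vol_cos (x0 := 0) (lam := 1) (a := P 0 - 1) (b := P 0 - 1 + 2) (kap := r / 32)
      one_ne_zero (by linarith) (by positivity)).trans (ENNReal.ofReal_le_ofReal ?_)
    norm_num
  have hcov : Icc (P 0 - 1) (P 0 - 1 + 2) ⊆ Bx ∪ Cx ∪ P '' T := by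
    intro x hx
    by_cases h1 : x ∈ Bx
    · exact Or.inl (Or.inl h1)
    by_cases h2 : x ∈ Cx
    · exact Or.inl (Or.inr h2)
    right
    have hPx := (hφ x (hI x hx)).2
    refine ⟨φ x, ?_, hPx⟩
    have h2' : r / 32 ≤ |Real.cos (2 * π * x)| := by
      by_contra hcon
      push Not at hcon
      apply h2
      refine ⟨hx, ?_⟩
      simpa using hcon
    have h1' : ∀ j : ℤ, r / 200 < |((2 * Q (φ x) + k * sin (2 * π * Q (φ x)) - Q0 (φ x)) +
          (2 * x + k * sin (2 * π * x) - P0 (φ x))) - j / 2| ∧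
          r / 200 < |((2 * Q (φ x) + k * sin (2 * π * Q (φ x)) - Q0 (φ x)) -
            (2 * x + k * sin (2 * π * x) - P0 (φ x))) - j / 2| := by
      intro j
      by_contra hcon
      apply h1
      refine ⟨hx, j, ?_⟩
      rw [not_and_or, not_lt, not_lt] at hcon
      exact hcon
    refine ⟨(hφ x (hI x hx)).1, ?_, ?_, ?_⟩
    · rw [hPx]; linarith
    · have hm := hmir _ (hφ2 x (hI x hx))
      rw [hPx] at hm
      have e1 : |Real.cos (2 * π * (ε * x + 1 / 2 + M))| = |Real.cos (2 * π * x)| := by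
        have e : 2 * π * (ε * x + 1 / 2 + M) = (ε * (2 * π * x) + π) + M * (2 * π) := by ring
        rw [e, Real.cos_add_int_mul_two_pi, Real.cos_add_pi, abs_neg]
        rcases hε with h | h
        · rw [h, one_mul]
        · rw [h, neg_one_mul, Real.cos_neg]
      have e2 : |Real.cos (2 * π * Q (φ x)) - Real.cos (2 * π * (ε * x + 1 / 2 + M))| ≤
          2 * π * δ := by
        refine (Real.abs_cos_sub_cos_le _ _).trans ?_
        have e3 : 2 * π * Q (φ x) - 2 * π * (ε * x + 1 / 2 + M) =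
            2 * π * (Q (φ x) - ε * x - 1 / 2 - M) := by ring
        rw [e3, abs_mul, abs_of_pos (by positivity : (0:ℝ) < 2 * π)]
        exact mul_le_mul_of_nonneg_left hm (by positivity)
      have e4 : |Real.cos (2 * π * (ε * x + 1 / 2 + M))| - |Real.cos (2 * π * Q (φ x))| ≤
          2 * π * δ := by
        refine (abs_sub_abs_le_abs_sub _ _).trans ?_
        rw [abs_sub_comm]; exact e2
      rw [e1] at e4
      have e5 : 2 * π * δ ≤ r / 64 := by
        have : 2 * π * δ ≤ 2 * π * (r / 1000) := mul_le_mul_of_nonneg_left hδ (by positivity)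
        nlinarith
      linarith
    · intro j
      rw [hPx]
      exact h1' j
  have hvI : volume (Icc (P 0 - 1) (P 0 - 1 + 2)) = ENNReal.ofReal 2 := by
    rw [Real.volume_Icc]; congr 1; ring
  have himg : volume (P '' T) ≤ 2 * volume T := by
    apply vol_image_le
    intro x hx y hy
    have h1 := slope y x (by have := hy.1; linarith) (by have := hx.1; linarith)
    have h2 : |P x - P y| - |x - y| ≤ |(P x - P y) - (x - y)| := abs_sub_abs_le_abs_sub _ _
    linarith [abs_nonneg (x - y)]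
  have hsum : ENNReal.ofReal 2 ≤ ENNReal.ofReal (2 - 3 / 8 * r) + ENNReal.ofReal (3 * (r / 32)) +
      2 * volume T := by
    rw [← hvI]
    refine (measure_mono hcov).trans ((measure_union_le _ _).trans ?_)
    exact add_le_add ((measure_union_le _ _).trans (add_le_add key hCv)) himg
  by_contra hcon
  push Not at hcon
  have h2T : 2 * volume T ≤ ENNReal.ofReal (r / 5) := by
    have : (2 : ENNReal) = ENNReal.ofReal 2 := by norm_num
    rw [this]
    refine (mul_le_mul_right hcon.le _).trans ?_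
    rw [← ENNReal.ofReal_mul (by norm_num)]
    exact ENNReal.ofReal_le_ofReal (by linarith)
  have h3 := hsum.trans (add_le_add_right h2T _)
  rw [← ENNReal.ofReal_add (by linarith) (by positivity), ← ENNReal.ofReal_add (by linarith)
    (by positivity), ENNReal.ofReal_le_ofReal_iff (by linarith)] at h3
  linarith

end Crest.Agent.R128.RABroken
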