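import Crest.Agent.R128.LocDef

/-!
# Row 128, V5-RA: reality and one-step formulas of the objects of `LocDef` (helper686)
-/

set_option autoImplicit false

open MeasureTheory Metric Set
open Crest.Agent.R128 Crest.Agent.R128.Cell Crest.Agent.R128.CellB Crest.Agent.R128.CellDy
open Crest.Agent.R128.Loc

namespace Crest.Agent.R128.RealL

/-- sign of the side -/
noncomputable def es (s : Bool) : ℝ := if s then 1 else -1

theorem abs_es (s : Bool) : |es s| = 1 := by cases s <;> simp [es]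

theorem es_not (s : Bool) : es (!s) = - es s := by cases s <;> simp [es]

theorem es_sq (s : Bool) : es s * es s = 1 := by cases s <;> simp [es]

theorem hasDerivAt_Y (k c : ℝ) (s : Bool) (n : ℕ) (z : ℂ) :
    HasDerivAt (Y k c s n) ((es s : ℂ) * D k c s n z) z := by
  cases s
  · have := hasDerivAt_Y_false k c n z
    simpa [es] using this
  · have := hasDerivAt_Y_true k c n z
    simpa [es] using this

theorem Y_im (k c : ℝ) (s : Bool) (n : ℕ) (t : ℝ) : (Y k c s n (t : ℂ)).im = 0 := by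
  unfold Y sdC
  cases s
  · have := im_y_ofReal k c n (kap k c - t)
    simpa using this
  · have := im_y_ofReal k c n t
    simpa using this

theorem real_of_im {w : ℂ} (h : w.im = 0) : w = ((w.re : ℝ) : ℂ) := by
  apply Complex.ext
  · simp
  · simp [h]

theorem Y_real (k c : ℝ) (s : Bool) (n : ℕ) (t : ℝ) :
    Y k c s n (t : ℂ) = (((Y k c s n (t : ℂ)).re : ℝ) : ℂ) := real_of_im (Y_im k c s n t)

theorem dg_real (k c : ℝ) (s : Bool) (n : ℕ) (t : ℝ) :
    dg k c s (t : ℂ) n =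
      ((2 + 2 * Real.pi * k * Real.cos (2 * Real.pi * (Y k c s n (t : ℂ)).re) : ℝ) : ℂ) := by
  unfold dg cV
  rw [Y_real]
  push_cast
  simp

theorem dg_im (k c : ℝ) (s : Bool) (n : ℕ) (t : ℝ) : (dg k c s (t : ℂ) n).im = 0 := by
  rw [dg_real]; exact Complex.ofReal_im _

theorem D_add_two (k c : ℝ) (s : Bool) (n : ℕ) (z : ℂ) :
    D k c s (n + 2) z = dg k c s z (n + 1) * D k c s (n + 1) z - D k c s n z := by
  rw [← Q_dg, ← Q_dg, ← Q_dg, Align.Q_add_two]

theorem Q_im {a : ℕ → ℂ} (ha : ∀ n, (a n).im = 0) (n : ℕ) : (Align.Q a n).im = 0 := by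
  induction n using Nat.strong_induction_on with
  | _ n ih =>
    match n with
    | 0 => simp
    | 1 => simp
    | n + 2 =>
      rw [Align.Q_add_two, Complex.sub_im, Complex.mul_im, ih (n + 1) (by omega), ih n (by omega),
        ha]
      simp

theorem D_im (k c : ℝ) (s : Bool) (n : ℕ) (t : ℝ) : (D k c s n (t : ℂ)).im = 0 := by
  rw [← Q_dg]
  exact Q_im (fun n => dg_im k c s n t) n

theorem D_real (k c : ℝ) (s : Bool) (n : ℕ) (t : ℝ) :
    D k c s n (t : ℂ) = (((D k c s n (t : ℂ)).re : ℝ) : ℂ) := real_of_im (D_im k c s n t)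

theorem abs_D_re (k c : ℝ) (s : Bool) (n : ℕ) (t : ℝ) :
    |(D k c s n (t : ℂ)).re| = ‖D k c s n (t : ℂ)‖ := by
  rw [D_real, Complex.norm_real, Real.norm_eq_abs, Complex.ofReal_re]

theorem mu_im (k c : ℝ) (s : Bool) (n : ℕ) (t : ℝ) : (mu k c s n (t : ℂ)).im = 0 := by
  unfold mu Align.mu
  have hQ := Q_im (fun n => dg_im k c s n t) n
  have hP : ∀ m, (Align.P (dg k c s (t : ℂ)) m).im = 0 := by
    intro m
    induction m using Nat.strong_induction_on with
    | _ m ih =>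
      match m with
      | 0 => simp
      | 1 => simp
      | m + 2 =>
        rw [Align.P_add_two, Complex.sub_im, Complex.mul_im, ih (m + 1) (by omega),
          ih m (by omega), dg_im]
        simp
  rw [real_of_im hQ, real_of_im (hP n)]
  simp

theorem cV_im (k x : ℝ) : (cV k (x : ℂ)).im = 0 := by
  have : cV k (x : ℂ) = ((2 + 2 * Real.pi * k * Real.cos (2 * Real.pi * x) : ℝ) : ℂ) := by
    unfold cV; push_cast; simp
  rw [this]; exact Complex.ofReal_im _

theorem cont_im (k c : ℝ) (s : Bool) (n n' : ℕ) (t : ℝ) :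
    (cont k c s n n' (t : ℂ)).im = 0 := by
  unfold cont
  rw [Complex.sub_im, Complex.sub_im, mu_im, mu_im, cV_im]; simp

theorem cont_real (k c : ℝ) (s : Bool) (n n' : ℕ) (t : ℝ) :
    cont k c s n n' (t : ℂ) = (((cont k c s n n' (t : ℂ)).re : ℝ) : ℂ) :=
  real_of_im (cont_im k c s n n' t)

theorem abs_cont_re (k c : ℝ) (s : Bool) (n n' : ℕ) (t : ℝ) :
    |(cont k c s n n' (t : ℂ)).re| = ‖cont k c s n n' (t : ℂ)‖ := by
  rw [cont_real, Complex.norm_real, Real.norm_eq_abs, Complex.ofReal_re]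

theorem mu_succ (k c : ℝ) (s : Bool) (n : ℕ) (z : ℂ) (h0 : D k c s n z ≠ 0)
    (h1 : D k c s (n + 1) z ≠ 0) :
    mu k c s (n + 1) z = mu k c s n z + 1 / (D k c s n z * D k c s (n + 1) z) := by
  have := Align.mu_succ_sub (a := dg k c s z) (n := n) (by rwa [Q_dg]) (by rwa [Q_dg])
  rw [Q_dg, Q_dg] at this
  unfold mu
  rw [← this]; ring

theorem cont_succ (k c : ℝ) (s : Bool) (n n' : ℕ) (z : ℂ) (h0 : D k c s n z ≠ 0)
    (h1 : D k c s (n + 1) z ≠ 0) (h0' : D k c (!s) n' z ≠ 0)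
    (h1' : D k c (!s) (n' + 1) z ≠ 0) :
    cont k c s (n + 1) (n' + 1) z = cont k c s n n' z - 1 / (D k c s n z * D k c s (n + 1) z)
      - 1 / (D k c (!s) n' z * D k c (!s) (n' + 1) z) := by
  unfold cont
  rw [mu_succ k c s n z h0 h1, mu_succ k c (!s) n' z h0' h1']
  ring

/-- real parts of the one-step formula, at real points -/
theorem cont_succ_re (k c : ℝ) (s : Bool) (n n' : ℕ) (t : ℝ) (h0 : D k c s n (t : ℂ) ≠ 0)
    (h1 : D k c s (n + 1) (t : ℂ) ≠ 0) (h0' : D k c (!s) n' (t : ℂ) ≠ 0)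
    (h1' : D k c (!s) (n' + 1) (t : ℂ) ≠ 0) :
    (cont k c s (n + 1) (n' + 1) (t : ℂ)).re = (cont k c s n n' (t : ℂ)).re
      - 1 / ((D k c s n (t : ℂ)).re * (D k c s (n + 1) (t : ℂ)).re)
      - 1 / ((D k c (!s) n' (t : ℂ)).re * (D k c (!s) (n' + 1) (t : ℂ)).re) := by
  rw [cont_succ k c s n n' _ h0 h1 h0' h1', D_real k c s n t, D_real k c s (n + 1) t,
    D_real k c (!s) n' t, D_real k c (!s) (n' + 1) t, cont_real k c s n n' t]
  simp only [← Complex.ofReal_mul, ← Complex.ofReal_one, ← Complex.ofReal_div,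
    ← Complex.ofReal_sub, Complex.ofReal_re]

theorem D_add_two_re (k c : ℝ) (s : Bool) (n : ℕ) (t : ℝ) :
    (D k c s (n + 2) (t : ℂ)).re =
      (2 + 2 * Real.pi * k * Real.cos (2 * Real.pi * (Y k c s (n + 1) (t : ℂ)).re)) *
        (D k c s (n + 1) (t : ℂ)).re - (D k c s n (t : ℂ)).re := by
  rw [D_add_two, dg_real, D_real k c s (n + 1) t, D_real k c s n t]
  simp only [← Complex.ofReal_mul, ← Complex.ofReal_sub, Complex.ofReal_re]

/-- real derivative of the real orbit coordinate -/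
theorem hasDerivAt_Y_re (k c : ℝ) (s : Bool) (n : ℕ) (t : ℝ) :
    HasDerivAt (fun t : ℝ => (Y k c s n (t : ℂ)).re) (es s * (D k c s n (t : ℂ)).re) t := by
  have h := (hasDerivAt_Y k c s n (t : ℂ)).real_of_complex
  have e : ((es s : ℂ) * D k c s n (t : ℂ)).re = es s * (D k c s n (t : ℂ)).re := by
    simp [Complex.mul_re]
  rwa [e] at h

end Crest.Agent.R128.RealL
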