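import Mathlib
import Crest.Agent.R128.LocDef
import Crest.Agent.R128.RealL
import Crest.Agent.R128.RABroken0

/-!
Row 128, node RA-BROKEN (helper123): `Cell3` + first level mirrored => on a set of measure
`≥ c0 / R` the digits are not critical and the second level is not mirrored.
-/

set_option autoImplicit false

namespace Crest.Agent.R128.RABroken

open MeasureTheory Real Set Metric Filter Topology
open Crest.Agent.R128 Crest.Agent.R128.Cell Crest.Agent.R128.CellB Crest.Agent.R128.CellDy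
open Crest.Agent.R128.Loc Crest.Agent.R128.RealL

theorem differentiable_D (k c : ℝ) (s : Bool) (n : ℕ) : Differentiable ℂ (D k c s n) := by
  have hY : Differentiable ℂ (Y k c s n) := fun z => (hasDerivAt_Y k c s n z).differentiableAt
  have h1 : DifferentiableOn ℂ (deriv (Y k c s n)) univ := hY.differentiableOn.deriv isOpen_univ
  have h2 : Differentiable ℂ (deriv (Y k c s n)) := differentiableOn_univ.1 h1
  have e : D k c s n = fun z => (es s : ℂ) * deriv (Y k c s n) z := by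
    funext z
    rw [(hasDerivAt_Y k c s n z).deriv, ← mul_assoc, ← Complex.ofReal_mul, es_sq]
    simp
  rw [e]
  exact h2.const_mul _

theorem derivD_bound {k c m R B : ℝ} {s : Bool} {n : ℕ} {μ : ℂ} (hR : 0 < R)
    (h : ∀ z ∈ ball (m : ℂ) (4 / R), ‖D k c s n z - μ‖ ≤ B) {t : ℝ} (ht : |t - m| ≤ 2 / R) :
    ‖deriv (D k c s n) (t : ℂ)‖ ≤ B * R := by
  have e : deriv (D k c s n) (t : ℂ) = deriv (fun z => D k c s n z - μ) (t : ℂ) := by
    rw [deriv_sub_const]
  rw [e]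
  have := Complex.norm_deriv_le_of_forall_mem_sphere_norm_le (c := (t : ℂ)) (R := 1 / R)
    (C := B) (f := fun z => D k c s n z - μ) (by positivity)
    (((differentiable_D k c s n).sub_const μ).diffContOnCl)
    (by
      intro z hz
      apply h
      rw [mem_sphere, dist_eq_norm] at hz
      rw [mem_ball, dist_eq_norm]
      have h1 : ‖(t : ℂ) - (m : ℂ)‖ ≤ 2 / R := by
        rw [← Complex.ofReal_sub, Complex.norm_real, Real.norm_eq_abs]; exact ht
      calc ‖z - (m : ℂ)‖ = ‖(z - t) + (t - m)‖ := by ring_nf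
        _ ≤ ‖z - t‖ + ‖(t : ℂ) - m‖ := norm_add_le _ _
        _ ≤ 1 / R + 2 / R := add_le_add hz.le h1
        _ < 4 / R := by
            rw [← add_div]; exact div_lt_div_of_pos_right (by norm_num) hR)
  refine this.trans (le_of_eq ?_)
  field_simp

theorem Y_add_two_re (k c : ℝ) (s : Bool) (n : ℕ) (t : ℝ) :
    (Y k c s (n + 2) (t : ℂ)).re = 2 * (Y k c s (n + 1) (t : ℂ)).re +
      k * Real.sin (2 * π * (Y k c s (n + 1) (t : ℂ)).re) - (Y k c s n (t : ℂ)).re := by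
  have e : Y k c s (n + 2) (t : ℂ) = 2 * Y k c s (n + 1) (t : ℂ) +
      k * Complex.sin (2 * Real.pi * Y k c s (n + 1) (t : ℂ)) - Y k c s n (t : ℂ) := by
    unfold Y; rw [y_add_two]
  have e2 : Y k c s (n + 2) (t : ℂ) = ((2 * (Y k c s (n + 1) (t : ℂ)).re +
      k * Real.sin (2 * π * (Y k c s (n + 1) (t : ℂ)).re) - (Y k c s n (t : ℂ)).re : ℝ) : ℂ) := by
    rw [e]
    push_cast
    rw [← Y_real k c s (n + 1) t, ← Y_real k c s n t]
  rw [e2, Complex.ofReal_re]

theorem lip_aux {f f' : ℝ → ℝ} {b : ℝ} (hf : ∀ u, |u| < 2 → HasDerivAt f (f' u) u)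
    (hb : ∀ u, |u| < 2 → |f' u| ≤ b) :
    ∀ u v, |u| < 2 → |v| < 2 → |f u - f v| ≤ b * |u - v| := by
  intro u v hu hv
  have := (convex_Ioo (-2 : ℝ) 2).norm_image_sub_le_of_norm_hasDerivWithin_le (f := f) (f' := f')
    (C := b) (x := v) (y := u)
    (fun x hx => (hf x (abs_lt.mpr hx)).hasDerivWithinAt)
    (fun x hx => by rw [Real.norm_eq_abs]; exact hb x (abs_lt.mpr hx))
    (abs_lt.mp hv) (abs_lt.mp hu)
  simpa [Real.norm_eq_abs] using this

/-- all smaller `del` allowed -/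
theorem broken' {C1 : ℝ} (hC1 : 1 ≤ C1) : ∃ del r kap' c0 : ℝ, 0 < del ∧ del ≤ 1 / 10 ^ 4 ∧ 0 < r ∧
    0 < kap' ∧ kap' ≤ 1 ∧ 0 < c0 ∧ ∃ k1 : ℝ, ∀ k : ℝ, k1 ≤ k →
    ∀ (c : ℝ) (s : Bool) (n n' : ℕ) (m R lam q0 q1 q2 : ℝ), |lam| ≤ 4 →
      Cell3 k c s n n' m R lam C1 q0 q1 q2 →
      ∀ (ε : ℝ) (M : ℤ), (ε = 1 ∨ ε = -1) → ∀ del' : ℝ, del' ≤ 3 * del →
      (∀ t : ℝ, |t - m| ≤ 2 / R →
        |(Y k c (!s) (n' + 1) (t : ℂ)).re - ε * (Y k c s (n + 1) (t : ℂ)).re - 1 / 2 - M| ≤ del') →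
      ENNReal.ofReal (c0 / R) ≤ volume {t : ℝ | |t - m| ≤ 3 / 2 / R ∧
        kap' ≤ |Real.cos (2 * π * (Y k c s (n + 1) (t : ℂ)).re)| ∧
        kap' ≤ |Real.cos (2 * π * (Y k c (!s) (n' + 1) (t : ℂ)).re)| ∧
        ∀ j : ℤ, r < |(Y k c (!s) (n' + 2) (t : ℂ)).re + (Y k c s (n + 2) (t : ℂ)).re - j / 2| ∧
          r < |(Y k c (!s) (n' + 2) (t : ℂ)).re - (Y k c s (n + 2) (t : ℂ)).re - j / 2|} := by
  obtain ⟨E, hE⟩ : ∃ E : ℝ, E = 16 * C1 := ⟨_, rfl⟩
  obtain ⟨r, hr⟩ : ∃ r : ℝ, r = 1 / (16000 * (7 * E)) := ⟨_, rfl⟩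
  have hE1 : 16 ≤ E := by rw [hE]; linarith
  have hr0 : 0 < r := by rw [hr]; positivity
  have hr1 : r ≤ 1 / 1000000 := by
    rw [hr]
    apply one_div_le_one_div_of_le (by norm_num)
    nlinarith
  refine ⟨r / 3000, r / 200, r / 64, r / 10, by positivity, by norm_num; linarith, by positivity,
    by positivity, by linarith, by positivity, 10 ^ 11 * (7 * E) ^ 2, ?_⟩
  intro k hk c s n n' m R lam q0 q1 q2 hlam hC ε M hε del' hdel' hmir
  have hR : 0 < R := lt_of_lt_of_le one_pos hC.hR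
  have hk0 : 0 < k := lt_of_lt_of_le (by positivity) hk
  have hEk : E / k ≤ 1 / 100 := by
    rw [div_le_div_iff₀ hk0 (by norm_num)]
    nlinarith
  have hC1k : C1 / k ≤ E / k := by
    apply div_le_div_of_nonneg_right _ hk0.le
    rw [hE]; linarith
  obtain ⟨σ, hσ, hslow⟩ := hC.slow
  have hσ2 : σ * σ = 1 := by rcases hσ with h | h <;> rw [h] <;> norm_num
  have hσa : |σ| = 1 := by rcases hσ with h | h <;> rw [h] <;> norm_num
  obtain ⟨τ, hτ⟩ : ∃ τ : ℝ, τ = es s * σ := ⟨_, rfl⟩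
  have hτa : |τ| = 1 := by rw [hτ, abs_mul, abs_es, hσa, one_mul]
  have hlam2 : |lam| ^ 2 ≤ 16 := by nlinarith [abs_nonneg lam]
  -- the affine change of variable
  obtain ⟨tt, htt⟩ : ∃ tt : ℝ → ℝ, tt = fun u => m + τ / R * u := ⟨_, rfl⟩
  have htd : ∀ u, HasDerivAt tt (τ / R) u := by
    intro u
    rw [htt]
    simpa using ((hasDerivAt_id u).const_mul (τ / R)).const_add m
  have htm : ∀ u, |tt u - m| = |u| / R := by
    intro u
    rw [htt]
    have e : m + τ / R * u - m = τ * u / R := by ring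
    simp only
    rw [e, abs_div, abs_mul, hτa, one_mul, abs_of_pos hR]
  have htm2 : ∀ u, |u| < 2 → |tt u - m| ≤ 2 / R := by
    intro u hu
    rw [htm]
    exact div_le_div_of_nonneg_right hu.le hR.le
  have hmem : ∀ u, |u| < 2 → ((tt u : ℝ) : ℂ) ∈ ball (m : ℂ) (4 / R) := by
    intro u hu
    rw [mem_ball, dist_eq_norm, ← Complex.ofReal_sub, Complex.norm_real, Real.norm_eq_abs]
    exact (htm2 u hu).trans_lt (div_lt_div_of_pos_right (by norm_num) hR)
  -- derivatives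
  have dY : ∀ (b : Bool) (i : ℕ) (u : ℝ), HasDerivAt (fun u => (Y k c b i ((tt u : ℝ) : ℂ)).re)
      (es b * (D k c b i ((tt u : ℝ) : ℂ)).re * (τ / R)) u := by
    intro b i u
    exact (hasDerivAt_Y_re k c b i (tt u)).comp u (htd u)
  have dD : ∀ (b : Bool) (i : ℕ) (u : ℝ), HasDerivAt
      (fun u => es b * (D k c b i ((tt u : ℝ) : ℂ)).re * (τ / R))
      (es b * ((deriv (D k c b i) ((tt u : ℝ) : ℂ)).re * (τ / R)) * (τ / R)) u := by
    intro b i u
    have h1 : HasDerivAt (fun x : ℝ => (D k c b i (x : ℂ)).re)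
        (deriv (D k c b i) ((tt u : ℝ) : ℂ)).re (tt u) :=
      ((differentiable_D k c b i) _).hasDerivAt.real_of_complex
    exact ((h1.comp u (htd u)).const_mul (es b)).mul_const (τ / R)
  have hτR : |τ / R| = 1 / R := by rw [abs_div, hτa, abs_of_pos hR]
  have key := abstract_broken (k := k) (E := E) (ε := ε) (δ := del') (r := r) (M := M)
    (P := fun u => (Y k c s (n + 1) ((tt u : ℝ) : ℂ)).re)
    (P1 := fun u => es s * (D k c s (n + 1) ((tt u : ℝ) : ℂ)).re * (τ / R))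
    (P2 := fun u => es s * ((deriv (D k c s (n + 1)) ((tt u : ℝ) : ℂ)).re * (τ / R)) * (τ / R))
    (Q := fun u => (Y k c (!s) (n' + 1) ((tt u : ℝ) : ℂ)).re)
    (Q1 := fun u => es (!s) * (D k c (!s) (n' + 1) ((tt u : ℝ) : ℂ)).re * (τ / R))
    (Q2 := fun u => es (!s) * ((deriv (D k c (!s) (n' + 1)) ((tt u : ℝ) : ℂ)).re * (τ / R)) *
      (τ / R))
    (P0 := fun u => (Y k c s n ((tt u : ℝ) : ℂ)).re)
    (Q0 := fun u => (Y k c (!s) n' ((tt u : ℝ) : ℂ)).re)
    (by linarith) hr hk hε (by linarith)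
    (fun u _ => dY s (n + 1) u) (fun u _ => dD s (n + 1) u)
    (fun u _ => dY (!s) (n' + 1) u) (fun u _ => dD (!s) (n' + 1) u)
    (by
      intro u hu
      have h1 := hslow _ (hmem u hu)
      have h2 := (Complex.abs_re_le_norm _).trans h1
      rw [Complex.sub_re, Complex.ofReal_re] at h2
      have e : es s * (D k c s (n + 1) ((tt u : ℝ) : ℂ)).re * (τ / R) - 1 =
          σ * ((D k c s (n + 1) ((tt u : ℝ) : ℂ)).re - σ * R) / R := by
        have e1 : es s * (D k c s (n + 1) ((tt u : ℝ) : ℂ)).re * (τ / R) =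
            (es s * es s) * σ * (D k c s (n + 1) ((tt u : ℝ) : ℂ)).re / R := by
          rw [hτ]; ring
        rw [e1, es_sq]
        have e2 : σ * ((D k c s (n + 1) ((tt u : ℝ) : ℂ)).re - σ * R) =
            σ * (D k c s (n + 1) ((tt u : ℝ) : ℂ)).re - (σ * σ) * R := by ring
        rw [e2, hσ2]
        field_simp
      rw [e, abs_div, abs_mul, hσa, one_mul, abs_of_pos hR, div_le_iff₀ hR]
      refine h2.trans ?_
      have : C1 * R / k = C1 / k * R := by ring
      rw [this]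
      exact mul_le_mul_of_nonneg_right hC1k hR.le)
    (by
      intro u hu
      have h1 := derivD_bound hR hslow (htm2 u hu)
      have h2 := (Complex.abs_re_le_norm _).trans h1
      rw [abs_mul, abs_mul, abs_mul, abs_es, one_mul, hτR]
      have h3 : |(deriv (D k c s (n + 1)) ((tt u : ℝ) : ℂ)).re| * (1 / R) * (1 / R) ≤
          C1 * R / k * R * (1 / R) * (1 / R) := by
        gcongr
      refine h3.trans ?_
      have : C1 * R / k * R * (1 / R) * (1 / R) = C1 / k := by field_simp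
      rw [this]
      exact hC1k)
    (by
      intro u hu
      have h1 := hC.fast _ (hmem u hu)
      have h2 := (Complex.abs_re_le_norm _).trans h1
      rw [Complex.sub_re, Complex.ofReal_re] at h2
      rw [abs_mul, abs_mul, abs_es, one_mul, hτR]
      have h3 : |(D k c (!s) (n' + 1) ((tt u : ℝ) : ℂ)).re| ≤ |lam * R| + C1 * |lam| ^ 2 * R / k := by
        have := abs_sub_abs_le_abs_sub (D k c (!s) (n' + 1) ((tt u : ℝ) : ℂ)).re (lam * R)
        linarith
      rw [abs_mul, abs_of_pos hR] at h3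
      have h4 : C1 * |lam| ^ 2 * R / k ≤ R := by
        have e : C1 * |lam| ^ 2 * R / k = (C1 * |lam| ^ 2 / k) * R := by ring
        rw [e]
        have h5 : C1 * |lam| ^ 2 / k ≤ 1 := by
          have : C1 * |lam| ^ 2 ≤ E := by rw [hE]; nlinarith
          have h6 : C1 * |lam| ^ 2 / k ≤ E / k := div_le_div_of_nonneg_right this hk0.le
          linarith
        nlinarith
      calc |(D k c (!s) (n' + 1) ((tt u : ℝ) : ℂ)).re| * (1 / R) ≤ (|lam| * R + R) * (1 / R) := by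
            apply mul_le_mul_of_nonneg_right _ (by positivity)
            linarith
        _ = |lam| + 1 := by field_simp
        _ ≤ 5 := by linarith)
    (by
      intro u hu
      have h1 := derivD_bound hR hC.fast (htm2 u hu)
      have h2 := (Complex.abs_re_le_norm _).trans h1
      rw [abs_mul, abs_mul, abs_mul, abs_es, one_mul, hτR]
      have h3 : |(deriv (D k c (!s) (n' + 1)) ((tt u : ℝ) : ℂ)).re| * (1 / R) * (1 / R) ≤
          C1 * |lam| ^ 2 * R / k * R * (1 / R) * (1 / R) := by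
        gcongr
      refine h3.trans ?_
      have : C1 * |lam| ^ 2 * R / k * R * (1 / R) * (1 / R) = C1 * |lam| ^ 2 / k := by field_simp
      rw [this]
      apply div_le_div_of_nonneg_right _ hk0.le
      rw [hE]; nlinarith)
    (by
      apply lip_aux (fun u _ => dY s n u)
      intro u hu
      have h1 := (Complex.abs_re_le_norm _).trans (hC.slow0 _ (hmem u hu))
      rw [abs_mul, abs_mul, abs_es, one_mul, hτR]
      calc |(D k c s n ((tt u : ℝ) : ℂ)).re| * (1 / R) ≤ C1 * R / k * (1 / R) := by gcongr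
        _ = C1 / k := by field_simp
        _ ≤ 1 / 8 := by linarith)
    (by
      apply lip_aux (fun u _ => dY (!s) n' u)
      intro u hu
      have h1 := (Complex.abs_re_le_norm _).trans (hC.fast0 _ (hmem u hu))
      rw [abs_mul, abs_mul, abs_es, one_mul, hτR]
      calc |(D k c (!s) n' ((tt u : ℝ) : ℂ)).re| * (1 / R) ≤ C1 * |lam| * R / k * (1 / R) := by
            gcongr
        _ = C1 * |lam| / k := by field_simp
        _ ≤ E / k := by
            apply div_le_div_of_nonneg_right _ hk0.le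
            rw [hE]; nlinarith
        _ ≤ 1 / 8 := by linarith)
    (by
      intro u hu
      exact hmir _ (htm2 u hu))
  set S : Set ℝ := {t : ℝ | |t - m| ≤ 3 / 2 / R ∧
        r / 64 ≤ |Real.cos (2 * π * (Y k c s (n + 1) (t : ℂ)).re)| ∧
        r / 64 ≤ |Real.cos (2 * π * (Y k c (!s) (n' + 1) (t : ℂ)).re)| ∧
        ∀ j : ℤ, r / 200 < |(Y k c (!s) (n' + 2) (t : ℂ)).re + (Y k c s (n + 2) (t : ℂ)).re - j / 2| ∧
          r / 200 < |(Y k c (!s) (n' + 2) (t : ℂ)).re - (Y k c s (n + 2) (t : ℂ)).re - j / 2|}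
    with hS
  have hτ0 : τ / R ≠ 0 := by
    intro h
    rw [h, abs_zero] at hτR
    have : 0 < 1 / R := by positivity
    linarith
  have hpre : volume (tt ⁻¹' S) = ENNReal.ofReal R * volume S := by
    have e : tt ⁻¹' S = (fun u => τ / R * u) ⁻¹' ((fun v => m + v) ⁻¹' S) := by
      rw [htt]; rfl
    rw [e, Real.volume_preimage_mul_left hτ0, measure_preimage_add]
    congr 2
    rw [abs_inv, hτR]; field_simp
  have hsub : volume {u : ℝ | |u| ≤ 3 / 2 ∧
      r / 64 ≤ |Real.cos (2 * π * (Y k c s (n + 1) ((tt u : ℝ) : ℂ)).re)| ∧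
      r / 64 ≤ |Real.cos (2 * π * (Y k c (!s) (n' + 1) ((tt u : ℝ) : ℂ)).re)| ∧
      ∀ j : ℤ,
        r / 200 < |(2 * (Y k c (!s) (n' + 1) ((tt u : ℝ) : ℂ)).re +
            k * Real.sin (2 * π * (Y k c (!s) (n' + 1) ((tt u : ℝ) : ℂ)).re) -
            (Y k c (!s) n' ((tt u : ℝ) : ℂ)).re) +
          (2 * (Y k c s (n + 1) ((tt u : ℝ) : ℂ)).re +
            k * Real.sin (2 * π * (Y k c s (n + 1) ((tt u : ℝ) : ℂ)).re) -
            (Y k c s n ((tt u : ℝ) : ℂ)).re) - j / 2| ∧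
        r / 200 < |(2 * (Y k c (!s) (n' + 1) ((tt u : ℝ) : ℂ)).re +
            k * Real.sin (2 * π * (Y k c (!s) (n' + 1) ((tt u : ℝ) : ℂ)).re) -
            (Y k c (!s) n' ((tt u : ℝ) : ℂ)).re) -
          (2 * (Y k c s (n + 1) ((tt u : ℝ) : ℂ)).re +
            k * Real.sin (2 * π * (Y k c s (n + 1) ((tt u : ℝ) : ℂ)).re) -
            (Y k c s n ((tt u : ℝ) : ℂ)).re) - j / 2|} ≤ volume (tt ⁻¹' S) := by
    apply measure_mono
    rintro u ⟨h1, h2, h3, h4⟩
    refine ⟨?_, h2, h3, ?_⟩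
    · rw [htm]; exact div_le_div_of_nonneg_right h1 hR.le
    · intro j
      rw [Y_add_two_re, Y_add_two_re]
      exact h4 j
  have h5 := key.trans hsub
  rw [hpre] at h5
  have e6 : ENNReal.ofReal (r / 10) = ENNReal.ofReal R * ENNReal.ofReal (r / 10 / R) := by
    rw [← ENNReal.ofReal_mul hR.le]; congr 1; field_simp
  rw [e6] at h5
  have hR0 : ENNReal.ofReal R ≠ 0 := by
    rw [Ne, ENNReal.ofReal_eq_zero]; push Not; exact hR
  exact (ENNReal.mul_le_mul_iff_right hR0 ENNReal.ofReal_ne_top).1 h5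

theorem broken {C1 : ℝ} (hC1 : 1 ≤ C1) : ∃ del r kap' c0 : ℝ, 0 < del ∧ del ≤ 1 / 10 ^ 4 ∧ 0 < r ∧
    0 < kap' ∧ kap' ≤ 1 ∧ 0 < c0 ∧ ∃ k1 : ℝ, ∀ k : ℝ, k1 ≤ k →
    ∀ (c : ℝ) (s : Bool) (n n' : ℕ) (m R lam q0 q1 q2 : ℝ), |lam| ≤ 4 →
      Cell3 k c s n n' m R lam C1 q0 q1 q2 →
      ∀ (ε : ℝ) (M : ℤ), (ε = 1 ∨ ε = -1) →
      (∀ t : ℝ, |t - m| ≤ 2 / R →
        |(Y k c (!s) (n' + 1) (t : ℂ)).re - ε * (Y k c s (n + 1) (t : ℂ)).re - 1 / 2 - M| ≤
          3 * del) →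
      ENNReal.ofReal (c0 / R) ≤ volume {t : ℝ | |t - m| ≤ 3 / 2 / R ∧
        kap' ≤ |Real.cos (2 * π * (Y k c s (n + 1) (t : ℂ)).re)| ∧
        kap' ≤ |Real.cos (2 * π * (Y k c (!s) (n' + 1) (t : ℂ)).re)| ∧
        ∀ j : ℤ, r < |(Y k c (!s) (n' + 2) (t : ℂ)).re + (Y k c s (n + 2) (t : ℂ)).re - j / 2| ∧
          r < |(Y k c (!s) (n' + 2) (t : ℂ)).re - (Y k c s (n + 2) (t : ℂ)).re - j / 2|} := by
  obtain ⟨del, r, kap', c0, h1, h2, h3, h4, h5, h6, k1, H⟩ := broken' hC1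
  exact ⟨del, r, kap', c0, h1, h2, h3, h4, h5, h6, k1,
    fun k hk c s n n' m R lam q0 q1 q2 hl hC ε M hε hm =>
      H k hk c s n n' m R lam q0 q1 q2 hl hC ε M hε (3 * del) le_rfl hm⟩

end Crest.Agent.R128.RABroken
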