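import Crest.Agent.R128.RoughX
import Crest.Agent.R128.Mirror

/-!
# Row 128, node ROUGH (V5), one level, case `4 ≤ |lam|` (helper660)

The digit `Q` of the faster side is only bi-Lipschitz (`|Q'/lam - 1| ≤ 1/100` in integrated form), so
`|lam|` may be as large as `c √k`.  Poles of `sec (P y)` cannot be cancelled by `a sec (Q y)`.
-/

set_option autoImplicit false

namespace Crest.Agent.R128.RoughBigL

open MeasureTheory Real Set
open Crest.Agent.R128.Rough

/-- small cosines of a bi-Lipschitz digit -/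
theorem vol_cos_bilip {Q : ℝ → ℝ} {u v lam kap : ℝ} (huv : u ≤ v) (hlam : 0 < lam) (hk : 0 ≤ kap)
    (hlow : ∀ x ∈ Icc u v, ∀ y ∈ Icc u v, 99 / 100 * lam * |y - x| ≤ |Q y - Q x|)
    (hup : ∀ x ∈ Icc u v, ∀ y ∈ Icc u v, |Q y - Q x| ≤ 101 / 100 * lam * |y - x|) :
    volume {y : ℝ | y ∈ Icc u v ∧ |Real.cos (2 * π * Q y)| < kap} ≤
      ENNReal.ofReal ((4 * (101 / 100 * lam * (v - u) + kap / 4) + 1) *
        (2 * (kap / 4) / (99 / 100 * lam))) := by
  refine le_trans (measure_mono ?_)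
    (Mirror.eq_count (f := fun y => Q y - 1 / 4) (u := u) (v := v) (b := 99 / 100 * lam)
      (L := 101 / 100 * lam) (d := kap / 4) huv (by positivity) (by positivity) (by positivity)
      (fun x hx y hy => ?_) (fun x hx y hy => ?_))
  · rintro y ⟨hy, hc⟩
    refine ⟨hy, round (2 * Q y - 1 / 2), ?_⟩
    have h := near_pole (Q y)
    linarith
  · have := hlow x hx y hy
    simpa using this
  · have := hup x hx y hy
    simpa using this

/-- the singular part -/
noncomputable def Sg (P Q : ℝ → ℝ) (a y : ℝ) : ℝ := sec (P y) + a * sec (Q y)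

/-- third differences kill the quadratic part: at a good point the singular part is bounded -/
theorem Sg_bound {P Q g : ℝ → ℝ} {q0 q1 q2 a lam e κ : ℝ} (hlam : 1 ≤ lam)
    (ha0 : 0 ≤ a) (ha : a ≤ 1 / 10) (he : e ≤ 1 / 10000) (hκ : κ ≤ 1 / 100)
    (hP : ∀ y ∈ Icc (0 : ℝ) 3, |P y - y| ≤ e)
    (hlow : ∀ x ∈ Icc (0 : ℝ) 3, ∀ y ∈ Icc (0 : ℝ) 3, 99 / 100 * lam * |y - x| ≤ |Q y - Q x|)
    (hup : ∀ x ∈ Icc (0 : ℝ) 3, ∀ y ∈ Icc (0 : ℝ) 3, |Q y - Q x| ≤ 101 / 100 * lam * |y - x|)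
    (hg : ∀ y ∈ Icc (0 : ℝ) 3, κ ≤ |Real.cos (2 * π * P y)| → κ ≤ |Real.cos (2 * π * Q y)| →
      |g y - (q0 + q1 * y + q2 * y ^ 2 + Sg P Q a y)| ≤ 1 / 4)
    (hbad : volume {y | y ∈ Icc (0 : ℝ) 3 ∧ 1 / 2 < |g y|} ≤ ENNReal.ofReal (1 / 1000))
    {y : ℝ} (hy : y ∈ Icc (0 : ℝ) (3 / 2)) (hyg : |g y| ≤ 1 / 2)
    (hyP : κ ≤ |Real.cos (2 * π * P y)|) (hyQ : κ ≤ |Real.cos (2 * π * Q y)|) :
    |Sg P Q a y| ≤ 1500 := by
  have hpi := Real.pi_pos
  have hpi4 : π < 3.15 := Real.pi_lt_d2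
  have hlam0 : 0 < lam := by linarith
  set Bad : Set ℝ := {y | y ∈ Icc (0 : ℝ) 3 ∧ 1 / 2 < |g y|} with hBad
  -- the three exceptional sets
  have hj : ∀ j : ℝ, 1 ≤ j → j ≤ 3 →
      volume ({H : ℝ | y + j * H ∈ Bad} ∪
        ({H : ℝ | H ∈ Icc (1 / 10 : ℝ) (4 / 10) ∧ |Real.cos (2 * π * (y + j * H))| < 1 / 90} ∪
         {H : ℝ | H ∈ Icc (1 / 10 : ℝ) (4 / 10) ∧ |Real.cos (2 * π * Q (y + j * H))| < 1 / 100})) ≤
        ENNReal.ofReal (1 / 1000 + 26 / 1000 + 20 / 1000) := by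
    intro j hj1 hj3
    have hj0 : 0 < j := by linarith
    have h1 : volume {H : ℝ | y + j * H ∈ Bad} ≤ ENNReal.ofReal (1 / 1000) := by
      have e1 : {H : ℝ | y + j * H ∈ Bad} = (fun H : ℝ => j * H) ⁻¹' ((fun x => y + x) ⁻¹' Bad) := rfl
      rw [e1, Real.volume_preimage_mul_left hj0.ne', measure_preimage_add]
      have hle : |j⁻¹| ≤ 1 := by
        rw [abs_inv, abs_of_pos hj0]
        exact inv_le_one_of_one_le₀ hj1
      calc ENNReal.ofReal |j⁻¹| * volume Bad ≤ 1 * ENNReal.ofReal (1 / 1000) := by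
            gcongr
            exact ENNReal.ofReal_le_one.mpr hle
        _ = ENNReal.ofReal (1 / 1000) := one_mul _
    have h2 : volume {H : ℝ | H ∈ Icc (1 / 10 : ℝ) (4 / 10) ∧
        |Real.cos (2 * π * (y + j * H))| < 1 / 90} ≤ ENNReal.ofReal (26 / 1000) := by
      refine (vol_cos (x0 := y) (lam := j) hj0.ne' (by norm_num) (by norm_num)).trans
        (ENNReal.ofReal_le_ofReal ?_)
      rw [abs_of_pos hj0]
      have : 1 / j ≤ 1 := by rw [div_le_one hj0]; exact hj1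
      linarith
    have h3 : volume {H : ℝ | H ∈ Icc (1 / 10 : ℝ) (4 / 10) ∧
        |Real.cos (2 * π * Q (y + j * H))| < 1 / 100} ≤ ENNReal.ofReal (20 / 1000) := by
      have hmem : ∀ H ∈ Icc (1 / 10 : ℝ) (4 / 10), y + j * H ∈ Icc (0 : ℝ) 3 := by
        rintro H ⟨a1, a2⟩
        obtain ⟨b1, b2⟩ := hy
        constructor <;> nlinarith
      refine (vol_cos_bilip (Q := fun H => Q (y + j * H)) (lam := j * lam) (by norm_num)
        (by positivity) (by norm_num) (fun H hH H' hH' => ?_) (fun H hH H' hH' => ?_)).trans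
        (ENNReal.ofReal_le_ofReal ?_)
      · have := hlow _ (hmem H hH) _ (hmem H' hH')
        have e2 : |y + j * H' - (y + j * H)| = j * |H' - H| := by
          rw [show y + j * H' - (y + j * H) = j * (H' - H) by ring, abs_mul, abs_of_pos hj0]
        rw [e2] at this
        linarith
      · have := hup _ (hmem H hH) _ (hmem H' hH')
        have e2 : |y + j * H' - (y + j * H)| = j * |H' - H| := by
          rw [show y + j * H' - (y + j * H) = j * (H' - H) by ring, abs_mul, abs_of_pos hj0]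
        rw [e2] at this
        linarith
      · have hjl : 1 ≤ j * lam := by nlinarith
        rw [mul_div_assoc', div_le_iff₀ (by positivity)]
        nlinarith
    refine (measure_union_le _ _).trans ?_
    rw [ENNReal.ofReal_add (by norm_num) (by norm_num), ENNReal.ofReal_add (by norm_num) (by norm_num),
      add_assoc]
    exact add_le_add h1 ((measure_union_le _ _).trans (add_le_add h2 h3))
  set U : ℝ → Set ℝ := fun j => ({H : ℝ | y + j * H ∈ Bad} ∪
        ({H : ℝ | H ∈ Icc (1 / 10 : ℝ) (4 / 10) ∧ |Real.cos (2 * π * (y + j * H))| < 1 / 90} ∪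
         {H : ℝ | H ∈ Icc (1 / 10 : ℝ) (4 / 10) ∧ |Real.cos (2 * π * Q (y + j * H))| < 1 / 100}))
    with hU
  have htot : volume (U 1 ∪ (U 2 ∪ U 3)) ≤ ENNReal.ofReal (3 * (47 / 1000)) := by
    have t1 := hj 1 le_rfl (by norm_num)
    have t2 := hj 2 (by norm_num) (by norm_num)
    have t3 := hj 3 (by norm_num) le_rfl
    have en : (1 / 1000 + 26 / 1000 + 20 / 1000 : ℝ) = 47 / 1000 := by norm_num
    rw [en] at t1 t2 t3
    calc _ ≤ ENNReal.ofReal (47 / 1000) + (ENNReal.ofReal (47 / 1000) +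
            ENNReal.ofReal (47 / 1000)) := by
          refine (measure_union_le _ _).trans (add_le_add t1 ?_)
          exact (measure_union_le _ _).trans (add_le_add t2 t3)
      _ = _ := by
          rw [← ENNReal.ofReal_add (by positivity) (by positivity),
            ← ENNReal.ofReal_add (by positivity) (by positivity)]
          congr 1; ring
  obtain ⟨H, hH, hnot⟩ := exists_good (a := 1 / 10) (b := 4 / 10) htot (by norm_num)
    (by norm_num)
  have key : ∀ j : ℝ, 1 ≤ j → j ≤ 3 → H ∉ U j →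
      |g (y + j * H)| ≤ 1 / 2 ∧ |Sg P Q a (y + j * H)| ≤ 110 ∧
      |g (y + j * H) - (q0 + q1 * (y + j * H) + q2 * (y + j * H) ^ 2 + Sg P Q a (y + j * H))|
        ≤ 1 / 4 := by
    intro j hj1 hj3 hHj
    rw [hU] at hHj
    simp only [mem_union, mem_ofPred_eq, not_or, not_and, not_lt] at hHj
    obtain ⟨g1, g2, g3⟩ := hHj
    have g2' := g2 hH
    have g3' := g3 hH
    have hmem : y + j * H ∈ Icc (0 : ℝ) 3 := by
      constructor
      · nlinarith [hy.1, hH.1]
      · nlinarith [hy.2, hH.2, hH.1]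
    have g2'' : 1 / 100 ≤ |Real.cos (2 * π * P (y + j * H))| := by
      have c1 := RoughX.cos_lip (y + j * H) (P (y + j * H))
      have c2 := hP _ hmem
      rw [abs_sub_comm] at c2
      have c3 : 2 * π * |y + j * H - P (y + j * H)| ≤ 2 * π * (1 / 10000) :=
        mul_le_mul_of_nonneg_left (c2.trans he) (by positivity)
      have c4 := abs_sub_abs_le_abs_sub (Real.cos (2 * π * (y + j * H)))
        (Real.cos (2 * π * P (y + j * H)))
      linarith
    refine ⟨?_, ?_, hg _ hmem (hκ.trans g2'') (hκ.trans g3')⟩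
    · by_contra hc
      exact g1 ⟨hmem, not_le.mp hc⟩
    · have e1 : |sec (P (y + j * H))| ≤ 1 / (1 / 100) := abs_sec_le (by norm_num) g2''
      have e2 : |sec (Q (y + j * H))| ≤ 1 / (1 / 100) := abs_sec_le (by norm_num) g3'
      have e3 : |a * sec (Q (y + j * H))| ≤ 1 / 10 * (1 / (1 / 100)) := by
        rw [abs_mul, abs_of_nonneg ha0]
        exact mul_le_mul ha e2 (abs_nonneg _) (by norm_num)
      calc |Sg P Q a (y + j * H)| ≤ |sec (P (y + j * H))| + |a * sec (Q (y + j * H))| :=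
            abs_add_le _ _
        _ ≤ 1 / (1 / 100) + 1 / 10 * (1 / (1 / 100)) := add_le_add e1 e3
        _ = 110 := by norm_num
  simp only [mem_union, not_or] at hnot
  obtain ⟨n1, n2, n3⟩ := hnot
  obtain ⟨f1, s1, r1⟩ := key 1 le_rfl (by norm_num) n1
  obtain ⟨f2, s2, r2⟩ := key 2 (by norm_num) (by norm_num) n2
  obtain ⟨f3, s3, r3⟩ := key 3 (by norm_num) le_rfl n3
  have r0 := hg y ⟨hy.1, by linarith [hy.2]⟩ hyP hyQ
  have a0 := abs_le.mp hyg
  have a1 := abs_le.mp f1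
  have a2 := abs_le.mp f2
  have a3 := abs_le.mp f3
  have b1 := abs_le.mp s1
  have b2 := abs_le.mp s2
  have b3 := abs_le.mp s3
  have d0 := abs_le.mp r0
  have d1 := abs_le.mp r1
  have d2 := abs_le.mp r2
  have d3 := abs_le.mp r3
  rw [abs_le]
  constructor <;> nlinarith

/-- **one level, `4 ≤ |lam|`**: there is always dead mass. -/
theorem rough_big {P Q g : ℝ → ℝ} {q0 q1 q2 a lam e κ : ℝ} (hlam : 4 ≤ lam)
    (ha : |a * lam ^ 2 - 1| ≤ 1 / 100) (he : e ≤ 1 / 10 ^ 7) (hκ : κ ≤ 1 / 10 ^ 7)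
    (hP : ∀ y ∈ Icc (0 : ℝ) 3, |P y - y| ≤ e)
    (hlow : ∀ x ∈ Icc (0 : ℝ) 3, ∀ y ∈ Icc (0 : ℝ) 3, 99 / 100 * lam * |y - x| ≤ |Q y - Q x|)
    (hup : ∀ x ∈ Icc (0 : ℝ) 3, ∀ y ∈ Icc (0 : ℝ) 3, |Q y - Q x| ≤ 101 / 100 * lam * |y - x|)
    (hg : ∀ y ∈ Icc (0 : ℝ) 3, κ ≤ |Real.cos (2 * π * P y)| → κ ≤ |Real.cos (2 * π * Q y)| →
      |g y - (q0 + q1 * y + q2 * y ^ 2 + (sec (P y) + a * sec (Q y)))| ≤ 1 / 4) :
    ENNReal.ofReal (1 / 10 ^ 6) < volume {y | y ∈ Icc (0 : ℝ) 3 ∧ 1 / 2 < |g y|} := by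
  have hpi := Real.pi_pos
  have hpi3 := Real.pi_gt_three
  have hpi4 : π < 3.15 := Real.pi_lt_d2
  by_contra hcon
  rw [not_lt] at hcon
  have ha1 := abs_le.mp ha
  have hl2 : 16 ≤ lam ^ 2 := by nlinarith
  have ha0 : 0 < a := by
    by_contra hc
    push Not at hc
    nlinarith
  have ha2 : a ≤ 64 / 1000 := by nlinarith
  set K : ℝ := 1 / 150000 with hK
  set u : ℝ := 1 / 4 + 1 / 200000 with hu
  set v : ℝ := 1 / 4 + 1 / 100000 with hv
  have hsubI : Icc u v ⊆ Icc (0 : ℝ) 3 := Icc_subset_Icc (by rw [hu]; norm_num) (by rw [hv]; norm_num)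
  have hvol := vol_cos_bilip (Q := Q) (u := u) (v := v) (lam := lam) (kap := K)
    (by rw [hu, hv]; norm_num) (by linarith) (by rw [hK]; norm_num)
    (fun x hx y hy => hlow x (hsubI hx) y (hsubI hy))
    (fun x hx y hy => hup x (hsubI hx) y (hsubI hy))
  have hvol2 : volume {y : ℝ | y ∈ Icc u v ∧ |Real.cos (2 * π * Q y)| < K} ≤
      ENNReal.ofReal (1 / 10 ^ 6) := by
    refine hvol.trans (ENNReal.ofReal_le_ofReal ?_)
    rw [mul_div_assoc', div_le_iff₀ (by positivity), hu, hv, hK]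
    nlinarith
  have hsub : Icc u v ⊆ {y | y ∈ Icc (0 : ℝ) 3 ∧ 1 / 2 < |g y|} ∪
      {y : ℝ | y ∈ Icc u v ∧ |Real.cos (2 * π * Q y)| < K} := by
    intro y hy
    by_cases hgy : 1 / 2 < |g y|
    · exact Or.inl ⟨hsubI hy, hgy⟩
    right
    refine ⟨hy, ?_⟩
    by_contra hc
    rw [not_lt] at hc hgy
    have hyI := hsubI hy
    have hp := abs_le.mp (hP y hyI)
    obtain ⟨y1, y2⟩ := hy
    rw [hu] at y1
    rw [hv] at y2
    have he' : e ≤ 1 / 10 ^ 7 := he
    norm_num at he'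
    obtain ⟨w, hw⟩ : ∃ w, w = P y - 1 / 4 := ⟨_, rfl⟩
    have hw1 : 1 / 250000 ≤ w := by rw [hw]; linarith
    have hw2 : w ≤ 11 / 1000000 := by rw [hw]; linarith
    have hPw : P y = 1 / 4 + ((0 : ℤ) : ℝ) / 2 + w := by rw [hw]; push_cast; ring
    have hsl := sec_lower (n := 0) (v := w) (by linarith) (by linarith)
    rw [← hPw] at hsl
    have hcP : κ ≤ |Real.cos (2 * π * P y)| := by
      have h4 := near_pole (P y)
      have hr : round (2 * P y - 1 / 2) = 0 := by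
        rw [round_eq_zero_iff]
        constructor
        · rw [hPw]; push_cast; linarith
        · rw [hPw]; push_cast; linarith
      rw [hr, hPw] at h4
      rw [hPw]
      have h5 : |1 / 4 + ((0 : ℤ) : ℝ) / 2 + w - 1 / 4 - ((0 : ℤ) : ℝ) / 2| = w := by
        push_cast
        rw [show (1 : ℝ) / 4 + 0 / 2 + w - 1 / 4 - 0 / 2 = w by ring, abs_of_pos (by linarith)]
      rw [h5] at h4
      have hκ' := hκ
      norm_num at hκ'
      linarith
    have hcQ : κ ≤ |Real.cos (2 * π * Q y)| := by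
      refine le_trans ?_ hc
      rw [hK]
      have hκ' := hκ
      norm_num at hκ' ⊢
      linarith
    have hS := Sg_bound (P := P) (Q := Q) (g := g) (q0 := q0) (q1 := q1) (q2 := q2) (a := a)
      (lam := lam) (e := e) (κ := κ) (by linarith) ha0.le (by linarith)
      (he.trans (by norm_num)) (hκ.trans (by norm_num)) hP hlow hup hg
      (hcon.trans (ENNReal.ofReal_le_ofReal (by norm_num))) (y := y)
      ⟨hyI.1, by linarith⟩ hgy hcP hcQ
    have hs1 : 14000 ≤ |sec (P y)| := by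
      refine le_trans ?_ hsl
      rw [le_div_iff₀ (by positivity)]
      nlinarith
    have hs2 : |a * sec (Q y)| ≤ 64 / 1000 * 150000 := by
      have := abs_sec_le (t := Q y) (κ := K) (by rw [hK]; norm_num) hc
      rw [abs_mul, abs_of_pos ha0]
      refine mul_le_mul ha2 (this.trans ?_) (abs_nonneg _) (by norm_num)
      rw [hK]; norm_num
    have hs3 : |sec (P y)| ≤ |Sg P Q a y| + |a * sec (Q y)| := by
      have : sec (P y) = Sg P Q a y - a * sec (Q y) := by unfold Sg; ring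
      rw [this]
      exact abs_sub _ _
    have hs2' : |a * sec (Q y)| ≤ 9600 := hs2.trans (by norm_num)
    linarith
  have hfin : ENNReal.ofReal (v - u) ≤ ENNReal.ofReal (1 / 10 ^ 6 + 1 / 10 ^ 6) := by
    rw [← Real.volume_Icc, ENNReal.ofReal_add (by norm_num) (by norm_num)]
    exact (measure_mono hsub).trans ((measure_union_le _ _).trans (add_le_add hcon hvol2))
  have := (ENNReal.ofReal_le_ofReal_iff (by norm_num)).mp hfin
  rw [hu, hv] at this
  norm_num at this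

end Crest.Agent.R128.RoughBigL
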