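import Crest.Agent.R128.Rough

/-!
Row 128, node ROUGH (one level), helper86.  Perturbation form of `rough1`: the digits `P`, `Q` are only
nearly affine and the content is only nearly quadratic.
-/

set_option autoImplicit false

namespace Crest.Agent.R128.RoughX

open MeasureTheory Real Set
open Crest.Agent.R128.Rough

theorem cos_lip (X Y : ℝ) :
    |Real.cos (2 * π * X) - Real.cos (2 * π * Y)| ≤ 2 * π * |X - Y| := by
  have h := Real.abs_cos_sub_cos_le (2 * π * X) (2 * π * Y)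
  have h2 : |2 * π * X - 2 * π * Y| = 2 * π * |X - Y| := by
    rw [← mul_sub, abs_mul, abs_of_pos (by positivity : (0 : ℝ) < 2 * π)]
  rwa [h2] at h

/-- perturbation of `sec` away from its poles -/
theorem sec_sub_le {X Y κ : ℝ} (hκ : 0 < κ) (hX : κ ≤ |Real.cos (2 * π * X)|)
    (hY : κ / 2 ≤ |Real.cos (2 * π * Y)|) :
    |sec X - sec Y| ≤ 4 * π * |X - Y| / κ ^ 2 := by
  have hX0 : 0 < |Real.cos (2 * π * X)| := lt_of_lt_of_le hκ hX
  have hY0 : 0 < |Real.cos (2 * π * Y)| := lt_of_lt_of_le (by positivity) hY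
  have hXn : Real.cos (2 * π * X) ≠ 0 := abs_pos.mp hX0
  have hYn : Real.cos (2 * π * Y) ≠ 0 := abs_pos.mp hY0
  have e : sec X - sec Y =
      (Real.cos (2 * π * Y) - Real.cos (2 * π * X)) /
        (Real.cos (2 * π * X) * Real.cos (2 * π * Y)) := by
    rw [sec, sec]; field_simp
  rw [e, abs_div, abs_mul]
  have h1 : |Real.cos (2 * π * Y) - Real.cos (2 * π * X)| ≤ 2 * π * |X - Y| := by
    rw [abs_sub_comm]; exact cos_lip X Y
  have h2 : κ * (κ / 2) ≤ |Real.cos (2 * π * X)| * |Real.cos (2 * π * Y)| :=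
    mul_le_mul hX hY (by positivity) (abs_nonneg _)
  calc |Real.cos (2 * π * Y) - Real.cos (2 * π * X)| /
        (|Real.cos (2 * π * X)| * |Real.cos (2 * π * Y)|)
      ≤ (2 * π * |X - Y|) / (κ * (κ / 2)) :=
        div_le_div₀ (by positivity) h1 (by positivity) h2
    _ = 4 * π * |X - Y| / κ ^ 2 := by
        field_simp
        ring

/-- `rough1` with nearly affine digits and nearly quadratic content. -/
theorem rough1_of_near {del a x0 lam q0 q1 q2 e : ℝ} {P Q g : ℝ → ℝ} (hd0 : 0 < del)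
    (hd : del ≤ 1 / 10000) (hlam : 1 ≤ |lam|) (ha : |a * lam ^ 2 - 1| ≤ 1 / 100)
    (he : e ≤ del ^ 2 / 10 ^ 10)
    (hP : ∀ y ∈ Icc (0 : ℝ) 3, |P y - y| ≤ e)
    (hQ : ∀ y ∈ Icc (0 : ℝ) 3, |Q y - (x0 + lam * y)| ≤ e)
    (hg : ∀ y ∈ Icc (0 : ℝ) 3, del / 12800 ≤ |Real.cos (2 * π * P y)| →
      del / 12800 ≤ |Real.cos (2 * π * Q y)| →
      |g y - (q0 + q1 * y + q2 * y ^ 2 + (sec (P y) + a * sec (Q y)))| ≤ 1 / 4)
    (hbad : volume {y | y ∈ Icc (0 : ℝ) 3 ∧ 1 / 2 < |g y|} ≤ ENNReal.ofReal (del / 800)) :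
    ∃ m : ℤ, (0 < lam ∧ ∀ y ∈ Icc (0 : ℝ) 3, |x0 + lam * y - y - 1 / 2 - m| ≤ del) ∨
      (lam < 0 ∧ ∀ y ∈ Icc (0 : ℝ) 3, |x0 + lam * y + y - 1 / 2 - m| ≤ del) := by
  have hpi := Real.pi_pos
  have hpi4 : π < 3.15 := Real.pi_lt_d2
  have hlam0 : lam ≠ 0 := by
    rintro rfl; norm_num at hlam
  have he0 : 0 ≤ e := (abs_nonneg _).trans (hP 0 (by norm_num))
  obtain ⟨κ, hκ⟩ : ∃ κ : ℝ, κ = del / 6400 := ⟨_, rfl⟩
  have hκ0 : 0 < κ := by rw [hκ]; positivity
  -- `0 < a ≤ 101/100`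
  have ha' := abs_le.mp ha
  have hl2 : 1 ≤ lam ^ 2 := by
    rw [← sq_abs]; nlinarith
  have ha0 : 0 ≤ a := by
    by_contra h
    push Not at h
    nlinarith [ha'.1]
  have ha1 : a ≤ 101 / 100 := by
    nlinarith [ha'.2]
  have hκe : 2 * π * e ≤ κ / 2 := by
    have h1 : e ≤ del / 10 ^ 14 := by
      refine he.trans ?_
      rw [div_le_div_iff₀ (by norm_num) (by norm_num)]
      nlinarith
    rw [hκ]
    nlinarith
  have hκe2 : 4 * π * e / κ ^ 2 ≤ 1 / 9 := by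
    rw [div_le_iff₀ (by positivity), hκ]
    have h1 : 4 * π * e ≤ 4 * 3.15 * (del ^ 2 / 10 ^ 10) := by
      have : 0 ≤ del ^ 2 / 10 ^ 10 := by positivity
      nlinarith
    refine h1.trans ?_
    have : 0 < del ^ 2 := by positivity
    nlinarith
  have hhalf : ∀ X Y : ℝ, |X - Y| ≤ e → κ ≤ |Real.cos (2 * π * X)| →
      κ / 2 ≤ |Real.cos (2 * π * Y)| := by
    intro X Y hXY hX
    have h1 := cos_lip X Y
    have h2 : |Real.cos (2 * π * X)| - |Real.cos (2 * π * Y)| ≤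
        |Real.cos (2 * π * X) - Real.cos (2 * π * Y)| := abs_sub_abs_le_abs_sub _ _
    have h3 : 2 * π * |X - Y| ≤ 2 * π * e := by gcongr
    linarith
  have hsecdiff : ∀ X Y : ℝ, |X - Y| ≤ e → κ ≤ |Real.cos (2 * π * X)| →
      |sec X - sec Y| ≤ 1 / 9 := by
    intro X Y hXY hX
    have hY := hhalf X Y hXY hX
    refine (sec_sub_le hκ0 hX hY).trans (le_trans ?_ hκe2)
    gcongr
  -- inclusion
  have hsub : Bad q0 q1 q2 a x0 lam ⊆
      {y | y ∈ Icc (0 : ℝ) 3 ∧ 1 / 2 < |g y|} ∪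
        ({y : ℝ | y ∈ Icc (0 : ℝ) 3 ∧ |Real.cos (2 * π * (0 + 1 * y))| < κ} ∪
          {y : ℝ | y ∈ Icc (0 : ℝ) 3 ∧ |Real.cos (2 * π * (x0 + lam * y))| < κ}) := by
    rintro y ⟨hy, hF⟩
    by_contra hcon
    simp only [mem_union, mem_ofPred_eq, not_or, not_and, not_lt] at hcon
    obtain ⟨h1, h2, h3⟩ := hcon
    have h1' := h1 hy
    have h2' := h2 hy
    have h3' := h3 hy
    rw [zero_add, one_mul] at h2'
    have hs1 := hsecdiff y (P y) (by rw [abs_sub_comm]; exact hP y hy) h2'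
    have hs2 := hsecdiff (x0 + lam * y) (Q y) (by rw [abs_sub_comm]; exact hQ y hy) h3'
    have hs2' : |a * (sec (x0 + lam * y) - sec (Q y))| ≤ 101 / 100 * (1 / 9) := by
      rw [abs_mul, abs_of_nonneg ha0]
      exact mul_le_mul ha1 hs2 (abs_nonneg _) (by norm_num)
    have hk1 := hhalf y (P y) (by rw [abs_sub_comm]; exact hP y hy) h2'
    have hk2 := hhalf (x0 + lam * y) (Q y) (by rw [abs_sub_comm]; exact hQ y hy) h3'
    have hg' := hg y hy (by rw [hκ] at hk1; linarith) (by rw [hκ] at hk2; linarith)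
    have hdec : F q0 q1 q2 a x0 lam y =
        g y - (g y - (q0 + q1 * y + q2 * y ^ 2 + (sec (P y) + a * sec (Q y)))) +
          (sec y - sec (P y)) + a * (sec (x0 + lam * y) - sec (Q y)) := by
      rw [F, S]; ring
    rw [hdec] at hF
    rw [abs_le] at h1' hs1 hs2' hg'
    rcases lt_abs.mp hF with h | h <;> linarith
  refine rough1 (q0 := q0) (q1 := q1) (q2 := q2) hd0 hd hlam ha ?_
  refine (measure_mono hsub).trans ((measure_union_le _ _).trans ?_)
  have hv1 := vol_cos (x0 := 0) (lam := 1) (a := 0) (b := 3) (kap := κ) one_ne_zero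
    (by norm_num) hκ0.le
  have hv2 := vol_cos (x0 := x0) (lam := lam) (a := 0) (b := 3) (kap := κ) hlam0
    (by norm_num) hκ0.le
  have hv1' : volume {y : ℝ | y ∈ Icc (0 : ℝ) 3 ∧ |Real.cos (2 * π * (0 + 1 * y))| < κ} ≤
      ENNReal.ofReal (4 * κ) := by
    refine hv1.trans (ENNReal.ofReal_le_ofReal ?_)
    norm_num
  have hv2' : volume {y : ℝ | y ∈ Icc (0 : ℝ) 3 ∧ |Real.cos (2 * π * (x0 + lam * y))| < κ} ≤
      ENNReal.ofReal (4 * κ) := by
    refine hv2.trans (ENNReal.ofReal_le_ofReal ?_)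
    have : 1 / |lam| ≤ 1 := by
      rw [div_le_one (by linarith)]; exact hlam
    nlinarith
  calc _ ≤ ENNReal.ofReal (del / 800) + (ENNReal.ofReal (4 * κ) + ENNReal.ofReal (4 * κ)) :=
        add_le_add hbad ((measure_union_le _ _).trans (add_le_add hv1' hv2'))
    _ = ENNReal.ofReal (del / 800 + (4 * κ + 4 * κ)) := by
        rw [← ENNReal.ofReal_add (by positivity) (by positivity),
          ← ENNReal.ofReal_add (by positivity) (by positivity)]
    _ ≤ ENNReal.ofReal (del / 400) := by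
        apply ENNReal.ofReal_le_ofReal
        rw [hκ]; linarith

end Crest.Agent.R128.RoughX
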