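import Crest.Agent.R128.LocDef
import Crest.Agent.R128.RoughX
import Crest.Agent.R128.RoughBigL

/-!
# Row 128, node V5-LOC / RA: the one-level lemma in the language of `LocDef` (helper117)

For an arbitrary `Cell3` (slower exit digit nearly affine on 8 laps, content quadratic up to `1/16`):
either the content cut one digit later is `> 1/4` (in the units of the cell) on a positive fraction of
the cell, or the exit digit of the other side is the mirror image `± Y + 1/2 + M` on the whole cell.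
-/

set_option autoImplicit false

open Metric MeasureTheory Set
open Crest.Agent.R128 Crest.Agent.R128.Cell Crest.Agent.R128.CellB Crest.Agent.R128.CellDy
open Crest.Agent.R128.Loc Crest.Agent.R128.Rough

namespace Crest.Agent.R128.RALevel

theorem sdC_ofReal (k c : ℝ) (s : Bool) (t : ℝ) :
    sdC k c s (t : ℂ) = ((sd k c s t : ℝ) : ℂ) := by
  unfold sdC sd; cases s <;> simp

theorem Y_ofReal (k c : ℝ) (s : Bool) (n : ℕ) (t : ℝ) :
    Y k c s n (t : ℂ) = (((Y k c s n (t : ℂ)).re : ℝ) : ℂ) := by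
  apply Complex.ext
  · simp
  · rw [Complex.ofReal_im]
    unfold Y
    rw [sdC_ofReal]
    exact im_y_ofReal k c n _

theorem D_ofReal (k c : ℝ) (s : Bool) (n : ℕ) (t : ℝ) :
    D k c s n (t : ℂ) = (((D k c s n (t : ℂ)).re : ℝ) : ℂ) := by
  apply Complex.ext
  · simp
  · rw [Complex.ofReal_im]
    unfold D
    rw [sdC_ofReal, yd_ofReal]
    simp

/-- orientation of the side -/
def sg (s : Bool) : ℝ := if s then 1 else -1

theorem sg_not (s : Bool) : sg (!s) = -sg s := by cases s <;> simp [sg]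
theorem sg_sq (s : Bool) : sg s * sg s = 1 := by cases s <;> simp [sg]

theorem hasDerivAt_Yre (k c : ℝ) (s : Bool) (n : ℕ) (t : ℝ) :
    HasDerivAt (fun u : ℝ => (Y k c s n (u : ℂ)).re) (sg s * (D k c s n (t : ℂ)).re) t := by
  cases s
  · have h := (hasDerivAt_Y_false k c n (t : ℂ)).real_of_complex
    have e : sg false * (D k c false n (t : ℂ)).re = (-(D k c false n (t : ℂ))).re := by
      simp [sg]
    rw [e]; exact h
  · have h := (hasDerivAt_Y_true k c n (t : ℂ)).real_of_complex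
    have e : sg true * (D k c true n (t : ℂ)).re = (D k c true n (t : ℂ)).re := by
      simp [sg]
    rw [e]; exact h

/-- the content term of one digit, normalised, is `sec` of the digit -/
theorem side_term {k c S κ ε : ℝ} {s : Bool} {n : ℕ} {t : ℝ} (hk : 1 ≤ k) (hS : S ≠ 0)
    (hκ : 0 < κ) (hε : 0 ≤ ε) (hθ : 3 * ε + 1 / k ≤ κ / 2)
    (h1 : ‖D k c s (n + 1) (t : ℂ) - (S : ℂ)‖ ≤ ε * |S|) (h0 : ‖D k c s n (t : ℂ)‖ ≤ ε * |S|)
    (hc : κ ≤ |Real.cos (2 * Real.pi * (Y k c s (n + 1) (t : ℂ)).re)|) :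
    ‖((2 * Real.pi * k * S ^ 2 : ℝ) : ℂ) * (mu k c s (n + 2) (t : ℂ) - mu k c s (n + 1) (t : ℂ)) -
      ((sec (Y k c s (n + 1) (t : ℂ)).re : ℝ) : ℂ)‖ ≤ 2 * (3 * ε + 1 / k) / κ ^ 2 := by
  have hpi := Real.pi_gt_three
  have hk0 : 0 < k := by linarith
  obtain ⟨d1, hd1⟩ : ∃ d1 : ℝ, d1 = (D k c s (n + 1) (t : ℂ)).re := ⟨_, rfl⟩
  obtain ⟨d0, hd0⟩ : ∃ d0 : ℝ, d0 = (D k c s n (t : ℂ)).re := ⟨_, rfl⟩
  obtain ⟨x, hx⟩ : ∃ x : ℝ, x = (Y k c s (n + 1) (t : ℂ)).re := ⟨_, rfl⟩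
  have hD1 : D k c s (n + 1) (t : ℂ) = (d1 : ℂ) := by rw [hd1]; exact D_ofReal _ _ _ _ _
  have hD0 : D k c s n (t : ℂ) = (d0 : ℂ) := by rw [hd0]; exact D_ofReal _ _ _ _ _
  have hY : Y k c s (n + 1) (t : ℂ) = (x : ℂ) := by rw [hx]; exact Y_ofReal _ _ _ _ _
  rw [← hx] at hc ⊢
  obtain ⟨co, hco⟩ : ∃ co : ℝ, co = Real.cos (2 * Real.pi * x) := ⟨_, rfl⟩
  rw [← hco] at hc
  have hco1 : |co| ≤ 1 := by rw [hco]; exact Real.abs_cos_le_one _
  have hκ1 : κ ≤ 1 := hc.trans hco1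
  obtain ⟨d2, hd2⟩ : ∃ d2 : ℝ, d2 = (2 + 2 * Real.pi * k * co) * d1 - d0 := ⟨_, rfl⟩
  have hD2 : D k c s (n + 2) (t : ℂ) = (d2 : ℂ) := by
    have : D k c s (n + 2) (t : ℂ) =
        cV k (Y k c s (n + 1) (t : ℂ)) * D k c s (n + 1) (t : ℂ) - D k c s n (t : ℂ) := by
      unfold D Y; rw [yd_add_two]
    rw [this, hY, hD1, hD0, hd2]
    unfold cV
    rw [hco]
    push_cast
    ring
  rw [hD1, ← Complex.ofReal_sub, Complex.norm_real, Real.norm_eq_abs] at h1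
  rw [hD0, Complex.norm_real, Real.norm_eq_abs] at h0
  have hS0 : 0 < |S| := abs_pos.mpr hS
  have ha : |d1 / S - 1| ≤ ε := by
    rw [show d1 / S - 1 = (d1 - S) / S by field_simp, abs_div, div_le_iff₀ hS0]; exact h1
  have hb : |d0 / S| ≤ ε := by
    rw [abs_div, div_le_iff₀ hS0]; exact h0
  obtain ⟨a, haa⟩ : ∃ a : ℝ, a = d1 / S := ⟨_, rfl⟩
  obtain ⟨b, hbb⟩ : ∃ b : ℝ, b = d0 / S := ⟨_, rfl⟩
  rw [← haa] at ha
  rw [← hbb] at hb
  have hε6 : ε ≤ 1 / 6 := by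
    have : 0 < 1 / k := by positivity
    linarith
  have ha' := abs_le.mp ha
  have hb' := abs_le.mp hb
  obtain ⟨w, hw⟩ : ∃ w : ℝ, w = co * a ^ 2 + (2 * a ^ 2 - a * b) / (2 * Real.pi * k) := ⟨_, rfl⟩
  have hd1a : d1 = a * S := by rw [haa]; field_simp
  have hd0b : d0 = b * S := by rw [hbb]; field_simp
  have hprod : d1 * d2 = 2 * Real.pi * k * S ^ 2 * w := by
    rw [hd2, hw, hd1a, hd0b]; field_simp; ring
  have hwco : |w - co| ≤ 3 * ε + 1 / k := by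
    have e : w - co = co * ((a - 1) * (a + 1)) + (2 * a ^ 2 - a * b) / (2 * Real.pi * k) := by
      rw [hw]; ring
    rw [e]
    refine (abs_add_le _ _).trans (add_le_add ?_ ?_)
    · rw [abs_mul, abs_mul]
      have h3 : |a + 1| ≤ 3 := by rw [abs_le]; constructor <;> linarith
      calc |co| * (|a - 1| * |a + 1|) ≤ 1 * (ε * 3) := by
            apply mul_le_mul hco1 _ (by positivity) (by norm_num)
            exact mul_le_mul ha h3 (abs_nonneg _) hε
        _ = 3 * ε := by ring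
    · rw [abs_div, abs_of_pos (by positivity : (0 : ℝ) < 2 * Real.pi * k),
        div_le_div_iff₀ (by positivity) hk0]
      have h4 : |2 * a ^ 2 - a * b| ≤ 6 := by
        rw [abs_le]; constructor <;> nlinarith
      nlinarith
  have hw2 : κ / 2 ≤ |w| := by
    have := abs_sub_abs_le_abs_sub co w
    rw [abs_sub_comm] at this
    linarith
  have hw0 : w ≠ 0 := by
    rintro rfl
    rw [abs_zero] at hw2; linarith
  have hco0 : co ≠ 0 := by
    rintro h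
    rw [h, abs_zero] at hc; linarith
  have hd12 : d1 * d2 ≠ 0 := by
    rw [hprod]; positivity
  have hd1n : d1 ≠ 0 := left_ne_zero_of_mul hd12
  have hd2n : d2 ≠ 0 := right_ne_zero_of_mul hd12
  have hmu : mu k c s (n + 2) (t : ℂ) - mu k c s (n + 1) (t : ℂ) = 1 / ((d1 : ℂ) * (d2 : ℂ)) := by
    unfold mu
    rw [Align.mu_succ_sub, Q_dg, Q_dg, hD1, hD2]
    · rw [Q_dg, hD1]; exact_mod_cast hd1n
    · rw [Q_dg, hD2]; exact_mod_cast hd2n
  have hval : ((2 * Real.pi * k * S ^ 2 : ℝ) : ℂ) *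
      (mu k c s (n + 2) (t : ℂ) - mu k c s (n + 1) (t : ℂ)) - ((sec x : ℝ) : ℂ) =
      ((1 / w - 1 / co : ℝ) : ℂ) := by
    rw [hmu]
    have e1 : (2 * Real.pi * k * S ^ 2) * (1 / (d1 * d2)) = 1 / w := by
      rw [hprod]; field_simp
    have e2 : sec x = 1 / co := by rw [sec, hco]
    rw [e2, ← e1]
    push_cast
    ring
  rw [hval, Complex.norm_real, Real.norm_eq_abs]
  have e3 : 1 / w - 1 / co = (co - w) / (w * co) := by field_simp
  rw [e3, abs_div, abs_mul, div_le_div_iff₀ (by positivity) (by positivity)]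
  have h5 : |co - w| ≤ 3 * ε + 1 / k := by rw [abs_sub_comm]; exact hwco
  have h6 : κ / 2 * κ ≤ |w| * |co| := mul_le_mul hw2 hc hκ.le (abs_nonneg _)
  have h7 : 0 ≤ 3 * ε + 1 / k := by positivity
  calc |co - w| * κ ^ 2 ≤ (3 * ε + 1 / k) * κ ^ 2 := by gcongr
    _ = 2 * (3 * ε + 1 / k) * (κ / 2 * κ) := by ring
    _ ≤ 2 * (3 * ε + 1 / k) * (|w| * |co|) := by gcongr

/-- a function with nearly constant derivative is nearly affine -/
theorem near_affine {F F' : ℝ → ℝ} {u w s ε : ℝ} (h : ∀ v ∈ Icc u w, HasDerivAt F (F' v) v)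
    (hb : ∀ v ∈ Icc u w, |F' v - s| ≤ ε) :
    ∀ x ∈ Icc u w, ∀ y ∈ Icc u w, |F y - F x - s * (y - x)| ≤ ε * |y - x| := by
  intro x hx y hy
  have key := (convex_Icc u w).norm_image_sub_le_of_norm_hasDerivWithin_le
    (f := fun v => F v - s * v) (f' := fun v => F' v - s) (C := ε) (x := x) (y := y)
    (fun v hv => (((h v hv).sub ((hasDerivAt_id v).const_mul s)).congr_deriv
      (by simp)).hasDerivWithinAt)
    (fun v hv => by rw [Real.norm_eq_abs]; exact hb v hv) hx hy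
  rw [Real.norm_eq_abs, Real.norm_eq_abs] at key
  have e : F y - F x - s * (y - x) = F y - s * y - (F x - s * x) := by ring
  rw [e]; exact key


/-- the far case (`4 ≤ |lam|`), proved in helper660's `RoughBig.lean` -/
def RoughBigStmt : Prop :=
  ∀ (P Q g : ℝ → ℝ) (q0 q1 q2 a lam e kap : ℝ), 4 ≤ lam → |a * lam ^ 2 - 1| ≤ 1 / 100 →
    e ≤ 1 / 10 ^ 7 → kap ≤ 1 / 10 ^ 7 →
    (∀ y ∈ Icc (0 : ℝ) 3, |P y - y| ≤ e) →
    (∀ x ∈ Icc (0 : ℝ) 3, ∀ y ∈ Icc (0 : ℝ) 3, 99 / 100 * lam * |y - x| ≤ |Q y - Q x|) →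
    (∀ x ∈ Icc (0 : ℝ) 3, ∀ y ∈ Icc (0 : ℝ) 3, |Q y - Q x| ≤ 101 / 100 * lam * |y - x|) →
    (∀ y ∈ Icc (0 : ℝ) 3, kap ≤ |Real.cos (2 * Real.pi * P y)| →
      kap ≤ |Real.cos (2 * Real.pi * Q y)| →
      |g y - (q0 + q1 * y + q2 * y ^ 2 + (sec (P y) + a * sec (Q y)))| ≤ 1 / 4) →
    ENNReal.ofReal (1 / 10 ^ 6) < volume {y | y ∈ Icc (0 : ℝ) 3 ∧ 1 / 2 < |g y|}

theorem cos_sub_int (x : ℝ) (M : ℤ) :
    Real.cos (2 * Real.pi * (x - M)) = Real.cos (2 * Real.pi * x) := by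
  have : 2 * Real.pi * (x - M) = 2 * Real.pi * x - M * (2 * Real.pi) := by ring
  rw [this, Real.cos_sub_int_mul_two_pi]

theorem sec_sub_int (x : ℝ) (M : ℤ) : sec (x - M) = sec x := by
  rw [sec, sec, cos_sub_int]

/-- transfer of a lower bound of the measure through the affine parametrisation -/
theorem vol_transfer {A B : Set ℝ} {m τ u0 R : ℝ} (hR : 0 < R) (hτ : |τ| = 1) {x : ℝ}
    (hA : ENNReal.ofReal x ≤ volume A)
    (hAB : ∀ y ∈ A, m + τ * (u0 + y) / R ∈ B) : ENNReal.ofReal (x / R) ≤ volume B := by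
  have hτ0 : τ ≠ 0 := by
    rintro rfl; rw [abs_zero] at hτ; norm_num at hτ
  have hτR : τ / R ≠ 0 := div_ne_zero hτ0 hR.ne'
  have hsub : A ⊆ (fun y => (τ / R) * y) ⁻¹' ((fun y => (m + τ * u0 / R) + y) ⁻¹' B) := by
    intro y hy
    have := hAB y hy
    simp only [mem_preimage]
    convert this using 1
    ring
  have h1 := measure_mono (μ := volume) hsub
  rw [Real.volume_preimage_mul_left hτR, measure_preimage_add] at h1
  have h2 : |(τ / R)⁻¹| = R := by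
    rw [abs_inv, abs_div, hτ, abs_of_pos hR]; field_simp
  rw [h2] at h1
  have h3 : ENNReal.ofReal x ≤ ENNReal.ofReal R * volume B := hA.trans h1
  rw [ENNReal.ofReal_div_of_pos hR]
  exact ENNReal.div_le_of_le_mul' h3

/-- extension of the mirror relation from `[0,3]` to `[-1,4]` -/
theorem mirror_ext {x0 l eps del y : ℝ} {M : ℤ} (h0 : |x0 + l * 0 - eps * 0 - 1 / 2 - M| ≤ del)
    (h3 : |x0 + l * 3 - eps * 3 - 1 / 2 - M| ≤ del) (hy : -1 ≤ y) (hy4 : y ≤ 4) :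
    |x0 + l * y - eps * y - 1 / 2 - M| ≤ 8 / 3 * del := by
  have e : x0 + l * y - eps * y - 1 / 2 - M =
      (1 - y / 3) * (x0 + l * 0 - eps * 0 - 1 / 2 - M) +
        (y / 3) * (x0 + l * 3 - eps * 3 - 1 / 2 - M) := by ring
  rw [e]
  refine (abs_add_le _ _).trans ?_
  rw [abs_mul, abs_mul]
  have h1 : |1 - y / 3| ≤ 4 / 3 := by rw [abs_le]; constructor <;> linarith
  have h2 : |y / 3| ≤ 4 / 3 := by rw [abs_le]; constructor <;> linarith
  have h4 := mul_le_mul h1 h0 (abs_nonneg _) (by norm_num : (0 : ℝ) ≤ 4 / 3)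
  have h5 := mul_le_mul h2 h3 (abs_nonneg _) (by norm_num : (0 : ℝ) ≤ 4 / 3)
  linarith

set_option maxHeartbeats 2000000 in
theorem level_half_of (hbig : RoughBigStmt) {C1 del : ℝ} (hC1 : 1 ≤ C1) (hd0 : 0 < del)
    (hd : del ≤ 1 / 10 ^ 4) :
    ∃ c0 : ℝ, 0 < c0 ∧ ∃ k1 : ℝ, ∀ k : ℝ, k1 ≤ k →
      ∀ (c : ℝ) (s : Bool) (n n' : ℕ) (m R lam q0 q1 q2 : ℝ),
      |lam| ≤ C1 * Real.sqrt k → Cell3 k c s n n' m R lam C1 q0 q1 q2 →
      ENNReal.ofReal (c0 / R) ≤ volume {t : ℝ | |t - m| ≤ 2 / R ∧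
        1 / 2 < (2 * Real.pi * k * R ^ 2) * ‖cont k c s (n + 2) (n' + 2) t‖} ∨
      (|lam| ≤ 4 ∧ ∃ (eps : ℝ) (M : ℤ), (eps = 1 ∨ eps = -1) ∧ ∀ t : ℝ, |t - m| ≤ 2 / R →
        |(Y k c (!s) (n' + 1) (t : ℂ)).re - eps * (Y k c s (n + 1) (t : ℂ)).re - 1 / 2 - M|
          ≤ 3 * del) := by
  obtain ⟨κ, hκ⟩ : ∃ κ : ℝ, κ = del / 12800 := ⟨_, rfl⟩
  have hκ0 : 0 < κ := by rw [hκ]; positivity
  have hκ1 : κ ≤ 1 / 10 ^ 7 := by rw [hκ]; linarith
  have hC0 : 0 < C1 := by linarith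
  refine ⟨min (del / 800) (1 / 10 ^ 6), by positivity,
    (128 * C1 ^ 2 / κ ^ 2) ^ 2 + 1000 * 10 ^ 10 * C1 / del ^ 2 + 1, ?_⟩
  intro k hk c s n n' m R lam q0 q1 q2 hlam hcell
  have hA0 : 0 ≤ (128 * C1 ^ 2 / κ ^ 2) ^ 2 := by positivity
  have hB0 : 0 ≤ 1000 * 10 ^ 10 * C1 / del ^ 2 := by positivity
  have hk1 : 1 ≤ k := by linarith
  have hk0 : 0 < k := by linarith
  have hkA : (128 * C1 ^ 2 / κ ^ 2) ^ 2 ≤ k := by linarith
  have hkB : 1000 * 10 ^ 10 * C1 / del ^ 2 ≤ k := by linarith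
  have hsq : 128 * C1 ^ 2 / κ ^ 2 ≤ Real.sqrt k := Real.le_sqrt_of_sq_le hkA
  have hsk0 : 0 < Real.sqrt k := Real.sqrt_pos.mpr hk0
  have hsk1 : 1 ≤ Real.sqrt k := by rw [Real.one_le_sqrt]; exact hk1
  have hskk : Real.sqrt k * Real.sqrt k = k := Real.mul_self_sqrt hk0.le
  have hskle : Real.sqrt k ≤ k := by nlinarith
  -- basic smallness
  have hΘ : 4 * C1 ^ 2 / Real.sqrt k ≤ κ ^ 2 / 32 := by
    rw [div_le_div_iff₀ hsk0 (by norm_num)]
    rw [div_le_iff₀ (by positivity)] at hsq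
    nlinarith
  have hCk : C1 / k ≤ del ^ 2 / (1000 * 10 ^ 10) := by
    rw [div_le_div_iff₀ hk0 (by norm_num)]
    rw [div_le_iff₀ (by positivity)] at hkB
    linarith
  have hR1 : 1 ≤ R := hcell.hR
  have hR0 : 0 < R := by linarith
  have hl1 : 1 ≤ |lam| := hcell.hlam
  have hl0 : 0 < |lam| := by linarith
  have hlamne : lam ≠ 0 := abs_pos.mp hl0
  obtain ⟨σ, hσ, hslow⟩ := hcell.slow
  have hσ1 : |σ| = 1 := by rcases hσ with h | h <;> rw [h] <;> norm_num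
  have hσσ : σ * σ = 1 := by rcases hσ with h | h <;> rw [h] <;> norm_num
  obtain ⟨τ, hτ⟩ : ∃ τ : ℝ, τ = sg s * σ := ⟨_, rfl⟩
  have hsg1 : |sg s| = 1 := by cases s <;> simp [sg]
  have hτ1 : |τ| = 1 := by rw [hτ, abs_mul, hσ1, hsg1, one_mul]
  have hττ : τ * τ = 1 := by
    rw [hτ, show sg s * σ * (sg s * σ) = (sg s * sg s) * (σ * σ) by ring, sg_sq, hσσ, one_mul]
  -- the parametrisation
  have hball : ∀ v ∈ Icc (-2 : ℝ) 2, ((m + τ * v / R : ℝ) : ℂ) ∈ ball (m : ℂ) (4 / R) := by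
    intro v hv
    rw [mem_ball, dist_eq_norm, ← Complex.ofReal_sub, Complex.norm_real, Real.norm_eq_abs]
    have : m + τ * v / R - m = τ * v / R := by ring
    rw [this, abs_div, abs_mul, hτ1, one_mul, abs_of_pos hR0]
    apply div_lt_div_of_pos_right _ hR0
    rw [abs_lt]; constructor <;> linarith [hv.1, hv.2]
  obtain ⟨F, hF⟩ : ∃ F : ℝ → ℝ, F = fun v => (Y k c s (n + 1) ((m + τ * v / R : ℝ) : ℂ)).re :=
    ⟨_, rfl⟩
  obtain ⟨G, hG⟩ : ∃ G : ℝ → ℝ, G = fun v => (Y k c (!s) (n' + 1) ((m + τ * v / R : ℝ) : ℂ)).re :=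
    ⟨_, rfl⟩
  have hT : ∀ v : ℝ, HasDerivAt (fun v : ℝ => m + τ * v / R) (τ / R) v := by
    intro v
    have h := (((hasDerivAt_id v).const_mul τ).div_const R).const_add m
    simpa using h
  have hFd : ∀ v, HasDerivAt F (σ * (D k c s (n + 1) ((m + τ * v / R : ℝ) : ℂ)).re / R) v := by
    intro v
    have h := (hasDerivAt_Yre k c s (n + 1) (m + τ * v / R)).comp v (hT v)
    rw [hF]
    refine h.congr_deriv ?_
    obtain ⟨d, hdd⟩ : ∃ d : ℝ, d = (D k c s (n + 1) ((m + τ * v / R : ℝ) : ℂ)).re := ⟨_, rfl⟩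
    rw [← hdd]
    have e : sg s * d * (τ / R) = (sg s * sg s) * σ * d / R := by rw [hτ]; ring
    rw [e, sg_sq, one_mul]
  have hGd : ∀ v, HasDerivAt G
      (-σ * (D k c (!s) (n' + 1) ((m + τ * v / R : ℝ) : ℂ)).re / R) v := by
    intro v
    have h := (hasDerivAt_Yre k c (!s) (n' + 1) (m + τ * v / R)).comp v (hT v)
    rw [hG]
    refine h.congr_deriv ?_
    obtain ⟨d, hdd⟩ : ∃ d : ℝ, d = (D k c (!s) (n' + 1) ((m + τ * v / R : ℝ) : ℂ)).re :=
      ⟨_, rfl⟩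
    rw [← hdd]
    have e : sg (!s) * d * (τ / R) = (sg s * sg s) * -σ * d / R := by rw [hτ, sg_not]; ring
    rw [e, sg_sq, one_mul]
  have hFaff : ∀ x ∈ Icc (-2 : ℝ) 2, ∀ y ∈ Icc (-2 : ℝ) 2,
      |F y - F x - 1 * (y - x)| ≤ C1 / k * |y - x| := by
    refine near_affine (fun v _ => hFd v) ?_
    intro v hv
    have h1 := hslow _ (hball v hv)
    rw [D_ofReal, ← Complex.ofReal_sub, Complex.norm_real, Real.norm_eq_abs] at h1
    obtain ⟨d, hdd⟩ : ∃ d : ℝ, d = (D k c s (n + 1) ((m + τ * v / R : ℝ) : ℂ)).re := ⟨_, rfl⟩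
    rw [← hdd] at h1 ⊢
    have e : σ * d / R - 1 = σ * (d - σ * R) / R := by
      rw [mul_sub, ← mul_assoc, hσσ, one_mul, sub_div, div_self hR0.ne']
    rw [e, abs_div, abs_mul, hσ1, one_mul, abs_of_pos hR0, div_le_iff₀ hR0]
    refine h1.trans (le_of_eq ?_)
    ring
  have hGaff : ∀ x ∈ Icc (-2 : ℝ) 2, ∀ y ∈ Icc (-2 : ℝ) 2,
      |G y - G x - (-σ * lam) * (y - x)| ≤ C1 * |lam| ^ 2 / k * |y - x| := by
    refine near_affine (fun v _ => hGd v) ?_
    intro v hv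
    have h1 := hcell.fast _ (hball v hv)
    rw [D_ofReal, ← Complex.ofReal_sub, Complex.norm_real, Real.norm_eq_abs] at h1
    obtain ⟨d, hdd⟩ : ∃ d : ℝ, d = (D k c (!s) (n' + 1) ((m + τ * v / R : ℝ) : ℂ)).re :=
      ⟨_, rfl⟩
    rw [← hdd] at h1 ⊢
    have e : -σ * d / R - -σ * lam = -σ * (d - lam * R) / R := by
      have h7 : lam * R / R = lam := mul_div_cancel_right₀ lam hR0.ne'
      rw [mul_sub, sub_div, mul_div_assoc (-σ) (lam * R) R, h7]
    rw [e, abs_div, abs_mul, abs_neg, hσ1, one_mul, abs_of_pos hR0, div_le_iff₀ hR0]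
    refine h1.trans (le_of_eq ?_)
    ring
  -- the integer start
  obtain ⟨M0, hM0⟩ : ∃ M0 : ℤ, M0 = ⌈F (-2)⌉ := ⟨_, rfl⟩
  obtain ⟨u0, hu0⟩ : ∃ u0 : ℝ, u0 = -2 + ((M0 : ℝ) - F (-2)) := ⟨_, rfl⟩
  have hu0a : -2 ≤ u0 := by
    have := Int.le_ceil (F (-2)); rw [hu0, hM0]; linarith
  have hu0b : u0 < -1 := by
    have := Int.ceil_lt_add_one (F (-2)); rw [hu0, hM0]; linarith
  have hPaff : ∀ y, u0 + y ∈ Icc (-2 : ℝ) 2 → |F (u0 + y) - M0 - y| ≤ 4 * (C1 / k) := by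
    intro y hy
    have h1 := hFaff (-2) (by norm_num) (u0 + y) hy
    have e : F (u0 + y) - M0 - y = F (u0 + y) - F (-2) - 1 * (u0 + y - -2) := by
      rw [hu0]; ring
    rw [e]
    refine h1.trans ?_
    have h2 : |u0 + y - -2| ≤ 4 := by
      rw [abs_le]; constructor <;> linarith [hy.1, hy.2]
    have h3 : 0 ≤ C1 / k := by positivity
    nlinarith
  -- the content
  obtain ⟨g, hg⟩ : ∃ g : ℝ → ℝ, g = fun v => -(((2 * Real.pi * k * R ^ 2 : ℝ) : ℂ) *
      cont k c s (n + 2) (n' + 2) ((m + τ * v / R : ℝ) : ℂ)).re := ⟨_, rfl⟩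
  have hgle : ∀ v, |g v| ≤ (2 * Real.pi * k * R ^ 2) *
      ‖cont k c s (n + 2) (n' + 2) ((m + τ * v / R : ℝ) : ℂ)‖ := by
    intro v
    rw [hg]
    simp only
    rw [abs_neg]
    refine (Complex.abs_re_le_norm _).trans (le_of_eq ?_)
    rw [norm_mul, Complex.norm_real, Real.norm_eq_abs, abs_of_nonneg (by positivity)]
  have hgq : ∀ v ∈ Icc (-2 : ℝ) 2, κ ≤ |Real.cos (2 * Real.pi * F v)| →
      κ ≤ |Real.cos (2 * Real.pi * G v)| →
      |g v - (-(q0 + q1 * (τ * v) + q2 * (τ * v) ^ 2) + (sec (F v) + 1 / lam ^ 2 * sec (G v)))|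
        ≤ 1 / 4 := by
    intro v hv hcF hcG
    obtain ⟨t, ht⟩ : ∃ t : ℝ, t = m + τ * v / R := ⟨_, rfl⟩
    have hb := hball v hv
    rw [← ht] at hb
    have hFv : F v = (Y k c s (n + 1) (t : ℂ)).re := by rw [hF, ht]
    have hGv : G v = (Y k c (!s) (n' + 1) (t : ℂ)).re := by rw [hG, ht]
    rw [hFv] at hcF
    rw [hGv] at hcG
    have hlk : |lam| / k ≤ C1 / Real.sqrt k := by
      rw [div_le_div_iff₀ hk0 hsk0]
      calc |lam| * Real.sqrt k ≤ C1 * Real.sqrt k * Real.sqrt k := by gcongr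
        _ = C1 * k := by rw [mul_assoc, hskk]
    have hεf : C1 * |lam| / k ≤ C1 ^ 2 / Real.sqrt k := by
      calc C1 * |lam| / k = C1 * (|lam| / k) := by ring
        _ ≤ C1 * (C1 / Real.sqrt k) := by gcongr
        _ = C1 ^ 2 / Real.sqrt k := by ring
    have hC2 : C1 ≤ C1 ^ 2 := by nlinarith only [hC1]
    have h1k : 1 / k ≤ C1 ^ 2 / Real.sqrt k := by
      rw [div_le_div_iff₀ hk0 hsk0]
      calc 1 * Real.sqrt k ≤ 1 * k := by linarith
        _ ≤ C1 ^ 2 * k := by gcongr; linarith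
    have hεs : C1 / k ≤ C1 ^ 2 / Real.sqrt k := by
      rw [div_le_div_iff₀ hk0 hsk0]
      calc C1 * Real.sqrt k ≤ C1 * k := by gcongr
        _ ≤ C1 ^ 2 * k := by gcongr
    have hκsq : κ ^ 2 / 32 ≤ κ / 2 := by nlinarith
    have hkey : ∀ ε : ℝ, ε ≤ C1 ^ 2 / Real.sqrt k → 3 * ε + 1 / k ≤ κ ^ 2 / 32 := by
      intro ε hε
      calc 3 * ε + 1 / k ≤ 3 * (C1 ^ 2 / Real.sqrt k) + C1 ^ 2 / Real.sqrt k := by linarith
        _ = 4 * C1 ^ 2 / Real.sqrt k := by ring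
        _ ≤ _ := hΘ
    have hbnd : ∀ θ : ℝ, θ ≤ κ ^ 2 / 32 → 2 * θ / κ ^ 2 ≤ 1 / 16 := by
      intro θ hθ
      rw [div_le_iff₀ (by positivity)]
      linarith
    -- slow side
    have hsl := hslow _ hb
    have hsl0 := hcell.slow0 _ hb
    have hS1 : σ * R ≠ 0 := by
      intro h
      have : |σ * R| = 0 := by rw [h, abs_zero]
      rw [abs_mul, hσ1, one_mul, abs_of_pos hR0] at this
      linarith
    have hSabs : |σ * R| = R := by rw [abs_mul, hσ1, one_mul, abs_of_pos hR0]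
    have t1 := side_term (k := k) (c := c) (S := σ * R) (κ := κ) (ε := C1 / k) (s := s) (n := n)
      (t := t) hk1 hS1 hκ0 (by positivity) ((hkey _ hεs).trans hκsq)
      (by rw [hSabs]; refine hsl.trans (le_of_eq ?_); ring)
      (by rw [hSabs]; refine hsl0.trans (le_of_eq ?_); ring) hcF
    have t1' := t1.trans (hbnd _ (hkey _ hεs))
    -- fast side
    have hfa := hcell.fast _ hb
    have hfa0 := hcell.fast0 _ hb
    have hS2 : lam * R ≠ 0 := mul_ne_zero hlamne hR0.ne'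
    have hSabs2 : |lam * R| = |lam| * R := by rw [abs_mul, abs_of_pos hR0]
    have t2 := side_term (k := k) (c := c) (S := lam * R) (κ := κ) (ε := C1 * |lam| / k)
      (s := !s) (n := n') (t := t) hk1 hS2 hκ0 (by positivity) ((hkey _ hεf).trans hκsq)
      (by rw [hSabs2]; refine hfa.trans (le_of_eq ?_); ring)
      (by
        rw [hSabs2]
        refine hfa0.trans ?_
        have : C1 * |lam| * R / k ≤ C1 * |lam| / k * (|lam| * R) := by
          have h5 : 0 ≤ C1 * |lam| * R / k := by positivity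
          calc C1 * |lam| * R / k = C1 * |lam| * R / k * 1 := by ring
            _ ≤ C1 * |lam| * R / k * |lam| := by gcongr
            _ = _ := by ring
        exact this) hcG
    have t2' := t2.trans (hbnd _ (hkey _ hεf))
    have hqd := hcell.quad _ hb
    -- combine
    obtain ⟨A, hA⟩ : ∃ A : ℂ, A = mu k c s (n + 2) (t : ℂ) - mu k c s (n + 1) (t : ℂ) := ⟨_, rfl⟩
    obtain ⟨B, hB⟩ : ∃ B : ℂ, B = mu k c (!s) (n' + 2) (t : ℂ) - mu k c (!s) (n' + 1) (t : ℂ) :=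
      ⟨_, rfl⟩
    rw [← hA] at t1'
    rw [← hB] at t2'
    have hcont : cont k c s (n + 2) (n' + 2) (t : ℂ) =
        cont k c s (n + 1) (n' + 1) (t : ℂ) - A - B := by
      rw [hA, hB]; unfold cont; ring
    have hRt : ((R : ℂ) * ((t : ℂ) - m)) = ((τ * v : ℝ) : ℂ) := by
      rw [ht]; push_cast
      have : (R : ℂ) ≠ 0 := by exact_mod_cast hR0.ne'
      field_simp
      ring
    rw [hRt] at hqd
    have hs1 : ((2 * Real.pi * k * (σ * R) ^ 2 : ℝ) : ℂ) = ((2 * Real.pi * k * R ^ 2 : ℝ) : ℂ) := by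
      congr 1
      have : σ ^ 2 = 1 := by rw [sq]; exact hσσ
      rw [mul_pow, this, one_mul]
    rw [hs1] at t1'
    have t2'' : ‖((2 * Real.pi * k * R ^ 2 : ℝ) : ℂ) * B -
        ((1 / lam ^ 2 * sec (Y k c (!s) (n' + 1) (t : ℂ)).re : ℝ) : ℂ)‖ ≤ 1 / 16 := by
      have e : ((2 * Real.pi * k * R ^ 2 : ℝ) : ℂ) * B -
          ((1 / lam ^ 2 * sec (Y k c (!s) (n' + 1) (t : ℂ)).re : ℝ) : ℂ) =
          ((1 / lam ^ 2 : ℝ) : ℂ) * (((2 * Real.pi * k * (lam * R) ^ 2 : ℝ) : ℂ) * B -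
            ((sec (Y k c (!s) (n' + 1) (t : ℂ)).re : ℝ) : ℂ)) := by
        have : (lam : ℂ) ≠ 0 := by exact_mod_cast hlamne
        push_cast
        field_simp
      rw [e, norm_mul, Complex.norm_real, Real.norm_eq_abs]
      have h6 : |1 / lam ^ 2| ≤ 1 := by
        rw [abs_div, abs_one, abs_pow, div_le_one (by positivity)]
        nlinarith
      calc |1 / lam ^ 2| * _ ≤ 1 * (1 / 16) := by
            apply mul_le_mul h6 t2' (norm_nonneg _) (by norm_num)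
        _ = 1 / 16 := by norm_num
    rw [hg]
    simp only
    rw [← ht, hcont, hFv, hGv]
    obtain ⟨sF, hsF⟩ : ∃ sF : ℝ, sF = sec (Y k c s (n + 1) (t : ℂ)).re := ⟨_, rfl⟩
    obtain ⟨sG, hsG⟩ : ∃ sG : ℝ, sG = 1 / lam ^ 2 * sec (Y k c (!s) (n' + 1) (t : ℂ)).re :=
      ⟨_, rfl⟩
    rw [← hsF] at t1' ⊢
    rw [← hsG] at t2'' ⊢
    obtain ⟨K, hK⟩ : ∃ K : ℝ, K = 2 * Real.pi * k * R ^ 2 := ⟨_, rfl⟩
    rw [← hK] at t1' t2'' hqd ⊢
    obtain ⟨Z, hZ⟩ : ∃ Z : ℂ, Z = cont k c s (n + 1) (n' + 1) (t : ℂ) := ⟨_, rfl⟩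
    rw [← hZ] at hqd ⊢
    have hqd' : ‖(K : ℂ) * Z - ((q0 + q1 * (τ * v) + q2 * (τ * v) ^ 2 : ℝ) : ℂ)‖ ≤ 1 / 16 := by
      refine le_trans (le_of_eq ?_) hqd
      congr 1
      push_cast
      ring
    have hfin : -((K : ℂ) * (Z - A - B)).re -
        (-(q0 + q1 * (τ * v) + q2 * (τ * v) ^ 2) + (sF + sG)) =
        (-((K : ℂ) * Z - ((q0 + q1 * (τ * v) + q2 * (τ * v) ^ 2 : ℝ) : ℂ)) +
          ((K : ℂ) * A - (sF : ℂ)) + ((K : ℂ) * B - (sG : ℂ))).re := by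
      have e1 : -((K : ℂ) * Z - ((q0 + q1 * (τ * v) + q2 * (τ * v) ^ 2 : ℝ) : ℂ)) +
          ((K : ℂ) * A - (sF : ℂ)) + ((K : ℂ) * B - (sG : ℂ)) =
          -((K : ℂ) * (Z - A - B)) +
            ((q0 + q1 * (τ * v) + q2 * (τ * v) ^ 2 - sF - sG : ℝ) : ℂ) := by
        push_cast; ring
      rw [e1, Complex.add_re, Complex.neg_re, Complex.ofReal_re]
      ring
    rw [hfin]
    refine (Complex.abs_re_le_norm _).trans ?_
    refine (norm_add_le _ _).trans ?_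
    refine (add_le_add_left (norm_add_le _ _) _).trans ?_
    rw [norm_neg]
    linarith
  -- the functions on `[0,3]`
  have hIcc : ∀ y ∈ Icc (0 : ℝ) 3, u0 + y ∈ Icc (-2 : ℝ) 2 := fun y hy =>
    ⟨by linarith [hy.1], by linarith [hy.2]⟩
  have hgP : ∀ y ∈ Icc (0 : ℝ) 3, κ ≤ |Real.cos (2 * Real.pi * (F (u0 + y) - M0))| →
      κ ≤ |Real.cos (2 * Real.pi * G (u0 + y))| →
      |g (u0 + y) - (-(q0 + q1 * τ * u0 + q2 * τ ^ 2 * u0 ^ 2) +
        -(q1 * τ + 2 * q2 * τ ^ 2 * u0) * y + -(q2 * τ ^ 2) * y ^ 2 +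
          (sec (F (u0 + y) - M0) + 1 / lam ^ 2 * sec (G (u0 + y))))| ≤ 1 / 4 := by
    intro y hy h1 h2
    rw [cos_sub_int] at h1
    rw [sec_sub_int]
    have h3 := hgq (u0 + y) (hIcc y hy) h1 h2
    refine le_trans (le_of_eq ?_) h3
    congr 1
    ring
  have hBset : ∀ y ∈ {y : ℝ | y ∈ Icc (0 : ℝ) 3 ∧ 1 / 2 < |g (u0 + y)|},
      m + τ * (u0 + y) / R ∈ {t : ℝ | |t - m| ≤ 2 / R ∧
        1 / 2 < (2 * Real.pi * k * R ^ 2) * ‖cont k c s (n + 2) (n' + 2) t‖} := by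
    rintro y ⟨hy, hy2⟩
    refine ⟨?_, ?_⟩
    · have : m + τ * (u0 + y) / R - m = τ * (u0 + y) / R := by ring
      rw [this, abs_div, abs_mul, hτ1, one_mul, abs_of_pos hR0]
      apply div_le_div_of_nonneg_right _ hR0.le
      have := hIcc y hy
      rw [abs_le]; exact ⟨by linarith [this.1], this.2⟩
    · have := hgle (u0 + y)
      linarith
  rcases le_or_gt 4 |lam| with hfar | hnear
  · -- far case
    left
    have hrel : C1 * |lam| ^ 2 / k ≤ 1 / 100 * |lam| := by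
      have hlk : |lam| / k ≤ C1 / Real.sqrt k := by
        rw [div_le_div_iff₀ hk0 hsk0]
        calc |lam| * Real.sqrt k ≤ C1 * Real.sqrt k * Real.sqrt k := by gcongr
          _ = C1 * k := by rw [mul_assoc, hskk]
      have h8 : C1 ^ 2 / Real.sqrt k ≤ 1 / 100 := by
        have h9 : C1 ^ 2 / Real.sqrt k = (4 * C1 ^ 2 / Real.sqrt k) / 4 := by ring
        have h10 : κ ^ 2 / 32 ≤ 1 / 100 := by
          nlinarith only [hκ0, hκ1]
        rw [h9]; linarith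
      calc C1 * |lam| ^ 2 / k = C1 * (|lam| / k) * |lam| := by ring
        _ ≤ C1 * (C1 / Real.sqrt k) * |lam| := by gcongr
        _ = C1 ^ 2 / Real.sqrt k * |lam| := by ring
        _ ≤ 1 / 100 * |lam| := by gcongr
    have habs : |(-σ * lam)| = |lam| := by rw [abs_mul, abs_neg, hσ1, one_mul]
    have hdif : ∀ x ∈ Icc (0 : ℝ) 3, ∀ y ∈ Icc (0 : ℝ) 3,
        |G (u0 + y) - G (u0 + x) - (-σ * lam) * (y - x)| ≤ 1 / 100 * |lam| * |y - x| := by
      intro x hx y hy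
      have h1 := hGaff _ (hIcc x hx) _ (hIcc y hy)
      have h2 : u0 + y - (u0 + x) = y - x := by ring
      rw [h2] at h1
      exact h1.trans (by gcongr)
    have hlin : ∀ x y : ℝ, |(-σ * lam) * (y - x)| = |lam| * |y - x| := by
      intro x y; rw [abs_mul, habs]
    have hres := hbig (fun y => F (u0 + y) - M0) (fun y => G (u0 + y)) (fun y => g (u0 + y))
      (-(q0 + q1 * τ * u0 + q2 * τ ^ 2 * u0 ^ 2)) (-(q1 * τ + 2 * q2 * τ ^ 2 * u0))
      (-(q2 * τ ^ 2)) (1 / lam ^ 2) |lam| (4 * (C1 / k)) κ hfar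
      (by rw [sq_abs]; field_simp; norm_num)
      (by
        have : del ^ 2 ≤ 1 := by nlinarith only [hd0, hd]
        linarith) hκ1
      (fun y hy => hPaff y (hIcc y hy))
      (fun x hx y hy => by
        have h1 := hdif x hx y hy
        have h2 := abs_sub_abs_le_abs_sub ((-σ * lam) * (y - x)) (G (u0 + y) - G (u0 + x))
        rw [abs_sub_comm ((-σ * lam) * (y - x)) (G (u0 + y) - G (u0 + x)), hlin] at h2
        linarith)
      (fun x hx y hy => by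
        have h1 := hdif x hx y hy
        have h2 := abs_sub_abs_le_abs_sub (G (u0 + y) - G (u0 + x)) ((-σ * lam) * (y - x))
        rw [hlin] at h2
        linarith)
      hgP
    have h1 := vol_transfer (m := m) (τ := τ) (u0 := u0) hR0 hτ1 hres.le hBset
    refine le_trans (ENNReal.ofReal_le_ofReal ?_) h1
    apply div_le_div_of_nonneg_right (min_le_right _ _) hR0.le
  · -- near case
    by_cases hbad : volume {y : ℝ | y ∈ Icc (0 : ℝ) 3 ∧ 1 / 2 < |g (u0 + y)|} ≤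
        ENNReal.ofReal (del / 800)
    · right
      refine ⟨hnear.le, ?_⟩
      have hl16 : |lam| ^ 2 ≤ 16 := by nlinarith only [hnear, hl0]
      have hck0 : 0 ≤ C1 / k := by positivity
      have hG16 : ∀ x ∈ Icc (-2 : ℝ) 2, ∀ y ∈ Icc (-2 : ℝ) 2,
          |G y - G x - (-σ * lam) * (y - x)| ≤ 16 * (C1 / k) * |y - x| := by
        intro x hx y hy
        refine (hGaff x hx y hy).trans ?_
        have : C1 * |lam| ^ 2 / k ≤ 16 * (C1 / k) := by
          calc C1 * |lam| ^ 2 / k = |lam| ^ 2 * (C1 / k) := by ring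
            _ ≤ 16 * (C1 / k) := by gcongr
        gcongr
      have hn : 1 ≤ |(-σ * lam)| := by rw [abs_mul, abs_neg, hσ1, one_mul]; exact hl1
      have hsig2 : (-σ * lam) ^ 2 = lam ^ 2 := by
        rw [mul_pow, neg_sq, show σ ^ 2 = σ * σ by ring, hσσ, one_mul]
      obtain ⟨m1, hm1⟩ := RoughX.rough1_of_near (P := fun y => F (u0 + y) - M0)
        (Q := fun y => G (u0 + y)) (g := fun y => g (u0 + y)) (x0 := G (u0 + 0))
        (lam := -σ * lam) (a := 1 / lam ^ 2) (e := del ^ 2 / 10 ^ 10)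
        (q0 := -(q0 + q1 * τ * u0 + q2 * τ ^ 2 * u0 ^ 2))
        (q1 := -(q1 * τ + 2 * q2 * τ ^ 2 * u0)) (q2 := -(q2 * τ ^ 2)) hd0
        (by linarith) hn
        (by
          rw [hsig2]
          have : lam ^ 2 ≠ 0 := by positivity
          rw [one_div, inv_mul_cancel₀ this]; norm_num) le_rfl
        (fun y hy => (hPaff y (hIcc y hy)).trans (by linarith))
        (fun y hy => by
          have h1 := hG16 _ (hIcc 0 (by norm_num)) _ (hIcc y hy)
          have h2 : G (u0 + y) - (G (u0 + 0) + -σ * lam * y) =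
              G (u0 + y) - G (u0 + 0) - -σ * lam * (u0 + y - (u0 + 0)) := by ring
          rw [h2]
          refine h1.trans ?_
          have h3 : |u0 + y - (u0 + 0)| ≤ 3 := by
            rw [abs_le]; constructor <;> linarith [hy.1, hy.2]
          have h4 : 16 * (C1 / k) * |u0 + y - (u0 + 0)| ≤ 16 * (C1 / k) * 3 := by gcongr
          linarith)
        (fun y hy h1 h2 => hgP y hy (by rw [hκ]; exact h1) (by rw [hκ]; exact h2)) hbad
      have hfinal : ∀ (eps : ℝ) (M : ℤ), |eps| = 1 →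
          |G (u0 + 0) + -σ * lam * 0 - eps * 0 - 1 / 2 - m1| ≤ del →
          |G (u0 + 0) + -σ * lam * 3 - eps * 3 - 1 / 2 - m1| ≤ del →
          (M : ℝ) = m1 - eps * M0 →
          ∀ t : ℝ, |t - m| ≤ 2 / R →
          |(Y k c (!s) (n' + 1) (t : ℂ)).re - eps * (Y k c s (n + 1) (t : ℂ)).re - 1 / 2 - M|
            ≤ 3 * del := by
        intro eps M heps h0 h3 hM t ht
        obtain ⟨v, hv⟩ : ∃ v : ℝ, v = τ * R * (t - m) := ⟨_, rfl⟩
        have htv : t = m + τ * v / R := by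
          rw [hv]
          have : τ * (τ * R * (t - m)) / R = (τ * τ) * (t - m) := by
            field_simp
          rw [this, hττ]; ring
        have hvabs : |v| ≤ 2 := by
          rw [hv, abs_mul, abs_mul, hτ1, one_mul, abs_of_pos hR0]
          rw [le_div_iff₀ hR0] at ht
          linarith
        have hvI : v ∈ Icc (-2 : ℝ) 2 := abs_le.mp hvabs
        have hFv : F v = (Y k c s (n + 1) (t : ℂ)).re := by rw [hF, htv]
        have hGv : G v = (Y k c (!s) (n' + 1) (t : ℂ)).re := by rw [hG, htv]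
        rw [← hFv, ← hGv]
        obtain ⟨y, hy⟩ : ∃ y : ℝ, y = v - u0 := ⟨_, rfl⟩
        have hvy : v = u0 + y := by rw [hy]; ring
        have hy1 : -1 ≤ y := by rw [hy]; linarith [hvI.1]
        have hy4 : y ≤ 4 := by rw [hy]; linarith [hvI.2]
        have e1 := mirror_ext h0 h3 hy1 hy4
        have e2 := hPaff y (by rw [← hvy]; exact hvI)
        have e3 := hG16 _ (hIcc 0 (by norm_num)) (u0 + y) (by rw [← hvy]; exact hvI)
        have e4 : |u0 + y - (u0 + 0)| ≤ 4 := by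
          rw [abs_le]; constructor <;> linarith
        have e5 : 16 * (C1 / k) * |u0 + y - (u0 + 0)| ≤ 16 * (C1 / k) * 4 := by gcongr
        have e6 : |G (u0 + y) - G (u0 + 0) - -σ * lam * (u0 + y - (u0 + 0))| ≤
            64 * (C1 / k) := by linarith
        have e7 : |eps * (F (u0 + y) - M0 - y)| ≤ 4 * (C1 / k) := by
          rw [abs_mul, heps, one_mul]; exact e2
        have e8 : 68 * (C1 / k) ≤ 1 / 3 * del := by
          have : del ^ 2 ≤ del := by nlinarith only [hd0, hd]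
          linarith
        rw [hvy]
        have e9 : G (u0 + y) - eps * F (u0 + y) - 1 / 2 - M =
            (G (u0 + y) - G (u0 + 0) - -σ * lam * (u0 + y - (u0 + 0))) -
              eps * (F (u0 + y) - M0 - y) +
              (G (u0 + 0) + -σ * lam * y - eps * y - 1 / 2 - m1) := by
          rw [hM]; ring
        rw [e9]
        refine (abs_add_le _ _).trans ?_
        refine (add_le_add_left (abs_sub _ _) _).trans ?_
        linarith
      rcases hm1 with ⟨_, h⟩ | ⟨_, h⟩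
      · refine ⟨1, m1 - M0, Or.inl rfl, ?_⟩
        refine hfinal 1 (m1 - M0) (by norm_num) ?_ ?_ (by push_cast; ring)
        · refine le_trans (le_of_eq ?_) (h 0 (by norm_num)); congr 1; ring
        · refine le_trans (le_of_eq ?_) (h 3 (by norm_num)); congr 1; ring
      · refine ⟨-1, m1 + M0, Or.inr rfl, ?_⟩
        refine hfinal (-1) (m1 + M0) (by norm_num) ?_ ?_ (by push_cast; ring)
        · refine le_trans (le_of_eq ?_) (h 0 (by norm_num)); congr 1; ring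
        · refine le_trans (le_of_eq ?_) (h 3 (by norm_num)); congr 1; ring
    · left
      push Not at hbad
      have h1 := vol_transfer (m := m) (τ := τ) (u0 := u0) hR0 hτ1 hbad.le hBset
      refine le_trans (ENNReal.ofReal_le_ofReal ?_) h1
      apply div_le_div_of_nonneg_right (min_le_left _ _) hR0.le

theorem roughBig : RoughBigStmt := by
  intro P Q g q0 q1 q2 a lam e kap h1 h2 h3 h4 h5 h6 h7 h8
  exact RoughBigL.rough_big h1 h2 h3 h4 h5 h6 h7 h8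

/-- **RA-LEVEL** with threshold `1/2`: for an arbitrary `Cell3`, dead mass at the next level or
mirror relation. -/
theorem level_half {C1 del : ℝ} (hC1 : 1 ≤ C1) (hd0 : 0 < del) (hd : del ≤ 1 / 10 ^ 4) :
    ∃ c0 : ℝ, 0 < c0 ∧ ∃ k1 : ℝ, ∀ k : ℝ, k1 ≤ k →
      ∀ (c : ℝ) (s : Bool) (n n' : ℕ) (m R lam q0 q1 q2 : ℝ),
      |lam| ≤ C1 * Real.sqrt k → Cell3 k c s n n' m R lam C1 q0 q1 q2 →
      ENNReal.ofReal (c0 / R) ≤ volume {t : ℝ | |t - m| ≤ 2 / R ∧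
        1 / 2 < (2 * Real.pi * k * R ^ 2) * ‖cont k c s (n + 2) (n' + 2) t‖} ∨
      (|lam| ≤ 4 ∧ ∃ (eps : ℝ) (M : ℤ), (eps = 1 ∨ eps = -1) ∧ ∀ t : ℝ, |t - m| ≤ 2 / R →
        |(Y k c (!s) (n' + 1) (t : ℂ)).re - eps * (Y k c s (n + 1) (t : ℂ)).re - 1 / 2 - M|
          ≤ 3 * del) :=
  level_half_of roughBig hC1 hd0 hd

/-- **RA-LEVEL**: for an arbitrary `Cell3`, dead mass at the next level or mirror relation. -/
theorem level {C1 del : ℝ} (hC1 : 1 ≤ C1) (hd0 : 0 < del) (hd : del ≤ 1 / 10 ^ 4) :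
    ∃ c0 : ℝ, 0 < c0 ∧ ∃ k1 : ℝ, ∀ k : ℝ, k1 ≤ k →
      ∀ (c : ℝ) (s : Bool) (n n' : ℕ) (m R lam q0 q1 q2 : ℝ),
      |lam| ≤ C1 * Real.sqrt k → Cell3 k c s n n' m R lam C1 q0 q1 q2 →
      ENNReal.ofReal (c0 / R) ≤ volume {t : ℝ | |t - m| ≤ 2 / R ∧
        1 / 4 < (2 * Real.pi * k * R ^ 2) * ‖cont k c s (n + 2) (n' + 2) t‖} ∨
      (|lam| ≤ 4 ∧ ∃ (eps : ℝ) (M : ℤ), (eps = 1 ∨ eps = -1) ∧ ∀ t : ℝ, |t - m| ≤ 2 / R →
        |(Y k c (!s) (n' + 1) (t : ℂ)).re - eps * (Y k c s (n + 1) (t : ℂ)).re - 1 / 2 - M|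
          ≤ 3 * del) := by
  obtain ⟨c0, hc0, k1, h⟩ := level_half hC1 hd0 hd
  refine ⟨c0, hc0, k1, ?_⟩
  intro k hk c s n n' m R lam q0 q1 q2 hlam hcell
  rcases h k hk c s n n' m R lam q0 q1 q2 hlam hcell with h1 | h1
  · left
    refine h1.trans (measure_mono ?_)
    rintro t ⟨h2, h3⟩
    exact ⟨h2, by linarith⟩
  · exact Or.inr h1

end Crest.Agent.R128.RALevel
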