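import Mathlib
import Crest.Agent.R128.CellA3

/-!
Row 128 (helper79): quadratic Taylor approximation of holomorphic functions with cubic remainder, on discs and
on real intervals, and the version "off a small set of real points a holomorphic function with few zeros is
quadratic up to a small relative error" on top of `CellA.local_const_real`.
-/

set_option autoImplicit false
open Metric Set MeasureTheory
open scoped ENNReal

namespace Crest.Agent.R128.TaylorTwo

/-- Quadratic Taylor approximation with cubic remainder on the half disc. -/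
theorem taylor_two {f : ℂ → ℂ} {x : ℂ} {ρ B : ℝ} (hρ : 0 < ρ)
    (hf : DifferentiableOn ℂ f (ball x ρ)) (hB : ∀ w ∈ ball x ρ, ‖f w - f x‖ ≤ B) :
    ∃ a b : ℂ, a = deriv f x ∧ b = iteratedDeriv 2 f x / 2 ∧ ‖a‖ ≤ B / ρ ∧ ‖b‖ ≤ B / ρ ^ 2 ∧
      ∀ w : ℂ, ‖w - x‖ ≤ ρ / 2 →
        ‖f w - (f x + a * (w - x) + b * (w - x) ^ 2)‖ ≤ 2 * B * (‖w - x‖ / ρ) ^ 3 := by
  have hB0 : 0 ≤ B := (norm_nonneg _).trans (hB x (mem_ball_self hρ))
  set g : ℂ → ℂ := fun w => f w - f x with hg
  have hgd : DifferentiableOn ℂ g (ball x ρ) := hf.sub_const _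
  -- coefficient bounds by letting the radius tend to `ρ`
  have hcoef : ∀ n : ℕ, ‖iteratedDeriv n g x‖ ≤ n.factorial * B / ρ ^ n := by
    intro n
    have hr : ∀ r : ℝ, 0 < r → r < ρ → ‖iteratedDeriv n g x‖ ≤ n.factorial * B / r ^ n := by
      intro r hr hrρ
      refine Complex.norm_iteratedDeriv_le_of_forall_mem_sphere_norm_le n hr ?_ ?_
      · apply DifferentiableOn.diffContOnCl
        rw [closure_ball x hr.ne']
        exact hgd.mono (closedBall_subset_ball hrρ)
      · intro z hz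
        exact hB z (sphere_subset_ball hrρ hz)
    have hlim : Filter.Tendsto (fun r : ℝ => n.factorial * B / r ^ n) (nhdsWithin ρ (Iio ρ))
        (nhds (n.factorial * B / ρ ^ n)) := by
      have : ContinuousAt (fun r : ℝ => n.factorial * B / r ^ n) ρ := by
        exact ContinuousAt.div₀ (f := fun _ : ℝ => (n.factorial : ℝ) * B) (g := fun r : ℝ => r ^ n)
          continuousAt_const (continuous_pow n).continuousAt (pow_ne_zero n hρ.ne')
      exact this.tendsto.mono_left nhdsWithin_le_nhds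
    refine ge_of_tendsto hlim ?_
    have h1 : ∀ᶠ r in nhdsWithin ρ (Iio ρ), 0 < r :=
      nhdsWithin_le_nhds (lt_mem_nhds hρ)
    filter_upwards [h1, self_mem_nhdsWithin] with r h2 h3
    exact hr r h2 h3
  set c : ℕ → ℂ := fun n => (n.factorial : ℂ)⁻¹ * iteratedDeriv n g x with hc
  have hcn : ∀ n, ‖c n‖ ≤ B / ρ ^ n := by
    intro n
    simp only [hc]
    rw [norm_mul, norm_inv, Complex.norm_natCast]
    have hfac : (0 : ℝ) < n.factorial := by exact_mod_cast n.factorial_pos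
    calc (n.factorial : ℝ)⁻¹ * ‖iteratedDeriv n g x‖
        ≤ (n.factorial : ℝ)⁻¹ * (n.factorial * B / ρ ^ n) := by
          have := hcoef n
          gcongr
      _ = B / ρ ^ n := by field_simp
  have hc0 : c 0 = 0 := by simp [hc, hg]
  have hg1 : ∀ n, 1 ≤ n → iteratedDeriv n g x = iteratedDeriv n f x := by
    intro n hn
    obtain ⟨m, rfl⟩ := Nat.exists_eq_succ_of_ne_zero (by omega : n ≠ 0)
    have hd : deriv g = deriv f := by
      funext w
      simp only [hg]
      exact deriv_sub_const _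
    rw [iteratedDeriv_succ', iteratedDeriv_succ', hd]
  refine ⟨deriv f x, iteratedDeriv 2 f x / 2, rfl, rfl, ?_, ?_, ?_⟩
  · have := hcn 1
    simp only [hc] at this
    rw [hg1 1 le_rfl, iteratedDeriv_one] at this
    simpa using this
  · have := hcn 2
    simp only [hc] at this
    rw [hg1 2 (by norm_num)] at this
    have e : ((Nat.factorial 2 : ℕ) : ℂ)⁻¹ * iteratedDeriv 2 f x = iteratedDeriv 2 f x / 2 := by
      simp [Nat.factorial]; ring
    rwa [e] at this
  · intro w hw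
    have hwball : w ∈ ball x ρ := by
      rw [mem_ball, dist_eq_norm]; linarith
    have hs : HasSum (fun n : ℕ => c n * (w - x) ^ n) (g w) := by
      have h0 := Complex.hasSum_taylorSeries_on_ball (r := ρ) (c := x) (z := w) hgd hwball
      have he : (fun n : ℕ => c n * (w - x) ^ n) =
          (fun n : ℕ => (n.factorial : ℂ)⁻¹ • (w - x) ^ n • iteratedDeriv n g x) := by
        funext n
        rw [smul_eq_mul, smul_eq_mul]
        show (n.factorial : ℂ)⁻¹ * iteratedDeriv n g x * (w - x) ^ n = _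
        ring
      rw [he]
      exact h0
    set s : ℝ := ‖w - x‖ / ρ with hsdef
    have hs0 : 0 ≤ s := by positivity
    have hs1 : s ≤ 1 / 2 := by
      rw [hsdef, div_le_iff₀ hρ]; linarith
    have hterm : ∀ n, ‖c n * (w - x) ^ n‖ ≤ B * s ^ n := by
      intro n
      rw [norm_mul, norm_pow, hsdef, div_pow]
      calc ‖c n‖ * ‖w - x‖ ^ n ≤ B / ρ ^ n * ‖w - x‖ ^ n := by
            have := hcn n
            gcongr
        _ = B * (‖w - x‖ ^ n / ρ ^ n) := by ring
    have hsplit := hs.summable.sum_add_tsum_nat_add 3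
    rw [hs.tsum_eq] at hsplit
    have h3 : ∑ i ∈ Finset.range 3, c i * (w - x) ^ i =
        deriv f x * (w - x) + iteratedDeriv 2 f x / 2 * (w - x) ^ 2 := by
      rw [Finset.sum_range_succ, Finset.sum_range_succ, Finset.sum_range_succ,
        Finset.sum_range_zero, hc0]
      have e1 : c 1 = deriv f x := by
        simp only [hc]
        rw [hg1 1 le_rfl, iteratedDeriv_one]
        simp
      have e2 : c 2 = iteratedDeriv 2 f x / 2 := by
        simp only [hc]
        rw [hg1 2 (by norm_num)]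
        simp [Nat.factorial]; ring
      rw [e1, e2]; ring
    rw [h3] at hsplit
    have hfw : f w - (f x + deriv f x * (w - x) + iteratedDeriv 2 f x / 2 * (w - x) ^ 2) =
        ∑' i, c (i + 3) * (w - x) ^ (i + 3) := by
      have : g w = f w - f x := rfl
      rw [this] at hsplit
      linear_combination -hsplit
    rw [hfw]
    have hgeo : HasSum (fun n : ℕ => B * s ^ 3 * (1 / 2) ^ n) (B * s ^ 3 * 2) :=
      hasSum_geometric_two.mul_left (B * s ^ 3)
    have hb : ∀ n : ℕ, ‖c (n + 3) * (w - x) ^ (n + 3)‖ ≤ B * s ^ 3 * (1 / 2) ^ n := by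
      intro n
      refine (hterm (n + 3)).trans ?_
      rw [pow_add]
      have : s ^ n ≤ (1 / 2) ^ n := by gcongr
      calc B * (s ^ n * s ^ 3) = B * s ^ 3 * s ^ n := by ring
        _ ≤ B * s ^ 3 * (1 / 2) ^ n := by gcongr
    refine (tsum_of_norm_bounded hgeo hb).trans (le_of_eq ?_)
    ring

/-- Real version: if `f` is real on the real axis then the coefficients are real. -/
theorem taylor_two_real {f : ℂ → ℂ} {F : ℝ → ℝ} {x ρ B : ℝ} (hρ : 0 < ρ)
    (hf : DifferentiableOn ℂ f (ball (x : ℂ) ρ)) (hB : ∀ w ∈ ball (x : ℂ) ρ, ‖f w - f x‖ ≤ B)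
    (hF : ∀ u : ℝ, |u - x| < ρ → f u = F u) :
    ∃ a b : ℝ, |a| ≤ B / ρ ∧ |b| ≤ B / ρ ^ 2 ∧
      ∀ u : ℝ, |u - x| ≤ ρ / 2 →
        |F u - (F x + a * (u - x) + b * (u - x) ^ 2)| ≤ 2 * B * (|u - x| / ρ) ^ 3 := by
  obtain ⟨a, b, -, -, ha, hb, h⟩ := taylor_two hρ hf hB
  refine ⟨a.re, b.re, (Complex.abs_re_le_norm a).trans ha, (Complex.abs_re_le_norm b).trans hb, ?_⟩
  intro u hu
  have h1 := h (u : ℂ) (by
    rw [← Complex.ofReal_sub, Complex.norm_real, Real.norm_eq_abs]; exact hu)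
  rw [hF u (by linarith), hF x (by simpa using hρ)] at h1
  have h2 := (Complex.abs_re_le_norm _).trans h1
  rw [← Complex.ofReal_sub, Complex.norm_real, Real.norm_eq_abs] at h2
  have e : ((F u : ℂ) - ((F x : ℂ) + a * ((u - x : ℝ) : ℂ) + b * ((u - x : ℝ) : ℂ) ^ 2)).re =
      F u - (F x + a.re * (u - x) + b.re * (u - x) ^ 2) := by
    rw [← Complex.ofReal_pow]
    simp only [Complex.sub_re, Complex.add_re, Complex.ofReal_re, Complex.re_mul_ofReal]
  rwa [e] at h2

/-- **Local quadratic approximation.** Off a set of real points of measure `≤ 2 N δ R` a holomorphic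
function with `M ≤ 2 ^ N m` (so at most `N` zeros) is, on the disc of radius `δ² R / 2`, quadratic
up to the relative error `2 ε (‖w - x‖ / (δ² R)) ^ 3`, `ε = exp (4 N δ) - 1`. -/
theorem local_quad {R M m δ : ℝ} (hR : 0 < R) (hm : 0 < m) {N : ℕ} (hN : 1 ≤ N)
    (hMN : M ≤ 2 ^ N * m) {c : ℂ} {f : ℂ → ℂ} (hf : DiffContOnCl ℂ f (ball c R))
    (hM : ∀ z ∈ closedBall c R, ‖f z‖ ≤ M) (hc : m ≤ ‖f c‖) (hδ : 0 < δ) (hδ1 : δ ≤ 1 / 8) :
    ∃ E : Set ℝ, MeasurableSet E ∧ volume E ≤ ENNReal.ofReal (2 * N * δ * R) ∧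
      ∀ x : ℝ, ‖(x : ℂ) - c‖ ≤ R / 16 → x ∉ E →
        f x ≠ 0 ∧
        (∀ w : ℂ, ‖w - x‖ ≤ δ ^ 2 * R → ‖f w - f x‖ ≤ (Real.exp (4 * N * δ) - 1) * ‖f x‖) ∧
        ∃ a b : ℂ, ‖a‖ ≤ (Real.exp (4 * N * δ) - 1) * ‖f x‖ / (δ ^ 2 * R) ∧
          ‖b‖ ≤ (Real.exp (4 * N * δ) - 1) * ‖f x‖ / (δ ^ 2 * R) ^ 2 ∧
          ∀ w : ℂ, ‖w - x‖ ≤ δ ^ 2 * R / 2 →
            ‖f w - (f x + a * (w - x) + b * (w - x) ^ 2)‖ ≤
              2 * ((Real.exp (4 * N * δ) - 1) * ‖f x‖) * (‖w - x‖ / (δ ^ 2 * R)) ^ 3 := by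
  obtain ⟨E, hE, hEv, h⟩ := CellA.local_const_real hR hm hN hMN hf hM hc hδ hδ1
  refine ⟨E, hE, hEv, ?_⟩
  intro x hx hxE
  have hx0 : f x ≠ 0 := by
    have h0 : ‖(x : ℂ) - x‖ ≤ δ ^ 2 * R := by
      rw [sub_self, norm_zero]; positivity
    exact (h x hx hxE x h0).1
  have hdisc : ∀ w : ℂ, ‖w - x‖ ≤ δ ^ 2 * R → ‖f w - f x‖ ≤ (Real.exp (4 * N * δ) - 1) * ‖f x‖ := by
    intro w hw
    have h1 := (h x hx hxE w hw).2
    have e : f w - f x = (f w / f x - 1) * f x := by field_simp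
    rw [e, norm_mul]
    gcongr
  have hρ : 0 < δ ^ 2 * R := by positivity
  have hsub : ball (x : ℂ) (δ ^ 2 * R) ⊆ ball c R := by
    intro w hw
    rw [mem_ball, dist_eq_norm] at hw ⊢
    have h1 : ‖w - c‖ ≤ ‖w - x‖ + ‖(x : ℂ) - c‖ := by
      have : w - c = (w - x) + ((x : ℂ) - c) := by ring
      rw [this]; exact norm_add_le _ _
    have h2 : δ ^ 2 ≤ 1 / 64 := by nlinarith
    nlinarith
  obtain ⟨a, b, -, -, ha, hb, hab⟩ := taylor_two hρ (hf.differentiableOn.mono hsub)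
    (fun w hw => hdisc w (by rw [mem_ball, dist_eq_norm] at hw; exact hw.le))
  exact ⟨hx0, hdisc, a, b, ha, hb, hab⟩

end Crest.Agent.R128.TaylorTwo
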