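import Mathlib
import Crest.Agent.R128.RoughX
import Crest.Agent.R128.Mirror
import Crest.Agent.R128.TaylorTwo

/-!
Row 128, node ROUGH assembly (second implementation), helper123.
-/

set_option autoImplicit false

namespace Crest.Agent.R128.RoughAsmX

open MeasureTheory Real Set Metric
open Crest.Agent.R128.Rough Crest.Agent.R128.RoughX

/-- the digit -/
noncomputable def Vd (k x : ℝ) : ℝ := 2 + 2 * π * k * Real.cos (2 * π * x)

/-- normalised fresh term `2πk/(P' P2')`, `P2' = V(P) P' - P0'` -/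
noncomputable def dig (k x p1 p0 : ℝ) : ℝ := 2 * π * k / (p1 * (Vd k x * p1 - p0))

theorem dig_sec {k x p1 p0 μ ε κ : ℝ} (hk : 0 < k) (hμ : μ ≠ 0) (hε0 : 0 ≤ ε) (hε : ε ≤ 1 / 10)
    (h1 : |p1 - μ| ≤ ε * |μ|) (h0 : |p0| ≤ ε * |μ|) (hκ : 0 < κ)
    (hκ1 : κ ≤ |Real.cos (2 * π * x)|) (hτ : 3 * ε + 1 / k ≤ κ ^ 2 / 64) :
    |dig k x p1 p0 - 1 / μ ^ 2 * sec x| ≤ 1 / μ ^ 2 * (1 / 16) := by
  have hpi := Real.pi_gt_three
  set c := Real.cos (2 * π * x) with hc
  have hc1 : |c| ≤ 1 := Real.abs_cos_le_one _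
  have hκ2 : κ ≤ 1 := hκ1.trans hc1
  have hk' : 0 < 1 / k := by positivity
  obtain ⟨α, hα⟩ : ∃ α, α = p1 / μ := ⟨_, rfl⟩
  obtain ⟨β, hβ⟩ : ∃ β, β = p0 / μ := ⟨_, rfl⟩
  have hp1 : p1 = μ * α := by rw [hα]; field_simp
  have hp0 : p0 = μ * β := by rw [hβ]; field_simp
  have hμ' : 0 < |μ| := abs_pos.mpr hμ
  have hα1 : |α - 1| ≤ ε := by
    have : |μ| * |α - 1| ≤ ε * |μ| := by
      rw [← abs_mul]
      have e : μ * (α - 1) = p1 - μ := by rw [hp1]; ring
      rw [e]; exact h1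
    have := le_of_mul_le_mul_left (by linarith : |μ| * |α - 1| ≤ |μ| * ε) hμ'
    exact this
  have hβ1 : |β| ≤ ε := by
    have : |μ| * |β| ≤ ε * |μ| := by
      rw [← abs_mul, ← hp0]; exact h0
    exact le_of_mul_le_mul_left (by linarith : |μ| * |β| ≤ |μ| * ε) hμ'
  have hα2 := abs_le.mp hα1
  obtain ⟨D, hD⟩ : ∃ D, D = α ^ 2 * (c + 1 / (π * k)) - α * β / (2 * π * k) := ⟨_, rfl⟩
  have hDc : |D - c| ≤ 3 * ε + 1 / k := by
    have e : D - c = (α ^ 2 - 1) * c + α ^ 2 * (1 / (π * k)) - α * β / (2 * π * k) := by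
      rw [hD]; ring
    rw [e]
    have a1 : |(α ^ 2 - 1) * c| ≤ 3 * ε := by
      rw [abs_mul]
      have : |α ^ 2 - 1| ≤ 3 * ε := by
        have e2 : α ^ 2 - 1 = (α - 1) * (α + 1) := by ring
        rw [e2, abs_mul]
        have h3 : |α + 1| ≤ 3 := by
          rw [abs_le]; constructor <;> linarith [hα2.1, hα2.2]
        nlinarith [abs_nonneg (α - 1), abs_nonneg (α + 1)]
      nlinarith [abs_nonneg c, abs_nonneg (α ^ 2 - 1)]
    have a2 : |α ^ 2 * (1 / (π * k))| ≤ 1 / 2 * (1 / k) := by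
      rw [abs_mul, abs_of_nonneg (sq_nonneg α), abs_of_nonneg (by positivity)]
      have e3 : 1 / (π * k) = 1 / π * (1 / k) := by field_simp
      rw [e3]
      have h4 : 1 / π ≤ 1 / 3 := by
        apply one_div_le_one_div_of_le (by norm_num); linarith
      have h5 : α ^ 2 ≤ 3 / 2 := by nlinarith [hα2.1, hα2.2]
      have h6 : α ^ 2 * (1 / π) ≤ 1 / 2 := by
        have := mul_le_mul h5 h4 (by positivity) (by norm_num)
        linarith
      calc α ^ 2 * (1 / π * (1 / k)) = (α ^ 2 * (1 / π)) * (1 / k) := by ring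
        _ ≤ 1 / 2 * (1 / k) := mul_le_mul_of_nonneg_right h6 hk'.le
    have a3 : |α * β / (2 * π * k)| ≤ 1 / 2 * (1 / k) := by
      rw [abs_div, abs_of_pos (by positivity : 0 < 2 * π * k), abs_mul]
      have h7 : |α| * |β| ≤ 1 := by
        have h8 : |α| ≤ 2 := by
          rw [abs_le]; constructor <;> linarith [hα2.1, hα2.2]
        nlinarith [abs_nonneg α, abs_nonneg β]
      rw [div_le_iff₀ (by positivity)]
      have : 1 / 2 * (1 / k) * (2 * π * k) = π := by field_simp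
      rw [this]; linarith
    calc _ ≤ |(α ^ 2 - 1) * c| + |α ^ 2 * (1 / (π * k))| + |α * β / (2 * π * k)| := by
          refine (abs_sub _ _).trans ?_
          gcongr
          exact abs_add_le _ _
      _ ≤ _ := by linarith
  have hτκ : 3 * ε + 1 / k ≤ κ / 2 := by nlinarith
  have hDlow : κ / 2 ≤ |D| := by
    have h8 : |c| - |D| ≤ |c - D| := abs_sub_abs_le_abs_sub c D
    rw [abs_sub_comm] at h8
    linarith
  have hD0 : D ≠ 0 := by
    intro h; rw [h, abs_zero] at hDlow; linarith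
  have hc0 : c ≠ 0 := by
    intro h; rw [h, abs_zero] at hκ1; linarith
  have hdig : dig k x p1 p0 = 1 / μ ^ 2 * (1 / D) := by
    unfold dig Vd
    rw [← hc, hp1, hp0]
    have e : μ * α * ((2 + 2 * π * k * c) * (μ * α) - μ * β) = 2 * π * k * (μ ^ 2 * D) := by
      rw [hD]; field_simp; ring
    rw [e]
    field_simp
  rw [hdig, sec, ← hc, ← mul_sub, abs_mul, abs_of_pos (by positivity : (0:ℝ) < 1 / μ ^ 2)]
  apply mul_le_mul_of_nonneg_left _ (by positivity)
  have e : 1 / D - 1 / c = (c - D) / (D * c) := by field_simp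
  rw [e, abs_div, abs_mul, abs_sub_comm, div_le_iff₀ (by positivity)]
  have h9 : κ / 2 * κ ≤ |D| * |c| := mul_le_mul hDlow hκ1 hκ.le (abs_nonneg _)
  nlinarith

/-- **Level lemma**: at most `del/800` of bad points forces the mirror relation. -/
theorem level {del ε k lam x0 q0 q1 q2 : ℝ} {P P' P0' Q Q' Q0' f0 : ℝ → ℝ} (hd0 : 0 < del)
    (hd : del ≤ 1 / 10000) (hk : 10 ^ 12 / del ^ 2 ≤ k) (hε0 : 0 ≤ ε) (hε : ε ≤ del ^ 2 / 10 ^ 12)
    (hlam : 1 ≤ |lam|)
    (hP : ∀ y ∈ Icc (0 : ℝ) 3, |P y - y| ≤ del ^ 2 / 10 ^ 10)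
    (hP' : ∀ y ∈ Icc (0 : ℝ) 3, |P' y - 1| ≤ ε) (hP0' : ∀ y ∈ Icc (0 : ℝ) 3, |P0' y| ≤ ε)
    (hQ : ∀ y ∈ Icc (0 : ℝ) 3, |Q y - (x0 + lam * y)| ≤ del ^ 2 / 10 ^ 10)
    (hQ' : ∀ y ∈ Icc (0 : ℝ) 3, |Q' y - lam| ≤ ε * |lam|)
    (hQ0' : ∀ y ∈ Icc (0 : ℝ) 3, |Q0' y| ≤ ε * |lam|)
    (hf : ∀ y ∈ Icc (0 : ℝ) 3, |f0 y - (q0 + q1 * y + q2 * y ^ 2)| ≤ 1 / 8)
    (hbad : volume {y | y ∈ Icc (0 : ℝ) 3 ∧
      1 / 2 < |f0 y + (dig k (P y) (P' y) (P0' y) + dig k (Q y) (Q' y) (Q0' y))|} ≤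
        ENNReal.ofReal (del / 800)) :
    ∃ m : ℤ, (0 < lam ∧ ∀ y ∈ Icc (0 : ℝ) 3, |x0 + lam * y - y - 1 / 2 - m| ≤ del) ∨
      (lam < 0 ∧ ∀ y ∈ Icc (0 : ℝ) 3, |x0 + lam * y + y - 1 / 2 - m| ≤ del) := by
  have hk0 : 0 < k := lt_of_lt_of_le (by positivity) hk
  have hlam0 : lam ≠ 0 := by
    rintro rfl; norm_num at hlam
  have hl2 : 1 ≤ lam ^ 2 := by
    rw [← sq_abs]; nlinarith
  have hk1 : 1 / k ≤ del ^ 2 / 10 ^ 12 := by
    rw [div_le_iff₀ hk0]
    have := mul_le_mul_of_nonneg_left hk (by positivity : 0 ≤ del ^ 2 / 10 ^ 12)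
    have e : del ^ 2 / 10 ^ 12 * (10 ^ 12 / del ^ 2) = 1 := by field_simp
    linarith
  have hε1 : ε ≤ 1 / 10 := by
    refine hε.trans ?_
    have : del ^ 2 ≤ 1 := by nlinarith
    linarith
  have hτ : 3 * ε + 1 / k ≤ (del / 12800) ^ 2 / 64 := by
    have : (del / 12800) ^ 2 / 64 = del ^ 2 / (12800 ^ 2 * 64) := by ring
    rw [this]
    have h2 : 4 * (del ^ 2 / 10 ^ 12) ≤ del ^ 2 / (12800 ^ 2 * 64) := by
      rw [← mul_div_assoc, div_le_div_iff₀ (by norm_num) (by norm_num)]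
      nlinarith [sq_nonneg del]
    linarith
  refine rough1_of_near (q0 := q0) (q1 := q1) (q2 := q2) (a := 1 / lam ^ 2)
    (e := del ^ 2 / 10 ^ 10) (P := P) (Q := Q)
    (g := fun y => f0 y + (dig k (P y) (P' y) (P0' y) + dig k (Q y) (Q' y) (Q0' y)))
    hd0 hd hlam ?_ le_rfl hP hQ ?_ hbad
  · have : 1 / lam ^ 2 * lam ^ 2 = 1 := by field_simp
    rw [this]; norm_num
  · intro y hy hc1 hc2
    have h1 := dig_sec (μ := 1) hk0 one_ne_zero hε0 hε1 (by simpa using hP' y hy)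
      (by simpa using hP0' y hy) (by positivity) hc1 hτ
    have h2 := dig_sec (μ := lam) hk0 hlam0 hε0 hε1 (hQ' y hy) (hQ0' y hy) (by positivity) hc2 hτ
    have h3 := hf y hy
    have h4 : 1 / lam ^ 2 * (1 / 16) ≤ 1 / 16 := by
      have : 1 / lam ^ 2 ≤ 1 := by
        rw [div_le_one (by positivity)]; exact hl2
      linarith
    norm_num at h1
    have h2' := h2.trans h4
    rw [abs_le] at h1 h2' h3 ⊢
    constructor <;> linarith [h1.1, h1.2, h2'.1, h2'.2, h3.1, h3.2]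

/-- lower Vitali count in one dimension with a uniform radius -/
theorem vitali_lower {A B : Set ℝ} {ρ c : ℝ} (hρ : 0 < ρ) (hc : 0 < c)
    (h : ∀ s ∈ A, ENNReal.ofReal c ≤ volume (B ∩ closedBall s ρ)) :
    volume A ≤ ENNReal.ofReal (10 * ρ / c) * volume B := by
  classical
  obtain ⟨u, huA, hdisj, hcov⟩ := Vitali.exists_disjoint_subfamily_covering_enlargement_closedBall
    A (fun s : ℝ => s) (fun _ => ρ) ρ (fun _ _ => le_rfl) 5 (by norm_num)
  have hcount : u.Countable := by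
    refine hdisj.countable_of_nonempty_interior fun s hs => ?_
    refine ⟨s, ?_⟩
    have h1 : ball s ρ ⊆ interior (closedBall s ρ) := ball_subset_interior_closedBall
    exact h1 (mem_ball_self hρ)
  have hsub : A ⊆ ⋃ s ∈ u, closedBall s (5 * ρ) := by
    intro x hx
    obtain ⟨b, hb, hbs⟩ := hcov x hx
    exact mem_biUnion hb (hbs (mem_closedBall_self hρ.le))
  calc volume A ≤ volume (⋃ s ∈ u, closedBall s (5 * ρ)) := measure_mono hsub
    _ ≤ ∑' s : u, volume (closedBall (s : ℝ) (5 * ρ)) := measure_biUnion_le _ hcount _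
    _ ≤ ∑' s : u, ENNReal.ofReal (10 * ρ / c) * volume (B ∩ closedBall (s : ℝ) ρ) := by
        refine ENNReal.tsum_le_tsum fun s => ?_
        rw [Real.volume_closedBall]
        have e : 2 * (5 * ρ) = 10 * ρ / c * c := by field_simp; ring
        rw [e, ENNReal.ofReal_mul (by positivity)]
        exact mul_le_mul_right (h s (huA s.2)) _
    _ = ENNReal.ofReal (10 * ρ / c) * ∑' s : u, volume (B ∩ closedBall (s : ℝ) ρ) := by
        rw [ENNReal.tsum_mul_left]
    _ ≤ ENNReal.ofReal (10 * ρ / c) * volume B := by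
        apply mul_le_mul_right
        have e : ∀ s : u, volume (B ∩ closedBall (s : ℝ) ρ) =
            (volume.restrict B) (closedBall (s : ℝ) ρ) := by
          intro s
          rw [Measure.restrict_apply measurableSet_closedBall, inter_comm]
        simp_rw [e]
        have hd' : Pairwise (Function.onFun Disjoint fun s : u => closedBall (s : ℝ) ρ) := by
          intro s t hst
          exact hdisj s.2 t.2 (fun h => hst (Subtype.ext h))
        haveI : Countable u := hcount.to_subtype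
        rw [← measure_iUnion hd' (fun s => measurableSet_closedBall)]
        calc (volume.restrict B) (⋃ s : u, closedBall (s : ℝ) ρ) ≤ (volume.restrict B) univ :=
              measure_mono (subset_univ _)
          _ = volume B := by rw [Measure.restrict_apply_univ]

end Crest.Agent.R128.RoughAsmX
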