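import Mathlib
import Crest.Agent.R128.RALevel
import Crest.Agent.R128.RAStep
import Crest.Agent.R128.RABroken
import Crest.Agent.R128.RoughAsmX

/-!
Row 128, node RA (helper123): `Loc.RA` from level (117), step (189), broken (123), Vitali.
-/

set_option autoImplicit false

namespace Crest.Agent.R128.RA123

open MeasureTheory Real Set Metric
open Crest.Agent.R128 Crest.Agent.R128.Cell Crest.Agent.R128.CellB Crest.Agent.R128.CellDy
open Crest.Agent.R128.Loc Crest.Agent.R128.RealL

theorem cell3_mono {k c : ℝ} {s : Bool} {n n' : ℕ} {m R lam C1 C q0 q1 q2 : ℝ} (hk : 0 < k)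
    (hC : C1 ≤ C) (h : Cell3 k c s n n' m R lam C1 q0 q1 q2) :
    Cell3 k c s n n' m R lam C q0 q1 q2 := by
  have hR : 0 < R := lt_of_lt_of_le one_pos h.hR
  obtain ⟨σ, hσ, hs⟩ := h.slow
  refine ⟨h.hR, h.hlam, ⟨σ, hσ, fun z hz => (hs z hz).trans ?_⟩, fun z hz => (h.slow0 z hz).trans ?_,
    fun z hz => (h.fast z hz).trans ?_, fun z hz => (h.fast0 z hz).trans ?_, h.quad⟩
  · gcongr
  · gcongr
  · gcongr
  · gcongr

theorem norm_cos_eq {k c : ℝ} {s : Bool} {n : ℕ} {t : ℝ} :
    ‖Complex.cos (2 * Real.pi * Y k c s n (t : ℂ))‖ =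
      |Real.cos (2 * π * (Y k c s n (t : ℂ)).re)| := by
  rw [Y_real k c s n t]
  rw [← Real.norm_eq_abs, ← Complex.norm_real]
  congr 1
  push_cast
  rw [Complex.ofReal_re]

/-- upper bound of the next derivative -/
theorem D_upper {k c : ℝ} {s : Bool} {n n' : ℕ} {m R lam C1 q0 q1 q2 : ℝ} (hk : 1 ≤ k)
    (hC : C1 ≤ k) (h : Cell3 k c s n n' m R lam C1 q0 q1 q2) {t : ℝ} (ht : |t - m| < 4 / R) :
    ‖D k c s (n + 2) (t : ℂ)‖ ≤ 20 * k * R := by
  have hR : 0 < R := lt_of_lt_of_le one_pos h.hR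
  have hk0 : 0 < k := by linarith
  have hmem : (t : ℂ) ∈ ball (m : ℂ) (4 / R) := by
    rw [mem_ball, dist_eq_norm, ← Complex.ofReal_sub, Complex.norm_real, Real.norm_eq_abs]
    exact ht
  obtain ⟨σ, hσ, hs⟩ := h.slow
  have h1 := hs _ hmem
  have h2 := h.slow0 _ hmem
  have hCk : C1 * R / k ≤ R := by
    rw [div_le_iff₀ hk0]
    nlinarith
  have hσR : ‖((σ * R : ℝ) : ℂ)‖ = R := by
    rw [Complex.norm_real, Real.norm_eq_abs, abs_mul, abs_of_pos hR]
    rcases hσ with h | h <;> rw [h] <;> norm_num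
  have h3 : ‖D k c s (n + 1) (t : ℂ)‖ ≤ 2 * R := by
    calc ‖D k c s (n + 1) (t : ℂ)‖ = ‖(D k c s (n + 1) (t : ℂ) - (σ * R : ℝ)) + ((σ * R : ℝ) : ℂ)‖ := by
          ring_nf
      _ ≤ _ := norm_add_le _ _
      _ ≤ R + R := add_le_add (h1.trans hCk) hσR.le
      _ = 2 * R := by ring
  have h4 : ‖D k c s n (t : ℂ)‖ ≤ R := h2.trans hCk
  rw [D_add_two]
  have h5 : ‖dg k c s (t : ℂ) (n + 1)‖ ≤ 2 + 2 * π * k := by
    rw [dg_real, Complex.norm_real, Real.norm_eq_abs]
    refine (abs_add_le _ _).trans ?_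
    rw [abs_of_pos (by norm_num : (0:ℝ) < 2), abs_mul, abs_of_pos (by positivity : 0 < 2 * π * k)]
    have := Real.abs_cos_le_one (2 * π * (Y k c s (n + 1) (t : ℂ)).re)
    have hpk : 0 < 2 * π * k := by positivity
    nlinarith
  have hpi := Real.pi_lt_d2
  calc ‖dg k c s (t : ℂ) (n + 1) * D k c s (n + 1) (t : ℂ) - D k c s n (t : ℂ)‖
      ≤ ‖dg k c s (t : ℂ) (n + 1)‖ * ‖D k c s (n + 1) (t : ℂ)‖ + ‖D k c s n (t : ℂ)‖ := by
        refine (norm_sub_le _ _).trans ?_
        rw [norm_mul]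
    _ ≤ (2 + 2 * π * k) * (2 * R) + R := by
        gcongr
    _ ≤ 20 * k * R := by nlinarith [mul_pos hk0 hR]

theorem ra : Loc.RA := by
  intro C1
  obtain ⟨C, hC⟩ : ∃ C, C = max C1 1 := ⟨_, rfl⟩
  have hC1 : 1 ≤ C := by rw [hC]; exact le_max_right _ _
  have hCC : C1 ≤ C := by rw [hC]; exact le_max_left _ _
  obtain ⟨del, r, kap, cB, hdel, hdel4, hr, hkap, hkap1, hcB, kB, HB⟩ := RABroken.broken hC1
  obtain ⟨cL, hcL, kL, HL⟩ := RALevel.level (del := del) hC1 hdel hdel4
  obtain ⟨C2, hC2, kS, HS⟩ := RAStep.step (C1 := C) (kap := kap) (L := 4) (by linarith) hkap hkap1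
    (by norm_num)
  obtain ⟨del2, hd2⟩ : ∃ d, d = min (r / 6) (1 / 10 ^ 4) := ⟨_, rfl⟩
  have hd20 : 0 < del2 := by rw [hd2]; exact lt_min (by positivity) (by norm_num)
  have hd21 : del2 ≤ 1 / 10 ^ 4 := by rw [hd2]; exact min_le_right _ _
  have hd22 : 3 * del2 < r := by
    have : del2 ≤ r / 6 := by rw [hd2]; exact min_le_left _ _
    linarith
  obtain ⟨cM, hcM, kM, HM⟩ := RALevel.level (del := del2) hC2 hd20 hd21
  obtain ⟨cF, hcF⟩ : ∃ x, x = cB * kap * cM / 1000 := ⟨_, rfl⟩
  have hcF0 : 0 < cF := by rw [hcF]; positivity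
  refine ⟨min cL cF, lt_min hcL hcF0,
    max (max (max kB kL) (max kS kM)) (max C (max (16 / kap) 1)), ?_⟩
  intro k hk c s n n' m R lam q0 q1 q2 hlam hcell
  have kkB : kB ≤ k := le_trans (le_trans (le_max_left _ _) (le_max_left _ _)) (le_trans (le_max_left _ _) hk)
  have kkL : kL ≤ k := le_trans (le_trans (le_max_right _ _) (le_max_left _ _)) (le_trans (le_max_left _ _) hk)
  have kkS : kS ≤ k := le_trans (le_trans (le_max_left _ _) (le_max_right _ _)) (le_trans (le_max_left _ _) hk)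
  have kkM : kM ≤ k := le_trans (le_trans (le_max_right _ _) (le_max_right _ _)) (le_trans (le_max_left _ _) hk)
  have kkC : C ≤ k := le_trans (le_max_left _ _) (le_trans (le_max_right _ _) hk)
  have kkap : 16 / kap ≤ k := le_trans (le_max_left _ _) (le_trans (le_max_right _ _) (le_trans (le_max_right _ _) hk))
  have kk1 : 1 ≤ k := le_trans (le_max_right _ _) (le_trans (le_max_right _ _) (le_trans (le_max_right _ _) hk))
  have hk0 : 0 < k := by linarith
  have hcell' := cell3_mono hk0 hCC hcell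
  have hR : 0 < R := lt_of_lt_of_le one_pos hcell.hR
  have hlam' : |lam| ≤ C * Real.sqrt k :=
    hlam.trans (mul_le_mul_of_nonneg_right hCC (Real.sqrt_nonneg _))
  have hkap16 : 16 ≤ kap * k := by
    rw [div_le_iff₀ hkap] at kkap; linarith
  rcases HL k kkL c s n n' m R lam q0 q1 q2 hlam' hcell' with hdead | ⟨hl4, eps, M, heps, hmir⟩
  · refine le_trans (ENNReal.ofReal_le_ofReal ?_) (hdead.trans (measure_mono ?_))
    · exact div_le_div_of_nonneg_right (min_le_left _ _) hR.le
    · rintro t ⟨h1, h2⟩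
      exact ⟨h1, Or.inl h2⟩
  · have hZ := HB k kkB c s n n' m R lam q0 q1 q2 hl4 hcell' eps M heps hmir
    set B : Set ℝ := {t : ℝ | |t - m| ≤ 2 / R ∧
        (1 / 4 < (2 * Real.pi * k * R ^ 2) * ‖cont k c s (n + 2) (n' + 2) t‖ ∨
         1 / 4 < (2 * Real.pi * k * (min ‖D k c s (n + 2) t‖ ‖D k c (!s) (n' + 2) t‖) ^ 2) *
            ‖cont k c s (n + 3) (n' + 3) t‖)} with hB
    set Z : Set ℝ := {t : ℝ | |t - m| ≤ 3 / 2 / R ∧
        kap ≤ |Real.cos (2 * π * (Y k c s (n + 1) (t : ℂ)).re)| ∧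
        kap ≤ |Real.cos (2 * π * (Y k c (!s) (n' + 1) (t : ℂ)).re)| ∧
        ∀ j : ℤ, r < |(Y k c (!s) (n' + 2) (t : ℂ)).re + (Y k c s (n + 2) (t : ℂ)).re - j / 2| ∧
          r < |(Y k c (!s) (n' + 2) (t : ℂ)).re - (Y k c s (n + 2) (t : ℂ)).re - j / 2|} with hZdef
    have hloc : ∀ t ∈ Z, ENNReal.ofReal (cM / (20 * k * R)) ≤
        volume (B ∩ closedBall t (4 / (kap * k * R))) := by
      rintro t ⟨ht1, ht2, ht3, ht4⟩
      have ht5 : |t - m| ≤ 2 / R := ht1.trans (by
        apply div_le_div_of_nonneg_right _ hR.le; norm_num)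
      obtain ⟨s', a, a', R', lam', q0', q1', q2', hs', hR', hl', hcell2, hlow⟩ :=
        HS k kkS c s n n' m R lam q0 q1 q2 hcell' hl4 t ht5
          (by rw [norm_cos_eq]; exact ht2) (by rw [norm_cos_eq]; exact ht3)
      have hR'0 : 0 < R' := lt_of_lt_of_le one_pos hcell2.hR
      have hR'8 : 8 * R ≤ R' := by nlinarith
      have hlamC2 : |lam'| ≤ C2 * Real.sqrt k := by
        have : 1 ≤ Real.sqrt k := by rw [Real.one_le_sqrt]; exact kk1
        nlinarith
      -- upper bound of R'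
      have htmem : (t : ℂ) ∈ ball (t : ℂ) (4 / R') := mem_ball_self (by positivity)
      have hR'up : R' ≤ 20 * k * R := by
        refine (hlow _ htmem).1.trans (D_upper kk1 kkC hcell' ?_)
        refine ht5.trans_lt ?_
        exact div_lt_div_of_pos_right (by norm_num) hR
      have hball : ∀ u : ℝ, |u - t| ≤ 2 / R' → |u - m| ≤ 2 / R ∧ u ∈ closedBall t (4 / (kap * k * R)) ∧
          R' ≤ ‖D k c s (n + 2) (u : ℂ)‖ ∧ R' ≤ ‖D k c (!s) (n' + 2) (u : ℂ)‖ := by
        intro u hu
        refine ⟨?_, ?_, ?_⟩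
        · have h1 : |u - m| ≤ |u - t| + |t - m| := abs_sub_le _ _ _
          have h2 : 2 / R' ≤ 1 / 4 / R := by
            rw [div_le_div_iff₀ hR'0 hR]; linarith
          have h3 : 1 / 4 / R + 3 / 2 / R ≤ 2 / R := by
            rw [← add_div]; apply div_le_div_of_nonneg_right _ hR.le; norm_num
          linarith
        · rw [mem_closedBall, Real.dist_eq]
          refine hu.trans ?_
          rw [div_le_div_iff₀ hR'0 (by positivity)]
          nlinarith
        · apply hlow
          rw [mem_ball, dist_eq_norm, ← Complex.ofReal_sub, Complex.norm_real, Real.norm_eq_abs]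
          refine hu.trans_lt ?_
          exact div_lt_div_of_pos_right (by norm_num) hR'0
      rcases HM k kkM c s' a a' t R' lam' q0' q1' q2' hlamC2 hcell2 with hd | ⟨-, eps2, M2, heps2, hmir2⟩
      · refine le_trans (ENNReal.ofReal_le_ofReal ?_) (hd.trans (measure_mono ?_))
        · exact div_le_div_of_nonneg_left hcM.le hR'0 hR'up
        · rintro u ⟨hu1, hu2⟩
          obtain ⟨g1, g2, g3, g4⟩ := hball u hu1
          refine ⟨⟨g1, Or.inr ?_⟩, g2⟩
          have hcont : ‖cont k c s' (a + 2) (a' + 2) (u : ℂ)‖ = ‖cont k c s (n + 3) (n' + 3) (u : ℂ)‖ := by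
            rcases hs' with ⟨e1, e2, e3⟩ | ⟨e1, e2, e3⟩
            · rw [e1, e2, e3]
            · rw [e1, e2, e3, RALem.cont_swap]
          rw [hcont] at hu2
          refine hu2.trans_le ?_
          apply mul_le_mul_of_nonneg_right _ (norm_nonneg _)
          apply mul_le_mul_of_nonneg_left _ (by positivity)
          exact pow_le_pow_left₀ hR'0.le (le_min g3 g4) 2
      · exfalso
        have hm := hmir2 t (by rw [sub_self, abs_zero]; positivity)
        have hlt : ∀ x : ℝ, |x| ≤ 3 * del2 → r < |x| → False := fun x h1 h2 => by linarith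
        rcases hs' with ⟨e1, e2, e3⟩ | ⟨e1, e2, e3⟩
        · rw [e1, e2, e3] at hm
          rcases heps2 with h | h
          · refine hlt _ hm ?_
            have := (ht4 (2 * M2 + 1)).2
            push_cast at this
            have e : (Y k c (!s) (n' + 1 + 1) (t : ℂ)).re - eps2 * (Y k c s (n + 1 + 1) (t : ℂ)).re -
                1 / 2 - M2 = (Y k c (!s) (n' + 2) (t : ℂ)).re - (Y k c s (n + 2) (t : ℂ)).re -
                (2 * M2 + 1) / 2 := by rw [h]; ring
            rw [e]; exact this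
          · refine hlt _ hm ?_
            have := (ht4 (2 * M2 + 1)).1
            push_cast at this
            have e : (Y k c (!s) (n' + 1 + 1) (t : ℂ)).re - eps2 * (Y k c s (n + 1 + 1) (t : ℂ)).re -
                1 / 2 - M2 = (Y k c (!s) (n' + 2) (t : ℂ)).re + (Y k c s (n + 2) (t : ℂ)).re -
                (2 * M2 + 1) / 2 := by rw [h]; ring
            rw [e]; exact this
        · rw [e1, e2, e3, Bool.not_not] at hm
          rcases heps2 with h | h
          · refine hlt _ hm ?_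
            have := (ht4 (-(2 * M2 + 1))).2
            push_cast at this
            have e : (Y k c s (n + 1 + 1) (t : ℂ)).re - eps2 * (Y k c (!s) (n' + 1 + 1) (t : ℂ)).re -
                1 / 2 - M2 = -((Y k c (!s) (n' + 2) (t : ℂ)).re - (Y k c s (n + 2) (t : ℂ)).re -
                (-(2 * M2 + 1)) / 2) := by rw [h]; ring
            rw [e, abs_neg]; exact this
          · refine hlt _ hm ?_
            have := (ht4 (2 * M2 + 1)).1
            push_cast at this
            have e : (Y k c s (n + 1 + 1) (t : ℂ)).re - eps2 * (Y k c (!s) (n' + 1 + 1) (t : ℂ)).re -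
                1 / 2 - M2 = (Y k c (!s) (n' + 2) (t : ℂ)).re + (Y k c s (n + 2) (t : ℂ)).re -
                (2 * M2 + 1) / 2 := by rw [h]; ring
            rw [e]; exact this
    have hvit := RoughAsmX.vitali_lower (A := Z) (B := B) (ρ := 4 / (kap * k * R))
      (c := cM / (20 * k * R)) (by positivity) (by positivity) hloc
    have h1 := hZ.trans hvit
    have e1 : 10 * (4 / (kap * k * R)) / (cM / (20 * k * R)) = 800 / (kap * cM) := by
      field_simp; ring
    rw [e1] at h1
    have e2 : ENNReal.ofReal (cB / R) =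
        ENNReal.ofReal (800 / (kap * cM)) * ENNReal.ofReal (cB * kap * cM / 800 / R) := by
      rw [← ENNReal.ofReal_mul (by positivity)]; congr 1; field_simp
    rw [e2] at h1
    have h0 : ENNReal.ofReal (800 / (kap * cM)) ≠ 0 := by
      rw [Ne, ENNReal.ofReal_eq_zero]; push Not; positivity
    have h2 := (ENNReal.mul_le_mul_iff_right h0 ENNReal.ofReal_ne_top).1 h1
    refine le_trans (ENNReal.ofReal_le_ofReal ?_) h2
    apply div_le_div_of_nonneg_right _ hR.le
    refine (min_le_right _ _).trans ?_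
    rw [hcF]
    have : 0 < cB * kap * cM := by positivity
    linarith

end Crest.Agent.R128.RA123
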