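import Crest.Agent.R128.LocD
import Crest.Agent.R128.LocA0

/-!
# Row 128, node LOC-D, second part (helper106): nice points of a cell, for `LocA0.CO` families

No recursion for the positions is needed: it holds up to constants, and translations do not matter.
-/

set_option autoImplicit false

open Set MeasureTheory Metric
open scoped NNReal ENNReal

namespace Crest.Agent.R128.LocD

open Crest.Agent.R128.CellA Crest.Agent.R128.Fresh Crest.Agent.R128.LocA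
open Crest.Agent.R128.Cell Crest.Agent.R128.CellB

/-- translation of the second coordinate -/
def tr (c : ℝ) (p : ℝ × ℝ) : ℝ × ℝ := (p.1, p.2 + c)

theorem ucb_tr {κ : ℝ≥0} {E : Set (ℝ × ℝ)} {ε : ℝ} (hE : UCBound κ E ε) (c : ℝ) :
    UCBound κ (tr c ⁻¹' E) ε := by
  intro g a hg
  have h1 := hE (fun x => g (x - c)) (a + c) (by
    intro x hx y hy
    have h := hg (show x - c ∈ Icc a (a + 1) from ⟨by linarith [hx.1], by linarith [hx.2]⟩)
      (show y - c ∈ Icc a (a + 1) from ⟨by linarith [hy.1], by linarith [hy.2]⟩)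
    have e : edist (x - c) (y - c) = edist x y := by
      rw [edist_dist, edist_dist, Real.dist_eq, Real.dist_eq]
      congr 2
      ring
    rw [e] at h
    exact h)
  have h2 : {x | x ∈ Icc a (a + 1) ∧ (g x, x) ∈ tr c ⁻¹' E} =
      (fun x => x + c) ⁻¹' {x | x ∈ Icc (a + c) (a + c + 1) ∧ (g (x - c), x) ∈ E} := by
    ext x
    simp only [mem_ofPred_eq, mem_preimage, tr, mem_Icc, add_sub_cancel_right]
    constructor
    · rintro ⟨⟨h3, h4⟩, h5⟩
      exact ⟨⟨by linarith, by linarith⟩, h5⟩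
    · rintro ⟨⟨h3, h4⟩, h5⟩
      exact ⟨⟨by linarith, by linarith⟩, h5⟩
  rw [h2, measure_preimage_add_right]
  exact h1

/-- bad pairs for the map with constants -/
def Bdc (k κ₀ : ℝ) : (ℕ → ℝ) → ℕ → Set (ℝ × ℝ)
  | _, 0 => {p | |Real.cos (2 * Real.pi * p.2)| < κ₀}
  | c, j + 1 => st k ⁻¹' (tr (c 0) ⁻¹' Bdc k κ₀ (fun i => c (i + 1)) j)

theorem measurableSet_Bdc (k κ₀ : ℝ) (c : ℕ → ℝ) (j : ℕ) : MeasurableSet (Bdc k κ₀ c j) := by
  induction j generalizing c with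
  | zero =>
    unfold Bdc
    exact measurableSet_lt (by fun_prop) measurable_const
  | succ j ih =>
    unfold Bdc
    refine (measurable_st k) ?_
    have h : Measurable (tr (c 0)) := by unfold tr; fun_prop
    exact h (ih _)

theorem ucb_Bdc {u : ℝ} (hu : 2000000 ≤ u) {κ₀ : ℝ} (hκ₀ : 0 < κ₀) (hκ₁ : κ₀ ≤ 1 / 100)
    (c : ℕ → ℝ) (j : ℕ) (hj : j ≤ 100) :
    UCBound (Real.toNNReal (1 / u ^ 12)) (Bdc (u ^ 24) κ₀ c j) (20 * κ₀ + j * (1000 / u)) := by
  have hu0 : 0 < u := by linarith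
  induction j generalizing c with
  | zero =>
    have h := ucb_zero (k := u ^ 24) hκ₀ (by linarith) (Real.toNNReal (1 / u ^ 12))
    have e : 20 * κ₀ + ((0 : ℕ) : ℝ) * (1000 / u) = 20 * κ₀ := by simp
    rw [e]
    exact h
  | succ j ih =>
    have ih' := ucb_tr (ih (fun i => c (i + 1)) (by omega)) (c 0)
    have hj' : (j : ℝ) ≤ 100 := by exact_mod_cast (by omega : j ≤ 100)
    have h1 : 1000 / u ≤ 1 / 2000 := by
      rw [div_le_div_iff₀ hu0 (by norm_num)]; linarith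
    have h2 : 20 * κ₀ + j * (1000 / u) ≤ 1 := by
      have : (j : ℝ) * (1000 / u) ≤ 100 * (1 / 2000) := by gcongr
      linarith
    have h3 := ucb_step hu (by positivity) h2 ih'
    have e2 : 20 * κ₀ + (j : ℝ) * (1000 / u) + 1000 / u = 20 * κ₀ + ((j + 1 : ℕ) : ℝ) * (1000 / u) := by
      push_cast; ring
    rw [← e2]
    exact h3

theorem mem_Bdc {k κ₀ : ℝ} {Y : ℕ → ℝ → ℝ} {t : ℝ} {c : ℕ → ℝ}
    (hY : ∀ n, Y (n + 2) t = fr k (Y (n + 1) t) - Y n t + c n) (n j : ℕ) :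
    (Y n t, Y (n + 1) t) ∈ Bdc k κ₀ (fun i => c (n + i)) j ↔
      |Real.cos (2 * Real.pi * Y (n + 1 + j) t)| < κ₀ := by
  induction j generalizing n with
  | zero => exact Iff.rfl
  | succ j ih =>
    have h := ih (n + 1)
    have e1 : n + 1 + 1 + j = n + 1 + (j + 1) := by omega
    rw [e1] at h
    rw [← h]
    have e2 : (fun i => c (n + (i + 1))) = fun i => c (n + 1 + i) := by
      funext i; congr 1; omega
    have e3 : tr (c (n + 0)) (st k (Y n t, Y (n + 1) t)) = (Y (n + 1) t, Y (n + 1 + 1) t) := by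
      have h2 : Y (n + 1 + 1) t = fr k (Y (n + 1) t) - Y n t + c n := hY n
      rw [h2]
      rfl
    change tr (c (n + 0)) (st k (Y n t, Y (n + 1) t)) ∈ Bdc k κ₀ (fun i => c (n + (i + 1))) j ↔ _
    rw [e3, e2]

/-- bad digits on a fresh cell, constants allowed in the recursion of the positions -/
theorem bad_digit_c {u : ℝ} (hu : 2000000 ≤ u) {t₀ r : ℝ} (hr : 0 < r) {Y D : ℕ → ℝ → ℝ}
    (h : RO (u ^ 24) (Icc (t₀ - r) (t₀ + r)) Y D) {c : ℕ → ℝ}
    (hY : ∀ n, ∀ t ∈ Icc (t₀ - r) (t₀ + r), Y (n + 2) t = fr (u ^ 24) (Y (n + 1) t) - Y n t + c n)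
    {M : ℕ} {η₁ : ℝ} (hη₁ : 0 ≤ η₁) (hη₁' : η₁ ≤ 1 / 20)
    (hNA : NearAff (Y (M + 1)) (D (M + 1)) (Icc (t₀ - r) (t₀ + r)) (D (M + 1) t₀) η₁)
    (hσ : ∀ t ∈ Icc (t₀ - r) (t₀ + r), |D M t| ≤ 1 / 4 * |D (M + 1) t₀|)
    (hsize : 1 / u ^ 9 ≤ |D (M + 1) t₀| * r)
    {κ₀ : ℝ} (hκ₀ : 0 < κ₀) (hκ₁ : κ₀ ≤ 1 / 100) {j : ℕ} (hj : j ≤ 100) :
    volume {t | t ∈ Icc (t₀ - r) (t₀ + r) ∧ |Real.cos (2 * Real.pi * Y (M + 2 + j) t)| < κ₀} ≤
      ENNReal.ofReal (2 * r * (40 * κ₀ + (2000 * j + 24) / u)) := by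
  have hu0 : 0 < u := by linarith
  have h1 := lap_transfer_u (by linarith : (2000 : ℝ) ≤ u) hr h hη₁ hη₁' hNA hσ hsize
    (measurableSet_Bdc (u ^ 24) κ₀ (fun i => c (M + 1 + i)) j) (by positivity)
    (ucb_Bdc hu hκ₀ hκ₁ _ j hj)
  refine (measure_mono ?_).trans (h1.trans (ENNReal.ofReal_le_ofReal ?_))
  · rintro t ⟨ht, hc⟩
    refine ⟨ht, ?_⟩
    have := (mem_Bdc (k := u ^ 24) (κ₀ := κ₀) (Y := Y) (t := t) (c := c) (fun n => hY n t ht) (M + 1) j).2
    exact this hc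
  · refine mul_le_mul_of_nonneg_left (le_of_eq ?_) (by positivity)
    ring

/-- all bad digits -/
theorem bad_digits_c {u : ℝ} (hu : 10 ^ 9 ≤ u) {t₀ r : ℝ} (hr : 0 < r) {Y D : ℕ → ℝ → ℝ}
    (h : RO (u ^ 24) (Icc (t₀ - r) (t₀ + r)) Y D) {c : ℕ → ℝ}
    (hY : ∀ n, ∀ t ∈ Icc (t₀ - r) (t₀ + r), Y (n + 2) t = fr (u ^ 24) (Y (n + 1) t) - Y n t + c n)
    {M : ℕ} {η₁ : ℝ} (hη₁ : 0 ≤ η₁) (hη₁' : η₁ ≤ 1 / 20)
    (hNA : NearAff (Y (M + 1)) (D (M + 1)) (Icc (t₀ - r) (t₀ + r)) (D (M + 1) t₀) η₁)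
    (hσ : ∀ t ∈ Icc (t₀ - r) (t₀ + r), |D M t| ≤ 1 / 4 * |D (M + 1) t₀|)
    (hsize : 1 / u ^ 9 ≤ |D (M + 1) t₀| * r) {n : ℕ} (hn : n ≤ 20) :
    volume {t | t ∈ Icc (t₀ - r) (t₀ + r) ∧
        ∃ j < n, |Real.cos (2 * Real.pi * Y (M + 2 + j) t)| < 1 / 10000} ≤
      ENNReal.ofReal (2 * r * (1 / 10)) := by
  have hu0 : (0 : ℝ) < u := by linarith [show (0 : ℝ) < 10 ^ 9 by norm_num]
  have hsub : {t | t ∈ Icc (t₀ - r) (t₀ + r) ∧
      ∃ j < n, |Real.cos (2 * Real.pi * Y (M + 2 + j) t)| < 1 / 10000} ⊆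
      ⋃ j ∈ Finset.range n, {t | t ∈ Icc (t₀ - r) (t₀ + r) ∧
        |Real.cos (2 * Real.pi * Y (M + 2 + j) t)| < 1 / 10000} := by
    rintro t ⟨ht, j, hj, hc⟩
    simp only [mem_iUnion, Finset.mem_range, exists_prop]
    exact ⟨j, hj, ht, hc⟩
  refine (measure_mono hsub).trans ((measure_biUnion_finset_le _ _).trans ?_)
  calc ∑ j ∈ Finset.range n, volume {t | t ∈ Icc (t₀ - r) (t₀ + r) ∧
        |Real.cos (2 * Real.pi * Y (M + 2 + j) t)| < 1 / 10000}
      ≤ ∑ j ∈ Finset.range n, ENNReal.ofReal (2 * r * (1 / 200)) := by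
        refine Finset.sum_le_sum fun j hj => ?_
        have hjn : j < n := Finset.mem_range.1 hj
        refine (bad_digit_c (by linarith [show (2000000 : ℝ) ≤ 10 ^ 9 by norm_num]) hr h hY hη₁ hη₁'
          hNA hσ hsize (κ₀ := 1 / 10000) (by norm_num)
          (by norm_num) (by omega : j ≤ 100)).trans (ENNReal.ofReal_le_ofReal ?_)
        refine mul_le_mul_of_nonneg_left ?_ (by positivity)
        have hj20 : (j : ℝ) ≤ 20 := by exact_mod_cast (by omega : j ≤ 20)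
        have h3 : (2000 * (j : ℝ) + 24) / u ≤ 1 / 2000 := by
          rw [div_le_div_iff₀ hu0 (by norm_num)]
          have : (10 : ℝ) ^ 9 ≤ u := hu
          norm_num at this
          nlinarith
        norm_num at h3 ⊢
        linarith
    _ = ENNReal.ofReal (n * (2 * r * (1 / 200))) := by
        rw [Finset.sum_const, Finset.card_range, nsmul_eq_mul,
          ENNReal.ofReal_mul (p := (n : ℝ)) (by positivity), ENNReal.ofReal_natCast]
    _ ≤ ENNReal.ofReal (2 * r * (1 / 10)) := by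
        refine ENNReal.ofReal_le_ofReal ?_
        have hn20 : (n : ℝ) ≤ 20 := by exact_mod_cast hn
        nlinarith

/-- real form of a complex family -/
theorem RO_of_CO {k : ℝ} {S : Set ℂ} {Y D : ℕ → ℂ → ℂ} (h : CO k S Y D) {s : Set ℝ}
    (hs : ∀ t ∈ s, (t : ℂ) ∈ S) :
    RO k s (fun n t => (Y n (t : ℂ)).re) (fun n t => (D n (t : ℂ)).re) := by
  constructor
  · intro n t ht
    exact (h.deriv n t (hs t ht)).real_of_complex.hasDerivWithinAt
  · intro n t ht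
    have h1 := h.step n t (hs t ht)
    have h2 : Y (n + 1) (t : ℂ) = (((Y (n + 1) (t : ℂ)).re : ℝ) : ℂ) := by
      apply Complex.ext
      · simp
      · simp [h.real (n + 1) t]
    rw [h1, h2, cV_ofReal, Complex.sub_re, Complex.re_ofReal_mul, V_coe]
    rfl

theorem norm_D_real {k : ℝ} {S : Set ℂ} {Y D : ℕ → ℂ → ℂ} (h : CO k S Y D) (n : ℕ) (t : ℝ) :
    ‖D n (t : ℂ)‖ = |(D n (t : ℂ)).re| := by
  have h2 : D n (t : ℂ) = (((D n (t : ℂ)).re : ℝ) : ℂ) := by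
    apply Complex.ext
    · simp
    · simp [h.realD n t]
  rw [h2, Complex.norm_real, Real.norm_eq_abs, Complex.ofReal_re]

theorem vv_real {k : ℝ} {S : Set ℂ} {Y D : ℕ → ℂ → ℂ} (h : CO k S Y D) (n : ℕ) (t : ℝ) :
    vv k Y n (t : ℂ) = |Vr k (Y n (t : ℂ)).re| := by
  have h2 : Y n (t : ℂ) = (((Y n (t : ℂ)).re : ℝ) : ℂ) := by
    apply Complex.ext
    · simp
    · simp [h.real n t]
  unfold vv
  rw [h2, cV_ofReal, V_coe, Complex.norm_real, Real.norm_eq_abs, Complex.ofReal_re]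
  rfl

/-- the recursion of the positions holds up to constants -/
theorem exists_const {k : ℝ} {s : Set ℝ} (hs : Convex ℝ s) {Y D : ℕ → ℝ → ℝ} (h : RO k s Y D)
    {t₀ : ℝ} (ht₀ : t₀ ∈ s) :
    ∃ c : ℕ → ℝ, ∀ n, ∀ t ∈ s, Y (n + 2) t = fr k (Y (n + 1) t) - Y n t + c n := by
  refine ⟨fun n => Y (n + 2) t₀ - (fr k (Y (n + 1) t₀) - Y n t₀), ?_⟩
  intro n t ht
  have h1 : ∀ z ∈ s, HasDerivWithinAt (fun z => Y (n + 2) z - (fr k (Y (n + 1) z) - Y n z)) 0 s z := by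
    intro z hz
    have h2 := (hasDerivAt_fr k (Y (n + 1) z)).comp_hasDerivWithinAt z (h.deriv (n + 1) z hz)
    have h3 := (h.deriv (n + 2) z hz).sub (h2.sub (h.deriv n z hz))
    rw [h.step n z hz, sub_self] at h3
    exact h3
  have h4 := hs.norm_image_sub_le_of_norm_hasDerivWithin_le (C := 0) h1 (by simp) ht₀ ht
  rw [zero_mul] at h4
  have h5 := norm_le_zero_iff.1 h4
  simp only at h5 ⊢
  linarith

/-- **Nice points of a cell** (form used by LocA, helper595): `M = n0 + jS` is the index before the exit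
curve; the cell is `[a,b]`, `b - a = ρ`, the base point is any real `t₀` of the cell. -/
theorem nice_points {k : ℝ} (hk : 10 ^ 240 ≤ k) {Y D : ℕ → ℂ → ℂ} {t₀ ρ a b : ℝ} (hρ : 0 < ρ)
    (hab : b - a = ρ) (hat : a ≤ t₀) (htb : t₀ ≤ b)
    (co : CO k (ball (t₀ : ℂ) (2 * ρ)) Y D) {M : ℕ}
    (close : ∀ t ∈ ball (t₀ : ℂ) (2 * ρ), ‖D (M + 1) t - D (M + 1) t₀‖ ≤ 1 / 100 * ‖D (M + 1) t₀‖)
    (prev : ∀ t ∈ ball (t₀ : ℂ) (2 * ρ), ‖D M t‖ ≤ 1 / 5 * ‖D (M + 1) t₀‖)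
    (size : k ^ (-(7 / 20) : ℝ) ≤ ‖D (M + 1) t₀‖ * ρ) :
    volume {t : ℝ | t ∈ Icc a b ∧ ¬ (k ^ (3 / 5 : ℝ) ≤ vv k Y (M + 1) t ∧
      ∀ i, 1 ≤ i → i ≤ 5 → 1 / 10 ^ 4 * k ≤ vv k Y (M + 1 + i) t)} ≤ ENNReal.ofReal (ρ / 8) := by
  have hk0 : 0 < k := by
    have : (0 : ℝ) < 10 ^ 240 := by positivity
    linarith
  have hk1 : 1 ≤ k := by
    have : (1 : ℝ) ≤ 10 ^ 240 := one_le_pow₀ (by norm_num)
    linarith
  set u : ℝ := k ^ (1 / 24 : ℝ) with hu
  have hu24 : u ^ 24 = k := by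
    rw [hu, ← Real.rpow_natCast, ← Real.rpow_mul hk0.le]; norm_num
  have hu10 : (10 : ℝ) ^ 10 ≤ u := by
    rw [hu]
    have h1 : ((10 : ℝ) ^ 240) ^ (1 / 24 : ℝ) ≤ k ^ (1 / 24 : ℝ) :=
      Real.rpow_le_rpow (by positivity) hk (by norm_num)
    have h2 : ((10 : ℝ) ^ 240) ^ (1 / 24 : ℝ) = 10 ^ 10 := by
      rw [← Real.rpow_natCast, ← Real.rpow_natCast, ← Real.rpow_mul (by norm_num)]; norm_num
    rw [← h2]; exact h1
  have hu0 : 0 < u := lt_of_lt_of_le (by positivity) hu10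
  have hu1 : 1 ≤ u := by
    have : (1 : ℝ) ≤ 10 ^ 10 := by norm_num
    linarith
  -- the real family at the midpoint
  set mid : ℝ := (a + b) / 2 with hmid
  set r : ℝ := ρ / 2 with hr
  have hr0 : 0 < r := by positivity
  have hI : Icc (mid - r) (mid + r) = Icc a b := by
    congr 1
    · rw [hmid, hr]; linarith
    · rw [hmid, hr]; linarith
  have hball : ∀ t ∈ Icc a b, (t : ℂ) ∈ ball (t₀ : ℂ) (2 * ρ) := by
    intro t ht
    rw [mem_ball, Complex.dist_eq, ← Complex.ofReal_sub, Complex.norm_real, Real.norm_eq_abs]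
    rw [abs_lt]
    constructor <;> linarith [ht.1, ht.2]
  have hmidI : mid ∈ Icc a b := ⟨by rw [hmid]; linarith, by rw [hmid]; linarith⟩
  have ht₀I : t₀ ∈ Icc a b := ⟨hat, htb⟩
  set Yr : ℕ → ℝ → ℝ := fun n t => (Y n (t : ℂ)).re with hYr
  set Dr : ℕ → ℝ → ℝ := fun n t => (D n (t : ℂ)).re with hDr
  have hRO0 : RO k (Icc a b) Yr Dr := RO_of_CO co hball
  have hRO : RO (u ^ 24) (Icc (mid - r) (mid + r)) Yr Dr := by rw [hu24, hI]; exact hRO0
  obtain ⟨c, hc⟩ := exists_const (convex_Icc a b) hRO0 hmidI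
  set L := ‖D (M + 1) (t₀ : ℂ)‖ with hL
  have hL0 : 0 < L := by
    have h1 : 0 < k ^ (-(7 / 20) : ℝ) := Real.rpow_pos_of_pos hk0 _
    by_contra hcon
    push Not at hcon
    have : L * ρ ≤ 0 := mul_nonpos_of_nonpos_of_nonneg hcon hρ.le
    linarith
  have hDre : ∀ t ∈ Icc a b, |Dr (M + 1) t - Dr (M + 1) t₀| ≤ 1 / 100 * L := by
    intro t ht
    have h1 := close t (hball t ht)
    refine le_trans ?_ h1
    have h2 := Complex.abs_re_le_norm (D (M + 1) (t : ℂ) - D (M + 1) (t₀ : ℂ))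
    rw [Complex.sub_re] at h2
    exact h2
  have hLt : |Dr (M + 1) t₀| = L := (norm_D_real co (M + 1) t₀).symm
  have hLm : 99 / 100 * L ≤ |Dr (M + 1) mid| := by
    have h1 := hDre mid hmidI
    have h2 := abs_sub_abs_le_abs_sub (Dr (M + 1) t₀) (Dr (M + 1) mid)
    rw [abs_sub_comm (Dr (M + 1) t₀)] at h2
    linarith
  have hDne : Dr (M + 1) mid ≠ 0 := abs_pos.1 (lt_of_lt_of_le (by positivity) hLm)
  have hNA : NearAff (Yr (M + 1)) (Dr (M + 1)) (Icc (mid - r) (mid + r)) (Dr (M + 1) mid) (1 / 40) := by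
    rw [hI]
    refine ⟨fun t ht => hRO0.deriv (M + 1) t ht, ?_⟩
    intro t ht
    have h1 := hDre t ht
    have h2 := hDre mid hmidI
    have h3 : |Dr (M + 1) t - Dr (M + 1) mid| ≤ 1 / 100 * L + 1 / 100 * L := by
      have : Dr (M + 1) t - Dr (M + 1) mid =
          (Dr (M + 1) t - Dr (M + 1) t₀) - (Dr (M + 1) mid - Dr (M + 1) t₀) := by ring
      rw [this]
      exact (abs_sub _ _).trans (add_le_add h1 h2)
    linarith
  have hσ : ∀ t ∈ Icc (mid - r) (mid + r), |Dr M t| ≤ 1 / 4 * |Dr (M + 1) mid| := by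
    intro t ht
    rw [hI] at ht
    have h1 := prev t (hball t ht)
    have h2 : |Dr M t| = ‖D M (t : ℂ)‖ := (norm_D_real co M t).symm
    rw [h2]
    linarith
  have hsz1 : u ^ (-(42 / 5) : ℝ) = k ^ (-(7 / 20) : ℝ) := by
    rw [hu, ← Real.rpow_mul hk0.le]; norm_num
  have hsize : 1 / u ^ 9 ≤ |Dr (M + 1) mid| * r := by
    have h1 : 1 / u ^ 9 * 4 ≤ k ^ (-(7 / 20) : ℝ) := by
      rw [← hsz1]
      have h2 : u ^ (-(42 / 5) : ℝ) = 1 / u ^ 9 * u ^ (3 / 5 : ℝ) := by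
        rw [← Real.rpow_natCast, one_div, ← Real.rpow_neg hu0.le, ← Real.rpow_add hu0]; norm_num
      rw [h2]
      have h3 : (4 : ℝ) ≤ u ^ (3 / 5 : ℝ) := by
        calc (4 : ℝ) ≤ ((10 : ℝ) ^ 10) ^ (3 / 5 : ℝ) := by
              rw [← Real.rpow_natCast, ← Real.rpow_mul (by norm_num)]; norm_num
          _ ≤ u ^ (3 / 5 : ℝ) := Real.rpow_le_rpow (by positivity) hu10 (by norm_num)
      gcongr
    have h2 : 99 / 100 * L * (ρ / 2) ≤ |Dr (M + 1) mid| * r := by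
      rw [hr]; gcongr
    have h3 : 0 < L * ρ := by positivity
    nlinarith
  have hbad := bad_digits_c (u := u) (by linarith [show (10 : ℝ) ^ 9 ≤ 10 ^ 10 by norm_num]) hr0 hRO
    (c := c) (by intro n t ht; rw [hI] at ht; rw [hu24]; exact hc n t ht) (η₁ := 1 / 40) (by norm_num)
    (by norm_num) hNA hσ hsize (n := 5) (by norm_num)
  -- the exit digit
  have hexit : volume {t | t ∈ Icc a b ∧ |Vr k (Yr (M + 1) t)| < k ^ (3 / 5 : ℝ)} ≤
      ENNReal.ofReal (ρ / 100) := by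
    set A : ℝ := k ^ (3 / 5 : ℝ) with hA
    have hA0 : 0 ≤ A := Real.rpow_nonneg hk0.le _
    have hV : Measurable (Vr k) := by
      unfold Vr; fun_prop
    have hms : MeasurableSet {x : ℝ | |Vr k x| ≤ A} := measurableSet_le hV.abs measurable_const
    have hper : ∀ x, x ∈ {x : ℝ | |Vr k x| ≤ A} ↔ x + 1 ∈ {x : ℝ | |Vr k x| ≤ A} := by
      intro x; simp only [mem_ofPred_eq, Vr_add_one]
    rw [hI] at hNA
    have h1 := hNA.equidistribution (by linarith : a < b) hDne (by norm_num : (1 / 40 : ℝ) < 1) hms hper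
    have h2 := volume_Vr_small hk1 (r := A) hA0
    have hkA : A / k ≤ k ^ (-(2 / 5) : ℝ) := by
      rw [hA, div_le_iff₀ hk0]
      nth_rewrite 3 [← Real.rpow_one k]
      rw [← Real.rpow_add hk0]; norm_num
    have h3 : ((1 + 1 / 40) * |Dr (M + 1) mid| * (b - a) + 1) / ((1 - 1 / 40) * |Dr (M + 1) mid|) * (A / k) ≤
        ρ / 100 := by
      set l := |Dr (M + 1) mid| with hl
      have hl0 : 0 < l := abs_pos.2 hDne
      have hlρ : k ^ (-(7 / 20) : ℝ) / 2 ≤ l * ρ := by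
        have : 99 / 100 * L * ρ ≤ l * ρ := by gcongr
        nlinarith [mul_pos hL0 hρ]
      have hq0 : 0 < k ^ (-(7 / 20) : ℝ) := Real.rpow_pos_of_pos hk0 _
      have h4 : ((1 + 1 / 40) * l * (b - a) + 1) / ((1 - 1 / 40) * l) ≤ ρ * (6 * k ^ (7 / 20 : ℝ)) := by
        rw [div_le_iff₀ (by positivity), hab]
        have h5 : k ^ (7 / 20 : ℝ) * k ^ (-(7 / 20) : ℝ) = 1 := by
          rw [← Real.rpow_add hk0]; norm_num
        have h6 : 1 ≤ k ^ (7 / 20 : ℝ) := Real.one_le_rpow hk1 (by norm_num)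
        have h7 : 1 ≤ 2 * (l * ρ) * k ^ (7 / 20 : ℝ) := by
          calc (1 : ℝ) = k ^ (7 / 20 : ℝ) * k ^ (-(7 / 20) : ℝ) := h5.symm
            _ ≤ k ^ (7 / 20 : ℝ) * (2 * (l * ρ)) := by gcongr; linarith
            _ = _ := by ring
        have h8 : l * ρ ≤ l * ρ * k ^ (7 / 20 : ℝ) := le_mul_of_one_le_right (by positivity) h6
        nlinarith
      calc ((1 + 1 / 40) * l * (b - a) + 1) / ((1 - 1 / 40) * l) * (A / k)
          ≤ ρ * (6 * k ^ (7 / 20 : ℝ)) * k ^ (-(2 / 5) : ℝ) := by gcongr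
        _ = ρ * (6 * (k ^ (7 / 20 : ℝ) * k ^ (-(2 / 5) : ℝ))) := by ring
        _ = ρ * (6 * k ^ (-(1 / 20) : ℝ)) := by
            rw [← Real.rpow_add hk0]; norm_num
        _ ≤ ρ * (1 / 100) := by
            have h9 : k ^ (-(1 / 20) : ℝ) ≤ 1 / 1000 := by
              rw [Real.rpow_neg hk0.le, inv_eq_one_div]
              refine one_div_le_one_div_of_le (by norm_num) ?_
              calc (1000 : ℝ) ≤ ((10 : ℝ) ^ 240) ^ (1 / 20 : ℝ) := by
                    rw [← Real.rpow_natCast, ← Real.rpow_mul (by norm_num)]; norm_num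
                _ ≤ k ^ (1 / 20 : ℝ) := Real.rpow_le_rpow (by positivity) hk (by norm_num)
            gcongr
            linarith
        _ = ρ / 100 := by ring
    calc volume {t | t ∈ Icc a b ∧ |Vr k (Yr (M + 1) t)| < A}
        ≤ volume (Icc a b ∩ Yr (M + 1) ⁻¹' {x : ℝ | |Vr k x| ≤ A}) := by
          refine measure_mono ?_
          rintro t ⟨ht, h⟩
          exact ⟨ht, h.le⟩
      _ ≤ _ := h1
      _ ≤ ENNReal.ofReal (((1 + 1 / 40) * |Dr (M + 1) mid| * (b - a) + 1) /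
            ((1 - 1 / 40) * |Dr (M + 1) mid|)) * ENNReal.ofReal (A / k) := by gcongr
      _ = ENNReal.ofReal (((1 + 1 / 40) * |Dr (M + 1) mid| * (b - a) + 1) /
            ((1 - 1 / 40) * |Dr (M + 1) mid|) * (A / k)) := by
          rw [← ENNReal.ofReal_mul]
          rw [hab]
          positivity
      _ ≤ ENNReal.ofReal (ρ / 100) := ENNReal.ofReal_le_ofReal h3
  -- conclusion
  have hsub : {t : ℝ | t ∈ Icc a b ∧ ¬ (k ^ (3 / 5 : ℝ) ≤ vv k Y (M + 1) t ∧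
      ∀ i, 1 ≤ i → i ≤ 5 → 1 / 10 ^ 4 * k ≤ vv k Y (M + 1 + i) t)} ⊆
      {t | t ∈ Icc a b ∧ |Vr k (Yr (M + 1) t)| < k ^ (3 / 5 : ℝ)} ∪
      {t | t ∈ Icc (mid - r) (mid + r) ∧
        ∃ j < 5, |Real.cos (2 * Real.pi * Yr (M + 2 + j) t)| < 1 / 10000} := by
    rintro t ⟨ht, hn⟩
    by_cases h1 : k ^ (3 / 5 : ℝ) ≤ vv k Y (M + 1) t
    · right
      refine ⟨by rw [hI]; exact ht, ?_⟩
      by_contra hcon
      push Not at hcon
      apply hn
      refine ⟨h1, ?_⟩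
      intro i hi1 hi5
      have h2 := hcon (i - 1) (by omega)
      rw [show M + 2 + (i - 1) = M + 1 + i by omega] at h2
      rw [vv_real co]
      change 1 / 10 ^ 4 * k ≤ |Vr k (Yr (M + 1 + i) t)|
      set x := Yr (M + 1 + i) t with hx
      unfold Vr
      have h3 : |2 * Real.pi * k * Real.cos (2 * Real.pi * x)| - |(2 : ℝ)| ≤
          |2 + 2 * Real.pi * k * Real.cos (2 * Real.pi * x)| := by
        have := abs_sub_abs_le_abs_sub (2 * Real.pi * k * Real.cos (2 * Real.pi * x)) (-2)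
        rw [abs_neg] at this
        have e : 2 * Real.pi * k * Real.cos (2 * Real.pi * x) - -2 =
            2 + 2 * Real.pi * k * Real.cos (2 * Real.pi * x) := by ring
        rwa [e] at this
      rw [abs_mul, abs_of_nonneg (by positivity : 0 ≤ 2 * Real.pi * k),
        abs_of_pos (by norm_num : (0 : ℝ) < 2)] at h3
      have h4 : 2 * Real.pi * k * (1 / 10000) ≤ 2 * Real.pi * k * |Real.cos (2 * Real.pi * x)| := by
        gcongr
      have h5 := Real.pi_gt_three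
      have h6 : 6 * k * (1 / 10000) ≤ 2 * Real.pi * k * (1 / 10000) := by
        have : 6 * k ≤ 2 * Real.pi * k := by nlinarith
        linarith
      have h7 : (10 : ℝ) ^ 10 ≤ k := by
        have : (10 : ℝ) ^ 10 ≤ 10 ^ 240 := pow_le_pow_right₀ (by norm_num) (by norm_num)
        linarith
      norm_num at h7 ⊢
      linarith
    · left
      push Not at h1
      rw [vv_real co] at h1
      exact ⟨ht, h1⟩
  calc volume _ ≤ volume ({t | t ∈ Icc a b ∧ |Vr k (Yr (M + 1) t)| < k ^ (3 / 5 : ℝ)} ∪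
      {t | t ∈ Icc (mid - r) (mid + r) ∧
        ∃ j < 5, |Real.cos (2 * Real.pi * Yr (M + 2 + j) t)| < 1 / 10000}) := measure_mono hsub
    _ ≤ ENNReal.ofReal (ρ / 100) + ENNReal.ofReal (2 * r * (1 / 10)) :=
        (measure_union_le _ _).trans (add_le_add hexit hbad)
    _ = ENNReal.ofReal (ρ / 100 + 2 * r * (1 / 10)) := by
        rw [← ENNReal.ofReal_add (by positivity) (by positivity)]
    _ ≤ ENNReal.ofReal (ρ / 8) := by
        refine ENNReal.ofReal_le_ofReal ?_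
        rw [hr]; linarith

end Crest.Agent.R128.LocD
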