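import Mathlib

/-!
Row 128 (helper466, interface by helper595), node LocA: the numerical sum of the cubic remainders of one side.
-/

set_option autoImplicit false

namespace Crest.Agent.R128.LocNum

/-- up to `1000` digits -/
theorem side_sum' {k A ρ r0 R b σ : ℝ} {d v rr : ℕ → ℝ} {jS i : ℕ} (hk : 10 ^ 130 ≤ k) (hA0 : 1 ≤ A)
    (hA : 10 ^ 60 * k ^ 2 * Real.sqrt k ≤ A ^ 5) (hρ : 0 < ρ) (hr0 : 0 < r0) (hR : 1 ≤ R * ρ)
    (hR0 : 0 < R) (hb : b = d (jS + i)) (hRb : b ≤ 4 * Real.sqrt k * R) (hi : 3 ≤ i) (hi6 : i ≤ 6)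
    (hJ : jS + i ≤ 1000) (hd : ∀ j ≤ jS + i, 0 < d j)
    (hg : ∀ j < jS + i, v j / 2 * d j ≤ d (j + 1)) (hv : ∀ j ≤ jS, A ≤ v j)
    (hv' : ∀ j, jS < j → j < jS + i → k / 10 ^ 4 ≤ v j)
    (hrr : ∀ j < jS + i, rr j = min r0 (1 / 10 ^ 10 * v j / (k * d j)))
    (h0 : 10 ^ 9 * k * (d 0 * ρ) ≤ (d 0 * r0) ^ 3) (hσ : σ = 4 / R) :
    2 * Real.pi * k * R ^ 2 *
      ∑ j ∈ Finset.range (jS + i), 20 / (d j * d (j + 1)) * (σ / rr j) ^ 3 ≤ 1 / 100 := by
  have hk0 : (0 : ℝ) < k := lt_of_lt_of_le (by norm_num) hk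
  have hk1 : (1 : ℝ) ≤ k := le_trans (by norm_num) hk
  set q := Real.sqrt k with hq
  have hqq : q * q = k := Real.mul_self_sqrt hk0.le
  have hq0 : 0 < q := Real.sqrt_pos.mpr hk0
  have hq1 : (10 : ℝ) ^ 65 ≤ q := by
    rw [hq]
    apply Real.le_sqrt_of_sq_le
    calc ((10 : ℝ) ^ 65) ^ 2 = 10 ^ 130 := by norm_num
      _ ≤ k := hk
  -- `A ≥ 2`
  have hA2 : (2 : ℝ) ≤ A := by
    by_contra hcon
    push Not at hcon
    have h1 : A ^ 5 ≤ 2 ^ 5 := by gcongr
    have h2 : (1 : ℝ) ≤ k ^ 2 := one_le_pow₀ hk1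
    have h3 : (1 : ℝ) ≤ q := le_trans (by norm_num) hq1
    have h4 : (10 : ℝ) ^ 60 * 1 * 1 ≤ 10 ^ 60 * k ^ 2 * q := by gcongr
    have h5 : (10 : ℝ) ^ 60 * 1 * 1 ≤ 2 ^ 5 := h4.trans (hA.trans h1)
    norm_num at h5
  -- all digits are at least `2`
  have hv2 : ∀ j < jS + i, 2 ≤ v j := by
    intro j hj
    rcases Nat.lt_or_ge jS j with h | h
    · have h1 := hv' j h hj
      have h2 : (2 : ℝ) ≤ k / 10 ^ 4 := by
        rw [le_div_iff₀ (by norm_num)]
        exact le_trans (by norm_num) hk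
      linarith
    · exact hA2.trans (hv j h)
  have hstep : ∀ j < jS + i, d j ≤ d (j + 1) := by
    intro j hj
    have h1 := hg j hj
    have h2 := hv2 j hj
    have h3 := hd j hj.le
    nlinarith
  have hmono : ∀ a b' : ℕ, a ≤ b' → b' ≤ jS + i → d a ≤ d b' := by
    intro a b' hab
    induction b', hab using Nat.le_induction with
    | base => intro _; exact le_rfl
    | succ n hn ih => intro h; exact (ih (by omega)).trans (hstep n (by omega))
  have hbpos : 0 < b := by rw [hb]; exact hd _ le_rfl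
  -- the last steps
  have hlast : ∀ j ≤ jS, (k / (2 * 10 ^ 4)) ^ 2 * (v j / 2 * d j) ≤ b := by
    intro j hj
    have h1 := hg (jS + 1) (by omega)
    have h2 := hg (jS + 2) (by omega)
    have h3 : d (jS + 3) ≤ b := by rw [hb]; exact hmono _ _ (by omega) le_rfl
    have h4 : v j / 2 * d j ≤ d (jS + 1) :=
      (hg j (by omega)).trans (hmono (j + 1) (jS + 1) (by omega) (by omega))
    have h5 := hv' (jS + 1) (by omega) (by omega)
    have h6 := hv' (jS + 2) (by omega) (by omega)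
    have h7 : 0 ≤ v j / 2 * d j := by
      have h8 := hv2 j (by omega)
      have h9 := hd j (by omega)
      positivity
    have h10 : k / (2 * 10 ^ 4) * (v j / 2 * d j) ≤ d (jS + 2) := by
      calc k / (2 * 10 ^ 4) * (v j / 2 * d j) ≤ (v (jS + 1) / 2) * d (jS + 1) := by
            apply mul_le_mul _ h4 h7 (by linarith [hv2 (jS + 1) (by omega)])
            rw [div_le_div_iff₀ (by norm_num) (by norm_num)]
            rw [div_le_iff₀ (by norm_num)] at h5
            linarith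
        _ ≤ d (jS + 2) := h1
    calc (k / (2 * 10 ^ 4)) ^ 2 * (v j / 2 * d j)
        = k / (2 * 10 ^ 4) * (k / (2 * 10 ^ 4) * (v j / 2 * d j)) := by ring
      _ ≤ (v (jS + 2) / 2) * d (jS + 2) := by
            apply mul_le_mul _ h10 (by positivity) (by linarith [hv2 (jS + 2) (by omega)])
            rw [div_le_div_iff₀ (by norm_num) (by norm_num)]
            rw [div_le_iff₀ (by norm_num)] at h6
            linarith
      _ ≤ d (jS + 3) := h2
      _ ≤ b := h3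
  -- main inequality
  have hmain : ∀ j < jS + i, 0 < rr j ∧ 10 ^ 9 * k ≤ R * d j * d (j + 1) * rr j ^ 3 := by
    intro j hj
    have hdj := hd j hj.le
    have hdj1 := hd (j + 1) (by omega)
    have hvj := hv2 j hj
    have hvj0 : 0 < v j := by linarith
    have hX : 0 < 1 / 10 ^ 10 * v j / (k * d j) := by positivity
    rcases le_total r0 (1 / 10 ^ 10 * v j / (k * d j)) with hc | hc
    · have e : rr j = r0 := by rw [hrr j hj, min_eq_left hc]
      rw [e]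
      refine ⟨hr0, ?_⟩
      have hd0 := hd 0 (by omega)
      have h1 : d 0 ≤ d j := hmono 0 j (by omega) hj.le
      have h2 : d 0 ≤ d (j + 1) := hmono 0 (j + 1) (by omega) (by omega)
      have h3 : R * d 0 * d 0 * r0 ^ 3 ≤ R * d j * d (j + 1) * r0 ^ 3 := by gcongr
      refine le_trans ?_ h3
      -- `d0 * (R d0 d0 r0^3) = R (d0 r0)^3 ≥ R 10^9 k d0 ρ ≥ 10^9 k d0`
      have h4 : d 0 * (10 ^ 9 * k) ≤ d 0 * (R * d 0 * d 0 * r0 ^ 3) := by
        calc d 0 * (10 ^ 9 * k) = 10 ^ 9 * k * d 0 * 1 := by ring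
          _ ≤ 10 ^ 9 * k * d 0 * (R * ρ) := by
              apply mul_le_mul_of_nonneg_left hR; positivity
          _ = R * (10 ^ 9 * k * (d 0 * ρ)) := by ring
          _ ≤ R * (d 0 * r0) ^ 3 := mul_le_mul_of_nonneg_left h0 hR0.le
          _ = d 0 * (R * d 0 * d 0 * r0 ^ 3) := by ring
      exact le_of_mul_le_mul_left h4 hd0
    · have e : rr j = 1 / 10 ^ 10 * v j / (k * d j) := by rw [hrr j hj, min_eq_right hc]
      rw [e]
      refine ⟨hX, ?_⟩
      -- `b v^4 ≥ 8 * 10^38 k^4 q d_j`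
      have hkey : 8 * 10 ^ 39 * k ^ 4 * q * d j ≤ b * v j ^ 4 := by
        rcases Nat.lt_or_ge jS j with h | h
        · have h1 := hv' j h hj
          have h2 : v j / 2 * d j ≤ b :=
            (hg j hj).trans (by rw [hb]; exact hmono _ _ (by omega) le_rfl)
          have h3 : (k / 10 ^ 4) ^ 5 ≤ v j ^ 5 := by gcongr
          have h4 : 8 * 10 ^ 39 * k ^ 4 * q * 2 ≤ (k / 10 ^ 4) ^ 5 := by
            have h5 : (k / 10 ^ 4) ^ 5 = k ^ 4 * q * (q / 10 ^ 20) := by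
              rw [div_pow]
              rw [show k ^ 5 = k ^ 4 * (q * q) by rw [hqq]; ring]
              ring
            rw [h5]
            have h6 : 8 * 10 ^ 39 * 2 ≤ q / 10 ^ 20 := by
              rw [le_div_iff₀ (by norm_num)]
              exact le_trans (by norm_num) hq1
            calc 8 * 10 ^ 39 * k ^ 4 * q * 2 = k ^ 4 * q * (8 * 10 ^ 39 * 2) := by ring
              _ ≤ k ^ 4 * q * (q / 10 ^ 20) := by gcongr
          calc 8 * 10 ^ 39 * k ^ 4 * q * d j = (8 * 10 ^ 39 * k ^ 4 * q * 2) * (d j / 2) := by ring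
            _ ≤ v j ^ 5 * (d j / 2) := by
                apply mul_le_mul_of_nonneg_right (h4.trans h3); positivity
            _ = (v j / 2 * d j) * v j ^ 4 := by ring
            _ ≤ b * v j ^ 4 := by gcongr
        · have h1 := hv j h
          have h2 := hlast j h
          have h3 : A ^ 5 ≤ v j ^ 5 := by gcongr
          have h4 : 10 ^ 60 * k ^ 2 * q ≤ v j ^ 5 := hA.trans h3
          calc 8 * 10 ^ 39 * k ^ 4 * q * d j
              ≤ (k / (2 * 10 ^ 4)) ^ 2 * (10 ^ 60 * k ^ 2 * q / 2 * d j) := by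
                have h5 : (k / (2 * 10 ^ 4)) ^ 2 * (10 ^ 60 * k ^ 2 * q / 2 * d j) =
                  (10 ^ 60 / (8 * 10 ^ 8)) * (k ^ 4 * q * d j) := by
                  rw [div_pow]; ring
                rw [h5]
                have h6 : 0 ≤ k ^ 4 * q * d j := by positivity
                have h7 : (8 * 10 ^ 39 : ℝ) ≤ 10 ^ 60 / (8 * 10 ^ 8) := by norm_num
                calc 8 * 10 ^ 39 * k ^ 4 * q * d j = 8 * 10 ^ 39 * (k ^ 4 * q * d j) := by ring
                  _ ≤ _ := mul_le_mul_of_nonneg_right h7 h6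
            _ ≤ (k / (2 * 10 ^ 4)) ^ 2 * (v j ^ 5 / 2 * d j) := by gcongr
            _ = ((k / (2 * 10 ^ 4)) ^ 2 * (v j / 2 * d j)) * v j ^ 4 := by ring
            _ ≤ b * v j ^ 4 := by gcongr
      -- `R v^4 ≥ 2 * 10^38 k^4 d_j`
      have hkey2 : 2 * 10 ^ 39 * k ^ 4 * d j ≤ R * v j ^ 4 := by
        have h1 : b * v j ^ 4 ≤ 4 * q * R * v j ^ 4 := by gcongr
        have h2 : (4 * q) * (2 * 10 ^ 39 * k ^ 4 * d j) ≤ (4 * q) * (R * v j ^ 4) := by
          calc (4 * q) * (2 * 10 ^ 39 * k ^ 4 * d j) = 8 * 10 ^ 39 * k ^ 4 * q * d j := by ring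
            _ ≤ b * v j ^ 4 := hkey
            _ ≤ 4 * q * R * v j ^ 4 := h1
            _ = (4 * q) * (R * v j ^ 4) := by ring
        exact le_of_mul_le_mul_left h2 (by positivity)
      have h5 : R * d j * (v j / 2 * d j) * (1 / 10 ^ 10 * v j / (k * d j)) ^ 3 =
          R * v j ^ 4 / (2 * 10 ^ 30 * k ^ 3 * d j) := by
        field_simp
      calc 10 ^ 9 * k ≤ R * v j ^ 4 / (2 * 10 ^ 30 * k ^ 3 * d j) := by
            rw [le_div_iff₀ (by positivity)]
            calc 10 ^ 9 * k * (2 * 10 ^ 30 * k ^ 3 * d j) = 2 * 10 ^ 39 * k ^ 4 * d j := by ring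
              _ ≤ _ := hkey2
        _ = R * d j * (v j / 2 * d j) * (1 / 10 ^ 10 * v j / (k * d j)) ^ 3 := h5.symm
        _ ≤ R * d j * d (j + 1) * (1 / 10 ^ 10 * v j / (k * d j)) ^ 3 := by
            have := hg j hj
            gcongr
  -- each term
  have hterm : ∀ j ∈ Finset.range (jS + i),
      2 * Real.pi * k * R ^ 2 * (20 / (d j * d (j + 1)) * (σ / rr j) ^ 3) ≤ 1 / 10 ^ 5 := by
    intro j hj
    rw [Finset.mem_range] at hj
    obtain ⟨hX, hm⟩ := hmain j hj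
    have hdj := hd j hj.le
    have hdj1 := hd (j + 1) (by omega)
    have e : 2 * Real.pi * k * R ^ 2 * (20 / (d j * d (j + 1)) * (σ / rr j) ^ 3) =
        2560 * Real.pi * k / (R * d j * d (j + 1) * rr j ^ 3) := by
      rw [hσ]
      field_simp
      norm_num
    rw [e, div_le_div_iff₀ (by positivity) (by norm_num)]
    have hpi : Real.pi ≤ 3.15 := by linarith [Real.pi_lt_d2]
    calc 2560 * Real.pi * k * 10 ^ 5 ≤ 2560 * 3.15 * k * 10 ^ 5 := by gcongr
      _ ≤ 1 * (10 ^ 9 * k) := by nlinarith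
      _ ≤ 1 * (R * d j * d (j + 1) * rr j ^ 3) := by linarith
  rw [Finset.mul_sum]
  refine (Finset.sum_le_sum hterm).trans ?_
  rw [Finset.sum_const, Finset.card_range, nsmul_eq_mul]
  have h1 : ((jS + i : ℕ) : ℝ) ≤ 1000 := by exact_mod_cast hJ
  calc ((jS + i : ℕ) : ℝ) * (1 / 10 ^ 5) ≤ 1000 * (1 / 10 ^ 5) := by gcongr
    _ = 1 / 100 := by norm_num

theorem side_sum {k A ρ r0 R b σ : ℝ} {d v rr : ℕ → ℝ} {jS i : ℕ} (hk : 10 ^ 130 ≤ k) (hA0 : 1 ≤ A)
    (hA : 10 ^ 60 * k ^ 2 * Real.sqrt k ≤ A ^ 5) (hρ : 0 < ρ) (hr0 : 0 < r0) (hR : 1 ≤ R * ρ)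
    (hR0 : 0 < R) (hb : b = d (jS + i)) (hRb : b ≤ 4 * Real.sqrt k * R) (hi : 3 ≤ i) (hi6 : i ≤ 6)
    (hJ : jS + i ≤ 100) (hd : ∀ j ≤ jS + i, 0 < d j)
    (hg : ∀ j < jS + i, v j / 2 * d j ≤ d (j + 1)) (hv : ∀ j ≤ jS, A ≤ v j)
    (hv' : ∀ j, jS < j → j < jS + i → k / 10 ^ 4 ≤ v j)
    (hrr : ∀ j < jS + i, rr j = min r0 (1 / 10 ^ 10 * v j / (k * d j)))
    (h0 : 10 ^ 9 * k * (d 0 * ρ) ≤ (d 0 * r0) ^ 3) (hσ : σ = 4 / R) :
    2 * Real.pi * k * R ^ 2 *
      ∑ j ∈ Finset.range (jS + i), 20 / (d j * d (j + 1)) * (σ / rr j) ^ 3 ≤ 1 / 100 :=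
  side_sum' hk hA0 hA hρ hr0 hR hR0 hb hRb hi hi6 (by omega) hd hg hv hv' hrr h0 hσ

end Crest.Agent.R128.LocNum
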