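import Mathlib

/-! Row 128, V5 (helper13): selection of the pair of exit times of the two sides (pure real numbers),
for helper595's LocA.  Sorry free. -/

set_option autoImplicit false

namespace Crest.Agent.R128.LocSel

set_option maxHeartbeats 1000000 in
/-- the scaled form (`ρ = 1`) -/
theorem select1 {k A δ : ℝ} {a b : ℕ → ℝ} (hk : 10 ^ 100 ≤ k) (hA : 10 ^ 40 * k ≤ A ^ 2)
    (hA0 : 10 ^ 40 ≤ A) (hδ : 0 < δ) (hδ1 : δ ≤ 1) (hAδ : 1 ≤ A * δ)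
    (ha0 : δ / 2 ≤ a 0) (ha0' : a 0 ≤ 20 * k * δ) (hb0 : δ / 2 ≤ b 0) (hb0' : b 0 ≤ 20 * k * δ)
    (ha1 : A / 2 * a 0 ≤ a 1) (hb1 : A / 2 * b 0 ≤ b 1)
    (ha : ∀ j, 1 ≤ j → j ≤ 5 → k / 10 ^ 5 * a j ≤ a (j + 1))
    (hb : ∀ j, 1 ≤ j → j ≤ 5 → k / 10 ^ 5 * b j ≤ b (j + 1))
    (ha' : ∀ j ≤ 5, a (j + 1) ≤ 11 * k * a j) (hb' : ∀ j ≤ 5, b (j + 1) ≤ 11 * k * b j) :
    ∃ i j, 3 ≤ i ∧ i ≤ 6 ∧ 3 ≤ j ∧ j ≤ 6 ∧
      ((a i ≤ b j ∧ b j ≤ 4 * Real.sqrt k * a i) ∨ (b j ≤ a i ∧ a i ≤ 4 * Real.sqrt k * b j)) ∧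
      k ≤ a i ∧ k ≤ b j ∧ a i ≤ k ^ 8 ∧ b j ≤ k ^ 8 := by
  have hk0 : 0 < k := lt_of_lt_of_le (by positivity) hk
  have hk1 : 1 ≤ k := le_trans (by norm_num) hk
  have hA0' : 0 < A := lt_of_lt_of_le (by positivity) hA0
  have hs0 : 0 < Real.sqrt k := Real.sqrt_pos.2 hk0
  have hs1 : 1 ≤ Real.sqrt k := by rw [Real.one_le_sqrt]; exact hk1
  have hss : Real.sqrt k * Real.sqrt k = k := Real.mul_self_sqrt hk0.le
  have hsk : Real.sqrt k ≤ k := by nlinarith only [hss, hs1]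
  -- `A ≥ 10^20 √k`
  have hAs : 10 ^ 20 * Real.sqrt k ≤ A := by
    refine le_of_sq_le_sq (a := 10 ^ 20 * Real.sqrt k) ?_ hA0'.le
    calc (10 ^ 20 * Real.sqrt k) ^ 2 = 10 ^ 40 * (Real.sqrt k * Real.sqrt k) := by ring
      _ = 10 ^ 40 * k := by rw [hss]
      _ ≤ A ^ 2 := hA
  -- lower bounds
  have low : ∀ c : ℕ → ℝ, δ / 2 ≤ c 0 → A / 2 * c 0 ≤ c 1 →
      (∀ j, 1 ≤ j → j ≤ 5 → k / 10 ^ 5 * c j ≤ c (j + 1)) →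
      A * δ / 4 ≤ c 1 ∧ k / 10 ^ 5 * (A * δ / 4) ≤ c 2 ∧ k ^ 2 / 10 ^ 10 * (A * δ / 4) ≤ c 3 ∧
      k ^ 3 / 10 ^ 15 * (A * δ / 4) ≤ c 4 ∧ k ^ 4 / 10 ^ 20 * (A * δ / 4) ≤ c 5 ∧
      k ^ 5 / 10 ^ 25 * (A * δ / 4) ≤ c 6 := by
    intro c h0 h1 h
    have e1 : A * δ / 4 ≤ c 1 := by
      calc A * δ / 4 = A / 2 * (δ / 2) := by ring
        _ ≤ A / 2 * c 0 := by gcongr
        _ ≤ c 1 := h1
    have st : ∀ j x, 1 ≤ j → j ≤ 5 → x ≤ c j → k / 10 ^ 5 * x ≤ c (j + 1) := by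
      intro j x hj hj' hx
      exact le_trans (by gcongr) (h j hj hj')
    have e2 := st 1 _ le_rfl (by norm_num) e1
    have e3 := st 2 _ (by norm_num) (by norm_num) e2
    have e4 := st 3 _ (by norm_num) (by norm_num) e3
    have e5 := st 4 _ (by norm_num) (by norm_num) e4
    have e6 := st 5 _ (by norm_num) (by norm_num) e5
    refine ⟨e1, e2, ?_, ?_, ?_, ?_⟩
    · exact le_trans (le_of_eq (by ring)) e3
    · exact le_trans (le_of_eq (by ring)) e4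
    · exact le_trans (le_of_eq (by ring)) e5
    · exact le_trans (le_of_eq (by ring)) e6
  -- upper bounds
  have up : ∀ c : ℕ → ℝ, c 0 ≤ 20 * k * δ → (∀ j ≤ 5, c (j + 1) ≤ 11 * k * c j) →
      c 2 ≤ 2420 * k ^ 3 * δ ∧ c 3 ≤ 26620 * k ^ 4 * δ ∧ c 4 ≤ 292820 * k ^ 5 * δ := by
    intro c h0 h
    have st : ∀ j x, j ≤ 5 → c j ≤ x → c (j + 1) ≤ 11 * k * x := by
      intro j x hj hx
      exact (h j hj).trans (by gcongr)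
    have e1 := st 0 _ (by norm_num) h0
    have e2 := st 1 _ (by norm_num) e1
    have e3 := st 2 _ (by norm_num) e2
    have e4 := st 3 _ (by norm_num) e3
    refine ⟨?_, ?_, ?_⟩
    · exact e2.trans (le_of_eq (by ring))
    · exact e3.trans (le_of_eq (by ring))
    · exact e4.trans (le_of_eq (by ring))
  obtain ⟨la1, la2, la3, la4, la5, la6⟩ := low a ha0 ha1 ha
  obtain ⟨lb1, lb2, lb3, lb4, lb5, lb6⟩ := low b hb0 hb1 hb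
  obtain ⟨ua2, ua3, ua4⟩ := up a ha0' ha'
  obtain ⟨ub2, ub3, ub4⟩ := up b hb0' hb'
  have hkk : (1:ℝ) ≤ k / 10 ^ 5 := by
    rw [le_div_iff₀ (by positivity)]
    exact le_trans (by norm_num) hk
  have ha4 : k ≤ a 4 := by
    refine le_trans ?_ la4
    have h1 : (4 * 10 ^ 15 : ℝ) * k ≤ k ^ 3 := by
      have h0 : (4 * 10 ^ 15 : ℝ) ≤ k := le_trans (by norm_num) hk
      calc (4 * 10 ^ 15 : ℝ) * k ≤ k * k := by gcongr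
        _ = k ^ 2 := by ring
        _ ≤ k ^ 3 := pow_le_pow_right₀ hk1 (by norm_num)
    calc k = (4 * 10 ^ 15 * k) / 10 ^ 15 * (1 / 4) := by ring
      _ ≤ k ^ 3 / 10 ^ 15 * (A * δ / 4) := by gcongr
  have hb3 : k ≤ b 3 := by
    refine le_trans ?_ lb3
    have h1 : (4 * 10 ^ 10 : ℝ) * k ≤ k ^ 2 := by
      have h0 : (4 * 10 ^ 10 : ℝ) ≤ k := le_trans (by norm_num) hk
      calc (4 * 10 ^ 10 : ℝ) * k ≤ k * k := by gcongr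
        _ = k ^ 2 := by ring
    calc k = (4 * 10 ^ 10 * k) / 10 ^ 10 * (1 / 4) := by ring
      _ ≤ k ^ 2 / 10 ^ 10 * (A * δ / 4) := by gcongr
  have hbmono : ∀ j, 3 ≤ j → j ≤ 5 → k ≤ b j → k ≤ b (j + 1) := by
    intro j h3 h5 h1
    calc k = 1 * k := (one_mul k).symm
      _ ≤ k / 10 ^ 5 * b j := by gcongr
      _ ≤ b (j + 1) := hb j (by omega) h5
  have hb4 := hbmono 3 le_rfl (by norm_num) hb3
  have hb5 := hbmono 4 (by norm_num) (by norm_num) hb4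
  have hb6 := hbmono 5 (by norm_num) le_rfl hb5
  have hk8 : ∀ c : ℝ, c ≤ 292820 * k ^ 5 * δ → 4 * Real.sqrt k * c ≤ k ^ 8 := by
    intro c hc
    have h1 : (4 * 292820 : ℝ) ≤ k := le_trans (by norm_num) hk
    calc 4 * Real.sqrt k * c ≤ 4 * Real.sqrt k * (292820 * k ^ 5 * δ) := by gcongr
      _ ≤ 4 * k * (292820 * k ^ 5 * 1) := by gcongr
      _ = (4 * 292820) * k ^ 6 := by ring
      _ ≤ k * k ^ 6 := by gcongr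
      _ = k ^ 7 := by ring
      _ ≤ k ^ 8 := pow_le_pow_right₀ hk1 (by norm_num)
  have ha48 : a 4 ≤ k ^ 8 := by
    have h1 := hk8 _ ua4
    have h2 : a 4 ≤ 4 * Real.sqrt k * a 4 :=
      le_mul_of_one_le_left (hk0.le.trans ha4) (by linarith only [hs1])
    exact h2.trans h1
  -- `b 2 < a 4`, `b 3` is not too big, `a 4 ≤ b 6`
  have h24 : b 3 ≤ 4 * Real.sqrt k * a 4 := by
    calc b 3 ≤ 26620 * k ^ 4 * δ := ub3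
      _ = 26620 * (k ^ 3 * (Real.sqrt k * Real.sqrt k)) * δ := by rw [hss]; ring
      _ ≤ 10 ^ 5 * (k ^ 3 * (Real.sqrt k * Real.sqrt k)) * δ := by gcongr; norm_num
      _ = 4 * Real.sqrt k * (k ^ 3 / 10 ^ 15 * ((10 ^ 20 * Real.sqrt k) * δ / 4)) := by ring
      _ ≤ 4 * Real.sqrt k * (k ^ 3 / 10 ^ 15 * (A * δ / 4)) := by gcongr
      _ ≤ 4 * Real.sqrt k * a 4 := by gcongr
  have h46 : a 4 ≤ b 6 := by
    calc a 4 ≤ 292820 * k ^ 5 * δ := ua4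
      _ ≤ (10 ^ 40 / (4 * 10 ^ 25)) * k ^ 5 * δ := by gcongr; norm_num
      _ = k ^ 5 / 10 ^ 25 * (10 ^ 40 * δ / 4) := by ring
      _ ≤ k ^ 5 / 10 ^ 25 * (A * δ / 4) := by gcongr
      _ ≤ b 6 := lb6
  have step : ∀ j, 3 ≤ j → j ≤ 5 → b j < a 4 → a 4 ≤ b (j + 1) → k ≤ b j → k ≤ b (j + 1) →
      ∃ i j, 3 ≤ i ∧ i ≤ 6 ∧ 3 ≤ j ∧ j ≤ 6 ∧
      ((a i ≤ b j ∧ b j ≤ 4 * Real.sqrt k * a i) ∨ (b j ≤ a i ∧ a i ≤ 4 * Real.sqrt k * b j)) ∧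
      k ≤ a i ∧ k ≤ b j ∧ a i ≤ k ^ 8 ∧ b j ≤ k ^ 8 := by
    intro j h3 h5 hlt hle h1 h1'
    rcases le_or_gt (b (j + 1)) (4 * Real.sqrt k * a 4) with h | h
    · exact ⟨4, j + 1, by norm_num, by norm_num, by omega, by omega, Or.inl ⟨hle, h⟩, ha4, h1',
        ha48, h.trans (hk8 _ ua4)⟩
    · refine ⟨4, j, by norm_num, by norm_num, h3, by omega, Or.inr ⟨hlt.le, ?_⟩, ha4, h1, ha48,
        hlt.le.trans ha48⟩
      have h2 := hb' j h5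
      have h4 : 4 * Real.sqrt k * a 4 ≤ 11 * (Real.sqrt k * Real.sqrt k) * b j := by
        rw [hss]; linarith only [h, h2]
      have h6 : Real.sqrt k * (4 * a 4) ≤ Real.sqrt k * (11 * Real.sqrt k * b j) := by
        calc Real.sqrt k * (4 * a 4) = 4 * Real.sqrt k * a 4 := by ring
          _ ≤ 11 * (Real.sqrt k * Real.sqrt k) * b j := h4
          _ = Real.sqrt k * (11 * Real.sqrt k * b j) := by ring
      have h7 : 4 * a 4 ≤ 11 * Real.sqrt k * b j := le_of_mul_le_mul_left h6 hs0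
      have h8 : 0 ≤ Real.sqrt k * b j := mul_nonneg hs0.le (hk0.le.trans h1)
      linarith only [h7, h8]
  rcases lt_or_ge (b 3) (a 4) with h3 | h3
  · rcases lt_or_ge (b 4) (a 4) with h4 | h4
    · rcases lt_or_ge (b 5) (a 4) with h5 | h5
      · exact step 5 (by norm_num) le_rfl h5 h46 hb5 hb6
      · exact step 4 (by norm_num) (by norm_num) h4 h5 hb4 hb5
    · exact step 3 le_rfl (by norm_num) h3 h4 hb3 hb4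
  · exact ⟨4, 3, by norm_num, by norm_num, by norm_num, by norm_num, Or.inl ⟨h3, h24⟩, ha4, hb3,
      ha48, h24.trans (hk8 _ ua4)⟩

/-- **Selection of the pair of exit times**, with the lower bound `k / ρ`. -/
theorem select_k {k A δ ρ : ℝ} {a b : ℕ → ℝ} (hk : 10 ^ 100 ≤ k) (hA : 10 ^ 40 * k ≤ A ^ 2)
    (hA0 : 10 ^ 40 ≤ A) (hδ : 0 < δ) (hδ1 : δ ≤ 1) (hAδ : 1 ≤ A * δ) (hρ : 0 < ρ)
    (ha0 : δ / 2 ≤ a 0 * ρ) (ha0' : a 0 * ρ ≤ 20 * k * δ)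
    (hb0 : δ / 2 ≤ b 0 * ρ) (hb0' : b 0 * ρ ≤ 20 * k * δ)
    (ha1 : A / 2 * a 0 ≤ a 1) (hb1 : A / 2 * b 0 ≤ b 1)
    (ha : ∀ j, 1 ≤ j → j ≤ 5 → k / 10 ^ 5 * a j ≤ a (j + 1))
    (hb : ∀ j, 1 ≤ j → j ≤ 5 → k / 10 ^ 5 * b j ≤ b (j + 1))
    (ha' : ∀ j ≤ 5, a (j + 1) ≤ 11 * k * a j) (hb' : ∀ j ≤ 5, b (j + 1) ≤ 11 * k * b j) :
    ∃ i j, 3 ≤ i ∧ i ≤ 6 ∧ 3 ≤ j ∧ j ≤ 6 ∧
      ((a i ≤ b j ∧ b j ≤ 4 * Real.sqrt k * a i) ∨ (b j ≤ a i ∧ a i ≤ 4 * Real.sqrt k * b j)) ∧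
      k ≤ a i * ρ ∧ k ≤ b j * ρ ∧ a i * ρ ≤ k ^ 8 ∧ b j * ρ ≤ k ^ 8 := by
  have key : ∀ x y z : ℝ, x * y ≤ z → x * (y * ρ) ≤ z * ρ := by
    intro x y z h
    rw [← mul_assoc]
    exact mul_le_mul_of_nonneg_right h hρ.le
  obtain ⟨i, j, h1, h2, h3, h4, h5, h6, h7, h8, h9⟩ := select1 (a := fun n => a n * ρ)
    (b := fun n => b n * ρ) hk hA hA0 hδ hδ1 hAδ ha0 ha0' hb0 hb0'
    (key _ _ _ ha1) (key _ _ _ hb1) (fun j h1 h2 => key _ _ _ (ha j h1 h2))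
    (fun j h1 h2 => key _ _ _ (hb j h1 h2))
    (fun j h => by
      have := mul_le_mul_of_nonneg_right (ha' j h) hρ.le
      show a (j + 1) * ρ ≤ 11 * k * (a j * ρ)
      linarith [mul_assoc (11 * k) (a j) ρ])
    (fun j h => by
      have := mul_le_mul_of_nonneg_right (hb' j h) hρ.le
      show b (j + 1) * ρ ≤ 11 * k * (b j * ρ)
      linarith [mul_assoc (11 * k) (b j) ρ])
  refine ⟨i, j, h1, h2, h3, h4, ?_, h6, h7, h8, h9⟩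
  · rcases h5 with ⟨h5, h5'⟩ | ⟨h5, h5'⟩
    · left
      refine ⟨le_of_mul_le_mul_right h5 hρ, le_of_mul_le_mul_right ?_ hρ⟩
      calc b j * ρ ≤ 4 * Real.sqrt k * (a i * ρ) := h5'
        _ = 4 * Real.sqrt k * a i * ρ := by ring
    · right
      refine ⟨le_of_mul_le_mul_right h5 hρ, le_of_mul_le_mul_right ?_ hρ⟩
      calc a i * ρ ≤ 4 * Real.sqrt k * (b j * ρ) := h5'
        _ = 4 * Real.sqrt k * b j * ρ := by ring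

/-- **Selection of the pair of exit times** (helper595's statement). -/
theorem select {k A δ ρ : ℝ} {a b : ℕ → ℝ} (hk : 10 ^ 100 ≤ k) (hA : 10 ^ 40 * k ≤ A ^ 2)
    (hA0 : 10 ^ 40 ≤ A) (hδ : 0 < δ) (hδ1 : δ ≤ 1) (hAδ : 1 ≤ A * δ) (hρ : 0 < ρ)
    (ha0 : δ / 2 ≤ a 0 * ρ) (ha0' : a 0 * ρ ≤ 20 * k * δ)
    (hb0 : δ / 2 ≤ b 0 * ρ) (hb0' : b 0 * ρ ≤ 20 * k * δ)
    (ha1 : A / 2 * a 0 ≤ a 1) (hb1 : A / 2 * b 0 ≤ b 1)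
    (ha : ∀ j, 1 ≤ j → j ≤ 5 → k / 10 ^ 5 * a j ≤ a (j + 1))
    (hb : ∀ j, 1 ≤ j → j ≤ 5 → k / 10 ^ 5 * b j ≤ b (j + 1))
    (ha' : ∀ j ≤ 5, a (j + 1) ≤ 11 * k * a j) (hb' : ∀ j ≤ 5, b (j + 1) ≤ 11 * k * b j) :
    ∃ i j, 3 ≤ i ∧ i ≤ 6 ∧ 3 ≤ j ∧ j ≤ 6 ∧
      ((a i ≤ b j ∧ b j ≤ 4 * Real.sqrt k * a i) ∨ (b j ≤ a i ∧ a i ≤ 4 * Real.sqrt k * b j)) ∧
      1 / ρ ≤ a i ∧ 1 / ρ ≤ b j ∧ a i * ρ ≤ k ^ 8 ∧ b j * ρ ≤ k ^ 8 := by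
  have hk1 : 1 ≤ k := le_trans (by norm_num) hk
  obtain ⟨i, j, h1, h2, h3, h4, h5, h6, h7, h8, h9⟩ :=
    select_k hk hA hA0 hδ hδ1 hAδ hρ ha0 ha0' hb0 hb0' ha1 hb1 ha hb ha' hb'
  refine ⟨i, j, h1, h2, h3, h4, h5, ?_, ?_, h8, h9⟩
  · rw [div_le_iff₀ hρ]; exact hk1.trans h6
  · rw [div_le_iff₀ hρ]; exact hk1.trans h7

end Crest.Agent.R128.LocSel
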