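import Crest.Agent.R128.LocA3
import Crest.Agent.R128.LocNum
import Crest.Agent.R128.LocD2
import Crest.Agent.R128.LocSel

/-!
# LocA, from the base point to the set of good centres (row 128, helper595)
-/

set_option autoImplicit false

open MeasureTheory Metric Set
open Crest.Agent.R128 Crest.Agent.R128.Cell Crest.Agent.R128.CellB

namespace Crest.Agent.R128.LocA

theorem sideSum : SideSum := by
  intro k A ρ r0 R b σ d v rr jS i hk hA0 hA hρ hr0 hR hR0 hb hRb hi hi6 hJ hd hg hv hv' hrr h0 hσ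
  exact LocNum.side_sum hk hA0 hA hρ hr0 hR hR0 hb hRb hi hi6 hJ hd hg hv hv' hrr h0 hσ

/-- base data of one side at the (very fresh) point `t₀`: `n0 + 1` = foot index, `M + 1` regular
digits after it, half length `r` of the cell -/
structure Base (k c : ℝ) (s : Bool) (n0 M : ℕ) (t₀ r0 r : ℝ) : Prop where
  r0_pos : 0 < r0
  r_pos : 0 < r
  close : ∀ t ∈ ball (t₀ : ℂ) (2 * r0),
    ‖Loc.D k c s (n0 + 1) t - Loc.D k c s (n0 + 1) t₀‖ ≤ 1 / 2500 * ‖Loc.D k c s (n0 + 1) t₀‖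
  prev : ∀ t ∈ ball (t₀ : ℂ) (2 * r0), ‖Loc.D k c s n0 t‖ ≤ 99 / 100 * ‖Loc.D k c s (n0 + 1) t₀‖
  ne : Loc.D k c s (n0 + 1) t₀ ≠ 0
  small : 10 ^ 11 * k * (‖Loc.D k c s (n0 + 1) t₀‖ * r0) ≤ k ^ (3 / 5 : ℝ)
  old : 10 ^ 11 * k * (‖Loc.D k c s (n0 + 1) t₀‖ * r) ≤ (‖Loc.D k c s (n0 + 1) t₀‖ * r0) ^ 3
  lower : 1 ≤ k ^ 61 * (‖Loc.D k c s (n0 + 1) t₀‖ * (2 * r))
  dig : ∀ j < M, k ^ (2 / 3 : ℝ) ≤ ‖cV k (Loc.Y k c s (n0 + 1 + j) t₀)‖
  big : k ^ (-(7 / 20) : ℝ) ≤ ‖Loc.D k c s (n0 + 1 + M) t₀‖ * (2 * r)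

/-- the basic parameter `u = k^(1/60)` -/
structure UU (k u : ℝ) : Prop where
  u_large : 10 ^ 16 ≤ u
  k_eq : k = u ^ 60
  e23 : k ^ (2 / 3 : ℝ) = u ^ 40
  e35 : k ^ (3 / 5 : ℝ) = u ^ 36
  e720 : k ^ (-(7 / 20) : ℝ) = 1 / u ^ 21
  sq : Real.sqrt k = u ^ 30

theorem exists_u {k : ℝ} (hk : 10 ^ 1000 ≤ k) : ∃ u, UU k u := by
  have hk0 : 0 < k := lt_of_lt_of_le (by positivity) hk
  have hu0 : 0 < k ^ (1 / 60 : ℝ) := Real.rpow_pos_of_pos hk0 _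
  have h60 : (k ^ (1 / 60 : ℝ)) ^ 60 = k := by
    rw [← Real.rpow_natCast, ← Real.rpow_mul hk0.le]; norm_num
  refine ⟨k ^ (1 / 60 : ℝ), ?_, h60.symm, ?_, ?_, ?_, ?_⟩
  · have h1 : ((10 : ℝ) ^ 960) ^ (1 / 60 : ℝ) ≤ k ^ (1 / 60 : ℝ) := by
      refine Real.rpow_le_rpow (by positivity) (le_trans ?_ hk) (by norm_num)
      exact pow_le_pow_right₀ (by norm_num) (by norm_num)
    have h2 : ((10 : ℝ) ^ 960) ^ (1 / 60 : ℝ) = 10 ^ 16 := by
      rw [← Real.rpow_natCast, ← Real.rpow_natCast, ← Real.rpow_mul (by norm_num)]; norm_num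
    rw [← h2]; exact h1
  · rw [← Real.rpow_natCast, ← Real.rpow_mul hk0.le]; norm_num
  · rw [← Real.rpow_natCast, ← Real.rpow_mul hk0.le]; norm_num
  · rw [one_div, ← Real.rpow_natCast, ← Real.rpow_mul hk0.le, ← Real.rpow_neg hk0.le]; norm_num
  · rw [Real.sqrt_eq_rpow, ← Real.rpow_natCast, ← Real.rpow_mul hk0.le]; norm_num

section num
variable {k u : ℝ}

theorem UU.u_pos (h : UU k u) : 0 < u := lt_of_lt_of_le (by positivity) h.u_large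

theorem UU.pow_ge (h : UU k u) (n : ℕ) : (10 : ℝ) ^ (16 * n) ≤ u ^ n := by
  rw [pow_mul]
  exact pow_le_pow_left₀ (by positivity) h.u_large n

theorem UU.numB (h : UU k u) {ρ : ℝ} (hρ : 0 < ρ) : NumB k (u ^ 36) (1 / u ^ 21) ρ := by
  have hu0 := h.u_pos
  have hk := h.k_eq
  constructor
  · rw [hk]
    refine le_trans ?_ (h.pow_ge 60)
    exact pow_le_pow_right₀ (by norm_num) (by norm_num)
  · rw [h.sq, hk]
    have h1 : (10 : ℝ) ^ 60 ≤ u ^ 30 :=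
      le_trans (pow_le_pow_right₀ (by norm_num) (by norm_num)) (h.pow_ge 30)
    calc (10 : ℝ) ^ 60 * (u ^ 60) ^ 2 * u ^ 30 ≤ u ^ 30 * (u ^ 60) ^ 2 * u ^ 30 := by gcongr
      _ = (u ^ 36) ^ 5 := by ring
  · rw [hk]
    have h1 : (10 : ℝ) ^ 40 ≤ u ^ 12 :=
      le_trans (pow_le_pow_right₀ (by norm_num) (by norm_num)) (h.pow_ge 12)
    calc (10 : ℝ) ^ 40 * u ^ 60 ≤ u ^ 12 * u ^ 60 := by gcongr
      _ = (u ^ 36) ^ 2 := by ring
  · rw [hk, le_div_iff₀ (by positivity)]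
    have h1 : (10 : ℝ) ^ 4 ≤ u ^ 24 :=
      le_trans (pow_le_pow_right₀ (by norm_num) (by norm_num)) (h.pow_ge 24)
    calc u ^ 36 * 10 ^ 4 ≤ u ^ 36 * u ^ 24 := by gcongr
      _ = u ^ 60 := by ring
  · exact le_trans (pow_le_pow_right₀ (by norm_num) (by norm_num)) (h.pow_ge 36)
  · positivity
  · rw [div_le_one (by positivity)]
    exact one_le_pow₀ (by linarith [h.u_large])
  · rw [mul_one_div, one_le_div (by positivity)]
    exact pow_le_pow_right₀ (by linarith [h.u_large]) (by norm_num)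
  · exact hρ

end num

section base
variable {k c u : ℝ} {s : Bool} {n0 M : ℕ} {t₀ r0 r : ℝ}

theorem Base.start (h : UU k u) (B : Base k c s n0 M t₀ r0 r) {J : ℕ} (hJ : J ≤ M) :
    Start k (Loc.Y k c s) (Ds k c s) n0 t₀ (2 * r0) (1 / 1000) (u ^ 40) J := by
  have hu0 := h.u_pos
  have hr0 := B.r0_pos
  refine ⟨co_loc k c s _, ⟨fun t ht => ?_, fun t ht => ?_⟩, by linarith, ?_, ?_, fun j hj => ?_⟩
  · rw [norm_Ds_sub, norm_Ds]
    refine (B.close t ht).trans ?_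
    gcongr
    norm_num
  · rw [norm_Ds, norm_Ds]
    refine (B.prev t ht).trans ?_
    have := norm_nonneg (Loc.D k c s (n0 + 1) t₀)
    linarith
  · rw [← norm_pos_iff, norm_Ds]
    exact norm_pos_iff.mpr B.ne
  · rw [norm_Ds]
    have h1 := B.small
    rw [h.e35] at h1
    have h2 : u ^ 36 ≤ u ^ 40 := pow_le_pow_right₀ (by linarith [h.u_large]) (by norm_num)
    have h3 : 0 ≤ k * (‖Loc.D k c s (n0 + 1) t₀‖ * r0) := by
      have : 0 ≤ k := by rw [h.k_eq]; positivity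
      positivity
    nlinarith
  · have := B.dig j (by omega)
    rw [h.e23] at this
    exact this

theorem Base.r_le (h : UU k u) (B : Base k c s n0 M t₀ r0 r) :
    10 ^ 11 * k * r ≤ r0 ∧ ‖Loc.D k c s (n0 + 1) t₀‖ * r0 ≤ 1 := by
  have hu0 := h.u_pos
  have hr0 := B.r0_pos
  have hd0 : 0 < ‖Loc.D k c s (n0 + 1) t₀‖ := norm_pos_iff.mpr B.ne
  have hk0 : 0 < k := by rw [h.k_eq]; positivity
  have h1 := B.small
  rw [h.e35] at h1
  have h2 : u ^ 36 ≤ k := by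
    rw [h.k_eq]
    exact pow_le_pow_right₀ (by linarith [h.u_large]) (by norm_num)
  have h3 : ‖Loc.D k c s (n0 + 1) t₀‖ * r0 ≤ 1 := by
    have h4 : k * (10 ^ 11 * (‖Loc.D k c s (n0 + 1) t₀‖ * r0)) ≤ k * 1 := by linarith
    have h5 := le_of_mul_le_mul_left h4 hk0
    have h6 : 0 < ‖Loc.D k c s (n0 + 1) t₀‖ * r0 := by positivity
    linarith
  refine ⟨?_, h3⟩
  have h7 : (‖Loc.D k c s (n0 + 1) t₀‖ * r0) ^ 3 ≤ ‖Loc.D k c s (n0 + 1) t₀‖ * r0 := by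
    calc (‖Loc.D k c s (n0 + 1) t₀‖ * r0) ^ 3
        = (‖Loc.D k c s (n0 + 1) t₀‖ * r0) ^ 2 * (‖Loc.D k c s (n0 + 1) t₀‖ * r0) := by ring
      _ ≤ 1 ^ 2 * (‖Loc.D k c s (n0 + 1) t₀‖ * r0) := by gcongr
      _ = _ := by ring
  have h8 := B.old.trans h7
  have h9 : ‖Loc.D k c s (n0 + 1) t₀‖ * (10 ^ 11 * k * r) ≤ ‖Loc.D k c s (n0 + 1) t₀‖ * r0 := by
    linarith
  exact le_of_mul_le_mul_left h9 hd0

theorem Base.chain0 (h : UU k u) (B : Base k c s n0 M t₀ r0 r) {J : ℕ} (hJ : J ≤ M)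
    (hJ100 : J ≤ 100) :
    (∀ j ≤ J, NA (Loc.Y k c s) (Ds k c s) (n0 + j) t₀
        (rad k (Loc.Y k c s) (Ds k c s) n0 (2 * r0) t₀ j) (1 / 100) ∧
      0 < ‖Ds k c s (n0 + 1 + j) t₀‖ ∧ 0 < rad k (Loc.Y k c s) (Ds k c s) n0 (2 * r0) t₀ j) ∧
    (∀ j < J, rad k (Loc.Y k c s) (Ds k c s) n0 (2 * r0) t₀ (j + 1) ≤
        rad k (Loc.Y k c s) (Ds k c s) n0 (2 * r0) t₀ j ∧
      (vv k (Loc.Y k c s) (n0 + 1 + j) t₀ - 1) * ‖Ds k c s (n0 + 1 + j) t₀‖ ≤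
        ‖Ds k c s (n0 + 1 + (j + 1)) t₀‖ ∧
      ‖Ds k c s (n0 + 1 + (j + 1)) t₀‖ ≤
        (vv k (Loc.Y k c s) (n0 + 1 + j) t₀ + 1) * ‖Ds k c s (n0 + 1 + j) t₀‖ ∧
      ∀ t ∈ ball (t₀ : ℂ) (rad k (Loc.Y k c s) (Ds k c s) n0 (2 * r0) t₀ (j + 1)),
        ‖Ds k c s (n0 + 1 + j) t‖ ≤
          2 / vv k (Loc.Y k c s) (n0 + 1 + j) t₀ * ‖Ds k c s (n0 + 1 + (j + 1)) t₀‖) := by
  have N := h.numB one_pos
  have hk := N.k_large
  have hu0 := h.u_pos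
  refine chain (by linarith) ?_ (by positivity) hJ100 (B.start h hJ)
  have h1 := N.A2
  have h2 : (u ^ 36) ^ 2 ≤ (u ^ 40) ^ 2 := by
    have : 1 ≤ u := by linarith [h.u_large]
    gcongr
    norm_num
  have hk0 : 0 < k := by linarith
  nlinarith

/-- growth along the regular digits of the base point -/
theorem Base.growth (h : UU k u) (B : Base k c s n0 M t₀ r0 r) {J : ℕ} (hJ : J ≤ M)
    (hJ100 : J ≤ 100) : ∀ j ≤ J,
    (u ^ 40 / 2) ^ j * ‖Ds k c s (n0 + 1) t₀‖ ≤ ‖Ds k c s (n0 + 1 + j) t₀‖ := by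
  obtain ⟨-, c2⟩ := B.chain0 h hJ hJ100
  have hu0 := h.u_pos
  have S := B.start h hJ
  have h40 : 10 ^ 60 ≤ u ^ 40 :=
    le_trans (pow_le_pow_right₀ (by norm_num) (by norm_num)) (h.pow_ge 40)
  intro j
  induction j with
  | zero => intro _; simp
  | succ j ih =>
    intro hj
    have h1 := ih (by omega)
    have h2 := (c2 j (by omega)).2.1
    have h3 := S.dig j (by omega)
    calc (u ^ 40 / 2) ^ (j + 1) * ‖Ds k c s (n0 + 1) t₀‖
        = u ^ 40 / 2 * ((u ^ 40 / 2) ^ j * ‖Ds k c s (n0 + 1) t₀‖) := by ring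
      _ ≤ (vv k (Loc.Y k c s) (n0 + 1 + j) t₀ - 1) * ‖Ds k c s (n0 + 1 + j) t₀‖ := by
          refine mul_le_mul ?_ h1 (by positivity) (by linarith)
          linarith
      _ ≤ _ := h2

/-- the exit index -/
theorem Base.exists_exit (h : UU k u) (B : Base k c s n0 M t₀ r0 r) :
    ∃ jS ≤ M, 1 ≤ jS ∧ jS ≤ 92 ∧ (∀ j < jS, ‖Ds k c s (n0 + 1 + j) t₀‖ * (2 * r) < 1 / u ^ 21) ∧
      1 / u ^ 21 ≤ ‖Ds k c s (n0 + 1 + jS) t₀‖ * (2 * r) := by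
  classical
  have hu0 := h.u_pos
  have hr := B.r_pos
  have hex : ∃ j, 1 / u ^ 21 ≤ ‖Ds k c s (n0 + 1 + j) t₀‖ * (2 * r) := by
    refine ⟨M, ?_⟩
    rw [norm_Ds, ← h.e720]
    exact B.big
  have hfind := Nat.find_spec hex
  have hmin : ∀ j < Nat.find hex, ‖Ds k c s (n0 + 1 + j) t₀‖ * (2 * r) < 1 / u ^ 21 :=
    fun j hj => not_le.mp (Nat.find_min hex hj)
  have hM : Nat.find hex ≤ M := by
    apply Nat.find_min' hex
    rw [norm_Ds, ← h.e720]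
    exact B.big
  refine ⟨Nat.find hex, hM, ?_, ?_, hmin, hfind⟩
  · by_contra hcon
    have h0 : Nat.find hex = 0 := by omega
    rw [h0] at hfind
    obtain ⟨h1, h2⟩ := B.r_le h
    rw [norm_Ds] at hfind
    have hd0 : 0 < ‖Loc.D k c s (n0 + 1) t₀‖ := norm_pos_iff.mpr B.ne
    have hk0 : 0 < k := by rw [h.k_eq]; positivity
    have h3 : ‖Loc.D k c s (n0 + 1) t₀‖ * (10 ^ 11 * k * r) ≤ 1 :=
      (mul_le_mul_of_nonneg_left h1 hd0.le).trans h2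
    simp only [add_zero] at hfind
    rw [div_le_iff₀ (by positivity)] at hfind
    have h4 : u ^ 21 ≤ k := by
      rw [h.k_eq]
      exact pow_le_pow_right₀ (by linarith [h.u_large]) (by norm_num)
    have h5 : ‖Loc.D k c s (n0 + 1) t₀‖ * (2 * r) * u ^ 21 ≤
        ‖Loc.D k c s (n0 + 1) t₀‖ * (2 * r) * k := by gcongr
    nlinarith
  · by_contra hcon
    have h92 : 92 < Nat.find hex := by omega
    have h1 := hmin 92 h92
    have h2 := B.growth h (J := 92) (by omega) (by norm_num) 92 le_rfl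
    have h3 := B.lower
    rw [norm_Ds] at h2
    have hd0 : 0 < ‖Loc.D k c s (n0 + 1) t₀‖ := norm_pos_iff.mpr B.ne
    have h4 : (u ^ 40 / 2) ^ 92 * (‖Loc.D k c s (n0 + 1) t₀‖ * (2 * r)) < 1 / u ^ 21 := by
      refine lt_of_le_of_lt ?_ h1
      calc (u ^ 40 / 2) ^ 92 * (‖Loc.D k c s (n0 + 1) t₀‖ * (2 * r))
          = (u ^ 40 / 2) ^ 92 * ‖Loc.D k c s (n0 + 1) t₀‖ * (2 * r) := by ring
        _ ≤ _ := by gcongr
    have h5 : 1 / u ^ 21 ≤ 1 := by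
      rw [div_le_one (by positivity)]
      exact one_le_pow₀ (by linarith [h.u_large])
    have h6 : u ^ 20 / 2 ^ 92 * (k ^ 61 * (‖Loc.D k c s (n0 + 1) t₀‖ * (2 * r))) < 1 := by
      have e : (u ^ 40 / 2) ^ 92 = u ^ 20 / 2 ^ 92 * k ^ 61 := by
        rw [h.k_eq, div_pow, ← pow_mul, ← pow_mul, div_mul_eq_mul_div, ← pow_add]
      rw [e] at h4
      calc _ = u ^ 20 / 2 ^ 92 * k ^ 61 * (‖Loc.D k c s (n0 + 1) t₀‖ * (2 * r)) := by ring
        _ < 1 / u ^ 21 := h4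
        _ ≤ 1 := h5
    have h7 : (1 : ℝ) ≤ u ^ 20 / 2 ^ 92 := by
      rw [one_le_div (by positivity)]
      refine le_trans ?_ (h.pow_ge 20)
      calc (2 : ℝ) ^ 92 ≤ 10 ^ 92 := by gcongr; norm_num
        _ ≤ 10 ^ (16 * 20) := pow_le_pow_right₀ (by norm_num) (by norm_num)
    have h8 : 1 * 1 ≤ u ^ 20 / 2 ^ 92 * (k ^ 61 * (‖Loc.D k c s (n0 + 1) t₀‖ * (2 * r))) := by
      gcongr
    linarith

/-- the radii at the base point are large until the exit -/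
theorem Base.rad_ge (h : UU k u) (B : Base k c s n0 M t₀ r0 r) {jS : ℕ} (hM : jS ≤ M)
    (hb : ∀ j < jS, ‖Ds k c s (n0 + 1 + j) t₀‖ * (2 * r) < 1 / u ^ 21) (hpos : ∀ j < jS,
      0 < ‖Ds k c s (n0 + 1 + j) t₀‖) : ∀ j ≤ jS,
    4 * r ≤ rad k (Loc.Y k c s) (Ds k c s) n0 (2 * r0) t₀ j := by
  have hu0 := h.u_pos
  have hr := B.r_pos
  have hk0 : 0 < k := by rw [h.k_eq]; positivity
  have h1 := (B.r_le h).1
  have hk1 : 1 ≤ k := by
    rw [h.k_eq]; exact one_le_pow₀ (by linarith [h.u_large])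
  have h2 : 4 * r ≤ 2 * r0 := by nlinarith
  intro j hj
  cases j with
  | zero => exact h2
  | succ j =>
    simp only [rad]
    refine le_min h2 ?_
    have hp := hpos j (by omega)
    have hbj := hb j (by omega)
    have hd := (B.start h hM).dig j (by omega)
    rw [le_div_iff₀ (by positivity)]
    have h3 : 4 * r * (k * ‖Ds k c s (n0 + 1 + j) t₀‖) ≤ 2 * k * (1 / u ^ 21) := by
      have : 4 * r * (k * ‖Ds k c s (n0 + 1 + j) t₀‖) =
        2 * k * (‖Ds k c s (n0 + 1 + j) t₀‖ * (2 * r)) := by ring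
      rw [this]
      gcongr
    refine h3.trans ?_
    have h4 : 2 * k * (1 / u ^ 21) = 2 * u ^ 39 := by
      rw [h.k_eq]; field_simp
    rw [h4]
    have h5 : 1 / 10 ^ 10 * u ^ 40 ≤ 1 / 10 ^ 10 * vv k (Loc.Y k c s) (n0 + 1 + j) t₀ := by gcongr
    refine le_trans ?_ h5
    have h6 : 2 * u ^ 39 * 10 ^ 10 ≤ u ^ 40 := by
      have := h.u_large
      calc 2 * u ^ 39 * 10 ^ 10 = u ^ 39 * (2 * 10 ^ 10) := by ring
        _ ≤ u ^ 39 * u := by gcongr; linarith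
        _ = u ^ 40 := by ring
    linarith

theorem vv_le10 (hk : 1 ≤ k) (m : ℕ) (x : ℝ) : vv k (Loc.Y k c s) m (x : ℂ) ≤ 10 * k := by
  rw [LocD.vv_real (co_loc k c s univ) m x]
  exact Fresh.abs_Vr_le hk _

end base

end Crest.Agent.R128.LocA
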