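import Crest.Agent.R128.LocA2
import Crest.Agent.R128.CleanCont

/-!
# Row 128, node V5-LOC: sizes before the exits (helper662)

`foot` : on the real/complex disc of a clean side the derivatives up to the foot are at most `2 C1 X`;
`foot_loc` : the same in the vocabulary of `LocDef`, for both sides;
`SideOK.size` : from the foot to the exit of `595`'s `SideOK`.
These are the `size` hypotheses of `H4.good3` (220).
-/

set_option autoImplicit false

open Metric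
open Crest.Agent.R128 Crest.Agent.R128.Cell Crest.Agent.R128.CellB
open Crest.Agent.R128.TreeSum Crest.Agent.R128.Disp Crest.Agent.R128.CleanNum
open Crest.Agent.R128.CleanDisc Crest.Agent.R128.CleanCont

namespace Crest.Agent.R128.LocSize

/-- sizes up to the foot, on the disc of a clean side -/
theorem foot {k c t0 : ℝ} {z : ℕ → ℝ × ℝ} {n : ℕ} {δ K A c0 : ℝ}
    (h : Clean (ra k c t0) (wf k c t0) z n δ K A c0) (hk : 1 ≤ k) {u : ℂ}
    (hu : ‖u - t0‖ ≤ rho0 k A K c0 / XX (wf k c t0) z) :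
    ∀ m ≤ n + 1, ‖yd k c m u‖ ≤ 2 * (C1 A K c0 * XX (wf k c t0) z) := by
  have hX : 0 < XX (wf k c t0) z := h.Xpos
  have hρ := rho0_pos h hk
  have hδ0 := h.δ0
  have hδ1 := h.δ1
  have hz1 := h.one n le_rfl
  have hZ15 : 1 ≤ nn (z n) ^ (1 - 15 * δ) := Real.one_le_rpow hz1 (by linarith)
  have hu' : ‖u - t0‖ ≤ rho0 k A K c0 / XX (wf k c t0) z * nn (z n) ^ (1 - 15 * δ) := by
    refine hu.trans ?_
    exact le_mul_of_one_le_right (by positivity) hZ15
  have hf := fields h hk le_rfl hu'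
  have hC1 := C1_pos h
  have hR : ∀ m ≤ n, nn (wf k c t0 m) ≤ C1 A K c0 * XX (wf k c t0) z := by
    intro m hm
    refine (h.R_le hm).trans ?_
    have hzm := h.one m hm
    have h1 : nn (z m) ^ (-(1 - 3 * δ)) ≤ 1 :=
      Real.rpow_le_one_of_one_le_of_nonpos hzm (by linarith)
    have h2 : 0 ≤ C1 A K c0 * |wr (wf k c t0 0) (z 0)| := by
      have := abs_nonneg (wr (wf k c t0 0) (z 0))
      positivity
    calc _ ≤ C1 A K c0 * |wr (wf k c t0 0) (z 0)| * 1 := mul_le_mul_of_nonneg_left h1 h2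
      _ = _ := by rw [mul_one]; rfl
  have hpos : 0 ≤ C1 A K c0 * XX (wf k c t0) z := by positivity
  intro m hm
  rcases Nat.lt_or_ge n m with hmn | hmn
  · obtain rfl : m = n + 1 := by omega
    have h3 := (hf n le_rfl).2.2.2.2.2.2.2.2
    have h4 := hR n le_rfl
    have h5 := norm_ofReal_snd_le (wf k c t0 n)
    have h6 : ‖yd k c (n + 1) u‖ ≤ ‖yd k c (n + 1) u - (wf k c t0 n).2‖ + ‖((wf k c t0 n).2 : ℂ)‖ := by
      have := norm_add_le (yd k c (n + 1) u - (wf k c t0 n).2) ((wf k c t0 n).2 : ℂ)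
      rwa [sub_add_cancel] at this
    linarith
  · have h3 := (hf m hmn).2.2.2.2.2.2.2.1
    have h4 := hR m hmn
    have h5 := norm_ofReal_fst_le (wf k c t0 m)
    have h6 : ‖yd k c m u‖ ≤ ‖yd k c m u - (wf k c t0 m).1‖ + ‖((wf k c t0 m).1 : ℂ)‖ := by
      have := norm_add_le (yd k c m u - (wf k c t0 m).1) ((wf k c t0 m).1 : ℂ)
      rwa [sub_add_cancel] at this
    linarith

/-- base point of the side `s` -/
noncomputable def bp (k c : ℝ) (s : Bool) (t0 : ℝ) : ℝ := if s then t0 else CellDy.kap k c - t0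

theorem norm_sdC_sub (k c : ℝ) (s : Bool) (t0 : ℝ) (u : ℂ) :
    ‖Loc.sdC k c s u - (bp k c s t0 : ℂ)‖ = ‖u - t0‖ := by
  unfold Loc.sdC bp
  cases s with
  | true => simp
  | false =>
    simp only [Bool.false_eq_true, if_false]
    rw [← norm_neg]
    congr 1
    push_cast
    ring

/-- sizes up to the foot, `LocDef` vocabulary -/
theorem foot_loc {k c t0 : ℝ} (s : Bool) {z : ℕ → ℝ × ℝ} {n : ℕ} {δ K A c0 : ℝ}
    (h : Clean (ra k c (bp k c s t0)) (wf k c (bp k c s t0)) z n δ K A c0) (hk : 1 ≤ k) {u : ℂ}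
    (hu : ‖u - t0‖ ≤ rho0 k A K c0 / XX (wf k c (bp k c s t0)) z) :
    ∀ m ≤ n + 1, ‖Loc.D k c s m u‖ ≤ 2 * (C1 A K c0 * XX (wf k c (bp k c s t0)) z) := by
  intro m hm
  unfold Loc.D
  exact foot h hk (by rw [norm_sdC_sub]; exact hu) m hm

open Crest.Agent.R128.LocA

variable {k c : ℝ} {s : Bool} {n0 jS : ℕ} {r0 ρ δ A t₁ : ℝ}

/-- sizes up to the exit -/
theorem size (N : NumB k A δ ρ) (S : SideOK k c s n0 jS r0 ρ δ A t₁) {i : ℕ} (hi2 : 2 ≤ i)
    (hi6 : i ≤ 6) (hb : 1 ≤ ‖Ds k c s (n0 + 1 + (jS + i)) t₁‖ * ρ) {u : ℂ}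
    (hu : ‖u - t₁‖ < k / (10 ^ 19 * ‖Ds k c s (n0 + 1 + (jS + i)) t₁‖)) {H : ℝ}
    (hfoot : ∀ l ≤ n0, ‖Loc.D k c s l u‖ ≤ H)
    (hH : 2 * ‖Ds k c s (n0 + 1 + (jS + i)) t₁‖ ≤ H) :
    ∀ l ≤ n0 + 1 + (jS + i), ‖Loc.D k c s l u‖ ≤ H := by
  have hrad := S.rad_ge N hi2 hi6 hb
  obtain ⟨c1, c2⟩ := S.chain' N
  -- the radii are antitone and the sizes are increasing
  have hanti : ∀ d j, j + d = jS + i → rad k (Loc.Y k c s) (Ds k c s) n0 r0 t₁ (jS + i) ≤
      rad k (Loc.Y k c s) (Ds k c s) n0 r0 t₁ j ∧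
      ‖Ds k c s (n0 + 1 + j) t₁‖ ≤ ‖Ds k c s (n0 + 1 + (jS + i)) t₁‖ := by
    intro d
    induction d with
    | zero =>
      intro j hj
      obtain rfl : j = jS + i := by omega
      exact ⟨le_rfl, le_rfl⟩
    | succ d ih =>
      intro j hj
      obtain ⟨h1, h2⟩ := ih (j + 1) (by omega)
      obtain ⟨h3, h4, -, -⟩ := c2 j (by omega)
      refine ⟨h1.trans h3, le_trans ?_ h2⟩
      have h5 := S.start.dig j (by omega)
      have h6 := N.A_pos
      have h7 : (2 : ℝ) ≤ vv k (Loc.Y k c s) (n0 + 1 + j) t₁ := by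
        have : (2 : ℝ) ≤ 10 ^ 60 := by norm_num
        linarith
      have h8 : 1 * ‖Ds k c s (n0 + 1 + j) t₁‖ ≤
          (vv k (Loc.Y k c s) (n0 + 1 + j) t₁ - 1) * ‖Ds k c s (n0 + 1 + j) t₁‖ :=
        mul_le_mul_of_nonneg_right (by linarith) (norm_nonneg _)
      linarith
  intro l hl
  rcases Nat.lt_or_ge n0 l with h | h
  · obtain ⟨j, rfl⟩ : ∃ j, l = n0 + 1 + j := ⟨l - (n0 + 1), by omega⟩
    have hj : j ≤ jS + i := by omega
    obtain ⟨h1, h2⟩ := hanti (jS + i - j) j (by omega)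
    obtain ⟨hNA, -, -⟩ := c1 j (by omega)
    have hmem : u ∈ ball (t₁ : ℂ) (rad k (Loc.Y k c s) (Ds k c s) n0 r0 t₁ j) := by
      rw [mem_ball, dist_eq_norm]
      exact hu.trans_le (hrad.trans h1)
    have h3 := hNA.close u hmem
    have e : n0 + j + 1 = n0 + 1 + j := by omega
    rw [e] at h3
    have h4 : ‖Ds k c s (n0 + 1 + j) u‖ ≤
        ‖Ds k c s (n0 + 1 + j) u - Ds k c s (n0 + 1 + j) t₁‖ + ‖Ds k c s (n0 + 1 + j) t₁‖ := by
      have := norm_add_le (Ds k c s (n0 + 1 + j) u - Ds k c s (n0 + 1 + j) t₁)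
        (Ds k c s (n0 + 1 + j) t₁)
      rwa [sub_add_cancel] at this
    rw [← norm_Ds]
    have h5 := norm_nonneg (Ds k c s (n0 + 1 + j) t₁)
    linarith
  · exact hfoot l h

end Crest.Agent.R128.LocSize
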