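import Crest.Agent.R128.BaseNum
import Crest.Agent.R128.SideSize
import Crest.Agent.R128.SideStart376
import Crest.Agent.R128.LocSize
import Crest.Agent.R128.LocGlue365
import Crest.Agent.R128.LocA4

/-!
# Row 128, V5-LOC (helper162): very fresh point ⟹ base data of both sides

`vfBase : 1000 ≤ L → LocGlue365.VFBase L LocA.Base` (365's Prop for 595's `LocA.Base`), from 816's
`BaseNum.base_num`, `StartNum.content_foot`, the side estimates `SideSize`, `SideStart` and `LocSize`.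
-/

set_option autoImplicit false

open Metric MeasureTheory
open Crest.Agent.R128 Crest.Agent.R128.Cell Crest.Agent.R128.CellB Crest.Agent.R128.CellDy
open Crest.Agent.R128.TreeSum Crest.Agent.R128.Disp Crest.Agent.R128.CleanNum
open Crest.Agent.R128.CleanDisc Crest.Agent.R128.CleanCont Crest.Agent.R128.AlignMn
open Crest.Agent.R128.DictY

namespace Crest.Agent.R128.VFB

theorem zs_eq (k c : ℝ) (s : Bool) (t : ℝ) : H4.zs k c s t = zt k c (CellDy.sd k c s t) := by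
  unfold H4.zs CellDy.sd
  cases s with
  | true => simp
  | false =>
    simp only [Bool.false_eq_true, if_false]
    rw [Rev_zt]
    rfl

/-- the two sizes of a side at the foot, in terms of `2 ^ n` -/
theorem exp_sizes {k ρ : ℝ} {n : ℕ} (hk : 0 < k) (h1 : n * Real.log 2 ≤ ρ)
    (h2 : ρ ≤ n * Real.log 2 + 2 * Real.log k) :
    (2 : ℝ) ^ n ≤ Real.exp ρ ∧ Real.exp ρ ≤ 2 ^ n * k ^ 2 := by
  constructor
  · calc (2 : ℝ) ^ n = Real.exp (n * Real.log 2) := by
          rw [Real.exp_nat_mul, Real.exp_log (by norm_num)]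
      _ ≤ _ := Real.exp_le_exp.mpr h1
  · refine (Real.exp_le_exp.mpr h2).trans (le_of_eq ?_)
    rw [Real.exp_add, Real.exp_nat_mul, Real.exp_log (by norm_num),
      show (2 : ℝ) * Real.log k = ((2 : ℕ) : ℝ) * Real.log k by norm_num, Real.exp_nat_mul,
      Real.exp_log hk]

/-- one side -/
theorem side_base {k c t0 ρ : ℝ} {L n n0 M : ℕ} {x : ℕ → ℝ} (s : Bool) (hk : (2 : ℝ) ^ 400 ≤ k)
    (hL : 1000 ≤ L) (hLk : 10 ^ 14 * ((L : ℝ) + 1) ^ 5 ≤ k) (h1 : n * Real.log 2 ≤ ρ)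
    (h2 : ρ ≤ n * Real.log 2 + 2 * Real.log k)
    (S : Good.Side k L ρ (zt k c (CellDy.sd k c s t0)) x (n0 + 1) M) :
    ∃ r0 : ℝ, LocA.Base k c s n0 M t0 r0 (1 / (k ^ 60 * 2 ^ n)) := by
  have hk200 : (2 : ℝ) ^ 200 ≤ k := le_trans (pow_le_pow_right₀ (by norm_num) (by norm_num)) hk
  have hk20 : (10 : ℝ) ^ 20 ≤ k := le_trans (by norm_num) hk200
  have hN : SideStart376.NumK k L := ⟨hk20, hL, hLk⟩
  have hk0 : 0 < k := lt_of_lt_of_le (by norm_num) hk20
  have hk1 : 1 ≤ k := le_trans (by norm_num) hk20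
  have hρ : 0 ≤ ρ := le_trans (by have := Real.log_nonneg (by norm_num : (1 : ℝ) ≤ 2); positivity) h1
  obtain ⟨he1, he2⟩ := exp_sizes hk0 h1 h2
  have h2n : (0 : ℝ) < 2 ^ n := by positivity
  have hC := SideSize.clean hk (by omega) hρ S
  have hX := (SideSize.XX_eq hk (by omega) S).2
  have hc := SideSize.cone_foot hk (by omega) hρ S
  have hz := SideSize.sizes hk (by omega) hρ S
  have hkp := SideSize.kp_ge hk
  have hrb := SideStart376.run_big hN hρ S
  have hrd := fun {j : ℕ} (hj : j ≤ M) => SideStart376.run_dig S hj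
  have hc2 : 2 * |(wf k c (CellDy.sd k c s t0) (n0 + 1 - 1)).1| ≤
      |(wf k c (CellDy.sd k c s t0) (n0 + 1 - 1)).2| := by
    refine le_trans ?_ hc
    apply mul_le_mul_of_nonneg_right _ (abs_nonneg _)
    have : (3 : ℝ) ≤ 2 ^ 201 := by norm_num
    have h3 := this.trans hkp
    linarith only [h3]
  have hD := BaseNum.norm_D_real k c s (n0 + 1) (by omega) t0
  have hk60 : (0 : ℝ) < k ^ 60 * 2 ^ n := by positivity
  have hr0 : 0 < 1 / (k ^ 60 * 2 ^ n) := by positivity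
  have hup : ‖Loc.D k c s (n0 + 1) (t0 : ℂ)‖ ≤ 2 * k ^ 5 * 2 ^ n := by
    rw [hD]
    refine hz.2.trans ?_
    calc 2 * k ^ 3 * Real.exp ρ ≤ 2 * k ^ 3 * (2 ^ n * k ^ 2) := by gcongr
      _ = 2 * k ^ 5 * 2 ^ n := by ring
  have hlo : 2 ^ n / 2 ≤ ‖Loc.D k c s (n0 + 1) (t0 : ℂ)‖ := by
    rw [hD]
    refine le_trans ?_ hz.1
    linarith only [he1]
  have hXr : ‖Loc.D k c s (n0 + 1) (t0 : ℂ)‖ * (1 / (k ^ 60 * 2 ^ n)) ≤ 1 / k ^ 50 := by
    calc ‖Loc.D k c s (n0 + 1) (t0 : ℂ)‖ * (1 / (k ^ 60 * 2 ^ n))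
        ≤ (2 * k ^ 5 * 2 ^ n) * (1 / (k ^ 60 * 2 ^ n)) := by gcongr
      _ = 2 / k ^ 55 := by field_simp
      _ ≤ 1 / k ^ 50 := by
          rw [div_le_div_iff₀ (by positivity) (by positivity)]
          have h5 : (2 : ℝ) ≤ k ^ 5 := le_trans (le_trans (by norm_num) hk20) (le_self_pow₀ hk1 (by norm_num))
          calc 2 * k ^ 50 ≤ k ^ 5 * k ^ 50 := by gcongr
            _ = 1 * k ^ 55 := by ring
  obtain ⟨r0, g1, g2, g3, g4, g5, g6⟩ := BaseNum.base_num s hk200 (by omega) hC hX hc2 hr0 hXr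
  rw [Nat.add_sub_cancel] at g3
  refine ⟨r0, g1, hr0, g2, g3, g4, g5, g6, ?_, ?_, ?_⟩
  · -- lower
    calc (1 : ℝ) ≤ k := hk1
      _ = k ^ 61 * (2 ^ n / 2 * (2 * (1 / (k ^ 60 * 2 ^ n)))) := by field_simp
      _ ≤ k ^ 61 * (‖Loc.D k c s (n0 + 1) (t0 : ℂ)‖ * (2 * (1 / (k ^ 60 * 2 ^ n)))) := by gcongr
  · -- digits
    intro j hj
    have h3 := hrd hj.le
    rw [Nat.add_sub_cancel] at h3
    have e : n0 + 1 + j = (n0 + j) + 1 := by omega
    unfold Loc.Y
    rw [BaseNum.sdC_real, e, cV_y, Complex.norm_real, Real.norm_eq_abs]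
    exact h3
  · -- the end of the run
    have h3 : ‖Loc.D k c s (n0 + 1 + M) (t0 : ℂ)‖ =
        SideStart376.Qr k c (CellDy.sd k c s t0) (n0 + 1 + M) := by
      unfold Loc.D
      rw [BaseNum.sdC_real, SideStart376.norm_yd]
    rw [h3]
    have h4 : k ^ 80 * 2 ^ n / 2 ≤ SideStart376.Qr k c (CellDy.sd k c s t0) (n0 + 1 + M) := by
      have : k ^ 80 * 2 ^ n ≤ k ^ 80 * Real.exp ρ := by gcongr
      linarith only [this, hrb]
    calc k ^ (-(7 / 20) : ℝ) ≤ 1 := Real.rpow_le_one_of_one_le_of_nonpos hk1 (by norm_num)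
      _ ≤ k ^ 20 := one_le_pow₀ hk1
      _ = k ^ 80 * 2 ^ n / 2 * (2 * (1 / (k ^ 60 * 2 ^ n))) := by field_simp
      _ ≤ _ := by gcongr

/-- **VF ⟹ Base** -/
theorem vfBase {L : ℕ} (hL : 1000 ≤ L) : LocGlue365.VFBase L LocA.Base := by
  refine ⟨max ((2 : ℝ) ^ 400) (10 ^ 14 * ((L : ℝ) + 1) ^ 5), ?_⟩
  intro k hkk c t0 n hG
  have hk : (2 : ℝ) ^ 400 ≤ k := (le_max_left _ _).trans hkk
  have hLk : 10 ^ 14 * ((L : ℝ) + 1) ^ 5 ≤ k := (le_max_right _ _).trans hkk
  have hk200 : (2 : ℝ) ^ 200 ≤ k := le_trans (pow_le_pow_right₀ (by norm_num) (by norm_num)) hk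
  have hk70 : (2 : ℝ) ^ 70 ≤ k := le_trans (pow_le_pow_right₀ (by norm_num) (by norm_num)) hk200
  have hk4 : (4 : ℝ) ≤ k := le_trans (by norm_num) hk70
  have hk1 : (1 : ℝ) ≤ k := le_trans (by norm_num) hk4
  have hk0 : 0 < k := lt_of_lt_of_le (by norm_num) hk4
  obtain ⟨-, ρ, h1, h2, hVF⟩ := hG
  have hρ : 0 ≤ ρ := le_trans (by have := Real.log_nonneg (by norm_num : (1 : ℝ) ≤ 2); positivity) h1
  obtain ⟨he1, he2⟩ := exp_sizes hk0 h1 h2
  have hside : ∀ s : Bool, ∃ (x : ℕ → ℝ) (n0 M : ℕ),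
      Good.Side k L ρ (zt k c (CellDy.sd k c s t0)) x (n0 + 1) M := by
    intro s
    obtain ⟨x, -, w, M, -, -, S, -⟩ := H4.sides s hVF
    rw [zs_eq] at S
    have hw := S.hw
    obtain ⟨n0, rfl⟩ : ∃ n0, w = n0 + 1 := ⟨w - 1, by omega⟩
    exact ⟨x, n0, M, S⟩
  choose x n0 M S using hside
  choose r0 hB using fun s => side_base s hk hL hLk h1 h2 (S s)
  have hC := fun s => SideSize.clean hk (by omega) hρ (S s)
  have hX := fun s => (SideSize.XX_eq hk (by omega) (S s)).2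
  have hz := fun s => SideSize.sizes hk (by omega) hρ (S s)
  have hkp := SideSize.kp_ge hk
  have hE : ∀ s, nn (SideSize.EF k c (CellDy.sd k c s t0) (n0 s + 1) (n0 s + 1 - 1)) = 1 := by
    intro s
    rw [SideSize.EF_last hk (by omega) (S s)]
    unfold nn
    simp
  have hc2 : ∀ s, 2 * |(wf k c (CellDy.sd k c s t0) (n0 s + 1 - 1)).1| ≤
      |(wf k c (CellDy.sd k c s t0) (n0 s + 1 - 1)).2| := by
    intro s
    refine le_trans ?_ (SideSize.cone_foot hk (by omega) hρ (S s))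
    apply mul_le_mul_of_nonneg_right _ (abs_nonneg _)
    have : (3 : ℝ) ≤ 2 ^ 201 := by norm_num
    have h3 := this.trans hkp
    linarith only [h3]
  have hXle : ∀ s, XX (wf k c (CellDy.sd k c s t0)) (SideSize.EF k c (CellDy.sd k c s t0) (n0 s + 1)) ≤
      2 * k ^ 5 * 2 ^ n := by
    intro s
    rw [hX s]
    refine (hz s).2.trans ?_
    calc 2 * k ^ 3 * Real.exp ρ ≤ 2 * k ^ 3 * (2 ^ n * k ^ 2) := by gcongr
      _ = 2 * k ^ 5 * 2 ^ n := by ring
  have hXpos : ∀ s, 0 < XX (wf k c (CellDy.sd k c s t0))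
      (SideSize.EF k c (CellDy.sd k c s t0) (n0 s + 1)) := fun s => (hC s).Xpos
  set r : ℝ := 1 / (k ^ 60 * 2 ^ n) with hr
  have hr0 : 0 < r := by positivity
  have hrX : ∀ X : ℝ, X ≤ 2 * k ^ 5 * 2 ^ n → r * X ≤ 2 / k ^ 55 := by
    intro X hX
    calc r * X ≤ r * (2 * k ^ 5 * 2 ^ n) := by gcongr
      _ = 2 / k ^ 55 := by rw [hr]; field_simp
  have hkpow : ∀ {a b : ℕ} {C : ℝ}, C ≤ 2 ^ 70 → a + 1 ≤ b → C * k ^ a ≤ k ^ b := by
    intro a b C hC hab
    calc C * k ^ a ≤ k * k ^ a := mul_le_mul_of_nonneg_right (hC.trans hk70) (by positivity)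
      _ = k ^ (a + 1) := by ring
      _ ≤ k ^ b := pow_le_pow_right₀ hk1 hab
  refine ⟨n0, M, r0, hB, ?_, ?_⟩
  · -- the old content
    have hsm : ∀ X : ℝ, X ≤ 2 * k ^ 5 * 2 ^ n → 2 ^ 59 * k ^ 9 * (2 * r) * X ≤ 1 := by
      intro X hX
      have h3 := hrX X hX
      calc 2 ^ 59 * k ^ 9 * (2 * r) * X = 2 ^ 60 * k ^ 9 * (r * X) := by ring
        _ ≤ 2 ^ 60 * k ^ 9 * (2 / k ^ 55) := by gcongr
        _ = (2 ^ 61 * k ^ 9) / k ^ 55 := by ring
        _ ≤ 1 := by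
            rw [div_le_one (by positivity)]
            exact hkpow (by norm_num) (by norm_num)
    have ht := hC true
    have hf := hC false
    have e1 : CellDy.sd k c true t0 = t0 := rfl
    have e2 : CellDy.sd k c false t0 = CellDy.kap k c - t0 := rfl
    obtain ⟨q0, q1, q2, hq⟩ := StartNum.content_foot (k := k) (c := c) (t0 := t0) hk200
      (w := n0 true + 1) (w' := n0 false + 1) (by omega) (by omega) ht hf (hE true) (hE false)
      (hc2 true) (hc2 false) (r := 2 * r) (by positivity) (hsm _ (hXle true)) (hsm _ (hXle false)) t0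
    refine ⟨q0, q1, q2, fun z hz => ?_⟩
    refine (hq z (ball_subset_closedBall hz)).trans ?_
    have h3 := hrX _ (hXle true)
    have h4 := hrX _ (hXle false)
    rw [e1] at h3
    rw [e2] at h4
    set Xt := XX (wf k c t0) (SideSize.EF k c t0 (n0 true + 1)) with hXt
    set Xf := XX (wf k c (CellDy.kap k c - t0)) (SideSize.EF k c (CellDy.kap k c - t0) (n0 false + 1))
      with hXf
    calc k ^ 32 * (2 * r) ^ 3 * (Xt + Xf) = 8 * k ^ 32 * r ^ 2 * (r * Xt + r * Xf) := by ring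
      _ ≤ 8 * k ^ 32 * r ^ 2 * (2 / k ^ 55 + 2 / k ^ 55) := by gcongr
      _ = r ^ 2 * ((32 * k ^ 32) / k ^ 55) := by ring
      _ ≤ r ^ 2 * (1 / k ^ 18) := by
          apply mul_le_mul_of_nonneg_left _ (by positivity)
          rw [div_le_div_iff₀ (by positivity) (by positivity), one_mul]
          calc 32 * k ^ 32 * k ^ 18 = 32 * k ^ 50 := by ring
            _ ≤ k ^ 55 := hkpow (by norm_num) (by norm_num)
      _ = r ^ 2 / k ^ 18 := by ring
  · -- old sizes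
    intro s i hi u hu
    have hρ0 := StartNum.rho0_ge hk4
    have hb : LocSize.bp k c s t0 = CellDy.sd k c s t0 := rfl
    have h3 := LocSize.foot_loc s (t0 := t0) (u := (u : ℂ)) (hC s) hk1 (by
      rw [hb, ← Complex.ofReal_sub, Complex.norm_real, Real.norm_eq_abs, le_div_iff₀ (hXpos s)]
      refine le_trans ?_ hρ0
      rw [le_div_iff₀ (by positivity)]
      have h4 := hrX _ (hXle s)
      set X := XX (wf k c (CellDy.sd k c s t0)) (SideSize.EF k c (CellDy.sd k c s t0) (n0 s + 1))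
      have hXp : 0 < X := hXpos s
      calc |u - t0| * X * (2 ^ 58 * k ^ 9) ≤ (2 * r) * X * (2 ^ 58 * k ^ 9) := by gcongr
        _ = 2 ^ 59 * k ^ 9 * (r * X) := by ring
        _ ≤ 2 ^ 59 * k ^ 9 * (2 / k ^ 55) := by gcongr
        _ = (2 ^ 60 * k ^ 9) / k ^ 55 := by ring
        _ ≤ 1 := by
            rw [div_le_one (by positivity)]
            exact hkpow (by norm_num) (by norm_num)) i (by omega)
    refine h3.trans ?_
    have hC1 := StartNum.C1_le hk4
    have hC10 : 0 ≤ C1 (8 * k) 3 4 := by unfold C1; positivity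
    calc 2 * (C1 (8 * k) 3 4 * XX (wf k c (LocSize.bp k c s t0))
          (SideSize.EF k c (CellDy.sd k c s t0) (n0 s + 1)))
        ≤ 2 * ((2 ^ 8 * k ^ 2) * (2 * k ^ 5 * 2 ^ n)) := by
          have := hXle s
          rw [hb]
          have := (hXpos s).le
          gcongr
      _ = (2 ^ 10 * k ^ 7) * 2 ^ n := by ring
      _ ≤ k ^ 74 * 2 ^ n := by
          apply mul_le_mul_of_nonneg_right _ (by positivity)
          exact hkpow (by norm_num) (by norm_num)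

end Crest.Agent.R128.VFB
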