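import Crest.Agent.R128.Fin952
import Crest.Agent.R128.H4Stmt
import Crest.Agent.R128.LocA6
import Crest.Agent.R128.VFB162
import Crest.Agent.R128.BridgeX
import Crest.Agent.R128.RA123

/-! Row 128 (helper686): final composition. -/

set_option autoImplicit false

open Metric MeasureTheory
open Crest.Agent.R128 Crest.Agent.R128.Close

namespace Crest.Agent.R128.End686

theorem locA4Stmt : LocGlue365.LocA4Stmt LocA.Base := by
  refine ⟨10 ^ 1000, fun k hk c t0 r hr n0 M r0 hB hold => ?_⟩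
  obtain ⟨N, h1, h2, h3⟩ := LocA.locA4 hk hr hB hold
  refine ⟨N, h1, h2, fun m hm => ?_⟩
  obtain ⟨s, n, n', R, lam, q0, q1, q2, a, b, O⟩ := h3 m hm
  exact ⟨s, n, n', R, lam, q0, q1, q2, a, b, O.lam_le, O.cell, O.mon, O.mon'⟩

theorem locA : ∃ L1 : ℕ, ∀ L, L1 ≤ L → Good.LocA L :=
  ⟨1000, fun L hL => H4Fin.locA_of (by omega) locA4Stmt (VFB.vfBase hL)⟩

theorem bridgeD : V5FinX.BridgeD Good.G 86 0 := by
  refine ⟨1000, fun L hL => ⟨2 * (L + 2) + 1, 10 ^ 8, fun k hk z t N r n hQ hr hf h1 h2 => ?_⟩⟩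
  refine BridgeX.mem_G_depth hk hL (s := r + 2) (N := N) (by omega)
    (hf _ (by omega) (by omega)) (hf _ (by omega) (by omega)) (by omega) ?_ ?_
  · refine h2.trans (le_of_eq ?_)
    push_cast
    ring
  · push_cast
    push_cast at h1
    linarith

theorem res : Skel.Res := Fin952.res_of RA123.ra locA bridgeD

end Crest.Agent.R128.End686
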