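import Mathlib

/-!
Row 128 (S0172), abstract ENTROPIC INEQUALITY for the charging step.

A cell `I'` of mass `m` is cut successively; the leaf number `i` has mass `c i` and weight `q i`
(`q i = ∏ 1/(κ M_j)` over the cuts leading to the leaf, `M_j` = number of candidates of the cut `j`).
For an ARBITRARY final set `A` (decided in the future, e.g. `T truly alive`), with
`a i = μ (A ∩ leaf i) ≤ c i`:
`Σ a i log (m / c i) ≤ Σ a i log (1 / q i) + m Q / e`, `Q = Σ q i` (`≤ 1/κ` as soon as every leaf has
at least one cut).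
-/

set_option autoImplicit false

namespace Crest.Agent.R128.Entropic

open Finset MeasureTheory
open scoped BigOperators ENNReal

/-- `x log (y/x) ≤ y/e`. -/
theorem mul_log_div_le {x y : ℝ} (hx : 0 ≤ x) (hy : 0 ≤ y) :
    x * Real.log (y / x) ≤ y * Real.exp (-1) := by
  rcases hx.eq_or_lt with h0 | hx
  · subst h0
    simp only [zero_mul]
    positivity
  rcases hy.eq_or_lt with h0 | hy
  · subst h0
    simp
  have hz : 0 < y / x := div_pos hy hx
  have h1 : Real.log (y / x * Real.exp (-1)) ≤ y / x * Real.exp (-1) - 1 :=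
    Real.log_le_sub_one_of_pos (by positivity)
  rw [Real.log_mul hz.ne' (Real.exp_pos _).ne', Real.log_exp] at h1
  have h2 : Real.log (y / x) ≤ y / x * Real.exp (-1) := by linarith
  calc x * Real.log (y / x) ≤ x * (y / x * Real.exp (-1)) :=
        mul_le_mul_of_nonneg_left h2 hx.le
    _ = y * Real.exp (-1) := by field_simp

/-- one leaf -/
theorem leaf_le {a c q m : ℝ} (hm : 0 < m) (ha : 0 ≤ a) (hac : a ≤ c) (hq : 0 < q) :
    a * Real.log (m / c) ≤ a * Real.log (1 / q) + m * q * Real.exp (-1) := by
  rcases ha.eq_or_lt with h0 | ha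
  · subst h0
    simp only [zero_mul, zero_add]
    positivity
  have hc : 0 < c := lt_of_lt_of_le ha hac
  have h1 : Real.log (m / c) ≤ Real.log (m / a) := by
    apply Real.log_le_log (div_pos hm hc)
    exact div_le_div_of_nonneg_left hm.le ha hac
  have h2 : Real.log (m / a) = Real.log (1 / q) + Real.log (m * q / a) := by
    rw [← Real.log_mul (by positivity) (by positivity)]
    congr 1
    field_simp
  have h3 := mul_log_div_le ha.le (by positivity : 0 ≤ m * q)
  calc a * Real.log (m / c) ≤ a * Real.log (m / a) := mul_le_mul_of_nonneg_left h1 ha.le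
    _ = a * Real.log (1 / q) + a * Real.log (m * q / a) := by rw [h2]; ring
    _ ≤ a * Real.log (1 / q) + m * q * Real.exp (-1) := by linarith

/-- **entropic inequality**, finite form. -/
theorem sum_entropic {ι : Type*} (s : Finset ι) (a c q : ι → ℝ) (m Q : ℝ) (hm : 0 < m)
    (ha : ∀ i ∈ s, 0 ≤ a i) (hac : ∀ i ∈ s, a i ≤ c i) (hq : ∀ i ∈ s, 0 < q i)
    (hQ : ∑ i ∈ s, q i ≤ Q) :
    ∑ i ∈ s, a i * Real.log (m / c i) ≤
      ∑ i ∈ s, a i * Real.log (1 / q i) + m * Q * Real.exp (-1) := by
  calc ∑ i ∈ s, a i * Real.log (m / c i)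
      ≤ ∑ i ∈ s, (a i * Real.log (1 / q i) + m * q i * Real.exp (-1)) :=
        Finset.sum_le_sum fun i hi => leaf_le hm (ha i hi) (hac i hi) (hq i hi)
    _ = ∑ i ∈ s, a i * Real.log (1 / q i) + m * (∑ i ∈ s, q i) * Real.exp (-1) := by
        rw [Finset.sum_add_distrib, Finset.mul_sum, Finset.sum_mul]
    _ ≤ _ := by
        have : m * (∑ i ∈ s, q i) * Real.exp (-1) ≤ m * Q * Real.exp (-1) :=
          mul_le_mul_of_nonneg_right (mul_le_mul_of_nonneg_left hQ hm.le) (Real.exp_pos _).le
        linarith

/-- **entropic inequality**, `ENNReal`, countably many leaves (no measurability of `A` needed: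
`a i` any number `≤ μ (leaf i)`). -/
theorem tsum_entropic {ι : Type*} (a c : ι → ℝ≥0∞) (q : ι → ℝ) (m : ℝ) (Q : ℝ≥0∞) (hm : 0 < m)
    (hac : ∀ i, a i ≤ c i) (hc : ∀ i, c i ≠ ∞) (hq : ∀ i, 0 < q i)
    (hQ : ∑' i, ENNReal.ofReal (q i) ≤ Q) :
    ∑' i, a i * ENNReal.ofReal (Real.log (m / (c i).toReal)) ≤
      ∑' i, a i * ENNReal.ofReal (Real.log (1 / q i)) +
        ENNReal.ofReal (m * Real.exp (-1)) * Q := by
  have key : ∀ i, a i * ENNReal.ofReal (Real.log (m / (c i).toReal)) ≤
      a i * ENNReal.ofReal (Real.log (1 / q i)) +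
        ENNReal.ofReal (m * Real.exp (-1)) * ENNReal.ofReal (q i) := by
    intro i
    have hai : a i ≠ ∞ := ne_top_of_le_ne_top (hc i) (hac i)
    have h := leaf_le (a := (a i).toReal) (c := (c i).toReal) (q := q i) hm ENNReal.toReal_nonneg
      (ENNReal.toReal_mono (hc i) (hac i)) (hq i)
    have h2 : (a i).toReal * Real.log (m / (c i).toReal) ≤
        (a i).toReal * max (Real.log (1 / q i)) 0 + m * Real.exp (-1) * q i := by
      have : (a i).toReal * Real.log (1 / q i) ≤ (a i).toReal * max (Real.log (1 / q i)) 0 :=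
        mul_le_mul_of_nonneg_left (le_max_left _ _) ENNReal.toReal_nonneg
      nlinarith
    calc a i * ENNReal.ofReal (Real.log (m / (c i).toReal))
        = ENNReal.ofReal ((a i).toReal) * ENNReal.ofReal (Real.log (m / (c i).toReal)) := by
          rw [ENNReal.ofReal_toReal hai]
      _ = ENNReal.ofReal ((a i).toReal * Real.log (m / (c i).toReal)) := by
          rw [ENNReal.ofReal_mul ENNReal.toReal_nonneg]
      _ ≤ ENNReal.ofReal ((a i).toReal * max (Real.log (1 / q i)) 0 + m * Real.exp (-1) * q i) :=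
          ENNReal.ofReal_le_ofReal h2
      _ ≤ ENNReal.ofReal ((a i).toReal * max (Real.log (1 / q i)) 0) +
            ENNReal.ofReal (m * Real.exp (-1) * q i) := ENNReal.ofReal_add_le
      _ = _ := by
          rw [ENNReal.ofReal_mul ENNReal.toReal_nonneg, ENNReal.ofReal_toReal hai,
            ENNReal.ofReal_mul (by positivity)]
          congr 2
          rcases le_total (Real.log (1 / q i)) 0 with h | h
          · rw [max_eq_right h, ENNReal.ofReal_zero, ENNReal.ofReal_of_nonpos h]
          · rw [max_eq_left h]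
  calc ∑' i, a i * ENNReal.ofReal (Real.log (m / (c i).toReal))
      ≤ ∑' i, (a i * ENNReal.ofReal (Real.log (1 / q i)) +
        ENNReal.ofReal (m * Real.exp (-1)) * ENNReal.ofReal (q i)) := ENNReal.tsum_le_tsum key
    _ = ∑' i, a i * ENNReal.ofReal (Real.log (1 / q i)) +
        ENNReal.ofReal (m * Real.exp (-1)) * ∑' i, ENNReal.ofReal (q i) := by
        rw [ENNReal.tsum_add, ENNReal.tsum_mul_left]
    _ ≤ _ := by gcongr

/-- **entropic inequality**, integral form.  `leaf i` = disjoint cells covering `A`, `m` = mass of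
the start cell, `q i` the weight of the leaf. `ext` = logarithm of `m / μ (leaf)`,
`ch` = logarithm of `1/q` of the leaf containing the point. -/
theorem lintegral_entropic {Ω ι : Type*} [MeasurableSpace Ω] (μ : Measure Ω) [Countable ι]
    (leaf : ι → Set Ω) (hleaf : ∀ i, MeasurableSet (leaf i))
    (hdis : Pairwise (Function.onFun Disjoint leaf))
    (A : Set Ω) (hA : MeasurableSet A) (hcov : A ⊆ ⋃ i, leaf i) (q : ι → ℝ) (m : ℝ) (Q : ℝ≥0∞)
    (hm : 0 < m) (hfin : ∀ i, μ (leaf i) ≠ ∞) (hq : ∀ i, 0 < q i)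
    (hQ : ∑' i, ENNReal.ofReal (q i) ≤ Q) (ext ch : Ω → ℝ≥0∞)
    (hext : ∀ i, ∀ x ∈ leaf i ∩ A, ext x ≤ ENNReal.ofReal (Real.log (m / (μ (leaf i)).toReal)))
    (hch : ∀ i, ∀ x ∈ leaf i ∩ A, ENNReal.ofReal (Real.log (1 / q i)) ≤ ch x) :
    ∫⁻ x in A, ext x ∂μ ≤ ∫⁻ x in A, ch x ∂μ + ENNReal.ofReal (m * Real.exp (-1)) * Q := by
  have hAU : A = ⋃ i, leaf i ∩ A := by
    ext x
    simp only [Set.mem_iUnion, Set.mem_inter_iff]
    constructor
    · intro hx
      obtain ⟨i, hi⟩ := Set.mem_iUnion.mp (hcov hx)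
      exact ⟨i, hi, hx⟩
    · rintro ⟨i, -, hx⟩
      exact hx
  have hmeas : ∀ i, MeasurableSet (leaf i ∩ A) := fun i => (hleaf i).inter hA
  have hd : Pairwise (Function.onFun Disjoint fun i => leaf i ∩ A) := fun i j hij =>
    (hdis hij).mono Set.inter_subset_left Set.inter_subset_left
  have e1 : ∀ f : Ω → ℝ≥0∞, ∫⁻ x in A, f x ∂μ = ∑' i, ∫⁻ x in leaf i ∩ A, f x ∂μ := by
    intro f
    conv_lhs => rw [hAU]
    exact lintegral_iUnion hmeas hd f
  rw [e1 ext, e1 ch]
  have u1 : ∀ i, ∫⁻ x in leaf i ∩ A, ext x ∂μ ≤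
      μ (leaf i ∩ A) * ENNReal.ofReal (Real.log (m / (μ (leaf i)).toReal)) := by
    intro i
    calc ∫⁻ x in leaf i ∩ A, ext x ∂μ
        ≤ ∫⁻ _ in leaf i ∩ A, ENNReal.ofReal (Real.log (m / (μ (leaf i)).toReal)) ∂μ :=
          setLIntegral_mono' (hmeas i) fun x hx => hext i x hx
      _ = _ := by rw [setLIntegral_const, mul_comm]
  have u2 : ∀ i, μ (leaf i ∩ A) * ENNReal.ofReal (Real.log (1 / q i)) ≤
      ∫⁻ x in leaf i ∩ A, ch x ∂μ := by
    intro i
    calc μ (leaf i ∩ A) * ENNReal.ofReal (Real.log (1 / q i))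
        = ∫⁻ _ in leaf i ∩ A, ENNReal.ofReal (Real.log (1 / q i)) ∂μ := by
          rw [setLIntegral_const, mul_comm]
      _ ≤ _ := setLIntegral_mono' (hmeas i) fun x hx => hch i x hx
  calc ∑' i, ∫⁻ x in leaf i ∩ A, ext x ∂μ
      ≤ ∑' i, μ (leaf i ∩ A) * ENNReal.ofReal (Real.log (m / (μ (leaf i)).toReal)) :=
        ENNReal.tsum_le_tsum u1
    _ ≤ ∑' i, μ (leaf i ∩ A) * ENNReal.ofReal (Real.log (1 / q i)) +
          ENNReal.ofReal (m * Real.exp (-1)) * Q :=
        tsum_entropic (fun i => μ (leaf i ∩ A)) (fun i => μ (leaf i)) q m Q hm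
          (fun i => measure_mono Set.inter_subset_left) hfin hq hQ
    _ ≤ _ := by gcongr with i; exact u2 i

/-- **Kraft**: weights of a finitely branching tree with a parent map: if the children of `i`
have total weight `≤ q n i` then the total weight of generation `n` is at most that of
generation `0`. -/
theorem kraft {ι : ℕ → Type*} [∀ n, Fintype (ι n)] [∀ n, DecidableEq (ι n)]
    (par : ∀ n, ι (n + 1) → ι n) (q : ∀ n, ι n → ℝ≥0∞)
    (h : ∀ n i, ∑ j ∈ Finset.univ.filter (fun j => par n j = i), q (n + 1) j ≤ q n i) (n : ℕ) :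
    ∑ i, q n i ≤ ∑ i, q 0 i := by
  induction n with
  | zero => exact le_rfl
  | succ n ih =>
    refine le_trans ?_ ih
    calc ∑ j, q (n + 1) j
        = ∑ i, ∑ j ∈ Finset.univ.filter (fun j => par n j = i), q (n + 1) j :=
          (Finset.sum_fiberwise Finset.univ (par n) (q (n + 1))).symm
      _ ≤ ∑ i, q n i := Finset.sum_le_sum fun i _ => h n i

/-- Kraft inequality for words: `L` a finite prefix-free set of words, the `j`-th letter of a word
`w` is `< M (w.take j)`; then `Σ_w ∏_j 1/(κ M (w.take j)) ≤ 1`, and `≤ 1/κ` if the empty word is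
not in `L`. -/
noncomputable def wt (κ : ℝ) (M : List ℕ → ℕ) : List ℕ → ℝ
  | [] => 1
  | j :: w => 1 / (κ * M []) * wt κ (fun v => M (j :: v)) w

theorem wt_nonneg (κ : ℝ) (hκ : 0 ≤ κ) (w : List ℕ) : ∀ M : List ℕ → ℕ, 0 ≤ wt κ M w := by
  induction w with
  | nil => intro M; simp [wt]
  | cons j w ih =>
    intro M
    simp only [wt]
    have := ih (fun v => M (j :: v))
    positivity

/-- letters of the word are admissible -/
def adm : (List ℕ → ℕ) → List ℕ → Prop
  | _, [] => True
  | M, j :: w => j < M [] ∧ adm (fun v => M (j :: v)) w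

theorem kraft_words (κ : ℝ) (hκ : 1 ≤ κ) : ∀ (N : ℕ) (M : List ℕ → ℕ) (L : Finset (List ℕ)),
    (∀ w ∈ L, w.length ≤ N) → (∀ w ∈ L, adm M w) →
    (∀ v ∈ L, ∀ w ∈ L, v <+: w → v = w) →
    (∑ w ∈ L, wt κ M w ≤ 1) ∧ ([] ∉ L → ∑ w ∈ L, wt κ M w ≤ 1 / κ) := by
  have hκ0 : 0 < κ := lt_of_lt_of_le one_pos hκ
  intro N
  induction N with
  | zero =>
    intro M L hN _ _
    have hsub : L ⊆ {[]} := by
      intro w hw
      have := hN w hw
      simp only [Nat.le_zero, List.length_eq_zero_iff] at this
      simp [this]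
    constructor
    · calc ∑ w ∈ L, wt κ M w ≤ ∑ w ∈ ({[]} : Finset (List ℕ)), wt κ M w :=
            Finset.sum_le_sum_of_subset_of_nonneg hsub fun w _ _ => wt_nonneg κ hκ0.le w M
        _ = 1 := by simp [wt]
    · intro h
      have : L = ∅ := by
        apply Finset.eq_empty_of_forall_notMem
        intro w hw
        have h2 := hsub hw
        simp only [Finset.mem_singleton] at h2
        exact h (h2 ▸ hw)
      rw [this]
      simp only [Finset.sum_empty]
      positivity
  | succ N ih =>
    intro M L hN hadm hpre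
    by_cases hnil : [] ∈ L
    · have hL : L = {[]} := by
        apply Finset.eq_singleton_iff_unique_mem.mpr
        exact ⟨hnil, fun w hw => (hpre [] hnil w hw List.nil_prefix).symm⟩
      constructor
      · rw [hL]; simp [wt]
      · intro h; exact absurd hnil h
    · -- all words are nonempty
      have hmain : ∑ w ∈ L, wt κ M w ≤ 1 / κ := by
        -- split by the first letter
        have hhead : ∀ w ∈ L, ∃ j v, w = j :: v ∧ j < M [] := by
          intro w hw
          cases w with
          | nil => exact absurd hw hnil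
          | cons j v => exact ⟨j, v, rfl, (hadm _ hw).1⟩
        let Lj : ℕ → Finset (List ℕ) := fun j =>
          (L.filter (fun w => w.head? = some j)).image List.tail
        have hLj : ∀ j v, v ∈ Lj j ↔ (j :: v) ∈ L := by
          intro j v
          simp only [Lj, Finset.mem_image, Finset.mem_filter]
          constructor
          · rintro ⟨w, ⟨hw, hh⟩, ht⟩
            cases w with
            | nil => simp at hh
            | cons a u =>
              simp only [List.head?_cons, Option.some.injEq] at hh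
              simp only [List.tail_cons] at ht
              subst hh; subst ht
              exact hw
          · intro hv
            exact ⟨j :: v, ⟨hv, by simp⟩, by simp⟩
        have hsum : ∑ w ∈ L, wt κ M w =
            ∑ j ∈ Finset.range (M []), ∑ v ∈ Lj j, wt κ M (j :: v) := by
          rw [Finset.sum_sigma']
          symm
          apply Finset.sum_bij (fun (p : (_ : ℕ) × List ℕ) _ => p.1 :: p.2)
          · rintro ⟨j, v⟩ hp
            simp only [Finset.mem_sigma] at hp
            exact (hLj j v).1 hp.2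
          · rintro ⟨j, v⟩ _ ⟨j', v'⟩ _ h
            simp only [List.cons.injEq] at h
            obtain ⟨rfl, rfl⟩ := h
            rfl
          · intro w hw
            obtain ⟨j, v, rfl, hj⟩ := hhead w hw
            exact ⟨⟨j, v⟩, by
              simp only [Finset.mem_sigma, Finset.mem_range]
              exact ⟨hj, (hLj j v).2 hw⟩, rfl⟩
          · intro p _; rfl
        rw [hsum]
        have hj : ∀ j ∈ Finset.range (M []), ∑ v ∈ Lj j, wt κ M (j :: v) ≤ 1 / (κ * M []) := by
          intro j hj
          have h1 := (ih (fun v => M (j :: v)) (Lj j)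
            (fun v hv => by
              have := hN _ ((hLj j v).1 hv)
              simp only [List.length_cons] at this
              omega)
            (fun v hv => (hadm _ ((hLj j v).1 hv)).2)
            (fun v hv w hw hvw => by
              have := hpre _ ((hLj j v).1 hv) _ ((hLj j w).1 hw)
                (List.cons_prefix_cons.mpr ⟨rfl, hvw⟩)
              simpa using this)).1
          calc ∑ v ∈ Lj j, wt κ M (j :: v)
              = 1 / (κ * M []) * ∑ v ∈ Lj j, wt κ (fun v => M (j :: v)) v := by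
                rw [Finset.mul_sum]; rfl
            _ ≤ 1 / (κ * M []) * 1 := by
                apply mul_le_mul_of_nonneg_left h1
                positivity
            _ = _ := mul_one _
        calc ∑ j ∈ Finset.range (M []), ∑ v ∈ Lj j, wt κ M (j :: v)
            ≤ ∑ j ∈ Finset.range (M []), 1 / (κ * M []) := Finset.sum_le_sum hj
          _ = (M []) * (1 / (κ * M [])) := by simp
          _ ≤ 1 / κ := by
              rcases Nat.eq_zero_or_pos (M []) with h | h
              · rw [h]; simp; positivity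
              · have : (0:ℝ) < M [] := by exact_mod_cast h
                apply le_of_eq
                field_simp
      have h1 : (1:ℝ) / κ ≤ 1 := by
        rw [div_le_one hκ0]; exact hκ
      exact ⟨hmain.trans h1, fun _ => hmain⟩

end Crest.Agent.R128.Entropic
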