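import Mathlib

/-!
# The exploration lemma, linear and filtration free form (row 128)

Generations `A 0 ⊇ A 1 ⊇ ...` of the set of points which are still alive.  In step `j` the set
`A j` is split in a paid part `A j ∩ P j` and a free part `A j \ P j`.  `R j` is the radius
known at step `j`, `δ j` the extension in a free step, `h` is the height which is integrated.
-/

open MeasureTheory
open scoped ENNReal

namespace Crest.Agent.R128.ExplLin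

/-- If `a (j+1) ≤ a j / 2 + d j` for all `j`, then `∑ a ≤ 2 a 0 + 2 ∑ d`. -/
theorem tsum_le_of_half (a d : ℕ → ℝ≥0∞) (h : ∀ j, a (j + 1) ≤ a j / 2 + d j) :
    ∑' j, a j ≤ 2 * a 0 + 2 * ∑' j, d j := by
  rw [ENNReal.tsum_eq_iSup_nat]
  refine iSup_le fun n => ?_
  induction n with
  | zero => simp
  | succ n ih =>
    rw [Finset.sum_range_succ']
    have h1 : ∑ j ∈ Finset.range n, a (j + 1)
        ≤ (∑ j ∈ Finset.range n, a j) / 2 + ∑ j ∈ Finset.range n, d j := by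
      calc ∑ j ∈ Finset.range n, a (j + 1)
          ≤ ∑ j ∈ Finset.range n, (a j / 2 + d j) := Finset.sum_le_sum fun j _ => h j
        _ = (∑ j ∈ Finset.range n, a j) / 2 + ∑ j ∈ Finset.range n, d j := by
            rw [Finset.sum_add_distrib]
            congr 1
            simp only [div_eq_mul_inv, Finset.sum_mul]
    have h2 : (∑ j ∈ Finset.range n, a j) / 2 ≤ a 0 + ∑' j, d j := by
      calc (∑ j ∈ Finset.range n, a j) / 2 ≤ (2 * a 0 + 2 * ∑' j, d j) / 2 :=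
            ENNReal.div_le_div_right ih 2
        _ = a 0 + ∑' j, d j := by
            rw [← mul_add, mul_comm, mul_div_assoc, ENNReal.div_self (by norm_num) (by norm_num),
              mul_one]
    have h3 : ∑ j ∈ Finset.range n, d j ≤ ∑' j, d j := ENNReal.sum_le_tsum _
    calc ∑ j ∈ Finset.range n, a (j + 1) + a 0
        ≤ ((a 0 + ∑' j, d j) + ∑' j, d j) + a 0 := by
          gcongr
          exact h1.trans (add_le_add h2 h3)
      _ = 2 * a 0 + 2 * ∑' j, d j := by ring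

variable {Ω : Type*} [MeasurableSpace Ω] {μ : Measure Ω}

/-- splitting of the integral over `A 0` along an antitone sequence of sets. -/
theorem lintegral_antitone_le {A : ℕ → Set Ω}
    (hanti : ∀ j, A (j + 1) ⊆ A j) (h : Ω → ℝ≥0∞)
    (htail : ∫⁻ x in ⋂ j, A j, h x ∂μ = 0) {B : ℝ≥0∞}
    (hB : ∀ n, ∫⁻ x in A 0 \ A n, h x ∂μ ≤ B) :
    ∫⁻ x in A 0, h x ∂μ ≤ B := by
  have hsub : A 0 ⊆ (⋂ j, A j) ∪ ⋃ n, (A 0 \ A n) := by
    intro x hx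
    by_cases hx' : x ∈ ⋂ j, A j
    · exact Or.inl hx'
    · right
      simp only [Set.mem_iInter, not_forall] at hx'
      obtain ⟨n, hn⟩ := hx'
      exact Set.mem_iUnion.2 ⟨n, hx, hn⟩
  have hmono : Monotone fun n => A 0 \ A n := by
    refine monotone_nat_of_le_succ fun n => ?_
    intro x hx
    exact ⟨hx.1, fun hx' => hx.2 (hanti n hx')⟩
  calc ∫⁻ x in A 0, h x ∂μ
      ≤ ∫⁻ x in (⋂ j, A j) ∪ ⋃ n, (A 0 \ A n), h x ∂μ := lintegral_mono_set hsub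
    _ ≤ ∫⁻ x in ⋂ j, A j, h x ∂μ + ∫⁻ x in ⋃ n, (A 0 \ A n), h x ∂μ :=
        lintegral_union_le _ _ _
    _ = ∫⁻ x in ⋃ n, (A 0 \ A n), h x ∂μ := by rw [htail, zero_add]
    _ = ⨆ n, ∫⁻ x in A 0 \ A n, h x ∂μ :=
        setLIntegral_iUnion_of_directed _ (hmono.directed_le)
    _ ≤ B := iSup_le hB

/-- One step of the exploration: the potential `∫_{done} h + ∫_{alive} (2 R + b)` increases
at most by `2 ∫_{free} δ`. -/
theorem step {A A' P : Set Ω} (hA : MeasurableSet A) (hA' : MeasurableSet A')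
    (hP : MeasurableSet P) (hsub : A' ⊆ A) {h R R' δ : Ω → ℝ≥0∞} (hR : Measurable R)
    (hδ : Measurable δ) {q C₀ b lam : ℝ≥0∞}
    (h1 : ∀ x ∈ A \ A', h x ≤ R x + C₀)
    (h2 : ∀ x ∈ A' ∩ P, R' x ≤ q * R x + C₀)
    (h3 : ∀ x ∈ A' \ P, R' x ≤ R x + δ x)
    (h4 : ∫⁻ x in A' ∩ P, R x ∂μ ≤ lam * ∫⁻ x in A ∩ P, R x ∂μ)
    (h5 : μ (A' ∩ P) ≤ lam * μ (A ∩ P))
    (hq : 2 * q * lam ≤ 1) (hb : C₀ + lam * (2 * C₀ + b) ≤ b) :
    ∫⁻ x in A \ A', h x ∂μ + ∫⁻ x in A', (2 * R' x + b) ∂μ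
      ≤ ∫⁻ x in A, (2 * R x + b) ∂μ + 2 * ∫⁻ x in A \ P, δ x ∂μ := by
  have hCb : C₀ ≤ b := le_trans (le_add_right le_rfl) hb
  have e1 : ∀ S : Set Ω, ∫⁻ x in S, (R x + C₀) ∂μ = ∫⁻ x in S, R x ∂μ + C₀ * μ S := by
    intro S
    rw [lintegral_add_left hR, setLIntegral_const]
  have e2 : ∀ S : Set Ω, ∫⁻ x in S, (2 * R x + b) ∂μ = 2 * ∫⁻ x in S, R x ∂μ + b * μ S := by
    intro S
    rw [lintegral_add_left (hR.const_mul 2), setLIntegral_const, lintegral_const_mul _ hR]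
  have e3 : ∀ S : Set Ω, ∫⁻ x in S, (2 * (q * R x + C₀) + b) ∂μ
      = 2 * q * ∫⁻ x in S, R x ∂μ + (2 * C₀ + b) * μ S := by
    intro S
    have : ∀ x, 2 * (q * R x + C₀) + b = (2 * q) * R x + (2 * C₀ + b) := fun x => by ring
    simp only [this]
    rw [lintegral_add_left (hR.const_mul _), setLIntegral_const, lintegral_const_mul _ hR]
  have e4 : ∀ S : Set Ω, ∫⁻ x in S, (2 * (R x + δ x) + b) ∂μ
      = 2 * ∫⁻ x in S, R x ∂μ + 2 * ∫⁻ x in S, δ x ∂μ + b * μ S := by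
    intro S
    have hRδ : Measurable fun x => R x + δ x := hR.add hδ
    rw [lintegral_add_left (hRδ.const_mul 2), setLIntegral_const,
      lintegral_const_mul _ hRδ, lintegral_add_left hR, mul_add]
  have split : ∀ (f : Ω → ℝ≥0∞) (S : Set Ω), ∫⁻ x in S, f x ∂μ
      = ∫⁻ x in S ∩ P, f x ∂μ + ∫⁻ x in S \ P, f x ∂μ := fun f S =>
    (lintegral_inter_add_sdiff f S hP).symm
  -- the pieces
  set D := A \ A' with hD
  have hDm : MeasurableSet D := hA.diff hA'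
  -- integral of `h`
  have i1 : ∫⁻ x in D, h x ∂μ ≤ (∫⁻ x in D ∩ P, R x ∂μ + C₀ * μ (D ∩ P))
      + (∫⁻ x in D \ P, R x ∂μ + C₀ * μ (D \ P)) := by
    calc ∫⁻ x in D, h x ∂μ ≤ ∫⁻ x in D, (R x + C₀) ∂μ := setLIntegral_mono' hDm h1
      _ = _ := by rw [split _ D, e1, e1]
  have i2 : ∫⁻ x in A', (2 * R' x + b) ∂μ
      ≤ (2 * q * ∫⁻ x in A' ∩ P, R x ∂μ + (2 * C₀ + b) * μ (A' ∩ P))
      + (2 * ∫⁻ x in A' \ P, R x ∂μ + 2 * ∫⁻ x in A' \ P, δ x ∂μ + b * μ (A' \ P)) := by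
    rw [split _ A', ← e3, ← e4]
    refine add_le_add ?_ ?_
    · refine setLIntegral_mono' (hA'.inter hP) fun x hx => ?_
      gcongr
      exact h2 x hx
    · refine setLIntegral_mono' (hA'.diff hP) fun x hx => ?_
      gcongr
      exact h3 x hx
  -- paid part
  have paid : (∫⁻ x in D ∩ P, R x ∂μ + C₀ * μ (D ∩ P))
      + (2 * q * ∫⁻ x in A' ∩ P, R x ∂μ + (2 * C₀ + b) * μ (A' ∩ P))
      ≤ 2 * ∫⁻ x in A ∩ P, R x ∂μ + b * μ (A ∩ P) := by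
    have hs : D ∩ P ⊆ A ∩ P := Set.inter_subset_inter_left _ Set.sdiff_subset
    calc (∫⁻ x in D ∩ P, R x ∂μ + C₀ * μ (D ∩ P))
          + (2 * q * ∫⁻ x in A' ∩ P, R x ∂μ + (2 * C₀ + b) * μ (A' ∩ P))
        ≤ (∫⁻ x in A ∩ P, R x ∂μ + C₀ * μ (A ∩ P))
          + (2 * q * (lam * ∫⁻ x in A ∩ P, R x ∂μ) + (2 * C₀ + b) * (lam * μ (A ∩ P))) := by
          gcongr
      _ = ((∫⁻ x in A ∩ P, R x ∂μ) + (2 * q * lam) * ∫⁻ x in A ∩ P, R x ∂μ)
          + (C₀ + lam * (2 * C₀ + b)) * μ (A ∩ P) := by ring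
      _ ≤ ((∫⁻ x in A ∩ P, R x ∂μ) + 1 * ∫⁻ x in A ∩ P, R x ∂μ) + b * μ (A ∩ P) := by
          gcongr
      _ = 2 * ∫⁻ x in A ∩ P, R x ∂μ + b * μ (A ∩ P) := by ring
  -- free part
  have hU : D \ P ∪ A' \ P = A \ P := by
    ext x
    simp only [hD, Set.mem_union, Set.mem_sdiff]
    constructor
    · rintro (h | h)
      · exact ⟨h.1.1, h.2⟩
      · exact ⟨hsub h.1, h.2⟩
    · rintro h
      by_cases hx : x ∈ A'
      · exact Or.inr ⟨hx, h.2⟩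
      · exact Or.inl ⟨⟨h.1, hx⟩, h.2⟩
  have hdisj : Disjoint (D \ P) (A' \ P) := by
    rw [Set.disjoint_left]
    intro x hx hx'
    exact hx.1.2 hx'.1
  have free : (∫⁻ x in D \ P, R x ∂μ + C₀ * μ (D \ P))
      + (2 * ∫⁻ x in A' \ P, R x ∂μ + 2 * ∫⁻ x in A' \ P, δ x ∂μ + b * μ (A' \ P))
      ≤ 2 * ∫⁻ x in A \ P, R x ∂μ + b * μ (A \ P) + 2 * ∫⁻ x in A \ P, δ x ∂μ := by
    have hI : ∫⁻ x in A \ P, R x ∂μ = ∫⁻ x in D \ P, R x ∂μ + ∫⁻ x in A' \ P, R x ∂μ := by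
      rw [← hU, lintegral_union (hA'.diff hP) hdisj]
    have hm : μ (A \ P) = μ (D \ P) + μ (A' \ P) := by
      rw [← hU, measure_union hdisj (hA'.diff hP)]
    have hs : A' \ P ⊆ A \ P := Set.sdiff_subset_sdiff_left hsub
    calc (∫⁻ x in D \ P, R x ∂μ + C₀ * μ (D \ P))
          + (2 * ∫⁻ x in A' \ P, R x ∂μ + 2 * ∫⁻ x in A' \ P, δ x ∂μ + b * μ (A' \ P))
        ≤ (2 * ∫⁻ x in D \ P, R x ∂μ + b * μ (D \ P))
          + (2 * ∫⁻ x in A' \ P, R x ∂μ + 2 * ∫⁻ x in A \ P, δ x ∂μ + b * μ (A' \ P)) := by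
          have : ∫⁻ x in D \ P, R x ∂μ ≤ 2 * ∫⁻ x in D \ P, R x ∂μ := by
            rw [two_mul]; exact le_add_right le_rfl
          gcongr
      _ = 2 * (∫⁻ x in D \ P, R x ∂μ + ∫⁻ x in A' \ P, R x ∂μ)
          + b * (μ (D \ P) + μ (A' \ P)) + 2 * ∫⁻ x in A \ P, δ x ∂μ := by ring
      _ = _ := by rw [← hI, ← hm]
  calc ∫⁻ x in D, h x ∂μ + ∫⁻ x in A', (2 * R' x + b) ∂μ
      ≤ ((∫⁻ x in D ∩ P, R x ∂μ + C₀ * μ (D ∩ P))
        + (∫⁻ x in D \ P, R x ∂μ + C₀ * μ (D \ P)))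
        + ((2 * q * ∫⁻ x in A' ∩ P, R x ∂μ + (2 * C₀ + b) * μ (A' ∩ P))
        + (2 * ∫⁻ x in A' \ P, R x ∂μ + 2 * ∫⁻ x in A' \ P, δ x ∂μ + b * μ (A' \ P))) :=
        add_le_add i1 i2
    _ = ((∫⁻ x in D ∩ P, R x ∂μ + C₀ * μ (D ∩ P))
        + (2 * q * ∫⁻ x in A' ∩ P, R x ∂μ + (2 * C₀ + b) * μ (A' ∩ P)))
        + ((∫⁻ x in D \ P, R x ∂μ + C₀ * μ (D \ P))
        + (2 * ∫⁻ x in A' \ P, R x ∂μ + 2 * ∫⁻ x in A' \ P, δ x ∂μ + b * μ (A' \ P))) := by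
        ring
    _ ≤ (2 * ∫⁻ x in A ∩ P, R x ∂μ + b * μ (A ∩ P))
        + (2 * ∫⁻ x in A \ P, R x ∂μ + b * μ (A \ P) + 2 * ∫⁻ x in A \ P, δ x ∂μ) :=
        add_le_add paid free
    _ = (∫⁻ x in A ∩ P, (2 * R x + b) ∂μ + ∫⁻ x in A \ P, (2 * R x + b) ∂μ)
        + 2 * ∫⁻ x in A \ P, δ x ∂μ := by rw [e2, e2]; ring
    _ = _ := by rw [← split]

/-- **Exploration lemma.**  `A 0 ⊇ A 1 ⊇ ...` (alive), `P j` (paid), radii `R j`, extensions
`δ j` in the free steps.  Then `∫_{A 0} h ≤ ∫_{A 0} (2 R 0 + b) + 2 ∑ ∫_{free j} δ j`. -/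
theorem exploration {A P : ℕ → Set Ω} (hA : ∀ j, MeasurableSet (A j))
    (hP : ∀ j, MeasurableSet (P j)) (hanti : ∀ j, A (j + 1) ⊆ A j)
    {h : Ω → ℝ≥0∞} {R δ : ℕ → Ω → ℝ≥0∞} (hR : ∀ j, Measurable (R j))
    (hδ : ∀ j, Measurable (δ j)) {q C₀ b lam : ℝ≥0∞}
    (h1 : ∀ j, ∀ x ∈ A j \ A (j + 1), h x ≤ R j x + C₀)
    (h2 : ∀ j, ∀ x ∈ A (j + 1) ∩ P j, R (j + 1) x ≤ q * R j x + C₀)
    (h3 : ∀ j, ∀ x ∈ A (j + 1) \ P j, R (j + 1) x ≤ R j x + δ j x)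
    (h4 : ∀ j, ∫⁻ x in A (j + 1) ∩ P j, R j x ∂μ ≤ lam * ∫⁻ x in A j ∩ P j, R j x ∂μ)
    (h5 : ∀ j, μ (A (j + 1) ∩ P j) ≤ lam * μ (A j ∩ P j))
    (hq : 2 * q * lam ≤ 1) (hb : C₀ + lam * (2 * C₀ + b) ≤ b)
    (htail : ∫⁻ x in ⋂ j, A j, h x ∂μ = 0) :
    ∫⁻ x in A 0, h x ∂μ
      ≤ ∫⁻ x in A 0, (2 * R 0 x + b) ∂μ + 2 * ∑' j, ∫⁻ x in A j \ P j, δ j x ∂μ := by
  refine lintegral_antitone_le hanti h htail fun n => ?_
  have hsub0 : ∀ n, A n ⊆ A 0 := by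
    intro n
    induction n with
    | zero => exact subset_rfl
    | succ n ih => exact (hanti n).trans ih
  have key : ∀ n, ∫⁻ x in A 0 \ A n, h x ∂μ + ∫⁻ x in A n, (2 * R n x + b) ∂μ
      ≤ ∫⁻ x in A 0, (2 * R 0 x + b) ∂μ
        + 2 * ∑ j ∈ Finset.range n, ∫⁻ x in A j \ P j, δ j x ∂μ := by
    intro n
    induction n with
    | zero => simp
    | succ n ih =>
      have hs : A 0 \ A (n + 1) = (A 0 \ A n) ∪ (A n \ A (n + 1)) := by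
        ext x
        simp only [Set.mem_union, Set.mem_sdiff]
        constructor
        · rintro ⟨ha, hb⟩
          by_cases hx : x ∈ A n
          · exact Or.inr ⟨hx, hb⟩
          · exact Or.inl ⟨ha, hx⟩
        · rintro (⟨ha, hb⟩ | ⟨ha, hb⟩)
          · exact ⟨ha, fun hx => hb (hanti n hx)⟩
          · exact ⟨hsub0 n ha, hb⟩
      have hst := step (μ := μ) (hA n) (hA (n + 1)) (hP n) (hanti n) (hR n) (hδ n) (h1 n)
        (h2 n) (h3 n) (h4 n) (h5 n) hq hb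
      calc ∫⁻ x in A 0 \ A (n + 1), h x ∂μ + ∫⁻ x in A (n + 1), (2 * R (n + 1) x + b) ∂μ
          ≤ (∫⁻ x in A 0 \ A n, h x ∂μ + ∫⁻ x in A n \ A (n + 1), h x ∂μ)
            + ∫⁻ x in A (n + 1), (2 * R (n + 1) x + b) ∂μ := by
            rw [hs]
            gcongr
            exact lintegral_union_le _ _ _
        _ = ∫⁻ x in A 0 \ A n, h x ∂μ + (∫⁻ x in A n \ A (n + 1), h x ∂μ
            + ∫⁻ x in A (n + 1), (2 * R (n + 1) x + b) ∂μ) := by rw [add_assoc]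
        _ ≤ ∫⁻ x in A 0 \ A n, h x ∂μ + (∫⁻ x in A n, (2 * R n x + b) ∂μ
            + 2 * ∫⁻ x in A n \ P n, δ n x ∂μ) := by gcongr
        _ = (∫⁻ x in A 0 \ A n, h x ∂μ + ∫⁻ x in A n, (2 * R n x + b) ∂μ)
            + 2 * ∫⁻ x in A n \ P n, δ n x ∂μ := by rw [add_assoc]
        _ ≤ (∫⁻ x in A 0, (2 * R 0 x + b) ∂μ
            + 2 * ∑ j ∈ Finset.range n, ∫⁻ x in A j \ P j, δ j x ∂μ)
            + 2 * ∫⁻ x in A n \ P n, δ n x ∂μ := by gcongr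
        _ = _ := by rw [Finset.sum_range_succ]; ring
  calc ∫⁻ x in A 0 \ A n, h x ∂μ
      ≤ ∫⁻ x in A 0 \ A n, h x ∂μ + ∫⁻ x in A n, (2 * R n x + b) ∂μ := le_add_right le_rfl
    _ ≤ _ := key n
    _ ≤ _ := by
      gcongr
      exact ENNReal.sum_le_tsum _

/-- the tail condition from `μ (A j) → 0`. -/
theorem tail_of_tendsto {A : ℕ → Set Ω} (h : Ω → ℝ≥0∞) (hμ : Filter.Tendsto (fun j => μ (A j)) Filter.atTop (nhds 0)) :
    ∫⁻ x in ⋂ j, A j, h x ∂μ = 0 := by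
  have h0 : μ (⋂ j, A j) = 0 := by
    refine le_antisymm ?_ bot_le
    refine ge_of_tendsto' hμ fun j => ?_
    exact measure_mono (Set.iInter_subset _ j)
  rw [Measure.restrict_eq_zero.2 h0, lintegral_zero_measure]

/-- conditional masses from a countable partition in states on which `R` is constant:
hypotheses `h4`, `h5` of `exploration`. -/
theorem paid_of_states {ι : Type*} [Countable ι] {A A' : Set Ω} (I : ι → Set Ω)
    (hA : MeasurableSet A) (hI : ∀ i, MeasurableSet (I i))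
    (hdisj : Pairwise (Function.onFun Disjoint I)) (hsub : A' ⊆ A)
    (hcov : A ⊆ ⋃ i, I i) {R : Ω → ℝ≥0∞} {lam : ℝ≥0∞}
    (hconst : ∀ i, ∃ r, ∀ x ∈ A ∩ I i, R x = r)
    (hmass : ∀ i, μ (A' ∩ I i) ≤ lam * μ (A ∩ I i)) (hA' : MeasurableSet A') :
    (∫⁻ x in A', R x ∂μ ≤ lam * ∫⁻ x in A, R x ∂μ) ∧ μ A' ≤ lam * μ A := by
  have hdec : ∀ S : Set Ω, S ⊆ A → S = ⋃ i, S ∩ I i := by
    intro S hS
    rw [← Set.inter_iUnion]
    exact (Set.inter_eq_left.2 (hS.trans hcov)).symm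
  have hd : ∀ S : Set Ω, Pairwise (Function.onFun Disjoint fun i => S ∩ I i) := by
    intro S i j hij
    exact (hdisj hij).mono Set.inter_subset_right Set.inter_subset_right
  have hint : ∀ S : Set Ω, MeasurableSet S → S ⊆ A →
      ∀ f : Ω → ℝ≥0∞, ∫⁻ x in S, f x ∂μ = ∑' i, ∫⁻ x in S ∩ I i, f x ∂μ := by
    intro S hS hSA f
    conv_lhs => rw [hdec S hSA]
    exact lintegral_iUnion (fun i => hS.inter (hI i)) (hd S) f
  have hms : ∀ S : Set Ω, MeasurableSet S → S ⊆ A → μ S = ∑' i, μ (S ∩ I i) := by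
    intro S hS hSA
    conv_lhs => rw [hdec S hSA]
    exact measure_iUnion (hd S) (fun i => hS.inter (hI i))
  constructor
  · rw [hint A' hA' hsub, hint A hA subset_rfl, ← ENNReal.tsum_mul_left]
    refine ENNReal.tsum_le_tsum fun i => ?_
    obtain ⟨r, hr⟩ := hconst i
    have e1 : ∫⁻ x in A' ∩ I i, R x ∂μ = r * μ (A' ∩ I i) := by
      rw [← setLIntegral_const]
      exact setLIntegral_congr_fun (hA'.inter (hI i)) fun x hx => hr x ⟨hsub hx.1, hx.2⟩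
    have e2 : ∫⁻ x in A ∩ I i, R x ∂μ = r * μ (A ∩ I i) := by
      rw [← setLIntegral_const]
      exact setLIntegral_congr_fun (hA.inter (hI i)) fun x hx => hr x hx
    rw [e1, e2]
    calc r * μ (A' ∩ I i) ≤ r * (lam * μ (A ∩ I i)) := by gcongr; exact hmass i
      _ = lam * (r * μ (A ∩ I i)) := by ring
  · rw [hms A' hA' hsub, hms A hA subset_rfl, ← ENNReal.tsum_mul_left]
    exact ENNReal.tsum_le_tsum hmass

/-- the charge of the free steps from a countable partition in states: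
`∫_{S ∩ I} δ ≤ ∫_{S ∩ I} w` on every state gives `∫_S δ ≤ ∫_S w`. -/
theorem charge_of_states {ι : Type*} [Countable ι] {S : Set Ω} (I : ι → Set Ω)
    (hS : MeasurableSet S) (hI : ∀ i, MeasurableSet (I i))
    (hdisj : Pairwise (Function.onFun Disjoint I)) (hcov : S ⊆ ⋃ i, I i)
    {δ w : Ω → ℝ≥0∞}
    (hle : ∀ i, ∫⁻ x in S ∩ I i, δ x ∂μ ≤ ∫⁻ x in S ∩ I i, w x ∂μ) :
    ∫⁻ x in S, δ x ∂μ ≤ ∫⁻ x in S, w x ∂μ := by
  have hdec : S = ⋃ i, S ∩ I i := by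
    rw [← Set.inter_iUnion]
    exact (Set.inter_eq_left.2 hcov).symm
  have hd : Pairwise (Function.onFun Disjoint fun i => S ∩ I i) := by
    intro i j hij
    exact (hdisj hij).mono Set.inter_subset_right Set.inter_subset_right
  have hint : ∀ f : Ω → ℝ≥0∞, ∫⁻ x in S, f x ∂μ = ∑' i, ∫⁻ x in S ∩ I i, f x ∂μ := by
    intro f
    conv_lhs => rw [hdec]
    exact lintegral_iUnion (fun i => hS.inter (hI i)) hd f
  rw [hint, hint]
  exact ENNReal.tsum_le_tsum hle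

/-- the charges of all free steps: if `∑ j, w j x * 1[x free at j] ≤ W x` pointwise then
`∑ j ∫_{A j \ P j} w j ≤ ∫_{A 0} W`. -/
theorem sum_charge {A P : ℕ → Set Ω} (hA : ∀ j, MeasurableSet (A j))
    (hP : ∀ j, MeasurableSet (P j)) (hsub : ∀ j, A j ⊆ A 0) {w : ℕ → Ω → ℝ≥0∞}
    (hw : ∀ j, Measurable (w j)) {W : Ω → ℝ≥0∞}
    (hW : ∀ x ∈ A 0, ∑' j, (A j \ P j).indicator (w j) x ≤ W x) :
    ∑' j, ∫⁻ x in A j \ P j, w j x ∂μ ≤ ∫⁻ x in A 0, W x ∂μ := by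
  have h1 : ∀ j, ∫⁻ x in A j \ P j, w j x ∂μ
      = ∫⁻ x in A 0, (A j \ P j).indicator (w j) x ∂μ := by
    intro j
    have hs : A j \ P j ⊆ A 0 := fun x hx => hsub j hx.1
    rw [setLIntegral_indicator ((hA j).diff (hP j)), Set.inter_eq_left.2 hs]
  simp only [h1]
  rw [← lintegral_tsum]
  · exact setLIntegral_mono' (hA 0) hW
  · intro j
    exact ((hw j).indicator ((hA j).diff (hP j))).aemeasurable

/-- One step, weak form (only a fixed proportion `c` dies): linear potential `2 R + b`. -/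
theorem step_weak {A A' : Set Ω} (hA : MeasurableSet A) (hA' : MeasurableSet A')
    (hsub : A' ⊆ A) {h R R' : Ω → ℝ≥0∞} (hR : Measurable R) (hR' : Measurable R')
    {C₀ b c ε W : ℝ≥0∞}
    (h1 : ∀ x ∈ A \ A', h x ≤ R x + C₀)
    (h2 : ∫⁻ x in A', R' x ∂μ ≤ ∫⁻ x in A', R x ∂μ + C₀ * μ A + ε * ∫⁻ x in A, R x ∂μ + W)
    (h3 : c * ∫⁻ x in A, R x ∂μ ≤ ∫⁻ x in A \ A', R x ∂μ)
    (h4 : c * μ A ≤ μ (A \ A'))
    (hε : 2 * ε ≤ c) (hb : 2 * C₀ ≤ c * b) :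
    ∫⁻ x in A \ A', h x ∂μ + ∫⁻ x in A', (2 * R' x + (b + C₀)) ∂μ
      ≤ ∫⁻ x in A, (2 * R x + (b + C₀)) ∂μ + 2 * W := by
  have e1 : ∀ S : Set Ω, ∫⁻ x in S, (R x + C₀) ∂μ = ∫⁻ x in S, R x ∂μ + C₀ * μ S := by
    intro S
    rw [lintegral_add_left hR, setLIntegral_const]
  have e2 : ∀ (f : Ω → ℝ≥0∞), Measurable f → ∀ S : Set Ω,
      ∫⁻ x in S, (2 * f x + (b + C₀)) ∂μ = 2 * ∫⁻ x in S, f x ∂μ + (b + C₀) * μ S := by
    intro f hf S
    rw [lintegral_add_left (hf.const_mul 2), setLIntegral_const, lintegral_const_mul _ hf]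
  have hdisj : Disjoint (A \ A') A' := Set.disjoint_left.2 fun x hx hx' => hx.2 hx'
  have hU : A \ A' ∪ A' = A := by
    ext x
    simp only [Set.mem_union, Set.mem_sdiff]
    constructor
    · rintro (h | h)
      · exact h.1
      · exact hsub h
    · intro h
      by_cases hx : x ∈ A'
      · exact Or.inr hx
      · exact Or.inl ⟨h, hx⟩
  have hI : ∫⁻ x in A, R x ∂μ = ∫⁻ x in A \ A', R x ∂μ + ∫⁻ x in A', R x ∂μ := by
    conv_lhs => rw [← hU]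
    rw [lintegral_union hA' hdisj]
  have hm : μ A = μ (A \ A') + μ A' := by
    conv_lhs => rw [← hU]
    rw [measure_union hdisj hA']
  have i1 : ∫⁻ x in A \ A', h x ∂μ ≤ ∫⁻ x in A \ A', R x ∂μ + C₀ * μ (A \ A') := by
    rw [← e1]
    exact setLIntegral_mono' (hA.diff hA') h1
  rw [e2 _ hR', e2 _ hR]
  calc ∫⁻ x in A \ A', h x ∂μ + (2 * ∫⁻ x in A', R' x ∂μ + (b + C₀) * μ A')
      ≤ (∫⁻ x in A \ A', R x ∂μ + C₀ * μ (A \ A'))
        + (2 * (∫⁻ x in A', R x ∂μ + C₀ * μ A + ε * ∫⁻ x in A, R x ∂μ + W)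
          + (b + C₀) * μ A') := by gcongr
    _ = ∫⁻ x in A \ A', R x ∂μ + C₀ * μ (A \ A') + 2 * ∫⁻ x in A', R x ∂μ
        + (2 * C₀) * μ A + (2 * ε) * ∫⁻ x in A, R x ∂μ + 2 * W + (b + C₀) * μ A' := by ring
    _ ≤ ∫⁻ x in A \ A', R x ∂μ + C₀ * μ (A \ A') + 2 * ∫⁻ x in A', R x ∂μ
        + (c * b) * μ A + c * ∫⁻ x in A, R x ∂μ + 2 * W + (b + C₀) * μ A' := by gcongr
    _ = ∫⁻ x in A \ A', R x ∂μ + C₀ * μ (A \ A') + 2 * ∫⁻ x in A', R x ∂μ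
        + b * (c * μ A) + c * ∫⁻ x in A, R x ∂μ + 2 * W + (b + C₀) * μ A' := by ring
    _ ≤ ∫⁻ x in A \ A', R x ∂μ + C₀ * μ (A \ A') + 2 * ∫⁻ x in A', R x ∂μ
        + b * μ (A \ A') + ∫⁻ x in A \ A', R x ∂μ + 2 * W + (b + C₀) * μ A' := by gcongr
    _ = 2 * (∫⁻ x in A \ A', R x ∂μ + ∫⁻ x in A', R x ∂μ)
        + (b + C₀) * (μ (A \ A') + μ A') + 2 * W := by ring
    _ = 2 * ∫⁻ x in A, R x ∂μ + (b + C₀) * μ A + 2 * W := by rw [← hI, ← hm]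

/-- **Exploration lemma, weak form.**  In every step only a proportion `c` has to die, and the
expected increase of the radius is at most `C₀ + ε R + charge`, with `2 ε ≤ c`. -/
theorem exploration_weak {A : ℕ → Set Ω} (hA : ∀ j, MeasurableSet (A j))
    (hanti : ∀ j, A (j + 1) ⊆ A j)
    {h : Ω → ℝ≥0∞} {R : ℕ → Ω → ℝ≥0∞} (hR : ∀ j, Measurable (R j))
    {W : ℕ → ℝ≥0∞} {C₀ b c ε : ℝ≥0∞}
    (h1 : ∀ j, ∀ x ∈ A j \ A (j + 1), h x ≤ R j x + C₀)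
    (h2 : ∀ j, ∫⁻ x in A (j + 1), R (j + 1) x ∂μ ≤ ∫⁻ x in A (j + 1), R j x ∂μ + C₀ * μ (A j)
      + ε * ∫⁻ x in A j, R j x ∂μ + W j)
    (h3 : ∀ j, c * ∫⁻ x in A j, R j x ∂μ ≤ ∫⁻ x in A j \ A (j + 1), R j x ∂μ)
    (h4 : ∀ j, c * μ (A j) ≤ μ (A j \ A (j + 1)))
    (hε : 2 * ε ≤ c) (hb : 2 * C₀ ≤ c * b)
    (htail : ∫⁻ x in ⋂ j, A j, h x ∂μ = 0) :
    ∫⁻ x in A 0, h x ∂μ
      ≤ ∫⁻ x in A 0, (2 * R 0 x + (b + C₀)) ∂μ + 2 * ∑' j, W j := by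
  refine lintegral_antitone_le hanti h htail fun n => ?_
  have hsub0 : ∀ n, A n ⊆ A 0 := by
    intro n
    induction n with
    | zero => exact subset_rfl
    | succ n ih => exact (hanti n).trans ih
  have key : ∀ n, ∫⁻ x in A 0 \ A n, h x ∂μ + ∫⁻ x in A n, (2 * R n x + (b + C₀)) ∂μ
      ≤ ∫⁻ x in A 0, (2 * R 0 x + (b + C₀)) ∂μ + 2 * ∑ j ∈ Finset.range n, W j := by
    intro n
    induction n with
    | zero => simp
    | succ n ih =>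
      have hs : A 0 \ A (n + 1) = (A 0 \ A n) ∪ (A n \ A (n + 1)) := by
        ext x
        simp only [Set.mem_union, Set.mem_sdiff]
        constructor
        · rintro ⟨ha, hb⟩
          by_cases hx : x ∈ A n
          · exact Or.inr ⟨hx, hb⟩
          · exact Or.inl ⟨ha, hx⟩
        · rintro (⟨ha, hb⟩ | ⟨ha, hb⟩)
          · exact ⟨ha, fun hx => hb (hanti n hx)⟩
          · exact ⟨hsub0 n ha, hb⟩
      have hst := step_weak (μ := μ) (hA n) (hA (n + 1)) (hanti n) (hR n) (hR (n + 1)) (h1 n)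
        (h2 n) (h3 n) (h4 n) hε hb
      calc ∫⁻ x in A 0 \ A (n + 1), h x ∂μ
            + ∫⁻ x in A (n + 1), (2 * R (n + 1) x + (b + C₀)) ∂μ
          ≤ (∫⁻ x in A 0 \ A n, h x ∂μ + ∫⁻ x in A n \ A (n + 1), h x ∂μ)
            + ∫⁻ x in A (n + 1), (2 * R (n + 1) x + (b + C₀)) ∂μ := by
            rw [hs]
            gcongr
            exact lintegral_union_le _ _ _
        _ = ∫⁻ x in A 0 \ A n, h x ∂μ + (∫⁻ x in A n \ A (n + 1), h x ∂μ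
            + ∫⁻ x in A (n + 1), (2 * R (n + 1) x + (b + C₀)) ∂μ) := by rw [add_assoc]
        _ ≤ ∫⁻ x in A 0 \ A n, h x ∂μ + (∫⁻ x in A n, (2 * R n x + (b + C₀)) ∂μ
            + 2 * W n) := by gcongr
        _ = (∫⁻ x in A 0 \ A n, h x ∂μ + ∫⁻ x in A n, (2 * R n x + (b + C₀)) ∂μ)
            + 2 * W n := by rw [add_assoc]
        _ ≤ (∫⁻ x in A 0, (2 * R 0 x + (b + C₀)) ∂μ
            + 2 * ∑ j ∈ Finset.range n, W j) + 2 * W n := by gcongr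
        _ = _ := by rw [Finset.sum_range_succ]; ring
  calc ∫⁻ x in A 0 \ A n, h x ∂μ
      ≤ ∫⁻ x in A 0 \ A n, h x ∂μ + ∫⁻ x in A n, (2 * R n x + (b + C₀)) ∂μ :=
        le_add_right le_rfl
    _ ≤ _ := key n
    _ ≤ _ := by
      gcongr
      exact ENNReal.sum_le_tsum _

/-- The scaled recursion `r (j+1) ≤ q * (lam * r j) + d j` with `2 q lam ≤ 1` gives
`∑ r ≤ 2 r 0 + 2 ∑ d`. -/
theorem tsum_le_of_scaled (r d : ℕ → ℝ≥0∞) {q lam : ℝ≥0∞} (hq : 2 * (q * lam) ≤ 1)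
    (h : ∀ j, r (j + 1) ≤ q * (lam * r j) + d j) :
    ∑' j, r j ≤ 2 * r 0 + 2 * ∑' j, d j := by
  refine tsum_le_of_half r d fun j => (h j).trans ?_
  gcongr
  have h2 : q * lam ≤ 2⁻¹ := by
    have := mul_le_mul_right hq (2⁻¹ : ℝ≥0∞)
    rw [← mul_assoc, ENNReal.inv_mul_cancel (by norm_num) (by norm_num), one_mul, mul_one] at this
    exact this
  calc q * (lam * r j) = (q * lam) * r j := by ring
    _ ≤ 2⁻¹ * r j := by gcongr
    _ = r j / 2 := by rw [div_eq_mul_inv, mul_comm]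

end Crest.Agent.R128.ExplLin
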