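import Mathlib

/-!
# Row 128 : the exploration lemma with a linear potential (abstract)

A family of states `i : ι`, each with a measurable set `S i`, a level `ρ i`, a remaining charge
`W i`, and a (countable) set `ch i` of child states.  Only first moments are used.
-/

set_option autoImplicit false

open MeasureTheory Set
open scoped ENNReal NNReal

namespace Crest.Agent.R128.ExplPot

/-- Numerical core of the exploration lemma. -/
theorem potential_numeric {ι : Type*} (ch : ι → Set ι) (ρ : ι → ℝ≥0)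
    (m v W : ι → ℝ≥0∞) (H C lam p C'' : ℝ≥0)
    (hstep : ∀ i, ∀ j ∈ ch i, ρ i + 1 ≤ ρ j)
    (hv0 : ∀ i, H ≤ ρ i → v i = 0)
    (hv : ∀ i, v i ≤ C * m i + ∑' j : ch i, (m j * ((ρ j : ℝ≥0∞) - ρ i) + v j))
    (hp : ∀ i, ∑' j : ch i, m j ≤ p * m i)
    (hc : ∀ i, ∑' j : ch i, (m j * ((ρ j : ℝ≥0∞) - ρ i) + W j)
      ≤ (C + 6 * lam * ρ i) * m i + W i)
    (h1 : 12 * lam + p ≤ 1) (h2 : 3 * C + p * C'' ≤ C'') (i : ι) :
    v i ≤ (ρ i + C'') * m i + 2 * W i := by
  -- induction on the number of remaining levels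
  have key : ∀ n : ℕ, ∀ i, H ≤ ρ i + n → v i ≤ (ρ i + C'') * m i + 2 * W i := by
    intro n
    induction n with
    | zero =>
      intro i hi
      rw [hv0 i (by simpa using hi)]
      exact zero_le
    | succ n ih =>
      intro i hi
      have hch : ∀ j : ch i, v j ≤ (ρ j + C'') * m j + 2 * W j := by
        intro j
        apply ih
        have := hstep i j j.2
        calc H ≤ ρ i + (n + 1 : ℕ) := hi
          _ = (ρ i + 1) + n := by push_cast; ring
          _ ≤ ρ j + n := by gcongr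
      calc v i ≤ C * m i + ∑' j : ch i, (m j * ((ρ j : ℝ≥0∞) - ρ i) + v j) := hv i
        _ ≤ C * m i + ∑' j : ch i, (2 * (m j * ((ρ j : ℝ≥0∞) - ρ i) + W j)
              + (ρ i + C'') * m j) := by
            refine add_le_add le_rfl (ENNReal.tsum_le_tsum fun j => ?_)
            have h3 : ((ρ j : ℝ≥0) : ℝ≥0∞) = ((ρ j : ℝ≥0∞) - ρ i) + ρ i := by
              rw [tsub_add_cancel_of_le]
              have := hstep i j j.2
              exact_mod_cast le_trans (by simp : ρ i ≤ ρ i + 1) this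
            calc m j * ((ρ j : ℝ≥0∞) - ρ i) + v j
                ≤ m j * ((ρ j : ℝ≥0∞) - ρ i) + ((ρ j + C'') * m j + 2 * W j) := by
                  gcongr; exact hch j
              _ = m j * ((ρ j : ℝ≥0∞) - ρ i) + (((((ρ j : ℝ≥0∞) - ρ i) + ρ i) + C'') * m j
                    + 2 * W j) := by rw [← h3]
              _ = 2 * (m j * ((ρ j : ℝ≥0∞) - ρ i) + W j) + (ρ i + C'') * m j := by ring
        _ = C * m i + (2 * (∑' j : ch i, (m j * ((ρ j : ℝ≥0∞) - ρ i) + W j))
              + (ρ i + C'') * ∑' j : ch i, m j) := by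
            rw [ENNReal.tsum_add, ENNReal.tsum_mul_left, ENNReal.tsum_mul_left]
        _ ≤ C * m i + (2 * ((C + 6 * lam * ρ i) * m i + W i)
              + (ρ i + C'') * (p * m i)) := by
            gcongr
            · exact hc i
            · exact hp i
        _ = ((3 * C + p * C'') + (12 * lam + p) * ρ i) * m i + 2 * W i := by ring
        _ ≤ (C'' + 1 * ρ i) * m i + 2 * W i := by
            gcongr
            · exact_mod_cast h2
            · exact_mod_cast h1
        _ = (ρ i + C'') * m i + 2 * W i := by ring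
  obtain ⟨n, hn⟩ := exists_nat_ge (H : ℝ≥0)
  exact key n i (le_trans hn (by simp))

/-- Exploration lemma, measure form: `h` is the (truncated) height. -/
theorem exploration {Ω : Type*} [MeasurableSpace Ω] (μ : Measure Ω)
    {ι : Type*} (ch : ι → Set ι) (hchc : ∀ i, (ch i).Countable)
    (S : ι → Set Ω) (hS : ∀ i, MeasurableSet (S i)) (ρ : ι → ℝ≥0)
    (h : Ω → ℝ≥0) (W : ι → ℝ≥0∞) (H C lam p C'' : ℝ≥0)
    (hH : ∀ t, h t ≤ H)
    (hstep : ∀ i, ∀ j ∈ ch i, ρ i + 1 ≤ ρ j)
    (hdead : ∀ i, ∀ t ∈ S i, (∀ j ∈ ch i, t ∉ S j) → h t ≤ ρ i + C)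
    (hp : ∀ i, ∑' j : ch i, μ (S j) ≤ p * μ (S i))
    (hc : ∀ i, ∑' j : ch i, (μ (S j) * ((ρ j : ℝ≥0∞) - ρ i) + W j)
      ≤ (C + 6 * lam * ρ i) * μ (S i) + W i)
    (h1 : 12 * lam + p ≤ 1) (h2 : 3 * C + p * C'' ≤ C'') (i : ι) :
    ∫⁻ t in S i, ((h t - ρ i : ℝ≥0) : ℝ≥0∞) ∂μ ≤ (ρ i + C'') * μ (S i) + 2 * W i := by
  refine potential_numeric ch ρ (fun i => μ (S i))
    (fun i => ∫⁻ t in S i, ((h t - ρ i : ℝ≥0) : ℝ≥0∞) ∂μ) W H C lam p C'' hstep ?_ ?_ hp hc h1 h2 i
  · intro i hi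
    have : ∀ t, (h t - ρ i : ℝ≥0) = 0 := fun t => tsub_eq_zero_of_le ((hH t).trans hi)
    simp [this]
  · intro i
    classical
    have : Countable (ch i) := (hchc i).to_subtype
    set U : Set Ω := ⋃ j : ch i, S j with hU
    have hUm : MeasurableSet U := MeasurableSet.iUnion fun j => hS j
    calc ∫⁻ t in S i, ((h t - ρ i : ℝ≥0) : ℝ≥0∞) ∂μ
        ≤ ∫⁻ t in (S i \ U) ∪ U, ((h t - ρ i : ℝ≥0) : ℝ≥0∞) ∂μ := by
          apply lintegral_mono_set
          intro t ht
          by_cases htU : t ∈ U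
          · exact Or.inr htU
          · exact Or.inl ⟨ht, htU⟩
      _ ≤ ∫⁻ t in S i \ U, ((h t - ρ i : ℝ≥0) : ℝ≥0∞) ∂μ
            + ∫⁻ t in U, ((h t - ρ i : ℝ≥0) : ℝ≥0∞) ∂μ := lintegral_union_le _ _ _
      _ ≤ ∫⁻ _t in S i \ U, (C : ℝ≥0∞) ∂μ
            + ∑' j : ch i, ∫⁻ t in S j, ((h t - ρ i : ℝ≥0) : ℝ≥0∞) ∂μ := by
          refine add_le_add ?_ ?_
          · refine setLIntegral_mono' ((hS i).diff hUm) ?_
            rintro t ⟨ht, htU⟩
            have : h t ≤ ρ i + C := hdead i t ht (fun j hj htj => htU (mem_iUnion.2 ⟨⟨j, hj⟩, htj⟩))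
            exact_mod_cast (tsub_le_iff_left.2 this)
          · exact lintegral_iUnion_le _ _
      _ ≤ C * μ (S i) + ∑' j : ch i, (μ (S j) * ((ρ j : ℝ≥0∞) - ρ i)
            + ∫⁻ t in S j, ((h t - ρ j : ℝ≥0) : ℝ≥0∞) ∂μ) := by
          refine add_le_add ?_ (ENNReal.tsum_le_tsum fun j => ?_)
          · rw [setLIntegral_const]
            gcongr
            exact sdiff_subset
          · calc ∫⁻ t in S j, ((h t - ρ i : ℝ≥0) : ℝ≥0∞) ∂μ
                ≤ ∫⁻ t in S j, (((ρ j : ℝ≥0∞) - ρ i) + ((h t - ρ j : ℝ≥0) : ℝ≥0∞)) ∂μ := by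
                  apply lintegral_mono
                  intro t
                  have : h t - ρ i ≤ (ρ j - ρ i) + (h t - ρ j) := by
                    rw [tsub_le_iff_left]
                    have h5 : ρ i ≤ ρ j := le_trans (by simp) (hstep i j j.2)
                    calc h t ≤ ρ j + (h t - ρ j) := le_add_tsub
                      _ = ρ i + ((ρ j - ρ i) + (h t - ρ j)) := by
                          rw [← add_assoc, add_tsub_cancel_of_le h5]
                  calc ((h t - ρ i : ℝ≥0) : ℝ≥0∞) ≤ (((ρ j - ρ i) + (h t - ρ j) : ℝ≥0) : ℝ≥0∞) := by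
                        exact_mod_cast this
                    _ = ((ρ j : ℝ≥0∞) - ρ i) + ((h t - ρ j : ℝ≥0) : ℝ≥0∞) := by
                        push_cast; rfl
              _ = μ (S j) * ((ρ j : ℝ≥0∞) - ρ i)
                  + ∫⁻ t in S j, ((h t - ρ j : ℝ≥0) : ℝ≥0∞) ∂μ := by
                  rw [lintegral_add_left measurable_const, setLIntegral_const, mul_comm]

end Crest.Agent.R128.ExplPot
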