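import Mathlib

/-!
Row 128 (S0172), node EXPL (helper827): the exploration recursion in abstract form.

`alive n` = the bar still reaches beyond the `n`-th (doubly tame) state, `rho n` = level of the
`n`-th state, `Delta (n+1)` = non-fresh extensions used between state `n` and state `n+1`,
`pay n` = payment event at state `n` (conditional probability `≤ lam` on every cell of state `n`).
-/

set_option autoImplicit false

open MeasureTheory Set
open scoped ENNReal

namespace Crest.Agent.R128.ExplRec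

/-- numerical core: a linear recursion with factor `≤ 1/2`. -/
theorem sum_le_of_rec {R D : ℕ → ℝ≥0∞} {b : ℝ≥0∞}
    (h : ∀ n, 2 * R (n + 1) ≤ R n + 2 * b * D (n + 1)) (N : ℕ) :
    ∑ n ∈ Finset.range (N + 1), R n + R N ≤
      2 * R 0 + 2 * b * ∑ n ∈ Finset.range N, D (n + 1) := by
  induction N with
  | zero => simp [two_mul]
  | succ N ih =>
    calc ∑ n ∈ Finset.range (N + 1 + 1), R n + R (N + 1)
        = ∑ n ∈ Finset.range (N + 1), R n + 2 * R (N + 1) := by
          rw [Finset.sum_range_succ (fun n => R n) (N + 1)]; ring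
      _ ≤ ∑ n ∈ Finset.range (N + 1), R n + (R N + 2 * b * D (N + 1)) := by
          gcongr; exact h N
      _ = (∑ n ∈ Finset.range (N + 1), R n + R N) + 2 * b * D (N + 1) := by ring
      _ ≤ (2 * R 0 + 2 * b * ∑ n ∈ Finset.range N, D (n + 1)) + 2 * b * D (N + 1) := by
          gcongr
      _ = 2 * R 0 + 2 * b * ∑ n ∈ Finset.range (N + 1), D (n + 1) := by
          rw [Finset.sum_range_succ]; ring

theorem tsum_le_of_rec {R D : ℕ → ℝ≥0∞} {b : ℝ≥0∞}
    (h : ∀ n, 2 * R (n + 1) ≤ R n + 2 * b * D (n + 1)) :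
    ∑' n, R n ≤ 2 * R 0 + 2 * b * ∑' n, D (n + 1) := by
  rw [ENNReal.tsum_eq_iSup_nat]
  refine iSup_le fun N => ?_
  calc ∑ n ∈ Finset.range N, R n ≤ ∑ n ∈ Finset.range (N + 1), R n + R N := by
        rw [Finset.sum_range_succ]
        exact le_self_add.trans le_self_add
    _ ≤ 2 * R 0 + 2 * b * ∑ n ∈ Finset.range N, D (n + 1) := sum_le_of_rec h N
    _ ≤ 2 * R 0 + 2 * b * ∑' n, D (n + 1) := by
        gcongr
        exact ENNReal.sum_le_tsum _

variable {Ω : Type*} [MeasurableSpace Ω] {μ : Measure Ω}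

/-- payment on every cell of a countable partition of `alive`, on which `rho` is constant, gives
the weighted payment inequality. -/
theorem lintegral_pay_le {ι : Type*} [Countable ι] {C : ι → Set Ω} {alive pay : Set Ω}
    {rho : Ω → ℝ≥0∞} {r : ι → ℝ≥0∞} {lam : ℝ≥0∞}
    (hCm : ∀ i, MeasurableSet (C i)) (hCd : Pairwise (Function.onFun Disjoint C))
    (hU : alive = ⋃ i, C i) (hr : ∀ i, ∀ x ∈ C i, rho x = r i)
    (hpay : ∀ i, μ (pay ∩ C i) ≤ lam * μ (C i)) (hpm : MeasurableSet pay) :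
    ∫⁻ x in alive ∩ pay, rho x ∂μ ≤ lam * ∫⁻ x in alive, rho x ∂μ := by
  have h1 : alive ∩ pay = ⋃ i, (C i ∩ pay) := by rw [hU, iUnion_inter]
  rw [h1, lintegral_iUnion (fun i => (hCm i).inter hpm)
    (fun i j hij => (hCd hij).mono inter_subset_left inter_subset_left)]
  rw [hU, lintegral_iUnion hCm hCd, ← ENNReal.tsum_mul_left]
  refine ENNReal.tsum_le_tsum fun i => ?_
  have h2 : ∫⁻ x in C i ∩ pay, rho x ∂μ = r i * μ (C i ∩ pay) := by
    rw [setLIntegral_congr_fun (g := fun _ => r i) ((hCm i).inter hpm)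
      (fun x hx => hr i x hx.1)]
    rw [setLIntegral_const]
  have h3 : ∫⁻ x in C i, rho x ∂μ = r i * μ (C i) := by
    rw [setLIntegral_congr_fun (g := fun _ => r i) (hCm i) (fun x hx => hr i x hx)]
    rw [setLIntegral_const]
  rw [h2, h3, inter_comm]
  calc r i * μ (pay ∩ C i) ≤ r i * (lam * μ (C i)) := by gcongr; exact hpay i
    _ = lam * (r i * μ (C i)) := by ring

/-- EXPLORATION RECURSION. `a` = growth factor of the states, `lam` = payment, `a * lam ≤ 1/2`. -/
theorem expl {alive pay : ℕ → Set Ω} {rho Delta : ℕ → Ω → ℝ≥0∞} {a lam : ℝ≥0∞}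
    (halm : ∀ n, MeasurableSet (alive n)) (hpm : ∀ n, MeasurableSet (pay n))
    (hrm : ∀ n, Measurable (rho n)) (hDm : ∀ n, Measurable (Delta n))
    (hmono : ∀ n, alive (n + 1) ⊆ alive n)
    (hE1 : ∀ n, ∀ x ∈ alive (n + 1), rho (n + 1) x ≤ a * rho n x + Delta (n + 1) x)
    (hE2 : ∀ n, ∀ x ∈ alive (n + 1), x ∈ pay n ∨ rho n x ≤ 4 * Delta (n + 1) x)
    (hpay : ∀ n, ∫⁻ x in alive n ∩ pay n, rho n x ∂μ ≤ lam * ∫⁻ x in alive n, rho n x ∂μ)
    (hlam : 2 * (a * lam) ≤ 1) :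
    ∑' n, ∫⁻ x in alive n, rho n x ∂μ ≤
      2 * ∫⁻ x in alive 0, rho 0 x ∂μ +
        2 * (4 * a + 1) * ∑' n, ∫⁻ x in alive (n + 1), Delta (n + 1) x ∂μ := by
  refine tsum_le_of_rec (R := fun n => ∫⁻ x in alive n, rho n x ∂μ)
    (D := fun n => ∫⁻ x in alive n, Delta n x ∂μ) (b := 4 * a + 1) fun n => ?_
  have key : ∫⁻ x in alive (n + 1), rho (n + 1) x ∂μ ≤
      a * ∫⁻ x in alive n ∩ pay n, rho n x ∂μ +
        (4 * a + 1) * ∫⁻ x in alive (n + 1), Delta (n + 1) x ∂μ := by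
    have hpt : ∀ x ∈ alive (n + 1), rho (n + 1) x ≤
        a * (alive n ∩ pay n).indicator (rho n) x + (4 * a + 1) * Delta (n + 1) x := by
      intro x hx
      rcases hE2 n x hx with h | h
      · have : x ∈ alive n ∩ pay n := ⟨hmono n hx, h⟩
        rw [indicator_of_mem this]
        refine (hE1 n x hx).trans ?_
        gcongr
        calc Delta (n + 1) x = 1 * Delta (n + 1) x := (one_mul _).symm
          _ ≤ (4 * a + 1) * Delta (n + 1) x := by gcongr; exact le_add_self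
      · calc rho (n + 1) x ≤ a * rho n x + Delta (n + 1) x := hE1 n x hx
          _ ≤ a * (4 * Delta (n + 1) x) + Delta (n + 1) x := by gcongr
          _ = (4 * a + 1) * Delta (n + 1) x := by ring
          _ ≤ _ := le_add_self
    calc ∫⁻ x in alive (n + 1), rho (n + 1) x ∂μ
        ≤ ∫⁻ x in alive (n + 1),
            (a * (alive n ∩ pay n).indicator (rho n) x + (4 * a + 1) * Delta (n + 1) x) ∂μ :=
          setLIntegral_mono' (halm _) hpt
      _ = a * ∫⁻ x in alive (n + 1), (alive n ∩ pay n).indicator (rho n) x ∂μ +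
            (4 * a + 1) * ∫⁻ x in alive (n + 1), Delta (n + 1) x ∂μ := by
          rw [lintegral_add_right _ ((hDm _).const_mul _),
            lintegral_const_mul _ ((hrm n).indicator ((halm n).inter (hpm n))),
            lintegral_const_mul _ (hDm _)]
      _ ≤ a * ∫⁻ x, (alive n ∩ pay n).indicator (rho n) x ∂μ +
            (4 * a + 1) * ∫⁻ x in alive (n + 1), Delta (n + 1) x ∂μ := by
          gcongr
          exact Measure.restrict_le_self
      _ = _ := by rw [lintegral_indicator ((halm n).inter (hpm n))]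
  calc 2 * ∫⁻ x in alive (n + 1), rho (n + 1) x ∂μ
      ≤ 2 * (a * ∫⁻ x in alive n ∩ pay n, rho n x ∂μ +
        (4 * a + 1) * ∫⁻ x in alive (n + 1), Delta (n + 1) x ∂μ) := by gcongr
    _ ≤ 2 * (a * (lam * ∫⁻ x in alive n, rho n x ∂μ) +
        (4 * a + 1) * ∫⁻ x in alive (n + 1), Delta (n + 1) x ∂μ) := by
          gcongr; exact hpay n
    _ = (2 * (a * lam)) * ∫⁻ x in alive n, rho n x ∂μ +
        2 * (4 * a + 1) * ∫⁻ x in alive (n + 1), Delta (n + 1) x ∂μ := by ring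
    _ ≤ 1 * ∫⁻ x in alive n, rho n x ∂μ +
        2 * (4 * a + 1) * ∫⁻ x in alive (n + 1), Delta (n + 1) x ∂μ := by gcongr
    _ = _ := by rw [one_mul]

/-- The height: `H ≤ C0 + ∑ₙ 1[alive n] rho n`. -/
theorem expl_height {alive pay : ℕ → Set Ω} {rho Delta : ℕ → Ω → ℝ≥0∞} {a lam C0 : ℝ≥0∞}
    {H : Ω → ℝ≥0∞}
    (halm : ∀ n, MeasurableSet (alive n)) (hpm : ∀ n, MeasurableSet (pay n))
    (hrm : ∀ n, Measurable (rho n)) (hDm : ∀ n, Measurable (Delta n))
    (hmono : ∀ n, alive (n + 1) ⊆ alive n)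
    (hE1 : ∀ n, ∀ x ∈ alive (n + 1), rho (n + 1) x ≤ a * rho n x + Delta (n + 1) x)
    (hE2 : ∀ n, ∀ x ∈ alive (n + 1), x ∈ pay n ∨ rho n x ≤ 4 * Delta (n + 1) x)
    (hpay : ∀ n, ∫⁻ x in alive n ∩ pay n, rho n x ∂μ ≤ lam * ∫⁻ x in alive n, rho n x ∂μ)
    (hlam : 2 * (a * lam) ≤ 1)
    (hH : ∀ᵐ x ∂μ, H x ≤ C0 + ∑' n, (alive n).indicator (rho n) x) :
    ∫⁻ x, H x ∂μ ≤ C0 * μ univ + (2 * ∫⁻ x in alive 0, rho 0 x ∂μ +
        2 * (4 * a + 1) * ∑' n, ∫⁻ x in alive (n + 1), Delta (n + 1) x ∂μ) := by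
  calc ∫⁻ x, H x ∂μ ≤ ∫⁻ x, (C0 + ∑' n, (alive n).indicator (rho n) x) ∂μ :=
        lintegral_mono_ae hH
    _ = C0 * μ univ + ∑' n, ∫⁻ x in alive n, rho n x ∂μ := by
        rw [lintegral_add_left measurable_const, lintegral_const,
          lintegral_tsum fun n => ((hrm n).indicator (halm n)).aemeasurable]
        congr 2
        funext n
        rw [lintegral_indicator (halm n)]
    _ ≤ _ := by
        gcongr
        exact expl halm hpm hrm hDm hmono hE1 hE2 hpay hlam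

end Crest.Agent.R128.ExplRec
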