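import Mathlib

/-!
Row 128 (S0172), node EXPL, "thick / true" version (helper827, after notes 15158, 15239).

`thick n` = the cell of the `n`-th state contains a point alive beyond its level `rho n`
(then the bar of every point of the cell has height `≥ rho n / 4 - C`), the truly alive points are
`{x ∈ thick n | rho n x ≤ H x}`, `Delta (n+1)` = non-fresh extensions used between state `n` and
state `n+1` (counting only arms attached below the true height), `pay n` = payment event.
-/

set_option autoImplicit false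

open MeasureTheory Set
open scoped ENNReal

namespace Crest.Agent.R128.ExplThick

variable {Ω : Type*} [MeasurableSpace Ω] {μ : Measure Ω}

/-- payment on every cell of a countable partition of `A`, on which `rho` is constant. -/
theorem lintegral_pay_le {ι : Type*} [Countable ι] {C : ι → Set Ω} {A pay : Set Ω}
    {rho : Ω → ℝ≥0∞} {r : ι → ℝ≥0∞} {lam : ℝ≥0∞}
    (hCm : ∀ i, MeasurableSet (C i)) (hCd : Pairwise (Function.onFun Disjoint C))
    (hU : A = ⋃ i, C i) (hr : ∀ i, ∀ x ∈ C i, rho x = r i)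
    (hpay : ∀ i, μ (pay ∩ C i) ≤ lam * μ (C i)) (hpm : MeasurableSet pay) :
    ∫⁻ x in A ∩ pay, rho x ∂μ ≤ lam * ∫⁻ x in A, rho x ∂μ := by
  have h1 : A ∩ pay = ⋃ i, (C i ∩ pay) := by rw [hU, iUnion_inter]
  rw [h1, lintegral_iUnion (fun i => (hCm i).inter hpm)
    (fun i j hij => (hCd hij).mono inter_subset_left inter_subset_left)]
  rw [hU, lintegral_iUnion hCm hCd, ← ENNReal.tsum_mul_left]
  refine ENNReal.tsum_le_tsum fun i => ?_
  have h2 : ∫⁻ x in C i ∩ pay, rho x ∂μ = r i * μ (C i ∩ pay) := by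
    rw [setLIntegral_congr_fun (g := fun _ => r i) ((hCm i).inter hpm)
      (fun x hx => hr i x hx.1)]
    rw [setLIntegral_const]
  have h3 : ∫⁻ x in C i, rho x ∂μ = r i * μ (C i) := by
    rw [setLIntegral_congr_fun (g := fun _ => r i) (hCm i) (fun x hx => hr i x hx)]
    rw [setLIntegral_const]
  rw [h2, h3, inter_comm]
  calc r i * μ (pay ∩ C i) ≤ r i * (lam * μ (C i)) := by gcongr; exact hpay i
    _ = lam * (r i * μ (C i)) := by ring

/-- sparse sums: if the terms at least double as long as the indicator is on, the partial sums are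
at most twice the last term. -/
theorem sum_sparse_le {r : ℕ → ℝ≥0∞} {P : ℕ → Prop} [DecidablePred P] {B : ℝ≥0∞}
    (hP : ∀ n, P (n + 1) → P n ∧ 2 * r n ≤ r (n + 1)) (hB : ∀ n, P n → r n ≤ B) :
    ∑' n, (if P n then r n else 0) ≤ 2 * B := by
  have key : ∀ N, P N → ∑ n ∈ Finset.range (N + 1), (if P n then r n else 0) ≤ 2 * r N := by
    intro N
    induction N with
    | zero => intro h; simp [h, two_mul]
    | succ N ih =>
      intro h
      obtain ⟨h1, h2⟩ := hP N h
      rw [Finset.sum_range_succ, if_pos h]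
      calc _ ≤ 2 * r N + r (N + 1) := by gcongr; exact ih h1
        _ ≤ r (N + 1) + r (N + 1) := by gcongr
        _ = 2 * r (N + 1) := (two_mul _).symm
  have key2 : ∀ N, ∑ n ∈ Finset.range N, (if P n then r n else 0) ≤ 2 * B := by
    intro N
    induction N with
    | zero => simp
    | succ N ih =>
      by_cases h : P N
      · exact (key N h).trans (by gcongr; exact hB N h)
      · rw [Finset.sum_range_succ, if_neg h, add_zero]; exact ih
  rw [ENNReal.tsum_eq_iSup_nat]
  exact iSup_le key2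

/-- pointwise: the height is bounded through the true states. -/
theorem height_le {H : ℝ≥0∞} {r D : ℕ → ℝ≥0∞} {P : ℕ → Prop} [DecidablePred P] {a C0 : ℝ≥0∞}
    (h0 : ¬ P 0 → H ≤ C0) (hlast : ∀ n, P n → ¬ P (n + 1) → H ≤ C0 + a * r n + D (n + 1))
    (hleave : ∃ n, ¬ P n) :
    H ≤ C0 + (a * ∑' n, (if P n then r n else 0) + ∑' n, (if P n then D (n + 1) else 0)) := by
  classical
  let n := Nat.find hleave
  have hn : ¬ P n := Nat.find_spec hleave
  rcases Nat.eq_zero_or_pos n with h | h
  · rw [h] at hn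
    exact (h0 hn).trans le_self_add
  · obtain ⟨m, hm⟩ : ∃ m, n = m + 1 := ⟨n - 1, by omega⟩
    have hPm : P m := by
      by_contra hc
      have := Nat.find_min' hleave hc
      omega
    rw [hm] at hn
    calc H ≤ C0 + a * r m + D (m + 1) := hlast m hPm hn
      _ = C0 + (a * (if P m then r m else 0) + (if P m then D (m + 1) else 0)) := by
          rw [if_pos hPm, if_pos hPm, add_assoc]
      _ ≤ _ := by
          gcongr
          · exact ENNReal.le_tsum (f := fun n => if P n then r n else 0) m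
          · exact ENNReal.le_tsum (f := fun n => if P n then D (n + 1) else 0) m

/-- EXPLORATION LEMMA, thick / true form. -/
theorem expl_thick {thick pay : ℕ → Set Ω} {rho Delta : ℕ → Ω → ℝ≥0∞} {H : Ω → ℝ≥0∞}
    {a lam C C0 : ℝ≥0∞}
    (htm : ∀ n, MeasurableSet (thick n)) (hpm : ∀ n, MeasurableSet (pay n))
    (hrm : ∀ n, Measurable (rho n)) (hDm : ∀ n, Measurable (Delta n)) (hHm : Measurable H)
    (hS : ∀ n, ∀ x ∈ thick (n + 1), x ∈ thick n ∧ 2 * rho n x ≤ rho (n + 1) x)
    (hH1 : ∀ n, ∀ x ∈ thick n, rho n x ≤ 4 * (H x + C))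
    (hH2 : ∀ n, ∀ x ∈ thick (n + 1), rho (n + 1) x ≤ H x →
      rho (n + 1) x ≤ a * rho n x + Delta (n + 1) x ∧
        (x ∈ pay n ∨ rho n x ≤ 4 * Delta (n + 1) x))
    (hpay : ∀ n, ∫⁻ x in thick n ∩ pay n, rho n x ∂μ ≤ lam * ∫⁻ x in thick n, rho n x ∂μ)
    (hlast : ∀ n, ∀ x ∈ thick n, rho n x ≤ H x → ¬ (x ∈ thick (n + 1) ∧ rho (n + 1) x ≤ H x) →
      H x ≤ C0 + a * rho n x + Delta (n + 1) x)
    (h0 : ∀ x, ¬ (x ∈ thick 0 ∧ rho 0 x ≤ H x) → H x ≤ C0)
    (hleave : ∀ᵐ x ∂μ, ∃ n, ¬ (x ∈ thick n ∧ rho n x ≤ H x)) :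
    ∫⁻ x, H x ∂μ ≤ C0 * μ univ + a * ∫⁻ x in thick 0, rho 0 x ∂μ +
      8 * (a * (a * lam)) * (∫⁻ x, H x ∂μ + C * μ univ) +
      (a * (4 * a + 1) + 1) *
        ∑' n, ∫⁻ x in {x | x ∈ thick n ∧ rho n x ≤ H x}, Delta (n + 1) x ∂μ := by
  classical
  set tr : ℕ → Set Ω := fun n => {x | x ∈ thick n ∧ rho n x ≤ H x} with htr
  have htrm : ∀ n, MeasurableSet (tr n) := fun n =>
    (htm n).inter (measurableSet_le (hrm n) hHm)
  have htr_sub : ∀ n, tr (n + 1) ⊆ tr n := by
    intro n x hx
    obtain ⟨h1, h2⟩ := hS n x hx.1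
    refine ⟨h1, ?_⟩
    calc rho n x ≤ 2 * rho n x := by rw [two_mul]; exact le_self_add
      _ ≤ rho (n + 1) x := h2
      _ ≤ H x := hx.2
  set R : ℕ → ℝ≥0∞ := fun n => ∫⁻ x in tr n, rho n x ∂μ with hR
  set S : ℕ → ℝ≥0∞ := fun n => ∫⁻ x in thick n, rho n x ∂μ with hSd
  set D : ℕ → ℝ≥0∞ := fun n => ∫⁻ x in tr n, Delta (n + 1) x ∂μ with hD
  -- (1) the sparse sum
  have hSsum : ∑' n, S n ≤ 8 * (∫⁻ x, H x ∂μ + C * μ univ) := by
    have e1 : ∑' n, S n = ∫⁻ x, ∑' n, (thick n).indicator (rho n) x ∂μ := by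
      rw [lintegral_tsum fun n => ((hrm n).indicator (htm n)).aemeasurable]
      refine tsum_congr fun n => ?_
      rw [lintegral_indicator (htm n)]
    rw [e1]
    calc ∫⁻ x, ∑' n, (thick n).indicator (rho n) x ∂μ
        ≤ ∫⁻ x, 8 * (H x + C) ∂μ := by
          refine lintegral_mono fun x => ?_
          have := sum_sparse_le (r := fun n => rho n x) (P := fun n => x ∈ thick n)
            (B := 4 * (H x + C)) (fun n hn => hS n x hn) (fun n hn => hH1 n x hn)
          calc ∑' n, (thick n).indicator (rho n) x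
              = ∑' n, (if x ∈ thick n then rho n x else 0) := by
                refine tsum_congr fun n => ?_
                by_cases h : x ∈ thick n
                · rw [indicator_of_mem h, if_pos h]
                · rw [indicator_of_notMem h, if_neg h]
            _ ≤ 2 * (4 * (H x + C)) := this
            _ = 8 * (H x + C) := by rw [← mul_assoc]; norm_num
      _ = 8 * (∫⁻ x, H x ∂μ + C * μ univ) := by
          rw [lintegral_const_mul _ (hHm.add_const C), lintegral_add_left hHm, lintegral_const]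
  -- (2) one step
  have hstep : ∀ n, R (n + 1) ≤ a * lam * S n + (4 * a + 1) * D n := by
    intro n
    have hpt : ∀ x ∈ tr (n + 1), rho (n + 1) x ≤
        a * (thick n ∩ pay n).indicator (rho n) x + (4 * a + 1) * Delta (n + 1) x := by
      intro x hx
      obtain ⟨h1, h2⟩ := hH2 n x hx.1 hx.2
      rcases h2 with h | h
      · have hm : x ∈ thick n ∩ pay n := ⟨(hS n x hx.1).1, h⟩
        rw [indicator_of_mem hm]
        refine h1.trans ?_
        gcongr
        calc Delta (n + 1) x = 1 * Delta (n + 1) x := (one_mul _).symm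
          _ ≤ (4 * a + 1) * Delta (n + 1) x := by gcongr; exact le_add_self
      · calc rho (n + 1) x ≤ a * rho n x + Delta (n + 1) x := h1
          _ ≤ a * (4 * Delta (n + 1) x) + Delta (n + 1) x := by gcongr
          _ = (4 * a + 1) * Delta (n + 1) x := by ring
          _ ≤ _ := le_add_self
    calc R (n + 1) ≤ ∫⁻ x in tr (n + 1),
            (a * (thick n ∩ pay n).indicator (rho n) x + (4 * a + 1) * Delta (n + 1) x) ∂μ :=
          setLIntegral_mono' (htrm _) hpt
      _ = a * ∫⁻ x in tr (n + 1), (thick n ∩ pay n).indicator (rho n) x ∂μ +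
            (4 * a + 1) * ∫⁻ x in tr (n + 1), Delta (n + 1) x ∂μ := by
          rw [lintegral_add_right _ ((hDm _).const_mul _),
            lintegral_const_mul _ ((hrm n).indicator ((htm n).inter (hpm n))),
            lintegral_const_mul _ (hDm _)]
      _ ≤ a * ∫⁻ x, (thick n ∩ pay n).indicator (rho n) x ∂μ +
            (4 * a + 1) * ∫⁻ x in tr n, Delta (n + 1) x ∂μ := by
          gcongr
          · exact Measure.restrict_le_self
          · exact htr_sub n
      _ = a * ∫⁻ x in thick n ∩ pay n, rho n x ∂μ + (4 * a + 1) * D n := by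
          rw [lintegral_indicator ((htm n).inter (hpm n))]
      _ ≤ a * (lam * S n) + (4 * a + 1) * D n := by gcongr; exact hpay n
      _ = _ := by ring
  -- (3) the sum of the true masses
  have hRsum : ∑' n, R n ≤ S 0 + (a * lam * (8 * (∫⁻ x, H x ∂μ + C * μ univ)) +
      (4 * a + 1) * ∑' n, D n) := by
    rw [tsum_eq_zero_add' ENNReal.summable]
    gcongr
    · exact lintegral_mono_set (fun x hx => hx.1)
    · calc ∑' n, R (n + 1) ≤ ∑' n, (a * lam * S n + (4 * a + 1) * D n) :=
            ENNReal.tsum_le_tsum hstep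
        _ = a * lam * ∑' n, S n + (4 * a + 1) * ∑' n, D n := by
            rw [ENNReal.tsum_add, ENNReal.tsum_mul_left, ENNReal.tsum_mul_left]
        _ ≤ _ := by gcongr
  -- (4) the height
  have hfin : ∫⁻ x, H x ∂μ ≤ C0 * μ univ + (a * ∑' n, R n + ∑' n, D n) := by
    have hpt : ∀ᵐ x ∂μ, H x ≤ C0 + (a * ∑' n, (tr n).indicator (rho n) x +
        ∑' n, (tr n).indicator (Delta (n + 1)) x) := by
      filter_upwards [hleave] with x hx
      have := height_le (H := H x) (r := fun n => rho n x) (D := fun n => Delta n x)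
        (P := fun n => x ∈ tr n) (a := a) (C0 := C0) (fun h => h0 x h)
        (fun n hn hn' => hlast n x hn.1 hn.2 hn') hx
      have e1 : ∀ n, (if x ∈ tr n then rho n x else 0) = (tr n).indicator (rho n) x := by
        intro n
        by_cases h : x ∈ tr n
        · rw [indicator_of_mem h, if_pos h]
        · rw [indicator_of_notMem h, if_neg h]
      have e2 : ∀ n, (if x ∈ tr n then Delta (n + 1) x else 0) =
          (tr n).indicator (Delta (n + 1)) x := by
        intro n
        by_cases h : x ∈ tr n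
        · rw [indicator_of_mem h, if_pos h]
        · rw [indicator_of_notMem h, if_neg h]
      simp only [e1, e2] at this
      exact this
    have m1 : Measurable fun x => ∑' n, (tr n).indicator (rho n) x :=
      Measurable.tsum fun n => (hrm n).indicator (htrm n)
    have m2 : Measurable fun x => ∑' n, (tr n).indicator (Delta (n + 1)) x :=
      Measurable.tsum fun n => (hDm (n + 1)).indicator (htrm n)
    have i1 : ∫⁻ x, ∑' n, (tr n).indicator (rho n) x ∂μ = ∑' n, R n := by
      rw [lintegral_tsum fun n => ((hrm n).indicator (htrm n)).aemeasurable]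
      refine tsum_congr fun n => ?_
      rw [lintegral_indicator (htrm n)]
    have i2 : ∫⁻ x, ∑' n, (tr n).indicator (Delta (n + 1)) x ∂μ = ∑' n, D n := by
      rw [lintegral_tsum fun n => ((hDm (n + 1)).indicator (htrm n)).aemeasurable]
      refine tsum_congr fun n => ?_
      rw [lintegral_indicator (htrm n)]
    calc ∫⁻ x, H x ∂μ ≤ ∫⁻ x, (C0 + (a * ∑' n, (tr n).indicator (rho n) x +
          ∑' n, (tr n).indicator (Delta (n + 1)) x)) ∂μ := lintegral_mono_ae hpt
      _ = C0 * μ univ + (a * ∑' n, R n + ∑' n, D n) := by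
          rw [lintegral_add_left measurable_const, lintegral_const,
            lintegral_add_left (m1.const_mul a), lintegral_const_mul _ m1, i1, i2]
  calc ∫⁻ x, H x ∂μ ≤ C0 * μ univ + (a * ∑' n, R n + ∑' n, D n) := hfin
    _ ≤ C0 * μ univ + (a * (S 0 + (a * lam * (8 * (∫⁻ x, H x ∂μ + C * μ univ)) +
      (4 * a + 1) * ∑' n, D n)) + ∑' n, D n) := by gcongr
    _ = _ := by ring

/-- absorbed form: if `16 a² lam ≤ 1` and `∫ H < ∞`. -/
theorem expl_thick_absorbed {I K L : ℝ≥0∞} {t : ℝ≥0∞} (ht : 2 * t ≤ 1) (hI : I ≠ ⊤)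
    (h : I ≤ K + t * (I + L)) : I ≤ 2 * K + L := by
  have h1 : t * I ≤ I / 2 := by
    rw [ENNReal.le_div_iff_mul_le (Or.inl two_ne_zero) (Or.inl ENNReal.ofNat_ne_top)]
    calc t * I * 2 = 2 * t * I := by ring
      _ ≤ 1 * I := by gcongr
      _ = I := one_mul I
  have h2 : t * L ≤ L / 2 := by
    rw [ENNReal.le_div_iff_mul_le (Or.inl two_ne_zero) (Or.inl ENNReal.ofNat_ne_top)]
    calc t * L * 2 = 2 * t * L := by ring
      _ ≤ 1 * L := by gcongr
      _ = L := one_mul L
  have h3 : I ≤ K + L / 2 + I / 2 := by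
    calc I ≤ K + t * (I + L) := h
      _ = K + t * L + t * I := by ring
      _ ≤ K + L / 2 + I / 2 := by gcongr
  have h4 : I / 2 + I / 2 ≤ (K + L / 2) + I / 2 := by
    rw [ENNReal.add_halves]; exact h3
  have h5 : I / 2 ≤ K + L / 2 :=
    (ENNReal.add_le_add_iff_right (ENNReal.div_ne_top hI two_ne_zero)).1 h4
  calc I = I / 2 + I / 2 := (ENNReal.add_halves I).symm
    _ ≤ (K + L / 2) + (K + L / 2) := by gcongr
    _ = 2 * K + (L / 2 + L / 2) := by ring
    _ = 2 * K + L := by rw [ENNReal.add_halves]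

end Crest.Agent.R128.ExplThick
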