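import Crest.Agent.R128.Trunc

/-!
# Row 128: the vector of a top of the root contour, and the content identity at two feet (helper191)

`exists_vec`, `top_vec`: at a top `t` of `bt (rr k z)` there is a Jacobi field `x` at `(T k)^[t] z` with
`|x 0| = 1`, whose norm at the time `m` is at most `exp (bt m - bt t)` for **all** `m`.
`content_feet`: the content identity of `Trunc`, for any Jacobi field with `|x 0| = 1` which is small at
two feet `J`, `-J'` (only straightness between the exits and the feet is used).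
-/

set_option autoImplicit false
open Crest.Agent.R128 Crest.Agent.R128.Two Crest.Agent.R128.Acc Crest.Agent.R128.AlignMn
open Crest.Agent.R128.TreeSum Crest.Agent.R128.Trunc

namespace Crest.Agent.R128.FeetContent

/-- two-sided Jacobi field along the orbit of `z` -/
def IsJac (k : ℝ) (z : Tor) (x : ℤ → ℝ) : Prop :=
  ∀ n, x (n + 1) = dz k z n * x n - x (n - 1)

/-- the vector realising the norm at the time `t` -/
theorem exists_vec (k : ℝ) (z : Tor) (t : ℕ) :
    ∃ x : ℤ → ℝ, IsJac k ((T k)^[t] z) x ∧ max |x (-1)| |x 0| = 1 ∧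
      ∀ m : ℕ, max |x ((m : ℤ) - t - 1)| |x ((m : ℤ) - t)| ≤
        Real.exp (bt (rr k z) m - bt (rr k z) t) := by
  obtain ⟨e, he1, he2⟩ := exists_max (Mn k t z)
  have hnm : max (rn (Mn k t z) 0) (rn (Mn k t z) 1) = nm k t z := by
    unfold nm
    rw [rr_succ]
    rfl
  rw [hnm] at he2
  have hp := nm_pos k t z
  have he3 : ‖act (Mn k t z) e‖ = nm k t z := by
    apply le_antisymm _ he2
    refine (norm_act_Mn_le k t z e).trans ?_
    nlinarith
  have key : ∀ m, ‖act (Mn k m z) ((nm k t z)⁻¹ • e)‖ ≤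
      Real.exp (bt (rr k z) m - bt (rr k z) t) := by
    intro m
    rw [act_smul, norm_smul, Real.exp_sub, exp_bt, exp_bt, norm_inv, Real.norm_of_nonneg hp.le,
      div_eq_inv_mul]
    apply mul_le_mul_of_nonneg_left _ (inv_nonneg.mpr hp.le)
    refine (norm_act_Mn_le k m z e).trans ?_
    have := (nm_pos k m z)
    nlinarith
  set w : ℝ × ℝ := (nm k t z)⁻¹ • e with hw
  set v : ℝ × ℝ := act (Mn k t z) w with hv
  have hT : (T k)^[t] z = Tz k (t : ℤ) z := (Tz_natCast k t z).symm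
  have hm : ∀ m : ℕ, act (Az k ((m : ℤ) - t) ((T k)^[t] z)) v = act (Mn k m z) w := by
    intro m
    rw [hv, ← Az_natCast k t z, hT, ← act_mul, ← Az_add, sub_add_cancel, Az_natCast]
  have hnorm : ∀ m : ℕ, max |xf k ((T k)^[t] z) v ((m : ℤ) - t - 1)|
      |xf k ((T k)^[t] z) v ((m : ℤ) - t)| = ‖act (Mn k m z) w‖ := by
    intro m
    rw [← norm_act_Az, hm]
  refine ⟨xf k ((T k)^[t] z) v, fun n => xf_succ k _ v n, ?_, fun m => ?_⟩
  · have h := hnorm t
    rw [sub_self, zero_sub] at h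
    rw [h, hw, act_smul, norm_smul, he3, norm_inv, Real.norm_of_nonneg hp.le,
      inv_mul_cancel₀ hp.ne']
  · rw [hnorm m]
    exact key m

/-- at a top (larger than the previous value) the second component is the large one -/
theorem top_vec {k : ℝ} {z : Tor} {t : ℕ} (ht : 1 ≤ t)
    (hlt : bt (rr k z) (t - 1) < bt (rr k z) t) :
    ∃ x : ℤ → ℝ, IsJac k ((T k)^[t] z) x ∧ |x 0| = 1 ∧ |x (-1)| < 1 ∧ |x (-2)| < 1 ∧
      ∀ m : ℕ, max |x ((m : ℤ) - t - 1)| |x ((m : ℤ) - t)| ≤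
        Real.exp (bt (rr k z) m - bt (rr k z) t) := by
  obtain ⟨x, hx, h1, h2⟩ := exists_vec k z t
  have h3 := h2 (t - 1)
  have e1 : ((t - 1 : ℕ) : ℤ) - t = -1 := by
    push_cast [Nat.cast_sub ht]
    ring
  rw [e1, show (-1 : ℤ) - 1 = -2 by norm_num] at h3
  have h4 : Real.exp (bt (rr k z) (t - 1) - bt (rr k z) t) < 1 := by
    rw [← Real.exp_zero]
    exact Real.exp_lt_exp.mpr (by linarith)
  have h5 : |x (-2)| < 1 := (le_max_left _ _).trans_lt (h3.trans_lt h4)
  have h6 : |x (-1)| < 1 := (le_max_right _ _).trans_lt (h3.trans_lt h4)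
  refine ⟨x, hx, ?_, h6, h5, h2⟩
  rcases max_choice |x (-1)| |x 0| with h | h
  · rw [h] at h1
    exact absurd h1 h6.ne
  · rw [h] at h1
    exact h1

/-- side data without the condition that `J` is the first index of its size -/
structure ExitF (a : ℕ → ℝ) (m J : ℕ) (E S δ A A2 K : ℝ) : Prop where
  mJ : m + 2 ≤ J
  big : E ≤ nn (Trunc.pr a 0 1 J)
  Q0 : Align.Q a (m + 1) ≠ 0
  del : |Align.Q a m| ≤ δ * |Align.Q a (m + 1)|
  dig : A ≤ |a (m + 1)|
  dig2 : A2 ≤ |a (m + 2)|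
  digK : |a (m + 2)| ≤ K
  sum : nn (Trunc.pr a 0 1 (m + 2)) ^ 2 * wt (fun n => a (n + 1)) (Trunc.pr a 0 1) (m + 2) J ≤ S

/-- **content identity at two feet** -/
theorem content_feet {k : ℝ} {z : Tor} {x : ℤ → ℝ} (hx : IsJac k z x) (hx0 : |x 0| = 1)
    {m m' J J' : ℕ} {E E' e e' S δ A A2 K : ℝ} (hE : 0 < E) (hE' : 0 < E')
    (hδA : 2 * δ ≤ A) (hA : 2 ≤ A) (hA2 : 2 ≤ A2) (hS : 0 ≤ S)
    (hr0 : |x J| ≤ e) (hr1 : |x ((J : ℤ) + 1)| ≤ e)
    (hl0 : |x (-(J' : ℤ))| ≤ e') (hl1 : |x (-(J' : ℤ) - 1)| ≤ e')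
    (R : ExitF (ap k z) m J E S δ A A2 K) (L : ExitF (am k z) m' J' E' S δ A A2 K) :
    |cont k z m m' - 1 / (ap k z (m + 1) * Align.Q (ap k z) (m + 1) ^ 2)
        - 1 / (am k z (m' + 1) * Align.Q (am k z) (m' + 1) ^ 2)| ≤
      (K + 2) * (2 * e / E) + (K + 2) * (2 * e' / E') +
        (2 * δ + 8 * (S + 1) / A2) * (1 / (A ^ 2 * Align.Q (ap k z) (m + 1) ^ 2)
        + 1 / (A ^ 2 * Align.Q (am k z) (m' + 1) ^ 2)) := by
  have hrec : x 1 + x (-1) = V k z.2 * x 0 := by
    have := hx 0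
    rw [dz_zero] at this
    norm_num at this
    linarith
  have hRs := side (a := ap k z) (u := x 0) (v := x 1) hx0 R.mJ (e := e) (E := E) (S := S)
    (δ := δ) (A := A) (A2 := A2) (K := K) hE
    (by rw [← right_sol hx J]; exact hr0)
    (by rw [← right_sol hx (J + 1)]; push_cast; exact hr1)
    R.big R.Q0 R.del hδA hA R.dig hA2 R.dig2 R.digK hS R.sum
  have hLs := side (a := am k z) (u := x 0) (v := x (-1)) hx0 L.mJ (e := e') (E := E') (S := S)
    (δ := δ) (A := A) (A2 := A2) (K := K) hE'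
    (by rw [← left_sol hx J']; exact hl0)
    (by
      rw [← left_sol hx (J' + 1)]
      convert hl1 using 3
      push_cast
      ring)
    L.big L.Q0 L.del hδA hA L.dig hA2 L.dig2 L.digK hS L.sum
  have hsum : x 0 * (cont k z m m' - 1 / (ap k z (m + 1) * Align.Q (ap k z) (m + 1) ^ 2)
        - 1 / (am k z (m' + 1) * Align.Q (am k z) (m' + 1) ^ 2)) =
      ((x 1 - x 0 * Align.mu (ap k z) (m + 1)) -
          x 0 * (1 / (ap k z (m + 1) * Align.Q (ap k z) (m + 1) ^ 2))) +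
        ((x (-1) - x 0 * Align.mu (am k z) (m' + 1)) -
          x 0 * (1 / (am k z (m' + 1) * Align.Q (am k z) (m' + 1) ^ 2))) := by
    unfold cont
    linear_combination -hrec
  have habs : |cont k z m m' - 1 / (ap k z (m + 1) * Align.Q (ap k z) (m + 1) ^ 2)
        - 1 / (am k z (m' + 1) * Align.Q (am k z) (m' + 1) ^ 2)| =
      |x 0 * (cont k z m m' - 1 / (ap k z (m + 1) * Align.Q (ap k z) (m + 1) ^ 2)
        - 1 / (am k z (m' + 1) * Align.Q (am k z) (m' + 1) ^ 2))| := by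
    rw [abs_mul, hx0, one_mul]
  rw [habs, hsum]
  refine (abs_add_le _ _).trans ((add_le_add hRs hLs).trans (le_of_eq ?_))
  ring

end Crest.Agent.R128.FeetContent
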