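import Crest.Agent.R128.LocA6
import Crest.Agent.R128.VFB162
import Crest.Agent.R128.H4Stmt

/-! Row 128: `Good.LocA` (helper595 `locA4`, helper162 `vfBase`, helper220/365 `H4Fin.locA_of`). -/

set_option autoImplicit false

namespace Crest.Agent.R128.FinA291

theorem locA4Stmt : LocGlue365.LocA4Stmt LocA.Base := by
  refine ⟨10 ^ 1000, fun k hk c t0 r hr n0 M r0 B old => ?_⟩
  obtain ⟨N, h1, h2, h3⟩ := LocA.locA4 hk hr B old
  refine ⟨N, h1, h2, fun m hm => ?_⟩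
  obtain ⟨s, n, n', R, lam, q0, q1, q2, a, b, o⟩ := h3 m hm
  exact ⟨s, n, n', R, lam, q0, q1, q2, a, b, o.lam_le, o.cell, o.mon, o.mon'⟩

/-- **LocA** -/
theorem locA : ∃ L1 : ℕ, ∀ L, L1 ≤ L → Good.LocA L :=
  ⟨1000, fun L hL => H4Fin.locA_of (by omega) locA4Stmt (VFB.vfBase hL)⟩

end Crest.Agent.R128.FinA291
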