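import Mathlib
import Crest.Agent.R128.CellB

set_option autoImplicit false

open Metric Set
open Crest.Agent.R128 Crest.Agent.R128.Cell Crest.Agent.R128.CellB

/-!
Row 128 (helper223): steps of a unit cell through a regular digit and through a nice digit
(`|V| ≥ κ k`), used for the local roughness statement.
-/

namespace Crest.Agent.R128.Nice

/-- the centre `t₁` has an un-stretched disc of radius `R` up to time `n + 1` whose image at time
`n + 1` has size at least `a₀`. -/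
structure UC (k c : ℝ) (n : ℕ) (t₁ R a₀ : ℝ) : Prop where
  hR : 0 < R
  ha : 0 < a₀
  uns : unst k (c : ℂ) (n + 1) (t₁ : ℂ) R
  big : a₀ ≤ ‖yd k (c : ℂ) (n + 1) (t₁ : ℂ)‖ * R
  prev : ‖yd k (c : ℂ) n (t₁ : ℂ)‖ ≤ ‖yd k (c : ℂ) (n + 1) (t₁ : ℂ)‖

variable {k c t₁ R a₀ W : ℝ} {n : ℕ}

theorem UC.pos (h : UC k c n t₁ R a₀) : 0 < ‖yd k (c : ℂ) (n + 1) (t₁ : ℂ)‖ := by
  have h1 := h.hR
  have h2 := h.ha
  have h3 := h.big
  by_contra hc
  push Not at hc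
  nlinarith

/-- growth of the derivative through a digit with `|V| ≥ W ≥ 2` -/
theorem growth (h : UC k c n t₁ R a₀) (hW : 2 ≤ W)
    (hV : W ≤ ‖cV k (y k (c : ℂ) (n + 1) (t₁ : ℂ))‖) :
    W / 2 * ‖yd k (c : ℂ) (n + 1) (t₁ : ℂ)‖ ≤ ‖yd k (c : ℂ) (n + 2) (t₁ : ℂ)‖ := by
  rw [yd_add_two]
  have h1 := norm_sub_norm_le (cV k (y k (c : ℂ) (n + 1) (t₁ : ℂ)) * yd k (c : ℂ) (n + 1) (t₁ : ℂ))
    (yd k (c : ℂ) n (t₁ : ℂ))
  rw [norm_mul] at h1
  have h2 := h.pos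
  have h3 := h.prev
  have h4 := mul_le_mul_of_nonneg_right hV h2.le
  nlinarith

theorem growth_le (h : UC k c n t₁ R a₀) :
    ‖yd k (c : ℂ) (n + 2) (t₁ : ℂ)‖ ≤ (CV k + 1) * ‖yd k (c : ℂ) (n + 1) (t₁ : ℂ)‖ := by
  rw [yd_add_two]
  have h1 := norm_sub_le (cV k (y k (c : ℂ) (n + 1) (t₁ : ℂ)) * yd k (c : ℂ) (n + 1) (t₁ : ℂ))
    (yd k (c : ℂ) n (t₁ : ℂ))
  rw [norm_mul] at h1
  have hb : (t₁ : ℂ) ∈ ball (t₁ : ℂ) R := mem_ball_self h.hR
  have h2 := norm_cV_le k (h.uns _ hb (n + 1) le_rfl)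
  have h3 := h.prev
  have h4 := mul_le_mul_of_nonneg_right h2 h.pos.le
  linarith

/-- the constant `(32 CV + 64 CL + 32)` -/
noncomputable def CK (k : ℝ) : ℝ := 32 * CV k + 64 * CL k + 32

theorem CK_pos (k : ℝ) : 0 < CK k := by
  unfold CK
  have := CV_ge k
  have := CL_nonneg k
  linarith

/-- numerical bound of `CK` -/
theorem CK_le {k : ℝ} (hk : 1 ≤ k) : CK k ≤ 2 * 10 ^ 6 * k := by
  unfold CK CV CL
  rw [abs_of_nonneg (by linarith : (0:ℝ) ≤ k)]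
  have hpi := Real.pi_lt_d2
  have hpi0 := Real.pi_pos
  have he : Real.exp (2 * Real.pi) ≤ 560 := by
    have h1 : 2 * Real.pi ≤ 6.3 := by linarith
    have h2 : Real.exp (2 * Real.pi) ≤ Real.exp 6.3 := Real.exp_le_exp.2 h1
    have h3 : Real.exp (6.3 : ℝ) = Real.exp (0.9) ^ 7 := by
      rw [← Real.exp_nat_mul]; norm_num
    have h4 : Real.exp (0.9 : ℝ) ≤ 2.461 := by
      have := Real.exp_bound' (x := 0.9) (by norm_num) (by norm_num) (n := 6) (by norm_num)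
      refine this.trans ?_
      simp [Finset.sum_range_succ, Nat.factorial]
      norm_num
    rw [h3] at h2
    refine h2.trans ?_
    calc Real.exp (0.9 : ℝ) ^ 7 ≤ 2.461 ^ 7 := pow_le_pow_left₀ (Real.exp_pos _).le h4 7
      _ ≤ 560 := by norm_num
  have he0 := Real.exp_pos (2 * Real.pi)
  have h5 : Real.pi ^ 2 ≤ 9.9225 := by nlinarith
  have h6 : 2 * Real.pi * k * Real.exp (2 * Real.pi) ≤ 3528 * k := by
    have : 2 * Real.pi * Real.exp (2 * Real.pi) ≤ 3528 := by nlinarith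
    nlinarith
  have h7 : 4 * Real.pi ^ 2 * k * Real.exp (2 * Real.pi) ≤ 22227 * k := by
    have : 4 * Real.pi ^ 2 * Real.exp (2 * Real.pi) ≤ 22227 := by nlinarith
    nlinarith
  nlinarith

/-- **one step.** On the disc of radius `M / |y'_(n+2)(t₁)|` the derivative `y'_(n+2)` is constant
up to the relative error `CK k * M / (a₀ * W / 2)^2`. -/
theorem step (h : UC k c n t₁ R a₀) (hW : 2 ≤ W)
    (hV : W ≤ ‖cV k (y k (c : ℂ) (n + 1) (t₁ : ℂ))‖) {M : ℝ} (hM : 0 ≤ M)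
    (hMW : 8 * M ≤ a₀ * W) {t : ℂ}
    (ht : ‖t - t₁‖ ≤ M / ‖yd k (c : ℂ) (n + 2) (t₁ : ℂ)‖) :
    ‖yd k (c : ℂ) (n + 2) t - yd k (c : ℂ) (n + 2) (t₁ : ℂ)‖ ≤
      CK k * M * 4 / (a₀ * W) ^ 2 * ‖yd k (c : ℂ) (n + 2) (t₁ : ℂ)‖ ∧
    ‖yd k (c : ℂ) (n + 1) t‖ ≤ 16 / (a₀ * W) * ‖yd k (c : ℂ) (n + 2) (t₁ : ℂ)‖ := by
  have hR := h.hR
  have ha := h.ha
  have hbig := h.big
  have hp := h.pos
  have hg := growth h hW hV
  set A := ‖yd k (c : ℂ) (n + 1) (t₁ : ℂ)‖ with hA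
  set A' := ‖yd k (c : ℂ) (n + 2) (t₁ : ℂ)‖ with hA'
  have hA'pos : 0 < A' := by nlinarith
  -- `A' R ≥ a₀ W / 2`
  have hAR : a₀ * W / 2 ≤ A' * R := by
    have h1 : W / 2 * A * R ≤ A' * R := mul_le_mul_of_nonneg_right hg hR.le
    have h2 : W / 2 * a₀ ≤ W / 2 * (A * R) := mul_le_mul_of_nonneg_left hbig (by linarith)
    nlinarith
  have haW : 0 < a₀ * W := by positivity
  have hAR0 : 0 < A' * R := by positivity
  have ht4 : ‖t - t₁‖ ≤ R / 4 := by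
    refine ht.trans ?_
    rw [div_le_div_iff₀ hA'pos (by norm_num)]
    nlinarith
  have h0 : ‖(t₁ : ℂ) - t₁‖ ≤ R / 4 := by
    simp; positivity
  constructor
  · have h1 := h.uns.yd_succ_sub_le hR ht4 h0
    refine h1.trans ?_
    have h2 : (32 * CV k + 64 * CL k + 32) / R ^ 2 * ‖t - t₁‖ ≤ CK k / R ^ 2 * (M / A') := by
      have : (32 * CV k + 64 * CL k + 32) = CK k := rfl
      rw [this]
      exact mul_le_mul_of_nonneg_left ht (by have := CK_pos k; positivity)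
    refine h2.trans ?_
    have hCK := CK_pos k
    have e1 : CK k / R ^ 2 * (M / A') = CK k * M * (1 / (A' * R) ^ 2) * A' := by
      field_simp
    have e2 : CK k * M * 4 / (a₀ * W) ^ 2 * A' = CK k * M * (1 / (a₀ * W / 2) ^ 2) * A' := by
      field_simp
      try ring
    rw [e1, e2]
    have h3 : 1 / (A' * R) ^ 2 ≤ 1 / (a₀ * W / 2) ^ 2 := by
      apply one_div_le_one_div_of_le (by positivity)
      exact pow_le_pow_left₀ (by positivity) hAR 2
    have h4 : 0 ≤ CK k * M := by positivity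
    exact mul_le_mul_of_nonneg_right (mul_le_mul_of_nonneg_left h3 h4) hA'pos.le
  · have h1 := h.uns.yd_le hR (le_refl (n + 1)) (t := t) (by linarith)
    refine h1.trans ?_
    have e2 : 16 / (a₀ * W) * A' = 8 / (a₀ * W / 2) * A' := by
      field_simp
      try ring
    rw [e2, div_mul_eq_mul_div, div_le_div_iff₀ hR (by positivity)]
    nlinarith

end Crest.Agent.R128.Nice
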