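import Mathlib
import Crest.Agent.R128.LocDef
import Crest.Agent.R128.Nice

/-!
# Row 128, node V5-LOC-B (second implementation, helper197): `RA → LocB`
-/

set_option autoImplicit false

open Metric MeasureTheory Set
open Crest.Agent.R128 Crest.Agent.R128.Cell Crest.Agent.R128.CellB Crest.Agent.R128.CellDy
open Crest.Agent.R128.Loc

namespace Crest.Agent.R128.LocBX2

/-! ### differentiability and real points -/

theorem differentiable_sdC (k c : ℝ) (s : Bool) : Differentiable ℂ (sdC k c s) := by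
  cases s
  · have : sdC k c false = fun z : ℂ => (kap k c : ℂ) - z := by funext z; simp [sdC]
    rw [this]
    exact (differentiable_const _).sub differentiable_id
  · have : sdC k c true = fun z : ℂ => z := by funext z; simp [sdC]
    rw [this]
    exact differentiable_id

theorem differentiable_Y (k c : ℝ) (s : Bool) (n : ℕ) : Differentiable ℂ (Y k c s n) :=
  (differentiable_y k c n).comp (differentiable_sdC k c s)

theorem differentiable_dg (k c : ℝ) (s : Bool) (n : ℕ) : Differentiable ℂ fun z => dg k c s z n := by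
  have h : Differentiable ℂ (cV k) := fun z => (hasDerivAt_cV k z).differentiableAt
  exact h.comp (differentiable_Y k c s n)

theorem differentiable_P (k c : ℝ) (s : Bool) (n : ℕ) :
    Differentiable ℂ fun z => Align.P (dg k c s z) n := by
  induction n using Nat.strong_induction_on with
  | _ n ih =>
    match n with
    | 0 => exact differentiable_const _
    | 1 => exact differentiable_const _
    | n + 2 =>
      have h1 := ih (n + 1) (by omega)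
      have h2 := ih n (by omega)
      exact ((differentiable_dg k c s (n + 1)).mul h1).sub h2

theorem D_add_two (k c : ℝ) (s : Bool) (n : ℕ) (z : ℂ) :
    D k c s (n + 2) z = dg k c s z (n + 1) * D k c s (n + 1) z - D k c s n z := by
  unfold D dg Y
  rw [yd_add_two]

theorem differentiable_D (k c : ℝ) (s : Bool) (n : ℕ) : Differentiable ℂ (D k c s n) := by
  induction n using Nat.strong_induction_on with
  | _ n ih =>
    match n with
    | 0 => exact differentiable_const _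
    | 1 => exact differentiable_const _
    | n + 2 =>
      have h1 := ih (n + 1) (by omega)
      have h2 := ih n (by omega)
      have e : D k c s (n + 2) = fun z => dg k c s z (n + 1) * D k c s (n + 1) z - D k c s n z := by
        funext z; exact D_add_two k c s n z
      rw [e]
      exact ((differentiable_dg k c s (n + 1)).mul h1).sub h2

theorem differentiableAt_mu (k c : ℝ) (s : Bool) (n : ℕ) {z : ℂ} (h : D k c s n z ≠ 0) :
    DifferentiableAt ℂ (fun z => mu k c s n z) z := by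
  have e : (fun z => mu k c s n z) = fun z => -(Align.P (dg k c s z) n) / D k c s n z := by
    funext z
    unfold mu Align.mu
    rw [Q_dg]
  rw [e]
  exact ((differentiable_P k c s n).differentiableAt.neg).div
    (differentiable_D k c s n).differentiableAt h

theorem im_Y (k c : ℝ) (s : Bool) (n : ℕ) (t : ℝ) : (Y k c s n (t : ℂ)).im = 0 := by
  cases s
  · have : Y k c false n (t : ℂ) = y k c n (((kap k c - t : ℝ)) : ℂ) := by
      unfold Y sdC; push_cast; simp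
    rw [this]
    exact im_y_ofReal k c n _
  · have : Y k c true n (t : ℂ) = y k c n ((t : ℝ) : ℂ) := by unfold Y sdC; simp
    rw [this]
    exact im_y_ofReal k c n _

theorem hasDerivAt_Y (k c : ℝ) (s : Bool) (n : ℕ) (z : ℂ) :
    ∃ g : ℂ, HasDerivAt (Y k c s n) g z ∧ ‖g‖ = ‖D k c s n z‖ := by
  cases s
  · exact ⟨_, hasDerivAt_Y_false k c n z, norm_neg _⟩
  · exact ⟨_, hasDerivAt_Y_true k c n z, rfl⟩

theorem Y_sub_le {k c : ℝ} {s : Bool} {n : ℕ} {t u B : ℝ}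
    (h : ∀ x ∈ Set.uIcc u t, ‖D k c s n (x : ℂ)‖ ≤ B) :
    ‖Y k c s n (t : ℂ) - Y k c s n (u : ℂ)‖ ≤ B * |t - u| := by
  choose g hg1 hg2 using hasDerivAt_Y k c s n
  have hd : ∀ x ∈ Set.uIcc u t, HasDerivWithinAt (fun x : ℝ => Y k c s n (x : ℂ)) (g x)
      (Set.uIcc u t) x := by
    intro x _
    exact (hg1 (x : ℂ)).comp_ofReal.hasDerivWithinAt
  have hb : ∀ x ∈ Set.uIcc u t, ‖g (x : ℂ)‖ ≤ B := fun x hx => by rw [hg2]; exact h x hx
  have := (convex_uIcc u t).norm_image_sub_le_of_norm_hasDerivWithin_le hd hb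
    Set.left_mem_uIcc Set.right_mem_uIcc
  rwa [Real.norm_eq_abs] at this

theorem CV_CL_le {k : ℝ} (hk : 1 ≤ k) : CV k ≤ 10 ^ 5 * k ∧ CL k ≤ 10 ^ 5 * k := by
  have h := Nice.CK_le hk
  have h1 := CL_nonneg k
  have h2 := CV_ge k
  unfold Nice.CK at h
  constructor <;> linarith

theorem norm_dg_le {k : ℝ} (hk : 1 ≤ k) (c : ℝ) (s : Bool) (n : ℕ) (t : ℝ) :
    ‖dg k c s (t : ℂ) n‖ ≤ 10 ^ 5 * k := by
  refine (norm_cV_le k ?_).trans (CV_CL_le hk).1
  rw [im_Y, abs_zero]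
  norm_num

theorem norm_dg_sub_le {k : ℝ} (hk : 1 ≤ k) (c : ℝ) (s : Bool) (n : ℕ) (t u : ℝ) :
    ‖dg k c s (t : ℂ) n - dg k c s (u : ℂ) n‖ ≤
      10 ^ 5 * k * ‖Y k c s n (t : ℂ) - Y k c s n (u : ℂ)‖ := by
  refine (norm_cV_sub_le k (z := Y k c s n (t : ℂ)) (w := Y k c s n (u : ℂ)) ?_ ?_).trans ?_
  · rw [im_Y, abs_zero]; norm_num
  · rw [im_Y, abs_zero]; norm_num
  · exact mul_le_mul_of_nonneg_right (CV_CL_le hk).2 (norm_nonneg _)

/-- Cauchy estimate -/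
theorem lip {f : ℂ → ℂ} {m R E : ℝ} (hR : 0 < R)
    (hd : ∀ z ∈ ball (m : ℂ) (4 / R), DifferentiableAt ℂ f z)
    (hb : ∀ z ∈ ball (m : ℂ) (4 / R), ‖f z‖ ≤ E)
    {x y : ℂ} (hx : ‖x - m‖ ≤ 3 / R) (hy : ‖y - m‖ ≤ 3 / R) :
    ‖f x - f y‖ ≤ 2 * R * E * ‖x - y‖ := by
  have h34 : 3 / R + 1 / (2 * R) < 4 / R := by
    rw [← sub_pos]
    have : 4 / R - (3 / R + 1 / (2 * R)) = 1 / (2 * R) := by field_simp; ring
    rw [this]
    positivity
  have hsub : ∀ z ∈ closedBall (m : ℂ) (3 / R), closedBall z (1 / (2 * R)) ⊆ ball (m : ℂ) (4 / R) := by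
    intro z hz w hw
    rw [mem_closedBall] at hz hw
    rw [mem_ball]
    exact ((dist_triangle w z m).trans (by linarith)).trans_lt h34
  have hcb : closedBall (m : ℂ) (3 / R) ⊆ ball (m : ℂ) (4 / R) := fun z hz =>
    hsub z hz (mem_closedBall_self (by positivity))
  refine (convex_closedBall (m : ℂ) (3 / R)).norm_image_sub_le_of_norm_hasDerivWithin_le
    (f := f) (f' := deriv f) (fun z hz => ((hd z (hcb hz)).hasDerivAt).hasDerivWithinAt)
    (fun z hz => ?_) ?_ ?_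
  · have h1 : ‖deriv f z‖ ≤ E / (1 / (2 * R)) := by
      refine Complex.norm_deriv_le_of_forall_mem_sphere_norm_le (by positivity) ?_ ?_
      · refine DifferentiableOn.diffContOnCl ?_
        rw [closure_ball z (by positivity)]
        intro w hw
        exact (hd w (hsub z hz hw)).differentiableWithinAt
      · intro w hw
        exact hb w (hsub z hz (sphere_subset_closedBall hw))
    refine h1.trans (le_of_eq ?_)
    field_simp
  · rwa [mem_closedBall, dist_eq_norm]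
  · rwa [mem_closedBall, dist_eq_norm]

/-! ### one side -/

/-- data of one side: `ρ` = slope of the exit digit number `n + 1`, `e = 1 / k` -/
structure Side (k e c : ℝ) (s : Bool) (n : ℕ) (m R ρ : ℝ) : Prop where
  hk : 10 ^ 20 ≤ k
  hke : k * e = 1
  hR : 0 < R
  hρ : 0 < ρ
  hρR : ρ ≤ k / 10 ^ 10 * R
  h1 : ∃ ρ0 : ℝ, |ρ0| = ρ ∧ ∀ z ∈ ball (m : ℂ) (4 / R), ‖D k c s (n + 1) z - (ρ0 : ℝ)‖ ≤ ρ / 2
  h0 : ∀ z ∈ ball (m : ℂ) (4 / R), ‖D k c s n z‖ ≤ ρ / 2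

/-- two close points of the cell -/
structure Cls (e m R t u : ℝ) : Prop where
  ht : |t - m| ≤ 3 / R
  hu : |u - m| ≤ 3 / R
  htu : R * |t - u| ≤ e ^ 6

theorem norm_real {t m B : ℝ} (h : |t - m| ≤ B) : ‖(t : ℂ) - m‖ ≤ B := by
  rw [← Complex.ofReal_sub, Complex.norm_real, Real.norm_eq_abs]
  exact h

theorem mem_ball_real {t m R : ℝ} (hR : 0 < R) (h : |t - m| ≤ 3 / R) :
    (t : ℂ) ∈ ball (m : ℂ) (4 / R) := by
  rw [mem_ball, dist_eq_norm]
  refine (norm_real h).trans_lt ?_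
  gcongr
  norm_num

variable {k e c : ℝ} {s : Bool} {n : ℕ} {m R ρ : ℝ}

theorem Side.e_pos (S : Side k e c s n m R ρ) : 0 < e := by
  have h1 := S.hk
  have h2 := S.hke
  by_contra h
  push Not at h
  nlinarith

theorem Side.e_le (S : Side k e c s n m R ρ) : e ≤ 1 / 10 ^ 20 := by
  have h1 := S.hk
  have h2 := S.hke
  have h3 := S.e_pos
  rw [le_div_iff₀ (by positivity)]
  nlinarith

theorem Side.Q1_le (S : Side k e c s n m R ρ) {z : ℂ} (hz : z ∈ ball (m : ℂ) (4 / R)) :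
    ‖D k c s (n + 1) z‖ ≤ 3 / 2 * ρ := by
  obtain ⟨ρ0, h1, h2⟩ := S.h1
  have h3 := h2 z hz
  have h4 := norm_sub_norm_le (D k c s (n + 1) z) ((ρ0 : ℝ) : ℂ)
  rw [Complex.norm_real, Real.norm_eq_abs, h1] at h4
  linarith

theorem Side.Q1_ge (S : Side k e c s n m R ρ) {z : ℂ} (hz : z ∈ ball (m : ℂ) (4 / R)) :
    ρ / 2 ≤ ‖D k c s (n + 1) z‖ := by
  obtain ⟨ρ0, h1, h2⟩ := S.h1
  have h3 := h2 z hz
  have h4 := norm_sub_norm_le ((ρ0 : ℝ) : ℂ) (D k c s (n + 1) z)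
  rw [Complex.norm_real, Real.norm_eq_abs, h1, norm_sub_rev] at h4
  linarith

theorem Side.Q2_le (S : Side k e c s n m R ρ) {t : ℝ} (ht : |t - m| ≤ 3 / R) :
    ‖D k c s (n + 2) (t : ℂ)‖ ≤ 2 * 10 ^ 5 * k * ρ := by
  have hz := mem_ball_real S.hR ht
  have hk := S.hk
  have hρ := S.hρ
  rw [D_add_two]
  refine (norm_sub_le _ _).trans ?_
  rw [norm_mul]
  have h1 := norm_dg_le (by linarith : 1 ≤ k) c s (n + 1) t
  have h2 := S.Q1_le hz
  have h3 := S.h0 _ hz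
  have h4 : ‖dg k c s (t : ℂ) (n + 1)‖ * ‖D k c s (n + 1) (t : ℂ)‖ ≤ 10 ^ 5 * k * (3 / 2 * ρ) :=
    mul_le_mul h1 h2 (norm_nonneg _) (by positivity)
  nlinarith [mul_le_mul_of_nonneg_right hk hρ.le]

theorem Side.dQ1 (S : Side k e c s n m R ρ) {t u : ℝ} (C : Cls e m R t u) :
    ‖D k c s (n + 1) (t : ℂ) - D k c s (n + 1) (u : ℂ)‖ ≤ ρ * e ^ 6 := by
  obtain ⟨ρ0, h1, h2⟩ := S.h1
  have h := lip (f := fun z => D k c s (n + 1) z - (ρ0 : ℝ)) S.hR
    (fun z _ => ((differentiable_D k c s (n + 1)).differentiableAt).sub_const _) h2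
    (norm_real C.ht) (norm_real C.hu)
  have e1 : (fun z => D k c s (n + 1) z - ((ρ0 : ℝ) : ℂ)) (t : ℂ) -
      (fun z => D k c s (n + 1) z - ((ρ0 : ℝ) : ℂ)) (u : ℂ) =
      D k c s (n + 1) (t : ℂ) - D k c s (n + 1) (u : ℂ) := by
    simp only; ring
  rw [e1, ← Complex.ofReal_sub, Complex.norm_real, Real.norm_eq_abs] at h
  refine h.trans ?_
  have h3 := mul_le_mul_of_nonneg_left C.htu S.hρ.le
  nlinarith

theorem Side.dQ0 (S : Side k e c s n m R ρ) {t u : ℝ} (C : Cls e m R t u) :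
    ‖D k c s n (t : ℂ) - D k c s n (u : ℂ)‖ ≤ ρ * e ^ 6 := by
  have h := lip (f := fun z => D k c s n z) S.hR
    (fun z _ => ((differentiable_D k c s n).differentiableAt)) S.h0
    (norm_real C.ht) (norm_real C.hu)
  rw [← Complex.ofReal_sub, Complex.norm_real, Real.norm_eq_abs] at h
  refine h.trans ?_
  have h3 := mul_le_mul_of_nonneg_left C.htu S.hρ.le
  nlinarith

theorem Cls.seg {t u : ℝ} (C : Cls e m R t u) {x : ℝ} (hx : x ∈ Set.uIcc u t) : |x - m| ≤ 3 / R := by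
  have h1 := abs_le.mp C.ht
  have h2 := abs_le.mp C.hu
  rw [Set.mem_uIcc] at hx
  rw [abs_le]
  rcases hx with h | h <;> constructor <;> linarith [h.1, h.2]

theorem Side.rho_d (S : Side k e c s n m R ρ) {t u : ℝ} (C : Cls e m R t u) :
    ρ * |t - u| ≤ e ^ 5 / 10 ^ 10 := by
  have h1 := mul_le_mul_of_nonneg_right S.hρR (abs_nonneg (t - u))
  have hk : 0 < k := by linarith [S.hk]
  have h2 := mul_le_mul_of_nonneg_left C.htu (by positivity : 0 ≤ k / 10 ^ 10)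
  have h3 : k / 10 ^ 10 * e ^ 6 = e ^ 5 / 10 ^ 10 := by
    have : k / 10 ^ 10 * e ^ 6 = (k * e) * e ^ 5 / 10 ^ 10 := by ring
    rw [this, S.hke, one_mul]
  linarith

theorem Side.dV1 (S : Side k e c s n m R ρ) {t u : ℝ} (C : Cls e m R t u) :
    ‖dg k c s (t : ℂ) (n + 1) - dg k c s (u : ℂ) (n + 1)‖ ≤ e ^ 4 / 1000 := by
  have hk : 0 < k := by linarith [S.hk]
  have h1 := norm_dg_sub_le (by linarith [S.hk] : 1 ≤ k) c s (n + 1) t u
  have h2 := Y_sub_le (k := k) (c := c) (s := s) (n := n + 1) (t := t) (u := u) (B := 3 / 2 * ρ)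
    (fun x hx => S.Q1_le (mem_ball_real S.hR (C.seg hx)))
  have h3 := S.rho_d C
  have h4 := mul_le_mul_of_nonneg_left h2 (by positivity : 0 ≤ 10 ^ 5 * k)
  have h5 := mul_le_mul_of_nonneg_left h3 (by positivity : 0 ≤ 10 ^ 5 * k * (3 / 2))
  have h6 : 10 ^ 5 * k * (3 / 2) * (e ^ 5 / 10 ^ 10) = 3 / 2 / 10 ^ 5 * e ^ 4 := by
    have : 10 ^ 5 * k * (3 / 2) * (e ^ 5 / 10 ^ 10) = 3 / 2 / 10 ^ 5 * ((k * e) * e ^ 4) := by ring
    rw [this, S.hke, one_mul]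
  have h7 : 0 < e ^ 4 := pow_pos S.e_pos 4
  nlinarith

theorem Side.dQ2 (S : Side k e c s n m R ρ) {t u : ℝ} (C : Cls e m R t u) :
    ‖D k c s (n + 2) (t : ℂ) - D k c s (n + 2) (u : ℂ)‖ ≤ ρ * e ^ 4 / 100 := by
  have hk : 0 < k := by linarith [S.hk]
  have hρ := S.hρ
  have he := S.e_pos
  have he1 := S.e_le
  have a1 := S.dV1 C
  have a2 := S.dQ1 C
  have a3 := S.dQ0 C
  have a4 := S.Q1_le (mem_ball_real S.hR C.ht)
  have a5 := norm_dg_le (by linarith [S.hk] : 1 ≤ k) c s (n + 1) u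
  have e1 : D k c s (n + 2) (t : ℂ) - D k c s (n + 2) (u : ℂ) =
      (dg k c s (t : ℂ) (n + 1) - dg k c s (u : ℂ) (n + 1)) * D k c s (n + 1) (t : ℂ) +
      dg k c s (u : ℂ) (n + 1) * (D k c s (n + 1) (t : ℂ) - D k c s (n + 1) (u : ℂ)) -
      (D k c s n (t : ℂ) - D k c s n (u : ℂ)) := by
    rw [D_add_two, D_add_two]; ring
  rw [e1]
  refine (norm_sub_le _ _).trans ?_
  have b1 := norm_add_le ((dg k c s (t : ℂ) (n + 1) - dg k c s (u : ℂ) (n + 1)) * D k c s (n + 1) (t : ℂ))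
    (dg k c s (u : ℂ) (n + 1) * (D k c s (n + 1) (t : ℂ) - D k c s (n + 1) (u : ℂ)))
  rw [norm_mul, norm_mul] at b1
  have b2 : ‖dg k c s (t : ℂ) (n + 1) - dg k c s (u : ℂ) (n + 1)‖ * ‖D k c s (n + 1) (t : ℂ)‖ ≤
      e ^ 4 / 1000 * (3 / 2 * ρ) := mul_le_mul a1 a4 (norm_nonneg _) (by positivity)
  have b3 : ‖dg k c s (u : ℂ) (n + 1)‖ * ‖D k c s (n + 1) (t : ℂ) - D k c s (n + 1) (u : ℂ)‖ ≤
      10 ^ 5 * k * (ρ * e ^ 6) := mul_le_mul a5 a2 (norm_nonneg _) (by positivity)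
  have b4 : 10 ^ 5 * k * (ρ * e ^ 6) = 10 ^ 5 * ρ * e ^ 5 := by
    have : 10 ^ 5 * k * (ρ * e ^ 6) = 10 ^ 5 * ρ * ((k * e) * e ^ 5) := by ring
    rw [this, S.hke, one_mul]
  have c4 : 0 < ρ * e ^ 4 := by positivity
  have c5 : ρ * e ^ 5 ≤ ρ * e ^ 4 * (1 / 10 ^ 20) := by
    have : ρ * e ^ 5 = ρ * e ^ 4 * e := by ring
    rw [this]
    exact mul_le_mul_of_nonneg_left he1 c4.le
  have c6 : ρ * e ^ 6 ≤ ρ * e ^ 4 * (1 / 10 ^ 20) := by
    have : ρ * e ^ 6 = ρ * e ^ 4 * (e * e) := by ring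
    rw [this]
    apply mul_le_mul_of_nonneg_left _ c4.le
    nlinarith
  linarith

/-- regular digits at `u` -/
theorem Side.Q2_ge (S : Side k e c s n m R ρ) {u : ℝ} (hu : |u - m| ≤ 3 / R)
    (h9 : 9 ≤ ‖dg k c s (u : ℂ) (n + 1)‖) : 4 * ρ ≤ ‖D k c s (n + 2) (u : ℂ)‖ := by
  have hz := mem_ball_real S.hR hu
  have hρ := S.hρ
  rw [D_add_two]
  have h1 := norm_sub_norm_le (dg k c s (u : ℂ) (n + 1) * D k c s (n + 1) (u : ℂ)) (D k c s n (u : ℂ))
  rw [norm_mul] at h1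
  have h2 := S.Q1_ge hz
  have h3 := S.h0 _ hz
  have h4 : 9 * (ρ / 2) ≤ ‖dg k c s (u : ℂ) (n + 1)‖ * ‖D k c s (n + 1) (u : ℂ)‖ :=
    mul_le_mul h9 h2 (by positivity) (norm_nonneg _)
  linarith

/-- close points with two regular digits at `u` -/
structure Reg (k e c : ℝ) (s : Bool) (n : ℕ) (m R ρ t u : ℝ) : Prop extends
    Side k e c s n m R ρ, Cls e m R t u where
  r1 : 9 ≤ ‖dg k c s (u : ℂ) (n + 1)‖
  r2 : 9 ≤ ‖dg k c s (u : ℂ) (n + 2)‖

variable {t u : ℝ}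

theorem Reg.q_ge (G : Reg k e c s n m R ρ t u) : 4 * ρ ≤ ‖D k c s (n + 2) (u : ℂ)‖ :=
  G.toSide.Q2_ge G.hu G.r1

theorem Reg.dq (G : Reg k e c s n m R ρ t u) :
    ‖D k c s (n + 2) (t : ℂ) - D k c s (n + 2) (u : ℂ)‖ ≤ ‖D k c s (n + 2) (u : ℂ)‖ * e ^ 4 := by
  have h1 := G.toSide.dQ2 G.toCls
  have h2 := G.q_ge
  have h3 : 0 < e ^ 4 := pow_pos G.toSide.e_pos 4
  have h4 := mul_le_mul_of_nonneg_right h2 h3.le
  have h5 := G.hρ
  nlinarith [mul_pos h5 h3]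

theorem Reg.e4 (G : Reg k e c s n m R ρ t u) : e ^ 4 ≤ 1 / 100 := by
  have h1 := G.toSide.e_pos
  have h2 := G.toSide.e_le
  calc e ^ 4 ≤ (1 / 10 ^ 20) ^ 4 := by gcongr
    _ ≤ 1 / 100 := by norm_num

theorem Reg.q_le (G : Reg k e c s n m R ρ t u) :
    ‖D k c s (n + 2) (t : ℂ)‖ ≤ (101 / 100) * ‖D k c s (n + 2) (u : ℂ)‖ := by
  have h1 := G.dq
  have h2 := norm_sub_norm_le (D k c s (n + 2) (t : ℂ)) (D k c s (n + 2) (u : ℂ))
  have h3 := mul_le_mul_of_nonneg_left G.e4 (norm_nonneg (D k c s (n + 2) (u : ℂ)))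
  linarith

theorem Reg.q_ge' (G : Reg k e c s n m R ρ t u) :
    (1 / 2) * ‖D k c s (n + 2) (u : ℂ)‖ ≤ ‖D k c s (n + 2) (t : ℂ)‖ := by
  have h1 := G.dq
  have h2 := norm_sub_norm_le (D k c s (n + 2) (u : ℂ)) (D k c s (n + 2) (t : ℂ))
  rw [norm_sub_rev] at h2
  have h3 := mul_le_mul_of_nonneg_left G.e4 (norm_nonneg (D k c s (n + 2) (u : ℂ)))
  have h4 := norm_nonneg (D k c s (n + 2) (u : ℂ))
  linarith

theorem Reg.dV2 (G : Reg k e c s n m R ρ t u) :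
    ‖dg k c s (t : ℂ) (n + 2) - dg k c s (u : ℂ) (n + 2)‖ ≤ 2 * e ^ 3 := by
  have hk : 0 < k := by linarith [G.hk]
  have h1 := norm_dg_sub_le (by linarith [G.hk] : 1 ≤ k) c s (n + 2) t u
  have h2 := Y_sub_le (k := k) (c := c) (s := s) (n := n + 2) (t := t) (u := u)
    (B := 2 * 10 ^ 5 * k * ρ) (fun x hx => G.toSide.Q2_le (G.toCls.seg hx))
  have h3 := G.toSide.rho_d G.toCls
  have h4 := mul_le_mul_of_nonneg_left h2 (by positivity : 0 ≤ 10 ^ 5 * k)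
  have h5 := mul_le_mul_of_nonneg_left h3 (by positivity : 0 ≤ 10 ^ 5 * k * (2 * 10 ^ 5 * k))
  have h6 : 10 ^ 5 * k * (2 * 10 ^ 5 * k) * (e ^ 5 / 10 ^ 10) = 2 * e ^ 3 := by
    have : 10 ^ 5 * k * (2 * 10 ^ 5 * k) * (e ^ 5 / 10 ^ 10) = 2 * ((k * e) * (k * e) * e ^ 3) := by
      ring
    rw [this, G.hke]; ring
  nlinarith

theorem Reg.dQ3 (G : Reg k e c s n m R ρ t u) :
    ‖D k c s (n + 3) (t : ℂ) - D k c s (n + 3) (u : ℂ)‖ ≤
      10 ^ 6 * e ^ 3 * ‖D k c s (n + 2) (u : ℂ)‖ := by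
  have hk : 0 < k := by linarith [G.hk]
  have hρ := G.hρ
  have he := G.toSide.e_pos
  have he1 := G.toSide.e_le
  set q := ‖D k c s (n + 2) (u : ℂ)‖ with hq
  have a0 := G.q_ge
  rw [← hq] at a0
  have a1 := G.dV2
  have a2 := G.dq
  rw [← hq] at a2
  have a3 := G.toSide.dQ1 G.toCls
  have a4 := G.q_le
  rw [← hq] at a4
  have a5 := norm_dg_le (by linarith [G.hk] : 1 ≤ k) c s (n + 2) u
  have e1 : D k c s (n + 3) (t : ℂ) - D k c s (n + 3) (u : ℂ) =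
      (dg k c s (t : ℂ) (n + 2) - dg k c s (u : ℂ) (n + 2)) * D k c s (n + 2) (t : ℂ) +
      dg k c s (u : ℂ) (n + 2) * (D k c s (n + 2) (t : ℂ) - D k c s (n + 2) (u : ℂ)) -
      (D k c s (n + 1) (t : ℂ) - D k c s (n + 1) (u : ℂ)) := by
    rw [D_add_two k c s (n + 1) (t : ℂ), D_add_two k c s (n + 1) (u : ℂ)]; ring
  rw [e1]
  refine (norm_sub_le _ _).trans ?_
  have b1 := norm_add_le ((dg k c s (t : ℂ) (n + 2) - dg k c s (u : ℂ) (n + 2)) * D k c s (n + 2) (t : ℂ))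
    (dg k c s (u : ℂ) (n + 2) * (D k c s (n + 2) (t : ℂ) - D k c s (n + 2) (u : ℂ)))
  rw [norm_mul, norm_mul] at b1
  have b2 : ‖dg k c s (t : ℂ) (n + 2) - dg k c s (u : ℂ) (n + 2)‖ * ‖D k c s (n + 2) (t : ℂ)‖ ≤
      2 * e ^ 3 * (101 / 100 * q) := mul_le_mul a1 a4 (norm_nonneg _) (by positivity)
  have b3 : ‖dg k c s (u : ℂ) (n + 2)‖ * ‖D k c s (n + 2) (t : ℂ) - D k c s (n + 2) (u : ℂ)‖ ≤
      10 ^ 5 * k * (q * e ^ 4) := mul_le_mul a5 a2 (norm_nonneg _) (by positivity)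
  have b4 : 10 ^ 5 * k * (q * e ^ 4) = 10 ^ 5 * q * e ^ 3 := by
    have : 10 ^ 5 * k * (q * e ^ 4) = 10 ^ 5 * q * ((k * e) * e ^ 3) := by ring
    rw [this, G.hke, one_mul]
  have hq0 : 0 < q := by linarith
  have c4 : 0 < q * e ^ 3 := by positivity
  have c6 : ρ * e ^ 6 ≤ q * e ^ 3 := by
    have h1 : ρ * e ^ 6 = ρ * (e ^ 3 * e ^ 3) := by ring
    rw [h1]
    have h2 : e ^ 3 * e ^ 3 ≤ e ^ 3 * 1 := by
      apply mul_le_mul_of_nonneg_left _ (by positivity)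
      calc e ^ 3 ≤ (1 / 10 ^ 20) ^ 3 := by gcongr
        _ ≤ 1 := by norm_num
    calc ρ * (e ^ 3 * e ^ 3) ≤ q * (e ^ 3 * 1) := by
          apply mul_le_mul _ h2 (by positivity) hq0.le
          linarith
      _ = q * e ^ 3 := by ring
  linarith

theorem Reg.Q3_ge (G : Reg k e c s n m R ρ t u) :
    8 * ‖D k c s (n + 2) (u : ℂ)‖ ≤ ‖D k c s (n + 3) (u : ℂ)‖ := by
  have hz := mem_ball_real G.hR G.hu
  have hρ := G.hρ
  rw [D_add_two k c s (n + 1)]
  have h1 := norm_sub_norm_le (dg k c s (u : ℂ) (n + 1 + 1) * D k c s (n + 1 + 1) (u : ℂ))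
    (D k c s (n + 1) (u : ℂ))
  rw [norm_mul] at h1
  have h2 := G.toSide.Q1_le hz
  have h3 := G.q_ge
  have h4 : 9 * ‖D k c s (n + 2) (u : ℂ)‖ ≤ ‖dg k c s (u : ℂ) (n + 1 + 1)‖ *
      ‖D k c s (n + 1 + 1) (u : ℂ)‖ := mul_le_mul_of_nonneg_right G.r2 (norm_nonneg _)
  linarith

theorem Reg.Q3_ge' (G : Reg k e c s n m R ρ t u) :
    7 * ‖D k c s (n + 2) (u : ℂ)‖ ≤ ‖D k c s (n + 3) (t : ℂ)‖ := by
  have h1 := G.dQ3
  have h2 := norm_sub_norm_le (D k c s (n + 3) (u : ℂ)) (D k c s (n + 3) (t : ℂ))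
  rw [norm_sub_rev] at h2
  have h3 := G.Q3_ge
  have he := G.toSide.e_pos
  have h5 : 10 ^ 6 * e ^ 3 ≤ 1 := by
    calc 10 ^ 6 * e ^ 3 ≤ 10 ^ 6 * (1 / 10 ^ 20) ^ 3 := by
          have := G.toSide.e_le
          gcongr
      _ ≤ 1 := by norm_num
  have h6 := mul_le_mul_of_nonneg_right h5 (norm_nonneg (D k c s (n + 2) (u : ℂ)))
  linarith

theorem inv_sub_le {a b a' b' : ℂ} (ha : a ≠ 0) (hb : b ≠ 0) (ha' : a' ≠ 0) (hb' : b' ≠ 0) :
    ‖1 / (a * b) - 1 / (a' * b')‖ ≤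
      ‖a - a'‖ / (‖a‖ * ‖b‖ * ‖a'‖) + ‖b - b'‖ / (‖b‖ * ‖a'‖ * ‖b'‖) := by
  have h : 1 / (a * b) - 1 / (a' * b') = (a' - a) / (a * b * a') + (b' - b) / (b * a' * b') := by
    field_simp
    ring
  rw [h]
  refine (norm_add_le _ _).trans ?_
  rw [norm_div, norm_div, norm_mul, norm_mul, norm_mul, norm_mul, norm_sub_rev a' a,
    norm_sub_rev b' b]

/-- variation of the first new content term -/
theorem Reg.T1 (G : Reg k e c s n m R ρ t u) :
    ‖1 / (D k c s (n + 1) (t : ℂ) * D k c s (n + 2) (t : ℂ)) -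
      1 / (D k c s (n + 1) (u : ℂ) * D k c s (n + 2) (u : ℂ))‖ ≤ e ^ 4 / ρ ^ 2 := by
  have hρ := G.hρ
  have he := G.toSide.e_pos
  have a1 := G.toSide.Q1_ge (mem_ball_real G.hR G.ht)
  have a2 := G.toSide.Q1_ge (mem_ball_real G.hR G.hu)
  have a3 := G.q_ge
  have a4 := G.q_ge'
  have n1 : D k c s (n + 1) (t : ℂ) ≠ 0 := norm_pos_iff.mp (by linarith)
  have n2 : D k c s (n + 2) (t : ℂ) ≠ 0 := norm_pos_iff.mp (by linarith)
  have n3 : D k c s (n + 1) (u : ℂ) ≠ 0 := norm_pos_iff.mp (by linarith)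
  have n4 : D k c s (n + 2) (u : ℂ) ≠ 0 := norm_pos_iff.mp (by linarith)
  refine (inv_sub_le n1 n2 n3 n4).trans ?_
  have b1 := G.toSide.dQ1 G.toCls
  have b2 := G.toSide.dQ2 G.toCls
  have c1 : ‖D k c s (n + 1) (t : ℂ) - D k c s (n + 1) (u : ℂ)‖ /
      (‖D k c s (n + 1) (t : ℂ)‖ * ‖D k c s (n + 2) (t : ℂ)‖ * ‖D k c s (n + 1) (u : ℂ)‖) ≤
      (ρ * e ^ 6) / (ρ / 2 * (2 * ρ) * (ρ / 2)) := by
    apply div_le_div₀ (by positivity) b1 (by positivity)
    apply mul_le_mul _ a2 (by positivity) (by positivity)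
    apply mul_le_mul a1 (by linarith) (by positivity) (by positivity)
  have c2 : ‖D k c s (n + 2) (t : ℂ) - D k c s (n + 2) (u : ℂ)‖ /
      (‖D k c s (n + 2) (t : ℂ)‖ * ‖D k c s (n + 1) (u : ℂ)‖ * ‖D k c s (n + 2) (u : ℂ)‖) ≤
      (ρ * e ^ 4 / 100) / (2 * ρ * (ρ / 2) * (4 * ρ)) := by
    apply div_le_div₀ (by positivity) b2 (by positivity)
    apply mul_le_mul _ a3 (by positivity) (by positivity)
    apply mul_le_mul (by linarith) a2 (by positivity) (by positivity)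
  have c3 : (ρ * e ^ 6) / (ρ / 2 * (2 * ρ) * (ρ / 2)) = 2 * e ^ 6 / ρ ^ 2 := by
    field_simp
  have c4 : (ρ * e ^ 4 / 100) / (2 * ρ * (ρ / 2) * (4 * ρ)) = e ^ 4 / 400 / ρ ^ 2 := by
    field_simp
    ring
  rw [c3] at c1
  rw [c4] at c2
  have c5 : 2 * e ^ 6 / ρ ^ 2 + e ^ 4 / 400 / ρ ^ 2 ≤ e ^ 4 / ρ ^ 2 := by
    rw [← add_div]
    gcongr
    have h1 : e ^ 6 ≤ e ^ 4 * (1 / 100) := by
      have : e ^ 6 = e ^ 4 * (e * e) := by ring
      rw [this]
      apply mul_le_mul_of_nonneg_left _ (by positivity)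
      have := G.toSide.e_le
      nlinarith
    have h2 : 0 < e ^ 4 := by positivity
    linarith
  linarith

/-- variation of the second new content term -/
theorem Reg.T2 (G : Reg k e c s n m R ρ t u) :
    ‖1 / (D k c s (n + 2) (t : ℂ) * D k c s (n + 3) (t : ℂ)) -
      1 / (D k c s (n + 2) (u : ℂ) * D k c s (n + 3) (u : ℂ))‖ ≤
      10 ^ 6 * e ^ 3 / ‖D k c s (n + 2) (u : ℂ)‖ ^ 2 := by
  have hρ := G.hρ
  have he := G.toSide.e_pos
  have a3 := G.q_ge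
  have a4 := G.q_ge'
  have a5 := G.Q3_ge
  have a6 := G.Q3_ge'
  have b1 := G.dq
  have b2 := G.dQ3
  have n2 : D k c s (n + 2) (t : ℂ) ≠ 0 := norm_pos_iff.mp (by linarith)
  have n4 : D k c s (n + 2) (u : ℂ) ≠ 0 := norm_pos_iff.mp (by linarith)
  have n1 : D k c s (n + 3) (t : ℂ) ≠ 0 := norm_pos_iff.mp (by linarith)
  have n3 : D k c s (n + 3) (u : ℂ) ≠ 0 := norm_pos_iff.mp (by linarith)
  refine (inv_sub_le n2 n1 n4 n3).trans ?_
  set q := ‖D k c s (n + 2) (u : ℂ)‖ with hq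
  have hq0 : 0 < q := by linarith
  have c1 : ‖D k c s (n + 2) (t : ℂ) - D k c s (n + 2) (u : ℂ)‖ /
      (‖D k c s (n + 2) (t : ℂ)‖ * ‖D k c s (n + 3) (t : ℂ)‖ * q) ≤
      (q * e ^ 4) / (1 / 2 * q * (7 * q) * q) := by
    apply div_le_div₀ (by positivity) b1 (by positivity)
    apply mul_le_mul_of_nonneg_right _ hq0.le
    apply mul_le_mul a4 a6 (by positivity) (norm_nonneg _)
  have c2 : ‖D k c s (n + 3) (t : ℂ) - D k c s (n + 3) (u : ℂ)‖ /
      (‖D k c s (n + 3) (t : ℂ)‖ * q * ‖D k c s (n + 3) (u : ℂ)‖) ≤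
      (10 ^ 6 * e ^ 3 * q) / (7 * q * q * (8 * q)) := by
    apply div_le_div₀ (by positivity) b2 (by positivity)
    apply mul_le_mul _ a5 (by positivity) (by positivity)
    apply mul_le_mul_of_nonneg_right a6 hq0.le
  have c3 : (q * e ^ 4) / (1 / 2 * q * (7 * q) * q) = 2 / 7 * e ^ 4 / q ^ 2 := by
    field_simp
  have c4 : (10 ^ 6 * e ^ 3 * q) / (7 * q * q * (8 * q)) = 10 ^ 6 / 56 * e ^ 3 / q ^ 2 := by
    field_simp
    ring
  rw [c3] at c1
  rw [c4] at c2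
  have c5 : 2 / 7 * e ^ 4 / q ^ 2 + 10 ^ 6 / 56 * e ^ 3 / q ^ 2 ≤ 10 ^ 6 * e ^ 3 / q ^ 2 := by
    rw [← add_div]
    gcongr
    have h1 : e ^ 4 ≤ e ^ 3 * (1 / 100) := by
      have : e ^ 4 = e ^ 3 * e := by ring
      rw [this]
      apply mul_le_mul_of_nonneg_left _ (by positivity)
      have := G.toSide.e_le
      linarith
    have h2 : 0 < e ^ 3 := by positivity
    linarith
  linarith

/-! ### both sides -/

/-- `Align.mu` at two consecutive times -/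
theorem mu_succ {k c : ℝ} {s : Bool} {n : ℕ} {z : ℂ} (h0 : D k c s n z ≠ 0)
    (h1 : D k c s (n + 1) z ≠ 0) :
    mu k c s (n + 1) z = mu k c s n z + 1 / (D k c s n z * D k c s (n + 1) z) := by
  have h := Align.mu_succ_sub (a := dg k c s z) (n := n) (by rw [Q_dg]; exact h0)
    (by rw [Q_dg]; exact h1)
  rw [Q_dg, Q_dg] at h
  unfold mu
  rw [← h]
  ring

theorem cont_succ {k c : ℝ} {s : Bool} {n n' : ℕ} {z : ℂ} (h0 : D k c s n z ≠ 0)
    (h1 : D k c s (n + 1) z ≠ 0) (h0' : D k c (!s) n' z ≠ 0) (h1' : D k c (!s) (n' + 1) z ≠ 0) :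
    cont k c s (n + 1) (n' + 1) z = cont k c s n n' z -
      1 / (D k c s n z * D k c s (n + 1) z) - 1 / (D k c (!s) n' z * D k c (!s) (n' + 1) z) := by
  unfold cont
  rw [mu_succ h0 h1, mu_succ h0' h1']
  ring

variable {n' : ℕ} {ρ' : ℝ}

theorem Side.epw (S : Side k e c s n m R ρ) :
    e ≤ 1 / 10 ^ 20 ∧ e ^ 2 ≤ 1 / 10 ^ 20 ∧ e ^ 3 ≤ 1 / 10 ^ 20 ∧ e ^ 4 ≤ 1 / 10 ^ 20 := by
  have he := S.e_pos
  have he1 := S.e_le
  have h0 : (1 : ℝ) / 10 ^ 20 ≤ 1 := by norm_num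
  have he2 : e ^ 2 ≤ 1 / 10 ^ 20 := by nlinarith
  have he3 : e ^ 3 ≤ 1 / 10 ^ 20 := by
    have : e ^ 3 = e ^ 2 * e := by ring
    rw [this]; nlinarith [pow_pos he 2]
  have he4 : e ^ 4 ≤ 1 / 10 ^ 20 := by
    have : e ^ 4 = e ^ 3 * e := by ring
    rw [this]; nlinarith [pow_pos he 3]
  exact ⟨he1, he2, he3, he4⟩

theorem num1 {k e R r x d a a' : ℝ} (hk : 0 < k) (hR : 0 < R) (he : 0 < e) (hke : k * e = 1)
    (hp : e ≤ 1 / 10 ^ 20 ∧ e ^ 2 ≤ 1 / 10 ^ 20 ∧ e ^ 3 ≤ 1 / 10 ^ 20 ∧ e ^ 4 ≤ 1 / 10 ^ 20)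
    (hr : R ≤ r) (hx : 2 * Real.pi * k * R ^ 2 * x ≤ 1 / 8)
    (hd : 2 * Real.pi * k * R ^ 2 * d ≤ 10 * e ^ 4)
    (ha : a ≤ e ^ 4 / R ^ 2) (ha' : a' ≤ e ^ 4 / r ^ 2) :
    2 * Real.pi * k * R ^ 2 * (x + d + a + a') ≤ 1 / 4 := by
  have hpi := Real.pi_pos
  have hpi4 : Real.pi ≤ 4 := Real.pi_le_four
  obtain ⟨-, -, h3, h4⟩ := hp
  have hke3 : k * e ^ 4 = e ^ 3 := by
    have : k * e ^ 4 = (k * e) * e ^ 3 := by ring
    rw [this, hke, one_mul]
  have i2 : 2 * Real.pi * k * R ^ 2 * (e ^ 4 / R ^ 2) = 2 * Real.pi * (k * e ^ 4) := by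
    field_simp
  have gen : ∀ a : ℝ, a ≤ e ^ 4 / R ^ 2 → 2 * Real.pi * k * R ^ 2 * a ≤ 8 * e ^ 3 := by
    intro a ha
    have i1 := mul_le_mul_of_nonneg_left ha (by positivity : 0 ≤ 2 * Real.pi * k * R ^ 2)
    rw [i2, hke3] at i1
    have := mul_le_mul_of_nonneg_right hpi4 (by positivity : 0 ≤ 2 * e ^ 3)
    linarith
  have g1 := gen a ha
  have g2 := gen a' (ha'.trans (by gcongr))
  have h5 : 2 * Real.pi * k * R ^ 2 * (x + d + a + a') = 2 * Real.pi * k * R ^ 2 * x +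
    2 * Real.pi * k * R ^ 2 * d + 2 * Real.pi * k * R ^ 2 * a + 2 * Real.pi * k * R ^ 2 * a' := by ring
  have h6 : (1 : ℝ) / 10 ^ 20 ≤ 1 / 1000 := by norm_num
  linarith

theorem num2 {k e R r x d a a' b b' q q' qt qt' : ℝ} (hk : 0 < k) (hR : 0 < R) (hr : 0 < r)
    (he : 0 < e) (hke : k * e = 1)
    (hp : e ≤ 1 / 10 ^ 20 ∧ e ^ 2 ≤ 1 / 10 ^ 20 ∧ e ^ 3 ≤ 1 / 10 ^ 20 ∧ e ^ 4 ≤ 1 / 10 ^ 20)
    (hq : 0 < q) (hq' : 0 < q') (hqt : 0 ≤ qt) (hqt' : 0 ≤ qt')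
    (m1 : qt ≤ 101 / 100 * q) (m1' : qt' ≤ 101 / 100 * q')
    (m2 : qt ≤ 2 * 10 ^ 5 * k * R) (m2' : qt' ≤ 2 * 10 ^ 5 * k * r)
    (hx0 : 0 ≤ x) (hd0 : 0 ≤ d) (ha0 : 0 ≤ a) (ha0' : 0 ≤ a') (hb0 : 0 ≤ b) (hb0' : 0 ≤ b')
    (hx : 2 * Real.pi * k * (min q q') ^ 2 * x ≤ 1 / 8)
    (hd : 2 * Real.pi * k * R ^ 2 * d ≤ 10 * e ^ 4)
    (ha : a ≤ e ^ 4 / R ^ 2) (ha' : a' ≤ e ^ 4 / r ^ 2)
    (hb : b ≤ 10 ^ 6 * e ^ 3 / q ^ 2) (hb' : b' ≤ 10 ^ 6 * e ^ 3 / q' ^ 2) :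
    2 * Real.pi * k * (min qt qt') ^ 2 * (x + d + a + a' + b + b') ≤ 1 / 4 := by
  have hpi := Real.pi_pos
  have hpi4 : Real.pi ≤ 4 := Real.pi_le_four
  obtain ⟨p1, p2, p3, p4⟩ := hp
  set Mt := min qt qt' with hMt
  set Mu := min q q' with hMu
  have hMt0 : 0 ≤ Mt := le_min hqt hqt'
  have hMu0 : 0 ≤ Mu := le_min hq.le hq'.le
  have l1 : Mt ≤ 101 / 100 * Mu := by
    rcases le_total q q' with h | h
    · rw [hMu, min_eq_left h]; exact (min_le_left _ _).trans m1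
    · rw [hMu, min_eq_right h]; exact (min_le_right _ _).trans m1'
  have l2 : Mt ≤ 2 * 10 ^ 5 * k * R := (min_le_left _ _).trans m2
  have l2' : Mt ≤ 2 * 10 ^ 5 * k * r := (min_le_right _ _).trans m2'
  have l3 : Mt ≤ 101 / 100 * q := (min_le_left _ _).trans m1
  have l3' : Mt ≤ 101 / 100 * q' := (min_le_right _ _).trans m1'
  set St := 2 * Real.pi * k * Mt ^ 2 with hSt
  have hSt0 : 0 ≤ St := by positivity
  have pw : ∀ x : ℝ, 0 ≤ x → Mt ≤ x → St ≤ 2 * Real.pi * k * x ^ 2 := fun x hx hx' => by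
    rw [hSt]; gcongr
  have s0 : St * x ≤ 13 / 100 := by
    have i1 := pw _ (by positivity) l1
    have i2 := mul_le_mul_of_nonneg_right i1 hx0
    have i3 : 2 * Real.pi * k * (101 / 100 * Mu) ^ 2 * x =
      (101 / 100) ^ 2 * (2 * Real.pi * k * Mu ^ 2 * x) := by ring
    rw [i3] at i2
    have i4 := mul_le_mul_of_nonneg_left hx (by positivity : (0:ℝ) ≤ (101 / 100) ^ 2)
    linarith
  have s1 : St * d ≤ 10 ^ 12 * e ^ 2 := by
    have i1 := mul_le_mul_of_nonneg_right (pw _ (by positivity) l2) hd0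
    have i3 : 2 * Real.pi * k * (2 * 10 ^ 5 * k * R) ^ 2 * d =
      4 * 10 ^ 10 * k ^ 2 * (2 * Real.pi * k * R ^ 2 * d) := by ring
    have i4 := mul_le_mul_of_nonneg_left hd (by positivity : 0 ≤ 4 * 10 ^ 10 * k ^ 2)
    have i5 : 4 * 10 ^ 10 * k ^ 2 * (10 * e ^ 4) = 4 * 10 ^ 11 * e ^ 2 := by
      have : 4 * 10 ^ 10 * k ^ 2 * (10 * e ^ 4) = 4 * 10 ^ 11 * ((k * e) ^ 2 * e ^ 2) := by ring
      rw [this, hke]; ring
    have : 0 < e ^ 2 := by positivity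
    linarith
  have gen1 : ∀ r d : ℝ, 0 < r → Mt ≤ 2 * 10 ^ 5 * k * r → 0 ≤ d → d ≤ e ^ 4 / r ^ 2 →
      St * d ≤ 10 ^ 12 * e := by
    intro r d hr hM hd0 hd
    have i1 := mul_le_mul (pw _ (by positivity) hM) hd hd0 (by positivity)
    have i2 : 2 * Real.pi * k * (2 * 10 ^ 5 * k * r) ^ 2 * (e ^ 4 / r ^ 2) =
      8 * 10 ^ 10 * Real.pi * ((k * e) ^ 3 * e) := by field_simp; ring
    rw [i2, hke] at i1
    have := mul_le_mul_of_nonneg_right hpi4 (by positivity : 0 ≤ 8 * 10 ^ 10 * e)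
    linarith
  have s2 := gen1 R _ hR l2 ha0 ha
  have s2' := gen1 r _ hr l2' ha0' ha'
  have gen2 : ∀ r d : ℝ, 0 < r → Mt ≤ 101 / 100 * r → 0 ≤ d → d ≤ 10 ^ 6 * e ^ 3 / r ^ 2 →
      St * d ≤ 10 ^ 7 * e ^ 2 := by
    intro r d hr hM hd0 hd
    have i1 := mul_le_mul (pw _ (by positivity) hM) hd hd0 (by positivity)
    have i2 : 2 * Real.pi * k * (101 / 100 * r) ^ 2 * (10 ^ 6 * e ^ 3 / r ^ 2) =
      2 * Real.pi * (101 / 100) ^ 2 * 10 ^ 6 * ((k * e) * e ^ 2) := by field_simp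
    rw [i2, hke] at i1
    have := mul_le_mul_of_nonneg_right hpi4 (by positivity : 0 ≤ 2 * (101 / 100) ^ 2 * 10 ^ 6 * e ^ 2)
    have : 0 < e ^ 2 := by positivity
    linarith
  have s3 := gen2 q _ hq l3 hb0 hb
  have s3' := gen2 q' _ hq' l3' hb0' hb'
  have h5 : St * (x + d + a + a' + b + b') =
    St * x + St * d + St * a + St * a' + St * b + St * b' := by ring
  have f1 : 10 ^ 12 * e ≤ 1 / 10 ^ 8 := by linarith
  have f2 : 10 ^ 12 * e ^ 2 ≤ 1 / 10 ^ 8 := by linarith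
  have f3 : 10 ^ 7 * e ^ 2 ≤ 1 / 10 ^ 8 := by linarith
  have f4 : (1 : ℝ) / 10 ^ 8 ≤ 1 / 1000 := by norm_num
  linarith

/-- **Perturbation**: alignment at `u` implies (weaker) alignment at `t`. -/
theorem align_of_close {q0 q1 q2 : ℝ} (G : Reg k e c s n m R R t u)
    (G' : Reg k e c (!s) n' m R ρ' t u) (hRρ : R ≤ ρ')
    (hq : |q0| + |q1| + |q2| ≤ k ^ 2)
    (quad : ∀ z ∈ ball (m : ℂ) (4 / R),
      ‖(2 * Real.pi * k * R ^ 2 : ℝ) * cont k c s (n + 1) (n' + 1) z -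
        (q0 + q1 * ((R : ℂ) * (z - m)) + q2 * ((R : ℂ) * (z - m)) ^ 2)‖ ≤ 1 / 16)
    (al1 : (2 * Real.pi * k * R ^ 2) * ‖cont k c s (n + 2) (n' + 2) u‖ ≤ 1 / 8)
    (al2 : (2 * Real.pi * k * (min ‖D k c s (n + 2) u‖ ‖D k c (!s) (n' + 2) u‖) ^ 2) *
      ‖cont k c s (n + 3) (n' + 3) u‖ ≤ 1 / 8) :
    (2 * Real.pi * k * R ^ 2) * ‖cont k c s (n + 2) (n' + 2) t‖ ≤ 1 / 4 ∧
    (2 * Real.pi * k * (min ‖D k c s (n + 2) t‖ ‖D k c (!s) (n' + 2) t‖) ^ 2) *
      ‖cont k c s (n + 3) (n' + 3) t‖ ≤ 1 / 4 := by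
  have hk : 0 < k := by linarith [G.hk]
  have hR := G.hR
  have hρ' := G'.hρ
  have he := G.toSide.e_pos
  have he1 := G.toSide.e_le
  have hke := G.hke
  have hpi := Real.pi_pos
  have hpi4 : Real.pi ≤ 4 := Real.pi_le_four
  -- nonvanishing
  have nz : ∀ x : ℝ, |x - m| ≤ 3 / R → D k c s (n + 1) (x : ℂ) ≠ 0 := fun x hx =>
    norm_pos_iff.mp (by have := G.toSide.Q1_ge (mem_ball_real hR hx); linarith)
  have nz' : ∀ x : ℝ, |x - m| ≤ 3 / R → D k c (!s) (n' + 1) (x : ℂ) ≠ 0 := fun x hx =>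
    norm_pos_iff.mp (by have := G'.toSide.Q1_ge (mem_ball_real hR hx); linarith)
  have g3 := G.q_ge
  have g4 := G.q_ge'
  have g5 := G.Q3_ge
  have g6 := G.Q3_ge'
  have g3' := G'.q_ge
  have g4' := G'.q_ge'
  have g5' := G'.Q3_ge
  have g6' := G'.Q3_ge'
  have n2t : D k c s (n + 2) (t : ℂ) ≠ 0 := norm_pos_iff.mp (by linarith)
  have n2u : D k c s (n + 2) (u : ℂ) ≠ 0 := norm_pos_iff.mp (by linarith)
  have n3t : D k c s (n + 3) (t : ℂ) ≠ 0 := norm_pos_iff.mp (by linarith)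
  have n3u : D k c s (n + 3) (u : ℂ) ≠ 0 := norm_pos_iff.mp (by linarith)
  have n2t' : D k c (!s) (n' + 2) (t : ℂ) ≠ 0 := norm_pos_iff.mp (by linarith)
  have n2u' : D k c (!s) (n' + 2) (u : ℂ) ≠ 0 := norm_pos_iff.mp (by linarith)
  have n3t' : D k c (!s) (n' + 3) (t : ℂ) ≠ 0 := norm_pos_iff.mp (by linarith)
  have n3u' : D k c (!s) (n' + 3) (u : ℂ) ≠ 0 := norm_pos_iff.mp (by linarith)
  have ct2 := cont_succ (k := k) (c := c) (s := s) (n := n + 1) (n' := n' + 1) (z := (t : ℂ))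
    (nz t G.ht) n2t (nz' t G.ht) n2t'
  have cu2 := cont_succ (k := k) (c := c) (s := s) (n := n + 1) (n' := n' + 1) (z := (u : ℂ))
    (nz u G.hu) n2u (nz' u G.hu) n2u'
  have ct3 := cont_succ (k := k) (c := c) (s := s) (n := n + 2) (n' := n' + 2) (z := (t : ℂ))
    n2t n3t n2t' n3t'
  have cu3 := cont_succ (k := k) (c := c) (s := s) (n := n + 2) (n' := n' + 2) (z := (u : ℂ))
    n2u n3u n2u' n3u'
  -- the old content
  set A : ℝ := 2 * Real.pi * k * R ^ 2 with hA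
  have hA0 : 0 < A := by positivity
  have dcont : A * ‖cont k c s (n + 1) (n' + 1) (t : ℂ) - cont k c s (n + 1) (n' + 1) (u : ℂ)‖ ≤
      10 * e ^ 4 := by
    have h1 := lip (f := fun z => (A : ℂ) * cont k c s (n + 1) (n' + 1) z -
        (q0 + q1 * ((R : ℂ) * (z - m)) + q2 * ((R : ℂ) * (z - m)) ^ 2)) hR (E := 1 / 16) (by
      intro z hz
      have a1 : D k c s (n + 1) z ≠ 0 :=
        norm_pos_iff.mp (by have := G.toSide.Q1_ge hz; linarith)
      have a2 : D k c (!s) (n' + 1) z ≠ 0 :=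
        norm_pos_iff.mp (by have := G'.toSide.Q1_ge hz; linarith)
      have a3 : DifferentiableAt ℂ (fun z => cont k c s (n + 1) (n' + 1) z) z :=
        ((differentiableAt_const _).sub (differentiableAt_mu k c s (n + 1) a1)).sub
          (differentiableAt_mu k c (!s) (n' + 1) a2)
      refine (a3.const_mul _).sub ?_
      fun_prop) quad (norm_real G.ht) (norm_real G.hu)
    have hn : ‖(t : ℂ) - (u : ℂ)‖ = |t - u| := by
      rw [← Complex.ofReal_sub, Complex.norm_real, Real.norm_eq_abs]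
    rw [hn] at h1
    set ct := cont k c s (n + 1) (n' + 1) (t : ℂ) with hct
    set cu := cont k c s (n + 1) (n' + 1) (u : ℂ) with hcu
    set x : ℝ := R * (t - m) with hx
    set v : ℝ := R * (u - m) with hv
    have e1 : (A : ℂ) * ct - (q0 + q1 * ((R : ℂ) * ((t : ℂ) - m)) + q2 * ((R : ℂ) * ((t : ℂ) - m)) ^ 2) -
        ((A : ℂ) * cu - (q0 + q1 * ((R : ℂ) * ((u : ℂ) - m)) + q2 * ((R : ℂ) * ((u : ℂ) - m)) ^ 2)) =
        (A : ℂ) * (ct - cu) - ((q1 * (x - v) + q2 * ((x + v) * (x - v)) : ℝ) : ℂ) := by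
      rw [hx, hv]; push_cast; ring
    rw [e1] at h1
    have h2 := norm_sub_norm_le ((A : ℂ) * (ct - cu)) ((q1 * (x - v) + q2 * ((x + v) * (x - v)) : ℝ) : ℂ)
    rw [norm_mul, Complex.norm_real, Complex.norm_real, Real.norm_eq_abs, Real.norm_eq_abs,
      abs_of_pos hA0] at h2
    have hxv : |x - v| ≤ e ^ 6 := by
      have : x - v = R * (t - u) := by rw [hx, hv]; ring
      rw [this, abs_mul, abs_of_pos hR]
      exact G.htu
    have hxa : |x| ≤ 3 := by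
      rw [hx, abs_mul, abs_of_pos hR]
      have := mul_le_mul_of_nonneg_left G.ht hR.le
      rwa [mul_div_cancel₀ _ hR.ne'] at this
    have hva : |v| ≤ 3 := by
      rw [hv, abs_mul, abs_of_pos hR]
      have := mul_le_mul_of_nonneg_left G.hu hR.le
      rwa [mul_div_cancel₀ _ hR.ne'] at this
    have h3 : |q1 * (x - v) + q2 * ((x + v) * (x - v))| ≤ k ^ 2 * (6 * e ^ 6) := by
      refine (abs_add_le _ _).trans ?_
      rw [abs_mul, abs_mul, abs_mul]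
      have i1 : |x + v| ≤ 6 := (abs_add_le _ _).trans (by linarith)
      have i2 : |x + v| * |x - v| ≤ 6 * e ^ 6 := mul_le_mul i1 hxv (abs_nonneg _) (by norm_num)
      have i3 : |q1| * |x - v| ≤ |q1| * (6 * e ^ 6) := by
        apply mul_le_mul_of_nonneg_left _ (abs_nonneg _)
        have : 0 < e ^ 6 := by positivity
        linarith
      have i4 := mul_le_mul_of_nonneg_left i2 (abs_nonneg q2)
      have i5 : (|q1| + |q2|) * (6 * e ^ 6) ≤ k ^ 2 * (6 * e ^ 6) := by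
        apply mul_le_mul_of_nonneg_right _ (by positivity)
        have := abs_nonneg q0
        linarith
      linarith
    have h4 : k ^ 2 * (6 * e ^ 6) = 6 * e ^ 4 := by
      have : k ^ 2 * (6 * e ^ 6) = 6 * ((k * e) * (k * e) * e ^ 4) := by ring
      rw [this, hke]; ring
    have h5 : 2 * R * (1 / 16) * |t - u| ≤ e ^ 6 := by
      have := G.htu
      have h0 : 0 ≤ R * |t - u| := by positivity
      linarith
    have h6 : e ^ 6 ≤ e ^ 4 := by
      have : e ^ 6 = e ^ 4 * (e * e) := by ring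
      rw [this]
      have : e * e ≤ 1 := by nlinarith
      nlinarith [pow_pos he 4]
    have h7 : 0 < e ^ 4 := by positivity
    linarith
  have t1 := G.T1
  have t1' := G'.T1
  have t2 := G.T2
  have t2' := G'.T2
  set dT1 := 1 / (D k c s (n + 1) (t : ℂ) * D k c s (n + 2) (t : ℂ)) -
      1 / (D k c s (n + 1) (u : ℂ) * D k c s (n + 2) (u : ℂ)) with hdT1
  set dT1' := 1 / (D k c (!s) (n' + 1) (t : ℂ) * D k c (!s) (n' + 2) (t : ℂ)) -
      1 / (D k c (!s) (n' + 1) (u : ℂ) * D k c (!s) (n' + 2) (u : ℂ)) with hdT1'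
  set dT2 := 1 / (D k c s (n + 2) (t : ℂ) * D k c s (n + 3) (t : ℂ)) -
      1 / (D k c s (n + 2) (u : ℂ) * D k c s (n + 3) (u : ℂ)) with hdT2
  set dT2' := 1 / (D k c (!s) (n' + 2) (t : ℂ) * D k c (!s) (n' + 3) (t : ℂ)) -
      1 / (D k c (!s) (n' + 2) (u : ℂ) * D k c (!s) (n' + 3) (u : ℂ)) with hdT2'
  set dc := cont k c s (n + 1) (n' + 1) (t : ℂ) - cont k c s (n + 1) (n' + 1) (u : ℂ) with hdc
  have E2 : cont k c s (n + 2) (n' + 2) (t : ℂ) = cont k c s (n + 2) (n' + 2) (u : ℂ) + dc - dT1 - dT1' := by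
    rw [ct2, cu2, hdT1, hdT1', hdc]; ring
  have E3 : cont k c s (n + 3) (n' + 3) (t : ℂ) =
      cont k c s (n + 3) (n' + 3) (u : ℂ) + dc - dT1 - dT1' - dT2 - dT2' := by
    rw [ct3, cu3, E2, hdT2, hdT2']; ring
  have hpw := Side.epw G.toSide
  constructor
  · rw [E2]
    refine (mul_le_mul_of_nonneg_left ((norm_sub_le _ _).trans (add_le_add_left
      ((norm_sub_le _ _).trans (add_le_add_left (norm_add_le _ _) _)) _)) hA0.le).trans ?_
    exact num1 hk hR he hke hpw hRρ al1 dcont t1 t1'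
  · rw [E3]
    refine (mul_le_mul_of_nonneg_left (?_ : _ ≤ ‖cont k c s (n + 3) (n' + 3) (u : ℂ)‖ + ‖dc‖ + ‖dT1‖ +
      ‖dT1'‖ + ‖dT2‖ + ‖dT2'‖) (by positivity)).trans ?_
    · refine (norm_sub_le _ _).trans (add_le_add_left ?_ _)
      refine (norm_sub_le _ _).trans (add_le_add_left ?_ _)
      refine (norm_sub_le _ _).trans (add_le_add_left ?_ _)
      refine (norm_sub_le _ _).trans (add_le_add_left ?_ _)
      exact norm_add_le _ _
    · exact num2 hk hR hρ' he hke hpw (by linarith) (by linarith) (norm_nonneg _) (norm_nonneg _)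
        G.q_le G'.q_le (G.toSide.Q2_le G.ht) (G'.toSide.Q2_le G.ht) (norm_nonneg _) (norm_nonneg _)
        (norm_nonneg _) (norm_nonneg _) (norm_nonneg _) (norm_nonneg _) al2 dcont t1 t1' t2 t2'

/-- a good point: the quadratic polynomial is at most `9 k` there -/
theorem quad_le {q0 q1 q2 : ℝ} (G : Reg k e c s n m R R u u)
    (G' : Reg k e c (!s) n' m R ρ' u u) (hRρ : R ≤ ρ')
    (quad : ∀ z ∈ ball (m : ℂ) (4 / R),
      ‖(2 * Real.pi * k * R ^ 2 : ℝ) * cont k c s (n + 1) (n' + 1) z -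
        (q0 + q1 * ((R : ℂ) * (z - m)) + q2 * ((R : ℂ) * (z - m)) ^ 2)‖ ≤ 1 / 16)
    (al1 : (2 * Real.pi * k * R ^ 2) * ‖cont k c s (n + 2) (n' + 2) u‖ ≤ 1 / 8) :
    |q0 + q1 * (R * (u - m)) + q2 * (R * (u - m)) ^ 2| ≤ 9 * k := by
  have hk : 10 ^ 20 ≤ k := G.hk
  have hR := G.hR
  have hρ' := G'.hρ
  have hpi := Real.pi_pos
  have hpi4 : Real.pi ≤ 4 := Real.pi_le_four
  have z1 := mem_ball_real hR G.hu
  have a1 := G.toSide.Q1_ge z1
  have a1' := G'.toSide.Q1_ge z1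
  have a2 := G.q_ge
  have a2' := G'.q_ge
  have n1 : D k c s (n + 1) (u : ℂ) ≠ 0 := norm_pos_iff.mp (by linarith)
  have n2 : D k c s (n + 2) (u : ℂ) ≠ 0 := norm_pos_iff.mp (by linarith)
  have n1' : D k c (!s) (n' + 1) (u : ℂ) ≠ 0 := norm_pos_iff.mp (by linarith)
  have n2' : D k c (!s) (n' + 2) (u : ℂ) ≠ 0 := norm_pos_iff.mp (by linarith)
  have cu := cont_succ (k := k) (c := c) (s := s) (n := n + 1) (n' := n' + 1) (z := (u : ℂ)) n1 n2 n1' n2'
  have hq := quad _ z1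
  set A : ℝ := 2 * Real.pi * k * R ^ 2 with hA
  have hk0 : 0 < k := by linarith
  have hA0 : 0 < A := by positivity
  set T := 1 / (D k c s (n + 1) (u : ℂ) * D k c s (n + 2) (u : ℂ)) with hT
  set T' := 1 / (D k c (!s) (n' + 1) (u : ℂ) * D k c (!s) (n' + 2) (u : ℂ)) with hT'
  have t1 : ‖T‖ ≤ 1 / (2 * R ^ 2) := by
    rw [hT, norm_div, norm_mul, norm_one]
    apply one_div_le_one_div_of_le (by positivity)
    calc 2 * R ^ 2 = R / 2 * (4 * R) := by ring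
      _ ≤ _ := mul_le_mul a1 a2 (by positivity) (norm_nonneg _)
  have t1' : ‖T'‖ ≤ 1 / (2 * R ^ 2) := by
    rw [hT', norm_div, norm_mul, norm_one]
    apply one_div_le_one_div_of_le (by positivity)
    calc 2 * R ^ 2 ≤ 2 * ρ' ^ 2 := by gcongr
      _ = ρ' / 2 * (4 * ρ') := by ring
      _ ≤ _ := mul_le_mul a1' a2' (by positivity) (norm_nonneg _)
  have hAT : A * (1 / (2 * R ^ 2)) = Real.pi * k := by rw [hA]; field_simp
  have b1 := mul_le_mul_of_nonneg_left t1 hA0.le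
  have b1' := mul_le_mul_of_nonneg_left t1' hA0.le
  rw [hAT] at b1 b1'
  have e1 : cont k c s (n + 1) (n' + 1) (u : ℂ) = cont k c s (n + 2) (n' + 2) (u : ℂ) + T + T' := by
    rw [cu]; ring
  have b2 : ‖cont k c s (n + 1) (n' + 1) (u : ℂ)‖ ≤
      ‖cont k c s (n + 2) (n' + 2) (u : ℂ)‖ + ‖T‖ + ‖T'‖ := by
    rw [e1]
    exact (norm_add_le _ _).trans (add_le_add_left (norm_add_le _ _) _)
  have b3 := mul_le_mul_of_nonneg_left b2 hA0.le
  have e2 : ((q0 : ℂ) + q1 * ((R : ℂ) * ((u : ℂ) - m)) + q2 * ((R : ℂ) * ((u : ℂ) - m)) ^ 2) =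
      ((q0 + q1 * (R * (u - m)) + q2 * (R * (u - m)) ^ 2 : ℝ) : ℂ) := by push_cast; ring
  rw [e2] at hq
  have b4 := norm_sub_norm_le ((q0 + q1 * (R * (u - m)) + q2 * (R * (u - m)) ^ 2 : ℝ) : ℂ)
    ((A : ℂ) * cont k c s (n + 1) (n' + 1) (u : ℂ))
  rw [norm_sub_rev, norm_mul, Complex.norm_real, Complex.norm_real, Real.norm_eq_abs,
    Real.norm_eq_abs, abs_of_pos hA0] at b4
  have b5 : A * (‖cont k c s (n + 2) (n' + 2) (u : ℂ)‖ + ‖T‖ + ‖T'‖) =
    A * ‖cont k c s (n + 2) (n' + 2) (u : ℂ)‖ + A * ‖T‖ + A * ‖T'‖ := by ring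
  have b6 : Real.pi * k ≤ 4 * k := mul_le_mul_of_nonneg_right hpi4 hk0.le
  linarith

/-- a quadratic polynomial which is small at three separated points has small coefficients -/
theorem lagrange {q0 q1 q2 B x y z : ℝ} (hx : |x| ≤ 3) (hy : |y| ≤ 3) (hz : |z| ≤ 3)
    (hxy : 1 / 4 ≤ |x - y|) (hxz : 1 / 4 ≤ |x - z|) (hyz : 1 / 4 ≤ |y - z|)
    (h1 : |q0 + q1 * x + q2 * x ^ 2| ≤ B) (h2 : |q0 + q1 * y + q2 * y ^ 2| ≤ B)
    (h3 : |q0 + q1 * z + q2 * z ^ 2| ≤ B) : |q0| + |q1| + |q2| ≤ 2209 * B := by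
  have d : ∀ a b : ℝ, 1 / 4 ≤ |a - b| → |q0 + q1 * a + q2 * a ^ 2| ≤ B →
      |q0 + q1 * b + q2 * b ^ 2| ≤ B → |q1 + q2 * (a + b)| ≤ 8 * B := by
    intro a b hab ha hb
    have e1 : (q1 + q2 * (a + b)) * (a - b) =
      (q0 + q1 * a + q2 * a ^ 2) - (q0 + q1 * b + q2 * b ^ 2) := by ring
    have e2 : |q1 + q2 * (a + b)| * |a - b| ≤ 2 * B := by
      rw [← abs_mul, e1]
      exact (abs_sub _ _).trans (by linarith)
    have e3 : |q1 + q2 * (a + b)| * (1 / 4) ≤ |q1 + q2 * (a + b)| * |a - b| :=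
      mul_le_mul_of_nonneg_left hab (abs_nonneg _)
    linarith
  have d1 := d x y hxy h1 h2
  have d2 := d x z hxz h1 h3
  have hq2 : |q2| ≤ 64 * B := by
    have e1 : q2 * (y - z) = (q1 + q2 * (x + y)) - (q1 + q2 * (x + z)) := by ring
    have e2 : |q2| * |y - z| ≤ 16 * B := by
      rw [← abs_mul, e1]
      exact (abs_sub _ _).trans (by linarith)
    have e3 : |q2| * (1 / 4) ≤ |q2| * |y - z| := mul_le_mul_of_nonneg_left hyz (abs_nonneg _)
    linarith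
  have hB : 0 ≤ B := (abs_nonneg _).trans h1
  have hq1 : |q1| ≤ 392 * B := by
    have e1 : q1 = (q1 + q2 * (x + y)) - q2 * (x + y) := by ring
    have e2 : |q2 * (x + y)| ≤ 64 * B * 6 := by
      rw [abs_mul]
      exact mul_le_mul hq2 ((abs_add_le _ _).trans (by linarith)) (abs_nonneg _) (by linarith)
    rw [e1]
    exact (abs_sub _ _).trans (by linarith)
  have hq0 : |q0| ≤ 1753 * B := by
    have e1 : q0 = (q0 + q1 * x + q2 * x ^ 2) - (q1 * x + q2 * x ^ 2) := by ring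
    have e2 : |q1 * x| ≤ 392 * B * 3 := by
      rw [abs_mul]; exact mul_le_mul hq1 hx (abs_nonneg _) (by linarith)
    have e3 : |q2 * x ^ 2| ≤ 64 * B * 9 := by
      rw [abs_mul, abs_pow]
      exact mul_le_mul hq2 (by nlinarith [abs_nonneg x]) (by positivity) (by linarith)
    have e4 := abs_add_le (q1 * x) (q2 * x ^ 2)
    rw [e1]
    exact (abs_sub _ _).trans (by linarith)
  linarith

theorem nine_le {k : ℝ} (hk : 10 ^ 20 ≤ k) : 9 ≤ k ^ (2 / 3 : ℝ) := by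
  have h : (27 : ℝ) ^ (2 / 3 : ℝ) = 9 := by
    rw [show (27 : ℝ) = (3 : ℝ) ^ (3 : ℝ) by norm_num, ← Real.rpow_mul (by norm_num)]
    norm_num
  rw [← h]
  exact Real.rpow_le_rpow (by norm_num) (by linarith) (by norm_num)

/-- the two sides of a `Cell3` -/
theorem sides {k c C1 : ℝ} {s : Bool} {n n' : ℕ} {m R lam q0 q1 q2 : ℝ}
    (hk : 10 ^ 20 * (|C1| + 1) ^ 4 ≤ k) (hlam : |lam| ≤ C1 * Real.sqrt k)
    (C : Cell3 k c s n n' m R lam C1 q0 q1 q2) :
    Side k (1 / k) c s n m R R ∧ Side k (1 / k) c (!s) n' m R (|lam| * R) := by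
  have hC := abs_nonneg C1
  have hC1 : (1 : ℝ) ≤ (|C1| + 1) ^ 4 := one_le_pow₀ (by linarith)
  have hk20 : 10 ^ 20 ≤ k := by nlinarith
  have hk0 : 0 < k := by linarith
  have hR : 0 < R := by linarith [C.hR]
  have hl := C.hlam
  set sk := Real.sqrt k with hsk
  have hsk0 : 0 < sk := Real.sqrt_pos.mpr hk0
  have hksk : k = sk * sk := (Real.mul_self_sqrt hk0.le).symm
  have hC0 : 0 < C1 := by
    by_contra h
    push Not at h
    nlinarith
  have hCa : |C1| = C1 := abs_of_pos hC0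
  rw [hCa] at hk hC1
  have hskC : 10 ^ 10 * (C1 + 1) ^ 2 ≤ sk := by
    rw [hsk]
    apply Real.le_sqrt_of_sq_le
    calc (10 ^ 10 * (C1 + 1) ^ 2) ^ 2 = 10 ^ 20 * (C1 + 1) ^ 4 := by ring
      _ ≤ k := hk
  have hsk1 : 10 ^ 10 * C1 ≤ sk := by nlinarith
  have hsk2 : 2 * C1 ^ 2 ≤ sk := by nlinarith
  have hsk3 : 1 ≤ sk := by nlinarith
  have hCk : C1 / k ≤ 1 / 2 := by
    rw [div_le_iff₀ hk0]
    nlinarith
  have hke : k * (1 / k) = 1 := by field_simp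
  constructor
  · refine ⟨hk20, hke, hR, hR, ?_, ?_, ?_⟩
    · have : 1 ≤ k / 10 ^ 10 := by
        rw [le_div_iff₀ (by positivity)]
        linarith
      nlinarith
    · obtain ⟨σ, hσ, h⟩ := C.slow
      refine ⟨σ * R, ?_, fun z hz => (h z hz).trans ?_⟩
      · rcases hσ with rfl | rfl
        · rw [one_mul, abs_of_pos hR]
        · rw [neg_one_mul, abs_neg, abs_of_pos hR]
      · have : C1 * R / k = C1 / k * R := by ring
        rw [this]
        nlinarith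
    · intro z hz
      refine (C.slow0 z hz).trans ?_
      have : C1 * R / k = C1 / k * R := by ring
      rw [this]
      nlinarith
  · have hlR : 0 < |lam| * R := mul_pos (by linarith) hR
    have hCl : C1 * |lam| / k ≤ 1 / 2 := by
      rw [div_le_iff₀ hk0]
      have h1 := mul_le_mul_of_nonneg_left hlam hC0.le
      have h2 := mul_le_mul_of_nonneg_right hsk2 hsk0.le
      rw [hksk]
      nlinarith
    refine ⟨hk20, hke, hR, hlR, ?_, ?_, ?_⟩
    · apply mul_le_mul_of_nonneg_right _ hR.le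
      rw [le_div_iff₀ (by positivity)]
      have h1 := mul_le_mul_of_nonneg_right hsk1 hsk0.le
      have h2 := mul_le_mul_of_nonneg_right hlam (by positivity : (0 : ℝ) ≤ 10 ^ 10)
      nlinarith
    · refine ⟨lam * R, ?_, fun z hz => (C.fast z hz).trans ?_⟩
      · rw [abs_mul, abs_of_pos hR]
      · have : C1 * |lam| ^ 2 * R / k = C1 * |lam| / k * (|lam| * R) := by ring
        rw [this]
        nlinarith
    · intro z hz
      refine (C.fast0 z hz).trans ?_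
      have : C1 * |lam| * R / k = C1 / k * (|lam| * R) := by ring
      rw [this]
      nlinarith

/-- **LocB from RA** -/
theorem locB_of_RA (hRA : RA) : LocB := by
  intro C1
  obtain ⟨c0, hc0, k1, h⟩ := hRA C1
  refine ⟨min c0 1, by positivity, max k1 (10 ^ 20 * (|C1| + 1) ^ 4), ?_⟩
  intro k hk c s n n' m R lam q0 q1 q2 hlam C
  have hk1 : k1 ≤ k := (le_max_left _ _).trans hk
  have hk2 : 10 ^ 20 * (|C1| + 1) ^ 4 ≤ k := (le_max_right _ _).trans hk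
  obtain ⟨S, S'⟩ := sides hk2 hlam C
  have hk20 := S.hk
  have hk0 : 0 < k := by linarith
  have hR := S.hR
  have hRρ : R ≤ |lam| * R := by nlinarith [C.hlam]
  have he6 : 1 / (k ^ 6 * R) ≤ 1 / 8 / R := by
    rw [div_div]
    apply one_div_le_one_div_of_le (by positivity)
    apply mul_le_mul_of_nonneg_right _ hR.le
    calc (8 : ℝ) ≤ k := by linarith
      _ = k ^ 1 := (pow_one k).symm
      _ ≤ k ^ 6 := pow_le_pow_right₀ (by linarith) (by norm_num)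
  have hreg : ∀ t u : ℝ, |t - m| ≤ 3 / R → |u - m| ≤ 3 / R → R * |t - u| ≤ (1 / k) ^ 6 →
      Good3 k c s n n' R u → Reg k (1 / k) c s n m R R t u ∧
        Reg k (1 / k) c (!s) n' m R (|lam| * R) t u := by
    intro t u ht hu htu G
    have h9 := nine_le hk20
    refine ⟨{ S with ht := ht, hu := hu, htu := htu, r1 := h9.trans (G.reg 0 (by norm_num)), r2 := h9.trans (G.reg 1 (by norm_num)) }, { S' with ht := ht, hu := hu, htu := htu, r1 := h9.trans (G.reg' 0 (by norm_num)), r2 := h9.trans (G.reg' 1 (by norm_num)) }⟩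
  rcases le_or_gt (|q0| + |q1| + |q2|) (k ^ 2) with hq | hq
  · -- moderate coefficients
    have h0 := h k hk1 c s n n' m R lam q0 q1 q2 hlam C
    refine (ENNReal.ofReal_le_ofReal ?_).trans (h0.trans (measure_mono ?_))
    · gcongr
      exact min_le_left _ _
    · rintro t ⟨ht, hbad⟩
      refine ⟨ht, fun u hu G => ?_⟩
      have htm : |t - m| ≤ 3 / R := ht.trans (by gcongr; norm_num)
      have hum : |u - m| ≤ 3 / R := by
        have h1 := abs_add_le (u - t) (t - m)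
        rw [sub_add_sub_cancel] at h1
        have h2 : 1 / 8 / R + 2 / R ≤ 3 / R := by
          rw [← add_div]; gcongr; norm_num
        linarith
      have htu : R * |t - u| ≤ (1 / k) ^ 6 := by
        rw [abs_sub_comm]
        have h1 := mul_le_mul_of_nonneg_left hu hR.le
        refine h1.trans (le_of_eq ?_)
        field_simp
      obtain ⟨G1, G2⟩ := hreg t u htm hum htu G
      have := align_of_close G1 G2 hRρ hq C.quad G.al1 G.al2
      rcases hbad with hb | hb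
      · linarith [this.1]
      · linarith [this.2]
  · -- huge coefficients: the good points lie in two small balls
    have key : ∃ u1 u2 : ℝ, ∀ u, |u - m| ≤ 3 / R → Good3 k c s n n' R u →
        |u - u1| ≤ 1 / 4 / R ∨ |u - u2| ≤ 1 / 4 / R := by
      by_contra hcon
      push Not at hcon
      obtain ⟨v1, hv1, g1, -⟩ := hcon 0 0
      obtain ⟨v2, hv2, g2, h21, -⟩ := hcon v1 v1
      obtain ⟨v3, hv3, g3, h31, h32⟩ := hcon v1 v2
      have hx : ∀ v, |v - m| ≤ 3 / R → |R * (v - m)| ≤ 3 := by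
        intro v hv
        rw [abs_mul, abs_of_pos hR]
        have := mul_le_mul_of_nonneg_left hv hR.le
        rwa [mul_div_cancel₀ _ hR.ne'] at this
      have hd : ∀ v w, 1 / 4 / R < |v - w| → 1 / 4 ≤ |R * (v - m) - R * (w - m)| := by
        intro v w hv
        have : R * (v - m) - R * (w - m) = R * (v - w) := by ring
        rw [this, abs_mul, abs_of_pos hR]
        have := mul_le_mul_of_nonneg_left hv.le hR.le
        rwa [mul_div_cancel₀ _ hR.ne'] at this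
      have hqv : ∀ v, |v - m| ≤ 3 / R → Good3 k c s n n' R v →
          |q0 + q1 * (R * (v - m)) + q2 * (R * (v - m)) ^ 2| ≤ 9 * k := by
        intro v hv G
        obtain ⟨G1, G2⟩ := hreg v v hv hv (by rw [sub_self, abs_zero, mul_zero]; positivity) G
        exact quad_le G1 G2 hRρ C.quad G.al1
      have hl := lagrange (hx v2 hv2) (hx v1 hv1) (hx v3 hv3) (hd v2 v1 h21)
        (by rw [abs_sub_comm]; exact hd v3 v2 h32) (by rw [abs_sub_comm]; exact hd v3 v1 h31)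
        (hqv v2 hv2 g2) (hqv v1 hv1 g1) (hqv v3 hv3 g3)
      nlinarith
    obtain ⟨u1, u2, key⟩ := key
    have hsub : Icc (m - 2 / R) (m + 2 / R) \ (Icc (u1 - 3 / 8 / R) (u1 + 3 / 8 / R) ∪
        Icc (u2 - 3 / 8 / R) (u2 + 3 / 8 / R)) ⊆ {t : ℝ | |t - m| ≤ 2 / R ∧
        ∀ u : ℝ, |u - t| ≤ 1 / (k ^ 6 * R) → ¬ Good3 k c s n n' R u} := by
      rintro t ⟨ht, hn⟩
      have ht1 : |t - m| ≤ 2 / R := by
        rw [abs_le]; constructor <;> linarith [ht.1, ht.2]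
      refine ⟨ht1, fun u hu G => hn ?_⟩
      have hum : |u - m| ≤ 3 / R := by
        have h1 := abs_add_le (u - t) (t - m)
        rw [sub_add_sub_cancel] at h1
        have h2 : 1 / 8 / R + 2 / R ≤ 3 / R := by
          rw [← add_div]; gcongr; norm_num
        linarith
      have h3 : 1 / 4 / R + 1 / 8 / R ≤ 3 / 8 / R := by
        rw [← add_div]; gcongr; norm_num
      have h4 := abs_le.mp (hu.trans he6)
      rcases key u hum G with h | h
      · left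
        have h5 := abs_le.mp h
        constructor <;> linarith [h4.1, h4.2, h5.1, h5.2]
      · right
        have h5 := abs_le.mp h
        constructor <;> linarith [h4.1, h4.2, h5.1, h5.2]
    refine le_trans ?_ (measure_mono hsub)
    refine le_trans ?_ le_measure_sdiff
    have hv1 : volume (Icc (m - 2 / R) (m + 2 / R)) = ENNReal.ofReal (4 / R) := by
      rw [Real.volume_Icc]; congr 1; ring
    have hv2 : ∀ v : ℝ, volume (Icc (v - 3 / 8 / R) (v + 3 / 8 / R)) = ENNReal.ofReal (3 / 4 / R) := by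
      intro v
      rw [Real.volume_Icc]; congr 1; ring
    have hv3 : volume (Icc (u1 - 3 / 8 / R) (u1 + 3 / 8 / R) ∪
        Icc (u2 - 3 / 8 / R) (u2 + 3 / 8 / R)) ≤ ENNReal.ofReal (3 / 2 / R) := by
      refine (measure_union_le _ _).trans ?_
      rw [hv2, hv2, ← ENNReal.ofReal_add (by positivity) (by positivity)]
      apply ENNReal.ofReal_le_ofReal
      rw [← add_div]
      gcongr
      norm_num
    calc ENNReal.ofReal (min c0 1 / R) ≤ ENNReal.ofReal (4 / R - 3 / 2 / R) := by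
          apply ENNReal.ofReal_le_ofReal
          rw [← sub_div]
          gcongr
          exact (min_le_right _ _).trans (by norm_num)
      _ = ENNReal.ofReal (4 / R) - ENNReal.ofReal (3 / 2 / R) :=
          ENNReal.ofReal_sub _ (by positivity)
      _ ≤ _ := by rw [hv1]; exact tsub_le_tsub_left hv3 _

end Crest.Agent.R128.LocBX2
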