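import Crest.Agent.R128.SkelMeas
import Crest.Agent.R128.V1
import Crest.Agent.R128.V2Proof
import Crest.Agent.R128.V2L
import Crest.Agent.R128.V4Of
import Crest.Agent.R128.ShxE
import Crest.Agent.R128.CoreAsm
import Crest.Agent.R128.CoreA
import Crest.Agent.R128.VM
import Crest.Agent.R128.V5Fin
import Crest.Agent.R128.LocBX2
import Crest.Agent.R128.RA123
import Crest.Agent.R128.Bridge882C
import Crest.Agent.R128.FinA291

/-!
# Row 128 (S0172): final assembly

V1 (helper337), V2 (helper136), V2L (helper892), V4 (helper287, 815, 756, 163, 516), V6 (helper310,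
744), VM (helper499), V5: final (helper183), LOC (helper284), G measurable (helper365), LocB
(helper197), RA (helper123, 117, 189), bridge (helper882), LocA (helper595, 162, 220, 365).
-/

set_option autoImplicit false

namespace Crest.Agent.R128.Fin291

theorem v4 : Skel.V4 := V4Of.v4_of_core (Core.coreStmt2_of Shx.shadow_stmt CoreA.coh_stmt)

theorem v5 : Skel.V5 := by
  refine V5Fin.v5_final (LocBX2.locB_of_RA RA123.ra) FinA291.locA ?_
  obtain ⟨L1, h⟩ := Bridge882.br_all
  refine ⟨L1, fun L0 hL0 => ?_⟩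
  obtain ⟨X, k₁, h⟩ := h L0 hL0
  exact ⟨86, X, k₁, fun k hk => h k hk⟩

theorem res : Skel.Res :=
  SkelMeas.v6 V1.v1 V2Proof.v2 V2L.v2l v4 v5 VM.vm

end Crest.Agent.R128.Fin291
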