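import Mathlib
import Crest.Agent.R128.BVP5
import Crest.Agent.R128.ValNum

/-!
Row 128, node LAM0-VAL (NUM), part 4: a VALID segment is `BVP.Good`.
-/

set_option autoImplicit false

open Finset

namespace Crest.Agent.R128.Val

open Crest.Agent.R128.TreeSum Crest.Agent.R128.BVP

variable {n L : ℕ} {p q : ℕ → ℝ} {b : ℝ}

/-- **VALID => Good**, with the weights `w = 4 * lw`, `rho = rh`, `C = 1`. -/
theorem Valid.good {f Vd : ℝ → ℝ} {M ε : ℝ} {x : ℕ → ℝ} (hx : Orb n f x)
    (V : Valid b L n (fun m => Vd (x m)) p q) (hM0 : 0 ≤ M) (hM : 96 * M ≤ ε * b ^ 2) :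
    Good n f Vd M 1 ε x p q (fun m => 4 * lw n p q m) (rh n p) where
  orb := hx
  jac := V.J
  wpos := fun m hm => mul_pos (by norm_num) (V.lw_pos (Finset.mem_Icc.mp hm).2)
  hqw := fun m _ => by
    have := V.q_le_lw m
    linarith
  hsw := by
    intro m hm
    have h := V.hsl (M := 4 * M) (ε := ε) (by positivity) (by linarith) hm
    have e : ∑ j ∈ Icc 1 n, |K n p q m j| * M * (4 * lw n p q j) ^ 2 =
        4 * ∑ j ∈ Icc 1 n, |K n p q m j| * (4 * M * lw n p q j) * lw n p q j := by
      rw [Finset.mul_sum]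
      apply Finset.sum_congr rfl
      intro j _
      ring
    rw [e]
    calc _ ≤ 4 * (ε * lw n p q m) := mul_le_mul_of_nonneg_left h (by norm_num)
      _ = _ := by ring
  rpos := fun m hm => V.rh_pos hm
  hprho := fun m hm => V.p_le_rh hm
  hsr := by
    intro m hm
    have h := V.hsr (M := 4 * M) (ε := ε) (by positivity) (by linarith) hm
    have e : ∑ j ∈ Icc 1 n, |K n p q m j| * M * (4 * lw n p q j) * rh n p j =
        ∑ j ∈ Icc 1 n, |K n p q m j| * (4 * M * lw n p q j) * rh n p j := by
      apply Finset.sum_congr rfl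
      intro j _
      ring
    rw [e]
    exact h
  w1 := by
    have hb := V.hb
    have hL := V.hL
    have hLn := V.hLn
    have h1 := V.lamB.c 1 (by norm_num)
    have h2 := V.clean_ex (by omega : 0 < L)
    rw [V.ex_zero, zero_add, zero_add] at h2
    have h3 : b ^ (-ex b p 1) ≤ b ^ (-1 : ℝ) :=
      Real.rpow_le_rpow_of_exponent_le (by linarith) (by linarith)
    have h4 : b ^ (-1 : ℝ) ≤ 1 / 100 := by
      rw [Real.rpow_neg_one, inv_eq_one_div]
      exact one_div_le_one_div_of_le (by norm_num) hb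
    linarith
  rho1 := by
    unfold rh
    rw [one_mul, abs_div, abs_one]
    simp only [le_refl, tsub_eq_zero_of_le]
    rw [W_zero V.J]

end Crest.Agent.R128.Val
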