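import Mathlib
import Crest.Agent.R128.ValGood
import Crest.Agent.R128.BVP8

/-!
Row 128, node V3-CORE-SHADOW: profile of a segment WITHOUT a tip condition at the end
(copy of the first part of helper756's `Val.lean` with the backward solution removed), the forward fundamental
solutions, and the shadowing estimate.
-/

set_option autoImplicit false

open Finset

namespace Crest.Agent.R128.Sh438

open Crest.Agent.R128.TreeSum Crest.Agent.R128.BVP Crest.Agent.R128.Val

variable {n : ℕ} {a p : ℕ → ℝ}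

/-- forward Jacobi field, no backward solution -/
structure JP (n : ℕ) (a p : ℕ → ℝ) : Prop where
  p0 : p 0 = 0
  p1 : p 1 = 1
  hp : ∀ m < n, p (m + 2) = a (m + 1) * p (m + 1) - p m

theorem stp_p (J : JP n a p) {m : ℕ} (hm : m < n) :
    stp (a (m + 1)) (p m, p (m + 1)) = (p (m + 1), p (m + 2)) := by
  unfold stp
  simp only [J.hp m hm]

theorem fld_p (J : JP n a p) : ∀ m ≤ n, fld (fun m => a (m + 1)) (p 0, p 1) m = (p m, p (m + 1)) := by
  intro m
  induction m with
  | zero => intro _; rfl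
  | succ m ih =>
    intro hm
    show stp (a (m + 1)) (fld _ _ m) = _
    rw [ih (by omega), stp_p J (by omega)]

theorem W_succ_le (J : JP n a p) {m : ℕ} (hm : m < n) :
    W p (m + 1) ≤ (|a (m + 1)| + 2) * W p m := by
  have := nn_stp_le (a (m + 1)) (p m, p (m + 1))
  rw [stp_p J hm] at this
  exact this

theorem W_le_succ (J : JP n a p) {m : ℕ} (hm : m < n) :
    W p m ≤ (|a (m + 1)| + 2) * W p (m + 1) := by
  have := nn_le_stp (a (m + 1)) (p m, p (m + 1))
  rw [stp_p J hm] at this
  exact this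

theorem W_zero (J : JP n a p) : W p 0 = 1 := by
  unfold W nn
  rw [J.p0, J.p1]
  simp

theorem W_pos (J : JP n a p) {m : ℕ} (hm : m ≤ n) : 0 < W p m := by
  have h := (fld_isField (fun m => a (m + 1)) (p 0, p 1)).pos (Nat.zero_le m) (by
    rw [fld_p J 0 (Nat.zero_le _)]
    have := W_zero J
    unfold W at this
    rw [this]; norm_num)
  rw [fld_p J m hm] at h
  exact h

structure PV (b : ℝ) (L n : ℕ) (a p : ℕ → ℝ) : Prop where
  J : JP n a p
  hb : 100 ≤ b
  hL : 35 ≤ L
  hLn : L ≤ n
  hLb : 2 * (L : ℝ) ≤ b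
  hA : ∀ m ∈ Icc 1 n, |a m| + 2 ≤ b ^ 2
  hcl : ∀ m ∈ Icc 1 L, 2 * b ≤ |a m|
  V2 : ∀ i j, L ≤ i → i ≤ j → j ≤ n → (N p i) ^ (99 / 100 : ℝ) ≤ N p j
  V3 : ∀ j, L ≤ j → j ≤ n → ∃ i ≤ j, (j : ℝ) ≤ (N p i) ^ (1 / 400 : ℝ)

variable {b : ℝ} {L : ℕ}

theorem PV.ratio (V : PV b L n a p) : ∀ m ≤ L, b * |p m| ≤ |p (m + 1)| := by
  intro m
  induction m with
  | zero => intro _; rw [V.J.p0]; simp
  | succ m ih =>
    intro hm
    have h1 := ih (by omega)
    have h2 := V.J.hp m (by have := V.hLn; omega)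
    have h3 := V.hcl (m + 1) (Finset.mem_Icc.mpr ⟨by omega, hm⟩)
    have hb := V.hb
    show b * |p (m + 1)| ≤ |p (m + 2)|
    rw [h2]
    have h4 : |a (m + 1)| * |p (m + 1)| - |p m| ≤ |a (m + 1) * p (m + 1) - p m| := by
      rw [← abs_mul]
      exact abs_sub_abs_le_abs_sub _ _
    have h5 : |p m| ≤ |p (m + 1)| := by
      have := abs_nonneg (p m)
      nlinarith
    have h6 := abs_nonneg (p (m + 1))
    nlinarith

/-- clean step -/
theorem PV.cleanstep (V : PV b L n a p) {m : ℕ} (hm : m < L) :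
    (|a (m + 1)| + 2) * W p m ≤ 5 / 4 * W p (m + 1) := by
  have h1 := V.ratio m hm.le
  have h2 := V.J.hp m (by have := V.hLn; omega)
  have h3 := V.hcl (m + 1) (Finset.mem_Icc.mpr ⟨by omega, by omega⟩)
  have hb := V.hb
  have h4 : |a (m + 1)| * |p (m + 1)| - |p m| ≤ |a (m + 1) * p (m + 1) - p m| := by
    rw [← abs_mul]
    exact abs_sub_abs_le_abs_sub _ _
  rw [← h2] at h4
  have h5 : 100 * |p m| ≤ |p (m + 1)| := by
    have := abs_nonneg (p m)
    nlinarith
  have h6 := abs_nonneg (p (m + 1))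
  have h7 := W_le_add p m
  have h8 : |p (m + 2)| ≤ W p (m + 1) := abs_succ_le_W p (m + 1)
  have h9 : 0 ≤ |a (m + 1)| := abs_nonneg _
  have h10 : (|a (m + 1)| + 2) * W p m ≤ (|a (m + 1)| + 2) * (101 / 100 * |p (m + 1)|) := by
    apply mul_le_mul_of_nonneg_left _ (by linarith)
    linarith
  have h11 : 200 * |p (m + 1)| ≤ |a (m + 1)| * |p (m + 1)| := by
    apply mul_le_mul_of_nonneg_right _ h6
    linarith
  nlinarith

theorem PV.W_eq (V : PV b L n a p) {m : ℕ} (hm : m ≤ n) : W p m = b ^ ex b p m := by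
  have hb := V.hb
  unfold ex
  rw [Real.rpow_logb (by linarith) (by linarith) (W_pos V.J hm)]

theorem PV.ex_le (V : PV b L n a p) {i j : ℕ} {x : ℝ} (hi : i ≤ n) (hj : j ≤ n)
    (h : W p i ≤ b ^ x * W p j) : ex b p i ≤ x + ex b p j := by
  have hb := V.hb
  rw [V.W_eq hi, V.W_eq hj, ← Real.rpow_add (by linarith)] at h
  exact (Real.rpow_le_rpow_left_iff (by linarith)).mp h

theorem PV.clean_ex (V : PV b L n a p) {m : ℕ} (hm : m < L) :
    ex b p m + 1 ≤ ex b p (m + 1) := by
  have hb := V.hb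
  have hLn := V.hLn
  have h1 := V.cleanstep hm
  have h3 := V.hcl (m + 1) (Finset.mem_Icc.mpr ⟨by omega, by omega⟩)
  have h4 : W p m ≤ b ^ (-1 : ℝ) * W p (m + 1) := by
    have hW := W_nonneg p m
    have h5 : b * W p m ≤ W p (m + 1) := by nlinarith
    rw [Real.rpow_neg_one, inv_mul_eq_div, le_div_iff₀ (by linarith)]
    linarith
  have := V.ex_le (by omega) (by omega) h4
  linarith

theorem PV.ex_zero (V : PV b L n a p) : ex b p 0 = 0 := by
  unfold ex
  rw [W_zero V.J, Real.logb_one]

theorem PV.clean_mono (V : PV b L n a p) {i j : ℕ} (hij : i ≤ j) (hj : j ≤ L) :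
    ex b p i ≤ ex b p j := by
  induction j, hij using Nat.le_induction with
  | base => exact le_rfl
  | succ j hij ih =>
    have := ih (by omega)
    have := V.clean_ex (by omega : j < L)
    linarith

theorem PV.ex_nonneg_clean (V : PV b L n a p) {m : ℕ} (hm : m ≤ L) : 0 ≤ ex b p m := by
  have := V.clean_mono (Nat.zero_le m) hm
  rwa [V.ex_zero] at this

theorem PV.v2 (V : PV b L n a p) : ∀ i j, i ≤ j → j ≤ n →
    99 / 100 * ex b p i - 1 / 10 ≤ ex b p j := by
  have hb := V.hb
  have hb0 : 0 < b := by linarith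
  have hLn := V.hLn
  have key : ∀ i j, L ≤ i → i ≤ j → j ≤ n → 99 / 100 * ex b p i - 1 / 10 ≤ ex b p j := by
    intro i j hi hij hj
    have h1 := V.V2 i j hi hij hj
    have h2 := N_le_W p j
    have h3 := W_le_N p i
    have h4 : (3 / 2 : ℝ) ≤ b ^ (1 / 10 : ℝ) := by
      have h5 : ((3 / 2 : ℝ) ^ (10 : ℕ)) ^ (1 / 10 : ℝ) ≤ b ^ (1 / 10 : ℝ) := by
        apply Real.rpow_le_rpow (by positivity) _ (by norm_num)
        norm_num
        linarith
      have h6 : ((3 / 2 : ℝ) ^ (10 : ℕ)) ^ (1 / 10 : ℝ) = 3 / 2 := by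
        rw [← Real.rpow_natCast, ← Real.rpow_mul (by norm_num)]
        norm_num
      linarith
    have h7 : b ^ (ex b p i - 1 / 10) ≤ N p i := by
      rw [Real.rpow_sub hb0, ← V.W_eq (by omega), div_le_iff₀ (Real.rpow_pos_of_pos hb0 _)]
      calc W p i ≤ 3 / 2 * N p i := h3
        _ ≤ b ^ (1 / 10 : ℝ) * N p i := mul_le_mul_of_nonneg_right h4 (N_nonneg p i)
        _ = _ := mul_comm _ _
    have h8 : (b ^ (ex b p i - 1 / 10)) ^ (99 / 100 : ℝ) ≤ b ^ ex b p j := by
      rw [← V.W_eq hj]
      exact (Real.rpow_le_rpow (Real.rpow_nonneg hb0.le _) h7 (by norm_num)).trans (h1.trans h2)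
    rw [← Real.rpow_mul hb0.le] at h8
    have h9 := (Real.rpow_le_rpow_left_iff (by linarith)).mp h8
    linarith
  intro i j hij hj
  rcases Nat.lt_or_ge i L with hi | hi
  · rcases Nat.lt_or_ge j L with hj' | hj'
    · have := V.clean_mono hij hj'.le
      have := V.ex_nonneg_clean hi.le
      linarith
    · have h1 := key L j le_rfl hj' hj
      have h2 := V.clean_mono hi.le le_rfl
      linarith
  · exact key i j hi hij hj

theorem PV.v3 (V : PV b L n a p) :
    ∑ j ∈ range (n + 1), b ^ (-(1 / 100 * ex b p j)) ≤ b := by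
  have hb := V.hb
  have hb0 : 0 < b := by linarith
  have hLn := V.hLn
  have hLb := V.hLb
  have hL := V.hL
  have hpt : ∀ j ∈ range (n + 1), b ^ (-(1 / 100 * ex b p j)) ≤
      (if j < L then 1 else 0) + b * (if L ≤ j then ((j : ℝ) ^ 2)⁻¹ else 0) := by
    intro j hj
    rw [Finset.mem_range] at hj
    rcases Nat.lt_or_ge j L with h | h
    · rw [if_pos h, if_neg (by omega)]
      have h1 := V.ex_nonneg_clean h.le
      have h2 : b ^ (-(1 / 100 * ex b p j)) ≤ 1 :=
        Real.rpow_le_one_of_one_le_of_nonpos (by linarith) (by linarith)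
      linarith
    · rw [if_neg (by omega), if_pos h, zero_add]
      obtain ⟨i, hij, hi⟩ := V.V3 j h (by omega)
      have h1 := V.v2 i j hij (by omega)
      have h2 : (j : ℝ) ≤ b ^ (1 / 400 * ex b p i) := by
        refine hi.trans ?_
        have h3 : (N p i) ^ (1 / 400 : ℝ) ≤ (W p i) ^ (1 / 400 : ℝ) :=
          Real.rpow_le_rpow (N_nonneg p i) (N_le_W p i) (by norm_num)
        refine h3.trans ?_
        rw [V.W_eq (by omega), ← Real.rpow_mul hb0.le]
        apply Real.rpow_le_rpow_of_exponent_le (by linarith)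
        linarith
      have hj0 : (0 : ℝ) < (j : ℝ) := by
        have : 0 < j := by omega
        exact_mod_cast this
      have h4 : (j : ℝ) ^ 2 ≤ b ^ (1 / 200 * ex b p i) := by
        have h5 : (j : ℝ) ^ 2 ≤ (b ^ (1 / 400 * ex b p i)) ^ 2 := pow_le_pow_left₀ hj0.le h2 2
        refine h5.trans ?_
        rw [← Real.rpow_natCast, ← Real.rpow_mul hb0.le]
        apply Real.rpow_le_rpow_of_exponent_le (by linarith)
        push_cast
        linarith
      have h6 : b ^ (-(1 / 100 * ex b p j)) * (j : ℝ) ^ 2 ≤ b := by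
        calc b ^ (-(1 / 100 * ex b p j)) * (j : ℝ) ^ 2
            ≤ b ^ (-(1 / 100 * ex b p j)) * b ^ (1 / 200 * ex b p i) := by gcongr
          _ = b ^ (-(1 / 100 * ex b p j) + 1 / 200 * ex b p i) := by rw [← Real.rpow_add hb0]
          _ ≤ b ^ (1 : ℝ) := by
            apply Real.rpow_le_rpow_of_exponent_le (by linarith)
            have h7 : 0 ≤ ex b p i := by
              have h8 : (1 : ℝ) ≤ b ^ (1 / 400 * ex b p i) := by
                refine le_trans ?_ h2
                have : 1 ≤ j := by omega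
                exact_mod_cast this
              have h9 : (b : ℝ) ^ (0 : ℝ) ≤ b ^ (1 / 400 * ex b p i) := by
                rw [Real.rpow_zero]; exact h8
              have := (Real.rpow_le_rpow_left_iff (by linarith)).mp h9
              linarith
            linarith
          _ = b := Real.rpow_one b
      rw [← div_eq_mul_inv, le_div_iff₀ (by positivity)]
      exact h6
  refine (Finset.sum_le_sum hpt).trans ?_
  rw [Finset.sum_add_distrib, ← Finset.mul_sum]
  have s1 : ∑ j ∈ range (n + 1), (if j < L then (1 : ℝ) else 0) ≤ L := by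
    rw [← Finset.sum_filter, Finset.sum_const, nsmul_eq_mul, mul_one]
    have : ((range (n + 1)).filter (fun j => j < L)).card ≤ L := by
      calc ((range (n + 1)).filter (fun j => j < L)).card ≤ (range L).card := by
            apply Finset.card_le_card
            intro j hj
            rw [Finset.mem_filter] at hj
            rw [Finset.mem_range]
            exact hj.2
        _ = L := Finset.card_range L
    exact_mod_cast this
  have s2 : ∑ j ∈ range (n + 1), (if L ≤ j then ((j : ℝ) ^ 2)⁻¹ else 0) ≤ 1 / 2 := by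
    rw [← Finset.sum_filter]
    have h1 : (range (n + 1)).filter (fun j => L ≤ j) = Ioo (L - 1) (n + 1) := by
      ext j
      simp only [Finset.mem_filter, Finset.mem_range, Finset.mem_Ioo]
      omega
    rw [h1]
    have h2 := sum_Ioo_inv_sq_le (α := ℝ) (L - 1) (n + 1)
    refine h2.trans ?_
    rw [div_le_div_iff₀ (by positivity) (by norm_num)]
    have : (35 : ℝ) ≤ (L : ℝ) := by exact_mod_cast hL
    have h3 : ((L - 1 : ℕ) : ℝ) = (L : ℝ) - 1 := by
      rw [Nat.cast_sub (by omega)]; simp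
    rw [h3]
    linarith
  nlinarith

theorem PV.expo (V : PV b L n a p) : Expo b n (ex b p) where
  hb := by linarith [V.hb]
  hn := V.hL.trans V.hLn
  u0 := V.ex_zero
  up := by
    intro m hm
    have hb := V.hb
    have h1 := W_succ_le V.J hm
    have h2 := V.hA (m + 1) (Finset.mem_Icc.mpr ⟨by omega, by omega⟩)
    have h3 : W p (m + 1) ≤ b ^ (2 : ℝ) * W p m := by
      rw [Real.rpow_two]
      exact h1.trans (mul_le_mul_of_nonneg_right h2 (W_nonneg p m))
    have := V.ex_le (by omega) (by omega) h3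
    linarith
  dn := by
    intro m hm
    have hb := V.hb
    have h1 := W_le_succ V.J hm
    have h2 := V.hA (m + 1) (Finset.mem_Icc.mpr ⟨by omega, by omega⟩)
    have h3 : W p m ≤ b ^ (2 : ℝ) * W p (m + 1) := by
      rw [Real.rpow_two]
      exact h1.trans (mul_le_mul_of_nonneg_right h2 (W_nonneg p (m + 1)))
    have := V.ex_le (by omega) (by omega) h3
    linarith
  cl := fun m hm => V.clean_ex (lt_of_lt_of_le hm V.hL)
  v2 := V.v2
  v3 := V.v3


end Crest.Agent.R128.Sh438
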