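import Mathlib
import Crest.Agent.R128.Sh438A
import Crest.Agent.R128.CoreV

/-!
Row 128, node V3-CORE-SHADOW, part 2: forward fundamental solutions of a segment, abstract perturbation lemma.
-/

set_option autoImplicit false

open Finset

namespace Crest.Agent.R128.Sh438

open Crest.Agent.R128.TreeSum Crest.Agent.R128.BVP Crest.Agent.R128.Val

theorem fundAux_fld (a : ℕ → ℝ) (j i : ℕ) :
    fld (fun t => a (j + t + 1)) (0, 1) i = (fundAux a j i, fundAux a j (i + 1)) := by
  induction i with
  | zero => rfl
  | succ i ih =>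
    show stp _ (fld _ _ i) = _
    rw [ih]
    rfl

theorem JP.shift {N : ℕ} {a p : ℕ → ℝ} (J : JP N a p) (j i : ℕ) (h : j + i ≤ N) :
    fld (fun t => a (j + t + 1)) (p j, p (j + 1)) i = (p (j + i), p (j + i + 1)) := by
  induction i with
  | zero => rfl
  | succ i ih =>
    show stp _ (fld _ _ i) = _
    rw [ih (by omega), stp_p J (by omega)]
    rfl

theorem fund_raw {N : ℕ} {a p : ℕ → ℝ} (J : JP N a p) {j m : ℕ} (hjm : j ≤ m) (hm : m ≤ N) :
    nn (fund a j m, fund a j (m + 1)) ≤
      W p m * (1 / W p j + |p j| * wtt a p j m) + |p j| / W p m := by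
  obtain ⟨i, rfl⟩ := Nat.exists_eq_add_of_le hjm
  set c : ℕ → ℝ := fun t => a (j + t + 1) with hc
  have hw := fld_isField c (p j, p (j + 1))
  have hz := fld_isField c (0, 1)
  have hWj := W_pos J (by omega : j ≤ N)
  have hWm := W_pos J hm
  have e0 : fld c (p j, p (j + 1)) 0 = (p j, p (j + 1)) := rfl
  have ei := J.shift j i hm
  have z0 : fld c (0, 1) 0 = (0, 1) := rfl
  have zi := fundAux_fld a j i
  have h0 : 0 < nn (fld c (p j, p (j + 1)) 0) := by rw [e0]; exact hWj
  have h2 := lam_diff hw hz (Nat.zero_le i) h0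
  have hwt : wt c (fld c (p j, p (j + 1))) 0 i = wtt a p j (j + i) := by
    unfold wt wtt
    rw [Finset.sum_Ico_eq_sum_range, Finset.sum_Ico_eq_sum_range]
    have e1 : i - 0 = j + i - j := by omega
    rw [e1]
    apply Finset.sum_congr rfl
    intro t ht
    rw [Finset.mem_range] at ht
    have e2 := J.shift j (0 + t) (by omega)
    have e3 := J.shift j (0 + t + 1) (by omega)
    rw [e2, e3]
    simp only [hc, zero_add]
    rfl
  have hfund : (fund a j (j + i), fund a j (j + i + 1)) = fld c (0, 1) i := by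
    rw [zi]
    unfold fund
    have t1 : j + i - j = i := by omega
    have t2 : j + i + 1 - j = i + 1 := by omega
    rw [t1, t2]
  have hwr0 : wr (fld c (p j, p (j + 1)) 0) (fld c (0, 1) 0) = p j := by
    rw [e0, z0]; unfold wr; ring
  have hwri : wr (fld c (p j, p (j + 1)) i) (fld c (0, 1) i) = p j := by
    rw [hw.wr_eq hz (Nat.zero_le i), hwr0]
  rw [hwt, hwr0] at h2
  have hl0 : |lam (fld c (p j, p (j + 1)) 0) (fld c (0, 1) 0)| ≤ 1 / W p j := by
    rw [e0, z0]
    unfold lam
    have hd : dt (0, 1) (p j, p (j + 1)) = p (j + 1) := by unfold dt; ring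
    rw [hd]
    show |p (j + 1) / W p j ^ 2| ≤ _
    rw [abs_div, abs_of_pos (by positivity : 0 < W p j ^ 2), div_le_div_iff₀ (by positivity) hWj]
    have := abs_succ_le_W p j
    nlinarith
  have hl : |lam (fld c (p j, p (j + 1)) i) (fld c (0, 1) i)| ≤ 1 / W p j + |p j| * wtt a p j (j + i) := by
    have h7 := abs_add_le (lam (fld c (p j, p (j + 1)) i) (fld c (0, 1) i) -
      lam (fld c (p j, p (j + 1)) 0) (fld c (0, 1) 0)) (lam (fld c (p j, p (j + 1)) 0) (fld c (0, 1) 0))
    rw [sub_add_cancel] at h7
    linarith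
  have h1 := nn_le_lam (fld c (p j, p (j + 1)) i) (fld c (0, 1) i) (by rw [ei]; exact hWm)
  rw [hwri] at h1
  rw [hfund]
  have hWeq : nn (fld c (p j, p (j + 1)) i) = W p (j + i) := by rw [ei]; rfl
  rw [hWeq] at h1
  have h8 := mul_le_mul_of_nonneg_right hl hWm.le
  linarith

/-- abstract perturbation lemma: two orbits `y`, `z` near `x` -/
theorem delta {f Vd : ℝ → ℝ} {M : ℝ} (hM : 0 ≤ M) (hNL : NL f Vd M) {N : ℕ} {x y z p Wt D : ℕ → ℝ}
    {η : ℝ} (hη : η ≤ 1 / 2)
    (hy : ∀ m < N, y (m + 2) + y m = f (y (m + 1))) (hz : ∀ m < N, z (m + 2) + z m = f (z (m + 1)))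
    (h0 : z 0 = y 0)
    (hp0 : p 0 = 0) (hp1 : p 1 = 1) (hp : ∀ m < N, p (m + 2) = Vd (x (m + 1)) * p (m + 1) - p m)
    (hW : ∀ m ≤ N + 1, |p m| ≤ Wt m)
    (hyx : ∀ j ∈ Icc 1 N, |y j - x j| + 2 * |z 1 - y 1| * Wt j ≤ D j)
    (hsum : ∀ m ≤ N + 1, ∑ j ∈ Ico 1 m, |fund (fun i => Vd (x i)) j m| * (M * D j) * Wt j ≤ η * Wt m) :
    ∀ m ≤ N + 1, |z m - y m| ≤ 2 * |z 1 - y 1| * Wt m := by
  classical
  set a : ℕ → ℝ := fun i => Vd (x i) with ha
  have hWt0 : ∀ m ≤ N + 1, 0 ≤ Wt m := fun m hm => (abs_nonneg _).trans (hW m hm)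
  set at' : ℕ → ℝ := fun j => if z j = y j then a j else (f (z j) - f (y j)) / (z j - y j) with hat
  -- the secant field
  set pt : ℕ → ℝ := fun m => fundAux at' 0 m with hpt
  have hpt0 : pt 0 = 0 := rfl
  have hpt1 : pt 1 = 1 := rfl
  have hptr : ∀ m, pt (m + 2) = at' (m + 1) * pt (m + 1) - pt m := by
    intro m
    simp only [hpt]
    show at' (0 + m + 1) * fundAux at' 0 (m + 1) - fundAux at' 0 m = _
    rw [zero_add]
  have hrep : ∀ m, m ≤ N → z m - y m = (z 1 - y 1) * pt m ∧
      z (m + 1) - y (m + 1) = (z 1 - y 1) * pt (m + 1) := by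
    intro m
    induction m with
    | zero =>
      intro _
      rw [h0, hpt0]
      simp [hpt1]
    | succ m ih =>
      intro hm
      obtain ⟨i1, i2⟩ := ih (by omega)
      refine ⟨i2, ?_⟩
      have h1 := hy m (by omega)
      have h2 := hz m (by omega)
      have h3 : f (z (m + 1)) - f (y (m + 1)) = at' (m + 1) * (z (m + 1) - y (m + 1)) := by
        simp only [hat]
        by_cases hc : z (m + 1) = y (m + 1)
        · rw [if_pos hc, hc]; ring
        · rw [if_neg hc]
          have : z (m + 1) - y (m + 1) ≠ 0 := sub_ne_zero.mpr hc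
          field_simp
      show z (m + 2) - y (m + 2) = (z 1 - y 1) * pt (m + 2)
      have h4 : z (m + 2) - y (m + 2) = at' (m + 1) * (z (m + 1) - y (m + 1)) - (z m - y m) := by
        rw [← h3]; linarith
      rw [h4, i1, i2, hptr]
      ring
  intro m
  induction m using Nat.strong_induction_on with
  | _ m ih =>
    intro hm
    rcases Nat.eq_zero_or_pos m with h | hpos
    · subst h
      rw [h0, sub_self, abs_zero]
      have := hWt0 0 (by omega)
      positivity
    · obtain ⟨m', rfl⟩ : ∃ m', m = m' + 1 := ⟨m - 1, by omega⟩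
      have hdiff : ∀ j ∈ Icc 1 m', |at' j - a j| ≤ M * D j := by
        intro j hj
        rw [Finset.mem_Icc] at hj
        have h1 := ih j (by omega) (by omega)
        have h2 := hyx j (Finset.mem_Icc.mpr ⟨hj.1, by omega⟩)
        have hWj := hWt0 j (by omega)
        have hy' : |y j - x j| ≤ D j := by
          have : 0 ≤ 2 * |z 1 - y 1| * Wt j := by positivity
          linarith
        have hz' : |z j - x j| ≤ D j := by
          have := abs_add_le (z j - y j) (y j - x j)
          have e : z j - y j + (y j - x j) = z j - x j := by ring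
          rw [e] at this
          linarith
        simp only [hat]
        by_cases hc : z j = y j
        · rw [if_pos hc, sub_self, abs_zero]
          have := (abs_nonneg _).trans hy'
          positivity
        · rw [if_neg hc]
          have hne : z j - y j ≠ 0 := sub_ne_zero.mpr hc
          have h5 := hNL (x j) (z j - x j) (y j - x j)
          rw [add_sub_cancel, add_sub_cancel] at h5
          have e1 : z j - x j - (y j - x j) = z j - y j := by ring
          rw [e1] at h5
          have e2 : (f (z j) - f (y j)) / (z j - y j) - a j =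
              (f (z j) - f (y j) - Vd (x j) * (z j - y j)) / (z j - y j) := by
            simp only [ha]
            field_simp
          rw [e2, abs_div, div_le_iff₀ (abs_pos.mpr hne)]
          refine h5.trans ?_
          apply mul_le_mul_of_nonneg_right _ (abs_nonneg _)
          apply mul_le_mul_of_nonneg_left _ hM
          exact max_le hz' hy'
      have hfp := field_pert (N := m') (a := a) (a' := at') (p := p) (p' := pt) (W := Wt) hη
        hp0 hp1 (fun i hi => hp i (by omega)) hpt0 hpt1 (fun i _ => hptr i)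
        (fun i hi => hW i (by omega)) (by
          intro i hi
          refine le_trans ?_ (hsum i (by omega))
          apply Finset.sum_le_sum
          intro j hj
          rw [Finset.mem_Ico] at hj
          have h1 := hdiff j (Finset.mem_Icc.mpr ⟨hj.1, by omega⟩)
          have hWj := hWt0 j (by omega)
          apply mul_le_mul_of_nonneg_right _ hWj
          exact mul_le_mul_of_nonneg_left h1 (abs_nonneg _)) (m' + 1) le_rfl
      have hWm := hWt0 (m' + 1) hm
      have hpm := hW (m' + 1) hm
      have h1 : |pt (m' + 1)| ≤ 2 * Wt (m' + 1) := by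
        have := abs_add_le (pt (m' + 1) - p (m' + 1)) (p (m' + 1))
        rw [sub_add_cancel] at this
        nlinarith
      rw [(hrep m' (by omega)).2, abs_mul]
      have := mul_le_mul_of_nonneg_left h1 (abs_nonneg (z 1 - y 1))
      linarith

end Crest.Agent.R128.Sh438
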