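import Mathlib
import Crest.Agent.R128.Sh438B

/-!
Row 128, node V3-CORE-SHADOW, part 3: bounds of the forward fundamental solutions of a segment.
-/

set_option autoImplicit false

open Finset

namespace Crest.Agent.R128.Sh438

open Crest.Agent.R128.TreeSum Crest.Agent.R128.BVP Crest.Agent.R128.Val

variable {b : ℝ} {L e : ℕ} {a p : ℕ → ℝ}

theorem PV.term_le (V : PV b L e a p) {j : ℕ} (hj : j < e) :
    (|a (j + 1)| + 2) / (W p j * W p (j + 1)) ≤ b ^ (4 - 2 * ex b p j) := by
  have hb := V.hb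
  have hb0 : 0 < b := by linarith
  have h1 := W_le_succ V.J hj
  have h2 := V.hA (j + 1) (Finset.mem_Icc.mpr ⟨by omega, by omega⟩)
  have hWj := W_pos V.J hj.le
  have hWj' := W_pos V.J (by omega : j + 1 ≤ e)
  have h3 : 0 ≤ |a (j + 1)| := abs_nonneg _
  have h4 : W p j ≤ b ^ 2 * W p (j + 1) := h1.trans (mul_le_mul_of_nonneg_right h2 hWj'.le)
  have h5 : b ^ (4 - 2 * ex b p j) = b ^ 4 / W p j ^ 2 := by
    rw [Real.rpow_sub hb0, V.W_eq hj.le]
    congr 1
    · exact_mod_cast Real.rpow_natCast b 4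
    · rw [← Real.rpow_natCast (b ^ ex b p j) 2, ← Real.rpow_mul hb0.le]
      congr 1
      push_cast
      ring
  rw [h5, div_le_div_iff₀ (by positivity) (by positivity)]
  calc (|a (j + 1)| + 2) * W p j ^ 2 ≤ b ^ 2 * (W p j * (b ^ 2 * W p (j + 1))) := by
        rw [sq (W p j)]
        gcongr
    _ = b ^ 4 * (W p j * W p (j + 1)) := by ring

theorem rsq {b : ℝ} (hb0 : 0 < b) (x : ℝ) : (b ^ x) ^ 2 = b ^ (2 * x) := by
  rw [← Real.rpow_natCast (b ^ x) 2, ← Real.rpow_mul hb0.le]
  congr 1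
  push_cast
  ring

theorem PV.h35 (V : PV b L e a p) {m : ℕ} (hm : m ≤ 30) : ex b p m + 5 ≤ ex b p 35 := by
  have h2 := V.expo.clean (by omega : m ≤ 35) le_rfl
  have h3 : (5 : ℝ) ≤ ((35 - m : ℕ) : ℝ) := by
    have : 5 ≤ 35 - m := by omega
    exact_mod_cast this
  linarith

theorem PV.u60 (V : PV b L e a p) {m : ℕ} (hm : m ≤ 30) : ex b p m ≤ 60 := by
  have hL := V.hL
  have hLn := V.hLn
  have hum := V.expo.ub (by omega : m ≤ e)
  have : (m : ℝ) ≤ 30 := by exact_mod_cast hm
  linarith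

theorem PV.wtt_small (V : PV b L e a p) {m : ℕ} (hm : m ≤ 30) :
    W p m ^ 2 * wtt a p m e ≤ 5 / 4 * (16 / 15) + 1 / 16 := by
  have hb := V.hb
  have hb0 : 0 < b := by linarith
  have E := V.expo
  have hL := V.hL
  have hLn := V.hLn
  have hWm := W_pos V.J (by omega : m ≤ e)
  have hum60 := V.u60 hm
  have h35 := V.h35 hm
  have hWsq := rsq hb0
  have hpt : ∀ j ∈ Ico m e, W p m ^ 2 * ((|a (j + 1)| + 2) / (W p j * W p (j + 1))) ≤
      5 / 4 * (if m ≤ j then (b⁻¹) ^ (j - m) else 0) +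
        b ^ (-2 : ℝ) * b ^ (-(1 / 100 * ex b p j)) := by
    intro j hj
    rw [Finset.mem_Ico] at hj
    rw [if_pos hj.1]
    have hWj := W_pos V.J hj.2.le
    have hWj' := W_pos V.J (by omega : j + 1 ≤ e)
    rcases Nat.lt_or_ge j 35 with h | h
    · have h2 := V.cleanstep (by omega : j < L)
      have h3 : (|a (j + 1)| + 2) / (W p j * W p (j + 1)) ≤ 5 / 4 / W p j ^ 2 := by
        rw [div_le_div_iff₀ (by positivity) (by positivity)]
        nlinarith
      have h4 : W p m ^ 2 * (5 / 4 / W p j ^ 2) = 5 / 4 * b ^ (2 * ex b p m - 2 * ex b p j) := by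
        rw [Real.rpow_sub hb0, ← hWsq, ← hWsq, ← V.W_eq (by omega), ← V.W_eq (by omega)]
        ring
      have h5 : b ^ (2 * ex b p m - 2 * ex b p j) ≤ (b⁻¹) ^ (j - m) := by
        rw [E.pow_inv]
        apply E.mono
        have h6 := E.clean hj.1 h.le
        have h7 : (0 : ℝ) ≤ ((j - m : ℕ) : ℝ) := Nat.cast_nonneg _
        linarith
      calc W p m ^ 2 * ((|a (j + 1)| + 2) / (W p j * W p (j + 1)))
          ≤ W p m ^ 2 * (5 / 4 / W p j ^ 2) := by gcongr
        _ = 5 / 4 * b ^ (2 * ex b p m - 2 * ex b p j) := h4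
        _ ≤ 5 / 4 * (b⁻¹) ^ (j - m) := by gcongr
        _ ≤ _ := by
          have : 0 ≤ b ^ (-2 : ℝ) * b ^ (-(1 / 100 * ex b p j)) := by positivity
          linarith
    · have h2 := V.term_le hj.2
      have h3 := E.v2 35 j h (by omega)
      have h4 : W p m ^ 2 * b ^ (4 - 2 * ex b p j) ≤ b ^ (-2 : ℝ) * b ^ (-(1 / 100 * ex b p j)) := by
        rw [V.W_eq (by omega), hWsq, ← Real.rpow_add hb0, ← Real.rpow_add hb0]
        apply E.mono
        linarith
      calc W p m ^ 2 * ((|a (j + 1)| + 2) / (W p j * W p (j + 1)))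
          ≤ W p m ^ 2 * b ^ (4 - 2 * ex b p j) := by gcongr
        _ ≤ b ^ (-2 : ℝ) * b ^ (-(1 / 100 * ex b p j)) := h4
        _ ≤ _ := by
          have : 0 ≤ 5 / 4 * (b⁻¹) ^ (j - m) := by positivity
          linarith
  unfold wtt
  rw [Finset.mul_sum]
  refine (Finset.sum_le_sum hpt).trans ?_
  rw [Finset.sum_add_distrib, ← Finset.mul_sum, ← Finset.mul_sum, ← Finset.sum_filter]
  have g1 := geom_le E.hb (Ico m e) m
  have g2 := E.sum_le (Ico m e) (by
    intro j hj
    rw [Finset.mem_Ico] at hj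
    rw [Finset.mem_range]
    omega)
  have g3 : b ^ (-2 : ℝ) * b = b ^ (-1 : ℝ) := by
    conv_lhs => rw [← Real.rpow_one b, ← Real.rpow_mul hb0.le, ← Real.rpow_add hb0]
    norm_num
  have g4 : b ^ (-1 : ℝ) ≤ (1 / 16) ^ 1 := E.small (by norm_num)
  have p2 : 0 ≤ b ^ (-2 : ℝ) := by positivity
  nlinarith [mul_le_mul_of_nonneg_left g2 p2]

theorem PV.wtt_g (V : PV b L e a p) {m : ℕ} (hm : m ≤ e) :
    wtt a p m e ≤ b ^ (52 / 10 - 19701 / 10000 * ex b p m) := by
  have hb := V.hb
  have hb0 : 0 < b := by linarith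
  have E := V.expo
  have hpt : ∀ j ∈ Ico m e, (|a (j + 1)| + 2) / (W p j * W p (j + 1)) ≤
      b ^ (42 / 10 - 19701 / 10000 * ex b p m) * b ^ (-(1 / 100 * ex b p j)) := by
    intro j hj
    rw [Finset.mem_Ico] at hj
    refine (V.term_le hj.2).trans ?_
    rw [← Real.rpow_add hb0]
    apply E.mono
    have := E.v2 m j hj.1 (by omega)
    linarith
  unfold wtt
  refine (Finset.sum_le_sum hpt).trans ?_
  rw [← Finset.mul_sum]
  have g2 := E.sum_le (Ico m e) (by
    intro j hj
    rw [Finset.mem_Ico] at hj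
    rw [Finset.mem_range]
    omega)
  calc b ^ (42 / 10 - 19701 / 10000 * ex b p m) * ∑ j ∈ Ico m e, b ^ (-(1 / 100 * ex b p j))
      ≤ b ^ (42 / 10 - 19701 / 10000 * ex b p m) * b := by gcongr
    _ = b ^ (42 / 10 - 19701 / 10000 * ex b p m) * b ^ (1 : ℝ) := by rw [Real.rpow_one]
    _ = b ^ (52 / 10 - 19701 / 10000 * ex b p m) := by
      rw [← Real.rpow_add hb0]
      congr 1
      ring

/-- a segment with one more step -/
structure PX (b : ℝ) (L e : ℕ) (a p : ℕ → ℝ) : Prop where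
  V : PV b L e a p
  J : JP (e + 1) a p
  hA1 : |a (e + 1)| + 2 ≤ b ^ 2

theorem PX.b0 (P : PX b L e a p) : 0 < b := by linarith [P.V.hb]

theorem PX.W_eq (P : PX b L e a p) {m : ℕ} (hm : m ≤ e + 1) : W p m = b ^ ex b p m := by
  have hb := P.V.hb
  unfold ex
  rw [Real.rpow_logb (by linarith) (by linarith) (W_pos P.J hm)]

theorem PX.W_up (P : PX b L e a p) {m : ℕ} (hm : m ≤ e) : W p (m + 1) ≤ b ^ 2 * W p m := by
  have h1 := W_succ_le P.J (by omega : m < e + 1)
  refine h1.trans (mul_le_mul_of_nonneg_right ?_ (W_nonneg p m))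
  rcases Nat.lt_or_ge m e with h | h
  · exact P.V.hA (m + 1) (Finset.mem_Icc.mpr ⟨by omega, by omega⟩)
  · have : m = e := le_antisymm hm h
    rw [this]; exact P.hA1

theorem PX.W_dn (P : PX b L e a p) {m : ℕ} (hm : m ≤ e) : W p m ≤ b ^ 2 * W p (m + 1) := by
  have h1 := W_le_succ P.J (by omega : m < e + 1)
  refine h1.trans (mul_le_mul_of_nonneg_right ?_ (W_nonneg p (m + 1)))
  rcases Nat.lt_or_ge m e with h | h
  · exact P.V.hA (m + 1) (Finset.mem_Icc.mpr ⟨by omega, by omega⟩)
  · have : m = e := le_antisymm hm h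
    rw [this]; exact P.hA1

theorem PX.ex_le (P : PX b L e a p) {i j : ℕ} {x : ℝ} (hi : i ≤ e + 1) (hj : j ≤ e + 1)
    (h : W p i ≤ b ^ x * W p j) : ex b p i ≤ x + ex b p j := by
  have hb := P.V.hb
  rw [P.W_eq hi, P.W_eq hj, ← Real.rpow_add P.b0] at h
  exact (Real.rpow_le_rpow_left_iff (by linarith)).mp h

theorem PX.up (P : PX b L e a p) {m : ℕ} (hm : m ≤ e) : ex b p (m + 1) ≤ 2 + ex b p m :=
  P.ex_le (by omega) (by omega) (by rw [Real.rpow_two]; exact P.W_up hm)

theorem PX.dn (P : PX b L e a p) {m : ℕ} (hm : m ≤ e) : ex b p m ≤ 2 + ex b p (m + 1) :=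
  P.ex_le (by omega) (by omega) (by rw [Real.rpow_two]; exact P.W_dn hm)

theorem PX.v2 (P : PX b L e a p) {i j : ℕ} (hij : i ≤ j) (hi : i ≤ e) (hj : j ≤ e + 1) :
    99 / 100 * ex b p i - 21 / 10 ≤ ex b p j := by
  rcases Nat.lt_or_ge e j with h | h
  · have e1 : j = e + 1 := by omega
    subst e1
    have h1 := P.V.v2 i e hi le_rfl
    have h2 := P.dn le_rfl
    linarith
  · have h1 := P.V.v2 i j hij h
    linarith

theorem PX.nonneg (P : PX b L e a p) {m : ℕ} (hm : m ≤ e + 1) : 0 ≤ ex b p m := by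
  have hL := P.V.hL
  have hLn := P.V.hLn
  rcases Nat.lt_or_ge e m with h | h
  · have e1 : m = e + 1 := by omega
    subst e1
    have h1 := P.V.expo.big (by omega : 30 ≤ e) le_rfl
    have h2 := P.dn le_rfl
    linarith
  · exact P.V.expo.nonneg h

theorem PX.wlast (P : PX b L e a p) :
    (|a (e + 1)| + 2) / (W p e * W p (e + 1)) ≤ b ^ (4 - 2 * ex b p e) := by
  have hb0 := P.b0
  have hWj := W_pos P.J (by omega : e ≤ e + 1)
  have hWj' := W_pos P.J (le_refl (e + 1))
  have h3 : 0 ≤ |a (e + 1)| := abs_nonneg _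
  have h4 := P.W_dn le_rfl
  have h2 := P.hA1
  have h5 : b ^ (4 - 2 * ex b p e) = b ^ 4 / W p e ^ 2 := by
    rw [Real.rpow_sub hb0, P.W_eq (by omega : e ≤ e + 1)]
    congr 1
    · exact_mod_cast Real.rpow_natCast b 4
    · rw [rsq hb0]
  rw [h5, div_le_div_iff₀ (by positivity) (by positivity)]
  calc (|a (e + 1)| + 2) * W p e ^ 2 ≤ b ^ 2 * (W p e * (b ^ 2 * W p (e + 1))) := by
        rw [sq (W p e)]
        gcongr
    _ = b ^ 4 * (W p e * W p (e + 1)) := by ring

theorem wtt_mono (a : ℕ → ℝ) (p : ℕ → ℝ) {j m m' : ℕ} (h : m ≤ m') : wtt a p j m ≤ wtt a p j m' := by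
  unfold wtt
  apply Finset.sum_le_sum_of_subset_of_nonneg
  · intro i hi
    rw [Finset.mem_Ico] at hi ⊢
    omega
  · intro i _ _
    have := W_nonneg p i
    have := W_nonneg p (i + 1)
    positivity

theorem wtt_nonneg (a : ℕ → ℝ) (p : ℕ → ℝ) (j m : ℕ) : 0 ≤ wtt a p j m := by
  unfold wtt
  apply Finset.sum_nonneg
  intro i _
  have := W_nonneg p i
  have := W_nonneg p (i + 1)
  positivity

/-- majorant of the fundamental solutions -/
noncomputable def GG (b : ℝ) (p : ℕ → ℝ) (j : ℕ) : ℝ :=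
  if j ≤ 30 then 4 * b ^ (-ex b p j) else 2 * b ^ (6 - 97 / 100 * ex b p j)

theorem PX.GG_pos (P : PX b L e a p) (j : ℕ) : 0 < GG b p j := by
  have := P.b0
  unfold GG
  split_ifs <;> positivity

theorem PX.key (P : PX b L e a p) {j m : ℕ} (hjm : j ≤ m) (hm : m ≤ e + 1) :
    nn (fund a j m, fund a j (m + 1)) ≤ W p m * GG b p j := by
  have hb := P.V.hb
  have hb0 := P.b0
  have hL := P.V.hL
  have hLn := P.V.hLn
  have hWj := W_pos P.J (by omega : j ≤ e + 1)
  have hWm := W_pos P.J hm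
  have hpj := abs_le_W p j
  have hraw := fund_raw P.J hjm hm
  have hwtt0 := wtt_nonneg a p j m
  have huj := P.nonneg (by omega : j ≤ e + 1)
  -- reduce
  have hred : nn (fund a j m, fund a j (m + 1)) ≤
      W p m * (1 / W p j + W p j * wtt a p j m + W p j / W p m ^ 2) := by
    have h1 : |p j| / W p m ≤ W p m * (W p j / W p m ^ 2) := by
      have : W p m * (W p j / W p m ^ 2) = W p j / W p m := by field_simp
      rw [this]
      gcongr
    have h2 : |p j| * wtt a p j m ≤ W p j * wtt a p j m := mul_le_mul_of_nonneg_right hpj hwtt0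
    have h3 : W p m * (1 / W p j + |p j| * wtt a p j m) ≤ W p m * (1 / W p j + W p j * wtt a p j m) := by
      gcongr
    calc _ ≤ _ := hraw
      _ ≤ W p m * (1 / W p j + W p j * wtt a p j m) + W p m * (W p j / W p m ^ 2) := by linarith
      _ = _ := by ring
  refine hred.trans (mul_le_mul_of_nonneg_left ?_ hWm.le)
  have hinv : 1 / W p j = b ^ (-ex b p j) := by
    rw [Real.rpow_neg hb0.le, ← P.W_eq (by omega), one_div]
  have hWsq := rsq hb0
  have hone : ∀ {x y : ℝ}, x ≤ y → b ^ x ≤ b ^ y := fun h =>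
    Real.rpow_le_rpow_of_exponent_le (by linarith) h
  have hsmall1 : b ^ (-(1 : ℝ)) ≤ 1 / 100 := by
    rw [Real.rpow_neg_one, inv_eq_one_div]
    exact one_div_le_one_div_of_le (by norm_num) hb
  unfold GG
  split_ifs with hj
  · -- clean j
    have hje : j ≤ e := by omega
    have h60 := P.V.u60 hj
    have h35 := P.V.h35 hj
    have hs := P.V.wtt_small hj
    have hlast : W p j ^ 2 * ((|a (e + 1)| + 2) / (W p e * W p (e + 1))) ≤ 1 / 16 := by
      have h1 := P.wlast
      have h2 := P.V.v2 35 e (by omega) le_rfl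
      calc W p j ^ 2 * ((|a (e + 1)| + 2) / (W p e * W p (e + 1)))
          ≤ W p j ^ 2 * b ^ (4 - 2 * ex b p e) := by gcongr
        _ = b ^ (2 * ex b p j + (4 - 2 * ex b p e)) := by
          rw [Real.rpow_add hb0, ← hWsq, ← P.W_eq (by omega)]
        _ ≤ b ^ (-(1 : ℝ)) := by
          apply hone
          linarith
        _ ≤ 1 / 16 := by linarith
    have hwtt : W p j ^ 2 * wtt a p j m ≤ 5 / 4 * (16 / 15) + 1 / 16 + 1 / 16 := by
      have h1 := wtt_mono a p (j := j) hm
      have h2 : wtt a p j (e + 1) = wtt a p j e + (|a (e + 1)| + 2) / (W p e * W p (e + 1)) := by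
        unfold wtt
        rw [Finset.sum_Ico_succ_top hje]
      rw [h2] at h1
      have h3 : W p j ^ 2 * wtt a p j m ≤
          W p j ^ 2 * (wtt a p j e + (|a (e + 1)| + 2) / (W p e * W p (e + 1))) := by gcongr
      linarith
    have hmm : W p j ^ 2 * (1 / W p m ^ 2) ≤ 1 := by
      have hle : ex b p j ≤ ex b p m := by
        rcases Nat.lt_or_ge 35 m with h | h
        · have h1 : 99 / 100 * ex b p 35 - 21 / 10 ≤ ex b p m := P.v2 h.le (by omega) hm
          linarith
        · have := P.V.clean_mono hjm (by omega : m ≤ L)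
          exact this
      have h2 : W p j ≤ W p m := by
        rw [P.W_eq (by omega : j ≤ e + 1), P.W_eq hm]
        exact hone hle
      rw [mul_one_div, div_le_one (by positivity)]
      exact pow_le_pow_left₀ hWj.le h2 2
    rw [← hinv]
    have e1 : 1 / W p j + W p j * wtt a p j m + W p j / W p m ^ 2 =
        (1 + W p j ^ 2 * wtt a p j m + W p j ^ 2 * (1 / W p m ^ 2)) * (1 / W p j) := by
      field_simp
    rw [e1]
    apply mul_le_mul_of_nonneg_right _ (by positivity)
    linarith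
  · -- late j
    push Not at hj
    set T := b ^ (6 - 97 / 100 * ex b p j) with hT
    have hT0 : 0 < T := by positivity
    have hTsmall : ∀ {x : ℝ}, x ≤ 6 - 97 / 100 * ex b p j - 1 → b ^ x ≤ 1 / 100 * T := by
      intro x hx
      calc b ^ x ≤ b ^ (-(1 : ℝ) + (6 - 97 / 100 * ex b p j)) := hone (by linarith)
        _ = b ^ (-(1 : ℝ)) * T := by rw [Real.rpow_add hb0]
        _ ≤ 1 / 100 * T := mul_le_mul_of_nonneg_right hsmall1 hT0.le
    have t1 : 1 / W p j ≤ 1 / 100 * T := by
      rw [hinv]; exact hTsmall (by linarith)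
    rcases Nat.lt_or_ge e j with hje | hje
    · -- j = m = e+1
      have ej : j = e + 1 := by omega
      have em : m = e + 1 := by omega
      subst em
      have h0 : wtt a p j (e + 1) = 0 := by
        unfold wtt; rw [ej, Finset.Ico_self, Finset.sum_empty]
      rw [h0, mul_zero, add_zero]
      have h1 : W p j / W p (e + 1) ^ 2 = 1 / W p j := by
        rw [← ej]; field_simp
      rw [h1]
      linarith
    · have t3 : W p j / W p m ^ 2 ≤ 1 / 100 * T := by
        have h1 := P.v2 hjm hje hm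
        have h2 : W p j / W p m ^ 2 = b ^ (ex b p j - 2 * ex b p m) := by
          rw [Real.rpow_sub hb0, ← hWsq, ← P.W_eq (by omega), ← P.W_eq hm]
        rw [h2]
        apply hTsmall
        linarith
      have t2 : W p j * wtt a p j m ≤ T + 1 / 100 * T := by
        have h1 := wtt_mono a p (j := j) hm
        have h2 : wtt a p j (e + 1) = wtt a p j e + (|a (e + 1)| + 2) / (W p e * W p (e + 1)) := by
          unfold wtt
          rw [Finset.sum_Ico_succ_top hje]
        rw [h2] at h1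
        have h3 := P.V.wtt_g hje
        have h4 := P.wlast
        have h5 := P.V.v2 j e hje le_rfl
        have h6 : W p j * b ^ (52 / 10 - 19701 / 10000 * ex b p j) ≤ T := by
          rw [P.W_eq (by omega : j ≤ e + 1), ← Real.rpow_add hb0]
          apply hone
          linarith
        have h7 : W p j * b ^ (4 - 2 * ex b p e) ≤ 1 / 100 * T := by
          rw [P.W_eq (by omega : j ≤ e + 1), ← Real.rpow_add hb0]
          apply hTsmall
          linarith
        calc W p j * wtt a p j m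
            ≤ W p j * (wtt a p j e + (|a (e + 1)| + 2) / (W p e * W p (e + 1))) := by gcongr
          _ ≤ W p j * (b ^ (52 / 10 - 19701 / 10000 * ex b p j) + b ^ (4 - 2 * ex b p e)) := by gcongr
          _ = W p j * b ^ (52 / 10 - 19701 / 10000 * ex b p j) + W p j * b ^ (4 - 2 * ex b p e) := by ring
          _ ≤ _ := by linarith
      linarith

end Crest.Agent.R128.Sh438
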