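import Mathlib
import Crest.Agent.R128.Sh438C

/-!
Row 128, node V3-CORE-SHADOW, part 4: the numerical sums and the shadowing theorem (abstract form).
-/

set_option autoImplicit false

open Finset

namespace Crest.Agent.R128.Sh438

open Crest.Agent.R128.TreeSum Crest.Agent.R128.BVP Crest.Agent.R128.Val

/-- majorant of `|p m|` -/
noncomputable def Wt (e : ℕ) (p : ℕ → ℝ) (m : ℕ) : ℝ :=
  if m ≤ e + 1 then min (W p (m - 1)) (W p m) else W p (m - 1)

theorem Wt_le_pred (e : ℕ) (p : ℕ → ℝ) (m : ℕ) : Wt e p m ≤ W p (m - 1) := by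
  unfold Wt
  split_ifs
  · exact min_le_left _ _
  · exact le_rfl

theorem Wt_nonneg (e : ℕ) (p : ℕ → ℝ) (m : ℕ) : 0 ≤ Wt e p m := by
  unfold Wt
  split_ifs
  · exact le_min (W_nonneg _ _) (W_nonneg _ _)
  · exact W_nonneg _ _

theorem Wt_le_self {e : ℕ} (p : ℕ → ℝ) {m : ℕ} (hm : m ≤ e + 1) : Wt e p m ≤ W p m := by
  unfold Wt
  rw [if_pos hm]
  exact min_le_right _ _

variable {b : ℝ} {L e : ℕ} {a p : ℕ → ℝ}

theorem PX.abs_le_Wt (P : PX b L e a p) (m : ℕ) : |p m| ≤ Wt e p m := by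
  have h1 : |p m| ≤ W p (m - 1) := by
    rcases Nat.eq_zero_or_pos m with h | h
    · subst h
      rw [P.J.p0, abs_zero]
      exact W_nonneg _ _
    · exact abs_le_W_pred p h
  unfold Wt
  split_ifs
  · exact le_min h1 (abs_le_W p m)
  · exact h1

theorem PX.fund_le (P : PX b L e a p) {j m : ℕ} (hjm : j < m) (hm : m ≤ e + 2) :
    |fund a j m| ≤ GG b p j * Wt e p m := by
  have h2 : |fund a j m| ≤ GG b p j * W p (m - 1) := by
    have h := P.key (by omega : j ≤ m - 1) (by omega)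
    have h1 := abs_snd_le (fund a j (m - 1), fund a j (m - 1 + 1))
    simp only at h1
    rw [Nat.sub_add_cancel (by omega : 1 ≤ m)] at h1 h
    linarith
  unfold Wt
  split_ifs with hc
  · have h := P.key hjm.le hc
    have h1 := abs_fst_le (fund a j m, fund a j (m + 1))
    simp only at h1
    rw [mul_min_of_nonneg _ _ (P.GG_pos j).le]
    exact le_min h2 (by linarith)
  · exact h2

/-- numerical data of a segment -/
structure Num (b : ℝ) (L e n L0 : ℕ) (a p q : ℕ → ℝ) (x M : ℝ) : Prop where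
  P : PX b L e a p
  V0 : Valid b L0 n a p q
  hn : n ≤ e
  hx : 600 ≤ x
  hX : b ^ x ≤ |p (n + 1)|
  hW : ∀ i ≤ e, W p i ≤ b ^ (x + 2)
  hM0 : 0 ≤ M
  hM : 10 ^ 6 * M ≤ b ^ 2

variable {n L0 : ℕ} {q : ℕ → ℝ} {x M : ℝ}

theorem Num.mono (D : Num b L e n L0 a p q x M) {s t : ℝ} (h : s ≤ t) : b ^ s ≤ b ^ t :=
  Real.rpow_le_rpow_of_exponent_le (by linarith [D.P.V.hb]) h

theorem Num.ex_le (D : Num b L e n L0 a p q x M) {i : ℕ} (hi : i ≤ e + 1) : ex b p i ≤ x + 4 := by
  have key : ∀ i ≤ e, ex b p i ≤ x + 2 := by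
    intro i hi
    have h1 := D.hW i hi
    rw [D.P.W_eq (by omega)] at h1
    exact (Real.rpow_le_rpow_left_iff (by linarith [D.P.V.hb])).mp h1
  rcases Nat.lt_or_ge e i with h | h
  · have e1 : i = e + 1 := by omega
    subst e1
    have := D.P.up le_rfl
    have := key e le_rfl
    linarith
  · have := key i h
    linarith

theorem Num.ex_ge (D : Num b L e n L0 a p q x M) {j : ℕ} (hnj : n ≤ j) (hj : j ≤ e + 1) :
    99 / 100 * x - 21 / 10 ≤ ex b p j := by
  have h1 : x ≤ ex b p n := by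
    have h2 : b ^ x ≤ b ^ ex b p n := by
      rw [← D.P.W_eq (by have := D.hn; omega)]
      exact D.hX.trans (abs_succ_le_W p n)
    exact (Real.rpow_le_rpow_left_iff (by linarith [D.P.V.hb])).mp h2
  have h2 := D.P.v2 hnj D.hn hj
  linarith

theorem Num.dur (D : Num b L e n L0 a p q x M) : (e : ℝ) + 2 ≤ b ^ (x / 100) := by
  have hb := D.P.V.hb
  have hb0 := D.P.b0
  have hL := D.P.V.hL
  have hLe := D.P.V.hLn
  have hx := D.hx
  obtain ⟨i, hi, h⟩ := D.P.V.V3 e hLe le_rfl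
  have h1 : N p i ≤ b ^ (x + 2) := (N_le_W p i).trans (D.hW i hi)
  have h2 : (e : ℝ) ≤ b ^ ((x + 2) / 400) := by
    refine h.trans ?_
    have h3 : (N p i) ^ (1 / 400 : ℝ) ≤ (b ^ (x + 2)) ^ (1 / 400 : ℝ) :=
      Real.rpow_le_rpow (N_nonneg p i) h1 (by norm_num)
    refine h3.trans (le_of_eq ?_)
    rw [← Real.rpow_mul hb0.le]
    congr 1
    ring
  have h4 : (35 : ℝ) ≤ (e : ℝ) := by
    have : 35 ≤ e := by omega
    exact_mod_cast this
  calc (e : ℝ) + 2 ≤ b * e := by nlinarith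
    _ ≤ b * b ^ ((x + 2) / 400) := by gcongr
    _ = b ^ (1 + (x + 2) / 400) := by rw [Real.rpow_add hb0, Real.rpow_one]
    _ ≤ b ^ (x / 100) := D.mono (by linarith)

theorem Num.GG_le (D : Num b L e n L0 a p q x M) {j : ℕ} (hj : j ≤ e + 1) :
    GG b p j ≤ b ^ (7 - 97 / 100 * ex b p j) := by
  have hb := D.P.V.hb
  have hb0 := D.P.b0
  have hu := D.P.nonneg hj
  have h4 : (4 : ℝ) ≤ b ^ (1 : ℝ) := by rw [Real.rpow_one]; linarith
  unfold GG
  split_ifs with h
  · calc 4 * b ^ (-ex b p j) ≤ b ^ (1 : ℝ) * b ^ (-ex b p j) := by gcongr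
      _ = b ^ (1 + -ex b p j) := by rw [Real.rpow_add hb0]
      _ ≤ _ := D.mono (by linarith)
  · have h2 : (2 : ℝ) ≤ b ^ (1 : ℝ) := by rw [Real.rpow_one]; linarith
    calc 2 * b ^ (6 - 97 / 100 * ex b p j) ≤ b ^ (1 : ℝ) * b ^ (6 - 97 / 100 * ex b p j) :=
          mul_le_mul_of_nonneg_right h2 (by positivity)
      _ = b ^ (1 + (6 - 97 / 100 * ex b p j)) := by rw [Real.rpow_add hb0]
      _ ≤ _ := D.mono (by linarith)

theorem Num.Wpred_le (D : Num b L e n L0 a p q x M) {j : ℕ} (hj1 : 1 ≤ j) (hj : j ≤ e + 1) :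
    W p (j - 1) ≤ b ^ (2 + ex b p j) := by
  have h := D.P.dn (by omega : j - 1 ≤ e)
  rw [Nat.sub_add_cancel hj1] at h
  rw [D.P.W_eq (by omega : j - 1 ≤ e + 1)]
  exact D.mono h

theorem Num.fund_B (D : Num b L e n L0 a p q x M) {j m : ℕ} (hj : n + 1 ≤ j) (hjm : j ≤ m)
    (hm : m ≤ e + 1 + 1) : |fund a j m| ≤ b ^ (13 + x / 25) := by
  have hb0 := D.P.b0
  have hx := D.hx
  rcases Nat.eq_or_lt_of_le hjm with h | h
  · rw [h, fund_self, abs_zero]
    positivity
  · have h1 := D.P.fund_le h (by omega : m ≤ e + 2)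
    have h2 := D.GG_le (by omega : j ≤ e + 1)
    have h3 := D.ex_ge (by omega : n ≤ j) (by omega)
    have h4 : Wt e p m ≤ b ^ (x + 4) := by
      refine (Wt_le_pred e p m).trans ?_
      rw [D.P.W_eq (by omega)]
      exact D.mono (D.ex_le (by omega))
    calc |fund a j m| ≤ GG b p j * Wt e p m := h1
      _ ≤ b ^ (7 - 97 / 100 * ex b p j) * b ^ (x + 4) := by
        have := D.P.GG_pos j
        have := Wt_nonneg e p m
        gcongr
      _ = b ^ (7 - 97 / 100 * ex b p j + (x + 4)) := by simp only [← Real.rpow_add hb0]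
      _ ≤ _ := D.mono (by linarith)

/-- displacement majorant -/
noncomputable def DD (b x : ℝ) (n : ℕ) (p q : ℕ → ℝ) (j : ℕ) : ℝ :=
  (if j ≤ n then 3 / 2 * lw n p q j else b ^ (14 - 24 / 25 * x)) + 4 * b ^ (-(3 / 2 * x)) * W p (j - 1)

theorem lw_nonneg (n : ℕ) (p q : ℕ → ℝ) (j : ℕ) : 0 ≤ lw n p q j :=
  div_nonneg (W_nonneg q j) (abs_nonneg _)

theorem Num.DD_nonneg (D : Num b L e n L0 a p q x M) (j : ℕ) : 0 ≤ DD b x n p q j := by
  have := D.P.b0
  have := lw_nonneg n p q j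
  have := W_nonneg p (j - 1)
  unfold DD
  split_ifs <;> positivity

theorem Num.sumA (D : Num b L e n L0 a p q x M) :
    ∑ j ∈ Icc 1 n, GG b p j * (3 / 2 * lw n p q j) * W p (j - 1) ≤ 33 * b ^ (-2 : ℝ) := by
  have hb := D.P.V.hb
  have hb0 := D.P.b0
  have hn := D.hn
  have E := D.V0.expo
  have LB := D.V0.lamB
  have G : LamB b n (ex b p) (fun j => GG b p j / 2) := by
    refine ⟨fun m _ => by have := D.P.GG_pos m; positivity, ?_, ?_⟩
    · intro m hm
      simp only [GG]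
      rw [if_pos hm]
      have : 0 < b ^ (-ex b p m) := by positivity
      linarith
    · intro m hm
      have hu := D.P.nonneg (by omega : m ≤ e + 1)
      simp only [GG]
      split_ifs with h
      · have h1 : b ^ (-ex b p m) ≤ b ^ (6 - 97 / 100 * ex b p m) := D.mono (by linarith)
        linarith
      · have : 0 < b ^ (6 - 97 / 100 * ex b p m) := by positivity
        linarith
  have s1 := sum2 E LB
  have s2 := sum2 E G
  have hpt : ∀ j ∈ Icc 1 n, GG b p j * (3 / 2 * lw n p q j) * W p (j - 1) ≤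
      3 / 2 * (lw n p q j ^ 2 * b ^ ex b p (j - 1)) + 3 / 2 * ((GG b p j / 2) ^ 2 * b ^ ex b p (j - 1)) := by
    intro j hj
    rw [Finset.mem_Icc] at hj
    rw [D.P.W_eq (by omega : j - 1 ≤ e + 1)]
    have h1 : 0 < b ^ ex b p (j - 1) := by positivity
    have h2 : GG b p j * (3 / 2 * lw n p q j) ≤ 3 / 2 * (lw n p q j ^ 2) + 3 / 2 * ((GG b p j / 2) ^ 2) := by
      nlinarith [sq_nonneg (lw n p q j - GG b p j / 2)]
    calc _ ≤ (3 / 2 * (lw n p q j ^ 2) + 3 / 2 * ((GG b p j / 2) ^ 2)) * b ^ ex b p (j - 1) :=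
          mul_le_mul_of_nonneg_right h2 h1.le
      _ = _ := by ring
  refine (Finset.sum_le_sum hpt).trans ?_
  rw [Finset.sum_add_distrib, ← Finset.mul_sum, ← Finset.mul_sum]
  linarith

theorem Num.sum_le (D : Num b L e n L0 a p q x M) :
    ∑ j ∈ Icc 1 (e + 1), GG b p j * (M * DD b x n p q j) * W p (j - 1) ≤ 1 / 16 := by
  have hb := D.P.V.hb
  have hb0 := D.P.b0
  have hn := D.hn
  have hx := D.hx
  have hM0 := D.hM0
  have hM := D.hM
  have hfour : (4 : ℝ) ≤ b ^ (1 : ℝ) := by rw [Real.rpow_one]; linarith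
  have hpt : ∀ j ∈ Icc 1 (e + 1), GG b p j * (M * DD b x n p q j) * W p (j - 1) ≤
      M * (if j ≤ n then GG b p j * (3 / 2 * lw n p q j) * W p (j - 1) else 0) +
        M * (2 * b ^ (-6 - x / 100)) := by
    intro j hj
    rw [Finset.mem_Icc] at hj
    have hu := D.ex_le hj.2
    have hu0 := D.P.nonneg hj.2
    have hG := D.GG_le hj.2
    have hW := D.Wpred_le hj.1 hj.2
    have hG0 := (D.P.GG_pos j).le
    have hW0 := W_nonneg p (j - 1)
    have t1 : GG b p j * (4 * b ^ (-(3 / 2 * x)) * W p (j - 1)) * W p (j - 1) ≤ b ^ (-6 - x / 100) := by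
      calc GG b p j * (4 * b ^ (-(3 / 2 * x)) * W p (j - 1)) * W p (j - 1)
          ≤ b ^ (7 - 97 / 100 * ex b p j) * (b ^ (1 : ℝ) * b ^ (-(3 / 2 * x)) * b ^ (2 + ex b p j)) *
            b ^ (2 + ex b p j) := by gcongr
        _ = b ^ (7 - 97 / 100 * ex b p j + (1 + -(3 / 2 * x) + (2 + ex b p j)) + (2 + ex b p j)) := by
          simp only [← Real.rpow_add hb0]
        _ ≤ _ := D.mono (by linarith)
    have t2 : ¬ j ≤ n → GG b p j * b ^ (14 - 24 / 25 * x) * W p (j - 1) ≤ b ^ (-6 - x / 100) := by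
      intro _
      calc GG b p j * b ^ (14 - 24 / 25 * x) * W p (j - 1)
          ≤ b ^ (7 - 97 / 100 * ex b p j) * b ^ (14 - 24 / 25 * x) * b ^ (2 + ex b p j) := by gcongr
        _ = b ^ (7 - 97 / 100 * ex b p j + (14 - 24 / 25 * x) + (2 + ex b p j)) := by
          simp only [← Real.rpow_add hb0]
        _ ≤ _ := D.mono (by linarith)
    have hp6 : 0 < b ^ (-6 - x / 100) := by positivity
    unfold DD
    split_ifs with h
    · have e1 : GG b p j * (M * (3 / 2 * lw n p q j + 4 * b ^ (-(3 / 2 * x)) * W p (j - 1))) * W p (j - 1) =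
        M * (GG b p j * (3 / 2 * lw n p q j) * W p (j - 1)) +
          M * (GG b p j * (4 * b ^ (-(3 / 2 * x)) * W p (j - 1)) * W p (j - 1)) := by ring
      rw [e1]
      have := mul_le_mul_of_nonneg_left t1 hM0
      nlinarith
    · have e1 : GG b p j * (M * (b ^ (14 - 24 / 25 * x) + 4 * b ^ (-(3 / 2 * x)) * W p (j - 1))) * W p (j - 1) =
        M * (GG b p j * b ^ (14 - 24 / 25 * x) * W p (j - 1)) +
          M * (GG b p j * (4 * b ^ (-(3 / 2 * x)) * W p (j - 1)) * W p (j - 1)) := by ring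
      rw [e1, mul_zero, zero_add]
      have h1 := mul_le_mul_of_nonneg_left t1 hM0
      have h2 := mul_le_mul_of_nonneg_left (t2 h) hM0
      linarith
  refine (Finset.sum_le_sum hpt).trans ?_
  rw [Finset.sum_add_distrib, ← Finset.mul_sum, ← Finset.sum_filter]
  have hf : (Icc 1 (e + 1)).filter (fun j => j ≤ n) = Icc 1 n := by
    ext j
    simp only [Finset.mem_filter, Finset.mem_Icc]
    omega
  rw [hf, Finset.sum_const, Nat.card_Icc, nsmul_eq_mul]
  have hA := D.sumA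
  have hd := D.dur
  have e2 : ((e + 1 + 1 - 1 : ℕ) : ℝ) = (e : ℝ) + 1 := by
    rw [Nat.add_sub_cancel]; push_cast; ring
  rw [e2]
  have hb2 : b ^ (-2 : ℝ) = 1 / b ^ 2 := by
    rw [Real.rpow_neg hb0.le, Real.rpow_two, one_div]
  have p2 : 0 < b ^ 2 := by positivity
  have hMb : M * b ^ (-2 : ℝ) ≤ 1 / 10 ^ 6 := by
    rw [hb2, mul_one_div, div_le_div_iff₀ p2 (by norm_num)]
    linarith
  have hA' : M * ∑ j ∈ Icc 1 n, GG b p j * (3 / 2 * lw n p q j) * W p (j - 1) ≤ 33 / 10 ^ 6 := by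
    calc _ ≤ M * (33 * b ^ (-2 : ℝ)) := mul_le_mul_of_nonneg_left hA hM0
      _ = 33 * (M * b ^ (-2 : ℝ)) := by ring
      _ ≤ 33 * (1 / 10 ^ 6) := by linarith
      _ = _ := by norm_num
  have hB' : ((e : ℝ) + 1) * (M * (2 * b ^ (-6 - x / 100))) ≤ 2 / 10 ^ 6 := by
    have h1 : ((e : ℝ) + 1) * b ^ (-6 - x / 100) ≤ b ^ (-2 : ℝ) := by
      calc ((e : ℝ) + 1) * b ^ (-6 - x / 100) ≤ b ^ (x / 100) * b ^ (-6 - x / 100) := by
            gcongr; linarith
        _ = b ^ (x / 100 + (-6 - x / 100)) := by rw [Real.rpow_add hb0]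
        _ ≤ _ := D.mono (by linarith)
    calc ((e : ℝ) + 1) * (M * (2 * b ^ (-6 - x / 100))) = 2 * M * (((e : ℝ) + 1) * b ^ (-6 - x / 100)) := by ring
      _ ≤ 2 * M * b ^ (-2 : ℝ) := by gcongr
      _ = 2 * (M * b ^ (-2 : ℝ)) := by ring
      _ ≤ 2 * (1 / 10 ^ 6) := by linarith
      _ = _ := by norm_num
  norm_num at hA' hB' ⊢
  linarith

theorem Num.hsum (D : Num b L e n L0 a p q x M) {m : ℕ} (hm : m ≤ e + 1 + 1) :
    ∑ j ∈ Ico 1 m, |fund a j m| * (M * DD b x n p q j) * Wt e p j ≤ 1 / 16 * Wt e p m := by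
  have hM0 := D.hM0
  have hWm := Wt_nonneg e p m
  calc ∑ j ∈ Ico 1 m, |fund a j m| * (M * DD b x n p q j) * Wt e p j
      ≤ ∑ j ∈ Ico 1 m, Wt e p m * (GG b p j * (M * DD b x n p q j) * W p (j - 1)) := by
        apply Finset.sum_le_sum
        intro j hj
        rw [Finset.mem_Ico] at hj
        have h1 := D.P.fund_le hj.2 (by omega : m ≤ e + 2)
        have h2 := Wt_le_pred e p j
        have h3 := D.DD_nonneg j
        have h4 := (D.P.GG_pos j).le
        have h5 := Wt_nonneg e p j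
        calc |fund a j m| * (M * DD b x n p q j) * Wt e p j
            ≤ (GG b p j * Wt e p m) * (M * DD b x n p q j) * W p (j - 1) := by gcongr
          _ = _ := by ring
    _ = Wt e p m * ∑ j ∈ Ico 1 m, GG b p j * (M * DD b x n p q j) * W p (j - 1) := by
        rw [Finset.mul_sum]
    _ ≤ Wt e p m * ∑ j ∈ Icc 1 (e + 1), GG b p j * (M * DD b x n p q j) * W p (j - 1) := by
        apply mul_le_mul_of_nonneg_left _ hWm
        apply Finset.sum_le_sum_of_subset_of_nonneg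
        · intro j hj
          rw [Finset.mem_Ico] at hj
          rw [Finset.mem_Icc]
          omega
        · intro j _ _
          have h3 := D.DD_nonneg j
          have h4 := (D.P.GG_pos j).le
          have h5 := W_nonneg p (j - 1)
          positivity
    _ ≤ Wt e p m * (1 / 16) := mul_le_mul_of_nonneg_left D.sum_le hWm
    _ = _ := by ring

end Crest.Agent.R128.Sh438
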