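import Mathlib
import Crest.Agent.R128.Sh438D
import Crest.Agent.R128.CoreI

/-!
Row 128, node V3-CORE-SHADOW, part 5: the shadowing theorem `ShadowStmt` of helper756's interface `CoreI`.
-/

set_option autoImplicit false

open Finset

namespace Crest.Agent.R128.Sh438

open Crest.Agent.R128.TreeSum Crest.Agent.R128.BVP Crest.Agent.R128.Val

variable {b : ℝ} {L e : ℕ} {p : ℕ → ℝ} {n L0 : ℕ} {q : ℕ → ℝ} {x M : ℝ}

theorem shadow_num {f Vd : ℝ → ℝ} (hNL : NL f Vd M) (hlip : ∀ s t, |Vd s - Vd t| ≤ M * |s - t|)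
    {xo y z p' : ℕ → ℝ} (D : Num b L e n L0 (fun m => Vd (xo m)) p q x M)
    (hx : ∀ m, xo (m + 2) + xo m = f (xo (m + 1))) (hy : ∀ m, y (m + 2) + y m = f (y (m + 1)))
    (hz : ∀ m, z (m + 2) + z m = f (z (m + 1)))
    (hyn : y (n + 1) = xo (n + 1)) (hbox : ∀ m ∈ Icc 1 n, |y m - xo m| ≤ 3 / 2 * lw n p q m)
    (h0 : z 0 = y 0) (h1 : |z 1 - y 1| ≤ 2 * b ^ (-(3 / 2 * x)))
    (hp0' : p' 0 = 0) (hp1' : p' 1 = 1) (hp' : ∀ m, p' (m + 2) = Vd (z (m + 1)) * p' (m + 1) - p' m) :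
    (∀ m ≤ e + 1 + 1, |z m - y m| ≤ 2 * |z 1 - y 1| * Wt e p m) ∧
      ∀ m ≤ e + 1, Val.N p m ≤ 2 * Val.N p' m ∧ Val.N p' m ≤ 2 * Val.N p m := by
  have hb := D.P.V.hb
  have hb0 := D.P.b0
  have hn := D.hn
  have hxx := D.hx
  have hM0 := D.hM0
  have hM := D.hM
  have hn35 : 35 ≤ n := D.V0.hL.trans D.V0.hLn
  have hsix : (6 : ℝ) ≤ b ^ (1 : ℝ) := by rw [Real.rpow_one]; linarith
  -- step 1
  have hlwn : lw n p q n ≤ b ^ (-x) := by
    have hWq : W q n = 1 := by
      unfold W nn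
      rw [D.V0.J.qn, D.V0.J.qn1]
      simp
    unfold lw
    rw [hWq, Real.rpow_neg hb0.le, one_div]
    exact inv_anti₀ (by positivity) D.hX
  have hEn : |y n - xo n| ≤ 3 / 2 * b ^ (-x) := by
    have := hbox n (Finset.mem_Icc.mpr ⟨by omega, le_rfl⟩)
    linarith
  have hM2 : M ≤ b ^ (2 : ℝ) := by
    rw [Real.rpow_two]
    have : 0 < b ^ 2 := by positivity
    linarith
  have hdur := D.dur
  have hsmall : 4 * (b ^ (13 + x / 25)) ^ 2 * M * (((e + 1 : ℕ) : ℝ) - (n : ℝ)) * |y n - xo n| ≤ 1 := by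
    have h2 : ((e + 1 : ℕ) : ℝ) - (n : ℝ) ≤ b ^ (x / 100) := by
      push_cast
      have : (0 : ℝ) ≤ (n : ℝ) := Nat.cast_nonneg _
      linarith
    have h3 : (0 : ℝ) ≤ ((e + 1 : ℕ) : ℝ) - (n : ℝ) := by
      have : (n : ℝ) ≤ ((e + 1 : ℕ) : ℝ) := by exact_mod_cast (by omega : n ≤ e + 1)
      linarith
    rw [rsq hb0]
    calc 4 * b ^ (2 * (13 + x / 25)) * M * (((e + 1 : ℕ) : ℝ) - (n : ℝ)) * |y n - xo n|
        ≤ 4 * b ^ (2 * (13 + x / 25)) * b ^ (2 : ℝ) * b ^ (x / 100) * (3 / 2 * b ^ (-x)) := by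
          gcongr
      _ = 6 * (b ^ (2 * (13 + x / 25)) * b ^ (2 : ℝ) * b ^ (x / 100) * b ^ (-x)) := by ring
      _ ≤ b ^ (1 : ℝ) * (b ^ (2 * (13 + x / 25)) * b ^ (2 : ℝ) * b ^ (x / 100) * b ^ (-x)) :=
          mul_le_mul_of_nonneg_right hsix (by positivity)
      _ = b ^ (1 + (2 * (13 + x / 25) + 2 + x / 100 + -x)) := by
          simp only [← Real.rpow_add hb0]
      _ ≤ b ^ (0 : ℝ) := D.mono (by linarith)
      _ = 1 := Real.rpow_zero b
  have hB1 : 1 ≤ b ^ (13 + x / 25) := Real.one_le_rpow (by linarith) (by linarith)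
  have hfwd := fwd (f := f) (V := Vd) (M := M) (B := b ^ (13 + x / 25)) hM0 hNL (s := n) (N := e + 1)
    (x := xo) (z := y) (fun m _ _ => hx m) (fun m _ _ => hy m) hyn hB1
    (fun j m hj hjm hm => D.fund_B hj hjm hm) hsmall
  have hfar : ∀ m, n ≤ m → m ≤ e + 1 + 1 → |y m - xo m| ≤ b ^ (14 - 24 / 25 * x) := by
    intro m hm1 hm2
    calc |y m - xo m| ≤ 2 * b ^ (13 + x / 25) * |y n - xo n| := hfwd m hm1 hm2
      _ ≤ 2 * b ^ (13 + x / 25) * (3 / 2 * b ^ (-x)) := by gcongr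
      _ = 3 * (b ^ (13 + x / 25) * b ^ (-x)) := by ring
      _ ≤ b ^ (1 : ℝ) * (b ^ (13 + x / 25) * b ^ (-x)) :=
          mul_le_mul_of_nonneg_right (le_trans (by norm_num) hsix) (by positivity)
      _ = b ^ (1 + (13 + x / 25 + -x)) := by simp only [← Real.rpow_add hb0]
      _ ≤ _ := D.mono (by linarith)
  -- step 2, 3
  have hDD : ∀ j ∈ Icc 1 (e + 1), |y j - xo j| + 2 * |z 1 - y 1| * Wt e p j ≤ DD b x n p q j := by
    intro j hj
    rw [Finset.mem_Icc] at hj
    have t1 : 2 * |z 1 - y 1| * Wt e p j ≤ 4 * b ^ (-(3 / 2 * x)) * W p (j - 1) := by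
      have h2 := Wt_le_pred e p j
      have h3 := Wt_nonneg e p j
      calc 2 * |z 1 - y 1| * Wt e p j ≤ 2 * (2 * b ^ (-(3 / 2 * x))) * W p (j - 1) := by gcongr
        _ = _ := by ring
    have t2 : |y j - xo j| ≤ if j ≤ n then 3 / 2 * lw n p q j else b ^ (14 - 24 / 25 * x) := by
      split_ifs with h
      · exact hbox j (Finset.mem_Icc.mpr ⟨hj.1, h⟩)
      · exact hfar j (by omega) (by omega)
    unfold DD
    linarith
  -- step 4
  have hdel := delta hM0 hNL (N := e + 1) (x := xo) (y := y) (z := z) (p := p) (Wt := Wt e p)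
    (D := DD b x n p q) (η := 1 / 16) (by norm_num) (fun m _ => hy m) (fun m _ => hz m) h0
    D.P.J.p0 D.P.J.p1 (fun m hm => D.P.J.hp m hm) (fun m _ => D.P.abs_le_Wt m) hDD
    (fun m hm => D.hsum hm)
  refine ⟨hdel, ?_⟩
  -- step 5
  have hfp := field_pert (N := e + 1) (a := fun m => Vd (xo m)) (a' := fun m => Vd (z m)) (p := p)
    (p' := p') (W := Wt e p) (η := 1 / 16) (by norm_num) D.P.J.p0 D.P.J.p1
    (fun m hm => D.P.J.hp m hm) hp0' hp1' (fun m _ => hp' m) (fun m _ => D.P.abs_le_Wt m) (by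
      intro m hm
      refine le_trans ?_ (D.hsum hm)
      apply Finset.sum_le_sum
      intro j hj
      rw [Finset.mem_Ico] at hj
      apply mul_le_mul_of_nonneg_right _ (Wt_nonneg e p j)
      apply mul_le_mul_of_nonneg_left _ (abs_nonneg _)
      have h2 := hDD j (Finset.mem_Icc.mpr ⟨hj.1, by omega⟩)
      have h3 := hdel j (by omega)
      have h4 : |z j - xo j| ≤ DD b x n p q j := by
        have := abs_add_le (z j - y j) (y j - xo j)
        have e1 : z j - y j + (y j - xo j) = z j - xo j := by ring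
        rw [e1] at this
        linarith
      exact (hlip _ _).trans (mul_le_mul_of_nonneg_left h4 hM0))
  -- step 6
  intro m hm
  have h2 := hfp m (by omega)
  have h3 := hfp (m + 1) (by omega)
  have h4 := Wt_le_self p hm
  have h5 := Wt_le_pred e p (m + 1)
  rw [Nat.add_sub_cancel] at h5
  have h6 := W_le_N p m
  have h7 : |p m| ≤ Val.N p m := le_max_left _ _
  have h8 : |p (m + 1)| ≤ Val.N p m := le_max_right _ _
  have h9 : |p' m| ≤ Val.N p' m := le_max_left _ _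
  have h10 : |p' (m + 1)| ≤ Val.N p' m := le_max_right _ _
  have g1 : |p' m - p m| ≤ 3 / 16 * Val.N p m := by linarith
  have g2 : |p' (m + 1) - p (m + 1)| ≤ 3 / 16 * Val.N p m := by linarith
  have g3 := abs_sub_abs_le_abs_sub (p' m) (p m)
  have g4 := abs_sub_abs_le_abs_sub (p' (m + 1)) (p (m + 1))
  have g5 := abs_sub_abs_le_abs_sub (p m) (p' m)
  have g6 := abs_sub_abs_le_abs_sub (p (m + 1)) (p' (m + 1))
  rw [abs_sub_comm] at g5 g6
  constructor
  · have : Val.N p m ≤ Val.N p' m + 3 / 16 * Val.N p m := max_le (by linarith) (by linarith)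
    have h0 := N_nonneg p m
    linarith
  · refine max_le ?_ ?_ <;> linarith

open Crest.Agent.R128.Lam0 Crest.Agent.R128.Core

theorem clean_pk {k a c : ℝ} {N : ℕ} (hk : (10 : ℝ) ^ 30 ≤ k) (h : SV k 1000 a c N) :
    ∀ m ≤ 1000, k ^ (2 / 3 : ℝ) / 2 * |pk k a c m| ≤ |pk k a c (m + 1)| ∧ 1 ≤ |pk k a c (m + 1)| := by
  obtain ⟨hb19, -, -⟩ := base_facts hk
  intro m
  induction m with
  | zero =>
    intro _
    have e0 : pk k a c 0 = 0 := rfl
    have e1 : pk k a c (0 + 1) = 1 := rfl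
    rw [e0, e1]
    norm_num
  | succ m ih =>
    intro hm
    obtain ⟨i1, i2⟩ := ih (by omega)
    have h3 := h.cl (m + 1) (Finset.mem_Icc.mpr ⟨by omega, hm⟩)
    have e2 : pk k a c (m + 1 + 1) = Vk k (xorb k a c (m + 1)) * pk k a c (m + 1) - pk k a c m := rfl
    have h4 : |Vk k (xorb k a c (m + 1))| * |pk k a c (m + 1)| - |pk k a c m| ≤ |pk k a c (m + 1 + 1)| := by
      rw [← abs_mul, e2]
      exact abs_sub_abs_le_abs_sub _ _
    have h5 : |pk k a c m| ≤ |pk k a c (m + 1)| := by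
      have := abs_nonneg (pk k a c m)
      nlinarith
    have h6 := abs_nonneg (pk k a c (m + 1))
    have h7 : k ^ (2 / 3 : ℝ) * |pk k a c (m + 1)| ≤ |Vk k (xorb k a c (m + 1))| * |pk k a c (m + 1)| :=
      mul_le_mul_of_nonneg_right h3 h6
    constructor <;> nlinarith

/-- the profile of an admissible point -/
theorem pv_of_adm {k X a c : ℝ} {e n L : ℕ} (hk : (10 : ℝ) ^ 30 ≤ k) (hX : k ^ 600 ≤ X)
    (h : Adm k X a c (e + 1)) (S : Seg k X a c (e + 1) n L) :
    PV (k ^ (2 / 3 : ℝ) / 2) (min 1000 e) e (dig k a c) (pk k a c) := by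
  obtain ⟨hb19, hbk, hbk2⟩ := base_facts hk
  have hk0 : 0 < k := lt_of_lt_of_le (by positivity) hk
  have hk1 : (1 : ℝ) ≤ k := le_trans (by norm_num) hk
  have hk10 : (10 : ℝ) ≤ k := le_trans (by norm_num) hk
  have hne : n ≤ e := by have := S.lt; omega
  have hn35 : 35 ≤ n := S.hL35.trans S.hLn
  have nf0 : ∀ i, 0 ≤ nf k a c i := fun i => (abs_nonneg _).trans (le_max_left _ _)
  refine
    { J := ⟨rfl, rfl, fun _ _ => rfl⟩
      hb := le_trans (by norm_num) hb19
      hL := by omega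
      hLn := min_le_right _ _
      hLb := ?_
      hA := ?_
      hcl := ?_
      V2 := ?_
      V3 := ?_ }
  · have h1 : ((min 1000 e : ℕ) : ℝ) ≤ 1000 := by exact_mod_cast min_le_left 1000 e
    have : (2000 : ℝ) ≤ 10 ^ 19 := by norm_num
    linarith
  · intro j _
    have h1 := abs_dig_le hk10 a c j
    nlinarith
  · intro j hj
    rw [Finset.mem_Icc] at hj
    have h1 := h.1.cl j (Finset.mem_Icc.mpr ⟨hj.1, by omega⟩)
    have e1 : 2 * (k ^ (2 / 3 : ℝ) / 2) = k ^ (2 / 3 : ℝ) := by ring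
    rw [e1]
    exact h1
  · intro i j hi hij hj
    rw [nf_eq, nf_eq]
    rcases Nat.lt_or_ge e 1000 with hlt | hge
    · have hij' : i = j := by omega
      subst hij'
      have h1 : 1 ≤ nf k a c i := (clean_pk hk h.1 i (by omega)).2.trans (le_max_right _ _)
      calc nf k a c i ^ (99 / 100 : ℝ) ≤ nf k a c i ^ (1 : ℝ) :=
            Real.rpow_le_rpow_of_exponent_le h1 (by norm_num)
        _ = nf k a c i := Real.rpow_one _
    · have h1 := h.1.v2 i j (by omega) hij (by omega)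
      have h2 : (nf k a c i ^ 99) ^ (1 / 100 : ℝ) ≤ (nf k a c j ^ 100) ^ (1 / 100 : ℝ) :=
        Real.rpow_le_rpow (pow_nonneg (nf0 i) _) h1 (by norm_num)
      rw [← Real.rpow_natCast, ← Real.rpow_natCast, ← Real.rpow_mul (nf0 i),
        ← Real.rpow_mul (nf0 j)] at h2
      norm_num at h2
      exact h2
  · intro j hj hjn
    rcases Nat.lt_or_ge e 1000 with hlt | hge
    · have hjn' : j = e := by omega
      refine ⟨n, by omega, ?_⟩
      rw [nf_eq, hjn']
      have h1 : (e : ℝ) ≤ 1000 := by exact_mod_cast hlt.le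
      have h2 : (k ^ 600) ^ (1 / 400 : ℝ) ≤ nf k a c n ^ (1 / 400 : ℝ) :=
        Real.rpow_le_rpow (by positivity) (hX.trans S.big) (by norm_num)
      have h3 : (k ^ 600) ^ (1 / 400 : ℝ) = k ^ (3 / 2 : ℝ) := by
        rw [← Real.rpow_natCast, ← Real.rpow_mul hk0.le]
        norm_num
      have h4 : k ^ (1 : ℝ) ≤ k ^ (3 / 2 : ℝ) :=
        Real.rpow_le_rpow_of_exponent_le hk1 (by norm_num)
      rw [Real.rpow_one] at h4
      have h5 : (1000 : ℝ) ≤ k := le_trans (by norm_num) hk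
      linarith
    · obtain ⟨i, _, hij, hi⟩ := h.1.v3 j (by omega) (by omega)
      refine ⟨i, hij, ?_⟩
      rw [nf_eq]
      have h2 : ((j : ℝ) ^ 400) ^ (1 / 400 : ℝ) ≤ nf k a c i ^ (1 / 400 : ℝ) :=
        Real.rpow_le_rpow (by positivity) hi (by norm_num)
      have h3 : ((j : ℝ) ^ 400) ^ (1 / 400 : ℝ) = (j : ℝ) := by
        rw [← Real.rpow_natCast, ← Real.rpow_mul (Nat.cast_nonneg _)]
        norm_num
      linarith

/-- **SHADOW**, helper756's exact statement. -/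
theorem shadow_stmt : ShadowStmt := by
  refine ⟨10 ^ 30, ?_⟩
  intro k hk X hX a c n' n L hA S l s0 _ hMt s hs
  obtain ⟨hb19, hbk, hbk2⟩ := base_facts hk
  have hk0 : 0 < k := lt_of_lt_of_le (by positivity) hk
  have hk1 : (1 : ℝ) ≤ k := le_trans (by norm_num) hk
  have hk10 : (10 : ℝ) ≤ k := le_trans (by norm_num) hk
  obtain ⟨e, rfl⟩ : ∃ e, n' = e + 1 := ⟨n' - 1, by have := S.lt; omega⟩
  have hV := pv_of_adm hk hX hA S
  set b := k ^ (2 / 3 : ℝ) / 2 with hbdef
  have hb100 : (100 : ℝ) ≤ b := le_trans (by norm_num) hb19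
  have hb0 : 0 < b := by linarith
  have hbk1 : b ≤ k := le_of_sq_le_sq hbk2 hk0.le
  have hX0 : 0 < X := lt_of_lt_of_le (by positivity) hX
  obtain ⟨x, hx⟩ : ∃ x : ℝ, X = b ^ x := ⟨Real.logb b X, (Real.rpow_logb hb0 (by linarith) hX0).symm⟩
  have hx600 : 600 ≤ x := by
    have h1 : b ^ (600 : ℝ) ≤ b ^ x := by
      rw [← hx]
      have : b ^ (600 : ℝ) = b ^ 600 := by exact_mod_cast Real.rpow_natCast b 600
      rw [this]
      exact (pow_le_pow_left₀ hb0.le hbk1 600).trans hX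
    exact (Real.rpow_le_rpow_left_iff (by linarith)).mp h1
  have hMle := M_le hk0
  have D : Num b (min 1000 e) e n L (fun m => Vk k (xorb k a c m)) (pk k a c)
      (qk (dig k a c) n) x (4 * Real.pi ^ 2 * k) := by
    refine
      { P := ⟨hV, ⟨rfl, rfl, fun _ _ => rfl⟩, ?_⟩
        V0 := S.val
        hn := by have := S.lt; omega
        hx := hx600
        hX := by rw [← hx]; exact S.pn1
        hW := ?_
        hM0 := by positivity
        hM := ?_ }
    · have h1 := abs_dig_le hk10 a c (e + 1)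
      have h2 : |Vk k (xorb k a c (e + 1))| + 2 ≤ 8 * k := h1
      nlinarith
    · intro i hi
      have h1 := hA.2.2 i (by omega)
      have h2 := W_le_N (pk k a c) i
      rw [nf_eq] at h2
      have h3 : b ^ (x + 2) = X * b ^ 2 := by
        rw [Real.rpow_add hb0, Real.rpow_two, ← hx]
      rw [h3]
      have h4 : 3 / 2 * k * X ≤ b ^ 2 * X := by
        apply mul_le_mul_of_nonneg_right _ hX0.le
        nlinarith
      nlinarith
    · nlinarith
  have hmain := shadow_num (f := fk k) (Vd := Vk k) (NL_fk hk0.le) (fun s t => Vk_lip hk0.le s t)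
    (xo := xorb k a c) (y := xorb k l s0) (z := xorb k l s) (p' := pk k l s) D
    (fun m => xorb_orb k a c (m + 1) m (by omega)) (fun m => xorb_orb k l s0 (m + 1) m (by omega))
    (fun m => xorb_orb k l s (m + 1) m (by omega)) hMt.right hMt.box rfl (by
      show |s - s0| ≤ _
      refine hs.trans (le_of_eq ?_)
      rw [hx, ← Real.rpow_mul hb0.le]
      congr 2
      ring) rfl rfl (fun _ => rfl)
  intro m hm
  exact hmain.2 m hm

end Crest.Agent.R128.Sh438
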