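import Crest.Agent.R128.V4Of
import Crest.Agent.R128.CoreAsm
import Crest.Agent.R128.CoreA

/-!
# Row 128, node V4 (helper287): `Core.ShadowStmt → Skel.V4`
-/

set_option autoImplicit false

namespace Crest.Agent.R128.V4Fin

/-- **V4** from the shadowing half of CORE (coherence half: helper516) -/
theorem v4 (hS : Core.ShadowStmt) : Skel.V4 :=
  V4Of.v4_of_core (Core.coreStmt2_of hS CoreA.coh_stmt)

end Crest.Agent.R128.V4Fin
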