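import Mathlib
import Crest.Agent.R128.Skel
import Crest.Agent.R128.CloseM

/-!
# Row 128, V6 (helper149): `Skel.V1 → V2 → V2L → V4 → V5 → VM → Res` via 744's `CloseM`
(independent second copy; first = helper785 `SkelGlue.lean`)
-/

set_option autoImplicit false
open MeasureTheory Filter Topology Finset
open scoped ENNReal NNReal
open Crest.AnalysisR.StandardFamily

namespace Crest.Agent.R128.V6Skel

open Crest.Agent.R128.Acc Crest.Agent.R128.AccRoot Crest.Agent.R128.Lam0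
open Crest.Agent.R128.Skel (Val C1 LG Rc bw Ng RD rho Fresh nf vs V1 V2 V2L V4 V5 VM Res V6)

theorem RD_mono (k : ℝ) (D : ℕ) {M M' : ℕ} (h : M ≤ M') : RD k D M ⊆ RD k D M' := by
  rintro z ⟨n, n', hd, hv⟩
  exact ⟨n, n', ⟨hd.hLn, hd.lt, hd.le.trans h, hd.first, hd.max, hd.drop, hd.lo, hd.hi, hd.val⟩, hv⟩

theorem RD_zero (k : ℝ) (D : ℕ) : RD k D 0 = ∅ := by
  ext z
  simp only [Set.mem_empty_iff_false, iff_false]
  rintro ⟨n, n', hd, -⟩
  have := hd.lt
  have := hd.le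
  omega

theorem rho_mono (k : ℝ) (D0 : ℕ) {M M' : ℕ} (h : M ≤ M') : rho k D0 M ≤ rho k D0 M' :=
  ENNReal.tsum_le_tsum fun D => measure_mono (RD_mono k (D0 + D) h)

theorem rho_zero (k : ℝ) (D0 : ℕ) : rho k D0 0 = 0 := by
  unfold rho
  simp [RD_zero]

theorem measurable_cross_ennreal (k : ℝ) (N : ℕ) : Measurable fun z : Tor => (cross k N z : ℝ≥0∞) :=
  (measurable_from_top (f := fun n : ℕ => (n : ℝ≥0∞))).comp (measurable_cross k N)

theorem lint_cross {k : ℝ} (hk : 1 < k) (N : ℕ) :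
    ∫⁻ z : Tor, (cross k N z : ℝ≥0∞) = ENNReal.ofReal (∫ z : Tor, (cross k N z : ℝ)) := by
  rw [ofReal_integral_eq_lintegral_ofReal (integrable_cross hk N)
    (Eventually.of_forall fun z => Nat.cast_nonneg _)]
  refine lintegral_congr fun z => ?_
  rw [ENNReal.ofReal_natCast]

open Classical in
theorem card_eq (k : ℝ) (s : Finset ℕ) (z : Tor) (S : ℕ → Set Tor) :
    ((#{v ∈ s | (T k)^[v] z ∈ S v} : ℕ) : ℝ≥0∞) =
      ∑ v ∈ s, (S v).indicator (fun _ => (1 : ℝ≥0∞)) ((T k)^[v] z) := by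
  rw [Finset.card_filter]
  push_cast
  refine Finset.sum_congr rfl fun v _ => ?_
  by_cases h : (T k)^[v] z ∈ S v
  · simp [h]
  · simp [h]

open Classical in
/-- V2 integrated -/
theorem lint_V2 {k : ℝ} {D0 C N J : ℕ} (hm : ∀ D M, MeasurableSet (RD k D M))
    (h : ∀ z : Tor, ∑ D ∈ range J, #{v ∈ range N | (T k)^[v] z ∈ RD k (D0 + D) (N - v)} ≤
      C * cross k N z) :
    ∑ D ∈ range J, ∑ v ∈ range N, volume (RD k (D0 + D) (N - v)) ≤
      C * ∫⁻ z : Tor, (cross k N z : ℝ≥0∞) := by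
  have e1 : ∑ D ∈ range J, ∑ v ∈ range N, volume (RD k (D0 + D) (N - v)) =
      ∫⁻ z : Tor, ∑ D ∈ range J, ∑ v ∈ range N,
        (RD k (D0 + D) (N - v)).indicator (fun _ => (1 : ℝ≥0∞)) ((T k)^[v] z) := by
    rw [lintegral_finsetSum _ fun D _ => Finset.measurable_sum _ fun v _ =>
      Close.measurable_ind (hm _ _) k v]
    refine Finset.sum_congr rfl fun D _ => ?_
    rw [lintegral_finsetSum _ fun v _ => Close.measurable_ind (hm _ _) k v]
    refine Finset.sum_congr rfl fun v _ => ?_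
    rw [Close.lintegral_ind (hm _ _) k v]
  rw [e1, ← lintegral_const_mul _ (measurable_cross_ennreal k N)]
  refine lintegral_mono fun z => ?_
  have h2 : ((∑ D ∈ range J, #{v ∈ range N | (T k)^[v] z ∈ RD k (D0 + D) (N - v)} : ℕ) : ℝ≥0∞) ≤
      ((C * cross k N z : ℕ) : ℝ≥0∞) := by exact_mod_cast h z
  push_cast at h2
  refine le_trans (le_of_eq ?_) h2
  refine Finset.sum_congr rfl fun D _ => ?_
  rw [← card_eq k (range N) z (fun v => RD k (D0 + D) (N - v))]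

open Classical in
theorem sum_rho {k : ℝ} {D0 C N : ℕ} (hm : ∀ D M, MeasurableSet (RD k D M))
    (h : ∀ (J : ℕ) (z : Tor), ∑ D ∈ range J, #{v ∈ range N | (T k)^[v] z ∈ RD k (D0 + D) (N - v)} ≤
      C * cross k N z) :
    ∑ v ∈ range N, rho k D0 (N - v) ≤ C * ∫⁻ z : Tor, (cross k N z : ℝ≥0∞) := by
  unfold rho
  rw [← Summable.tsum_finsetSum fun v _ => ENNReal.summable, ENNReal.tsum_eq_iSup_nat]
  exact iSup_le fun J => lint_V2 hm (h J)

open Classical in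
theorem rho_ne_top {k : ℝ} (hk : 1 < k) {D0 C : ℕ} (hm : ∀ D M, MeasurableSet (RD k D M))
    (h : ∀ (N J : ℕ) (z : Tor), ∑ D ∈ range J,
      #{v ∈ range N | (T k)^[v] z ∈ RD k (D0 + D) (N - v)} ≤ C * cross k N z) (M : ℕ) :
    rho k D0 M ≠ ∞ := by
  rcases Nat.eq_zero_or_pos M with rfl | hM
  · rw [rho_zero]; exact ENNReal.zero_ne_top
  · have h1 := sum_rho hm (h M)
    have h2 : rho k D0 M ≤ ∑ v ∈ range M, rho k D0 (M - v) := by
      have := Finset.single_le_sum (f := fun v => rho k D0 (M - v)) (fun _ _ => bot_le)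
        (mem_range.2 hM)
      simpa using this
    refine ne_top_of_le_ne_top ?_ (h2.trans h1)
    rw [lint_cross hk]
    exact ENNReal.mul_ne_top (ENNReal.natCast_ne_top C) ENNReal.ofReal_ne_top

open Classical in
/-- V2 in the form of `Close.InputsR.single` -/
theorem single {k : ℝ} (hk : 1 < k) {D0 C : ℕ} (hm : ∀ D M, MeasurableSet (RD k D M))
    (h : ∀ (N J : ℕ) (z : Tor), ∑ D ∈ range J,
      #{v ∈ range N | (T k)^[v] z ∈ RD k (D0 + D) (N - v)} ≤ C * cross k N z) (N : ℕ) :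
    ∑ v ∈ range (N + 1), (rho k D0 v).toReal ≤ C * ∫ z : Tor, (cross k N z : ℝ) := by
  have h1 := sum_rho hm (h N)
  rw [lint_cross hk] at h1
  have h2 : ∑ v ∈ range (N + 1), rho k D0 v = ∑ v ∈ range N, rho k D0 (N - v) := by
    rw [Finset.sum_range_succ', rho_zero, add_zero,
      ← Finset.sum_range_reflect (fun v => rho k D0 (v + 1)) N]
    refine Finset.sum_congr rfl fun v hv => ?_
    rw [mem_range] at hv
    congr 1
    omega
  rw [← ENNReal.toReal_sum fun v _ => rho_ne_top hk hm h v, h2]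
  have h3 := ENNReal.toReal_mono (ENNReal.mul_ne_top (ENNReal.natCast_ne_top C)
    ENNReal.ofReal_ne_top) h1
  rwa [ENNReal.toReal_mul, ENNReal.toReal_natCast, ENNReal.toReal_ofReal
    (integral_nonneg fun _ => Nat.cast_nonneg _)] at h3

theorem rpow_le_e {k : ℝ} (hk : 1 ≤ k) : k ^ ((2 : ℝ) / 3) / k ≤ Skel.e k := by
  have hk0 : 0 < k := by linarith
  have : k ^ ((2 : ℝ) / 3) / k = k ^ ((2 : ℝ) / 3 - 1) := by
    rw [Real.rpow_sub hk0, Real.rpow_one]
  rw [this]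
  unfold Skel.e
  exact Real.rpow_le_rpow_of_exponent_le hk (by norm_num)

theorem volume_le {k : ℝ} (hk : 1 ≤ k) {r : ℝ} (hr : 0 ≤ r) :
    volume {z : Tor | |V k z.2| ≤ r} ≤ ENNReal.ofReal (r / k) := by
  have h3 : (volume : Measure Tor).real {z : Tor | |V k z.2| ≤ r} ≤ r / k :=
    volumeReal_V_le hk hr
  rw [measureReal_def] at h3
  rw [ENNReal.le_ofReal_iff_toReal_le (measure_ne_top _ _) (by positivity)]
  exact h3

theorem vol_C1 {k : ℝ} (hk : 1 ≤ k) (L0 : ℕ) : volume (C1 k L0) ≤ ENNReal.ofReal (L0 * Skel.e k) := by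
  have hk0 : 0 < k := by linarith
  set r : ℝ := k ^ ((2 : ℝ) / 3) with hr
  have hr0 : 0 ≤ r := by positivity
  have hB : MeasurableSet {z : Tor | |V k z.2| ≤ r} :=
    (isClosed_le ((continuous_V k).comp continuous_snd).abs continuous_const).measurableSet
  have hsub : C1 k L0 ⊆ ⋃ m ∈ range L0, (T k)^[m] ⁻¹' {z : Tor | |V k z.2| ≤ r} := by
    rintro z ⟨m, hm, h⟩
    simp only [Set.mem_iUnion, mem_range]
    exact ⟨m, hm, h.le⟩
  calc volume (C1 k L0) ≤ volume (⋃ m ∈ range L0, (T k)^[m] ⁻¹' {z : Tor | |V k z.2| ≤ r}) :=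
        measure_mono hsub
    _ ≤ ∑ m ∈ range L0, volume ((T k)^[m] ⁻¹' {z : Tor | |V k z.2| ≤ r}) :=
        measure_biUnion_finset_le _ _
    _ = ∑ m ∈ range L0, volume {z : Tor | |V k z.2| ≤ r} := by
        refine Finset.sum_congr rfl fun m _ => ?_
        exact (mp_iter k m).measure_preimage hB.nullMeasurableSet
    _ ≤ ∑ m ∈ range L0, ENNReal.ofReal (Skel.e k) := by
        refine Finset.sum_le_sum fun m _ => ?_
        exact (volume_le hk hr0).trans (ENNReal.ofReal_le_ofReal (rpow_le_e hk))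
    _ = ENNReal.ofReal (L0 * Skel.e k) := by
        rw [Finset.sum_const, card_range, nsmul_eq_mul, ENNReal.ofReal_mul (Nat.cast_nonneg _),
          ENNReal.ofReal_natCast]

theorem volume_bw {S : Set Tor} (hS : MeasurableSet S) : volume (bw S) = volume S :=
  mp_swap.measure_preimage hS.nullMeasurableSet

theorem measurable_bw {S : Set Tor} (hS : MeasurableSet S) : MeasurableSet (bw S) :=
  measurable_swap hS

theorem vol_Ng {k : ℝ} (hk : 1 ≤ k) {L0 : ℕ} {C : ℝ} (hC : 0 ≤ C)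
    (h1 : MeasurableSet (C1 k L0)) (h2 : MeasurableSet (LG k L0))
    (hL : volume (LG k L0) ≤ ENNReal.ofReal (C * Skel.e k)) :
    volume (Ng k L0) ≤ ENNReal.ofReal ((2 * L0 + 2 * C) * Skel.e k) := by
  have hk0 : 0 < k := by linarith
  have he : 0 ≤ Skel.e k := by unfold Skel.e; positivity
  have h3 := vol_C1 hk L0
  calc volume (Ng k L0) ≤ (volume (C1 k L0) + volume (bw (C1 k L0))) +
        (volume (LG k L0) + volume (bw (LG k L0))) := by
        unfold Skel.Ng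
        exact (measure_union_le _ _).trans (add_le_add (measure_union_le _ _) (measure_union_le _ _))
    _ ≤ (ENNReal.ofReal (L0 * Skel.e k) + ENNReal.ofReal (L0 * Skel.e k)) +
        (ENNReal.ofReal (C * Skel.e k) + ENNReal.ofReal (C * Skel.e k)) := by
        rw [volume_bw h1, volume_bw h2]
        gcongr
    _ = ENNReal.ofReal ((2 * L0 + 2 * C) * Skel.e k) := by
        rw [← ENNReal.ofReal_add (by positivity) (by positivity),
          ← ENNReal.ofReal_add (by positivity) (by positivity),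
          ← ENNReal.ofReal_add (by positivity) (by positivity)]
        congr 1
        ring

/-- sum over the scales `16 ^ i * Q0` -/
theorem sum_geo {θ : ℝ} (h0 : 0 < θ) (h1 : θ < 1) {Q0 : ℕ} (hQ : 1 ≤ Q0) (I : ℕ) :
    ∑ i ∈ range I, ((16 ^ i * Q0 : ℕ) : ℝ) * θ ^ (16 ^ i * Q0) ≤ ∑' n : ℕ, (n : ℝ) * θ ^ n := by
  have hs : Summable fun n : ℕ => (n : ℝ) * θ ^ n := by
    have := summable_pow_mul_geometric_of_norm_lt_one 1 (r := θ) (by
      rw [Real.norm_of_nonneg h0.le]; exact h1)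
    simpa using this
  have hinj : Set.InjOn (fun i : ℕ => 16 ^ i * Q0) (range I : Set ℕ) := by
    intro i _ j _ hij
    have h2 : 16 ^ i = 16 ^ j := Nat.eq_of_mul_eq_mul_right (by omega) hij
    exact Nat.pow_right_injective (by norm_num) h2
  rw [← Finset.sum_image (f := fun n : ℕ => (n : ℝ) * θ ^ n) (g := fun i : ℕ => 16 ^ i * Q0) hinj]
  exact hs.sum_le_tsum _ fun n _ => by positivity

/-- the set of V5 -/
def FS (k : ℝ) (L0 R Q : ℕ) : Set Tor :=
  {y : Tor | ∃ z t N, (T k)^[t] z = y ∧ Skel.FBR k L0 R N z t Q}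

theorem area {k C θ : ℝ} (hk : 1 ≤ k) (hC : 0 < C) (h0 : 0 < θ) (h1 : θ < 1) {L0 R Q0 : ℕ}
    (hQ : 1 ≤ Q0) (h : ∀ Q : ℕ, Q0 ≤ Q → volume (FS k L0 R Q) ≤ ENNReal.ofReal (C / k * θ ^ Q))
    (I : ℕ) :
    ∑ i ∈ range I, ((16 : ℝ≥0∞) ^ i * Q0) * volume (toMeasurable volume (FS k L0 R (16 ^ i * Q0))) ≤
      ENNReal.ofReal ((C * ∑' n : ℕ, (n : ℝ) * θ ^ n) * Skel.e k) := by
  have hk0 : 0 < k := by linarith
  have hge : ∀ i : ℕ, Q0 ≤ 16 ^ i * Q0 := fun i =>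
    Nat.le_mul_of_pos_left _ (pow_pos (by norm_num) i)
  have hek : 1 / k ≤ Skel.e k := by
    unfold Skel.e
    rw [one_div, ← Real.rpow_neg_one]
    exact Real.rpow_le_rpow_of_exponent_le hk (by norm_num)
  have e1 : ∀ i ∈ range I, ((16 : ℝ≥0∞) ^ i * Q0) *
      volume (toMeasurable volume (FS k L0 R (16 ^ i * Q0))) ≤
      ENNReal.ofReal (C / k * (((16 ^ i * Q0 : ℕ) : ℝ) * θ ^ (16 ^ i * Q0))) := by
    intro i _
    rw [measure_toMeasurable]
    have h2 : (16 : ℝ≥0∞) ^ i * Q0 = ENNReal.ofReal ((16 ^ i * Q0 : ℕ) : ℝ) := by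
      rw [ENNReal.ofReal_natCast]
      push_cast
      rfl
    rw [h2]
    calc ENNReal.ofReal ((16 ^ i * Q0 : ℕ) : ℝ) * volume (FS k L0 R (16 ^ i * Q0))
        ≤ ENNReal.ofReal ((16 ^ i * Q0 : ℕ) : ℝ) * ENNReal.ofReal (C / k * θ ^ (16 ^ i * Q0)) := by
          gcongr
          exact h _ (hge i)
      _ = _ := by
          rw [← ENNReal.ofReal_mul (Nat.cast_nonneg _)]
          congr 1
          ring
  refine (Finset.sum_le_sum e1).trans ?_
  rw [← ENNReal.ofReal_sum_of_nonneg fun i _ => by positivity]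
  refine ENNReal.ofReal_le_ofReal ?_
  rw [← Finset.mul_sum]
  have h3 := sum_geo h0 h1 hQ I
  have h4 : 0 ≤ ∑' n : ℕ, (n : ℝ) * θ ^ n := tsum_nonneg fun n => by positivity
  calc C / k * ∑ i ∈ range I, ((16 ^ i * Q0 : ℕ) : ℝ) * θ ^ (16 ^ i * Q0)
      ≤ C / k * ∑' n : ℕ, (n : ℝ) * θ ^ n := by gcongr
    _ = (C * ∑' n : ℕ, (n : ℝ) * θ ^ n) * (1 / k) := by ring
    _ ≤ _ := by gcongr

theorem exists_small {B : ℝ} (hB : 1 ≤ B) : ∃ k₁ : ℝ, 2 ≤ k₁ ∧ ∀ k, k₁ ≤ k →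
    13 ≤ Skel.e k ^ 2 * k ∧ B * Skel.e k ≤ 1 := by
  refine ⟨max (B ^ 4) 169, le_trans (by norm_num) (le_max_right _ _), fun k hk => ?_⟩
  have hk1 : B ^ 4 ≤ k := (le_max_left _ _).trans hk
  have hk2 : 169 ≤ k := (le_max_right _ _).trans hk
  have hk0 : 0 < k := by linarith
  unfold Skel.e
  constructor
  · have h1 : (k ^ (-(1 : ℝ) / 4)) ^ 2 * k = k ^ ((1 : ℝ) / 2) := by
      rw [← Real.rpow_natCast, ← Real.rpow_mul hk0.le]
      nth_rewrite 2 [← Real.rpow_one k]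
      rw [← Real.rpow_add hk0]
      norm_num
    rw [h1, ← Real.sqrt_eq_rpow]
    rw [show (13 : ℝ) = Real.sqrt 169 by
      rw [show (169 : ℝ) = 13 ^ 2 by norm_num, Real.sqrt_sq (by norm_num)]]
    exact Real.sqrt_le_sqrt hk2
  · have h2 : B ≤ k ^ ((1 : ℝ) / 4) := by
      calc B = (B ^ 4) ^ ((1 : ℝ) / 4) := by
            rw [← Real.rpow_natCast, ← Real.rpow_mul (by linarith)]
            norm_num
        _ ≤ k ^ ((1 : ℝ) / 4) := Real.rpow_le_rpow (by positivity) hk1 (by norm_num)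
    calc B * k ^ (-(1 : ℝ) / 4) ≤ k ^ ((1 : ℝ) / 4) * k ^ (-(1 : ℝ) / 4) := by gcongr
      _ = 1 := by
          rw [← Real.rpow_add hk0]
          norm_num

theorem big_ge {C : ℝ} {Q0 R : ℕ} (hC1 : 1 ≤ C) (h1 : 1 ≤ Q0) (h2 : 1 ≤ R) :
    (1 : ℝ) ≤ 72 * (800 * C ^ 2 * Q0 * R) ^ 4 := by
  have a1 : (1 : ℝ) ≤ Q0 := by exact_mod_cast h1
  have a2 : (1 : ℝ) ≤ R := by exact_mod_cast h2
  have a3 : (1 : ℝ) ≤ C ^ 2 := one_le_pow₀ hC1
  have a4 : (1 : ℝ) ≤ 800 * C ^ 2 * Q0 * R := by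
    calc (1 : ℝ) = 1 * 1 * 1 * 1 := by norm_num
      _ ≤ 800 * C ^ 2 * Q0 * R := by gcongr; norm_num
  have a5 := one_le_pow₀ a4 (n := 4)
  generalize (800 * C ^ 2 * (Q0 : ℝ) * R) ^ 4 = X at a5 ⊢
  linarith

/-- **V6** -/
theorem v6 : V6 := by
  classical
  rintro ⟨L1, h1⟩ ⟨D0, C2, k2, h2⟩ ⟨L2, hL⟩ h4 ⟨L5, h5⟩ hm
  obtain ⟨L4, h4⟩ := h4 D0
  set L0 := max (max L1 L2) (max L4 L5) with hL0
  obtain ⟨Q1, C1n, k1, h1⟩ := h1 L0 (by omega)
  obtain ⟨CL, kL, hL⟩ := hL L0 (by omega)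
  obtain ⟨C4, k4, h4⟩ := h4 L0 (by omega)
  obtain ⟨R, Q5, C5, θ, hC5, hθ, hθ1, k5, h5⟩ := h5 L0 (by omega)
  set S : ℝ := ∑' n : ℕ, (n : ℝ) * θ ^ n with hS
  have hS0 : 0 ≤ S := tsum_nonneg fun n => by positivity
  set CL' : ℝ := max CL 0 with hCL'
  have hCL0 : 0 ≤ CL' := le_max_right _ _
  have hCLL : CL ≤ CL' := le_max_left _ _
  -- the constants
  set C : ℝ := 1 + C1n + C2 + C4 + C5 * S + (2 * L0 + 2 * CL') with hC
  have hn1 : (0 : ℝ) ≤ C1n := Nat.cast_nonneg _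
  have hn2 : (0 : ℝ) ≤ C2 := Nat.cast_nonneg _
  have hn4 : (0 : ℝ) ≤ C4 := C4.coe_nonneg
  have hn5 : 0 ≤ C5 * S := by positivity
  have hn6 : (0 : ℝ) ≤ L0 := Nat.cast_nonneg _
  have hC1 : 1 ≤ C := by rw [hC]; linarith
  have hCn1 : (C1n : ℝ) ≤ C := by rw [hC]; linarith
  have hCn2 : (C2 : ℝ) ≤ C := by rw [hC]; linarith
  have hCn4 : (C4 : ℝ) ≤ C := by rw [hC]; linarith
  have hCn5 : C5 * S ≤ C := by rw [hC]; linarith
  have hCn6 : 2 * L0 + 2 * CL' ≤ C := by rw [hC]; linarith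
  clear_value C CL'
  set Q0 : ℕ := max (max Q1 Q5) 1 with hQ0
  set R' : ℕ := max R 1 with hR'
  have hB1 : (1 : ℝ) ≤ 72 * (800 * C ^ 2 * Q0 * R') ^ 4 := big_ge hC1 (by omega) (by omega)
  obtain ⟨k₁, hk₁, hsm⟩ := exists_small hB1
  refine Close.result_of_inputsR ⟨C, R', Q0, hC1, by omega, by omega,
    max k₁ (max (max k1 k2) (max (max kL k4) k5)), fun k hk => ?_⟩
  simp only [max_le_iff] at hk
  obtain ⟨hk0, ⟨hk1, hk2⟩, ⟨hkL, hk4⟩, hk5⟩ := hk
  have hkk : 1 < k := by linarith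
  have he : 0 < Skel.e k := by unfold Skel.e; positivity
  obtain ⟨e13, e72⟩ := hsm k hk0
  have hmR : ∀ D M, MeasurableSet (RD k D M) := fun D M => (hm k D M).2.2.2
  have hmC1 : MeasurableSet (C1 k L0) := (hm k L0 0).1
  have hmLG : MeasurableSet (LG k L0) := (hm k L0 0).2.1
  have hmRc : ∀ M, MeasurableSet (Rc k L0 M) := fun M => (hm k L0 M).2.2.1
  have hfin : ∀ M, rho k D0 M ≠ ∞ := rho_ne_top hkk hmR (h2 k hk2)
  refine ⟨Skel.e k, he, e13, e72, fun M => Rc k L0 M, fun M => bw (Rc k L0 M),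
    fun i => toMeasurable volume (FS k L0 R (16 ^ i * Q0)), Ng k L0,
    fun N z t l => nf k L0 N z t l, fun _ n => (rho k D0 n).toReal, ?_⟩
  refine ⟨hmRc, fun M => measurable_bw (hmRc M), fun i => measurableSet_toMeasurable _ _,
    ?_, ?_, ?_, ?_, ?_, ?_, ?_, ?_, ?_⟩
  · exact (hmC1.union (measurable_bw hmC1)).union (hmLG.union (measurable_bw hmLG))
  · -- fresh
    intro N z t i hmt hfb
    refine subset_toMeasurable _ _ ⟨z, t, N, rfl, ?_, ?_⟩
    · calc 16 * (16 ^ i * Q0) = 16 ^ (i + 1) * Q0 := by ring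
        _ ≤ _ := hmt
    · unfold Close.FBR at hfb
      have e1 : 16 * (16 ^ i * Q0) = 16 ^ (i + 1) * Q0 := by ring
      rw [e1]
      refine lt_of_le_of_lt ?_ hfb
      exact Nat.mul_le_mul_right _ (le_max_left _ _)
  · -- area
    intro I
    refine (area hkk.le hC5 hθ hθ1 (by omega) (fun Q hQ => h5 k hk5 Q (by omega)) I).trans ?_
    refine ENNReal.ofReal_le_ofReal ?_
    exact mul_le_mul_of_nonneg_right hCn5 he.le
  · -- charge
    intro N z S' hS'
    have h6 := h1 k hk1 N z S' (fun p hp => by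
      obtain ⟨a1, a2, a3⟩ := hS' p hp
      exact ⟨a1, by omega, a3⟩)
    have h7 : ((#S' : ℕ) : ℝ≥0∞) ≤ ((C1n * (vs k N z (fun v => Rc k L0 (N - v) ∩ bw (Rc k L0 v)) +
      vs k N z (fun _ => Ng k L0)) : ℕ) : ℝ≥0∞) := by exact_mod_cast h6
    push_cast at h7
    refine h7.trans ?_
    have h8 : (C1n : ℝ≥0∞) ≤ ENNReal.ofReal C := by
      rw [← ENNReal.ofReal_natCast]
      exact ENNReal.ofReal_le_ofReal hCn1
    have h9 : ((vs k N z (fun v => Rc k L0 (N - v) ∩ bw (Rc k L0 v)) : ℕ) : ℝ≥0∞) =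
        ∑ v ∈ range (N + 1), (Rc k L0 (N - v) ∩ bw (Rc k L0 v)).indicator
          (fun _ => (1 : ℝ≥0∞)) ((T k)^[v] z) := by
      unfold Skel.vs
      rw [← card_eq k (range (N + 1)) z (fun v => Rc k L0 (N - v) ∩ bw (Rc k L0 v))]
    have h10 : ((vs k N z (fun _ => Ng k L0) : ℕ) : ℝ≥0∞) =
        CloseV2.vis (T k) (Ng k L0) (N + 1) z := by
      unfold Skel.vs CloseV2.vis
      rw [← card_eq k (range (N + 1)) z (fun _ => Ng k L0)]
    rw [h9, h10]
    gcongr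
  · -- vbad
    refine (vol_Ng hkk.le hCL0 hmC1 hmLG ((hL k hkL).trans (ENNReal.ofReal_le_ofReal
      (mul_le_mul_of_nonneg_right hCLL he.le)))).trans ?_
    exact ENNReal.ofReal_le_ofReal (mul_le_mul_of_nonneg_right hCn6 he.le)
  · intro _ m n hmn
    exact ENNReal.toReal_mono (hfin n) (rho_mono k D0 hmn)
  · exact fun _ _ => ENNReal.toReal_nonneg
  · -- double
    intro N v _
    refine (h4 k hk4 (N - v) v).trans ?_
    have e1 : ∀ M, ENNReal.ofReal (Skel.e k) + rho k D0 M =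
        ENNReal.ofReal ((rho k D0 M).toReal + Skel.e k) := fun M => by
      rw [ENNReal.ofReal_add ENNReal.toReal_nonneg he.le, ENNReal.ofReal_toReal (hfin M), add_comm]
    rw [e1, e1, ← ENNReal.ofReal_mul (add_nonneg ENNReal.toReal_nonneg he.le)]
    have e2 : (C4 : ℝ≥0∞) = ENNReal.ofReal (C4 : ℝ) := (ENNReal.ofReal_coe_nnreal).symm
    rw [e2, ← ENNReal.ofReal_mul hn4]
    refine ENNReal.ofReal_le_ofReal ?_
    have e3 : 0 ≤ ((rho k D0 (N - v)).toReal + Skel.e k) * ((rho k D0 v).toReal + Skel.e k) :=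
      mul_nonneg (add_nonneg ENNReal.toReal_nonneg he.le) (add_nonneg ENNReal.toReal_nonneg he.le)
    have e4 : (C4 : ℝ) ≤ C := hCn4
    calc (C4 : ℝ) * (((rho k D0 (N - v)).toReal + Skel.e k) * ((rho k D0 v).toReal + Skel.e k))
        ≤ C * (((rho k D0 (N - v)).toReal + Skel.e k) * ((rho k D0 v).toReal + Skel.e k)) :=
          mul_le_mul_of_nonneg_right e4 e3
      _ ≤ _ := by
          refine mul_le_mul_of_nonneg_left ?_ (by linarith)
          linarith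
  · -- single
    intro N
    refine (single hkk hmR (h2 k hk2) N).trans ?_
    have e1 : 0 ≤ ∫ z : Tor, (cross k N z : ℝ) := integral_nonneg fun _ => Nat.cast_nonneg _
    have e2 : (C2 : ℝ) ≤ C := hCn2
    calc (C2 : ℝ) * ∫ z : Tor, (cross k N z : ℝ) ≤ C * ∫ z : Tor, (cross k N z : ℝ) :=
          mul_le_mul_of_nonneg_right e2 e1
      _ ≤ _ := by
          refine mul_le_mul_of_nonneg_left ?_ (by linarith)
          have : 0 ≤ ((N : ℝ) + 1) * Skel.e k := by positivity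
          linarith

end Crest.Agent.R128.V6Skel
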