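import Crest.Agent.R128.V1
import Crest.Agent.R128.V2Proof
import Crest.Agent.R128.V2L
import Crest.Agent.R128.V4Fin
import Crest.Agent.R128.VM
import Crest.Agent.R128.V6Skel
import Crest.Agent.R128.Sh438E
import Crest.Agent.R128.V5FinX
import Crest.Agent.R128.GMeas
import Crest.Agent.R128.LocG
import Crest.Agent.R128.LocBX2

/-!
# Row 128 (helper952): S0172 from the three inputs of V5 which are still open at 21:00:
`Loc.RA` (155 / 86 / 793), `Good.LocA` (595), `V5FinX.BridgeD` (23 / 92).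
-/

set_option autoImplicit false

namespace Crest.Agent.R128.Fin952
open Crest.Agent.R128

/-- LOC in the form of `V5FinX` -/
theorem locH (hA : ∃ L1 : ℕ, ∀ L, L1 ≤ L → Good.LocA L) (hB : Loc.LocB) : V5FinX.LocH Good.G 80 := by
  obtain ⟨L1, hA⟩ := hA
  refine ⟨L1, fun L hL => ?_⟩
  obtain ⟨C1, -, h⟩ := (LocG.locA_iff L).1 (hA L hL)
  obtain ⟨c₀, h0, h1, H⟩ := LocG.hloc (C1 := C1) hB
  obtain ⟨k1, H⟩ := H L h
  exact ⟨1 - c₀, by linarith, by linarith, k1, fun k hk c n g m _ hg => H k hk n g hg c m⟩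

/-- **V5** from the three open inputs -/
theorem v5_of (hRA : Loc.RA) (hA : ∃ L1 : ℕ, ∀ L, L1 ≤ L → Good.LocA L) {R0 a : ℕ}
    (hbr : V5FinX.BridgeD Good.G R0 a) : Skel.V5 :=
  V5FinX.v5_of (fun k L n => GMeas.measurableSet_G k L n) (locH hA (LocBX2.locB_of_RA hRA)) hbr

/-- **S0172** from the three open inputs -/
theorem res_of (hRA : Loc.RA) (hA : ∃ L1 : ℕ, ∀ L, L1 ≤ L → Good.LocA L) {R0 a : ℕ}
    (hbr : V5FinX.BridgeD Good.G R0 a) : Skel.Res :=
  V6Skel.v6 V1.v1 V2Proof.v2 V2L.v2l (V4Fin.v4 Sh438.shadow_stmt) (v5_of hRA hA hbr) VM.vm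

end Crest.Agent.R128.Fin952
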