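import Mathlib
import Crest.Agent.R128.Charge

/-!
Row 128, MASTER v2 (5) (helper250): a c2-violation seen from a foot gives a valley (`ValR`/`ValL` of
434's Charge.lean).  Only the two facts (I1) `f m - f j ≤ g m` and (I2) `g m ≤ f m - f j + E` are used
(`g m` = distance from `m` to the foot; (I2) is the chain inequality because `f ≥ f j` on `[m,j]`).
-/

set_option autoImplicit false

open Finset

namespace Crest.Agent.R128.FiveRL

open Crest.Agent.R128.Charge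

/-- the common computation -/
theorem core {fv fx fj fa gv ga b0 E J D0 lk : ℝ}
    (hb0 : 0 < b0) (hb1 : b0 ≤ 1) (hE : 0 ≤ E) (hJ : 0 ≤ J) (hD : 2 * (E + J) ≤ b0 * D0)
    (hD0 : 0 < D0) (hj : fj ≤ lk) (hj' : lk - J ≤ fj) (e1 : fv - fj ≤ gv) (e2 : ga ≤ fa - fj + E)
    (e3 : fa ≤ fx) (hviol : gv ≤ (1 - b0) * ga) (hga : D0 ≤ ga) :
    D0 / 2 ≤ fx - lk ∧ fv ≤ fx - (b0 / 2) * (fx - lk) ∧ 0 < (b0 / 2) * (fx - lk) := by
  have h1 : D0 - E ≤ fx - fj := by linarith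
  have h2 : fx - lk ≤ fx - fj := by linarith
  have hEJ : 2 * (E + J) ≤ D0 := hD.trans (by nlinarith)
  have h3 : D0 / 2 ≤ fx - lk := by linarith
  have h4 : fv - fj ≤ (1 - b0) * (fx - fj + E) := by
    calc fv - fj ≤ gv := e1
      _ ≤ (1 - b0) * ga := hviol
      _ ≤ (1 - b0) * (fx - fj + E) := by
          apply mul_le_mul_of_nonneg_left _ (by linarith)
          linarith
  have h7 : b0 * (D0 - E) ≤ b0 * (fx - fj) := mul_le_mul_of_nonneg_left h1 hb0.le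
  have h8 : (b0 / 2) * (fx - lk) ≤ (b0 / 2) * (fx - fj) :=
    mul_le_mul_of_nonneg_left h2 (by linarith)
  have h9 : 0 ≤ b0 * E := by positivity
  refine ⟨h3, ?_, mul_pos (half_pos hb0) (by linarith)⟩
  nlinarith

/-- right foot `j`, violation at `v` (going back from `j` towards the top `T`). -/
theorem valR_of_viol {f g : ℕ → ℝ} {κ b0 E J D0 : ℝ} {T v a j : ℕ} {l : ℤ}
    (hb0 : 0 < b0) (hb1 : b0 ≤ 1) (hE : 0 ≤ E) (hJ : 0 ≤ J) (hD : 2 * (E + J) ≤ b0 * D0)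
    (hD0 : 0 < D0) (hTv : T ≤ v) (hva : v < a) (haj : a < j)
    (top : ∀ m, T ≤ m → m < j → f m ≤ f T) (hj : f j ≤ l * κ) (hj' : l * κ - J ≤ f j)
    (I1 : f v - f j ≤ g v) (I2 : g a ≤ f a - f j + E)
    (hviol : g v ≤ (1 - b0) * g a) (hga : D0 ≤ g a) :
    ValR f κ (b0 / 2) (D0 / 2) T j l := by
  classical
  obtain ⟨x, hx, hmax⟩ := Finset.exists_max_image (Ico v j) f ⟨v, by
    rw [mem_Ico]; exact ⟨le_rfl, by omega⟩⟩
  rw [mem_Ico] at hx
  have hmax' : ∀ m, v ≤ m → m < j → f m ≤ f x := fun m h1 h2 => hmax m (by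
    rw [mem_Ico]; exact ⟨h1, h2⟩)
  obtain ⟨c1, c2, c3⟩ := core hb0 hb1 hE hJ hD hD0 hj hj' I1 I2 (hmax' a hva.le haj) hviol hga
  refine ⟨v, x, ?_, hx.1, hx.2, hmax', c1, c2⟩
  rcases Nat.lt_or_ge T v with h | h
  · exact h
  · exfalso
    have h4 : v = T := by omega
    have h5 := top x (by omega) hx.2
    rw [← h4] at h5
    linarith

/-- left foot `i`, violation at `v` (going forward from `i` towards the top `T`). -/
theorem valL_of_viol {f g : ℕ → ℝ} {κ b0 E J D0 : ℝ} {T v a i : ℕ} {l : ℤ}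
    (hb0 : 0 < b0) (hb1 : b0 ≤ 1) (hE : 0 ≤ E) (hJ : 0 ≤ J) (hD : 2 * (E + J) ≤ b0 * D0)
    (hD0 : 0 < D0) (hTv : v ≤ T) (hva : a < v) (hai : i < a)
    (top : ∀ m, i < m → m ≤ T → f m ≤ f T) (hi : f i ≤ l * κ) (hi' : l * κ - J ≤ f i)
    (I1 : f v - f i ≤ g v) (I2 : g a ≤ f a - f i + E)
    (hviol : g v ≤ (1 - b0) * g a) (hga : D0 ≤ g a) :
    ValL f κ (b0 / 2) (D0 / 2) T i l := by
  classical
  obtain ⟨x, hx, hmax⟩ := Finset.exists_max_image (Ioc i v) f ⟨v, by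
    rw [mem_Ioc]; exact ⟨by omega, le_rfl⟩⟩
  rw [mem_Ioc] at hx
  have hmax' : ∀ m, i < m → m ≤ v → f m ≤ f x := fun m h1 h2 => hmax m (by
    rw [mem_Ioc]; exact ⟨h1, h2⟩)
  obtain ⟨c1, c2, c3⟩ := core hb0 hb1 hE hJ hD hD0 hi hi' I1 I2 (hmax' a hai hva.le) hviol hga
  refine ⟨v, x, ?_, hx.2, hx.1, hmax', c1, c2⟩
  rcases Nat.lt_or_ge v T with h | h
  · exact h
  · exfalso
    have h4 : v = T := by omega
    have h5 := top x hx.1 (by omega)
    rw [← h4] at h5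
    linarith

end Crest.Agent.R128.FiveRL
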