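import Mathlib
import Crest.Agent.R128.AccSeq

/-!
# Row 128, part A for the root contour, heights truncated at a fixed `H` (helper663)

Deterministic part.  `Low β κ H n j`: the level `jκ` is crossed downwards at the step `n → n+1`, and
the closed component of `{β > jκ}` which ends there has its top at most `(j+H)κ`.
The components with a higher top are crossed by the grid path `i ↦ β (iM)`, so they are few as
soon as the increments of the grid path are small.
-/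

set_option autoImplicit false
open Finset

namespace Crest.Agent.R128.RootT
open Crest.Agent.R128.Acc

/-- `(a, n]` is a closed component of `{β > jκ}` -/
def Cmp (β : ℕ → ℝ) (κ : ℝ) (a n j : ℕ) : Prop :=
  a < n ∧ β a ≤ j * κ ∧ (∀ m, a < m → m ≤ n → j * κ < β m) ∧ β (n + 1) ≤ j * κ

/-- closed component with top at most `(j+H)κ` -/
def Low (β : ℕ → ℝ) (κ : ℝ) (H n j : ℕ) : Prop :=
  ∃ a, Cmp β κ a n j ∧ ∀ m, a < m → m ≤ n → β m ≤ (j + H) * κ

theorem lip_le {β : ℕ → ℝ} {L : ℝ} (hL : ∀ n, |β (n + 1) - β n| ≤ L) (n : ℕ) :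
    ∀ m, |β (n + m) - β n| ≤ m * L := by
  intro m
  induction m with
  | zero => simp
  | succ m ih =>
    have h1 := hL (n + m)
    have h2 : β (n + (m + 1)) - β n = (β (n + m + 1) - β (n + m)) + (β (n + m) - β n) := by
      rw [← add_assoc]
      ring
    rw [h2]
    refine (abs_add_le _ _).trans ?_
    push_cast
    linarith

theorem lip_le' {β : ℕ → ℝ} {L : ℝ} (hL : ∀ n, |β (n + 1) - β n| ≤ L) {n m : ℕ} (h : n ≤ m) {M : ℕ}
    (hM : m ≤ n + M) : |β m - β n| ≤ M * L := by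
  obtain ⟨d, rfl⟩ := Nat.exists_eq_add_of_le h
  have hL0 : 0 ≤ L := (abs_nonneg _).trans (hL 0)
  refine (lip_le hL n d).trans ?_
  have : (d : ℝ) ≤ M := by exact_mod_cast (by omega : d ≤ M)
  exact mul_le_mul_of_nonneg_right this hL0

theorem cross {g : ℕ → ℝ} {x : ℝ} {i0 i1 : ℕ} (h : i0 ≤ i1) (h0 : x < g i0) (h1 : g i1 ≤ x) :
    ∃ i, i0 ≤ i ∧ i < i1 ∧ x < g i ∧ g (i + 1) ≤ x := by
  induction i1, h using Nat.le_induction with
  | base => exact absurd h0 (not_lt.mpr h1)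
  | succ n hn ih =>
    rcases le_or_gt (g n) x with h2 | h2
    · obtain ⟨i, a, b, c, d⟩ := ih h2
      exact ⟨i, a, by omega, c, d⟩
    · exact ⟨n, hn, by omega, h2, h1⟩

open Classical in
/-- the number of all closed components is at most the number of the low ones plus the number of
down crossings of the grid path -/
theorem count_le {β : ℕ → ℝ} {κ L : ℝ} (hκ : 0 < κ) (h0 : β 0 = 0)
    (hL : ∀ n, |β (n + 1) - β n| ≤ L) {M : ℕ} (hM : 0 < M) (H : ℕ) (hH : 2 * (M * L) ≤ H * κ)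
    (N R : ℕ) (hR : ∀ t, t < N → β t ≤ R * κ) :
    ∑ n ∈ range N, (⌈β n / κ⌉₊ - ⌈β (n + 1) / κ⌉₊) ≤
      ∑ n ∈ range N, #{j ∈ range R | Low β κ H n j} +
      ∑ i ∈ range (N / M), (⌈(β (i * M) - M * L) / κ⌉₊ - ⌈(β ((i + 1) * M) - M * L) / κ⌉₊) := by
  have hL0 : 0 ≤ L := (abs_nonneg _).trans (hL 0)
  set A := (range N).sigma (fun n => Finset.Ico ⌈β (n + 1) / κ⌉₊ ⌈β n / κ⌉₊) with hA
  set C := (range (N / M)).sigma (fun i => Finset.Ico ⌈(β ((i + 1) * M) - M * L) / κ⌉₊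
    ⌈(β (i * M) - M * L) / κ⌉₊) with hC
  set B := (range N).sigma (fun n => {j ∈ range R | Low β κ H n j}) with hB
  have hmemA : ∀ p : Σ _ : ℕ, ℕ, p ∈ A → p.1 < N ∧ β (p.1 + 1) ≤ p.2 * κ ∧ p.2 * κ < β p.1 := by
    intro p hp
    rw [hA, Finset.mem_sigma, Finset.mem_Ico, Finset.mem_range] at hp
    obtain ⟨h1, h2, h3⟩ := hp
    refine ⟨h1, ?_, ?_⟩
    · rwa [Nat.ceil_le, div_le_iff₀ hκ] at h2
    · rwa [Nat.lt_ceil, lt_div_iff₀ hκ] at h3
  -- the component of a pair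
  have hcomp : ∀ p : Σ _ : ℕ, ℕ, p ∈ A → ∃ a, Cmp β κ a p.1 p.2 := by
    intro p hp
    obtain ⟨h1, h2, h3⟩ := hmemA p hp
    obtain ⟨a, t, q1, q2, q3, q4, _, _⟩ := exists_top hκ h0 h2 h3
    exact ⟨a, by omega, q3, q4, h2⟩
  have key : ∀ p : Σ _ : ℕ, ℕ, ∃ i : ℕ, p ∈ A.filter (fun p => ¬ Low β κ H p.1 p.2) →
      (⟨i, p.2⟩ : Σ _ : ℕ, ℕ) ∈ C ∧ i * M ≤ p.1 ∧
        (∀ m, i * M ≤ m → m ≤ p.1 → p.2 * κ < β m) := by
    intro p
    by_cases hp : p ∈ A.filter (fun p => ¬ Low β κ H p.1 p.2)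
    swap
    · exact ⟨0, fun h => absurd h hp⟩
    rw [Finset.mem_filter] at hp
    obtain ⟨hpA, hnl⟩ := hp
    obtain ⟨hpN, hp1, hp2⟩ := hmemA p hpA
    obtain ⟨a, hc⟩ := hcomp p hpA
    have hnl2 : ∃ m, a < m ∧ m ≤ p.1 ∧ ((p.2 : ℝ) + H) * κ < β m := by
      by_contra hcon
      push Not at hcon
      exact hnl ⟨a, hc, hcon⟩
    obtain ⟨m, ham, hmn, hm⟩ := hnl2
    obtain ⟨han, hca, hcm, hcn⟩ := hc
    have e0 : m / M * M ≤ m := Nat.div_mul_le_self m M
    have e0' : m < m / M * M + M := by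
      have := Nat.lt_div_mul_add (a := m) hM
      exact this
    have e1 : (p.1 + 1) / M * M ≤ p.1 + 1 := Nat.div_mul_le_self _ M
    have e1' : p.1 + 1 < (p.1 + 1) / M * M + M := Nat.lt_div_mul_add (a := p.1 + 1) hM
    have g0 : (p.2 : ℝ) * κ + M * L < β (m / M * M) := by
      have := abs_le.mp (lip_le' hL e0 (M := M) (by omega))
      nlinarith
    have g1 : β ((p.1 + 1) / M * M) ≤ p.2 * κ + M * L := by
      have := abs_le.mp (lip_le' hL e1 (M := M) (by omega))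
      linarith
    obtain ⟨i, hi0, hi1, hi2, hi3⟩ := cross (g := fun i => β (i * M)) (x := (p.2 : ℝ) * κ + M * L)
      (Nat.div_le_div_right (c := M) (by omega : m ≤ p.1 + 1)) g0 g1
    have hiN : i < N / M := lt_of_lt_of_le hi1 (Nat.div_le_div_right (by omega))
    have hiM : (i + 1) * M ≤ p.1 + 1 := (Nat.mul_le_mul_right M hi1).trans e1
    have hiM' : i * M ≤ p.1 := by
      have : (i + 1) * M = i * M + M := by ring
      omega
    have hai : a < i * M := by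
      by_contra hcon
      push Not at hcon
      have h5 : m / M * M ≤ a := (Nat.mul_le_mul_right M hi0).trans hcon
      have := abs_le.mp (lip_le' hL (le_of_lt ham) (M := M) (by omega))
      have h6 : 0 ≤ (M : ℝ) * L := by positivity
      nlinarith
    refine ⟨i, fun _ => ⟨?_, hiM', fun m' h7 h8 => hcm m' (by omega) h8⟩⟩
    rw [hC, Finset.mem_sigma, Finset.mem_Ico, Finset.mem_range]
    refine ⟨hiN, ?_, ?_⟩
    · rw [Nat.ceil_le, div_le_iff₀ hκ]
      linarith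
    · rw [Nat.lt_ceil, lt_div_iff₀ hκ]
      linarith
  choose q hq using key
  have h1 : ∑ n ∈ range N, (⌈β n / κ⌉₊ - ⌈β (n + 1) / κ⌉₊) = #A := by
    rw [hA, Finset.card_sigma]
    simp
  have h2 : ∑ n ∈ range N, #{j ∈ range R | Low β κ H n j} = #B := by
    rw [hB, Finset.card_sigma]
  have h3 : ∑ i ∈ range (N / M), (⌈(β (i * M) - M * L) / κ⌉₊ - ⌈(β ((i + 1) * M) - M * L) / κ⌉₊)
      = #C := by
    rw [hC, Finset.card_sigma]
    simp
  rw [h1, h2, h3, ← Finset.card_filter_add_card_filter_not (fun p => Low β κ H p.1 p.2)]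
  apply Nat.add_le_add
  · apply Finset.card_le_card
    intro p hp
    rw [Finset.mem_filter] at hp
    obtain ⟨h4, h5, h6⟩ := hmemA p hp.1
    rw [hB, Finset.mem_sigma, Finset.mem_filter, Finset.mem_range, Finset.mem_range]
    refine ⟨h4, ?_, hp.2⟩
    have := hR _ h4
    have h7 : (p.2 : ℝ) * κ < R * κ := lt_of_lt_of_le h6 this
    exact_mod_cast (lt_of_mul_lt_mul_right h7 hκ.le)
  · apply Finset.card_le_card_of_injOn (fun p => (⟨q p, p.2⟩ : Σ _ : ℕ, ℕ))
    · intro p hp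
      exact (hq p (Finset.mem_coe.mp hp)).1
    · intro p hp p' hp' h
      have hp := Finset.mem_coe.mp hp
      have hp' := Finset.mem_coe.mp hp'
      obtain ⟨_, h4, h5⟩ := hq p hp
      obtain ⟨_, h4', h5'⟩ := hq p' hp'
      simp only [Sigma.mk.injEq, heq_eq_eq] at h
      obtain ⟨ei, ej⟩ := h
      rw [← ei] at h4' h5'
      obtain ⟨_, u1, _⟩ := hmemA p (Finset.mem_filter.mp hp).1
      obtain ⟨_, u2, _⟩ := hmemA p' (Finset.mem_filter.mp hp').1
      have en : p.1 = p'.1 := by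
        rcases lt_trichotomy p.1 p'.1 with hlt | heq | hlt
        · have := h5' (p.1 + 1) (by omega) (by omega)
          rw [← ej] at this
          linarith
        · exact heq
        · have := h5 (p'.1 + 1) (by omega) (by omega)
          rw [ej] at this
          linarith
      exact Sigma.ext en (heq_of_eq ej)

theorem ceil_sub_le {x y : ℝ} : ((⌈x⌉₊ - ⌈y⌉₊ : ℕ) : ℝ) ≤ |y - x| + 1 := by
  rcases le_total ⌈x⌉₊ ⌈y⌉₊ with h | h
  · rw [Nat.sub_eq_zero_of_le h]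
    simp only [Nat.cast_zero]
    have := abs_nonneg (y - x)
    linarith
  · rw [Nat.cast_sub h]
    have h1 : y ≤ ⌈y⌉₊ := Nat.le_ceil y
    have h2 : (0 : ℝ) ≤ ⌈y⌉₊ := Nat.cast_nonneg _
    rcases le_or_gt x 0 with hx | hx
    · rw [Nat.ceil_eq_zero.mpr hx]
      simp only [Nat.cast_zero]
      have := abs_nonneg (y - x)
      linarith
    · have h3 : (⌈x⌉₊ : ℝ) < x + 1 := Nat.ceil_lt_add_one hx.le
      have := neg_abs_le (y - x)
      linarith

open Classical in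
/-- total descent in terms of the crossings -/
theorem down_le' {β : ℕ → ℝ} {κ L : ℝ} (hκ : 0 < κ) (hβ : ∀ n, 0 ≤ β n)
    (hL0 : 0 ≤ L) (N : ℕ) (bad : ℕ → Prop)
    (hL : ∀ n, β n - β (n + 1) ≤ L)
    (hgood : ∀ n, ¬ bad n → β (n + 1) < β n → κ ≤ β n - β (n + 1)) :
    ∑ n ∈ range N, max 0 (β n - β (n + 1)) ≤
      2 * κ * ∑ n ∈ range N, ((⌈β n / κ⌉₊ - ⌈β (n + 1) / κ⌉₊ : ℕ) : ℝ) +
        L * #{n ∈ range N | bad n} := by
  have h2 : ∀ n, max 0 (β n - β (n + 1)) ≤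
      2 * κ * ((⌈β n / κ⌉₊ - ⌈β (n + 1) / κ⌉₊ : ℕ) : ℝ) + L * (if bad n then 1 else 0) := by
    intro n
    have hc0 : (0 : ℝ) ≤ ((⌈β n / κ⌉₊ - ⌈β (n + 1) / κ⌉₊ : ℕ) : ℝ) := Nat.cast_nonneg _
    have hκc : 0 ≤ 2 * κ * ((⌈β n / κ⌉₊ - ⌈β (n + 1) / κ⌉₊ : ℕ) : ℝ) := by positivity
    by_cases hb : bad n
    · simp only [hb, if_true]
      refine max_le (by linarith) ?_
      linarith [hL n]
    · simp only [hb, if_false]
      rcases le_or_gt (β n) (β (n + 1)) with h | h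
      · refine max_le (by linarith) (by linarith)
      · have h3 := hgood n hb h
        have hle : ⌈β (n + 1) / κ⌉₊ + 1 ≤ ⌈β n / κ⌉₊ := by
          rw [← Nat.ceil_add_one (div_nonneg (hβ _) hκ.le)]
          apply Nat.ceil_mono
          rw [← div_self hκ.ne', ← add_div]
          exact div_le_div_of_nonneg_right (by linarith) hκ.le
        have e : (((⌈β n / κ⌉₊ - ⌈β (n + 1) / κ⌉₊ : ℕ)) : ℝ) =
            (⌈β n / κ⌉₊ : ℝ) - ⌈β (n + 1) / κ⌉₊ := by
          rw [Nat.cast_sub (by omega)]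
        have c1 : β n / κ ≤ ⌈β n / κ⌉₊ := Nat.le_ceil _
        have c2 : (⌈β (n + 1) / κ⌉₊ : ℝ) < β (n + 1) / κ + 1 :=
          Nat.ceil_lt_add_one (div_nonneg (hβ _) hκ.le)
        have c3 : (1 : ℝ) ≤ (⌈β n / κ⌉₊ : ℝ) - ⌈β (n + 1) / κ⌉₊ := by
          have : ((⌈β (n + 1) / κ⌉₊ + 1 : ℕ) : ℝ) ≤ ⌈β n / κ⌉₊ := by exact_mod_cast hle
          push_cast at this
          linarith
        have c4 : (β n - β (n + 1)) ≤ κ * ((⌈β n / κ⌉₊ : ℝ) - ⌈β (n + 1) / κ⌉₊ + 1) := by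
          have : (β n - β (n + 1)) / κ ≤ (⌈β n / κ⌉₊ : ℝ) - ⌈β (n + 1) / κ⌉₊ + 1 := by
            rw [sub_div]
            linarith
          rw [div_le_iff₀ hκ] at this
          linarith
        rw [e]
        refine max_le (by nlinarith) ?_
        nlinarith
  calc ∑ n ∈ range N, max 0 (β n - β (n + 1)) ≤
      ∑ n ∈ range N, (2 * κ * ((⌈β n / κ⌉₊ - ⌈β (n + 1) / κ⌉₊ : ℕ) : ℝ) +
        L * (if bad n then 1 else 0)) := Finset.sum_le_sum fun n _ => h2 n
    _ = 2 * κ * (∑ n ∈ range N, ((⌈β n / κ⌉₊ - ⌈β (n + 1) / κ⌉₊ : ℕ) : ℝ)) +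
        L * #{n ∈ range N | bad n} := by
      rw [Finset.sum_add_distrib, ← Finset.mul_sum, ← Finset.mul_sum]
      congr 2
      simp

section Rho

variable {ρ V : ℕ → ℝ} {L κ : ℝ}

open Classical in
/-- **deterministic accounting**, root form -/
theorem accounting' (hV : ∀ n, 0 ≤ V n) (hρ : ∀ n, 0 < ρ n)
    (h1 : ∀ n, V n * ρ (n + 1) ≤ ρ (n + 2) + ρ n)
    (h2 : ∀ n, ρ (n + 2) ≤ V n * ρ (n + 1) + ρ n)
    (h3 : ∀ n, ρ n ≤ V n * ρ (n + 1) + ρ (n + 2))
    (h4 : ∀ n, 1 ≤ ρ n * ρ (n + 1)) (h00 : ρ 0 = 1) (h01 : ρ 1 = 1)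
    (hL : ∀ n, Real.log (1 + V n) ≤ L) (hκ : 0 < κ) {M : ℕ} (hM : 0 < M) (H : ℕ)
    (hH : 2 * (M * L) ≤ H * κ) (N R : ℕ) (hR : N * L ≤ R * κ) :
    (∑ n ∈ range N, gn (V n)) - 5 * L * #{n ∈ range N | V n < Real.exp κ + 1}
      - 4 * κ * (∑ n ∈ range N, (#{j ∈ range R | Low (bt ρ) κ H n j} : ℝ))
      - 4 * ∑ i ∈ range (N / M), (|bt ρ ((i + 1) * M) - bt ρ (i * M)| + κ) ≤ bt ρ N := by
  have hL0 : 0 ≤ L := (Real.log_nonneg (by linarith [hV 0])).trans (hL 0)
  have hb0 : bt ρ 0 = 0 := by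
    unfold bt
    rw [zero_add, h00, h01]
    simp
  have hbn := bt_nonneg hρ h4
  have hbL : ∀ n, bt ρ n ≤ n * L := by
    intro n
    induction n with
    | zero => rw [hb0]; simp
    | succ n ih =>
      have := bt_succ_le hV hρ h2 hL n
      push_cast
      linarith
  have hRt : ∀ t, t < N → bt ρ t ≤ R * κ := by
    intro t ht
    refine (hbL t).trans (le_trans ?_ hR)
    have : (t : ℝ) ≤ N := by exact_mod_cast ht.le
    nlinarith
  have he2 : (2 : ℝ) ≤ Real.exp κ + 1 := by linarith [Real.add_one_le_exp κ]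
  -- counting
  set B : ℝ := (#{n ∈ range N | V n < Real.exp κ + 1} : ℝ) with hB
  have hB2 : (#{n ∈ range N | V n < 2} : ℝ) ≤ B := by
    rw [hB]
    have : #{n ∈ range N | V n < 2} ≤ #{n ∈ range N | V n < Real.exp κ + 1} := by
      apply Finset.card_le_card
      intro n hn
      rw [Finset.mem_filter] at hn ⊢
      exact ⟨hn.1, by linarith [hn.2]⟩
    exact_mod_cast this
  have hVal := (valleys_le hρ h1 (by rw [h00, h01]) N).trans hB2
  -- bad steps
  have hbad : ∀ bad : ℕ → Prop, (∀ n, bad n → V n < Real.exp κ + 1 ∨ Val ρ n) →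
      (#{n ∈ range N | bad n} : ℝ) ≤ 2 * B := by
    intro bad hb
    have : #{n ∈ range N | bad n} ≤
        #{n ∈ range N | V n < Real.exp κ + 1} + #{n ∈ range N | Val ρ n} := by
      refine le_trans (Finset.card_le_card ?_) (Finset.card_union_le _ _)
      intro n hn
      rw [Finset.mem_filter] at hn
      rw [Finset.mem_union, Finset.mem_filter, Finset.mem_filter]
      rcases hb n hn.2 with h | h
      · exact Or.inl ⟨hn.1, h⟩
      · exact Or.inr ⟨hn.1, h⟩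
    have h' : (#{n ∈ range N | bad n} : ℝ) ≤
        B + #{n ∈ range N | Val ρ n} := by
      rw [hB]
      exact_mod_cast this
    linarith
  have hdown := down_le' (β := bt ρ) (L := L) hκ hbn hL0 N
    (fun n => V n < Real.exp κ + 1 ∨ Val ρ n)
    (fun n => by linarith [bt_le_succ hV hρ h3 hL n])
    (by
      intro n hn hlt
      push Not at hn
      have h5 := step_abs hρ h1 (by linarith [hn.1]) hn.2
      have h6 : κ ≤ Real.log (V n - 1) := by
        rw [Real.le_log_iff_exp_le (by linarith [Real.exp_pos κ, hn.1])]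
        linarith [hn.1]
      rw [abs_of_neg (by linarith)] at h5
      linarith)
  -- total variation
  have hvar : ∀ n, gn (V n) - L * (if Val ρ n then 1 else 0) ≤ |bt ρ (n + 1) - bt ρ n| := by
    intro n
    unfold gn
    by_cases h5 : V n < 2
    · rw [if_pos h5]
      have : 0 ≤ L * (if Val ρ n then (1 : ℝ) else 0) := by
        apply mul_nonneg hL0
        split_ifs <;> norm_num
      linarith [abs_nonneg (bt ρ (n + 1) - bt ρ n)]
    · rw [if_neg h5]
      push Not at h5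
      by_cases h6 : Val ρ n
      · rw [if_pos h6]
        have : Real.log (V n - 1) ≤ L :=
          (Real.log_le_log (by linarith) (by linarith)).trans (hL n)
        linarith [abs_nonneg (bt ρ (n + 1) - bt ρ n)]
      · rw [if_neg h6]
        linarith [step_abs hρ h1 h5 h6]
  have hvar2 := Finset.sum_le_sum fun n (_ : n ∈ range N) => hvar n
  rw [Finset.sum_sub_distrib, ← Finset.mul_sum, Finset.sum_boole] at hvar2
  have hid : bt ρ N = ∑ n ∈ range N, |bt ρ (n + 1) - bt ρ n| -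
      2 * ∑ n ∈ range N, max 0 (bt ρ n - bt ρ (n + 1)) := by
    have : bt ρ N = ∑ n ∈ range N, (bt ρ (n + 1) - bt ρ n) := by
      rw [Finset.sum_range_sub, hb0, sub_zero]
    rw [this, Finset.mul_sum, ← Finset.sum_sub_distrib]
    refine Finset.sum_congr rfl fun n _ => ?_
    rcases le_total (bt ρ n) (bt ρ (n + 1)) with h | h
    · rw [abs_of_nonneg (by linarith), max_eq_left (by linarith)]
      ring
    · rw [abs_of_nonpos (by linarith), max_eq_right (by linarith)]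
      ring
  -- the number of crossings
  have hlip : ∀ n, |bt ρ (n + 1) - bt ρ n| ≤ L := fun n => abs_le.mpr
    ⟨by linarith [bt_le_succ hV hρ h3 hL n], by linarith [bt_succ_le hV hρ h2 hL n]⟩
  have hcnt := count_le hκ hb0 hlip hM H hH N R hRt
  have hcnt2 : (∑ n ∈ range N, ((⌈bt ρ n / κ⌉₊ - ⌈bt ρ (n + 1) / κ⌉₊ : ℕ) : ℝ)) ≤
      (∑ n ∈ range N, (#{j ∈ range R | Low (bt ρ) κ H n j} : ℝ)) +
      ∑ i ∈ range (N / M), ((⌈(bt ρ (i * M) - M * L) / κ⌉₊ -
        ⌈(bt ρ ((i + 1) * M) - M * L) / κ⌉₊ : ℕ) : ℝ) := by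
    exact_mod_cast hcnt
  have hcnt3 : κ * ∑ i ∈ range (N / M), ((⌈(bt ρ (i * M) - M * L) / κ⌉₊ -
        ⌈(bt ρ ((i + 1) * M) - M * L) / κ⌉₊ : ℕ) : ℝ) ≤
      ∑ i ∈ range (N / M), (|bt ρ ((i + 1) * M) - bt ρ (i * M)| + κ) := by
    rw [Finset.mul_sum]
    refine Finset.sum_le_sum fun i _ => ?_
    refine (mul_le_mul_of_nonneg_left ceil_sub_le hκ.le).trans ?_
    rw [← sub_div, abs_div, abs_of_pos hκ, mul_add, mul_div_cancel₀ _ hκ.ne', mul_one]
    apply le_of_eq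
    congr 2
    ring
  have hmul2 := mul_le_mul_of_nonneg_left (hbad (fun n => V n < Real.exp κ + 1 ∨ Val ρ n)
    fun n h => h) hL0
  have hmul3 := mul_le_mul_of_nonneg_left hVal hL0
  have hmul4 := mul_le_mul_of_nonneg_left hcnt2 (by positivity : 0 ≤ 4 * κ)
  rw [hid]
  nlinarith

end Rho

end Crest.Agent.R128.RootT
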