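import Mathlib
import Crest.Agent.R128.RootSeq
import Crest.Agent.R128.Acc

/-!
# Row 128, part A for the root contour, heights truncated at a fixed `H` (helper663)

`result_of_root`: S0172 follows if, for all large `k` and every FIXED `H`, for frequently many `N`, the
expected number of closed components `(a, n]` of the levels `{β > j κ}`, `κ = log k / 2`, of the ROOT
contour `β = bt (rr k z)` (`= log` of the norm of `Mn k m z`), which are closed before `N` and whose top
is at most `(j+H) κ`, is at most `N / 5`.  (No bound uniform in `H` at fixed `N` is needed.)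
-/

set_option autoImplicit false
open MeasureTheory Filter Topology Finset
open Crest.AnalysisR.StandardFamily

namespace Crest.Agent.R128.RootT
open Crest.Agent.R128.Acc

/-- largest row norm -/
noncomputable def rx (M : Matrix (Fin 2) (Fin 2) ℝ) : ℝ := max (rn M 0) (rn M 1)

theorem rn_nonneg (M : Matrix (Fin 2) (Fin 2) ℝ) (i : Fin 2) : 0 ≤ rn M i := by
  unfold rn
  positivity

theorem rx_mul_le (A B : Matrix (Fin 2) (Fin 2) ℝ) : rx (A * B) ≤ 2 * mx A * rx B := by
  have key : ∀ i : Fin 2, rn (A * B) i ≤ 2 * mx A * rx B := by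
    intro i
    have h0 := entry_le_mx A i 0
    have h1 := entry_le_mx A i 1
    have r0 : rn B 0 ≤ rx B := le_max_left _ _
    have r1 : rn B 1 ≤ rx B := le_max_right _ _
    have e : rn (A * B) i ≤ |A i 0| * rn B 0 + |A i 1| * rn B 1 := by
      unfold rn
      simp only [Matrix.mul_apply, Fin.sum_univ_two]
      have a := abs_add_le (A i 0 * B 0 0) (A i 1 * B 1 0)
      have b := abs_add_le (A i 0 * B 0 1) (A i 1 * B 1 1)
      rw [abs_mul, abs_mul] at a b
      linarith
    have u0 := mul_le_mul h0 r0 (rn_nonneg B 0) (mx_nonneg A)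
    have u1 := mul_le_mul h1 r1 (rn_nonneg B 1) (mx_nonneg A)
    linarith
  exact max_le (key 0) (key 1)

theorem rx_le_mul {A : Matrix (Fin 2) (Fin 2) ℝ} (hA : A.det = 1) (B : Matrix (Fin 2) (Fin 2) ℝ) :
    rx B ≤ 2 * mx A * rx (A * B) := by
  have h1 : A.adjugate * (A * B) = B := by
    rw [← Matrix.mul_assoc, Matrix.adjugate_mul, hA, one_smul, one_mul]
  have h2 := rx_mul_le A.adjugate (A * B)
  rw [h1] at h2
  have h3 : mx A.adjugate = mx A := by
    rw [Matrix.adjugate_fin_two]
    unfold mx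
    simp only [Matrix.of_apply, Matrix.cons_val', Matrix.cons_val_zero, Matrix.cons_val_one,
      Matrix.cons_val_fin_one, abs_neg]
    rw [max_comm |A 1 1| |A 0 1|, max_comm |A 1 0| |A 0 0|, max_max_max_comm,
      max_comm |A 0 1| |A 0 0|, max_comm |A 1 1| |A 1 0|]
  rwa [h3] at h2

theorem bt_eq (k : ℝ) (z : Tor) (n : ℕ) : bt (rr k z) n = Real.log (rx (Mn k n z)) := by
  unfold bt rx
  rw [rr_succ]
  rfl

theorem rx_pos (k : ℝ) (z : Tor) (n : ℕ) : 0 < rx (Mn k n z) :=
  lt_max_of_lt_left (rr_pos k z n)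

/-- increments of the root contour over `M` steps -/
theorem abs_bt_sub_le (k : ℝ) (z : Tor) (n M : ℕ) :
    |bt (rr k z) (n + M) - bt (rr k z) n| ≤ lm k M ((T k)^[n] z) + Real.log 2 := by
  have hdet := det_Mn k M ((T k)^[n] z)
  have hmx := mx_pos hdet
  have e : Mn k (n + M) z = Mn k M ((T k)^[n] z) * Mn k n z := by
    rw [add_comm, Mn_add]
  rw [bt_eq, bt_eq, e]
  have p1 := rx_pos k z n
  have p2 : 0 < rx (Mn k M ((T k)^[n] z) * Mn k n z) := by
    rw [← e]
    exact rx_pos k z _
  have h1 := Real.log_le_log p2 (rx_mul_le (Mn k M ((T k)^[n] z)) (Mn k n z))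
  have h2 := Real.log_le_log p1 (rx_le_mul hdet (Mn k n z))
  rw [Real.log_mul (by positivity) (by positivity), Real.log_mul (by norm_num) hmx.ne'] at h1 h2
  unfold lm
  rw [abs_le]
  constructor <;> linarith

theorem continuous_bt (k : ℝ) (n : ℕ) : Continuous fun z : Tor => bt (rr k z) n := by
  have h : Continuous fun z : Tor => rx (Mn k n z) := by
    have := continuous_Mn k n
    unfold rx rn
    fun_prop
  simp only [bt_eq]
  exact h.log fun z => (rx_pos k z n).ne'

theorem measurableSet_Low (k κ : ℝ) (H n j : ℕ) :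
    MeasurableSet {z : Tor | Low (bt (rr k z)) κ H n j} := by
  have hm : ∀ m, Measurable fun z : Tor => bt (rr k z) m := fun m =>
    (continuous_bt k m).measurable
  have e : {z : Tor | Low (bt (rr k z)) κ H n j} = ⋃ a : ℕ, {z : Tor | a < n ∧
      bt (rr k z) a ≤ j * κ} ∩ (⋂ m : ℕ, {z : Tor | a < m → m ≤ n → j * κ < bt (rr k z) m}) ∩
      {z : Tor | bt (rr k z) (n + 1) ≤ j * κ} ∩
      ⋂ m : ℕ, {z : Tor | a < m → m ≤ n → bt (rr k z) m ≤ (j + H) * κ} := by
    ext z
    simp only [Set.mem_ofPred_eq, Set.mem_iUnion, Set.mem_inter_iff, Set.mem_iInter, Low, Cmp]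
    constructor
    · rintro ⟨a, ⟨h1, h2, h3, h4⟩, h5⟩
      exact ⟨a, ⟨⟨⟨h1, h2⟩, h3⟩, h4⟩, h5⟩
    · rintro ⟨a, ⟨⟨⟨h1, h2⟩, h3⟩, h4⟩, h5⟩
      exact ⟨a, ⟨h1, h2, h3, h4⟩, h5⟩
  rw [e]
  refine MeasurableSet.iUnion fun a => ((MeasurableSet.inter ?_ ?_).inter ?_).inter ?_
  · by_cases h : a < n
    · simp only [h, true_and]
      exact measurableSet_le (hm a) measurable_const
    · simp only [h, false_and, Set.ofPred_false, MeasurableSet.empty]
  · refine MeasurableSet.iInter fun m => ?_
    by_cases h : a < m ∧ m ≤ n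
    · have : {z : Tor | a < m → m ≤ n → j * κ < bt (rr k z) m} =
          {z : Tor | j * κ < bt (rr k z) m} := by
        ext z
        exact ⟨fun hz => hz h.1 h.2, fun hz _ _ => hz⟩
      rw [this]
      exact measurableSet_lt measurable_const (hm m)
    · have : {z : Tor | a < m → m ≤ n → j * κ < bt (rr k z) m} = Set.univ := by
        ext z
        simp only [Set.mem_ofPred_eq, Set.mem_univ, iff_true]
        intro h1 h2
        exact absurd ⟨h1, h2⟩ h
      rw [this]
      exact MeasurableSet.univ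
  · exact measurableSet_le (hm _) measurable_const
  · refine MeasurableSet.iInter fun m => ?_
    by_cases h : a < m ∧ m ≤ n
    · have : {z : Tor | a < m → m ≤ n → bt (rr k z) m ≤ (j + H) * κ} =
          {z : Tor | bt (rr k z) m ≤ (j + H) * κ} := by
        ext z
        exact ⟨fun hz => hz h.1 h.2, fun hz _ _ => hz⟩
      rw [this]
      exact measurableSet_le (hm m) measurable_const
    · have : {z : Tor | a < m → m ≤ n → bt (rr k z) m ≤ (j + H) * κ} = Set.univ := by
        ext z
        simp only [Set.mem_ofPred_eq, Set.mem_univ, iff_true]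
        intro h1 h2
        exact absurd ⟨h1, h2⟩ h
      rw [this]
      exact MeasurableSet.univ

/-- density of the low components, in `[0, N]` (`N` times) -/
noncomputable def LowD (k κ : ℝ) (H N R : ℕ) : ℝ :=
  ∑ n ∈ range N, ∑ j ∈ range R, (volume : Measure Tor).real {z | Low (bt (rr k z)) κ H n j}

open Classical in
/-- the density is the integral of the number of low components -/
theorem LowD_eq (k κ : ℝ) (H N R : ℕ) :
    LowD k κ H N R = ∫ z : Tor, (∑ n ∈ range N, (#{j ∈ range R | Low (bt (rr k z)) κ H n j} : ℝ)) := by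
  have h : ∀ z : Tor, (∑ n ∈ range N, (#{j ∈ range R | Low (bt (rr k z)) κ H n j} : ℝ)) =
      ∑ n ∈ range N, ∑ j ∈ range R,
        Set.indicator {z : Tor | Low (bt (rr k z)) κ H n j} (fun _ => (1:ℝ)) z := by
    intro z
    refine Finset.sum_congr rfl fun n _ => ?_
    rw [Finset.card_filter]
    push_cast
    refine Finset.sum_congr rfl fun j _ => ?_
    rw [Set.indicator_apply]
    rfl
  have hI : ∀ n j, Integrable (Set.indicator {z : Tor | Low (bt (rr k z)) κ H n j}
      (fun _ => (1:ℝ))) volume := fun n j =>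
    (integrable_const (1:ℝ)).indicator (measurableSet_Low k κ H n j)
  simp only [h]
  rw [integral_finsetSum _ fun n _ => integrable_finsetSum _ fun j _ => hI n j]
  unfold LowD
  refine Finset.sum_congr rfl fun n _ => ?_
  rw [integral_finsetSum _ fun j _ => hI n j]
  refine Finset.sum_congr rfl fun j _ => ?_
  rw [integral_indicator (measurableSet_Low k κ H n j)]
  simp

open Classical in
/-- a pointwise bound of the number of low components bounds the density -/
theorem LowD_le {k κ : ℝ} {H N R : ℕ} {Φ : Tor → ℝ} (hΦ : Integrable Φ volume)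
    (h : ∀ z : Tor, (∑ n ∈ range N, (#{j ∈ range R | Low (bt (rr k z)) κ H n j} : ℝ)) ≤ Φ z) :
    LowD k κ H N R ≤ ∫ z, Φ z := by
  rw [LowD_eq]
  exact integral_mono_of_nonneg (Eventually.of_forall fun z => by positivity) hΦ
    (Eventually.of_forall h)

open Classical in
theorem pointwise' {k κ : ℝ} (hk : 0 ≤ k) (hκ : 0 < κ) (z : Tor) {M : ℕ} (hM : 0 < M) (H : ℕ)
    (hH : 2 * (M * Real.log (3 + 2 * Real.pi * k)) ≤ H * κ) (N R : ℕ)
    (hR : N * Real.log (3 + 2 * Real.pi * k) ≤ R * κ) :
    (∑ n ∈ range N, (lm k 1 ((T k)^[n] z) - Real.log 2)) -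
      5 * Real.log (3 + 2 * Real.pi * k) *
        #{n ∈ range N | dg k z n < Real.exp κ + 1}
      - 4 * κ * (∑ n ∈ range N, (#{j ∈ range R | Low (bt (rr k z)) κ H n j} : ℝ))
      - 4 * ∑ i ∈ range (N / M), (lm k M ((T k)^[i * M] z) + Real.log 2 + κ)
      ≤ lm k N z + Real.log 2 := by
  have h := accounting' (ρ := rr k z) (V := dg k z) (L := Real.log (3 + 2 * Real.pi * k)) (κ := κ)
    (fun n => abs_nonneg _) (rr_pos k z) (rr_h1 k z) (rr_h2 k z) (rr_h3 k z) (rr_h4 k z)
    (rr_zero k z) (rr_one k z)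
    (fun n => Real.log_le_log (by have := abs_nonneg (V k ((T k)^[n] z).2); unfold dg; linarith)
      (by linarith [dg_le k hk z n])) hκ hM H hH N R hR
  have h1 := bt_le_lm k N z
  have h2 : (∑ n ∈ range N, (lm k 1 ((T k)^[n] z) - Real.log 2)) ≤
      ∑ n ∈ range N, gn (dg k z n) := Finset.sum_le_sum fun n _ => gn_ge k _
  have h3 : ∑ i ∈ range (N / M), (|bt (rr k z) ((i + 1) * M) - bt (rr k z) (i * M)| + κ) ≤
      ∑ i ∈ range (N / M), (lm k M ((T k)^[i * M] z) + Real.log 2 + κ) := by
    refine Finset.sum_le_sum fun i _ => ?_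
    have := abs_bt_sub_le k z (i * M) M
    rw [show (i + 1) * M = i * M + M by ring]
    linarith
  linarith

/-- **integrated accounting**, root form -/
theorem integrated' {k κ : ℝ} (hk : 1 ≤ k) (hκ : 0 < κ) {M : ℕ} (hM : 0 < M) (H : ℕ)
    (hH : 2 * (M * Real.log (3 + 2 * Real.pi * k)) ≤ H * κ) (N R : ℕ)
    (hR : N * Real.log (3 + 2 * Real.pi * k) ≤ R * κ) :
    N * (Real.log k - 3 - Real.log 2
      - 5 * Real.log (3 + 2 * Real.pi * k) * ((Real.exp κ + 1) / k))
      - 4 * κ * LowD k κ H N R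
      - 4 * ((N / M : ℕ) * ((∫ z : Tor, lm k M z) + Real.log 2 + κ)) - Real.log 2
      ≤ ∫ z : Tor, lm k N z := by
  classical
  set c1 := 5 * Real.log (3 + 2 * Real.pi * k) with hc1
  have hc1n : 0 ≤ c1 := by
    have : 0 ≤ Real.log (3 + 2 * Real.pi * k) := Real.log_nonneg (by
      have : 0 ≤ 2 * Real.pi * k := by positivity
      linarith)
    positivity
  set B : Set Tor := {z | |V k z.2| ≤ Real.exp κ + 1} with hB
  have hBm : MeasurableSet B :=
    (isClosed_le ((continuous_V k).comp continuous_snd).abs continuous_const).measurableSet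
  have hBI : Integrable (B.indicator (fun _ => (1:ℝ))) (volume : Measure Tor) :=
    (integrable_const (1:ℝ)).indicator hBm
  have hSI : ∀ n j, Integrable (Set.indicator {z : Tor | Low (bt (rr k z)) κ H n j}
      (fun _ => (1:ℝ))) volume := fun n j =>
    (integrable_const (1:ℝ)).indicator (measurableSet_Low k κ H n j)
  have hlI : Integrable (fun z => lm k 1 z - Real.log 2) (volume : Measure Tor) :=
    (integrable_lm k 1).sub (integrable_const _)
  have hgI : Integrable (fun z => lm k M z + Real.log 2 + κ) (volume : Measure Tor) :=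
    ((integrable_lm k M).add (integrable_const _)).add (integrable_const _)
  have hpt : ∀ z : Tor, (∑ n ∈ range N, (lm k 1 ((T k)^[n] z) - Real.log 2)) -
      c1 * (∑ n ∈ range N, B.indicator (fun _ => (1:ℝ)) ((T k)^[n] z))
      - 4 * κ * (∑ n ∈ range N, ∑ j ∈ range R,
        Set.indicator {z : Tor | Low (bt (rr k z)) κ H n j} (fun _ => (1:ℝ)) z)
      - 4 * ∑ i ∈ range (N / M), (lm k M ((T k)^[i * M] z) + Real.log 2 + κ)
      ≤ lm k N z + Real.log 2 := by
    intro z
    refine le_trans ?_ (pointwise' (by linarith) hκ z hM H hH N R hR)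
    have e1 : (#{n ∈ range N | dg k z n < Real.exp κ + 1} : ℝ) ≤
        ∑ n ∈ range N, B.indicator (fun _ => (1:ℝ)) ((T k)^[n] z) := by
      rw [Finset.card_filter]
      push_cast
      refine Finset.sum_le_sum fun n _ => ?_
      rw [Set.indicator_apply]
      split_ifs with h1 h2 h2
      · exact le_rfl
      · exact absurd h1.le h2
      · norm_num
      · exact le_rfl
    have e2 : (∑ n ∈ range N, (#{j ∈ range R | Low (bt (rr k z)) κ H n j} : ℝ)) =
        ∑ n ∈ range N, ∑ j ∈ range R,
        Set.indicator {z : Tor | Low (bt (rr k z)) κ H n j} (fun _ => (1:ℝ)) z := by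
      refine Finset.sum_congr rfl fun n _ => ?_
      rw [Finset.card_filter]
      push_cast
      refine Finset.sum_congr rfl fun j _ => ?_
      rw [Set.indicator_apply]
      rfl
    rw [e2]
    have e3 := mul_le_mul_of_nonneg_left e1 hc1n
    linarith
  have i1 : Integrable (fun z : Tor => ∑ n ∈ range N, (lm k 1 ((T k)^[n] z) - Real.log 2)) volume :=
    integrable_finsetSum _ fun n _ => integrable_comp_iter n hlI
  have i2 : Integrable (fun z : Tor => c1 * ∑ n ∈ range N, B.indicator (fun _ => (1:ℝ))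
      ((T k)^[n] z)) volume :=
    (integrable_finsetSum _ fun n _ => integrable_comp_iter n hBI).const_mul _
  have i3 : Integrable (fun z : Tor => 4 * κ * ∑ n ∈ range N, ∑ j ∈ range R,
      Set.indicator {z : Tor | Low (bt (rr k z)) κ H n j} (fun _ => (1:ℝ)) z) volume :=
    (integrable_finsetSum _ fun n _ => integrable_finsetSum _ fun j _ => hSI n j).const_mul _
  have i4 : Integrable (fun z : Tor => 4 * ∑ i ∈ range (N / M),
      (lm k M ((T k)^[i * M] z) + Real.log 2 + κ)) volume :=
    (integrable_finsetSum _ fun i _ => integrable_comp_iter (i * M) hgI).const_mul _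
  have hI : ∫ z : Tor, ((∑ n ∈ range N, (lm k 1 ((T k)^[n] z) - Real.log 2)) -
      c1 * (∑ n ∈ range N, B.indicator (fun _ => (1:ℝ)) ((T k)^[n] z))
      - 4 * κ * (∑ n ∈ range N, ∑ j ∈ range R,
        Set.indicator {z : Tor | Low (bt (rr k z)) κ H n j} (fun _ => (1:ℝ)) z)
      - 4 * ∑ i ∈ range (N / M), (lm k M ((T k)^[i * M] z) + Real.log 2 + κ))
      ≤ ∫ z : Tor, (lm k N z + Real.log 2) :=
    integral_mono (((i1.sub i2).sub i3).sub i4) ((integrable_lm k N).add (integrable_const _)) hpt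
  have j1 : ∫ z : Tor, ∑ n ∈ range N, (lm k 1 ((T k)^[n] z) - Real.log 2) =
      N * ((∫ z : Tor, lm k 1 z) - Real.log 2) := by
    rw [integral_finsetSum _ fun n _ => integrable_comp_iter n hlI]
    have : ∀ n, ∫ z : Tor, (lm k 1 ((T k)^[n] z) - Real.log 2) =
        (∫ z : Tor, lm k 1 z) - Real.log 2 := by
      intro n
      rw [integral_comp_iter (f := fun z => lm k 1 z - Real.log 2) n hlI.aestronglyMeasurable,
        integral_sub (integrable_lm k 1) (integrable_const _)]
      simp
    rw [Finset.sum_congr rfl fun n _ => this n]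
    simp only [Finset.sum_const, Finset.card_range, nsmul_eq_mul]
  have j2 : ∫ z : Tor, c1 * ∑ n ∈ range N, B.indicator (fun _ => (1:ℝ)) ((T k)^[n] z) =
      c1 * (N * (volume : Measure Tor).real B) := by
    rw [integral_const_mul, integral_finsetSum _ fun n _ => integrable_comp_iter n hBI]
    have : ∀ n, ∫ z : Tor, B.indicator (fun _ => (1:ℝ)) ((T k)^[n] z) =
        (volume : Measure Tor).real B := by
      intro n
      rw [integral_comp_iter (f := B.indicator (fun _ => (1:ℝ))) n hBI.aestronglyMeasurable,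
        integral_indicator hBm]
      simp
    rw [Finset.sum_congr rfl fun n _ => this n]
    simp
  have j3 : ∫ z : Tor, 4 * κ * ∑ n ∈ range N, ∑ j ∈ range R,
      Set.indicator {z : Tor | Low (bt (rr k z)) κ H n j} (fun _ => (1:ℝ)) z =
      4 * κ * LowD k κ H N R := by
    rw [integral_const_mul, integral_finsetSum _ fun n _ => integrable_finsetSum _ fun j _ =>
      hSI n j]
    congr 1
    unfold LowD
    refine Finset.sum_congr rfl fun n _ => ?_
    rw [integral_finsetSum _ fun j _ => hSI n j]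
    refine Finset.sum_congr rfl fun j _ => ?_
    rw [integral_indicator (measurableSet_Low k κ H n j)]
    simp
  have j4 : ∫ z : Tor, 4 * ∑ i ∈ range (N / M),
      (lm k M ((T k)^[i * M] z) + Real.log 2 + κ) =
      4 * ((N / M : ℕ) * ((∫ z : Tor, lm k M z) + Real.log 2 + κ)) := by
    rw [integral_const_mul, integral_finsetSum _ fun i _ => integrable_comp_iter (i * M) hgI]
    congr 1
    have : ∀ i, ∫ z : Tor, (lm k M ((T k)^[i * M] z) + Real.log 2 + κ) =
        (∫ z : Tor, lm k M z) + Real.log 2 + κ := by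
      intro i
      rw [integral_comp_iter (f := fun z => lm k M z + Real.log 2 + κ) (i * M)
        hgI.aestronglyMeasurable,
        integral_add (f := fun z => lm k M z + Real.log 2) (g := fun _ => κ)
          ((integrable_lm k M).add (integrable_const _)) (integrable_const _),
        integral_add (f := fun z => lm k M z) (g := fun _ => Real.log 2)
          (integrable_lm k M) (integrable_const _)]
      simp
    rw [Finset.sum_congr rfl fun i _ => this i]
    simp only [Finset.sum_const, Finset.card_range, nsmul_eq_mul]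
  have k1 := integral_sub ((i1.sub i2).sub i3) i4
  have k2 := integral_sub (i1.sub i2) i3
  have k3 := integral_sub i1 i2
  simp only [Pi.sub_apply] at k1 k2 k3
  rw [k1, k2, k3, j1, j2, j3, j4, integral_add (integrable_lm k N) (integrable_const _)] at hI
  simp only [integral_const, probReal_univ, smul_eq_mul, one_mul] at hI
  have hl := log_sub_le_integral_lm_one hk
  have hBv : (volume : Measure Tor).real B ≤ (Real.exp κ + 1) / k :=
    volumeReal_V_le hk (by positivity)
  have hN : (0 : ℝ) ≤ N := Nat.cast_nonneg N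
  have a1 := mul_le_mul_of_nonneg_left hl hN
  have a2 := mul_le_mul_of_nonneg_left (mul_le_mul_of_nonneg_left hBv hc1n) hN
  nlinarith

set_option maxHeartbeats 1000000 in
/-- **Part A, root form.** -/
theorem torus_of_root
    (HH : ∃ k₁ : ℝ, ∀ k : ℝ, k₁ ≤ k → ∀ H : ℕ, ∃ᶠ N : ℕ in atTop, ∀ R : ℕ,
      LowD k (Real.log k / 2) H N R ≤ N / 5) :
    ∃ k₀ : ℝ, 0 < k₀ ∧ ∀ k : ℝ, k₀ ≤ k → ∃ c : ℝ, 0 < c ∧
      ∃ᶠ n : ℕ in atTop, c * n ≤ ∫ z : Tor, lm k n z := by
  obtain ⟨k₁, HH⟩ := HH
  refine ⟨max k₁ (Real.exp 100), lt_max_of_lt_right (Real.exp_pos _), fun k hk => ?_⟩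
  have hk1 : k₁ ≤ k := (le_max_left _ _).trans hk
  have hk2 : Real.exp 100 ≤ k := (le_max_right _ _).trans hk
  have hk0 : 0 < k := (Real.exp_pos _).trans_le hk2
  set x := Real.log k with hx
  have hx100 : 100 ≤ x := by
    rw [hx, Real.le_log_iff_exp_le hk0]
    exact hk2
  have hk' : 1 ≤ k := by
    have := Real.add_one_le_exp 100
    linarith
  have hkx : k = Real.exp x := (Real.exp_log hk0).symm
  refine ⟨1, one_pos, ?_⟩
  by_contra hcon
  rw [Filter.not_frequently] at hcon
  simp only [one_mul, not_le] at hcon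
  obtain ⟨n0, hn0⟩ := Filter.eventually_atTop.mp hcon
  set κ := x / 2 with hκ
  have hκ0 : 0 < κ := by linarith
  obtain ⟨M1, hM1⟩ := exists_nat_ge x
  set M := max n0 M1 with hMdef
  have hMn : n0 ≤ M := le_max_left _ _
  have hMx : x ≤ M := hM1.trans (by exact_mod_cast le_max_right n0 M1)
  have hM0 : (0 : ℝ) < M := by linarith
  have hMpos : 0 < M := by exact_mod_cast hM0
  obtain ⟨H, hH⟩ := exists_nat_ge (2 * (M * Real.log (3 + 2 * Real.pi * k)) / κ)
  rw [div_le_iff₀ hκ0] at hH
  obtain ⟨N, hN, hNn⟩ := ((HH k hk1 H).and_eventually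
    (eventually_ge_atTop (max n0 1))).exists
  have hNn0 : n0 ≤ N := (le_max_left _ _).trans hNn
  have hN1 : 1 ≤ N := (le_max_right _ _).trans hNn
  obtain ⟨R, hR⟩ := exists_nat_ge (N * Real.log (3 + 2 * Real.pi * k) / κ)
  rw [div_le_iff₀ hκ0] at hR
  have h := integrated' hk' hκ0 hMpos H hH N R hR
  have h2 := hN R
  have hlM := hn0 M hMn
  have hlN := hn0 N hNn0
  rw [← hx] at h2 h
  rw [← hκ] at h2
  set Sg := LowD k κ H N R
  have hNr : (1 : ℝ) ≤ N := by exact_mod_cast hN1
  have hlog2 : Real.log 2 ≤ 1 := by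
    have := Real.log_le_sub_one_of_pos (by norm_num : (0:ℝ) < 2)
    linarith
  have hlog20 : 0 ≤ Real.log 2 := Real.log_nonneg (by norm_num)
  have hpi := Real.pi_lt_d2
  have hpi0 := Real.pi_pos
  have hL : Real.log (3 + 2 * Real.pi * k) ≤ x + 9 := by
    have a : 3 + 2 * Real.pi * k ≤ 10 * k := by nlinarith
    have b := Real.log_le_log (by positivity) a
    rw [Real.log_mul (by norm_num) hk0.ne'] at b
    have c := Real.log_le_sub_one_of_pos (by norm_num : (0:ℝ) < 10)
    linarith
  have he : x ^ 2 / 8 ≤ Real.exp κ := by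
    have := Real.quadratic_le_exp_of_nonneg hκ0.le
    rw [hκ] at this ⊢
    nlinarith
  have hkk : k = Real.exp κ * Real.exp κ := by
    rw [← Real.exp_add, hκ, add_halves]
    exact hkx
  have heκ : 0 < Real.exp κ := Real.exp_pos κ
  have he1 : 1 ≤ Real.exp κ := by nlinarith
  have hB : (Real.exp κ + 1) / k ≤ 16 / x ^ 2 := by
    rw [div_le_div_iff₀ hk0 (by positivity)]
    nlinarith
  have hB2 : 5 * Real.log (3 + 2 * Real.pi * k) * ((Real.exp κ + 1) / k) ≤ 2 := by
    have b : 0 ≤ (Real.exp κ + 1) / k := by positivity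
    have c : (5 * (x + 9)) * (16 / x ^ 2) ≤ 2 := by
      rw [mul_div_assoc', div_le_iff₀ (by positivity)]
      nlinarith
    calc _ ≤ (5 * (x + 9)) * ((Real.exp κ + 1) / k) :=
          mul_le_mul_of_nonneg_right (by linarith) b
      _ ≤ (5 * (x + 9)) * (16 / x ^ 2) := mul_le_mul_of_nonneg_left hB (by linarith)
      _ ≤ 2 := c
  have hS : 4 * κ * Sg ≤ N * (2 * x / 5) := by
    have a := mul_le_mul_of_nonneg_left h2 (by positivity : 0 ≤ 4 * κ)
    rw [hκ] at a ⊢
    linarith
  -- the grid term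
  have hG : ((N / M : ℕ) : ℝ) * ((∫ z : Tor, lm k M z) + Real.log 2 + κ) ≤ 2 * N := by
    have a : ((N / M : ℕ) : ℝ) * M ≤ N := by
      exact_mod_cast Nat.div_mul_le_self N M
    have b : (∫ z : Tor, lm k M z) + Real.log 2 + κ ≤ 2 * M := by
      rw [hκ]
      linarith
    have c : (0 : ℝ) ≤ ((N / M : ℕ) : ℝ) := Nat.cast_nonneg _
    have d := mul_le_mul_of_nonneg_left b c
    linarith
  have hfin : N * (x - 3 - Real.log 2 - 5 * Real.log (3 + 2 * Real.pi * k) *
      ((Real.exp κ + 1) / k)) ≥ N * (x - 6) := by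
    apply mul_le_mul_of_nonneg_left _ (by linarith)
    linarith
  have e1 : N * (x - 6) = N * x - 6 * N := by ring
  have e2 : N * (2 * x / 5) = 2 / 5 * (N * x) := by ring
  have e3 : (100 : ℝ) * N ≤ N * x := by
    rw [mul_comm]
    exact mul_le_mul_of_nonneg_left hx100 (by linarith)
  rw [e1] at hfin
  rw [e2] at hS
  clear_value Sg
  linarith

/-- **S0172 from the root contour, heights truncated at a fixed `H`.** -/
theorem result_of_root
    (HH : ∃ k₁ : ℝ, ∀ k : ℝ, k₁ ≤ k → ∀ H : ℕ, ∃ᶠ N : ℕ in atTop, ∀ R : ℕ,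
      LowD k (Real.log k / 2) H N R ≤ N / 5) :
    ∃ k₀ : ℝ, 0 < k₀ ∧ ∀ k : ℝ, k₀ ≤ k →
      0 < MeasureTheory.volume ({p : ℝ × ℝ | ∃ c : ℝ, 0 < c ∧
          ∃ᶠ n : ℕ in Filter.atTop, c * n ≤ Real.log ‖fderiv ℝ (standardMapLift k)^[n] p‖} ∩
        Set.Ico (0 : ℝ) 1 ×ˢ Set.Ico (0 : ℝ) 1) :=
  result_of_torus (torus_of_root HH)

end Crest.Agent.R128.RootT
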