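import Mathlib
import Crest.Agent.R128.OnePerX
import Crest.Agent.R128.Charge
import Crest.Agent.R128.RootT

/-!
# Row 128, node V1-5, left foot (helper676)

A foot `i` of a component of `{f > l κ}` of the root contour from which the path towards the top is
clean up to its first violation.  Only the first step of the path (regular digit, `f i ≤ l κ < f (i+1)`)
is used to compare the field of `(0,1)` with the root columns: the coefficient `lam` of the root column
along the field is `≥ U / (32 k)` at time `1` and changes by at most `2 U wt(1, ∞) ≤ U / (64 k)` later.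
-/

set_option autoImplicit false

open Finset

namespace Crest.Agent.R128.FootL

open Crest.Agent.R128.TreeSum Crest.Agent.R128.Acc Crest.Agent.R128.Lam0

/-- abstract validity (no drop, duration) of a size function `w` up to time `n` -/
structure Vg (L : ℕ) (d : ℝ) (w : ℕ → ℝ) (n : ℕ) : Prop where
  c2 : ∀ i j, L ≤ i → i ≤ j → j ≤ n → w i ^ (1 - d) ≤ w j
  c3 : ∀ j, L ≤ j → j ≤ n → ∃ i, L ≤ i ∧ i ≤ j ∧ (j : ℝ) ≤ w i ^ (d / 4)

theorem Vg.mono {L : ℕ} {d : ℝ} {w : ℕ → ℝ} {n n' : ℕ} (h : Vg L d w n) (hn : n' ≤ n) : Vg L d w n' :=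
  ⟨fun i j a b c => h.c2 i j a b (c.trans hn), fun j a b => h.c3 j a (b.trans hn)⟩

theorem Vg.of_lt {L : ℕ} {d : ℝ} {w : ℕ → ℝ} {n : ℕ} (h : n < L) : Vg L d w n :=
  ⟨fun i j a b c => absurd (a.trans (b.trans c)) (by omega),
   fun j a b => absurd (a.trans b) (by omega)⟩

/-- growth along the regular digits -/
theorem base {a : ℕ → ℝ} {W : ℕ → ℝ × ℝ} (hW : IsField a W) (hW0 : W 0 = (0, 1)) {B : ℝ} (hB : 1 ≤ B)
    {L : ℕ} (h : ∀ m, m < L → B + 1 ≤ |a m|) :
    ∀ m ≤ L, B ^ m ≤ |(W m).2| ∧ |(W m).1| ≤ |(W m).2| := by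
  intro m
  induction m with
  | zero =>
    intro _
    rw [hW0]
    simp
  | succ m ih =>
    intro hm
    obtain ⟨h1, h2⟩ := ih (by omega)
    have h3 := h m (by omega)
    rw [hW m]
    have e1 : (stp (a m) (W m)).1 = (W m).2 := rfl
    have e2 : (stp (a m) (W m)).2 = a m * (W m).2 - (W m).1 := rfl
    rw [e1, e2]
    have h4 : |a m * (W m).2| - |(W m).1| ≤ |a m * (W m).2 - (W m).1| := abs_sub_abs_le_abs_sub _ _
    rw [abs_mul] at h4
    have h5 : (B + 1) * |(W m).2| ≤ |a m| * |(W m).2| :=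
      mul_le_mul_of_nonneg_right h3 (abs_nonneg _)
    have h6 : B * |(W m).2| ≤ |a m * (W m).2 - (W m).1| := by nlinarith
    refine ⟨?_, ?_⟩
    · calc B ^ (m + 1) = B * B ^ m := by ring
        _ ≤ B * |(W m).2| := mul_le_mul_of_nonneg_left h1 (by linarith)
        _ ≤ _ := h6
    · calc |(W m).2| = 1 * |(W m).2| := (one_mul _).symm
        _ ≤ B * |(W m).2| := mul_le_mul_of_nonneg_right hB (abs_nonneg _)
        _ ≤ _ := h6

/-- a term of the weight along the regular digits -/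
theorem term_le {a : ℕ → ℝ} {W : ℕ → ℝ × ℝ} (hW : IsField a W) (hW0 : W 0 = (0, 1)) {B : ℝ}
    (hB : 3 ≤ B) {L : ℕ} (h : ∀ m, m < L → B + 1 ≤ |a m|) {j : ℕ} (hj : j < L) :
    (|a j| + 2) / (nn (W j) * nn (W (j + 1))) ≤ 2 * (1 / B ^ 2) ^ j := by
  obtain ⟨h1, h2⟩ := base hW hW0 (by linarith) h j hj.le
  have h3 := h j hj
  have hBj : 0 < B ^ j := by positivity
  have hx0 : 0 < |(W j).2| := lt_of_lt_of_le hBj h1
  have h4 : (|a j| - 1) * |(W j).2| ≤ |(W (j + 1)).2| := by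
    rw [hW j]
    have e2 : (stp (a j) (W j)).2 = a j * (W j).2 - (W j).1 := rfl
    rw [e2]
    have h5 : |a j * (W j).2| - |(W j).1| ≤ |a j * (W j).2 - (W j).1| := abs_sub_abs_le_abs_sub _ _
    rw [abs_mul] at h5
    nlinarith
  have h6 : (|a j| - 1) * |(W j).2| ≤ nn (W (j + 1)) := h4.trans (abs_snd_le _)
  have h7 : |(W j).2| ≤ nn (W j) := abs_snd_le _
  have hp : 0 < (|a j| - 1) * |(W j).2| := mul_pos (by linarith) hx0
  have h8 : |(W j).2| * ((|a j| - 1) * |(W j).2|) ≤ nn (W j) * nn (W (j + 1)) :=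
    mul_le_mul h7 h6 hp.le (hx0.le.trans h7)
  have h9 : B ^ j * ((|a j| - 1) * B ^ j) ≤ |(W j).2| * ((|a j| - 1) * |(W j).2|) := by
    have : (|a j| - 1) * B ^ j ≤ (|a j| - 1) * |(W j).2| :=
      mul_le_mul_of_nonneg_left h1 (by linarith)
    exact mul_le_mul h1 this (mul_nonneg (by linarith) hBj.le) hx0.le
  have hden : 0 < B ^ j * ((|a j| - 1) * B ^ j) := mul_pos hBj (mul_pos (by linarith) hBj)
  have hden2 : 0 < nn (W j) * nn (W (j + 1)) := lt_of_lt_of_le hden (h9.trans h8)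
  rw [div_le_iff₀ hden2]
  have e : (1 / B ^ 2) ^ j = 1 / (B ^ j * B ^ j) := by
    rw [one_div_pow, ← pow_mul, ← pow_add]
    congr 2
    ring
  rw [e]
  have h10 : |a j| + 2 ≤ 2 * (|a j| - 1) := by linarith
  have h11 : 2 * (1 / (B ^ j * B ^ j)) * (B ^ j * ((|a j| - 1) * B ^ j)) = 2 * (|a j| - 1) := by
    field_simp
  calc |a j| + 2 ≤ 2 * (|a j| - 1) := h10
    _ = 2 * (1 / (B ^ j * B ^ j)) * (B ^ j * ((|a j| - 1) * B ^ j)) := h11.symm
    _ ≤ 2 * (1 / (B ^ j * B ^ j)) * (nn (W j) * nn (W (j + 1))) :=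
        mul_le_mul_of_nonneg_left (h9.trans h8) (by positivity)

theorem geom_le {q : ℝ} (hq0 : 0 ≤ q) (hq : q ≤ 1 / 2) {m : ℕ} (hm : 1 ≤ m) :
    ∑ j ∈ Ico 1 m, 2 * q ^ j ≤ 4 * (q - q ^ m) := by
  induction m, hm using Nat.le_induction with
  | base => simp
  | succ m hm ih =>
    rw [Finset.sum_Ico_succ_top hm]
    have h1 : 0 ≤ q ^ m := pow_nonneg hq0 m
    have h2 : q ^ (m + 1) = q ^ m * q := pow_succ q m
    rw [h2]
    nlinarith

theorem sum_inv_sq_le (a n : ℕ) (ha : 1 ≤ a) : ∑ j ∈ Ico a n, 1 / (j : ℝ) ^ 2 ≤ 2 := by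
  have h : ∀ n, a ≤ n → ∑ j ∈ Ico a (n + 1), 1 / (j : ℝ) ^ 2 ≤ 2 - 1 / (n : ℝ) := by
    intro n hn
    induction n, hn using Nat.le_induction with
    | base =>
      rw [Finset.sum_Ico_succ_top le_rfl]
      simp only [Finset.Ico_self, Finset.sum_empty, zero_add]
      have h1 : (1 : ℝ) ≤ (a : ℝ) := by exact_mod_cast ha
      have h2 : 1 / (a : ℝ) ≤ 1 := by
        rw [div_le_one (by linarith)]
        exact h1
      have h3 : 1 / (a : ℝ) ^ 2 ≤ 1 / (a : ℝ) := by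
        apply one_div_le_one_div_of_le (by linarith)
        nlinarith
      linarith
    | succ n hn ih =>
      rw [Finset.sum_Ico_succ_top (by omega)]
      have hn1 : (1 : ℝ) ≤ (n : ℝ) := by exact_mod_cast (le_trans ha hn)
      have hn0 : (0 : ℝ) < n := by linarith
      have h4 : 1 / ((n + 1 : ℕ) : ℝ) ^ 2 ≤ 1 / (n : ℝ) - 1 / ((n + 1 : ℕ) : ℝ) := by
        push_cast
        rw [div_sub_div _ _ (by positivity) (by positivity), div_le_div_iff₀ (by positivity)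
          (by positivity)]
        nlinarith
      linarith
  rcases Nat.lt_or_ge n (a + 1) with h5 | h5
  · rw [Finset.Ico_eq_empty (by omega)]
    simp
  · have h1 := h (n - 1) (by omega)
    have h6 : n - 1 + 1 = n := by omega
    rw [h6] at h1
    have h2 : 0 ≤ 1 / ((n - 1 : ℕ) : ℝ) := by positivity
    linarith

/-- standing hypotheses: digits `a`, field `W` of `(0,1)`, size function `w`, first `L` digits regular -/
structure Dt (k : ℝ) (L : ℕ) (d : ℝ) (a : ℕ → ℝ) (W : ℕ → ℝ × ℝ) (w : ℕ → ℝ) : Prop where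
  hk : (10:ℝ) ^ 12 ≤ k
  hL : 16 ≤ L
  hd0 : 0 < d
  hd : d ≤ 1 / 4
  hA : ∀ j, |a j| + 2 ≤ 8 * k
  c1 : ∀ m, m < L → k ^ (2 / 3 : ℝ) ≤ |a m|
  hW : IsField a W
  hW0 : W 0 = (0, 1)
  hw : ∀ m, w m ≤ nn (W m)
  hw' : ∀ m, nn (W m) ≤ 2 * w m

variable {k : ℝ} {L : ℕ} {d : ℝ} {a : ℕ → ℝ} {W : ℕ → ℝ × ℝ} {w : ℕ → ℝ}

/-- the cube root of `k` -/
theorem exists_t (hk : (10:ℝ) ^ 12 ≤ k) : ∃ t : ℝ, (10:ℝ) ^ 4 ≤ t ∧ t ^ 3 = k ∧ k ^ (2 / 3 : ℝ) = t ^ 2 := by
  have hk0 : (0:ℝ) < k := lt_of_lt_of_le (by norm_num) hk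
  refine ⟨k ^ (1 / 3 : ℝ), ?_, ?_, ?_⟩
  · have : (10:ℝ) ^ 4 = ((10:ℝ) ^ 12) ^ (1 / 3 : ℝ) := by
      rw [← Real.rpow_natCast, ← Real.rpow_natCast, ← Real.rpow_mul (by norm_num)]
      norm_num
    rw [this]
    exact Real.rpow_le_rpow (by positivity) hk (by norm_num)
  · rw [← Real.rpow_natCast, ← Real.rpow_mul hk0.le]
    norm_num
  · rw [← Real.rpow_natCast, ← Real.rpow_mul hk0.le]
    norm_num

theorem Dt.nn0 (D : Dt k L d a W w) : nn (W 0) = 1 := by
  rw [D.hW0]; unfold nn; simp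

theorem Dt.pos (D : Dt k L d a W w) (m : ℕ) : 0 < nn (W m) :=
  D.hW.pos (Nat.zero_le m) (by rw [D.nn0]; norm_num)

theorem Dt.wpos (D : Dt k L d a W w) (m : ℕ) : 0 < w m := by
  have := D.pos m
  have := D.hw' m
  linarith

/-- the regular digits, in terms of `t` -/
theorem Dt.dig (D : Dt k L d a W w) {t : ℝ} (ht : (10:ℝ) ^ 4 ≤ t) (ht2 : k ^ (2 / 3 : ℝ) = t ^ 2) :
    ∀ m, m < L → t ^ 2 / 2 + 1 ≤ |a m| := by
  intro m hm
  have := D.c1 m hm
  rw [ht2] at this
  nlinarith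

/-- the size at time `L` is `≥ k ^ (L / 2)` -/
theorem Dt.logL (D : Dt k L d a W w) : (L : ℝ) * Real.log k / 2 ≤ Real.log (w L) := by
  obtain ⟨t, ht, ht3, ht2⟩ := exists_t D.hk
  have hk0 : (0:ℝ) < k := lt_of_lt_of_le (by norm_num) D.hk
  have ht0 : (0:ℝ) < t := lt_of_lt_of_le (by norm_num) ht
  have h1 := (base D.hW D.hW0 (B := t ^ 2 / 2) (by nlinarith) (D.dig ht ht2) L le_rfl).1
  have h2 : (t ^ 2 / 2) ^ L ≤ nn (W L) := h1.trans (abs_snd_le _)
  have h3 := D.hw' L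
  have h4 : (t ^ 2 / 2) ^ L / 2 ≤ w L := by linarith
  have hp : 0 < (t ^ 2 / 2) ^ L := by positivity
  have h5 := Real.log_le_log (by positivity) h4
  rw [Real.log_div hp.ne' (by norm_num), Real.log_pow, Real.log_div (by positivity) (by norm_num),
    Real.log_pow] at h5
  have h6 : Real.log k = 3 * Real.log t := by
    rw [← ht3, Real.log_pow]; norm_num
  have hl2 : Real.log 2 ≤ 1 := by
    have := Real.log_two_lt_d9
    linarith
  have hlt : 9 ≤ Real.log t := by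
    have h7 : Real.log ((10:ℝ) ^ 4) ≤ Real.log t := Real.log_le_log (by norm_num) ht
    have h8 : (9:ℝ) ≤ Real.log ((10:ℝ) ^ 4) := by
      rw [Real.le_log_iff_exp_le (by norm_num)]
      have h9 : Real.exp 9 = Real.exp 1 ^ 9 := by
        rw [← Real.exp_nat_mul]; norm_num
      rw [h9]
      have h10 := Real.exp_one_lt_d9
      calc Real.exp 1 ^ 9 ≤ (2.7182818286:ℝ) ^ 9 := by gcongr
        _ ≤ (10:ℝ) ^ 4 := by norm_num
    linarith
  have hL1 : (16:ℝ) ≤ (L:ℝ) := by exact_mod_cast D.hL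
  push_cast at h5
  nlinarith

theorem Dt.logk (D : Dt k L d a W w) : 27 ≤ Real.log k := by
  have h7 : Real.log ((10:ℝ) ^ 12) ≤ Real.log k := Real.log_le_log (by norm_num) D.hk
  have h8 : (27:ℝ) ≤ Real.log ((10:ℝ) ^ 12) := by
    rw [Real.le_log_iff_exp_le (by norm_num)]
    have h9 : Real.exp 27 = Real.exp 1 ^ 27 := by
      rw [← Real.exp_nat_mul]; norm_num
    rw [h9]
    have h10 := Real.exp_one_lt_d9
    calc Real.exp 1 ^ 27 ≤ (2.7182818286:ℝ) ^ 27 := by gcongr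
      _ ≤ (10:ℝ) ^ 12 := by norm_num
  linarith

/-- sizes at clean times `≥ L` -/
theorem Dt.log_ge (D : Dt k L d a W w) {n : ℕ} (hv : Vg L d w n) {m : ℕ} (hm : L ≤ m) (hn : m ≤ n) :
    3 / 8 * ((L : ℝ) * Real.log k) ≤ Real.log (w m) := by
  have h1 := hv.c2 L m le_rfl hm hn
  have h2 := Real.log_le_log (Real.rpow_pos_of_pos (D.wpos L) _) h1
  rw [Real.log_rpow (D.wpos L)] at h2
  have h3 := D.logL
  have h4 := D.logk
  have hL1 : (16:ℝ) ≤ (L:ℝ) := by exact_mod_cast D.hL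
  have h5 : 0 ≤ (L:ℝ) * Real.log k := by positivity
  have hd := D.hd
  nlinarith

/-- `k ^ 4 ≤ w m` at clean times `m ≥ L` -/
theorem Dt.big (D : Dt k L d a W w) {n : ℕ} (hv : Vg L d w n) {m : ℕ} (hm : L ≤ m) (hn : m ≤ n) :
    k ^ 4 ≤ w m := by
  have h1 := D.log_ge hv hm hn
  have h4 := D.logk
  have hL1 : (16:ℝ) ≤ (L:ℝ) := by exact_mod_cast D.hL
  have hk0 : (0:ℝ) < k := lt_of_lt_of_le (by norm_num) D.hk
  have h2 : Real.log (k ^ 4) ≤ Real.log (w m) := by
    rw [Real.log_pow]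
    push_cast
    nlinarith
  exact (Real.log_le_log_iff (by positivity) (D.wpos m)).1 h2

/-- `m ^ 2 ≤ w m` at clean times `m ≥ L` -/
theorem Dt.sq_le (D : Dt k L d a W w) {n : ℕ} (hv : Vg L d w n) {m : ℕ} (hm : L ≤ m) (hn : m ≤ n) :
    (m : ℝ) ^ 2 ≤ w m := by
  obtain ⟨i, hi1, hi2, hi3⟩ := hv.c3 m hm hn
  have h1 := hv.c2 i m hi1 hi2 hn
  have hm0 : (0:ℝ) < (m:ℝ) := by
    have := D.hL
    exact_mod_cast (by omega : 0 < m)
  have l1 := Real.log_le_log (Real.rpow_pos_of_pos (D.wpos i) _) h1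
  have l2 := Real.log_le_log hm0 hi3
  rw [Real.log_rpow (D.wpos i)] at l1 l2
  have l3 := D.log_ge hv hm hn
  have l4 := D.log_ge hv hi1 (hi2.trans hn)
  have h4 := D.logk
  have hL1 : (16:ℝ) ≤ (L:ℝ) := by exact_mod_cast D.hL
  have h5 : 0 ≤ (L:ℝ) * Real.log k := by positivity
  have hd := D.hd
  have hd0 := D.hd0
  have h2 : Real.log ((m:ℝ) ^ 2) ≤ Real.log (w m) := by
    rw [Real.log_pow]
    push_cast
    nlinarith
  exact (Real.log_le_log_iff (by positivity) (D.wpos m)).1 h2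

/-- the weight after the first step -/
theorem Dt.wt_le (D : Dt k L d a W w) {n : ℕ} (hn : L ≤ n) (hv : ∀ m, m < n → Vg L d w m) {m : ℕ}
    (hm : m ≤ n) : wt a W 1 m ≤ 1 / (128 * k) := by
  obtain ⟨t, ht, ht3, ht2⟩ := exists_t D.hk
  have hk0 : (0:ℝ) < k := lt_of_lt_of_le (by norm_num) D.hk
  have ht0 : (0:ℝ) < t := lt_of_lt_of_le (by norm_num) ht
  have hL1 := D.hL
  have mono : wt a W 1 m ≤ wt a W 1 n := by
    unfold wt
    apply Finset.sum_le_sum_of_subset_of_nonneg (Finset.Ico_subset_Ico_right hm)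
    intro j _ _
    have := nn_nonneg (W j)
    have := nn_nonneg (W (j + 1))
    positivity
  refine mono.trans ?_
  have split : wt a W 1 n = wt a W 1 L + wt a W L n := by
    unfold wt
    rw [Finset.sum_Ico_consecutive _ (by omega) hn]
  rw [split]
  -- regular part
  have r1 : wt a W 1 L ≤ 16 / t ^ 4 := by
    set q : ℝ := 1 / (t ^ 2 / 2) ^ 2 with hq
    have hq4 : q = 4 / t ^ 4 := by
      rw [hq]
      field_simp
      norm_num
    have hq0 : 0 ≤ q := by positivity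
    have hqh : q ≤ 1 / 2 := by
      rw [hq4, div_le_div_iff₀ (by positivity) (by norm_num)]
      have : (10:ℝ) ^ 16 ≤ t ^ 4 := by
        calc (10:ℝ) ^ 16 = ((10:ℝ) ^ 4) ^ 4 := by norm_num
          _ ≤ t ^ 4 := by gcongr
      linarith [this, (by norm_num : (8:ℝ) ≤ 10 ^ 16)]
    calc wt a W 1 L ≤ ∑ j ∈ Ico 1 L, 2 * q ^ j := by
          unfold wt
          apply Finset.sum_le_sum
          intro j hj
          rw [Finset.mem_Ico] at hj
          exact term_le D.hW D.hW0 (B := t ^ 2 / 2) (by nlinarith) (D.dig ht ht2) hj.2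
      _ ≤ 4 * (q - q ^ L) := geom_le hq0 hqh (by omega)
      _ ≤ 4 * q := by
          have := pow_nonneg hq0 L
          linarith
      _ = 16 / t ^ 4 := by rw [hq4]; ring
  -- late part
  have r2 : wt a W L n ≤ 128 * k ^ 2 / k ^ 4 := by
    have s1 : ∀ j ∈ Ico L n, (|a j| + 2) / (nn (W j) * nn (W (j + 1))) ≤
        64 * k ^ 2 / k ^ 4 * (1 / (j : ℝ) ^ 2) := by
      intro j hj
      rw [Finset.mem_Ico] at hj
      have g1 := D.big (hv j hj.2) hj.1 le_rfl
      have g2 := D.sq_le (hv j hj.2) hj.1 le_rfl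
      have g3 := D.hw j
      have hj0 : (0:ℝ) < (j:ℝ) := by exact_mod_cast (by omega : 0 < j)
      refine (inv_succ_le D.hW D.hA (D.pos j)).trans ?_
      have g4 : k ^ 4 * (j:ℝ) ^ 2 ≤ nn (W j) ^ 2 := by
        rw [pow_two (nn (W j))]
        exact mul_le_mul (g1.trans g3) (g2.trans g3) (by positivity) (nn_nonneg _)
      rw [show 64 * k ^ 2 / k ^ 4 * (1 / (j : ℝ) ^ 2) = (8 * k) ^ 2 / (k ^ 4 * (j:ℝ) ^ 2) by
        field_simp; norm_num]
      exact div_le_div_of_nonneg_left (by positivity) (by positivity) g4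
    calc wt a W L n ≤ ∑ j ∈ Ico L n, 64 * k ^ 2 / k ^ 4 * (1 / (j : ℝ) ^ 2) := by
          unfold wt
          exact Finset.sum_le_sum s1
      _ = 64 * k ^ 2 / k ^ 4 * ∑ j ∈ Ico L n, 1 / (j : ℝ) ^ 2 := by rw [Finset.mul_sum]
      _ ≤ 64 * k ^ 2 / k ^ 4 * 2 :=
          mul_le_mul_of_nonneg_left (sum_inv_sq_le L n (by omega)) (by positivity)
      _ = _ := by ring
  have e1 : 16 / t ^ 4 ≤ 1 / (256 * k) := by
    rw [← ht3, div_le_div_iff₀ (by positivity) (by positivity)]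
    have : 16 * (256 * t ^ 3) ≤ t * t ^ 3 := by
      have : (4096:ℝ) ≤ t := le_trans (by norm_num) ht
      nlinarith [pow_pos ht0 3]
    calc 16 * (256 * t ^ 3) ≤ t * t ^ 3 := this
      _ = 1 * t ^ 4 := by ring
  have e2 : 128 * k ^ 2 / k ^ 4 ≤ 1 / (256 * k) := by
    rw [div_le_div_iff₀ (by positivity) (by positivity)]
    have h1 : (32768:ℝ) ≤ k := le_trans (by norm_num) D.hk
    have h2 : 0 < k ^ 3 := by positivity
    nlinarith
  have e3 : 1 / (256 * k) + 1 / (256 * k) = 1 / (128 * k) := by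
    field_simp
    norm_num
  linarith

/-- the whole weight -/
theorem Dt.wt0_le (D : Dt k L d a W w) {n : ℕ} (hn : L ≤ n) (hv : ∀ m, m < n → Vg L d w m) :
    wt a W 0 n ≤ 3 := by
  obtain ⟨t, ht, ht3, ht2⟩ := exists_t D.hk
  have hk0 : (0:ℝ) < k := lt_of_lt_of_le (by norm_num) D.hk
  have hL1 := D.hL
  have split : wt a W 0 n = wt a W 0 1 + wt a W 1 n := by
    unfold wt
    rw [Finset.sum_Ico_consecutive _ (by omega) (by omega)]
  have h1 := D.wt_le hn hv le_rfl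
  have h2 : wt a W 0 1 ≤ 2 := by
    have h3 := term_le D.hW D.hW0 (B := t ^ 2 / 2) (by nlinarith) (D.dig ht ht2) (j := 0) (by omega)
    unfold wt
    simpa using h3
  have h4 : 1 / (128 * k) ≤ 1 := by
    rw [div_le_one (by positivity)]
    have h1 : (1:ℝ) ≤ k := le_trans (by norm_num) D.hk
    linarith
  linarith

/-- at the first violation the field is still `≥ 1` -/
theorem Dt.one_le (D : Dt k L d a W w) {n : ℕ} (hn : L ≤ n) (hv : ∀ m, m < n → Vg L d w m) :
    2 ≤ nn (W n) := by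
  have hk0 : (0:ℝ) < k := lt_of_lt_of_le (by norm_num) D.hk
  have hk1 : (10:ℝ) ≤ k := le_trans (by norm_num) D.hk
  rcases hn.eq_or_lt with h | h
  · obtain ⟨t, ht, ht3, ht2⟩ := exists_t D.hk
    have ht0 : (0:ℝ) < t := lt_of_lt_of_le (by norm_num) ht
    have h1 := (base D.hW D.hW0 (B := t ^ 2 / 2) (by nlinarith) (D.dig ht ht2) L le_rfl).1
    rw [← h]
    refine le_trans ?_ (h1.trans (abs_snd_le _))
    have h2 : (2:ℝ) ≤ t ^ 2 / 2 := by nlinarith
    have hL0 : L ≠ 0 := by have := D.hL; omega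
    calc (2:ℝ) ≤ t ^ 2 / 2 := h2
      _ = (t ^ 2 / 2) ^ 1 := (pow_one _).symm
      _ ≤ (t ^ 2 / 2) ^ L := pow_le_pow_right₀ (by linarith) (by omega)
  · have h1 := D.big (hv (n - 1) (by omega)) (by omega : L ≤ n - 1) le_rfl
    have h2 := D.hw (n - 1)
    have h3 := nn_le_stp (a (n - 1)) (W (n - 1))
    rw [← D.hW (n - 1), show n - 1 + 1 = n by omega] at h3
    have h4 : (|a (n - 1)| + 2) * nn (W n) ≤ 8 * k * nn (W n) :=
      mul_le_mul_of_nonneg_right (D.hA _) (nn_nonneg _)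
    have h5 : k ^ 4 ≤ 8 * k * nn (W n) := by linarith
    by_contra hc
    push Not at hc
    have h6 : 8 * k * nn (W n) ≤ 8 * k * 2 := mul_le_mul_of_nonneg_left hc.le (by positivity)
    have h7 : k * (10:ℝ) ^ 3 ≤ k ^ 4 := by
      have : (10:ℝ) ^ 3 ≤ k ^ 3 := by gcongr
      calc k * (10:ℝ) ^ 3 ≤ k * k ^ 3 := mul_le_mul_of_nonneg_left this hk0.le
        _ = k ^ 4 := by ring
    nlinarith

/-- **comparison, lower half**: every field is dominated by `W` -/
theorem Dt.dom (D : Dt k L d a W w) {n : ℕ} (hn : L ≤ n) (hv : ∀ m, m < n → Vg L d w m)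
    {z : ℕ → ℝ × ℝ} (hz : IsField a z) : nn (z n) ≤ 5 * nn (z 0) * nn (W n) := by
  have h1 := tree_ineq D.hW hz (Nat.zero_le n) (by rw [D.nn0]; norm_num)
  rw [D.nn0] at h1
  have h2 := D.wt0_le hn hv
  have h3 := D.one_le hn hv
  have h4 : 1 / nn (W n) ≤ nn (W n) := by
    rw [div_le_iff₀ (by linarith)]
    nlinarith
  have h5 : nn (W n) * wt a W 0 n ≤ nn (W n) * 3 := mul_le_mul_of_nonneg_left h2 (by linarith)
  have h6 : nn (W n) / 1 + 1 / nn (W n) + 1 * nn (W n) * wt a W 0 n ≤ 5 * nn (W n) := by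
    rw [div_one, one_mul]
    linarith
  calc nn (z n) ≤ nn (z 0) * (nn (W n) / 1 + 1 / nn (W n) + 1 * nn (W n) * wt a W 0 n) := h1
    _ ≤ nn (z 0) * (5 * nn (W n)) := mul_le_mul_of_nonneg_left h6 (nn_nonneg _)
    _ = _ := by ring

/-- **comparison, upper half**: a field which goes up from `2U` to `U/2` or more in the first step
stays comparable with `W` -/
theorem Dt.up (D : Dt k L d a W w) {n : ℕ} (hn : L ≤ n) (hv : ∀ m, m < n → Vg L d w m)
    {z : ℕ → ℝ × ℝ} (hz : IsField a z) {U : ℝ} (hU : 0 < U) (h0 : nn (z 0) ≤ 2 * U)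
    (h1 : U / 2 ≤ nn (z 1)) {m : ℕ} (hm1 : 1 ≤ m) (hm : m ≤ n) :
    U * nn (W m) ≤ 64 * k * nn (z m) := by
  obtain ⟨t, ht, ht3, ht2⟩ := exists_t D.hk
  have hk0 : (0:ℝ) < k := lt_of_lt_of_le (by norm_num) D.hk
  have ht0 : (0:ℝ) < t := lt_of_lt_of_le (by norm_num) ht
  have hL1 := D.hL
  -- size at time one
  have w1 : (8:ℝ) ≤ nn (W 1) := by
    have h1 := (base D.hW D.hW0 (B := t ^ 2 / 2) (by nlinarith) (D.dig ht ht2) 1 (by omega)).1
    rw [pow_one] at h1
    refine le_trans ?_ (h1.trans (abs_snd_le _))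
    nlinarith
  have w1' : nn (W 1) ≤ 8 * k := by
    have h2 := nn_stp_le (a 0) (W 0)
    rw [← D.hW 0, D.nn0, mul_one] at h2
    exact h2.trans (D.hA 0)
  -- the Wronskian
  have hs : |wr (W 1) (z 1)| ≤ 2 * U := by
    rw [D.hW.wr_eq hz (Nat.zero_le 1)]
    refine (abs_wr_le _ _).trans ?_
    rw [D.nn0, one_mul]
    exact h0
  have hp1 := D.pos 1
  have l1 := nn_le_lam (W 1) (z 1) hp1
  have l2 : |wr (W 1) (z 1)| / nn (W 1) ≤ U / 4 := by
    rw [div_le_iff₀ hp1]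
    nlinarith
  have l3 : U / 4 ≤ |lam (W 1) (z 1)| * nn (W 1) := by linarith
  have l4 : U / (32 * k) ≤ |lam (W 1) (z 1)| := by
    rw [div_le_iff₀ (by positivity)]
    have := mul_le_mul_of_nonneg_left w1' (abs_nonneg (lam (W 1) (z 1)))
    nlinarith
  have l5 := lam_diff D.hW hz hm1 hp1
  have l6 : |wr (W 1) (z 1)| * wt a W 1 m ≤ 2 * U * (1 / (128 * k)) :=
    mul_le_mul hs (D.wt_le hn hv hm) (wt_nonneg _ _ _ _) (by positivity)
  have l7 : 2 * U * (1 / (128 * k)) = U / (64 * k) := by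
    field_simp
    norm_num
  have l8 : U / (32 * k) = U / (64 * k) + U / (64 * k) := by
    field_simp
    norm_num
  have l9 : |lam (W 1) (z 1)| - |lam (W m) (z m)| ≤ |lam (W m) (z m) - lam (W 1) (z 1)| := by
    have := abs_sub_abs_le_abs_sub (lam (W 1) (z 1)) (lam (W m) (z m))
    rwa [abs_sub_comm (lam (W 1) (z 1))] at this
  have l10 : U / (64 * k) ≤ |lam (W m) (z m)| := by linarith
  have hpm := D.pos m
  have l11 : |lam (W m) (z m)| * nn (W m) ≤ nn (z m) := by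
    unfold lam
    rw [abs_div, abs_of_pos (by positivity : 0 < nn (W m) ^ 2)]
    rw [div_mul_eq_mul_div, div_le_iff₀ (by positivity)]
    have := abs_dt_le (z m) (W m)
    nlinarith
  have l12 : U / (64 * k) * nn (W m) ≤ nn (z m) :=
    (mul_le_mul_of_nonneg_right l10 hpm.le).trans l11
  have l13 := mul_le_mul_of_nonneg_left l12 (by positivity : (0:ℝ) ≤ 64 * k)
  have l14 : 64 * k * (U / (64 * k) * nn (W m)) = U * nn (W m) := by
    field_simp
  linarith

/-- **Core of the foot lemma.** `φ m` = height of the root contour above the level (`E m = U exp (φ m)`),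
`c, c'` the two root columns. At a first violation of the no-drop clause there is a valley of relative
depth `d/2` behind a maximum of height `≥ L log k / 4`. -/
theorem Dt.valley (D : Dt k L d a W w) (hLd : 16 ≤ d * L) {n : ℕ} (hn : L ≤ n)
    (hv : ∀ m, m < n → Vg L d w m) (hviol : ∃ p, L ≤ p ∧ p ≤ n ∧ w n < w p ^ (1 - d))
    {c c' : ℕ → ℝ × ℝ} (hc : IsField a c) (hc' : IsField a c') {φ : ℕ → ℝ} {U : ℝ} (hU : 0 < U)
    (hE : ∀ m ≤ n, U * Real.exp (φ m) ≤ nn (c m) + nn (c' m))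
    (hEc : ∀ m ≤ n, nn (c m) ≤ 2 * (U * Real.exp (φ m)))
    (hEc' : ∀ m ≤ n, nn (c' m) ≤ 2 * (U * Real.exp (φ m)))
    (h0 : φ 0 ≤ 0) (h1 : 0 < φ 1) :
    ∃ p, L ≤ p ∧ p < n ∧ L * Real.log k / 4 ≤ φ p ∧
      ∀ x, φ p ≤ x → φ n ≤ x - d / 2 * x ∧ φ n < x := by
  have hk0 : (0:ℝ) < k := lt_of_lt_of_le (by norm_num) D.hk
  have hκ := D.logk
  have hL1 : (16:ℝ) ≤ (L:ℝ) := by exact_mod_cast D.hL
  have hd0 := D.hd0
  have hd := D.hd
  obtain ⟨p, hp1, hp2, hp3⟩ := hviol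
  have hWn := D.one_le hn hv
  have hwn : 1 ≤ w n := by have := D.hw' n; linarith
  have hpn : p < n := by
    rcases hp2.eq_or_lt with h | h
    · exfalso
      rw [h] at hp3
      have : w n ^ (1 - d) ≤ w n ^ (1:ℝ) := Real.rpow_le_rpow_of_exponent_le hwn (by linarith)
      rw [Real.rpow_one] at this
      linarith
    · exact h
  have hexp0 : Real.exp (φ 0) ≤ 1 := Real.exp_le_one_iff.mpr h0
  have hexp1 : 1 ≤ Real.exp (φ 1) := Real.one_le_exp h1.le
  -- upper half at `p`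
  have hup : U * nn (W p) ≤ 64 * k * (2 * (U * Real.exp (φ p))) := by
    have hU0 : U * Real.exp (φ 0) ≤ U := by nlinarith
    have hU1 : U ≤ U * Real.exp (φ 1) := by nlinarith
    have hpp : 1 ≤ p := by have := D.hL; omega
    have e1 := hE 1 (by omega)
    rcases le_total (nn (c 1)) (nn (c' 1)) with hcc | hcc
    · have := D.up hn hv hc' hU (by have := hEc' 0 (Nat.zero_le n); linarith) (by linarith) hpp hpn.le
      have h2 := mul_le_mul_of_nonneg_left (hEc' p hpn.le) (by positivity : (0:ℝ) ≤ 64 * k)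
      linarith
    · have := D.up hn hv hc hU (by have := hEc 0 (Nat.zero_le n); linarith) (by linarith) hpp hpn.le
      have h2 := mul_le_mul_of_nonneg_left (hEc p hpn.le) (by positivity : (0:ℝ) ≤ 64 * k)
      linarith
  have hup2 : nn (W p) ≤ 128 * k * Real.exp (φ p) := by
    have : U * nn (W p) ≤ U * (128 * k * Real.exp (φ p)) := by
      calc U * nn (W p) ≤ 64 * k * (2 * (U * Real.exp (φ p))) := hup
        _ = _ := by ring
    exact le_of_mul_le_mul_left this hU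
  have hl128 : Real.log 128 ≤ 5 := by
    rw [Real.log_le_iff_le_exp (by norm_num)]
    have h9 : Real.exp 5 = Real.exp 1 ^ 5 := by
      rw [← Real.exp_nat_mul]; norm_num
    rw [h9]
    have h10 := Real.exp_one_gt_d9
    calc (128:ℝ) ≤ (2.7182818283:ℝ) ^ 5 := by norm_num
      _ ≤ Real.exp 1 ^ 5 := by gcongr
  have lup : Real.log (w p) ≤ 5 + Real.log k + φ p := by
    have h2 := Real.log_le_log (D.wpos p) ((D.hw p).trans hup2)
    rw [Real.log_mul (by positivity) (Real.exp_pos _).ne', Real.log_mul (by norm_num) hk0.ne',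
      Real.log_exp] at h2
    linarith
  -- lower half at `n`
  have hlow : U * Real.exp (φ n) ≤ 20 * U * nn (W n) := by
    have e1 := hE n le_rfl
    have e2 := D.dom hn hv hc
    have e3 := D.dom hn hv hc'
    have e4 := hEc 0 (Nat.zero_le n)
    have e5 := hEc' 0 (Nat.zero_le n)
    have hU0 : U * Real.exp (φ 0) ≤ U := by nlinarith
    have e6 : nn (c 0) * nn (W n) ≤ 2 * U * nn (W n) :=
      mul_le_mul_of_nonneg_right (by linarith) (by linarith)
    have e7 : nn (c' 0) * nn (W n) ≤ 2 * U * nn (W n) :=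
      mul_le_mul_of_nonneg_right (by linarith) (by linarith)
    nlinarith
  have hlow2 : Real.exp (φ n) ≤ 40 * w n := by
    have h2 : U * Real.exp (φ n) ≤ U * (20 * nn (W n)) := by linarith
    have h3 := le_of_mul_le_mul_left h2 hU
    have h4 := D.hw' n
    linarith
  have hl40 : Real.log 40 ≤ 4 := by
    rw [Real.log_le_iff_le_exp (by norm_num)]
    have h9 : Real.exp 4 = Real.exp 1 ^ 4 := by
      rw [← Real.exp_nat_mul]; norm_num
    rw [h9]
    have h10 := Real.exp_one_gt_d9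
    calc (40:ℝ) ≤ (2.7182818283:ℝ) ^ 4 := by norm_num
      _ ≤ Real.exp 1 ^ 4 := by gcongr
  have llow : φ n ≤ 4 + Real.log (w n) := by
    have h2 := Real.log_le_log (Real.exp_pos _) hlow2
    rw [Real.log_exp, Real.log_mul (by norm_num) (D.wpos n).ne'] at h2
    linarith
  have lv : Real.log (w n) ≤ (1 - d) * Real.log (w p) := by
    have h2 := Real.log_le_log (D.wpos n) hp3.le
    rwa [Real.log_rpow (D.wpos p)] at h2
  have lge := D.log_ge (hv p hpn) hp1 le_rfl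
  have hφp : (L:ℝ) * Real.log k / 4 ≤ φ p := by nlinarith
  refine ⟨p, hp1, hpn, hφp, ?_⟩
  intro x hx
  have key : φ n ≤ (1 - d) * x + 2 * Real.log k := by nlinarith
  have hx2 : 4 * Real.log k ≤ d * x := by
    have h3 : d * ((L:ℝ) * Real.log k / 4) ≤ d * x := mul_le_mul_of_nonneg_left (hφp.trans hx) hd0.le
    have h4 : 16 * Real.log k ≤ d * L * Real.log k := mul_le_mul_of_nonneg_right hLd (by linarith)
    nlinarith
  constructor
  · nlinarith
  · nlinarith

end Crest.Agent.R128.FootL
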