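import Mathlib
import Crest.Agent.R128.FootL
import Crest.Agent.R128.Rev
import Crest.Agent.R128.Skel

/-!
# Row 128, node V1-5, both feet in the vocabulary of `Skel` (helper676)

A foot (left: `y = T^i z`; right: `y = (T^j z).swap`) of a component of the root contour which is not
`Val` towards the top, and which is neither in `C1` nor in `LG`, sees a valley of relative depth
`1 / (2 P)` behind a maximum of height `≥ L0 log k / 4` (434's `ValL`, `ValR`).
-/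

set_option autoImplicit false

open Finset

namespace Crest.Agent.R128.FootSkel

open Crest.Agent.R128.TreeSum Crest.Agent.R128.Acc Crest.Agent.R128.Lam0 Crest.Agent.R128.FootL
open Crest.Agent.R128.Skel Crest.Agent.R128.Close

theorem pow_to_rpow {x y : ℝ} (hx : 0 < x) (hy : 0 < y) {P : ℕ} (hP : 1 ≤ P)
    (h : x ^ (P - 1) ≤ y ^ P) : x ^ (1 - 1 / (P : ℝ)) ≤ y := by
  have hP0 : (0:ℝ) < (P:ℝ) := by exact_mod_cast hP
  have h1 := Real.rpow_le_rpow (by positivity) h (by positivity : (0:ℝ) ≤ 1 / (P:ℝ))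
  rw [← Real.rpow_natCast, ← Real.rpow_natCast, ← Real.rpow_mul hx.le, ← Real.rpow_mul hy.le] at h1
  have e1 : ((P - 1 : ℕ) : ℝ) * (1 / (P:ℝ)) = 1 - 1 / (P:ℝ) := by
    rw [Nat.cast_sub hP]
    field_simp
    simp
  have e2 : (P : ℝ) * (1 / (P:ℝ)) = 1 := by field_simp
  rw [e1, e2, Real.rpow_one] at h1
  exact h1

theorem lt_pow_to_rpow {x y : ℝ} (hx : 0 < x) (hy : 0 < y) {P : ℕ} (hP : 1 ≤ P)
    (h : y ^ P < x ^ (P - 1)) : y < x ^ (1 - 1 / (P : ℝ)) := by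
  have hP0 : (0:ℝ) < (P:ℝ) := by exact_mod_cast hP
  have h1 := Real.rpow_lt_rpow (by positivity) h (by positivity : (0:ℝ) < 1 / (P:ℝ))
  rw [← Real.rpow_natCast, ← Real.rpow_natCast, ← Real.rpow_mul hx.le, ← Real.rpow_mul hy.le] at h1
  have e1 : ((P - 1 : ℕ) : ℝ) * (1 / (P:ℝ)) = 1 - 1 / (P:ℝ) := by
    rw [Nat.cast_sub hP]
    field_simp
    simp
  have e2 : (P : ℝ) * (1 / (P:ℝ)) = 1 := by field_simp
  rw [e1, e2, Real.rpow_one] at h1
  exact h1

theorem dur_to_rpow {x : ℝ} {j P : ℕ} (hP : 1 ≤ P) (h : (j : ℝ) ^ (4 * P) ≤ x) :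
    (j : ℝ) ≤ x ^ (1 / (P : ℝ) / 4) := by
  have hP0 : (0:ℝ) < (P:ℝ) := by exact_mod_cast hP
  have h1 := Real.rpow_le_rpow (by positivity) h (by positivity : (0:ℝ) ≤ 1 / (P:ℝ) / 4)
  rw [← Real.rpow_natCast, ← Real.rpow_mul (Nat.cast_nonneg j)] at h1
  have e1 : ((4 * P : ℕ) : ℝ) * (1 / (P:ℝ) / 4) = 1 := by
    push_cast
    field_simp
  rw [e1, Real.rpow_one] at h1
  exact h1

variable {k : ℝ} {P L0 : ℕ} {y : Tor}

/-- standing numeric hypotheses -/
structure Nm (k : ℝ) (P L0 : ℕ) : Prop where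
  hk : (10:ℝ) ^ 12 ≤ k
  hP : 100 ≤ P
  hP' : P ≤ 1000
  hL : 16 * P ≤ L0
  hk2 : (L0 : ℝ) ^ (4 * P) ≤ k

theorem dt_of (H : Nm k P L0) (hy : y ∉ C1 k L0) :
    Dt k L0 (1 / (P:ℝ)) (fun m => V k ((T k)^[m] y).2) (fld k y) (fun m => ‖fld k y m‖) where
  hk := H.hk
  hL := by have := H.hP; have := H.hL; omega
  hd0 := by have := H.hP; have : (0:ℝ) < (P:ℝ) := by exact_mod_cast (by omega : 0 < P)
            positivity
  hd := by
    have := H.hP
    have h1 : (4:ℝ) ≤ (P:ℝ) := by exact_mod_cast (by omega : 4 ≤ P)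
    exact one_div_le_one_div_of_le (by norm_num) h1
  hA := fun j => abs_V_le (le_trans (by norm_num) H.hk) _
  c1 := by
    intro m hm
    by_contra hc
    push Not at hc
    exact hy ⟨m, hm, hc⟩
  hW := isField_fld k y
  hW0 := fld_zero k y
  hw := fun m => norm_le_nn _
  hw' := fun m => nn_le_norm _

/-- sup norms along the regular digits -/
theorem reg (H : Nm k P L0) (hy : y ∉ C1 k L0) :
    (∀ m, m ≤ L0 → ‖fld k y m‖ = |(fld k y m).2| ∧ 1 ≤ ‖fld k y m‖) ∧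
    (∀ i j, i ≤ j → j ≤ L0 → ‖fld k y i‖ ≤ ‖fld k y j‖) ∧ k ^ 500 ≤ ‖fld k y 1000‖ := by
  have D := dt_of H hy
  obtain ⟨t, ht, ht3, ht2⟩ := exists_t H.hk
  have ht0 : (0:ℝ) < t := lt_of_lt_of_le (by norm_num) ht
  have hB : (1:ℝ) ≤ t ^ 2 / 2 := by nlinarith
  have hb := base D.hW D.hW0 hB (D.dig ht ht2)
  have hn : ∀ m, m ≤ L0 → ‖fld k y m‖ = |(fld k y m).2| := by
    intro m hm
    rw [Prod.norm_def, Real.norm_eq_abs, Real.norm_eq_abs]
    exact max_eq_right (hb m hm).2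
  have hone : ∀ m, m ≤ L0 → 1 ≤ ‖fld k y m‖ := by
    intro m hm
    rw [hn m hm]
    exact (one_le_pow₀ hB).trans (hb m hm).1
  refine ⟨fun m hm => ⟨hn m hm, hone m hm⟩, ?_, ?_⟩
  · intro i j hij
    induction j, hij using Nat.le_induction with
    | base => intro _; exact le_rfl
    | succ j hij ih =>
      intro hj
      refine (ih (by omega)).trans ?_
      rw [hn (j + 1) hj, hn j (by omega)]
      have h1 : (fld k y (j + 1)).1 = (fld k y j).2 := by rw [fld_succ]; rfl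
      have h2 := (hb (j + 1) hj).2
      rw [h1] at h2
      exact h2
  · have hL := H.hL
    have hP := H.hP
    rw [hn 1000 (by omega)]
    refine le_trans ?_ (hb 1000 (by omega)).1
    have h1 : k ≤ (t ^ 2 / 2) ^ 2 := by
      rw [← ht3]
      have : (t ^ 2 / 2) ^ 2 = t ^ 3 * (t / 4) := by ring
      rw [this]
      have h2 : (1:ℝ) ≤ t / 4 := by linarith [le_trans (by norm_num : (4:ℝ) ≤ 10 ^ 4) ht]
      exact le_mul_of_one_le_right (by positivity) h2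
    calc k ^ 500 ≤ ((t ^ 2 / 2) ^ 2) ^ 500 := by
          have : (0:ℝ) ≤ k := le_trans (by norm_num) H.hk
          gcongr
      _ = (t ^ 2 / 2) ^ 1000 := by rw [← pow_mul]

/-- `Val` holds along the regular digits -/
theorem val_reg (H : Nm k P L0) (hy : y ∉ C1 k L0) : Val k P L0 y L0 := by
  obtain ⟨h1, h2, h3⟩ := reg H hy
  have hP := H.hP
  have hL := H.hL
  refine ⟨?_, ?_, ?_⟩
  · intro m hm _
    by_contra hc
    push Not at hc
    exact hy ⟨m, hm, hc⟩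
  · intro i j _ hij hj
    have hi1 := (h1 i (by omega)).2
    calc ‖fld k y i‖ ^ (P - 1) ≤ ‖fld k y i‖ ^ P := pow_le_pow_right₀ hi1 (by omega)
      _ ≤ ‖fld k y j‖ ^ P := pow_le_pow_left₀ (norm_nonneg _) (h2 i j hij hj) _
  · intro j hj hjL
    refine ⟨1000, le_rfl, hj, ?_⟩
    have hk1 : (1:ℝ) ≤ k := le_trans (by norm_num) H.hk
    calc (j:ℝ) ^ (4 * P) ≤ (L0:ℝ) ^ (4 * P) := by
          have : (j:ℝ) ≤ (L0:ℝ) := by exact_mod_cast hjL
          gcongr
      _ ≤ k := H.hk2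
      _ = k ^ 1 := (pow_one k).symm
      _ ≤ k ^ 500 := pow_le_pow_right₀ hk1 (by norm_num)
      _ ≤ _ := h3

theorem val_anti {n n' : ℕ} (h : Val k P L0 y n) (hn : n' ≤ n) : Val k P L0 y n' :=
  ⟨fun m a b => h.cl m a (by omega), fun i j a b c => h.v2 i j a b (c.trans hn),
   fun j a b => h.v3 j a (b.trans hn)⟩

/-- `Val` gives the abstract validity from `L0` on -/
theorem vg_of_val (H : Nm k P L0) (hy : y ∉ C1 k L0) {n : ℕ} (h : Val k P L0 y n) :
    Vg L0 (1 / (P:ℝ)) (fun m => ‖fld k y m‖) n := by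
  have D := dt_of H hy
  obtain ⟨h1, h2, h3⟩ := reg H hy
  have hP := H.hP
  have hL := H.hL
  refine ⟨?_, ?_⟩
  · intro i j hi hij hj
    exact pow_to_rpow (D.wpos i) (D.wpos j) (by omega) (h.v2 i j (by omega) hij hj)
  · intro j hj hjn
    obtain ⟨i, hi1, hi2, hi3⟩ := h.v3 j (by omega) hjn
    rcases Nat.lt_or_ge i L0 with hiL | hiL
    · exact ⟨L0, le_rfl, hj, dur_to_rpow (by omega) (hi3.trans (h2 i L0 hiL.le le_rfl))⟩
    · exact ⟨i, hiL, hi2, dur_to_rpow (by omega) hi3⟩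

theorem rv_pow {x z : ℝ} (hx : 0 < x) (hz : 1 ≤ z) {P : ℕ} (hP : 100 ≤ P) (h : x ^ (P - 1) ≤ z ^ P) :
    x ^ 89 ≤ z ^ 90 := by
  have h1 : (x ^ 89) ^ (P - 1) ≤ (z ^ 90) ^ (P - 1) := by
    calc (x ^ 89) ^ (P - 1) = (x ^ (P - 1)) ^ 89 := by rw [← pow_mul, ← pow_mul, mul_comm]
      _ ≤ (z ^ P) ^ 89 := pow_le_pow_left₀ (by positivity) h 89
      _ = z ^ (P * 89) := by rw [← pow_mul]
      _ ≤ z ^ (90 * (P - 1)) := pow_le_pow_right₀ hz (by omega)
      _ = (z ^ 90) ^ (P - 1) := by rw [← pow_mul]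
  exact le_of_pow_le_pow_left₀ (by omega) (by positivity) h1

/-- **First violation**: a point outside `C1` and `LG` which is not `Val` up to `n0` has a first
violation of the no-drop clause. -/
theorem first_viol (H : Nm k P L0) (hy : y ∉ C1 k L0) (hy' : y ∉ LG k L0) {n0 : ℕ}
    (hnv : ¬ Val k P L0 y n0) : ∃ n, L0 < n ∧ n ≤ n0 ∧ (∀ m, m < n → Val k P L0 y m) ∧
      ∃ p, L0 ≤ p ∧ p ≤ n ∧ ‖fld k y n‖ < ‖fld k y p‖ ^ (1 - 1 / (P:ℝ)) := by
  classical
  have D := dt_of H hy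
  obtain ⟨h1, h2, h3⟩ := reg H hy
  have hP := H.hP
  have hP' := H.hP'
  have hL := H.hL
  have hex : ∃ n, ¬ Val k P L0 y n := ⟨n0, hnv⟩
  set n := Nat.find hex with hn
  have hn1 : ¬ Val k P L0 y n := Nat.find_spec hex
  have hn2 : ∀ m, m < n → Val k P L0 y m := by
    intro m hm
    by_contra hc
    exact Nat.find_min hex hm hc
  have hn3 : n ≤ n0 := Nat.find_min' hex hnv
  have hnL : L0 < n := by
    by_contra hc
    push Not at hc
    exact hn1 (val_anti (val_reg H hy) hc)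
  have hvn := hn2 (n - 1) (by omega)
  refine ⟨n, hnL, hn3, hn2, ?_⟩
  by_contra hno
  push Not at hno
  -- the no-drop clause holds at `n`
  have hv2 : ∀ i, 1000 ≤ i → i ≤ n → ‖fld k y i‖ ^ (P - 1) ≤ ‖fld k y n‖ ^ P := by
    intro i hi hin
    by_contra hc
    push Not at hc
    rcases Nat.lt_or_ge i L0 with hiL | hiL
    · have h4 : ‖fld k y i‖ ^ (P - 1) ≤ ‖fld k y L0‖ ^ (P - 1) :=
        pow_le_pow_left₀ (norm_nonneg _) (h2 i L0 hiL.le le_rfl) _
      have h5 := lt_pow_to_rpow (D.wpos L0) (D.wpos n) (by omega) (lt_of_lt_of_le hc h4)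
      exact absurd h5 (not_lt.mpr (hno L0 le_rfl hnL.le))
    · have h5 := lt_pow_to_rpow (D.wpos i) (D.wpos n) (by omega) hc
      exact absurd h5 (not_lt.mpr (hno i hiL hin))
  -- hence the duration clause fails at `n`
  have hv3 : ∀ i, 1000 ≤ i → i ≤ n → ‖fld k y i‖ < (n:ℝ) ^ (4 * P) := by
    intro i hi hin
    by_contra hc
    push Not at hc
    apply hn1
    refine ⟨?_, ?_, ?_⟩
    · intro m hm _
      by_contra hc
      push Not at hc
      exact hy ⟨m, hm, hc⟩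
    · intro a b ha hab hb
      rcases hb.eq_or_lt with h | h
      · rw [h]
        exact hv2 a ha (by omega)
      · exact hvn.v2 a b ha hab (by omega)
    · intro b hb hbn
      rcases hbn.eq_or_lt with h | h
      · exact ⟨i, hi, by omega, by rw [h]; exact hc⟩
      · exact hvn.v3 b hb (by omega)
  apply hy'
  have hnn : (1:ℝ) ≤ (n:ℝ) := by exact_mod_cast (by omega : 1 ≤ n)
  have hone : ∀ j, 1000 ≤ j → j ≤ n - 1 → 1 ≤ ‖fld k y j‖ := by
    intro j hj hjn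
    rcases Nat.lt_or_ge j L0 with hjL | hjL
    · exact (h1 j hjL.le).2
    · have g := D.big (vg_of_val H hy hvn) hjL hjn
      have hk1 : (1:ℝ) ≤ k := le_trans (by norm_num) H.hk
      exact (one_le_pow₀ hk1).trans g
  refine ⟨hy, n, hnL, ⟨h3, ?_, ?_⟩, ?_⟩
  · intro i j hi hij hj
    exact rv_pow (D.wpos i) (hone j (by omega) hj) hP (hvn.v2 i j hi hij hj)
  · intro j hj hjn
    obtain ⟨i, hi1, hi2, hi3⟩ := hvn.v3 j hj hjn
    refine ⟨i, hi1, hi2, ?_⟩
    have hj1 : (1:ℝ) ≤ (j:ℝ) := by exact_mod_cast (by omega : 1 ≤ j)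
    have h4 : (j:ℝ) ^ 400 ≤ (j:ℝ) ^ (4 * P) := pow_le_pow_right₀ hj1 (by omega)
    have := norm_nonneg (fld k y i)
    linarith
  · intro i hi hin
    have h4 := (hv3 i hi hin.le).le
    have h5 : (n:ℝ) ^ (4 * P) ≤ (n:ℝ) ^ 4000 := pow_le_pow_right₀ hnn (by omega)
    have h6 : (0:ℝ) ≤ (n:ℝ) ^ 4000 := by positivity
    linarith

/-- **the foot lemma on one orbit** -/
theorem foot_gen (H : Nm k P L0) (hy : y ∉ C1 k L0) (hy' : y ∉ LG k L0) {n0 : ℕ}
    (hnv : ¬ Val k P L0 y n0) {c c' : ℕ → ℝ × ℝ} (hc : IsField (fun m => V k ((T k)^[m] y).2) c)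
    (hc' : IsField (fun m => V k ((T k)^[m] y).2) c') {φ : ℕ → ℝ} {U : ℝ} (hU : 0 < U)
    (hE : ∀ m ≤ n0, U * Real.exp (φ m) ≤ nn (c m) + nn (c' m))
    (hEc : ∀ m ≤ n0, nn (c m) ≤ 2 * (U * Real.exp (φ m)))
    (hEc' : ∀ m ≤ n0, nn (c' m) ≤ 2 * (U * Real.exp (φ m)))
    (h0 : φ 0 ≤ 0) (h1 : 0 < φ 1) :
    ∃ n p, L0 ≤ p ∧ p < n ∧ n ≤ n0 ∧ (L0:ℝ) * Real.log k / 4 ≤ φ p ∧
      ∀ x, φ p ≤ x → φ n ≤ x - 1 / (P:ℝ) / 2 * x ∧ φ n < x := by
  have D := dt_of H hy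
  obtain ⟨n, hn1, hn2, hn3, hn4⟩ := first_viol H hy hy' hnv
  have hP := H.hP
  have hL := H.hL
  have hLd : 16 ≤ 1 / (P:ℝ) * (L0:ℝ) := by
    have hP0 : (0:ℝ) < (P:ℝ) := by exact_mod_cast (by omega : 0 < P)
    rw [one_div_mul_eq_div, le_div_iff₀ hP0]
    exact_mod_cast hL
  obtain ⟨p, hp1, hp2, hp3, hp4⟩ := D.valley hLd hn1.le (fun m hm => vg_of_val H hy (hn3 m hm)) hn4
    hc hc' hU (fun m hm => hE m (hm.trans hn2)) (fun m hm => hEc m (hm.trans hn2))
    (fun m hm => hEc' m (hm.trans hn2)) h0 h1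
  exact ⟨n, p, hp1, hp2, hn2, hp3, hp4⟩

/-! ### the root columns -/

theorem isField_act (k : ℝ) (z : Tor) (v : ℝ × ℝ) :
    IsField (fun m => V k ((T k)^[m] z).2) (fun m => act (Mn k m z) v) := by
  intro m
  show act (Mn k (m + 1) z) v = stp (V k ((T k)^[m] z).2) (act (Mn k m z) v)
  rw [Mn_succ', act_mul, act_Am]

theorem exp_bz (k : ℝ) (z : Tor) (n : ℕ) :
    Real.exp (bz k z n) = max (rn (Mn k n z) 0) (rn (Mn k n z) 1) := by
  unfold bz
  rw [exp_bt]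
  unfold nm
  rw [rr_succ]
  rfl

theorem act10 (M : Matrix (Fin 2) (Fin 2) ℝ) : act M (1, 0) = (M 0 0, M 1 0) := by
  unfold act; simp

theorem act01 (M : Matrix (Fin 2) (Fin 2) ℝ) : act M (0, 1) = (M 0 1, M 1 1) := by
  unfold act; simp

theorem exp_bz_le (k : ℝ) (z : Tor) (n : ℕ) :
    Real.exp (bz k z n) ≤ nn (act (Mn k n z) (1, 0)) + nn (act (Mn k n z) (0, 1)) := by
  rw [exp_bz, act10, act01]
  have h1 := abs_fst_le (Mn k n z 0 0, Mn k n z 1 0)
  have h2 := abs_snd_le (Mn k n z 0 0, Mn k n z 1 0)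
  have h3 := abs_fst_le (Mn k n z 0 1, Mn k n z 1 1)
  have h4 := abs_snd_le (Mn k n z 0 1, Mn k n z 1 1)
  simp only at h1 h2 h3 h4
  unfold rn
  exact max_le (by linarith) (by linarith)

theorem le_exp_bz (k : ℝ) (z : Tor) (n : ℕ) :
    nn (act (Mn k n z) (1, 0)) ≤ 2 * Real.exp (bz k z n) ∧
    nn (act (Mn k n z) (0, 1)) ≤ 2 * Real.exp (bz k z n) := by
  rw [exp_bz, act10, act01]
  have h1 := nn_le_add (Mn k n z 0 0, Mn k n z 1 0)
  have h2 := nn_le_add (Mn k n z 0 1, Mn k n z 1 1)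
  simp only at h1 h2
  have h3 := le_max_left (rn (Mn k n z) 0) (rn (Mn k n z) 1)
  have h4 := le_max_right (rn (Mn k n z) 0) (rn (Mn k n z) 1)
  unfold rn at h3 h4 ⊢
  have a1 := abs_nonneg (Mn k n z 0 0)
  have a2 := abs_nonneg (Mn k n z 0 1)
  have a3 := abs_nonneg (Mn k n z 1 0)
  have a4 := abs_nonneg (Mn k n z 1 1)
  constructor <;> linarith

/-- the argmax packaging, left foot -/
theorem pack_left {f : ℕ → ℝ} {i t j n p : ℕ} {lam D b : ℝ} (htj : t < j)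
    (hmax : ∀ m, i < m → m < j → f m ≤ f t) (hp : 1 ≤ p) (hpn : p < n) (hnt : n ≤ t - i)
    (hD : D ≤ f (i + p) - lam)
    (hx : ∀ x, f (i + p) - lam ≤ x → f (i + n) - lam ≤ x - b * x ∧ f (i + n) - lam < x) :
    ∃ v a, v < t ∧ a ≤ v ∧ i < a ∧ (∀ m, i < m → m ≤ v → f m ≤ f a) ∧ D ≤ f a - lam ∧
      f v ≤ f a - b * (f a - lam) := by
  obtain ⟨a, ha, hamax⟩ := Finset.exists_max_image (Finset.Ioc i (i + n)) f
    ⟨i + p, Finset.mem_Ioc.mpr ⟨by omega, by omega⟩⟩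
  rw [Finset.mem_Ioc] at ha
  have h1 := hamax (i + p) (Finset.mem_Ioc.mpr ⟨by omega, by omega⟩)
  obtain ⟨h2, h3⟩ := hx (f a - lam) (by linarith)
  refine ⟨i + n, a, ?_, ha.2, ha.1, ?_, by linarith, by linarith⟩
  · rcases Nat.lt_or_ge (i + n) t with h | h
    · exact h
    · exfalso
      have e : i + n = t := by omega
      have h4 := hmax a ha.1 (by omega)
      rw [e] at h3
      linarith
  · intro m h4 h5
    exact hamax m (Finset.mem_Ioc.mpr ⟨h4, h5⟩)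

/-- the argmax packaging, right foot -/
theorem pack_right {f : ℕ → ℝ} {i t j n p : ℕ} {lam D b : ℝ} (hit : i < t) (htj : t < j)
    (hmax : ∀ m, i < m → m < j → f m ≤ f t) (hp : 1 ≤ p) (hpn : p < n) (hnt : n ≤ j - t)
    (hD : D ≤ f (j - p) - lam)
    (hx : ∀ x, f (j - p) - lam ≤ x → f (j - n) - lam ≤ x - b * x ∧ f (j - n) - lam < x) :
    ∃ v a, t < v ∧ v ≤ a ∧ a < j ∧ (∀ m, v ≤ m → m < j → f m ≤ f a) ∧ D ≤ f a - lam ∧
      f v ≤ f a - b * (f a - lam) := by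
  obtain ⟨a, ha, hamax⟩ := Finset.exists_max_image (Finset.Ico (j - n) j) f
    ⟨j - p, Finset.mem_Ico.mpr ⟨by omega, by omega⟩⟩
  rw [Finset.mem_Ico] at ha
  have h1 := hamax (j - p) (Finset.mem_Ico.mpr ⟨by omega, by omega⟩)
  obtain ⟨h2, h3⟩ := hx (f a - lam) (by linarith)
  refine ⟨j - n, a, ?_, ha.1, ha.2, ?_, by linarith, by linarith⟩
  · rcases Nat.lt_or_ge t (j - n) with h | h
    · exact h
    · exfalso
      have e : j - n = t := by omega
      have h4 := hmax a (by omega) ha.2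
      rw [e] at h3
      linarith
  · intro m h4 h5
    exact hamax m (Finset.mem_Ico.mpr ⟨h4, h5⟩)

/-- **LEFT FOOT** -/
theorem left {z : Tor} (H : Nm k P L0) {i t j : ℕ} {lam : ℝ} (hit : i < t) (htj : t < j)
    (hfi : bz k z i ≤ lam) (hmid : lam < bz k z (i + 1))
    (hmax : ∀ m, i < m → m < j → bz k z m ≤ bz k z t)
    (hC : (T k)^[i] z ∉ C1 k L0) (hG : (T k)^[i] z ∉ LG k L0)
    (hnv : ¬ Val k P L0 ((T k)^[i] z) (t - i)) :
    ∃ v a, v < t ∧ a ≤ v ∧ i < a ∧ (∀ m, i < m → m ≤ v → bz k z m ≤ bz k z a) ∧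
      (L0:ℝ) * Real.log k / 4 ≤ bz k z a - lam ∧
      bz k z v ≤ bz k z a - 1 / (P:ℝ) / 2 * (bz k z a - lam) := by
  have hfield : ∀ e : ℝ × ℝ, IsField (fun m => V k ((T k)^[m] ((T k)^[i] z)).2)
      (fun m => act (Mn k (i + m) z) e) := by
    intro e m
    show act (Mn k (i + m + 1) z) e = stp (V k ((T k)^[m] ((T k)^[i] z)).2) (act (Mn k (i + m) z) e)
    rw [Mn_succ', act_mul, act_Am, ← Function.iterate_add_apply, Nat.add_comm m i]
  have hexp : ∀ m, Real.exp lam * Real.exp (bz k z (i + m) - lam) = Real.exp (bz k z (i + m)) := by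
    intro m
    rw [← Real.exp_add]
    congr 1
    ring
  obtain ⟨n, p, h1, h2, h3, h4, h5⟩ := foot_gen H hC hG hnv (hfield (1, 0)) (hfield (0, 1))
    (φ := fun m => bz k z (i + m) - lam) (U := Real.exp lam) (Real.exp_pos _)
    (fun m _ => by rw [hexp]; exact exp_bz_le k z (i + m))
    (fun m _ => by rw [hexp]; exact (le_exp_bz k z (i + m)).1)
    (fun m _ => by rw [hexp]; exact (le_exp_bz k z (i + m)).2)
    (by simp only [add_zero]; linarith) (by show 0 < bz k z (i + 1) - lam; linarith)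
  have hP := H.hP
  have hL := H.hL
  exact pack_left htj hmax (by omega) h2 h3 h4 h5

/-- the reversed root columns -/
theorem rev_col (k : ℝ) (z : Tor) (e : ℝ × ℝ) {j m : ℕ} (hm : m ≤ j) :
    nn (act (Mn k m (((T k)^[j] z).swap)) (act (Mn k j z) e).swap) = nn (act (Mn k (j - m) z) e) := by
  obtain ⟨d, rfl⟩ := Nat.exists_eq_add_of_le hm
  have e1 : m + d - m = d := by omega
  rw [e1, show m + d = d + m by omega, Rev.nn_act_Mn_rev', Prod.swap_swap, Nat.add_comm d m, Mn_add,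
    act_mul, ← act_mul, Matrix.nonsing_inv_mul _ (by rw [det_Mn]; exact isUnit_one)]
  unfold act
  simp

/-- **RIGHT FOOT** -/
theorem right {z : Tor} (H : Nm k P L0) {i t j : ℕ} {lam : ℝ} (hit : i < t) (htj : t < j)
    (hfj : bz k z j ≤ lam) (hmid : lam < bz k z (j - 1))
    (hmax : ∀ m, i < m → m < j → bz k z m ≤ bz k z t)
    (hC : ((T k)^[j] z).swap ∉ C1 k L0) (hG : ((T k)^[j] z).swap ∉ LG k L0)
    (hnv : ¬ Val k P L0 ((T k)^[j] z).swap (j - t)) :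
    ∃ v a, t < v ∧ v ≤ a ∧ a < j ∧ (∀ m, v ≤ m → m < j → bz k z m ≤ bz k z a) ∧
      (L0:ℝ) * Real.log k / 4 ≤ bz k z a - lam ∧
      bz k z v ≤ bz k z a - 1 / (P:ℝ) / 2 * (bz k z a - lam) := by
  have hexp : ∀ m, Real.exp lam * Real.exp (bz k z (j - m) - lam) = Real.exp (bz k z (j - m)) := by
    intro m
    rw [← Real.exp_add]
    congr 1
    ring
  obtain ⟨n, p, h1, h2, h3, h4, h5⟩ := foot_gen H hC hG hnv
    (isField_act k _ ((act (Mn k j z) (1, 0)).swap)) (isField_act k _ ((act (Mn k j z) (0, 1)).swap))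
    (φ := fun m => bz k z (j - m) - lam) (U := Real.exp lam) (Real.exp_pos _)
    (fun m hm => by
      rw [hexp, rev_col k z _ (by omega : m ≤ j), rev_col k z _ (by omega : m ≤ j)]
      exact exp_bz_le k z (j - m))
    (fun m hm => by
      rw [hexp, rev_col k z _ (by omega : m ≤ j)]
      exact (le_exp_bz k z (j - m)).1)
    (fun m hm => by
      rw [hexp, rev_col k z _ (by omega : m ≤ j)]
      exact (le_exp_bz k z (j - m)).2)
    (by simp only [Nat.sub_zero]; linarith) (by show 0 < bz k z (j - 1) - lam; linarith)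
  have hP := H.hP
  have hL := H.hL
  exact pack_right hit htj hmax (by omega) h2 h3 h4 h5

/-- **V1-5, left**, in 434's vocabulary -/
theorem valL {z : Tor} (H : Nm k P L0) {N i t j l : ℕ} (h : Close.Cmp (bz k z) (Real.log k) N i t j l)
    (hC : (T k)^[i] z ∉ C1 k L0) (hG : (T k)^[i] z ∉ LG k L0)
    (hnv : ¬ Val k P L0 ((T k)^[i] z) (t - i)) :
    Charge.ValL (bz k z) (Real.log k) (1 / (P:ℝ) / 2) ((L0:ℝ) * Real.log k / 4) t i (l:ℤ) := by
  have h1 := left H h.it h.tj h.left (h.above (i + 1) (by omega) (by have := h.it; have := h.tj; omega))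
    h.top hC hG hnv
  unfold Charge.ValL
  simpa using h1

/-- **V1-5, right**, in 434's vocabulary -/
theorem valR {z : Tor} (H : Nm k P L0) {N i t j l : ℕ} (h : Close.Cmp (bz k z) (Real.log k) N i t j l)
    (hC : ((T k)^[j] z).swap ∉ C1 k L0) (hG : ((T k)^[j] z).swap ∉ LG k L0)
    (hnv : ¬ Val k P L0 ((T k)^[j] z).swap (j - t)) :
    Charge.ValR (bz k z) (Real.log k) (1 / (P:ℝ) / 2) ((L0:ℝ) * Real.log k / 4) t j (l:ℤ) := by
  have h1 := right H h.it h.tj h.right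
    (h.above (j - 1) (by have := h.it; have := h.tj; omega) (by have := h.tj; omega)) h.top hC hG hnv
  unfold Charge.ValR
  simpa using h1

end Crest.Agent.R128.FootSkel
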