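import Mathlib
import Crest.Agent.R128.CleanDisc

/-!
Row 128, node V5-FOOT (helper670): LEMMA FOOT (uniqueness of the feet).

All the good points of a dyadic cell have the same feet up to `s` steps.

* `foot_le`     : abstract form.
* `record`      : a backward clean side whose last digits before the foot `n` are regular has its
                  field record at the foot: `R_m ≤ R_n` for every `m ≤ n`.
* `growth`      : the field grows after the foot.
* `nn_le_two`   : comparison of the fields of two real points of a small interval.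
* `foot_le_pts` : the two-point statement.
* `Sg_exit_le`  : the displacement sum up to `s` steps after the foot.
-/

set_option autoImplicit false

open Finset

namespace Crest.Agent.R128.FootU

open Crest.Agent.R128 Crest.Agent.R128.Cell Crest.Agent.R128.CellB
open Crest.Agent.R128.TreeSum Crest.Agent.R128.Disp Crest.Agent.R128.CleanNum
open Crest.Agent.R128.CleanDisc

/-- **Abstract foot lemma.** -/
theorem foot_le {R0 R1 : ℕ → ℝ} {n0 n1 s : ℕ} {α : ℝ}
    (h1 : R0 (n0 + s) ≤ 2 * R1 (n0 + s)) (h2 : α * R0 n0 ≤ R0 (n0 + s))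
    (h3 : 2 * R1 n1 < α * R0 n0) (h4 : ∀ m ≤ n1, R1 m ≤ R1 n1) : n1 ≤ n0 + s := by
  by_contra hc
  have := h4 (n0 + s) (by omega)
  linarith

theorem nn_le_two_fst {v : ℝ × ℝ} (h : |v.2| ≤ |v.1|) : nn v ≤ 2 * |v.1| := by
  have := nn_le_add v
  linarith

theorem nn_le_two_snd {v : ℝ × ℝ} (h : |v.1| ≤ |v.2|) : nn v ≤ 2 * |v.2| := by
  have := nn_le_add v
  linarith

theorem nn_add_le (u v : ℝ × ℝ) : nn (u.1 + v.1, u.2 + v.2) ≤ nn u + nn v := by
  have hu := nn_nonneg u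
  have hv := nn_nonneg v
  have h1 := nn_sq u
  have h2 := nn_sq v
  have h3 := nn_sq (u.1 + v.1, u.2 + v.2)
  simp only at h3
  have h4 : |dt u v| ≤ nn u * nn v := abs_dt_le u v
  have h5 : u.1 * v.1 + u.2 * v.2 ≤ nn u * nn v := (le_abs_self _).trans h4
  refine abs_le_of_sq_le_sq' ?_ (by positivity) |>.2
  nlinarith

/-- one step backward -/
theorem back_step {a : ℕ → ℝ} {z : ℕ → ℝ × ℝ} (hz : IsField a z) {b : ℝ} (hb : 1 ≤ b) {m : ℕ}
    (hd : b + 1 ≤ |a m|) (h : |(z (m + 1)).2| ≤ |(z (m + 1)).1|) :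
    b * |(z (m + 1)).1| ≤ |(z m).1| ∧ |(z m).2| ≤ |(z m).1| := by
  have h1 := hz m
  unfold stp at h1
  have e1 : (z (m + 1)).1 = (z m).2 := by rw [h1]
  have e2 : (z (m + 1)).2 = a m * (z m).2 - (z m).1 := by rw [h1]
  have h3 : (z m).1 = a m * (z (m + 1)).1 - (z (m + 1)).2 := by rw [e2, e1]; ring
  have h4 : b * |(z (m + 1)).1| ≤ |(z m).1| := by
    rw [h3]
    have h5 := abs_sub_abs_le_abs_sub (a m * (z (m + 1)).1) ((z (m + 1)).2)
    rw [abs_mul] at h5
    have h6 : (b + 1) * |(z (m + 1)).1| ≤ |a m| * |(z (m + 1)).1| :=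
      mul_le_mul_of_nonneg_right hd (abs_nonneg _)
    linarith
  refine ⟨h4, ?_⟩
  rw [← e1]
  have := abs_nonneg (z (m + 1)).1
  nlinarith

/-- `i` steps backward from `m` -/
theorem back_pow {a : ℕ → ℝ} {z : ℕ → ℝ × ℝ} (hz : IsField a z) {b : ℝ} (hb : 1 ≤ b) {m : ℕ}
    (h : |(z m).2| ≤ |(z m).1|) :
    ∀ i ≤ m, (∀ j, m - i ≤ j → j < m → b + 1 ≤ |a j|) →
      b ^ i * |(z m).1| ≤ |(z (m - i)).1| ∧ |(z (m - i)).2| ≤ |(z (m - i)).1| := by
  intro i
  induction i with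
  | zero => intro _ _; simpa using h
  | succ i ih =>
    intro hi hd
    obtain ⟨h1, h2⟩ := ih (by omega) (fun j hj1 hj2 => hd j (by omega) hj2)
    have e : m - i = (m - (i + 1)) + 1 := by omega
    rw [e] at h1 h2
    obtain ⟨h3, h4⟩ := back_step hz hb (hd (m - (i + 1)) (by omega) (by omega)) h2
    refine ⟨?_, h4⟩
    calc b ^ (i + 1) * |(z m).1| = b * (b ^ i * |(z m).1|) := by ring
      _ ≤ b * |(z (m - (i + 1) + 1)).1| := mul_le_mul_of_nonneg_left h1 (by linarith)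
      _ ≤ _ := h3

/-- one step forward -/
theorem forw_step {a : ℕ → ℝ} {w : ℕ → ℝ × ℝ} (hw : IsField a w) {b : ℝ} (hb : 1 ≤ b) {m : ℕ}
    (hd : b + 1 ≤ |a m|) (h : |(w m).1| ≤ |(w m).2|) :
    b * |(w m).2| ≤ |(w (m + 1)).2| ∧ |(w (m + 1)).1| ≤ |(w (m + 1)).2| := by
  have h1 := hw m
  unfold stp at h1
  have e1 : (w (m + 1)).1 = (w m).2 := by rw [h1]
  have e2 : (w (m + 1)).2 = a m * (w m).2 - (w m).1 := by rw [h1]
  have h4 : b * |(w m).2| ≤ |(w (m + 1)).2| := by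
    rw [e2]
    have h5 := abs_sub_abs_le_abs_sub (a m * (w m).2) ((w m).1)
    rw [abs_mul] at h5
    have h6 : (b + 1) * |(w m).2| ≤ |a m| * |(w m).2| :=
      mul_le_mul_of_nonneg_right hd (abs_nonneg _)
    linarith
  refine ⟨h4, ?_⟩
  rw [e1]
  have := abs_nonneg (w m).2
  nlinarith

/-- `s` steps forward -/
theorem forw_pow {a : ℕ → ℝ} {w : ℕ → ℝ × ℝ} (hw : IsField a w) {b : ℝ} (hb : 1 ≤ b) {n : ℕ}
    (h : |(w n).1| ≤ |(w n).2|) :
    ∀ s, (∀ j, n ≤ j → j < n + s → b + 1 ≤ |a j|) →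
      b ^ s * |(w n).2| ≤ |(w (n + s)).2| ∧ |(w (n + s)).1| ≤ |(w (n + s)).2| := by
  intro s
  induction s with
  | zero => intro _; simpa using h
  | succ s ih =>
    intro hd
    obtain ⟨h1, h2⟩ := ih (fun j hj1 hj2 => hd j hj1 (by omega))
    obtain ⟨h3, h4⟩ := forw_step hw hb (hd (n + s) (by omega) (by omega)) h2
    refine ⟨?_, h4⟩
    calc b ^ (s + 1) * |(w n).2| = b * (b ^ s * |(w n).2|) := by ring
      _ ≤ b * |(w (n + s)).2| := mul_le_mul_of_nonneg_left h1 (by linarith)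
      _ ≤ _ := h3

/-- growth after the foot -/
theorem growth {a : ℕ → ℝ} {w : ℕ → ℝ × ℝ} (hw : IsField a w) {b : ℝ} (hb : 1 ≤ b) {n s : ℕ}
    (h : |(w n).1| ≤ |(w n).2|) (hd : ∀ j, n ≤ j → j < n + s → b + 1 ≤ |a j|) :
    b ^ s / 2 * nn (w n) ≤ nn (w (n + s)) := by
  obtain ⟨h1, _⟩ := forw_pow hw hb h s hd
  have h2 := nn_le_two_snd h
  have h3 := abs_snd_le (w (n + s))
  have hb0 : 0 ≤ b ^ s := by positivity
  calc b ^ s / 2 * nn (w n) ≤ b ^ s / 2 * (2 * |(w n).2|) :=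
        mul_le_mul_of_nonneg_left h2 (by positivity)
    _ = b ^ s * |(w n).2| := by ring
    _ ≤ _ := h1.trans h3

variable {a : ℕ → ℝ} {w z : ℕ → ℝ × ℝ} {n : ℕ} {δ K A c0 : ℝ}

/-- the `z`-field between `m` and `n` -/
theorem Z_le_pow (h : Clean a w z n δ K A c0) {m : ℕ} (hm : m ≤ n) :
    nn (z m) ≤ A ^ (n - m) * nn (z n) := by
  have hA := h.A1
  obtain ⟨d, rfl⟩ := Nat.exists_eq_add_of_le hm
  have key : ∀ d, nn (z m) ≤ A ^ d * nn (z (m + d)) := by
    intro d
    induction d with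
    | zero => simp
    | succ d ih =>
      have h1 : nn (z (m + d)) ≤ A * nn (z (m + d + 1)) := by
        have := nn_le_stp (a (m + d)) (z (m + d))
        rw [← h.hz (m + d)] at this
        exact this.trans (mul_le_mul_of_nonneg_right (h.hA _) (nn_nonneg _))
      calc nn (z m) ≤ A ^ d * nn (z (m + d)) := ih
        _ ≤ A ^ d * (A * nn (z (m + d + 1))) := mul_le_mul_of_nonneg_left h1 (by positivity)
        _ = A ^ (d + 1) * nn (z (m + (d + 1))) := by rw [pow_succ]; ring_nf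
  have := key d
  simpa using this

/-- **The field is record at the foot.**  `r` steps make the reversed field large, `i0` further
regular digits forbid a decrease of the field in the last `r` steps.
For `k` large: `b + 1 = k ^ (2/3)`, `A = 8 k`, `C1 ≤ k ^ 3`, `nn (z n) ≤ 2`: `r = 6`, `i0 = 18`. -/
theorem record (h : Clean a w z n δ K A c0) {b : ℝ} {r i0 : ℕ} (hb : 1 ≤ b)
    (hn : r + i0 ≤ n) (hdig : ∀ j, n - (r + i0) ≤ j → j < n → b + 1 ≤ |a j|)
    (hz1 : 1 ≤ |(z n).1|) (hz2 : |(z n).2| ≤ |(z n).1|)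
    (H1 : C1 A K c0 * nn (z n) ≤ (b ^ r) ^ (1 - 4 * δ))
    (H2 : 2 * C1 A K c0 * A ^ r * nn (z n) < b ^ i0) :
    (∀ m ≤ n, nn (w m) ≤ nn (w n)) ∧ ∀ m, n - r ≤ m → m ≤ n → |(w m).1| ≤ |(w m).2| := by
  have hδ0 := h.δ0
  have hδ1 := h.δ1
  have hC := C1_pos h
  have hX := h.Xpos
  have hA := h.A1
  -- the `z` field at `n - r`
  have hzr : b ^ r ≤ nn (z (n - r)) := by
    obtain ⟨h1, _⟩ := back_pow h.hz hb hz2 r (by omega) (fun j hj1 hj2 => hdig j (by omega) hj2)
    calc b ^ r = b ^ r * 1 := (mul_one _).symm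
      _ ≤ b ^ r * |(z n).1| := mul_le_mul_of_nonneg_left hz1 (by positivity)
      _ ≤ |(z (n - r)).1| := h1
      _ ≤ _ := abs_fst_le _
  have hbr : 0 < b ^ r := by positivity
  -- (A) far part
  have hfar : ∀ m ≤ n - r, nn (w m) ≤ nn (w n) := by
    intro m hm
    have h1 := h.R_le' hm (Nat.sub_le n r)
    have h2 : nn (z (n - r)) ^ (-(1 - 4 * δ)) ≤ (b ^ r) ^ (-(1 - 4 * δ)) :=
      Real.rpow_le_rpow_of_nonpos hbr hzr (by linarith)
    have h3 := h.X_le n
    have hP : 0 < (b ^ r) ^ (1 - 4 * δ) := Real.rpow_pos_of_pos hbr _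
    calc nn (w m) ≤ C1 A K c0 * |wr (w 0) (z 0)| * nn (z (n - r)) ^ (-(1 - 4 * δ)) := h1
      _ ≤ C1 A K c0 * (nn (w n) * nn (z n)) * (b ^ r) ^ (-(1 - 4 * δ)) := by
          have : 0 ≤ nn (z (n - r)) ^ (-(1 - 4 * δ)) := Real.rpow_nonneg (nn_nonneg _) _
          gcongr
          exact mul_nonneg (by linarith) (mul_nonneg (nn_nonneg _) (nn_nonneg _))
      _ = nn (w n) * (C1 A K c0 * nn (z n) / (b ^ r) ^ (1 - 4 * δ)) := by
          rw [Real.rpow_neg hbr.le]; ring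
      _ ≤ nn (w n) * 1 := by
          refine mul_le_mul_of_nonneg_left ?_ (nn_nonneg _)
          rw [div_le_one hP]
          exact H1
      _ = nn (w n) := mul_one _
  -- (B) the field increases in the last `r` steps
  have hinc : ∀ m, n - r ≤ m → m ≤ n → |(w m).1| ≤ |(w m).2| := by
    intro m hm1 hm2
    by_contra hc
    push Not at hc
    obtain ⟨h1, _⟩ := back_pow h.hw hb hc.le i0 (by omega)
      (fun j hj1 hj2 => hdig j (by omega) (by omega))
    have h2 : |(w (m - i0)).1| ≤ nn (w (m - i0)) := abs_fst_le _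
    have h3 := h.R_le (m := m - i0) (by omega)
    have h4 : nn (z (m - i0)) ^ (-(1 - 3 * δ)) ≤ 1 :=
      Real.rpow_le_one_of_one_le_of_nonpos (h.one _ (by omega)) (by linarith)
    have h5 := h.X_le m
    have h6 := Z_le_pow h hm2
    have h7 : A ^ (n - m) ≤ A ^ r := pow_le_pow_right₀ hA (by omega)
    have h8 := h.Rpos m
    have h9 := nn_le_two_fst hc.le
    have hzn : 0 ≤ nn (z n) := nn_nonneg _
    have h10 : nn (w (m - i0)) ≤ C1 A K c0 * (nn (w m) * (A ^ r * nn (z n))) := by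
      calc nn (w (m - i0)) ≤ C1 A K c0 * |wr (w 0) (z 0)| * nn (z (m - i0)) ^ (-(1 - 3 * δ)) := h3
        _ ≤ C1 A K c0 * |wr (w 0) (z 0)| * 1 :=
            mul_le_mul_of_nonneg_left h4 (by positivity)
        _ = C1 A K c0 * |wr (w 0) (z 0)| := mul_one _
        _ ≤ C1 A K c0 * (nn (w m) * nn (z m)) := mul_le_mul_of_nonneg_left h5 (by linarith)
        _ ≤ C1 A K c0 * (nn (w m) * (A ^ r * nn (z n))) := by
            refine mul_le_mul_of_nonneg_left ?_ (by linarith)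
            refine mul_le_mul_of_nonneg_left ?_ h8.le
            exact h6.trans (mul_le_mul_of_nonneg_right h7 hzn)
    have h11 : b ^ i0 * nn (w m) ≤ 2 * C1 A K c0 * A ^ r * nn (z n) * nn (w m) := by
      calc b ^ i0 * nn (w m) ≤ b ^ i0 * (2 * |(w m).1|) :=
            mul_le_mul_of_nonneg_left h9 (by positivity)
        _ = 2 * (b ^ i0 * |(w m).1|) := by ring
        _ ≤ 2 * nn (w (m - i0)) := by linarith
        _ ≤ 2 * (C1 A K c0 * (nn (w m) * (A ^ r * nn (z n)))) := by linarith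
        _ = _ := by ring
    have h12 := le_of_mul_le_mul_right h11 h8
    linarith
  refine ⟨?_, hinc⟩
  intro m hm
  rcases le_total m (n - r) with h1 | h1
  · exact hfar m h1
  · -- monotone in the last steps
    have key : ∀ d, m + d ≤ n → nn (w m) ≤ nn (w (m + d)) := by
      intro d
      induction d with
      | zero => intro _; simp
      | succ d ih =>
        intro hd
        refine (ih (by omega)).trans ?_
        have e1 := h.hw (m + d)
        unfold stp at e1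
        have e2 : (w (m + d + 1)).1 = (w (m + d)).2 := by rw [e1]
        have g1 := hinc (m + d) (by omega) (by omega)
        have g2 := hinc (m + d + 1) (by omega) (by omega)
        rw [e2] at g2
        have g3 : (w (m + d)).1 ^ 2 ≤ (w (m + d)).2 ^ 2 := sq_le_sq.2 g1
        have g4 : (w (m + d)).2 ^ 2 ≤ (w (m + d + 1)).2 ^ 2 := sq_le_sq.2 g2
        have e3 : m + (d + 1) = m + d + 1 := by ring
        rw [e3]
        unfold nn
        refine Real.sqrt_le_sqrt ?_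
        rw [e2]
        linarith
    obtain ⟨d, rfl⟩ := Nat.exists_eq_add_of_le hm
    exact key d le_rfl

/-- the window between the reversed field at `0` and the field at the foot:
`R_n ≤ C1 X` and `X ≤ R_n nn (z n)`. -/
theorem foot_size (h : Clean a w z n δ K A c0) :
    nn (w n) ≤ C1 A K c0 * |wr (w 0) (z 0)| ∧ |wr (w 0) (z 0)| ≤ nn (w n) * nn (z n) := by
  have hδ1 := h.δ1
  refine ⟨?_, h.X_le n⟩
  have hX := h.Xpos
  have hC := C1_pos h
  refine (h.R_le le_rfl).trans ?_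
  have h4 : nn (z n) ^ (-(1 - 3 * δ)) ≤ 1 :=
    Real.rpow_le_one_of_one_le_of_nonpos (h.one _ le_rfl) (by linarith)
  calc C1 A K c0 * |wr (w 0) (z 0)| * nn (z n) ^ (-(1 - 3 * δ)) ≤
        C1 A K c0 * |wr (w 0) (z 0)| * 1 := mul_le_mul_of_nonneg_left h4 (by positivity)
    _ = _ := mul_one _


/-! ### two real points of a small interval -/

/-- the fields of two real points of a small interval are comparable -/
theorem nn_le_two {k c t0 t1 B : ℝ} (hB : ∀ j, |ra k c t0 j| + 2 ≤ B) {N : ℕ}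
    (hS : 32 * CL k * (B + 1) * |t1 - t0| * Sg (wf k c t0) N ≤ 1)
    (hR : ∀ m ≤ N, 2 * |t1 - t0| * nn (wf k c t0 m) ≤ 1) :
    ∀ m ≤ N, nn (wf k c t0 m) ≤ 2 * nn (wf k c t1 m) ∧ nn (wf k c t1 m) ≤ 2 * nn (wf k c t0 m) := by
  have hτ : ‖((t1 : ℝ) : ℂ) - ((t0 : ℝ) : ℂ)‖ = |t1 - t0| := by
    rw [← Complex.ofReal_sub, Complex.norm_real, Real.norm_eq_abs]
  have hB0 : 0 ≤ B + 1 := by
    have := hB 0
    have := abs_nonneg (ra k c t0 0)
    linarith
  have hCL := CL_nonneg k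
  have hSN := Sg_nonneg (wf k c t0) N
  have hS' : 8 * CL k * (B + 1) * ‖((t1 : ℝ) : ℂ) - ((t0 : ℝ) : ℂ)‖ * Sg (wf k c t0) N ≤ 1 := by
    rw [hτ]
    have : 0 ≤ CL k * (B + 1) * |t1 - t0| * Sg (wf k c t0) N := by positivity
    nlinarith
  have hR' : ∀ m ≤ N, 2 * ‖((t1 : ℝ) : ℂ) - ((t0 : ℝ) : ℂ)‖ * nn (wf k c t0 m) ≤ 1 := by
    intro m hm
    rw [hτ]
    exact hR m hm
  intro m hm
  obtain ⟨h1, h2⟩ := field_disc hB hS' hR' m hm
  have hSm : Sg (wf k c t0) m ≤ Sg (wf k c t0) N := Sg_mono _ hm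
  have hq : 8 * CL k * (B + 1) * ‖((t1 : ℝ) : ℂ) - ((t0 : ℝ) : ℂ)‖ * Sg (wf k c t0) m *
      nn (wf k c t0 m) ≤ 1 / 4 * nn (wf k c t0 m) := by
    refine mul_le_mul_of_nonneg_right ?_ (nn_nonneg _)
    rw [hτ]
    have h3 : CL k * (B + 1) * |t1 - t0| * Sg (wf k c t0) m ≤
        CL k * (B + 1) * |t1 - t0| * Sg (wf k c t0) N :=
      mul_le_mul_of_nonneg_left hSm (by positivity)
    nlinarith
  have e1 : |(wf k c t1 m).1 - (wf k c t0 m).1| ≤ 1 / 4 * nn (wf k c t0 m) := by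
    have := h1.trans hq
    rw [← wf_fst k c t1 m, ← Complex.ofReal_sub, Complex.norm_real, Real.norm_eq_abs] at this
    exact this
  have e2 : |(wf k c t1 m).2 - (wf k c t0 m).2| ≤ 1 / 4 * nn (wf k c t0 m) := by
    have := h2.trans hq
    rw [← wf_snd k c t1 m, ← Complex.ofReal_sub, Complex.norm_real, Real.norm_eq_abs] at this
    exact this
  set u := wf k c t0 m with hu
  set v := wf k c t1 m with hv
  have hn : 0 ≤ nn u := nn_nonneg u
  have hd : nn (v.1 - u.1, v.2 - u.2) ≤ 1 / 2 * nn u := by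
    have := nn_le_add (v.1 - u.1, v.2 - u.2)
    simp only at this
    linarith
  have t1' : nn v ≤ nn u + nn (v.1 - u.1, v.2 - u.2) := by
    have h := Crest.Agent.R128.FootU.nn_add_le u (v.1 - u.1, v.2 - u.2)
    simpa using h
  have t2' : nn u ≤ nn v + nn (v.1 - u.1, v.2 - u.2) := by
    have h := Crest.Agent.R128.FootU.nn_add_le v (u.1 - v.1, u.2 - v.2)
    have e : nn (u.1 - v.1, u.2 - v.2) = nn (v.1 - u.1, v.2 - u.2) := by
      unfold nn
      congr 1
      simp only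
      ring
    rw [e] at h
    simpa using h
  constructor <;> linarith

/-! ### the displacement sum after the foot -/

theorem cub_foot_le (h : Clean a w z n δ K A c0) :
    cub w n ≤ C1 A K c0 ^ 3 * K * |wr (w 0) (z 0)| ^ 3 := by
  have hδ0 := h.δ0
  have hδ1 := h.δ1
  have hC := C1_pos h
  have hX := h.Xpos
  have hK := h.K1
  set X := |wr (w 0) (z 0)| with hXdef
  unfold cub
  calc ∑ l ∈ range (n + 1), nn (w l) ^ 3
      ≤ ∑ l ∈ range (n + 1), (C1 A K c0 * X) ^ 3 * nn (z l) ^ (-δ) := by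
        refine Finset.sum_le_sum fun l hl => ?_
        have hln : l ≤ n := by have := Finset.mem_range.1 hl; omega
        have hZ1 := h.one l hln
        have hl0 : 0 < nn (z l) := lt_of_lt_of_le one_pos hZ1
        have h1 := h.R_le hln
        have h2 : (nn (z l) ^ (-(1 - 3 * δ))) ^ 3 ≤ nn (z l) ^ (-δ) := by
          rw [← Real.rpow_natCast, ← Real.rpow_mul hl0.le]
          refine Real.rpow_le_rpow_of_exponent_le hZ1 ?_
          push_cast
          nlinarith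
        calc nn (w l) ^ 3 ≤ (C1 A K c0 * X * nn (z l) ^ (-(1 - 3 * δ))) ^ 3 :=
              pow_le_pow_left₀ (nn_nonneg _) h1 3
          _ = (C1 A K c0 * X) ^ 3 * (nn (z l) ^ (-(1 - 3 * δ))) ^ 3 := by ring
          _ ≤ (C1 A K c0 * X) ^ 3 * nn (z l) ^ (-δ) :=
              mul_le_mul_of_nonneg_left h2 (by positivity)
    _ = (C1 A K c0 * X) ^ 3 * ∑ l ∈ range (n + 1), nn (z l) ^ (-δ) := by rw [Finset.mul_sum]
    _ ≤ (C1 A K c0 * X) ^ 3 * K := mul_le_mul_of_nonneg_left h.dur (by positivity)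
    _ = _ := by ring

/-- one step of growth for the norms after the foot -/
theorem nn_grow {b : ℝ} (hw : IsField a w) (hb : 4 ≤ b) {m : ℕ}
    (h : |(w m).1| ≤ |(w m).2|) (hd : b + 1 ≤ |a m|) :
    b / 2 * nn (w m) ≤ nn (w (m + 1)) := by
  obtain ⟨h1, _⟩ := forw_step hw (by linarith) hd h
  have h2 := nn_le_two_snd h
  have h3 := abs_snd_le (w (m + 1))
  have h4 : b / 2 * nn (w m) ≤ b / 2 * (2 * |(w m).2|) :=
    mul_le_mul_of_nonneg_left h2 (by linarith)
  linarith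

/-- **The displacement sum up to `s` regular digits after the foot.** -/
theorem Sg_exit_le (h : Clean a w z n δ K A c0) {b : ℝ} (hb : 4 ≤ b)
    (hinc : |(w n).1| ≤ |(w n).2|) :
    ∀ s : ℕ, (∀ j, n ≤ j → j < n + s → b + 1 ≤ |a j|) →
      Sg w (n + s) ≤ (C2 A K c0 + s * (C1 A K c0 ^ 3 * K * nn (z n) ^ 2)) * |wr (w 0) (z 0)| +
          16 / b ^ 2 * nn (w (n + s)) ∧
        cub w (n + s) ≤ cub w n + 2 * nn (w (n + s)) ^ 3 ∧ nn (w n) ≤ nn (w (n + s)) := by
  have hX := h.Xpos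
  have hC := C1_pos h
  have hK := h.K1
  have hδ1 := h.δ1
  set X := |wr (w 0) (z 0)| with hXdef
  intro s
  induction s with
  | zero =>
    intro _
    have h1 := h.Sg_le le_rfl
    rw [← hXdef] at h1
    have h2 : nn (z n) ^ (-(1 - 15 * δ)) ≤ 1 :=
      Real.rpow_le_one_of_one_le_of_nonpos (h.one _ le_rfl) (by linarith)
    have hC2 : 0 ≤ C2 A K c0 := by
      have := h.A1
      unfold C2
      positivity
    have h3 : C2 A K c0 * X * nn (z n) ^ (-(1 - 15 * δ)) ≤ C2 A K c0 * X * 1 :=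
      mul_le_mul_of_nonneg_left h2 (by positivity)
    have h4 : 0 ≤ 16 / b ^ 2 * nn (w n) := mul_nonneg (by positivity) (nn_nonneg _)
    have h5 : 0 ≤ nn (w n) ^ 3 := pow_nonneg (nn_nonneg _) 3
    refine ⟨?_, ?_, ?_⟩
    · simp only [Nat.add_zero, Nat.cast_zero, zero_mul, add_zero]
      linarith
    · simp only [Nat.add_zero]
      linarith
    · simp
  | succ s ih =>
    intro hd
    obtain ⟨i1, i2, i3⟩ := ih (fun j hj1 hj2 => hd j hj1 (by omega))
    obtain ⟨_, hg2⟩ := forw_pow h.hw (by linarith : (1 : ℝ) ≤ b) hinc s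
      (fun j hj1 hj2 => hd j hj1 (by omega))
    have hstep := nn_grow h.hw hb hg2 (hd (n + s) (by omega) (by omega))
    have hR0 := h.Rpos (n + s)
    have hRn := h.Rpos n
    have hR1 := h.Rpos (n + s + 1)
    have e : n + (s + 1) = n + s + 1 := by ring
    rw [e]
    -- the new term
    have hXn := h.X_le n
    rw [← hXdef] at hXn
    have hcub := cub_foot_le h
    rw [← hXdef] at hcub
    have hterm : cub w (n + s) / (nn (w (n + s)) * nn (w (n + s + 1))) ≤
        C1 A K c0 ^ 3 * K * nn (z n) ^ 2 * X + 4 / b * nn (w (n + s)) := by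
      rw [div_le_iff₀ (by positivity)]
      have g1 : C1 A K c0 ^ 3 * K * X ^ 3 ≤
          C1 A K c0 ^ 3 * K * nn (z n) ^ 2 * X * (nn (w (n + s)) * nn (w (n + s + 1))) := by
        have g2 : X ^ 2 ≤ nn (z n) ^ 2 * (nn (w (n + s)) * nn (w (n + s + 1))) := by
          calc X ^ 2 ≤ (nn (w n) * nn (z n)) ^ 2 := pow_le_pow_left₀ hX.le hXn 2
            _ = nn (z n) ^ 2 * (nn (w n) * nn (w n)) := by ring
            _ ≤ nn (z n) ^ 2 * (nn (w (n + s)) * nn (w (n + s + 1))) := by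
                have : nn (w (n + s)) ≤ nn (w (n + s + 1)) := by nlinarith
                gcongr
                exact i3.trans this
        calc C1 A K c0 ^ 3 * K * X ^ 3 = C1 A K c0 ^ 3 * K * X * X ^ 2 := by ring
          _ ≤ C1 A K c0 ^ 3 * K * X * (nn (z n) ^ 2 * (nn (w (n + s)) * nn (w (n + s + 1)))) :=
              mul_le_mul_of_nonneg_left g2 (by positivity)
          _ = _ := by ring
      have g3 : 2 * nn (w (n + s)) ^ 3 ≤
          4 / b * nn (w (n + s)) * (nn (w (n + s)) * nn (w (n + s + 1))) := by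
        calc 2 * nn (w (n + s)) ^ 3 = 4 / b * nn (w (n + s)) * (nn (w (n + s)) *
              (b / 2 * nn (w (n + s)))) := by
              have : b ≠ 0 := by linarith
              field_simp
              ring
          _ ≤ _ := by
              have : 0 ≤ 4 / b := by positivity
              gcongr
      calc cub w (n + s) ≤ cub w n + 2 * nn (w (n + s)) ^ 3 := i2
        _ ≤ C1 A K c0 ^ 3 * K * nn (z n) ^ 2 * X * (nn (w (n + s)) * nn (w (n + s + 1))) +
            4 / b * nn (w (n + s)) * (nn (w (n + s)) * nn (w (n + s + 1))) := by linarith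
        _ = _ := by ring
    refine ⟨?_, ?_, ?_⟩
    · rw [Sg_succ]
      have g5 : 16 / b ^ 2 * nn (w (n + s)) + 4 / b * nn (w (n + s)) ≤
          16 / b ^ 2 * nn (w (n + s + 1)) := by
        have g6 : 16 / b ^ 2 * (b / 2 * nn (w (n + s))) ≤ 16 / b ^ 2 * nn (w (n + s + 1)) :=
          mul_le_mul_of_nonneg_left hstep (by positivity)
        have g7 : 16 / b ^ 2 * (b / 2 * nn (w (n + s))) = 8 / b * nn (w (n + s)) := by
          have : b ≠ 0 := by linarith
          field_simp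
          ring
        have g8 : 16 / b ^ 2 ≤ 4 / b := by
          rw [div_le_div_iff₀ (by positivity) (by linarith)]
          nlinarith
        have g9 : 16 / b ^ 2 * nn (w (n + s)) ≤ 4 / b * nn (w (n + s)) :=
          mul_le_mul_of_nonneg_right g8 hR0.le
        have g10 : 8 / b * nn (w (n + s)) = 4 / b * nn (w (n + s)) + 4 / b * nn (w (n + s)) := by
          ring
        linarith
      push_cast
      have g11 : (C2 A K c0 + ((s : ℝ) + 1) * (C1 A K c0 ^ 3 * K * nn (z n) ^ 2)) * X =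
          (C2 A K c0 + (s : ℝ) * (C1 A K c0 ^ 3 * K * nn (z n) ^ 2)) * X +
            C1 A K c0 ^ 3 * K * nn (z n) ^ 2 * X := by ring
      rw [g11]
      linarith
    · rw [cub_succ]
      have g1 : 2 * nn (w (n + s)) ≤ nn (w (n + s + 1)) := by nlinarith
      have g2 : (2 * nn (w (n + s))) ^ 3 ≤ nn (w (n + s + 1)) ^ 3 :=
        pow_le_pow_left₀ (by positivity) g1 3
      have g3 : 0 ≤ nn (w (n + s)) ^ 3 := by positivity
      nlinarith
    · have : nn (w (n + s)) ≤ nn (w (n + s + 1)) := by nlinarith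
      exact i3.trans this

/-- **LEMMA FOOT, two points.**  The side is `wf k c t`; `t0`, `t1` real points of a small
interval, `n0`, `n1` their feet; then `n1 ≤ n0 + s`. -/
theorem foot_le_pts {k c t0 t1 δ K A c0 b : ℝ} {z0 z1 : ℕ → ℝ × ℝ} {n0 n1 r i0 s : ℕ}
    (hk : 1 ≤ CL k) (hb : 4 ≤ b)
    (h0 : Clean (ra k c t0) (wf k c t0) z0 n0 δ K A c0)
    (h1 : Clean (ra k c t1) (wf k c t1) z1 n1 δ K A c0)
    (hn0 : r + i0 ≤ n0) (hn1 : r + i0 ≤ n1)
    (hd0 : ∀ j, n0 - (r + i0) ≤ j → j < n0 + s → b + 1 ≤ |ra k c t0 j|)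
    (hd1 : ∀ j, n1 - (r + i0) ≤ j → j < n1 → b + 1 ≤ |ra k c t1 j|)
    (hz0 : 1 ≤ |(z0 n0).1| ∧ |(z0 n0).2| ≤ |(z0 n0).1|)
    (hz1 : 1 ≤ |(z1 n1).1| ∧ |(z1 n1).2| ≤ |(z1 n1).1|)
    {Z : ℝ} (hZ0 : nn (z0 n0) ≤ Z) (hZ1 : nn (z1 n1) ≤ Z)
    (H1 : C1 A K c0 * Z ≤ (b ^ r) ^ (1 - 4 * δ))
    (H2 : 2 * C1 A K c0 * A ^ r * Z < b ^ i0)
    (Hwin : 4 * nn (wf k c t1 n1) < b ^ s * nn (wf k c t0 n0))
    (Hrad : 32 * CL k * (A + 1) *
      ((C2 A K c0 + s * (C1 A K c0 ^ 3 * K * Z ^ 2)) * Z + A ^ s) *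
        |t1 - t0| * nn (wf k c t0 n0) ≤ 1) :
    n1 ≤ n0 + s ∧ ∀ m ≤ n0 + s, nn (wf k c t0 m) ≤ 2 * nn (wf k c t1 m) ∧
      nn (wf k c t1 m) ≤ 2 * nn (wf k c t0 m) := by
  have hA := h0.A1
  have hK := h0.K1
  have hC := C1_pos h0
  have hX := h0.Xpos
  have hz00 : 0 ≤ nn (z0 n0) := nn_nonneg _
  have hz10 : 0 ≤ nn (z1 n1) := nn_nonneg _
  have hZp : 0 ≤ Z := hz00.trans hZ0
  obtain ⟨r1, r2⟩ := record h0 (by linarith) hn0 (fun j hj1 hj2 => hd0 j hj1 (by omega)) hz0.1 hz0.2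
    ((mul_le_mul_of_nonneg_left hZ0 (by linarith)).trans H1)
    (lt_of_le_of_lt (mul_le_mul_of_nonneg_left hZ0 (by positivity)) H2)
  obtain ⟨q1, _⟩ := record h1 (by linarith) hn1 hd1 hz1.1 hz1.2
    ((mul_le_mul_of_nonneg_left hZ1 (by linarith)).trans H1)
    (lt_of_le_of_lt (mul_le_mul_of_nonneg_left hZ1 (by positivity)) H2)
  have hinc := r2 n0 (Nat.sub_le _ _) le_rfl
  have hdig : ∀ j, n0 ≤ j → j < n0 + s → b + 1 ≤ |ra k c t0 j| :=
    fun j hj1 hj2 => hd0 j (by omega) hj2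
  obtain ⟨s1, _, _⟩ := Sg_exit_le h0 hb hinc s hdig
  have hXn := h0.X_le n0
  have hRn := h0.Rpos n0
  have hup : ∀ d, nn (wf k c t0 (n0 + d)) ≤ A ^ d * nn (wf k c t0 n0) := by
    intro d
    induction d with
    | zero => simp
    | succ d ih =>
      have e := h0.hw (n0 + d)
      have e1 : nn (wf k c t0 (n0 + d + 1)) ≤ A * nn (wf k c t0 (n0 + d)) := by
        rw [e]
        exact (nn_stp_le _ _).trans (mul_le_mul_of_nonneg_right (h0.hA _) (nn_nonneg _))
      calc nn (wf k c t0 (n0 + (d + 1))) = nn (wf k c t0 (n0 + d + 1)) := by ring_nf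
        _ ≤ A * nn (wf k c t0 (n0 + d)) := e1
        _ ≤ A * (A ^ d * nn (wf k c t0 n0)) := mul_le_mul_of_nonneg_left ih (by linarith)
        _ = _ := by ring
  have hRs := hup s
  have hC2 : 0 ≤ C2 A K c0 := by unfold C2; positivity
  -- the bound of `Sg`
  have hcoef : 0 ≤ C2 A K c0 + s * (C1 A K c0 ^ 3 * K * nn (z0 n0) ^ 2) := by positivity
  have hSg : Sg (wf k c t0) (n0 + s) ≤
      ((C2 A K c0 + s * (C1 A K c0 ^ 3 * K * Z ^ 2)) * Z + A ^ s) * nn (wf k c t0 n0) := by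
    have g1 : (C2 A K c0 + s * (C1 A K c0 ^ 3 * K * nn (z0 n0) ^ 2)) *
        |wr (wf k c t0 0) (z0 0)| ≤
        (C2 A K c0 + s * (C1 A K c0 ^ 3 * K * Z ^ 2)) * (nn (wf k c t0 n0) * Z) := by
      refine mul_le_mul ?_ (hXn.trans (mul_le_mul_of_nonneg_left hZ0 hRn.le)) (abs_nonneg _)
        (by positivity)
      have : nn (z0 n0) ^ 2 ≤ Z ^ 2 := pow_le_pow_left₀ hz00 hZ0 2
      have g : (s : ℝ) * (C1 A K c0 ^ 3 * K * nn (z0 n0) ^ 2) ≤
          (s : ℝ) * (C1 A K c0 ^ 3 * K * Z ^ 2) := by gcongr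
      linarith
    have g2 : 16 / b ^ 2 * nn (wf k c t0 (n0 + s)) ≤ A ^ s * nn (wf k c t0 n0) := by
      have : 16 / b ^ 2 ≤ 1 := by
        rw [div_le_one (by positivity)]
        nlinarith
      calc 16 / b ^ 2 * nn (wf k c t0 (n0 + s)) ≤ 1 * nn (wf k c t0 (n0 + s)) :=
            mul_le_mul_of_nonneg_right this (nn_nonneg _)
        _ = nn (wf k c t0 (n0 + s)) := one_mul _
        _ ≤ _ := hRs
    calc Sg (wf k c t0) (n0 + s) ≤ _ := s1
      _ ≤ (C2 A K c0 + s * (C1 A K c0 ^ 3 * K * Z ^ 2)) * (nn (wf k c t0 n0) * Z) +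
          A ^ s * nn (wf k c t0 n0) := add_le_add g1 g2
      _ = _ := by ring
  have hτ : 0 ≤ |t1 - t0| := abs_nonneg _
  -- comparison of the fields
  have hcmp := nn_le_two (t1 := t1) h0.hA (N := n0 + s) (by
    calc 32 * CL k * (A + 1) * |t1 - t0| * Sg (wf k c t0) (n0 + s)
        ≤ 32 * CL k * (A + 1) * |t1 - t0| *
          (((C2 A K c0 + s * (C1 A K c0 ^ 3 * K * Z ^ 2)) * Z + A ^ s) * nn (wf k c t0 n0)) := by
          refine mul_le_mul_of_nonneg_left hSg ?_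
          have : 0 ≤ CL k := by linarith
          positivity
      _ = _ := by ring
      _ ≤ 1 := Hrad) (by
    intro m hm
    have g1 : nn (wf k c t0 m) ≤ A ^ s * nn (wf k c t0 n0) := by
      rcases le_total m n0 with h | h
      · calc nn (wf k c t0 m) ≤ nn (wf k c t0 n0) := r1 m h
          _ = 1 * nn (wf k c t0 n0) := (one_mul _).symm
          _ ≤ _ := mul_le_mul_of_nonneg_right (one_le_pow₀ hA) hRn.le
      · obtain ⟨d, rfl⟩ := Nat.exists_eq_add_of_le h
        refine (hup d).trans (mul_le_mul_of_nonneg_right ?_ hRn.le)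
        exact pow_le_pow_right₀ hA (by omega)
    refine le_trans ?_ Hrad
    have g2 : 2 * |t1 - t0| * nn (wf k c t0 m) ≤ 2 * |t1 - t0| * (A ^ s * nn (wf k c t0 n0)) :=
      mul_le_mul_of_nonneg_left g1 (by positivity)
    refine g2.trans ?_
    have g3 : A ^ s ≤ (C2 A K c0 + s * (C1 A K c0 ^ 3 * K * Z ^ 2)) * Z + A ^ s := by
      have : 0 ≤ (C2 A K c0 + s * (C1 A K c0 ^ 3 * K * Z ^ 2)) * Z := by positivity
      linarith
    have g4 : (2 : ℝ) ≤ 32 * CL k * (A + 1) := by nlinarith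
    have g5 : 0 ≤ A ^ s := by positivity
    have g6 : 0 ≤ |t1 - t0| * nn (wf k c t0 n0) := by positivity
    calc 2 * |t1 - t0| * (A ^ s * nn (wf k c t0 n0))
        = 2 * A ^ s * (|t1 - t0| * nn (wf k c t0 n0)) := by ring
      _ ≤ (32 * CL k * (A + 1)) * ((C2 A K c0 + s * (C1 A K c0 ^ 3 * K * Z ^ 2)) * Z + A ^ s) *
          (|t1 - t0| * nn (wf k c t0 n0)) := by
          refine mul_le_mul_of_nonneg_right ?_ g6
          exact mul_le_mul g4 g3 g5 (by linarith)
      _ = _ := by ring)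
  refine ⟨?_, hcmp⟩
  have hgr := growth h0.hw (by linarith : (1 : ℝ) ≤ b) hinc hdig
  exact foot_le (R0 := fun m => nn (wf k c t0 m)) (R1 := fun m => nn (wf k c t1 m))
    (α := b ^ s / 2) (hcmp (n0 + s) le_rfl).1 hgr
    (by
      show 2 * nn (wf k c t1 n1) < b ^ s / 2 * nn (wf k c t0 n0)
      linarith) q1

end Crest.Agent.R128.FootU
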