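import Crest.Agent.R128.FootG
import Crest.Agent.R128.Foot
import Crest.Agent.R128.Rev
import Crest.Agent.R128.OnePerX
import Crest.Agent.R128.Long

set_option autoImplicit false

/-!
# Row 128, node V1-5 on the torus: the field of a start which is clean up to time `n`

`Pre k L y n` : `L` regular digits, drawdown and duration clauses at times `< n` (exponents 99/100
and 1/400 as in `Skel.Val`).
* `Pre.sum_le`   : `Σ_{L ≤ m < n} 1 / ‖fld m‖² ≤ 2 / k²⁰`
* `Pre.norm_le`  : `‖Mn k m y‖ ≤ 12 ‖fld k y m‖` for `m ≤ n`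
* `fld_le_norm`  : `‖fld k y m‖ ≤ ‖Mn k m y‖`
* `first_viol`   : the first violation of `VD` (= `Skel.Val`).
-/

open scoped Matrix.Norms.L2Operator
open Matrix Finset MeasureTheory
open Crest.AnalysisR.StandardFamily

namespace Crest.Agent.R128.FootW

open Crest.Agent.R128.Hyp Crest.Agent.R128.Chain Crest.Agent.R128.Acc Crest.Agent.R128.AccRoot
  Crest.Agent.R128.Lam0 Crest.Agent.R128.TreeSum

/-- `Skel.Val` -/
structure VD (k : ℝ) (L : ℕ) (z : Tor) (n : ℕ) : Prop where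
  cl : ∀ m, m < L → m < n → k ^ ((2 : ℝ) / 3) ≤ |V k ((T k)^[m] z).2|
  v2 : ∀ i j, L ≤ i → i ≤ j → j ≤ n → ‖fld k z i‖ ^ 99 ≤ ‖fld k z j‖ ^ 100
  v3 : ∀ j, L ≤ j → j ≤ n → ∃ i, L ≤ i ∧ i ≤ j ∧ (j : ℝ) ^ 400 ≤ ‖fld k z i‖

/-- clean at all times `< n` -/
structure Pre (k : ℝ) (L : ℕ) (z : Tor) (n : ℕ) : Prop where
  cl : ∀ m, m < L → k ^ ((2 : ℝ) / 3) ≤ |V k ((T k)^[m] z).2|
  v2 : ∀ i j, L ≤ i → i ≤ j → j < n → ‖fld k z i‖ ^ 99 ≤ ‖fld k z j‖ ^ 100
  v3 : ∀ j, L ≤ j → j < n → ∃ i, L ≤ i ∧ i ≤ j ∧ (j : ℝ) ^ 400 ≤ ‖fld k z i‖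

/-! ## matrix norm and field -/

theorem nn_act (M : M2) (v : ℝ × ℝ) : nn (act M v) = ‖ap M !₂[v.1, v.2]‖ := by
  unfold nn act
  rw [← Real.sqrt_sq (norm_nonneg (ap M !₂[v.1, v.2])), norm_sq, ap_apply, ap_apply]
  simp

theorem nn_eq (v : ℝ × ℝ) : nn v = ‖(!₂[v.1, v.2] : E2)‖ := by
  unfold nn
  rw [← Real.sqrt_sq (norm_nonneg (!₂[v.1, v.2] : E2)), norm_sq]
  simp

theorem nn_fld_le (k : ℝ) (z : Tor) (m : ℕ) : nn (fld k z m) ≤ ‖Mn k m z‖ := by
  unfold fld
  rw [nn_act]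
  refine (norm_ap_le _ _).trans ?_
  have h : ‖(!₂[(0:ℝ), 1] : E2)‖ = 1 := by
    rw [← nn_eq (0, 1)]
    unfold nn
    simp
  simp only
  rw [h, mul_one]

theorem fld_le_norm (k : ℝ) (z : Tor) (m : ℕ) : ‖fld k z m‖ ≤ ‖Mn k m z‖ :=
  (norm_le_nn _).trans (nn_fld_le k z m)

theorem norm_fld_pos (k : ℝ) (z : Tor) (m : ℕ) : 0 < ‖fld k z m‖ := by
  have h1 := OnePerX.W_pos k z m
  unfold OnePerX.W at h1
  have h2 := nn_le_norm (fld k z m)
  linarith

/-! ## growth on the regular digits -/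

theorem base {k : ℝ} {L : ℕ} {z : Tor} {n : ℕ} (hk : 64 ≤ k) (h : Pre k L z n) {m : ℕ}
    (hm : m ≤ L) : (k ^ (1 / 2 : ℝ)) ^ m ≤ |(fld k z m).2| ∧
      |(fld k z m).1| ≤ |(fld k z m).2| :=
  OnePerX.base (B := k ^ (1 / 2 : ℝ)) (Real.one_le_rpow (by linarith) (by norm_num))
    (fun m hm => (OnePerX.half_le hk).trans (h.cl m hm)) m hm

theorem sqrt_ge {k : ℝ} (hk : 64 ≤ k) : (8 : ℝ) ≤ k ^ (1 / 2 : ℝ) := by
  have : (8:ℝ) = (64:ℝ) ^ (1 / 2 : ℝ) := by
    rw [show (64:ℝ) = 8 ^ (2:ℝ) by norm_num, ← Real.rpow_mul (by norm_num)]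
    norm_num
  rw [this]
  exact Real.rpow_le_rpow (by norm_num) hk (by norm_num)

theorem big_L {k : ℝ} {L : ℕ} {z : Tor} {n : ℕ} (hk : 64 ≤ k) (h : Pre k L z n) :
    k ^ ((L : ℝ) / 2) ≤ ‖fld k z L‖ := by
  have h1 := (base hk h le_rfl).1
  have e : k ^ ((L:ℝ) / 2) = (k ^ (1 / 2 : ℝ)) ^ L := by
    rw [← Real.rpow_natCast, ← Real.rpow_mul (by linarith)]
    congr 1; ring
  rw [e]
  refine h1.trans ?_
  simpa using norm_snd_le (fld k z L)

/-- at times `L ≤ m < n` the field is at least `m · k^10`, and at least `k^(49 L / 100)` -/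
theorem big {k : ℝ} {L : ℕ} {z : Tor} {n : ℕ} (hk : 64 ≤ k) (h : Pre k L z n) {m : ℕ}
    (hm : L ≤ m) (hmn : m < n) : k ^ ((49 : ℝ) / 100 * L) ≤ ‖fld k z m‖ := by
  have hk0 : 0 < k := by linarith
  have h1 := h.v2 L m le_rfl hm hmn
  have h2 := big_L hk h
  have h3 : (k ^ ((49 : ℝ) / 100 * L)) ^ 100 ≤ ‖fld k z m‖ ^ 100 := by
    refine le_trans ?_ h1
    calc (k ^ ((49 : ℝ) / 100 * L)) ^ 100 ≤ (k ^ ((L : ℝ) / 2)) ^ 99 := by
          rw [← Real.rpow_natCast, ← Real.rpow_mul hk0.le, ← Real.rpow_natCast,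
            ← Real.rpow_mul hk0.le]
          apply Real.rpow_le_rpow_of_exponent_le (by linarith)
          have hL0 : (0:ℝ) ≤ L := Nat.cast_nonneg L
          push_cast
          linarith
      _ ≤ _ := pow_le_pow_left₀ (by positivity) h2 99
  exact le_of_pow_le_pow_left₀ (by norm_num) (norm_nonneg _) h3

theorem big' {k : ℝ} {L : ℕ} {z : Tor} {n : ℕ} (hk : 64 ≤ k) (hL : 100 ≤ L) (h : Pre k L z n)
    {m : ℕ} (hm : L ≤ m) (hmn : m < n) : (m : ℝ) ^ 2 * k ^ 20 ≤ ‖fld k z m‖ ^ 2 := by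
  have hk0 : 0 < k := by linarith
  have hk1 : 1 ≤ k := by linarith
  have hm1 : (1:ℝ) ≤ m := by exact_mod_cast (by omega : 1 ≤ m)
  obtain ⟨i, hi1, hi2, hi3⟩ := h.v3 m hm hmn
  have h1 := h.v2 i m hi1 hi2 hmn
  have h2 := big hk h hm hmn
  have hL' : (100:ℝ) ≤ L := by exact_mod_cast hL
  have h3 : k ^ 20 ≤ ‖fld k z m‖ := by
    refine le_trans ?_ h2
    rw [← Real.rpow_natCast]
    apply Real.rpow_le_rpow_of_exponent_le hk1
    push_cast
    linarith
  have h4 : (m : ℝ) ^ 2 ≤ ‖fld k z m‖ := by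
    have h5 : ((m : ℝ) ^ 2) ^ 100 ≤ ‖fld k z m‖ ^ 100 := by
      refine le_trans ?_ h1
      calc ((m : ℝ) ^ 2) ^ 100 = (m:ℝ) ^ 200 := by rw [← pow_mul]
        _ ≤ (m : ℝ) ^ (400 * 99) := pow_le_pow_right₀ hm1 (by norm_num)
        _ = ((m : ℝ) ^ 400) ^ 99 := by rw [← pow_mul]
        _ ≤ ‖fld k z i‖ ^ 99 := pow_le_pow_left₀ (by positivity) hi3 99
    exact le_of_pow_le_pow_left₀ (by norm_num) (norm_nonneg _) h5
  calc (m : ℝ) ^ 2 * k ^ 20 ≤ ‖fld k z m‖ * ‖fld k z m‖ :=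
        mul_le_mul h4 h3 (by positivity) (norm_nonneg _)
    _ = _ := by ring

theorem sum_le {k : ℝ} {L : ℕ} {z : Tor} {n : ℕ} (hk : 64 ≤ k) (hL : 100 ≤ L) (h : Pre k L z n) :
    ∑ m ∈ Ico L n, 1 / ‖fld k z m‖ ^ 2 ≤ 2 / k ^ 20 := by
  have hk0 : 0 < k := by linarith
  calc ∑ m ∈ Ico L n, 1 / ‖fld k z m‖ ^ 2 ≤ ∑ m ∈ Ico L n, (1 / k ^ 20) * (1 / (m : ℝ) ^ 2) := by
        apply Finset.sum_le_sum
        intro m hm
        rw [Finset.mem_Ico] at hm
        have h1 := big' hk hL h hm.1 hm.2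
        have hm0 : (0:ℝ) < m := by exact_mod_cast (by omega : 0 < m)
        rw [div_mul_div_comm, one_mul]
        apply one_div_le_one_div_of_le (by positivity)
        rw [mul_comm]
        exact h1
    _ = (1 / k ^ 20) * ∑ m ∈ Ico L n, 1 / (m : ℝ) ^ 2 := by rw [Finset.mul_sum]
    _ ≤ (1 / k ^ 20) * 2 := by
        apply mul_le_mul_of_nonneg_left (Geo.sum_inv_sq_le L n (by omega)) (by positivity)
    _ = 2 / k ^ 20 := by ring

/-- the sum in `FootG` -/
theorem sum_norm_le {k : ℝ} {L : ℕ} {z : Tor} {n : ℕ} (hk : 64 ≤ k) (hL : 100 ≤ L)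
    (h : Pre k L z n) : ∑ m ∈ Ico L n, 1 / ‖Mn k m z‖ ^ 2 ≤ 2 / k ^ 20 := by
  refine le_trans (Finset.sum_le_sum fun m _ => ?_) (sum_le hk hL h)
  have h1 := norm_fld_pos k z m
  have h2 := fld_le_norm k z m
  apply one_div_le_one_div_of_le (by positivity)
  exact pow_le_pow_left₀ h1.le h2 2

/-! ## every vector is controlled by the field -/

theorem wt_le {k : ℝ} {L : ℕ} {z : Tor} {n : ℕ} (hk : 64 ≤ k) (hL : 100 ≤ L) (h : Pre k L z n)
    {m : ℕ} (hm : m ≤ n) :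
    TreeSum.wt (fun m => V k ((T k)^[m] z).2) (fld k z) 0 m ≤ 4 := by
  have hk0 : 0 < k := by linarith
  have hterm : ∀ j, (|V k ((T k)^[j] z).2| + 2) / (nn (fld k z j) * nn (fld k z (j + 1))) ≤
      (8 * k) ^ 2 / nn (fld k z j) ^ 2 := fun j =>
    inv_succ_le (a := fun m => V k ((T k)^[m] z).2) (isField_fld k z) (A := 8 * k)
      (fun j => abs_V_le (by linarith) _) (OnePerX.W_pos k z j)
  have hnonneg : ∀ j, 0 ≤ (|V k ((T k)^[j] z).2| + 2) /
      (nn (fld k z j) * nn (fld k z (j + 1))) := by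
    intro j
    have := nn_nonneg (fld k z j)
    have := nn_nonneg (fld k z (j + 1))
    positivity
  -- regular part
  have hreg : ∀ j, j < L → (|V k ((T k)^[j] z).2| + 2) / (nn (fld k z j) * nn (fld k z (j + 1))) ≤
      2 * (1 / 4 : ℝ) ^ j := by
    intro j hj
    obtain ⟨h1, h2⟩ := base hk h hj.le
    have h3 := h.cl j hj
    have h4 := OnePerX.half_le hk
    have h5 := sqrt_ge hk
    set a := |V k ((T k)^[j] z).2| with ha
    set B := k ^ (1 / 2 : ℝ) with hB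
    have ha8 : 9 ≤ a := by linarith
    have hBj : (0:ℝ) < B ^ j := by positivity
    have h6 : B ^ j ≤ nn (fld k z j) := h1.trans (abs_snd_le _)
    have h7 : (a - 1) * B ^ j ≤ nn (fld k z (j + 1)) := by
      have e2 : (fld k z (j + 1)).2 =
          V k ((T k)^[j] z).2 * (fld k z j).2 - (fld k z j).1 := by
        rw [fld_succ]; rfl
      have h8 : |V k ((T k)^[j] z).2 * (fld k z j).2| - |(fld k z j).1| ≤
          |V k ((T k)^[j] z).2 * (fld k z j).2 - (fld k z j).1| := abs_sub_abs_le_abs_sub _ _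
      rw [abs_mul, ← e2, ← ha] at h8
      have h9 := abs_snd_le (fld k z (j + 1))
      have h10 : (a - 1) * B ^ j ≤ (a - 1) * |(fld k z j).2| :=
        mul_le_mul_of_nonneg_left h1 (by linarith)
      linarith
    have h8 : (a - 1) * (B ^ j * B ^ j) ≤ nn (fld k z j) * nn (fld k z (j + 1)) := by
      calc (a - 1) * (B ^ j * B ^ j) = B ^ j * ((a - 1) * B ^ j) := by ring
        _ ≤ nn (fld k z j) * nn (fld k z (j + 1)) :=
            mul_le_mul h6 h7 (mul_nonneg (by linarith) hBj.le) (nn_nonneg _)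
    have h9 : 0 < (a - 1) * (B ^ j * B ^ j) := by
      apply mul_pos (by linarith)
      positivity
    rw [div_le_iff₀ (lt_of_lt_of_le h9 h8)]
    have h10 : (4:ℝ) ^ j ≤ B ^ j * B ^ j := by
      rw [← mul_pow]
      apply pow_le_pow_left₀ (by norm_num)
      nlinarith
    have h11 : 1 ≤ (1 / 4 : ℝ) ^ j * (B ^ j * B ^ j) := by
      calc (1:ℝ) = (1 / 4 : ℝ) ^ j * 4 ^ j := by rw [← mul_pow]; norm_num
        _ ≤ _ := by gcongr
    calc a + 2 ≤ 2 * (a - 1) * 1 := by linarith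
      _ ≤ 2 * (a - 1) * ((1 / 4 : ℝ) ^ j * (B ^ j * B ^ j)) :=
          mul_le_mul_of_nonneg_left h11 (by linarith)
      _ = 2 * (1 / 4 : ℝ) ^ j * ((a - 1) * (B ^ j * B ^ j)) := by ring
      _ ≤ 2 * (1 / 4 : ℝ) ^ j * (nn (fld k z j) * nn (fld k z (j + 1))) := by gcongr
  have hgeo : ∀ m, ∑ j ∈ Ico 0 m, 2 * (1 / 4 : ℝ) ^ j ≤ 8 / 3 := by
    intro m
    rw [← Finset.mul_sum, ← Finset.range_eq_Ico, geom_sum_eq (by norm_num)]
    have h0 : 0 < (1 / 4 : ℝ) ^ m := by positivity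
    have e : ((1 / 4 : ℝ) ^ m - 1) / (1 / 4 - 1) = 4 / 3 - 4 / 3 * (1 / 4 : ℝ) ^ m := by
      field_simp
      ring
    rw [e]
    linarith
  unfold TreeSum.wt
  rcases Nat.lt_or_ge L m with hLm | hLm
  · rw [← Finset.sum_Ico_consecutive _ (Nat.zero_le L) hLm.le]
    have s1 : ∑ j ∈ Ico 0 L, (|V k ((T k)^[j] z).2| + 2) /
        (nn (fld k z j) * nn (fld k z (j + 1))) ≤ 8 / 3 := by
      refine le_trans (Finset.sum_le_sum fun j hj => ?_) (hgeo L)
      rw [Finset.mem_Ico] at hj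
      exact hreg j hj.2
    have s2 : ∑ j ∈ Ico L m, (|V k ((T k)^[j] z).2| + 2) /
        (nn (fld k z j) * nn (fld k z (j + 1))) ≤ 1 := by
      calc ∑ j ∈ Ico L m, (|V k ((T k)^[j] z).2| + 2) /
          (nn (fld k z j) * nn (fld k z (j + 1)))
          ≤ ∑ j ∈ Ico L m, (8 * k) ^ 2 * (1 / ‖fld k z j‖ ^ 2) := by
            apply Finset.sum_le_sum
            intro j _
            refine (hterm j).trans ?_
            rw [mul_one_div]
            have p1 := norm_fld_pos k z j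
            have p2 := norm_le_nn (fld k z j)
            gcongr
        _ = (8 * k) ^ 2 * ∑ j ∈ Ico L m, 1 / ‖fld k z j‖ ^ 2 := by rw [Finset.mul_sum]
        _ ≤ (8 * k) ^ 2 * ∑ j ∈ Ico L n, 1 / ‖fld k z j‖ ^ 2 := by
            apply mul_le_mul_of_nonneg_left _ (by positivity)
            exact Finset.sum_le_sum_of_subset_of_nonneg (Finset.Ico_subset_Ico_right hm)
              (fun j _ _ => by positivity)
        _ ≤ (8 * k) ^ 2 * (2 / k ^ 20) :=
            mul_le_mul_of_nonneg_left (sum_le hk hL h) (by positivity)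
        _ ≤ 1 := by
            have hk2 : (128:ℝ) ≤ k ^ 18 := by
              calc (128:ℝ) ≤ 64 ^ 18 := by norm_num
                _ ≤ k ^ 18 := pow_le_pow_left₀ (by norm_num) hk 18
            have e : (8 * k) ^ 2 * (2 / k ^ 20) = 128 / k ^ 18 := by
              field_simp
              norm_num
            rw [e, div_le_one (by positivity)]
            exact hk2
    linarith
  · have s1 : ∑ j ∈ Ico 0 m, (|V k ((T k)^[j] z).2| + 2) /
        (nn (fld k z j) * nn (fld k z (j + 1))) ≤ 8 / 3 := by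
      refine le_trans (Finset.sum_le_sum fun j hj => ?_) (hgeo m)
      rw [Finset.mem_Ico] at hj
      exact hreg j (by omega)
    linarith

/-- the field stays `≥ 1` up to time `n` -/
theorem one_le_fld {k : ℝ} {L : ℕ} {z : Tor} {n : ℕ} (hk : 64 ≤ k) (hL : 100 ≤ L)
    (h : Pre k L z n) {m : ℕ} (hm : m ≤ n) : 1 ≤ nn (fld k z m) := by
  have hk1 : 1 ≤ k := by linarith
  rcases Nat.lt_or_ge L m with hLm | hLm
  · -- `m - 1` is clean
    have h1 := big' hk hL h (m := m - 1) (by omega) (by omega)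
    have h2 : nn (fld k z (m - 1)) ≤ (8 * k) * nn (fld k z m) := by
      have h3 := nn_le_stp (V k ((T k)^[m - 1] z).2) (fld k z (m - 1))
      rw [← fld_succ, show m - 1 + 1 = m by omega] at h3
      exact h3.trans (mul_le_mul_of_nonneg_right (abs_V_le (by linarith) _) (nn_nonneg _))
    have hm1 : (1:ℝ) ≤ ((m - 1 : ℕ) : ℝ) := by exact_mod_cast (by omega : 1 ≤ m - 1)
    have h3 : (8 * k) ^ 2 ≤ ‖fld k z (m - 1)‖ ^ 2 := by
      refine le_trans ?_ h1
      have h4 : (8 * k) ^ 2 ≤ k ^ 20 := by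
        have h5 : (64:ℝ) ≤ k ^ 18 := by
          calc (64:ℝ) ≤ 64 ^ 18 := by norm_num
            _ ≤ k ^ 18 := pow_le_pow_left₀ (by norm_num) hk 18
        have h6 : k ^ 20 = k ^ 18 * k ^ 2 := by rw [← pow_add]
        rw [h6]
        nlinarith [sq_nonneg k]
      have h7 : (1:ℝ) ≤ ((m - 1 : ℕ) : ℝ) ^ 2 := one_le_pow₀ hm1
      nlinarith [pow_pos (show 0 < k by linarith) 20]
    have h4 : 8 * k ≤ ‖fld k z (m - 1)‖ :=
      le_of_pow_le_pow_left₀ (by norm_num) (norm_nonneg _) h3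
    have h5 := norm_le_nn (fld k z (m - 1))
    have h6 : 8 * k * 1 ≤ 8 * k * nn (fld k z m) := by linarith
    exact le_of_mul_le_mul_left h6 (by linarith)
  · have h1 := (base hk h hLm).1
    have h2 : (1:ℝ) ≤ (k ^ (1 / 2 : ℝ)) ^ m :=
      one_le_pow₀ (by linarith [sqrt_ge hk])
    exact h2.trans (h1.trans (abs_snd_le _))

theorem norm_le {k : ℝ} {L : ℕ} {z : Tor} {n : ℕ} (hk : 64 ≤ k) (hL : 100 ≤ L)
    (h : Pre k L z n) {m : ℕ} (hm : m ≤ n) : ‖Mn k m z‖ ≤ 12 * ‖fld k z m‖ := by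
  have h1 := one_le_fld hk hL h hm
  have h2 : ‖Mn k m z‖ ≤ 6 * nn (fld k z m) := by
    apply norm_le_of_ap (by linarith)
    intro v
    have hz : IsField (fun m => V k ((T k)^[m] z).2) (fun m => act (Mn k m z) (v 0, v 1)) := by
      intro n
      show act (Mn k (n + 1) z) (v 0, v 1) = _
      rw [Mn_succ', act_mul, act_Am]
    have h3 := tree_ineq (isField_fld k z) hz (Nat.zero_le m) (OnePerX.W_pos k z 0)
    have e0 : nn (fld k z 0) = 1 := OnePerX.W_zero k z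
    have ev : nn (act (Mn k 0 z) (v 0, v 1)) = ‖v‖ := by
      rw [Mn_zero, nn_act, ap_one]
      congr 1
      ext i
      fin_cases i <;> simp
    have em : nn (act (Mn k m z) (v 0, v 1)) = ‖ap (Mn k m z) v‖ := by
      rw [nn_act]
      congr 2
      ext i
      fin_cases i <;> simp
    rw [e0, ev, em] at h3
    refine h3.trans ?_
    rw [mul_comm]
    apply mul_le_mul_of_nonneg_right _ (norm_nonneg _)
    have h4 := wt_le hk hL h hm
    have h5 : 1 / nn (fld k z m) ≤ nn (fld k z m) := by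
      rw [div_le_iff₀ (by linarith)]
      nlinarith
    have h6 : nn (fld k z m) *
        TreeSum.wt (fun m => V k ((T k)^[m] z).2) (fld k z) 0 m ≤ nn (fld k z m) * 4 :=
      mul_le_mul_of_nonneg_left h4 (by linarith)
    rw [div_one, one_mul]
    linarith
  have h3 := nn_le_norm (fld k z m)
  linarith

/-! ## the first violation -/

theorem two_le_fld {k : ℝ} {L : ℕ} {z : Tor} {n : ℕ} (hk : 64 ≤ k) (hL : 100 ≤ L)
    (h : Pre k L z n) {m : ℕ} (hLm : L ≤ m) (hm : m ≤ n) : 1 ≤ ‖fld k z m‖ := by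
  have hk1 : 1 ≤ k := by linarith
  rcases Nat.lt_or_ge L m with hLm' | hLm'
  · have h1 := big' hk hL h (m := m - 1) (by omega) (by omega)
    have h2 : nn (fld k z (m - 1)) ≤ (8 * k) * nn (fld k z m) := by
      have h3 := nn_le_stp (V k ((T k)^[m - 1] z).2) (fld k z (m - 1))
      rw [← fld_succ, show m - 1 + 1 = m by omega] at h3
      exact h3.trans (mul_le_mul_of_nonneg_right (abs_V_le (by linarith) _) (nn_nonneg _))
    have hm1 : (1:ℝ) ≤ ((m - 1 : ℕ) : ℝ) := by exact_mod_cast (by omega : 1 ≤ m - 1)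
    have h3 : (16 * k) ^ 2 ≤ ‖fld k z (m - 1)‖ ^ 2 := by
      refine le_trans ?_ h1
      have h4 : (16 * k) ^ 2 ≤ k ^ 20 := by
        have h5 : (256:ℝ) ≤ k ^ 18 := by
          calc (256:ℝ) ≤ 64 ^ 18 := by norm_num
            _ ≤ k ^ 18 := pow_le_pow_left₀ (by norm_num) hk 18
        have h6 : k ^ 20 = k ^ 18 * k ^ 2 := by rw [← pow_add]
        rw [h6]
        nlinarith [sq_nonneg k]
      have h7 : (1:ℝ) ≤ ((m - 1 : ℕ) : ℝ) ^ 2 := one_le_pow₀ hm1
      nlinarith [pow_pos (show 0 < k by linarith) 20]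
    have h4 : 16 * k ≤ ‖fld k z (m - 1)‖ :=
      le_of_pow_le_pow_left₀ (by norm_num) (norm_nonneg _) h3
    have h5 := norm_le_nn (fld k z (m - 1))
    have h6 : 8 * k * 2 ≤ 8 * k * nn (fld k z m) := by linarith
    have h7 : 2 ≤ nn (fld k z m) := le_of_mul_le_mul_left h6 (by linarith)
    have h8 := nn_le_norm (fld k z m)
    linarith
  · have h1 : m = L := by omega
    subst h1
    have h2 := big_L hk h
    refine le_trans ?_ h2
    exact Real.one_le_rpow hk1 (by positivity)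

theorem pow_helper {x y : ℝ} (hx : 1 ≤ x) (hy : 0 ≤ y) (h : x ^ 99 ≤ y ^ 100) :
    x ^ 89 ≤ y ^ 90 := by
  have hy' := hy
  have h1 : (x ^ 89) ^ 100 ≤ (y ^ 90) ^ 100 := by
    have key : ∀ a b c d : ℕ, a * b ≤ c * d → (x ^ a) ^ b ≤ (x ^ c) ^ d := by
      intro a b c d habcd
      rw [← pow_mul, ← pow_mul]
      exact pow_le_pow_right₀ hx habcd
    refine (key 89 100 99 90 (by norm_num)).trans ?_
    rw [pow_right_comm y 90 100]
    exact pow_le_pow_left₀ (by positivity) h 90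
  exact le_of_pow_le_pow_left₀ (by norm_num) (pow_nonneg hy 90) h1

/-- the three ways in which a start can fail to be clean: a near critical digit among the first `L`
ones, a first violation of the duration clause, a first violation of the drawdown clause. -/
theorem first_viol {k : ℝ} {L : ℕ} {y : Tor} {M : ℕ} (hk : 64 ≤ k) (hL : 1000 ≤ L)
    (hkL : 8 * (L : ℝ) ≤ k) (h : ¬ VD k L y M) :
    (∃ m, m < L ∧ m < M ∧ |V k ((T k)^[m] y).2| < k ^ ((2 : ℝ) / 3)) ∨
    (∃ n, n ≤ M ∧ Long.LONG k L y n) ∨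
    (∃ n p, L ≤ p ∧ p < n ∧ n ≤ M ∧ Pre k L y n ∧ ‖fld k y n‖ ^ 100 < ‖fld k y p‖ ^ 99) := by
  classical
  by_cases hc : ∃ m, m < L ∧ m < M ∧ |V k ((T k)^[m] y).2| < k ^ ((2 : ℝ) / 3)
  · exact Or.inl hc
  right
  push Not at hc
  have hLM : L ≤ M := by
    by_contra hlt
    push Not at hlt
    exact h ⟨hc, fun i j h1 h2 h3 => by omega, fun j h1 h2 => by omega⟩
  have hcl : ∀ m, m < L → k ^ ((2 : ℝ) / 3) ≤ |V k ((T k)^[m] y).2| := fun m hm =>
    hc m hm (by omega)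
  have hex : ∃ n, L ≤ n ∧ n ≤ M ∧ ((∃ i, L ≤ i ∧ i ≤ n ∧ ‖fld k y n‖ ^ 100 < ‖fld k y i‖ ^ 99) ∨
      (∀ i, L ≤ i → i ≤ n → ‖fld k y i‖ < (n : ℝ) ^ 400)) := by
    by_contra hno
    push Not at hno
    apply h
    refine ⟨hc, fun i j h1 h2 h3 => (hno j (by omega) h3).1 i h1 h2, fun j h1 h2 => ?_⟩
    obtain ⟨i, h3, h4, h5⟩ := (hno j h1 h2).2
    exact ⟨i, h3, h4, h5⟩
  obtain ⟨hLn, hnM, hn⟩ := Nat.find_spec hex
  have hmin := fun m (hm : m < Nat.find hex) => Nat.find_min hex hm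
  set n := Nat.find hex with hndef
  have hpre : Pre k L y n := by
    refine ⟨hcl, ?_, ?_⟩
    · intro i j h1 h2 h3
      have h4 := hmin j h3
      push Not at h4
      exact (h4 (by omega) (by omega)).1 i h1 h2
    · intro j h1 h2
      have h4 := hmin j h2
      push Not at h4
      obtain ⟨i, h5, h6, h7⟩ := (h4 h1 (by omega)).2
      exact ⟨i, h5, h6, h7⟩
  rcases hn with ⟨p, hp1, hp2, hp3⟩ | hn
  · right
    refine ⟨n, p, hp1, ?_, hnM, hpre, hp3⟩
    rcases Nat.lt_or_ge p n with h1 | h1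
    · exact h1
    · exfalso
      have h2 : p = n := by omega
      rw [h2] at hp3
      have h3 := two_le_fld hk (by omega) hpre hLn le_rfl
      have h4 : ‖fld k y n‖ ^ 99 ≤ ‖fld k y n‖ ^ 100 := pow_le_pow_right₀ h3 (by norm_num)
      linarith
  · left
    have hk1 : 1 ≤ k := by linarith
    have hL0 : k ^ 500 ≤ ‖fld k y L‖ := by
      refine le_trans ?_ (big_L hk hpre)
      rw [← Real.rpow_natCast]
      apply Real.rpow_le_rpow_of_exponent_le hk1
      have : (1000:ℝ) ≤ L := by exact_mod_cast hL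
      push_cast
      linarith
    refine ⟨n, hnM, ?_, ?_, ?_, ?_, ?_⟩
    · by_contra hlt
      push Not at hlt
      have h1 := hn L le_rfl hLn
      have h2 : (n : ℝ) ≤ 8 * L := by exact_mod_cast hlt.le
      have h3 : (n : ℝ) ^ 400 ≤ k ^ 400 := pow_le_pow_left₀ (Nat.cast_nonneg _) (h2.trans hkL) 400
      have h4 : k ^ 400 ≤ k ^ 500 := pow_le_pow_right₀ hk1 (by norm_num)
      linarith
    · intro i h1 h2
      have h3 := hn i h1 h2.le
      have h4 : 0 ≤ (n : ℝ) ^ 400 := by positivity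
      linarith
    · exact hL0
    · intro i j h1 h2 h3
      have h4 : j < n := by omega
      have h5 := hpre.v2 i j h1 h2 h4
      exact pow_helper (two_le_fld hk (by omega) hpre h1 (by omega)) (norm_nonneg _) h5
    · intro j h1 h2
      obtain ⟨i, h3, h4, h5⟩ := hpre.v3 j h1 (by omega)
      refine ⟨i, h3, h4, ?_⟩
      have := norm_nonneg (fld k y i)
      linarith

/-! ## the contour and the norms -/

theorem contour_near (k : ℝ) (z : Tor) (m : ℕ) :
    |bt (rr k z) m - Real.log ‖Mn k m z‖| ≤ Real.log 2 := by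
  have h1 := Foot.norm_Mn_le k m z
  have h2 := Foot.nm_le_norm k m z
  have hp : 0 < ‖Mn k m z‖ := norm_pos' (det_Mn k m z)
  have hn := nm_pos k m z
  have e : bt (rr k z) m = Real.log (nm k m z) := by rw [← exp_bt, Real.log_exp]
  rw [e, abs_le]
  constructor
  · have h3 := Real.log_le_log hp h1
    rw [Real.log_mul (by norm_num) hn.ne'] at h3
    have h4 : Real.log (3 / 2) ≤ Real.log 2 := Real.log_le_log (by norm_num) (by norm_num)
    linarith
  · have h3 := Real.log_le_log hn h2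
    rw [Real.log_mul (by norm_num) hp.ne'] at h3
    linarith

/-- bound for one step -/
noncomputable def AA (k : ℝ) : ℝ := 3 / 2 * (3 + 2 * Real.pi * k)

theorem AA_le {k : ℝ} (hk : 64 ≤ k) : AA k ≤ 12 * k := by
  unfold AA
  have := Real.pi_lt_d2
  nlinarith

theorem AA_pos {k : ℝ} (hk : 64 ≤ k) : 1 ≤ AA k := by
  unfold AA
  have := Real.pi_gt_three
  nlinarith

theorem transfer (k : ℝ) (z : Tor) {v m : ℕ} (h : v ≤ m) :
    Mn k m z * (Mn k v z)⁻¹ = Mn k (m - v) ((T k)^[v] z) := by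
  have h1 := Mn_add k (m - v) v z
  rw [Nat.sub_add_cancel h] at h1
  rw [h1, Matrix.mul_assoc, Matrix.mul_nonsing_inv _ (by rw [det_Mn]; exact isUnit_one),
    Matrix.mul_one]

theorem step_le {k : ℝ} (hk : 0 ≤ k) (z : Tor) (m : ℕ) :
    ‖Mn k (m + 1) z * (Mn k m z)⁻¹‖ ≤ AA k := by
  rw [transfer k z (Nat.le_succ m), show m + 1 - m = 1 by omega, Mn_succ, Mn_zero,
    Matrix.one_mul]
  exact Foot.norm_Am_le hk _

theorem C0_le {k : ℝ} {L : ℕ} (hk : (10:ℝ) ^ 6 ≤ k) (hkL : 8 * (L : ℝ) ≤ k) :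
    FootG.C0 (AA k) (Real.log 2) L ≤ 5 * Real.log k := by
  have hk64 : (64:ℝ) ≤ k := by linarith [show (64:ℝ) ≤ 10 ^ 6 by norm_num]
  have hk0 : 0 < k := by linarith
  have hA := AA_le hk64
  have hA1 := AA_pos hk64
  have hL0 : (0:ℝ) ≤ L := Nat.cast_nonneg L
  have hX : 0 < 2 * AA k ^ 2 * (AA k ^ 2 + L) := by
    have : 0 < AA k := by linarith
    positivity
  have e : FootG.C0 (AA k) (Real.log 2) L = Real.log (2 * AA k ^ 2 * (AA k ^ 2 + L) * 2 ^ 4) := by
    rw [Real.log_mul hX.ne' (by norm_num), Real.log_pow]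
    unfold FootG.C0
    push_cast
    ring
  rw [e, show 5 * Real.log k = Real.log (k ^ 5) by rw [Real.log_pow]; push_cast; ring]
  apply Real.log_le_log (by positivity)
  have h1 : AA k ^ 2 ≤ 144 * k ^ 2 := by
    calc AA k ^ 2 ≤ (12 * k) ^ 2 := pow_le_pow_left₀ (by linarith) hA 2
      _ = _ := by ring
  have h2 : AA k ^ 2 + L ≤ 145 * k ^ 2 := by nlinarith
  calc 2 * AA k ^ 2 * (AA k ^ 2 + L) * 2 ^ 4 ≤ 2 * (144 * k ^ 2) * (145 * k ^ 2) * 2 ^ 4 := by
        gcongr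
    _ = 668160 * k ^ 4 := by ring
    _ ≤ k * k ^ 4 := by
        apply mul_le_mul_of_nonneg_right _ (by positivity)
        linarith [show (668160:ℝ) ≤ 10 ^ 6 by norm_num]
    _ = k ^ 5 := by ring

theorem hsum_le {k : ℝ} {L : ℕ} (hk : (10:ℝ) ^ 6 ≤ k) (hkL : 8 * (L : ℝ) ≤ k) {s : ℝ}
    (hs : s ≤ 2 / k ^ 20) :
    4 * Real.exp (2 * Real.log 2) ^ 2 * AA k ^ 4 * (AA k ^ 2 + L) * s ≤ 1 := by
  have hk64 : (64:ℝ) ≤ k := by linarith [show (64:ℝ) ≤ 10 ^ 6 by norm_num]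
  have hk0 : 0 < k := by linarith
  have hA := AA_le hk64
  have hA1 := AA_pos hk64
  have hL0 : (0:ℝ) ≤ L := Nat.cast_nonneg L
  have e4 : Real.exp (2 * Real.log 2) = 4 := by
    rw [show 2 * Real.log 2 = Real.log (2 ^ 2) by rw [Real.log_pow]; push_cast; ring,
      Real.exp_log (by norm_num)]
    norm_num
  rw [e4]
  have h1 : AA k ^ 4 ≤ 20736 * k ^ 4 := by
    calc AA k ^ 4 ≤ (12 * k) ^ 4 := pow_le_pow_left₀ (by linarith) hA 4
      _ = _ := by ring
  have h2 : AA k ^ 2 + L ≤ 145 * k ^ 2 := by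
    have : AA k ^ 2 ≤ 144 * k ^ 2 := by
      calc AA k ^ 2 ≤ (12 * k) ^ 2 := pow_le_pow_left₀ (by linarith) hA 2
        _ = _ := by ring
    nlinarith
  calc 4 * (4:ℝ) ^ 2 * AA k ^ 4 * (AA k ^ 2 + L) * s
      ≤ 4 * (4:ℝ) ^ 2 * AA k ^ 4 * (AA k ^ 2 + L) * (2 / k ^ 20) :=
        mul_le_mul_of_nonneg_left hs (by positivity)
    _ ≤ 4 * (4:ℝ) ^ 2 * (20736 * k ^ 4) * (145 * k ^ 2) * (2 / k ^ 20) := by gcongr
    _ = 384860160 / k ^ 14 := by
        field_simp
        norm_num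
    _ ≤ 1 := by
        rw [div_le_one (by positivity)]
        calc (384860160:ℝ) ≤ (10 ^ 6) ^ 14 := by norm_num
          _ ≤ k ^ 14 := pow_le_pow_left₀ (by norm_num) hk 14

theorem viol_rpow {x y : ℝ} (hx : 0 < x) (h : y ^ 100 < x ^ 99) :
    y ≤ x ^ (1 - (1 / 100 : ℝ)) := by
  have h1 : (x ^ (1 - (1 / 100 : ℝ))) ^ 100 = x ^ 99 := by
    rw [← Real.rpow_natCast, ← Real.rpow_mul hx.le, ← Real.rpow_natCast]
    norm_num
  have h2 : y ^ 100 ≤ (x ^ (1 - (1 / 100 : ℝ))) ^ 100 := by rw [h1]; exact h.le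
  exact le_of_pow_le_pow_left₀ (by norm_num) (by positivity) h2

/-- the numerical hypotheses of `FootG` -/
theorem numerics {k : ℝ} {L : ℕ} {y : Tor} {n p : ℕ} (hk : (10:ℝ) ^ 6 ≤ k) (hL : 4000 ≤ L)
    (hkL : 8 * (L : ℝ) ≤ k) (h : Pre k L y n) (hp : L ≤ p) (hpn : p < n) :
    (L / 4 * Real.log k) + FootG.C0 (AA k) (Real.log 2) L ≤ Real.log ‖fld k y p‖ ∧
    (1 - (1 / 100 : ℝ)) * FootG.C0 (AA k) (Real.log 2) L + Real.log 12 + 2 * Real.log 2 ≤
      1 / 100 / 2 * (Real.log ‖fld k y p‖ - FootG.C0 (AA k) (Real.log 2) L) := by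
  have hk64 : (64:ℝ) ≤ k := by linarith [show (64:ℝ) ≤ 10 ^ 6 by norm_num]
  have hk0 : 0 < k := by linarith
  have h1 := C0_le hk hkL
  have h2 : (49 : ℝ) / 100 * L * Real.log k ≤ Real.log ‖fld k y p‖ := by
    rw [← Real.log_rpow hk0]
    exact Real.log_le_log (by positivity) (big hk64 h hp hpn)
  have hL' : (4000:ℝ) ≤ L := by exact_mod_cast hL
  have hkap : 0 < Real.log k := Real.log_pos (by linarith)
  have h3 : Real.log 12 + 2 * Real.log 2 ≤ Real.log k := by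
    rw [show Real.log 12 + 2 * Real.log 2 = Real.log (12 * 2 ^ 2) by
      rw [Real.log_mul (by norm_num) (by norm_num), Real.log_pow]; push_cast; ring]
    exact Real.log_le_log (by norm_num) (by linarith)
  have h4 : (4000:ℝ) * Real.log k ≤ L * Real.log k := mul_le_mul_of_nonneg_right hL' hkap.le
  constructor
  · linarith
  · linarith

open Charge in
/-- **V1-5 on the torus, right foot** -/
theorem footR {k : ℝ} {L : ℕ} (hk : (10:ℝ) ^ 6 ≤ k) (hL : 4000 ≤ L) (hkL : 8 * (L : ℝ) ≤ k)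
    (z : Tor) {N i j t : ℕ} {l : ℤ} (hc : Cmp (bt (rr k z)) (Real.log k) N i j l) (hit : i < t)
    (htj : t < j) (hmax : ∀ m, i < m → m < j → bt (rr k z) m ≤ bt (rr k z) t)
    (h : ¬ VD k L ((T k)^[j] z).swap (j - t)) :
    (∃ m, m < L ∧ m < j - t ∧ |V k ((T k)^[j - m - 1] z).2| < k ^ ((2 : ℝ) / 3)) ∨
    (∃ n, n ≤ j - t ∧ Long.LONG k L ((T k)^[j] z).swap n) ∨
    ValR (bt (rr k z)) (Real.log k) (1 / 100 / 2) (L / 4 * Real.log k) t j l := by
  have hk64 : (64:ℝ) ≤ k := by linarith [show (64:ℝ) ≤ 10 ^ 6 by norm_num]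
  have hk0 : 0 < k := by linarith
  have hkap : 0 < Real.log k := Real.log_pos (by linarith)
  rcases first_viol hk64 (by omega) hkL h with ⟨m, h1, h2, h3⟩ | h1 | ⟨n, p, hp1, hpn, hnM, hpre, hv⟩
  · left
    refine ⟨m, h1, h2, ?_⟩
    have e := Rev.digit_rev k (show m ≤ j by omega) z
    have e2 := Rev.fst_iter_succ k (j - m - 1) z
    rw [show j - m - 1 + 1 = j - m by omega] at e2
    rw [e, e2] at h3
    exact h3
  · exact Or.inr (Or.inl h1)
  · right; right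
    have hnj : n ≤ j := by omega
    have key : ∀ m, m ≤ j → ‖Mn k j z * (Mn k (j - m) z)⁻¹‖ = ‖Mn k m ((T k)^[j] z).swap‖ := by
      intro m hm
      rw [transfer k z (by omega : j - m ≤ j), show j - (j - m) = m by omega]
      have := Rev.norm_Mn_rev' k (j - m) m z
      rw [show j - m + m = j by omega] at this
      rw [this]
    obtain ⟨n1, n2⟩ := numerics hk hL hkL hpre hp1 hpn
    have hLpos : (0:ℝ) < L := by exact_mod_cast (by omega : 0 < L)
    refine FootG.valR (g := fun m => Mn k m z) (fun m => det_Mn k m z) (c0 := Real.log 2)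
      (A := AA k) (fun m _ => contour_near k z m) (fun m _ => step_le hk0.le z m) hc hit htj hmax
      (M0 := L) (n := n) (p := p) (by omega) hnM ?_ (W := fun m => ‖fld k ((T k)^[j] z).swap m‖)
      (C2 := 12) (by omega) hpn.le ?_ ?_ ?_ (by norm_num) ?_ (by norm_num) (by norm_num) ?_ ?_ n1 n2
    · refine hsum_le hk hkL ?_
      refine le_trans (le_of_eq ?_) (sum_norm_le hk64 (by omega) hpre)
      apply Finset.sum_congr rfl
      intro m hm
      rw [Finset.mem_Ico] at hm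
      rw [key m (by omega)]
    · rw [key p (by omega)]
      exact fld_le_norm _ _ _
    · exact two_le_fld hk64 (by omega) hpre hp1 hpn.le
    · exact norm_fld_pos _ _ _
    · rw [key n hnj]
      exact norm_le hk64 (by omega) hpre le_rfl
    · exact viol_rpow (norm_fld_pos _ _ _) hv
    · positivity

open Charge in
/-- **V1-5 on the torus, left foot** -/
theorem footL {k : ℝ} {L : ℕ} (hk : (10:ℝ) ^ 6 ≤ k) (hL : 4000 ≤ L) (hkL : 8 * (L : ℝ) ≤ k)
    (z : Tor) {N i j t : ℕ} {l : ℤ} (hc : Cmp (bt (rr k z)) (Real.log k) N i j l) (hit : i < t)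
    (htj : t < j) (hmax : ∀ m, i < m → m < j → bt (rr k z) m ≤ bt (rr k z) t)
    (h : ¬ VD k L ((T k)^[i] z) (t - i)) :
    (∃ m, m < L ∧ m < t - i ∧ |V k ((T k)^[i + m] z).2| < k ^ ((2 : ℝ) / 3)) ∨
    (∃ n, n ≤ t - i ∧ Long.LONG k L ((T k)^[i] z) n) ∨
    ValL (bt (rr k z)) (Real.log k) (1 / 100 / 2) (L / 4 * Real.log k) t i l := by
  have hk64 : (64:ℝ) ≤ k := by linarith [show (64:ℝ) ≤ 10 ^ 6 by norm_num]
  have hk0 : 0 < k := by linarith
  have hkap : 0 < Real.log k := Real.log_pos (by linarith)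
  rcases first_viol hk64 (by omega) hkL h with ⟨m, h1, h2, h3⟩ | h1 | ⟨n, p, hp1, hpn, hnM, hpre, hv⟩
  · left
    refine ⟨m, h1, h2, ?_⟩
    rw [← Function.iterate_add_apply, add_comm m i] at h3
    exact h3
  · exact Or.inr (Or.inl h1)
  · right; right
    have key : ∀ m, ‖Mn k (i + m) z * (Mn k i z)⁻¹‖ = ‖Mn k m ((T k)^[i] z)‖ := by
      intro m
      rw [transfer k z (by omega : i ≤ i + m), show i + m - i = m by omega]
    obtain ⟨n1, n2⟩ := numerics hk hL hkL hpre hp1 hpn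
    have hLpos : (0:ℝ) < L := by exact_mod_cast (by omega : 0 < L)
    refine FootG.valL (g := fun m => Mn k m z) (fun m => det_Mn k m z) (c0 := Real.log 2)
      (A := AA k) (fun m _ => contour_near k z m) (fun m _ => step_le hk0.le z m) hc hit htj hmax
      (M0 := L) (n := n) (p := p) (by omega) hnM ?_ (W := fun m => ‖fld k ((T k)^[i] z) m‖)
      (C2 := 12) (by omega) hpn.le ?_ ?_ ?_ (by norm_num) ?_ (by norm_num) (by norm_num) ?_ ?_ n1 n2
    · refine hsum_le hk hkL ?_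
      refine le_trans (le_of_eq ?_) (sum_norm_le hk64 (by omega) hpre)
      apply Finset.sum_congr rfl
      intro m hm
      rw [key m]
    · rw [key p]
      exact fld_le_norm _ _ _
    · exact two_le_fld hk64 (by omega) hpre hp1 hpn.le
    · exact norm_fld_pos _ _ _
    · rw [key n]
      exact norm_le hk64 (by omega) hpre le_rfl
    · exact viol_rpow (norm_fld_pos _ _ _) hv
    · positivity

end Crest.Agent.R128.FootW
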