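import Mathlib

/-!
Row 128, node FOREST (helper434): multiplicity of "big" nested tips is at most `1 + log2 (1/η)`
when explorers double their heights.
-/

set_option autoImplicit false

namespace Crest.Agent.R128.Forest

/-- pairwise doubling family of positive numbers in `[a,b]` has at most `1 + log₂ (b/a)` members -/
theorem card_le_of_doubling {ι : Type*} (S : Finset ι) (h : ι → ℝ) {a b : ℝ} (ha : 0 < a)
    (hab : ∀ i ∈ S, a ≤ h i ∧ h i ≤ b)
    (hd : ∀ i ∈ S, ∀ j ∈ S, i ≠ j → 2 * h i ≤ h j ∨ 2 * h j ≤ h i) :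
    (S.card : ℝ) ≤ 1 + max 0 (Real.logb 2 (b / a)) := by
  classical
  rcases S.eq_empty_or_nonempty with rfl | ⟨i0, hi0⟩
  · simp
    positivity
  have hb : a ≤ b := (hab i0 hi0).1.trans (hab i0 hi0).2
  have h1 : 1 ≤ b / a := by rw [le_div_iff₀ ha]; linarith
  have hL : 0 ≤ Real.logb 2 (b / a) := Real.logb_nonneg (by norm_num) h1
  set N : ℕ := ⌊Real.logb 2 (b / a)⌋₊ with hN
  let f : ι → ℕ := fun i => ⌊Real.logb 2 (h i / a)⌋₊
  have hmaps : ∀ i ∈ S, f i ∈ Finset.range (N + 1) := by
    intro i hi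
    rw [Finset.mem_range]
    refine Nat.lt_succ_of_le (Nat.floor_le_floor ?_)
    apply Real.logb_le_logb_of_le (by norm_num)
    · exact div_pos (lt_of_lt_of_le ha (hab i hi).1) ha
    · exact div_le_div_of_nonneg_right (hab i hi).2 ha.le
  have key : ∀ i ∈ S, ∀ j ∈ S, 2 * h i ≤ h j → f i < f j := by
    intro i hi j hj hij
    have hip : 0 < h i := lt_of_lt_of_le ha (hab i hi).1
    have h2 : Real.logb 2 (h i / a) + 1 ≤ Real.logb 2 (h j / a) := by
      have : Real.logb 2 (h i / a) + 1 = Real.logb 2 (h i / a * 2) := by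
        rw [Real.logb_mul (div_pos hip ha).ne' (by norm_num), Real.logb_self_eq_one (by norm_num)]
      rw [this]
      apply Real.logb_le_logb_of_le (by norm_num)
      · exact mul_pos (div_pos hip ha) (by norm_num)
      · rw [div_mul_eq_mul_div]
        apply div_le_div_of_nonneg_right _ ha.le
        linarith
    have h3 : 0 ≤ Real.logb 2 (h i / a) := by
      apply Real.logb_nonneg (by norm_num)
      rw [le_div_iff₀ ha]; linarith [(hab i hi).1]
    have h4 : f i + 1 ≤ f j := by
      have : ⌊Real.logb 2 (h i / a) + 1⌋₊ ≤ ⌊Real.logb 2 (h j / a)⌋₊ := Nat.floor_le_floor h2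
      rwa [Nat.floor_add_one h3] at this
    omega
  have hinj : Set.InjOn f (S : Set ι) := by
    intro i hi j hj hij
    by_contra hne
    rcases hd i hi j hj hne with h' | h'
    · have := key i hi j hj h'; omega
    · have := key j hj i hi h'; omega
  have hcard : S.card ≤ N + 1 := by
    have := Finset.card_le_card_of_injOn f hmaps hinj
    simpa using this
  have h5 : (N : ℝ) ≤ Real.logb 2 (b / a) := Nat.floor_le hL
  have h6 : (S.card : ℝ) ≤ (N : ℝ) + 1 := by exact_mod_cast hcard
  have h7 : Real.logb 2 (b / a) ≤ max 0 (Real.logb 2 (b / a)) := le_max_right _ _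
  linarith

/-- FOREST LEMMA.  `In t i` : tip `t` lies in the excursion of the tip `i`; `p i` is the explorer
(parent) of the excursion `i`.  Excursions containing a common tip are nested:
for `i ≠ j` containing `t` either `p i` is at most as high as `j` or vice versa.
Only excursions with `2 * h i ≤ h (p i)` are counted and only tips with `η * h i ≤ h t ≤ h i`. -/
theorem sum_big_le {ι : Type*} [DecidableEq ι] (S : Finset ι) (h w : ι → ℝ) (p : ι → ι)
    (In : ι → ι → Prop) [DecidableRel In] {η : ℝ} (hη : 0 < η) (hη1 : η ≤ 1)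
    (hpos : ∀ t ∈ S, 0 < h t) (hw : ∀ t ∈ S, 0 ≤ w t)
    (hle : ∀ t ∈ S, ∀ i ∈ S, In t i → h t ≤ h i)
    (hnest : ∀ t ∈ S, ∀ i ∈ S, ∀ j ∈ S, In t i → In t j → i ≠ j →
      h (p i) ≤ h j ∨ h (p j) ≤ h i) :
    ∑ i ∈ S with 2 * h i ≤ h (p i), ∑ t ∈ S with (In t i ∧ η * h i ≤ h t), w t
      ≤ (1 + Real.logb 2 (1 / η)) * ∑ t ∈ S, w t := by
  classical
  have hL : 0 ≤ Real.logb 2 (1 / η) := by
    apply Real.logb_nonneg (by norm_num)
    rw [le_div_iff₀ hη]; linarith
  have hswap : ∑ i ∈ S with 2 * h i ≤ h (p i), ∑ t ∈ S with (In t i ∧ η * h i ≤ h t), w t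
      = ∑ t ∈ S, ((S.filter (fun i => 2 * h i ≤ h (p i) ∧ In t i ∧ η * h i ≤ h t)).card : ℝ)
          * w t := by
    rw [Finset.sum_filter]
    have : ∀ i ∈ S, (if 2 * h i ≤ h (p i) then
        ∑ t ∈ S with (In t i ∧ η * h i ≤ h t), w t else 0)
        = ∑ t ∈ S, (if (2 * h i ≤ h (p i) ∧ In t i ∧ η * h i ≤ h t) then w t else 0) := by
      intro i _
      by_cases h2 : 2 * h i ≤ h (p i)
      · simp only [h2, if_true, true_and]
        rw [Finset.sum_filter]
      · simp [h2]
    rw [Finset.sum_congr rfl this, Finset.sum_comm]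
    refine Finset.sum_congr rfl ?_
    intro t _
    rw [← Finset.sum_filter, Finset.sum_const, nsmul_eq_mul]
  rw [hswap, Finset.mul_sum]
  refine Finset.sum_le_sum ?_
  intro t ht
  refine mul_le_mul_of_nonneg_right ?_ (hw t ht)
  have hc := card_le_of_doubling
    (S.filter (fun i => 2 * h i ≤ h (p i) ∧ In t i ∧ η * h i ≤ h t)) h
    (a := h t) (b := h t / η) (hpos t ht)
    (by
      intro i hi
      rw [Finset.mem_filter] at hi
      refine ⟨hle t ht i hi.1 hi.2.2.1, ?_⟩
      rw [le_div_iff₀ hη]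
      linarith [hi.2.2.2])
    (by
      intro i hi j hj hij
      rw [Finset.mem_filter] at hi hj
      rcases hnest t ht i hi.1 j hj.1 hi.2.2.1 hj.2.2.1 hij with h' | h'
      · left; linarith [hi.2.1]
      · right; linarith [hj.2.1])
  have hdiv : h t / η / h t = 1 / η := by
    have := (hpos t ht).ne'
    field_simp
  rw [hdiv, max_eq_right hL] at hc
  exact hc

end Crest.Agent.R128.Forest
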