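import Mathlib
import Crest.Agent.R128.Near
import Crest.Agent.R128.Cher

/-! Row 128, V5-GLUE (helper69): from the LOCAL hull estimate (per fibre `c = x₀`, per dyadic cell of
`t = x₁`, good points only) to the area of the set of points of the torus with many good levels.
Fubini on `Tor`, 159's counting lemma, `|{|V| ≤ r}| ≤ r / k`. Sorry free. -/

set_option autoImplicit false
open MeasureTheory Set
open scoped ENNReal

namespace Crest.Agent.R128.FreshArea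

open Crest.Agent.R128 Crest.Agent.R128.Iter Crest.Agent.R128.Cher

theorem hull_mono {E F : Set ℝ} (h : E ⊆ F) (n : ℕ) : hull n E ⊆ hull n F := by
  rintro t ⟨u, hu, huE⟩
  exact ⟨u, hu, h huE⟩

/-- the `2^n` cells of level `n` of `[0,1)` -/
theorem Ico_eq_biUnion (n : ℕ) :
    Ico (0:ℝ) 1 = ⋃ m ∈ Finset.Ico (0:ℤ) (2 ^ n), cell n m := by
  ext t
  rw [mem_iUnion₂]
  have h2 : (0:ℝ) < 2 ^ n := by positivity
  constructor
  · rintro ⟨h0, h1⟩
    refine ⟨idx n t, ?_, mem_cell_idx n t⟩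
    rw [Finset.mem_Ico]
    unfold idx
    constructor
    · rw [Int.le_floor]; push_cast; positivity
    · rw [Int.floor_lt]; push_cast
      calc t * 2 ^ n < 1 * 2 ^ n := mul_lt_mul_of_pos_right h1 h2
        _ = 2 ^ n := one_mul _
  · rintro ⟨m, hm, h1, h3⟩
    rw [Finset.mem_Ico] at hm
    rw [div_le_iff₀ h2] at h1
    rw [lt_div_iff₀ h2] at h3
    have hm0 : (0:ℝ) ≤ m := by exact_mod_cast hm.1
    have hm1 : (m:ℝ) + 1 ≤ 2 ^ n := by exact_mod_cast hm.2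
    constructor
    · by_contra h
      push Not at h
      have : t * 2 ^ n < 0 := mul_neg_of_neg_of_pos h h2
      linarith
    · by_contra h
      push Not at h
      have : (1:ℝ) * 2 ^ n ≤ t * 2 ^ n := mul_le_mul_of_nonneg_right h h2.le
      linarith

/-- from the cells to `[0,1)` -/
theorem volume_le_of_cells {E : Set ℝ} {n : ℕ} {q : ℝ≥0∞}
    (h : ∀ m : ℤ, volume (E ∩ cell n m) ≤ q * volume (cell n m)) :
    volume (E ∩ Ico 0 1) ≤ q := by
  have h1 : E ∩ Ico (0:ℝ) 1 ⊆ ⋃ m ∈ Finset.Ico (0:ℤ) (2 ^ n), (E ∩ cell n m) := by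
    rw [Ico_eq_biUnion n]
    rintro t ⟨htE, ht⟩
    obtain ⟨m, hm, ht⟩ := mem_iUnion₂.1 ht
    exact mem_iUnion₂.2 ⟨m, hm, htE, ht⟩
  calc volume (E ∩ Ico 0 1) ≤ volume (⋃ m ∈ Finset.Ico (0:ℤ) (2 ^ n), (E ∩ cell n m)) :=
        measure_mono h1
    _ ≤ ∑ m ∈ Finset.Ico (0:ℤ) (2 ^ n), volume (E ∩ cell n m) := measure_biUnion_finset_le _ _
    _ ≤ ∑ m ∈ Finset.Ico (0:ℤ) (2 ^ n), q * volume (cell n m) := Finset.sum_le_sum fun m _ => h m
    _ = q * ∑ m ∈ Finset.Ico (0:ℤ) (2 ^ n), volume (cell n m) := by rw [Finset.mul_sum]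
    _ = q * volume (⋃ m ∈ Finset.Ico (0:ℤ) (2 ^ n), cell n m) := by
        rw [measure_biUnion_finset (fun a _ b _ hab => cell_disjoint _ hab)
          (fun m' _ => measurableSet_cell _ _)]
    _ = q := by
        rw [← Ico_eq_biUnion n, Real.volume_Ico]
        simp

/-- `[0,1)` lifts measurable sets of the circle -/
theorem volume_circle {S : Set UnitAddCircle} (hS : MeasurableSet S) :
    volume S = volume ({t : ℝ | (t : UnitAddCircle) ∈ S} ∩ Ico 0 1) := by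
  have h := UnitAddCircle.measurePreserving_mk 0
  rw [zero_add] at h
  rw [← h.measure_preimage hS.nullMeasurableSet, Measure.restrict_apply (h.measurable hS),
    ← Measure.restrict_apply (h.measurable hS), ← restrict_Ico_eq_restrict_Ioc,
    Measure.restrict_apply (h.measurable hS)]
  rfl

/-- general Fubini step: if every fibre over `{|V| ≤ r}` has measure at most `q` and the other
fibres are empty, then the area is at most `(r / k) q` -/
theorem area_le_of_fibres {k : ℝ} (hk : 1 ≤ k) {r : ℝ} (hr : 0 ≤ r) {A : Set Tor}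
    (hA : MeasurableSet A) (hV : ∀ z ∈ A, |V k z.1| ≤ r) {q : ℝ≥0∞}
    (hfib : ∀ c ∈ Ico (0:ℝ) 1, |V k (c : UnitAddCircle)| ≤ r →
      volume ({t : ℝ | (((c : UnitAddCircle), (t : UnitAddCircle)) : Tor) ∈ A} ∩ Ico 0 1) ≤ q) :
    volume A ≤ ENNReal.ofReal (r / k) * q := by
  have hB : MeasurableSet {x : UnitAddCircle | |V k x| ≤ r} :=
    (isClosed_le (continuous_V k).abs continuous_const).measurableSet
  have key : ∀ c : UnitAddCircle, volume (Prod.mk c ⁻¹' A) ≤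
      {x : UnitAddCircle | |V k x| ≤ r}.indicator (fun _ => q) c := by
    intro c
    by_cases hc : |V k c| ≤ r
    · rw [indicator_of_mem (by exact hc)]
      have hS : MeasurableSet (Prod.mk c ⁻¹' A) := measurable_prodMk_left hA
      rw [volume_circle hS]
      obtain ⟨c', hc', rfl⟩ : ∃ c' ∈ Ico (0:ℝ) 1, (c' : UnitAddCircle) = c := by
        have := AddCircle.coe_image_Ico_eq (1:ℝ) 0
        have h2 : c ∈ ((↑) '' Ico (0:ℝ) (0 + 1) : Set (AddCircle (1:ℝ))) := by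
          rw [this]; trivial
        obtain ⟨c', h3, h4⟩ := h2
        rw [zero_add] at h3
        exact ⟨c', h3, h4⟩
      exact hfib c' hc' hc
    · rw [indicator_of_notMem (by exact hc)]
      have : Prod.mk c ⁻¹' A = ∅ := by
        ext t
        constructor
        · intro ht
          exact absurd (hV _ ht) hc
        · intro ht; exact absurd ht (notMem_empty _)
      rw [this, measure_empty]
  calc volume A = ∫⁻ c, volume (Prod.mk c ⁻¹' A) := by
        rw [Measure.volume_eq_prod, Measure.prod_apply hA]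
    _ ≤ ∫⁻ c, {x : UnitAddCircle | |V k x| ≤ r}.indicator (fun _ => q) c := lintegral_mono key
    _ = q * volume {x : UnitAddCircle | |V k x| ≤ r} := lintegral_indicator_const hB q
    _ ≤ q * ENNReal.ofReal (r / k) := by
        gcongr
        have h := volume_V_lin hk (s := 0) (by simpa using (by linarith : (0:ℝ) ≤ k)) hr
        simpa only [sub_zero] using h
    _ = ENNReal.ofReal (r / k) * q := mul_comm _ _

/-- **V5-GLUE**: `A` a measurable set of the torus (points `(x₀, x₁) = (c, t)`) contained in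
`{|V(x₀)| ≤ r}`; `G c t n` = the dyadic level `n` is good for `(c, t)`. If for each fibre, each grid
level `n + g i`, `i < N`, and each dyadic cell of that level the hull (at level `n + g i + g`) of the
points of `A` good at that level occupies at most the proportion `1 - c₀` of the cell, and every point
of `A` has at most `b` bad grid levels, `b L ≤ N`, then `vol A ≤ (r / k) (1 - c₀/2) ^ N`. -/
theorem area_le {k : ℝ} (hk : 1 ≤ k) {r : ℝ} (hr : 0 ≤ r) {A : Set Tor}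
    (hA : MeasurableSet A) (hV : ∀ z ∈ A, |V k z.1| ≤ r)
    (G : ℝ → ℝ → ℕ → Prop) {g N n b L : ℕ} {c₀ : ℝ} (hc : 0 < c₀) (hc1 : c₀ ≤ 1)
    (hbL : b * L ≤ N) (hbN : b ≤ N)
    (hL : (4 / c₀) * (1 - 3 * c₀ / 4) ^ L ≤ (1 - c₀ / 2) ^ L)
    (hloc : ∀ c ∈ Ico (0:ℝ) 1, |V k (c : UnitAddCircle)| ≤ r → ∀ i, i < N → ∀ m : ℤ,
      volume (hull (n + g * i + g) {t : ℝ | t ∈ Ico (0:ℝ) 1 ∧
        (((c : UnitAddCircle), (t : UnitAddCircle)) : Tor) ∈ A ∧ G c t (n + g * i)} ∩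
          cell (n + g * i) m) ≤ ENNReal.ofReal (1 - c₀) * volume (cell (n + g * i) m))
    (hcount : ∀ c ∈ Ico (0:ℝ) 1, ∀ t ∈ Ico (0:ℝ) 1,
      (((c : UnitAddCircle), (t : UnitAddCircle)) : Tor) ∈ A → N ≤ cnt (G c) g t n N + b) :
    volume A ≤ ENNReal.ofReal (r / k * (1 - c₀ / 2) ^ N) := by
  have hq : (0:ℝ) ≤ r / k := by positivity
  rw [ENNReal.ofReal_mul hq]
  refine area_le_of_fibres hk hr hA hV ?_
  intro c hcI hcV
  set E : Set ℝ := {t : ℝ | t ∈ Ico (0:ℝ) 1 ∧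
    (((c : UnitAddCircle), (t : UnitAddCircle)) : Tor) ∈ A} with hE
  have hEE : {t : ℝ | (((c : UnitAddCircle), (t : UnitAddCircle)) : Tor) ∈ A} ∩ Ico 0 1 =
      E ∩ Ico 0 1 := by
    ext t
    constructor
    · rintro ⟨h1, h2⟩; exact ⟨⟨h2, h1⟩, h2⟩
    · rintro ⟨⟨h2, h1⟩, -⟩; exact ⟨h1, h2⟩
  rw [hEE]
  refine volume_le_of_cells (n := n) fun m => ?_
  refine chernoff_real (G := G c) (g := g) hc hc1 hbL hbN hL ?_ m ?_
  · intro i hi m'
    refine le_trans (measure_mono ?_) (hloc c hcI hcV i hi m')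
    refine inter_subset_inter_left _ (hull_mono ?_ _)
    rintro t ⟨⟨h1, h2⟩, h3⟩
    exact ⟨h1, h2, h3⟩
  · rintro t ⟨⟨h1, h2⟩, -⟩
    exact hcount c hcI t h1 h2

/-- the number `L` of 159's lemma exists -/
theorem exists_L {c : ℝ} (hc : 0 < c) (hc1 : c ≤ 1) :
    ∃ L : ℕ, 1 ≤ L ∧ (4 / c) * (1 - 3 * c / 4) ^ L ≤ (1 - c / 2) ^ L := by
  have h1 : (0:ℝ) ≤ 1 - 3 * c / 4 := by linarith
  have h2 : (0:ℝ) < 1 - c / 2 := by linarith
  have h3 : (1 - 3 * c / 4) / (1 - c / 2) < 1 := by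
    rw [div_lt_one h2]; linarith
  have h4 : (0:ℝ) ≤ (1 - 3 * c / 4) / (1 - c / 2) := by positivity
  obtain ⟨L, hL⟩ := exists_pow_lt_of_lt_one (show (0:ℝ) < c / 4 by positivity) h3
  refine ⟨L + 1, by omega, ?_⟩
  have h5 : ((1 - 3 * c / 4) / (1 - c / 2)) ^ (L + 1) ≤ c / 4 := by
    rw [pow_succ]
    calc ((1 - 3 * c / 4) / (1 - c / 2)) ^ L * ((1 - 3 * c / 4) / (1 - c / 2))
        ≤ (c / 4) * 1 := mul_le_mul hL.le h3.le h4 (by positivity)
      _ = c / 4 := mul_one _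
  rw [div_pow, div_le_iff₀ (by positivity)] at h5
  calc (4 / c) * (1 - 3 * c / 4) ^ (L + 1) ≤ (4 / c) * (c / 4 * (1 - c / 2) ^ (L + 1)) := by gcongr
    _ = (1 - c / 2) ^ (L + 1) := by field_simp

/-- card form: `G` good for at least `N - b` of the grid levels -/
theorem area_le_card {k : ℝ} (hk : 1 ≤ k) {r : ℝ} (hr : 0 ≤ r) {A : Set Tor}
    (hA : MeasurableSet A) (hV : ∀ z ∈ A, |V k z.1| ≤ r)
    (G : ℝ → ℝ → ℕ → Prop) {g N n b L : ℕ} {c₀ : ℝ} (hc : 0 < c₀) (hc1 : c₀ ≤ 1)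
    (hbL : b * L ≤ N) (hbN : b ≤ N)
    (hL : (4 / c₀) * (1 - 3 * c₀ / 4) ^ L ≤ (1 - c₀ / 2) ^ L)
    (hloc : ∀ c ∈ Ico (0:ℝ) 1, |V k (c : UnitAddCircle)| ≤ r → ∀ i, i < N → ∀ m : ℤ,
      volume (hull (n + g * i + g) {t : ℝ | t ∈ Ico (0:ℝ) 1 ∧
        (((c : UnitAddCircle), (t : UnitAddCircle)) : Tor) ∈ A ∧ G c t (n + g * i)} ∩
          cell (n + g * i) m) ≤ ENNReal.ofReal (1 - c₀) * volume (cell (n + g * i) m))
    (hcount : ∀ c ∈ Ico (0:ℝ) 1, ∀ t ∈ Ico (0:ℝ) 1,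
      (((c : UnitAddCircle), (t : UnitAddCircle)) : Tor) ∈ A →
        ∀ s : Finset ℕ, (∀ i ∈ s, i < N ∧ ¬ G c t (n + g * i)) → s.card ≤ b) :
    volume A ≤ ENNReal.ofReal (r / k * (1 - c₀ / 2) ^ N) := by
  classical
  refine area_le hk hr hA hV G hc hc1 hbL hbN hL hloc ?_
  intro c hcI t htI hz
  rw [cnt_eq_card]
  have h1 := hcount c hcI t htI hz ((Finset.range N).filter fun i => ¬ G c t (n + g * i)) (by
    intro i hi
    rw [Finset.mem_filter, Finset.mem_range] at hi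
    exact hi)
  have h2 := Finset.card_filter_add_card_filter_not (s := Finset.range N)
    (fun i => G c t (n + g * i))
  rw [Finset.card_range] at h2
  omega

/-- the same for the points `z = (x₋₁, x₀)`: `A ⊆ {|V(z.2)| ≤ r}`, fibre coordinate `t = x₁` -/
theorem area_le_card' {k : ℝ} (hk : 1 ≤ k) {r : ℝ} (hr : 0 ≤ r) {A : Set Tor}
    (hA : MeasurableSet A) (hV : ∀ z ∈ A, |V k z.2| ≤ r)
    (G : ℝ → ℝ → ℕ → Prop) {g N n b L : ℕ} {c₀ : ℝ} (hc : 0 < c₀) (hc1 : c₀ ≤ 1)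
    (hbL : b * L ≤ N) (hbN : b ≤ N)
    (hL : (4 / c₀) * (1 - 3 * c₀ / 4) ^ L ≤ (1 - c₀ / 2) ^ L)
    (hloc : ∀ c ∈ Ico (0:ℝ) 1, |V k (c : UnitAddCircle)| ≤ r → ∀ i, i < N → ∀ m : ℤ,
      volume (hull (n + g * i + g) {t : ℝ | t ∈ Ico (0:ℝ) 1 ∧
        Tinv k ((c : UnitAddCircle), (t : UnitAddCircle)) ∈ A ∧ G c t (n + g * i)} ∩
          cell (n + g * i) m) ≤ ENNReal.ofReal (1 - c₀) * volume (cell (n + g * i) m))
    (hcount : ∀ c ∈ Ico (0:ℝ) 1, ∀ t ∈ Ico (0:ℝ) 1,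
      Tinv k ((c : UnitAddCircle), (t : UnitAddCircle)) ∈ A →
        ∀ s : Finset ℕ, (∀ i ∈ s, i < N ∧ ¬ G c t (n + g * i)) → s.card ≤ b) :
    volume A ≤ ENNReal.ofReal (r / k * (1 - c₀ / 2) ^ N) := by
  rw [← (mp_Tinv k).measure_preimage hA.nullMeasurableSet]
  refine area_le_card (A := Tinv k ⁻¹' A) (g := g) (n := n) hk hr
    ((continuous_Tinv k).measurable hA) ?_ G hc hc1 hbL hbN hL ?_ ?_
  · intro z hz
    exact hV _ hz
  · exact hloc
  · exact hcount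

end Crest.Agent.R128.FreshArea
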