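import Crest.Agent.R128.FreshLap
import Crest.Agent.R128.CellB

/-!
# Fresh cells for the orbit curves `t ↦ y k c n t` (row 128, label P1)
-/

set_option autoImplicit false

open Set MeasureTheory Metric
open scoped NNReal ENNReal

namespace Crest.Agent.R128.Fresh

open Crest.Agent.R128.CellA Crest.Agent.R128.CellB Crest.Agent.R128.Cell

theorem UnitCurve.mono {κ κ' : ℝ≥0} (h : κ ≤ κ') {g : ℝ → ℝ} {a : ℝ} (hg : UnitCurve κ g a) :
    UnitCurve κ' g a := by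
  unfold UnitCurve at *
  exact hg.weaken h

theorem UCBound.mono {κ κ' : ℝ≥0} (h : κ ≤ κ') {E : Set (ℝ × ℝ)} {ε : ℝ} (hE : UCBound κ' E ε) :
    UCBound κ E ε := fun g a hg => hE g a (hg.mono h)

/-- `u = k ^ (1/24)`: all thresholds are powers of `u`. -/
theorem lap_transfer_u {u : ℝ} (hu : 2000 ≤ u) {t₀ r : ℝ} (hr : 0 < r) {Y D : ℕ → ℝ → ℝ}
    (h : RO (u ^ 24) (Icc (t₀ - r) (t₀ + r)) Y D) {M : ℕ} {η₁ : ℝ} (hη₁ : 0 ≤ η₁)
    (hη₁' : η₁ ≤ 1 / 20)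
    (hNA : NearAff (Y (M + 1)) (D (M + 1)) (Icc (t₀ - r) (t₀ + r)) (D (M + 1) t₀) η₁)
    (hσ : ∀ t ∈ Icc (t₀ - r) (t₀ + r), |D M t| ≤ 1 / 4 * |D (M + 1) t₀|)
    (hsize : 1 / u ^ 9 ≤ |D (M + 1) t₀| * r)
    {E : Set (ℝ × ℝ)} (hE : MeasurableSet E) {ε : ℝ} (hε : 0 ≤ ε)
    (hUC : UCBound (Real.toNNReal (1 / u ^ 12)) E ε) :
    volume {t | t ∈ Icc (t₀ - r) (t₀ + r) ∧ (Y (M + 1) t, Y (M + 2) t) ∈ E} ≤
      ENNReal.ofReal (2 * r * (2 * ε + 24 / u)) := by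
  have hu0 : 0 < u := by linarith
  have hu1 : 1 ≤ u := by linarith
  have hk : 1 ≤ u ^ 24 := one_le_pow₀ hu1
  have h12 : (1 : ℝ) ≤ u ^ 12 := one_le_pow₀ hu1
  have hA : (80 : ℝ) ≤ u ^ 13 := by
    calc (80 : ℝ) ≤ u := by linarith
      _ = u ^ 1 := by ring
      _ ≤ u ^ 13 := pow_le_pow_right₀ hu1 (by norm_num)
  have hUC' : UCBound (Real.toNNReal (2 * (5 / u ^ 13))) E ε := by
    refine hUC.mono (Real.toNNReal_le_toNNReal ?_)
    rw [← mul_div_assoc, div_le_div_iff₀ (by positivity) (by positivity)]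
    have : u ^ 13 = u * u ^ 12 := by ring
    rw [this]
    nlinarith [pow_pos hu0 12]
  have := lap_transfer (k := u ^ 24) hk hr h hη₁ hη₁' (δ := 1 / u ^ 9) (w := 1 / u ^ 12)
    (A := u ^ 13) (by positivity) (by positivity) (by
      refine one_div_le_one_div_of_le (by positivity) ?_
      exact pow_le_pow_right₀ hu1 (by norm_num)) (by
      rw [div_le_one (by positivity)]; exact one_le_pow₀ hu1) hA (by
      have e : 44 * u ^ 24 * (1 / u ^ 12) = 44 * u ^ 12 := by field_simp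
      rw [e, le_div_iff₀ (by norm_num)]
      have : u ^ 13 = u * u ^ 12 := by ring
      rw [this]
      nlinarith [pow_pos hu0 12]) hNA hσ hsize hE hε hUC'
  refine this.trans (ENNReal.ofReal_le_ofReal ?_)
  have e1 : 16 / (u ^ 13 * (1 / u ^ 12)) = 16 / u := by field_simp
  have e2 : 8 * u ^ 13 / (u ^ 24 * (1 / u ^ 9)) = 8 / u ^ 2 := by field_simp
  rw [e1, e2]
  have h3 : 8 / u ^ 2 ≤ 8 / u := by
    apply div_le_div_of_nonneg_left (by norm_num) hu0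
    nlinarith
  have h4 : 16 / u + 8 / u = 24 / u := by ring
  have h5 : 2 * ε + 16 / u + 8 / u ^ 2 ≤ 2 * ε + 24 / u := by linarith
  gcongr

/-- **Fresh transfer**: from an exit curve of length `≥ k^-8` with 12 regular digits at the centre. -/
theorem fresh_transfer {u : ℝ} (hu : 2000000 ≤ u) {t₀ r : ℝ} (hr : 0 < r) {Y D : ℕ → ℝ → ℝ}
    (h : RO (u ^ 24) (Icc (t₀ - r) (t₀ + r)) Y D) {n₀ : ℕ} {η₀ : ℝ} (hη₀ : 0 ≤ η₀)
    (hη₀' : η₀ ≤ 1 / 200)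
    (hNA : NearAff (Y (n₀ + 1)) (D (n₀ + 1)) (Icc (t₀ - r) (t₀ + r)) (D (n₀ + 1) t₀) η₀)
    (hσ : ∀ t ∈ Icc (t₀ - r) (t₀ + r), |D n₀ t| ≤ |D (n₀ + 1) t₀|)
    (hA : ∀ j < 12, u ^ 16 ≤ |Vr (u ^ 24) (Y (n₀ + 1 + j) t₀)|)
    (h0 : |D (n₀ + 1) t₀| * r < 1 / u ^ 9) (h8 : 1 / u ^ 192 ≤ |D (n₀ + 1) t₀| * r) :
    ∃ J, 0 < J ∧ J ≤ 12 ∧
      NearAff (Y (n₀ + 1 + J)) (D (n₀ + 1 + J)) (Icc (t₀ - r) (t₀ + r)) (D (n₀ + 1 + J) t₀)
        (1 / 20) ∧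
      (∀ t ∈ Icc (t₀ - r) (t₀ + r), |D (n₀ + J) t| ≤ 4 / u ^ 16 * |D (n₀ + 1 + J) t₀|) ∧
      1 / u ^ 9 ≤ |D (n₀ + 1 + J) t₀| * r ∧
      ∀ {E : Set (ℝ × ℝ)}, MeasurableSet E → ∀ {ε : ℝ}, 0 ≤ ε →
        UCBound (Real.toNNReal (1 / u ^ 12)) E ε →
        volume {t | t ∈ Icc (t₀ - r) (t₀ + r) ∧ (Y (n₀ + 1 + J) t, Y (n₀ + 1 + J + 1) t) ∈ E} ≤
          ENNReal.ofReal (2 * r * (2 * ε + 24 / u)) := by
  have hu0 : 0 < u := by linarith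
  have hu1 : 1 ≤ u := by linarith
  have hk : 1 ≤ u ^ 24 := one_le_pow₀ hu1
  have hA16 : u ≤ u ^ 16 := by
    calc u = u ^ 1 := by ring
      _ ≤ u ^ 16 := pow_le_pow_right₀ hu1 (by norm_num)
  have e1 : 80 * u ^ 24 * (1 / u ^ 9) / u ^ 16 = 80 / u := by field_simp
  have h1u : 1 / u ≤ 1 / 2000000 := one_div_le_one_div_of_le (by norm_num) hu
  have hτ : 4 * (η₀ + 13 * (2 * (80 * u ^ 24 * (1 / u ^ 9) / u ^ 16) + 2 / u ^ 16)) ≤ 1 / 20 := by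
    rw [e1]
    have h2 : 2 / u ^ 16 ≤ 2 / u := by
      apply div_le_div_of_nonneg_left (by norm_num) hu0 hA16
    have h3 : (80 : ℝ) / u = 80 * (1 / u) := by ring
    have h4 : (2 : ℝ) / u = 2 * (1 / u) := by ring
    rw [h3]
    rw [h4] at h2
    nlinarith
  have h12 : 1 / u ^ 9 ≤ (u ^ 16 / 2) ^ 12 * (|D (n₀ + 1) t₀| * r) := by
    have h2 : (u ^ 16 / 2) ^ 12 * (1 / u ^ 192) = 1 / 4096 := by
      field_simp; norm_num
    have h3 : (u ^ 16 / 2) ^ 12 * (1 / u ^ 192) ≤ (u ^ 16 / 2) ^ 12 * (|D (n₀ + 1) t₀| * r) := by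
      gcongr
    rw [h2] at h3
    refine le_trans ?_ h3
    refine one_div_le_one_div_of_le (by norm_num) ?_
    calc (4096 : ℝ) ≤ u := by linarith
      _ = u ^ 1 := by ring
      _ ≤ u ^ 9 := pow_le_pow_right₀ hu1 (by norm_num)
  obtain ⟨J, hJ0, hJ12, hJδ, hJNA, hJσ⟩ := exists_time (k := u ^ 24) hk hr h hη₀ (δ := 1 / u ^ 9)
    (A := u ^ 16) (by positivity) hNA hσ (by linarith) hA (hτ.trans (by norm_num)) h0 h12
  have hNA' := hJNA.weaken hτ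
  refine ⟨J, hJ0, hJ12, hNA', hJσ, hJδ, ?_⟩
  intro E hE ε hε hUC
  have e2 : n₀ + 1 + J = (n₀ + J) + 1 := by omega
  rw [e2] at hNA' hJσ hJδ ⊢
  refine lap_transfer_u (by linarith) hr h (by norm_num) le_rfl hNA' ?_ hJδ hE hε hUC
  intro t ht
  refine (hJσ t ht).trans (mul_le_mul_of_nonneg_right ?_ (abs_nonneg _))
  rw [div_le_div_iff₀ (by positivity) (by norm_num)]
  linarith

/-- The orbit curves of `CellB` form a family `RO`. -/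
theorem RO_y (k c : ℝ) (s : Set ℝ) :
    RO k s (fun n t => (y k c n (t : ℂ)).re) (fun n t => (yd k c n (t : ℂ)).re) := by
  refine ⟨?_, ?_⟩
  · intro n t _
    exact (hasDerivAt_y k c n (t : ℂ)).real_of_complex.hasDerivWithinAt
  · intro n t _
    have h1 : ((y k c (n + 1) (t : ℂ)).re : ℂ) = y k c (n + 1) (t : ℂ) := by
      apply Complex.ext
      · simp
      · simp [im_y_ofReal]
    have h2 : (yd k c (n + 1) (t : ℂ)).im = 0 := by rw [yd_ofReal]; exact Complex.ofReal_im _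
    have h3 : cV k (y k c (n + 1) (t : ℂ)) = ((Vr k ((y k c (n + 1) (t : ℂ)).re) : ℝ) : ℂ) := by
      rw [← h1, cV_ofReal, V_coe]
      simp [Vr]
    show (yd k c (n + 2) (t : ℂ)).re = _
    rw [yd_add_two, h3, Complex.sub_re, Complex.re_ofReal_mul]

theorem im_yd_ofReal (k c : ℝ) (n : ℕ) (t : ℝ) : (yd k c n (t : ℂ)).im = 0 := by
  rw [yd_ofReal]; exact Complex.ofReal_im _

theorem norm_yd_ofReal (k c : ℝ) (n : ℕ) (t : ℝ) :
    ‖yd k c n (t : ℂ)‖ = |(yd k c n (t : ℂ)).re| := by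
  have h : yd k c n (t : ℂ) = (((yd k c n (t : ℂ)).re : ℝ) : ℂ) := by
    apply Complex.ext
    · simp
    · simp [im_yd_ofReal]
  rw [h, Complex.norm_real]; simp

/-- The exit curve is nearly affine on a small interval. -/
theorem exit_nearAff {k c t₀ R r η : ℝ} {m : ℕ} (hR : 0 < R) (hrR : r ≤ R / 4)
    (hun : unst k (c : ℂ) (m + 1) (t₀ : ℂ) R)
    (hs : (32 * CV k + 64 * CL k + 32) / R ^ 2 * r ≤ η * |(yd k c (m + 2) (t₀ : ℂ)).re|) :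
    NearAff (fun t : ℝ => (y k c (m + 2) (t : ℂ)).re) (fun t : ℝ => (yd k c (m + 2) (t : ℂ)).re)
      (Icc (t₀ - r) (t₀ + r)) ((yd k c (m + 2) (t₀ : ℂ)).re) η := by
  refine ⟨fun t ht => (RO_y k c _).deriv (m + 2) t ht, ?_⟩
  intro t ht
  have h1 : ‖(t : ℂ) - t₀‖ ≤ r := by
    rw [← Complex.ofReal_sub, Complex.norm_real, Real.norm_eq_abs, abs_le]
    constructor <;> linarith [ht.1, ht.2]
  have h2 := hun.yd_succ_sub_le hR (t := (t : ℂ)) (s := (t₀ : ℂ)) (by linarith)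
    (by rw [sub_self, norm_zero]; linarith)
  have h3 : |(yd k c (m + 2) (t : ℂ)).re - (yd k c (m + 2) (t₀ : ℂ)).re| ≤
      ‖yd k c (m + 2) (t : ℂ) - yd k c (m + 2) (t₀ : ℂ)‖ := by
    rw [← Complex.sub_re]; exact Complex.abs_re_le_norm _
  refine h3.trans (h2.trans (le_trans ?_ hs))
  have : 0 ≤ (32 * CV k + 64 * CL k + 32) / R ^ 2 := by
    have := CV_ge k
    have := CL_nonneg k
    positivity
  gcongr

/-- The previous column stays small. -/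
theorem exit_column {k c t₀ R r : ℝ} {m : ℕ} (hR : 0 < R) (hrR : r ≤ R / 4)
    (hun : unst k (c : ℂ) (m + 1) (t₀ : ℂ) R)
    (h0 : |(yd k c (m + 1) (t₀ : ℂ)).re| + 32 / R ^ 2 * r ≤ |(yd k c (m + 2) (t₀ : ℂ)).re|) :
    ∀ t ∈ Icc (t₀ - r) (t₀ + r),
      |(yd k c (m + 1) (t : ℂ)).re| ≤ |(yd k c (m + 2) (t₀ : ℂ)).re| := by
  intro t ht
  have h1 : ‖(t : ℂ) - t₀‖ ≤ r := by
    rw [← Complex.ofReal_sub, Complex.norm_real, Real.norm_eq_abs, abs_le]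
    constructor <;> linarith [ht.1, ht.2]
  have h2 := hun.yd_sub_le hR (m := m + 1) le_rfl (t := (t : ℂ)) (s := (t₀ : ℂ)) (by linarith)
    (by rw [sub_self, norm_zero]; linarith)
  have h3 : |(yd k c (m + 1) (t : ℂ)).re - (yd k c (m + 1) (t₀ : ℂ)).re| ≤
      ‖yd k c (m + 1) (t : ℂ) - yd k c (m + 1) (t₀ : ℂ)‖ := by
    rw [← Complex.sub_re]; exact Complex.abs_re_le_norm _
  have h4 : |(yd k c (m + 1) (t : ℂ)).re| ≤
      |(yd k c (m + 1) (t : ℂ)).re - (yd k c (m + 1) (t₀ : ℂ)).re| +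
        |(yd k c (m + 1) (t₀ : ℂ)).re| := by
    calc |(yd k c (m + 1) (t : ℂ)).re|
        = |((yd k c (m + 1) (t : ℂ)).re - (yd k c (m + 1) (t₀ : ℂ)).re) +
          (yd k c (m + 1) (t₀ : ℂ)).re| := by ring_nf
      _ ≤ _ := abs_add_le _ _
  have h5 : 32 / R ^ 2 * ‖(t : ℂ) - t₀‖ ≤ 32 / R ^ 2 * r := by gcongr
  linarith

end Crest.Agent.R128.Fresh
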