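import Crest.Agent.R128.FreshStep

/-!
# Transfer of estimates on unit curves to fresh cells (row 128, label P1)
-/

set_option autoImplicit false

open Set MeasureTheory
open scoped NNReal ENNReal

namespace Crest.Agent.R128.Fresh

open Crest.Agent.R128.CellA

/-- Measure of the image of a subset. -/
theorem _root_.Crest.Agent.R128.CellA.NearAff.measure_le_image {φ φ' : ℝ → ℝ} {s : Set ℝ}
    {lam η : ℝ} (hs : Convex ℝ s) (h : NearAff φ φ' s lam η) (hl : lam ≠ 0) (hη : η < 1)
    {T : Set ℝ} (hT : MeasurableSet T) (hTs : T ⊆ s) :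
    ENNReal.ofReal ((1 - η) * |lam|) * volume T ≤ volume (φ '' T) := by
  have hinj := (h.injOn hs hl hη).mono hTs
  have key := lintegral_image_eq_lintegral_abs_deriv_mul hT
    (fun x hx => (h.deriv x (hTs hx)).mono hTs) hinj (fun _ => 1)
  simp only [mul_one, lintegral_const, one_mul, Measure.restrict_apply MeasurableSet.univ,
    univ_inter] at key
  rw [key]
  calc ENNReal.ofReal ((1 - η) * |lam|) * volume T
      = ∫⁻ x in T, ENNReal.ofReal ((1 - η) * |lam|) := by rw [setLIntegral_const]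
    _ ≤ ∫⁻ x in T, ENNReal.ofReal |φ' x| := by
        refine setLIntegral_mono' hT ?_
        intro x hx
        exact ENNReal.ofReal_le_ofReal (h.le_abs (hTs hx))

/-- Estimate on every unit curve. -/
def UCBound (κ : ℝ≥0) (E : Set (ℝ × ℝ)) (ε : ℝ) : Prop :=
  ∀ (g : ℝ → ℝ) (a : ℝ), UnitCurve κ g a →
    volume {x | x ∈ Icc a (a + 1) ∧ (g x, x) ∈ E} ≤ ENNReal.ofReal ε

/-- Transfer on one nearly affine piece. -/
theorem piece_transfer {φ φ' ψ : ℝ → ℝ} {a b lam η κ ε : ℝ} (hab : a ≤ b)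
    (h : NearAff φ φ' (Icc a b) lam η) (hl : lam ≠ 0) (hη : η ≤ 1 / 4)
    (hκ : 0 ≤ κ) (hψ : ∀ t ∈ Icc a b, ∀ u ∈ Icc a b, |ψ t - ψ u| ≤ κ * |lam| * |t - u|)
    {E : Set (ℝ × ℝ)} (hE : MeasurableSet E) (hε : 0 ≤ ε)
    (hUC : UCBound (Real.toNNReal (2 * κ)) E ε) :
    volume {t | t ∈ Icc a b ∧ (ψ t, φ t) ∈ E} ≤
      ENNReal.ofReal (2 * ε * (b - a) + 2 / |lam|) := by
  classical
  have hlp : 0 < |lam| := abs_pos.2 hl
  have hcontφ : ContinuousOn φ (Icc a b) := fun x hx => (h.deriv x hx).continuousWithinAt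
  have hLipψ : LipschitzOnWith (Real.toNNReal (κ * |lam|)) ψ (Icc a b) := by
    refine LipschitzOnWith.of_dist_le_mul ?_
    intro x hx y hy
    rw [Real.coe_toNNReal _ (by positivity), Real.dist_eq, Real.dist_eq]
    exact hψ x hx y hy
  have hcontψ : ContinuousOn ψ (Icc a b) := hLipψ.continuousOn
  set T : Set ℝ := {t | t ∈ Icc a b ∧ (ψ t, φ t) ∈ E} with hTdef
  have hTs : T ⊆ Icc a b := fun t ht => ht.1
  have hTm : MeasurableSet T := by
    have h1 : ContinuousOn (fun t => (ψ t, φ t)) (Icc a b) := hcontψ.prodMk hcontφ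
    have h2 := (continuousOn_iff_continuous_domRestrict.1 h1).measurable hE
    have h3 := MeasurableSet.subtype_image measurableSet_Icc h2
    rwa [show Subtype.val '' ((Icc a b).domRestrict (fun t => (ψ t, φ t)) ⁻¹' E) = T by
      ext x; simp [hTdef, and_comm]] at h3
  have hinj := h.injOn (convex_Icc a b) hl (by linarith : η < 1)
  have himg := h.image_Icc hab hl (by linarith : η < 1)
  -- inverse function
  set α := min (φ a) (φ b) with hα
  set L := |φ b - φ a| with hL
  have huIcc : uIcc (φ a) (φ b) = Icc α (α + L) := by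
    rw [uIcc]
    congr 1
    rcases le_total (φ a) (φ b) with h' | h'
    · rw [hα, hL, max_eq_right h', min_eq_left h', abs_of_nonneg (by linarith)]; ring
    · rw [hα, hL, max_eq_left h', min_eq_right h', abs_of_nonpos (by linarith)]; ring
  rw [huIcc] at himg
  set g : ℝ → ℝ := fun x => ψ (Function.invFunOn φ (Icc a b) x) with hg
  have hginv : ∀ x ∈ Icc α (α + L), Function.invFunOn φ (Icc a b) x ∈ Icc a b ∧
      φ (Function.invFunOn φ (Icc a b) x) = x := by
    intro x hx
    rw [← himg] at hx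
    obtain ⟨t, ht, rfl⟩ := hx
    exact ⟨Function.invFunOn_mem ⟨t, ht, rfl⟩, Function.invFunOn_eq ⟨t, ht, rfl⟩⟩
  have hgφ : ∀ t ∈ Icc a b, g (φ t) = ψ t := by
    intro t ht
    have h1 := hginv (φ t) (by rw [← himg]; exact ⟨t, ht, rfl⟩)
    have h2 : Function.invFunOn φ (Icc a b) (φ t) = t := hinj h1.1 ht h1.2
    simp only [hg, h2]
  have hgLip : ∀ c, Icc c (c + 1) ⊆ Icc α (α + L) → UnitCurve (Real.toNNReal (2 * κ)) g c := by
    intro c hc
    refine LipschitzOnWith.of_dist_le_mul ?_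
    intro x hx y hy
    rw [Real.coe_toNNReal _ (by positivity), Real.dist_eq, Real.dist_eq]
    obtain ⟨h1, h2⟩ := hginv x (hc hx)
    obtain ⟨h3, h4⟩ := hginv y (hc hy)
    have h5 := h.le_dist (convex_Icc a b) h3 h1
    rw [h2, h4] at h5
    have h6 := hψ _ h1 _ h3
    simp only [hg]
    refine h6.trans ?_
    have h7 : |lam| * |Function.invFunOn φ (Icc a b) x - Function.invFunOn φ (Icc a b) y| ≤
        2 * |x - y| := by
      have : (1 / 2 : ℝ) * (|lam| * |Function.invFunOn φ (Icc a b) x -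
          Function.invFunOn φ (Icc a b) y|) ≤ |x - y| := by
        refine le_trans ?_ h5
        rw [mul_assoc]
        gcongr
        linarith
      linarith
    calc κ * |lam| * |Function.invFunOn φ (Icc a b) x - Function.invFunOn φ (Icc a b) y|
        = κ * (|lam| * |Function.invFunOn φ (Icc a b) x - Function.invFunOn φ (Icc a b) y|) := by
          ring
      _ ≤ κ * (2 * |x - y|) := by gcongr
      _ = 2 * κ * |x - y| := by ring
  -- the image of `T`
  have hL0 : 0 ≤ L := abs_nonneg _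
  set N : ℕ := ⌊L⌋₊ with hN
  have hN1 : (N : ℝ) ≤ L := Nat.floor_le hL0
  have hN2 : L < N + 1 := Nat.lt_floor_add_one L
  have himT : φ '' T ⊆ (⋃ j ∈ Finset.range N, {x | x ∈ Icc (α + j) (α + j + 1) ∧ (g x, x) ∈ E}) ∪
      Icc (α + N) (α + N + 1) := by
    rintro _ ⟨t, ht, rfl⟩
    have h1 : φ t ∈ Icc α (α + L) := by rw [← himg]; exact ⟨t, ht.1, rfl⟩
    have h2 : (g (φ t), φ t) ∈ E := by rw [hgφ t ht.1]; exact ht.2
    by_cases h3 : φ t < α + N
    · left
      simp only [mem_iUnion, Finset.mem_range, exists_prop]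
      have h4 : 0 ≤ φ t - α := by linarith [h1.1]
      refine ⟨⌊φ t - α⌋₊, ?_, ⟨?_, ?_⟩, h2⟩
      · have : (⌊φ t - α⌋₊ : ℝ) < N := by
          have := Nat.floor_le h4
          linarith
        exact_mod_cast this
      · linarith [Nat.floor_le h4]
      · linarith [Nat.lt_floor_add_one (φ t - α)]
    · right
      push Not at h3
      exact ⟨h3, by linarith [h1.2]⟩
  have hvolim : volume (φ '' T) ≤ ENNReal.ofReal (L * ε + 1) := by
    calc volume (φ '' T)
        ≤ volume ((⋃ j ∈ Finset.range N, {x | x ∈ Icc (α + j) (α + j + 1) ∧ (g x, x) ∈ E}) ∪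
          Icc (α + N) (α + N + 1)) := measure_mono himT
      _ ≤ volume (⋃ j ∈ Finset.range N, {x | x ∈ Icc (α + j) (α + j + 1) ∧ (g x, x) ∈ E}) +
          volume (Icc (α + N) (α + N + 1)) := measure_union_le _ _
      _ ≤ ∑ j ∈ Finset.range N, volume {x | x ∈ Icc (α + j) (α + j + 1) ∧ (g x, x) ∈ E} +
          ENNReal.ofReal 1 := by
          refine add_le_add (measure_biUnion_finset_le _ _) ?_
          rw [Real.volume_Icc]
          exact ENNReal.ofReal_le_ofReal (by linarith)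
      _ ≤ ∑ j ∈ Finset.range N, ENNReal.ofReal ε + ENNReal.ofReal 1 := by
          refine add_le_add (Finset.sum_le_sum ?_) le_rfl
          intro j hj
          refine hUC g (α + j) (hgLip _ ?_)
          have hj' : (j : ℝ) + 1 ≤ N := by exact_mod_cast Finset.mem_range.1 hj
          intro x hx
          exact ⟨by linarith [hx.1, (Nat.cast_nonneg j : (0 : ℝ) ≤ j)], by linarith [hx.2]⟩
      _ = ENNReal.ofReal (N * ε + 1) := by
          rw [Finset.sum_const, Finset.card_range, nsmul_eq_mul,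
            ENNReal.ofReal_add (by positivity) zero_le_one, ENNReal.ofReal_mul (by positivity),
            ENNReal.ofReal_natCast]
      _ ≤ ENNReal.ofReal (L * ε + 1) := ENNReal.ofReal_le_ofReal (by nlinarith)
  have hmain := (h.measure_le_image (convex_Icc a b) hl (by linarith : η < 1) hTm hTs).trans hvolim
  have hLle : L ≤ (1 + η) * |lam| * (b - a) := by
    have := h.dist_le (convex_Icc a b) (left_mem_Icc.2 hab) (right_mem_Icc.2 hab)
    rwa [abs_of_nonneg (sub_nonneg.2 hab)] at this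
  have hc : 0 < (1 - η) * |lam| := mul_pos (by linarith) hlp
  have hc' : ENNReal.ofReal ((1 - η) * |lam|) ≠ 0 := by simpa using hc
  have h2 : volume T ≤ ENNReal.ofReal (L * ε + 1) / ENNReal.ofReal ((1 - η) * |lam|) := by
    rw [ENNReal.le_div_iff_mul_le (Or.inl hc') (Or.inl ENNReal.ofReal_ne_top), mul_comm]
    exact hmain
  refine h2.trans ?_
  rw [← ENNReal.ofReal_div_of_pos hc]
  refine ENNReal.ofReal_le_ofReal ?_
  rw [div_le_iff₀ hc]
  have hba : 0 ≤ b - a := sub_nonneg.2 hab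
  have h3 : L * ε ≤ 5 / 4 * |lam| * (b - a) * ε := by
    have : (1 + η) * |lam| * (b - a) ≤ 5 / 4 * |lam| * (b - a) := by gcongr; linarith
    exact mul_le_mul_of_nonneg_right (hLle.trans this) hε
  have h4 : (2 * ε * (b - a) + 2 / |lam|) * (3 / 4 * |lam|) ≤
      (2 * ε * (b - a) + 2 / |lam|) * ((1 - η) * |lam|) := by
    gcongr
    linarith
  have h5 : (2 * ε * (b - a) + 2 / |lam|) * (3 / 4 * |lam|) =
      3 / 2 * (|lam| * (b - a) * ε) + 3 / 2 := by field_simp; ring
  have h6 : 0 ≤ |lam| * (b - a) * ε := by positivity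
  nlinarith

set_option maxHeartbeats 1600000 in
/-- **Lap transfer**: a nearly affine curve of length `≥ δ`, one step later. -/
theorem lap_transfer {k : ℝ} (hk : 1 ≤ k) {t₀ r : ℝ} (hr : 0 < r) {Y D : ℕ → ℝ → ℝ}
    (h : RO k (Icc (t₀ - r) (t₀ + r)) Y D) {M : ℕ} {η₁ δ w A : ℝ} (hη₁ : 0 ≤ η₁) (hη₁' : η₁ ≤ 1 / 20)
    (hδ : 0 < δ) (hw : 0 < w) (hwδ : w ≤ δ) (hδ1 : δ ≤ 1) (hA40 : 80 ≤ A) (hζ : 44 * k * w ≤ A / 40)
    (hNA : NearAff (Y (M + 1)) (D (M + 1)) (Icc (t₀ - r) (t₀ + r)) (D (M + 1) t₀) η₁)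
    (hσ : ∀ t ∈ Icc (t₀ - r) (t₀ + r), |D M t| ≤ 1 / 4 * |D (M + 1) t₀|)
    (hsize : δ ≤ |D (M + 1) t₀| * r)
    {E : Set (ℝ × ℝ)} (hE : MeasurableSet E) {ε : ℝ} (hε : 0 ≤ ε)
    (hUC : UCBound (Real.toNNReal (2 * (5 / A))) E ε) :
    volume {t | t ∈ Icc (t₀ - r) (t₀ + r) ∧ (Y (M + 1) t, Y (M + 2) t) ∈ E} ≤
      ENNReal.ofReal (2 * r * (2 * ε + 16 / (A * w) + 8 * A / (k * δ))) := by
  classical
  have hA0 : 0 < A := by linarith
  have hk0 : 0 < k := by linarith
  set s := Icc (t₀ - r) (t₀ + r) with hs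
  have ht₀ : t₀ ∈ s := ⟨by linarith, by linarith⟩
  set lam := |D (M + 1) t₀| with hlam
  have hlam0 : 0 < lam := by
    by_contra hcon
    push Not at hcon
    have : lam * r ≤ 0 := mul_nonpos_of_nonpos_of_nonneg hcon hr.le
    linarith
  have hDne : D (M + 1) t₀ ≠ 0 := abs_pos.1 hlam0
  -- number of pieces
  set N : ℕ := ⌈2 * r * lam / w⌉₊ with hN
  have hNpos : 0 < N := Nat.ceil_pos.2 (by positivity)
  have hNr : (0 : ℝ) < N := by exact_mod_cast hNpos
  have hN1 : 2 * r * lam / w ≤ N := Nat.le_ceil _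
  have hN2 : (N : ℝ) < 2 * r * lam / w + 1 := Nat.ceil_lt_add_one (by positivity)
  have hbig : 1 ≤ 2 * r * lam / w := by
    rw [le_div_iff₀ hw]; nlinarith
  set p : ℝ := 2 * r / N with hp
  have hp0 : 0 < p := by positivity
  have hpw : lam * p ≤ w := by
    rw [hp, mul_div_assoc', div_le_iff₀ hNr]
    rw [div_le_iff₀ hw] at hN1
    linarith
  have hpw2 : w ≤ 2 * (lam * p) := by
    have : (N : ℝ) ≤ 2 * (2 * r * lam / w) := by linarith
    rw [hp, mul_div_assoc', mul_div_assoc', le_div_iff₀ hNr]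
    have h1 : w * N ≤ w * (2 * (2 * r * lam / w)) := by gcongr
    have h2 : w * (2 * (2 * r * lam / w)) = 4 * r * lam := by field_simp; ring
    linarith
  set a : ℕ → ℝ := fun i => t₀ - r + i * p with ha
  have haN : a N = t₀ + r := by
    simp only [ha, hp]; field_simp; ring
  have hpiece : ∀ i < N, Icc (a i) (a (i + 1)) ⊆ s := by
    intro i hi x hx
    have h1 : (i : ℝ) + 1 ≤ N := by exact_mod_cast hi
    have h2 : a (i + 1) ≤ a N := by
      simp only [ha]; push_cast
      have : ((i : ℝ) + 1) * p ≤ N * p := by gcongr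
      linarith
    have h3 : t₀ - r ≤ a i := by
      simp only [ha]
      have : 0 ≤ (i : ℝ) * p := by positivity
      linarith
    exact ⟨h3.trans hx.1, (hx.2.trans h2).trans haN.le⟩
  have hai1 : ∀ i : ℕ, a (i + 1) = a i + p := by
    intro i; simp only [ha]; push_cast; ring
  have haile : ∀ i : ℕ, a i ≤ a (i + 1) := fun i => by rw [hai1]; linarith
  have hcover : s ⊆ ⋃ i ∈ Finset.range N, Icc (a i) (a (i + 1)) := by
    intro x hx
    simp only [mem_iUnion, Finset.mem_range, exists_prop]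
    rcases eq_or_lt_of_le hx.2 with h1 | h1
    · refine ⟨N - 1, by omega, ?_, ?_⟩
      · rw [h1, ← haN]
        have : a (N - 1 + 1) = a N := by congr 1; omega
        rw [← this]; exact haile _
      · rw [h1, ← haN]
        have : a (N - 1 + 1) = a N := by congr 1; omega
        rw [this]
    · have h2 : 0 ≤ (x - (t₀ - r)) / p := div_nonneg (by linarith [hx.1]) hp0.le
      refine ⟨⌊(x - (t₀ - r)) / p⌋₊, ?_, ?_, ?_⟩
      · have h3 : (⌊(x - (t₀ - r)) / p⌋₊ : ℝ) ≤ (x - (t₀ - r)) / p := Nat.floor_le h2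
        have h4 : (x - (t₀ - r)) / p < N := by
          rw [div_lt_iff₀ hp0]
          have : (N : ℝ) * p = 2 * r := by rw [hp]; field_simp
          rw [this]; linarith
        exact_mod_cast lt_of_le_of_lt h3 h4
      · have h3 : (⌊(x - (t₀ - r)) / p⌋₊ : ℝ) ≤ (x - (t₀ - r)) / p := Nat.floor_le h2
        simp only [ha]
        rw [le_div_iff₀ hp0] at h3
        linarith
      · have h3 := Nat.lt_floor_add_one ((x - (t₀ - r)) / p)
        simp only [ha]; push_cast
        rw [div_lt_iff₀ hp0] at h3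
        linarith
  have hDt : ∀ t ∈ s, |D (M + 1) t| ≤ 21 / 20 * lam := by
    intro t ht
    refine (hNA.abs_le ht).trans ?_
    gcongr; linarith
  have hDt' : ∀ t ∈ s, 19 / 20 * lam ≤ |D (M + 1) t| := by
    intro t ht
    refine le_trans ?_ (hNA.le_abs ht)
    gcongr; linarith
  have hYt : ∀ t ∈ s, ∀ u ∈ s, |Y (M + 1) t - Y (M + 1) u| ≤ 21 / 20 * lam * |t - u| := by
    intro t ht u hu
    have := hNA.dist_le (convex_Icc _ _) hu ht
    refine this.trans ?_
    gcongr; linarith
  have hVvar : ∀ i < N, ∀ t ∈ Icc (a i) (a (i + 1)),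
      |Vr k (Y (M + 1) t) - Vr k (Y (M + 1) (a i))| ≤ 44 * k * w := by
    intro i hi t ht
    have h1 := abs_Vr_sub_le hk0.le (Y (M + 1) t) (Y (M + 1) (a i))
    have h2 := hYt t (hpiece i hi ht) (a i) (hpiece i hi (left_mem_Icc.2 (haile i)))
    have h3 : |t - a i| ≤ p := by
      rw [abs_of_nonneg (by linarith [ht.1])]
      have := ht.2; rw [hai1] at this; linarith
    calc _ ≤ 40 * k * |Y (M + 1) t - Y (M + 1) (a i)| := h1
      _ ≤ 40 * k * (21 / 20 * lam * p) := by
          refine mul_le_mul_of_nonneg_left (h2.trans ?_) (by positivity)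
          gcongr
      _ = 42 * k * (lam * p) := by ring
      _ ≤ 42 * k * w := by gcongr
      _ ≤ 44 * k * w := by nlinarith [mul_pos hk0 hw]
  -- good pieces
  have hgood : ∀ i < N, A ≤ |Vr k (Y (M + 1) (a i))| →
      volume {t | t ∈ Icc (a i) (a (i + 1)) ∧ (Y (M + 1) t, Y (M + 2) t) ∈ E} ≤
        ENNReal.ofReal ((2 * ε + 16 / (A * w)) * p) := by
    intro i hi hAi
    have hsub := hpiece i hi
    have hai : a i ∈ Icc (a i) (a (i + 1)) := left_mem_Icc.2 (haile i)
    have hRO := h.mono hsub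
    have hlami : 19 / 20 * lam ≤ |D (M + 1) (a i)| := hDt' _ (hsub hai)
    have hNAi : NearAff (Y (M + 1)) (D (M + 1)) (Icc (a i) (a (i + 1))) (D (M + 1) (a i)) (3 * η₁) := by
      refine ⟨fun t ht => hRO.deriv _ t ht, ?_⟩
      intro t ht
      have h1 := hNA.close t (hsub ht)
      have h2 := hNA.close (a i) (hsub hai)
      have h3 : |D (M + 1) t - D (M + 1) (a i)| ≤ η₁ * lam + η₁ * lam := by
        have : D (M + 1) t - D (M + 1) (a i) =
            (D (M + 1) t - D (M + 1) t₀) - (D (M + 1) (a i) - D (M + 1) t₀) := by ring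
        rw [this]
        exact (abs_sub _ _).trans (add_le_add h1 h2)
      have h4 : η₁ * (19 / 20 * lam) ≤ η₁ * |D (M + 1) (a i)| := by gcongr
      have h5 : 0 ≤ η₁ * lam := by positivity
      linarith
    have hV0 : 0 < |Vr k (Y (M + 1) (a i))| := by linarith
    have hstep := step hRO hai (n := M) (η := 3 * η₁) (ζ := 1 / 40) (A := A) hNAi (by positivity)
      (by linarith) (by
        intro t ht
        have := hσ t (hsub ht)
        linarith) (by linarith) hAi (by
        intro t ht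
        have h1 := hVvar i hi t ht
        have h2 : A / 40 ≤ 1 / 40 * |Vr k (Y (M + 1) (a i))| := by linarith
        linarith)
    have hη2 : 1.1 * (3 * η₁ + 2 * (1 / 40) + 2 / A) ≤ (1 / 4 : ℝ) := by
      have : 2 / A ≤ 1 / 40 := by
        rw [div_le_div_iff₀ hA0 (by norm_num)]; linarith
      linarith
    have hlam2 : A / 2 * (19 / 20 * lam) ≤ |D (M + 2) (a i)| := by
      refine le_trans ?_ hstep.2.2
      gcongr
    have hlam2pos : 0 < |D (M + 2) (a i)| := lt_of_lt_of_le (by positivity) hlam2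
    have hpt := piece_transfer (φ := Y (M + 2)) (φ' := D (M + 2)) (ψ := Y (M + 1)) (haile i)
      (hstep.1.weaken hη2) (abs_pos.1 hlam2pos) le_rfl (κ := 5 / A) (by positivity) (by
        intro t ht u hu
        have h1 : |Y (M + 1) t - Y (M + 1) u| ≤ 21 / 20 * lam * |t - u| :=
          hYt t (hsub ht) u (hsub hu)
        refine h1.trans ?_
        have h2 : 21 / 20 * lam ≤ 5 / A * |D (M + 2) (a i)| := by
          calc 21 / 20 * lam ≤ 5 / A * (A / 2 * (19 / 20 * lam)) := by
                have : 5 / A * (A / 2 * (19 / 20 * lam)) = 95 / 40 * lam := by field_simp; ring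
                rw [this]; linarith
            _ ≤ _ := by gcongr
        gcongr) hE hε hUC
    refine hpt.trans (ENNReal.ofReal_le_ofReal ?_)
    have h1 : a (i + 1) - a i = p := by rw [hai1]; ring
    rw [h1]
    have h2 : 2 / |D (M + 2) (a i)| ≤ 16 / (A * w) * p := by
      calc 2 / |D (M + 2) (a i)| ≤ 2 / (A / 2 * (19 / 20 * lam)) := by gcongr
        _ = 80 / 19 / (A * lam) := by field_simp; ring
        _ ≤ 16 / (A * w) * p := by
            rw [div_mul_eq_mul_div, div_le_div_iff₀ (by positivity) (by positivity)]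
            have : 80 / 19 * (A * w) ≤ 80 / 19 * (A * (2 * (lam * p))) := by gcongr
            nlinarith [mul_pos hA0 (mul_pos hlam0 hp0)]
    nlinarith
  -- bad pieces
  have hbad : volume {t | t ∈ s ∧ |Vr k (Y (M + 1) t)| ≤ 2 * A} ≤
      ENNReal.ofReal (2 * r * (8 * A / (k * δ))) := by
    have hV : Measurable (Vr k) := by
      unfold Vr; fun_prop
    have hms : MeasurableSet {x : ℝ | |Vr k x| ≤ 2 * A} :=
      measurableSet_le hV.abs measurable_const
    have hper : ∀ x, x ∈ {x : ℝ | |Vr k x| ≤ 2 * A} ↔ x + 1 ∈ {x : ℝ | |Vr k x| ≤ 2 * A} := by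
      intro x; simp only [mem_ofPred_eq, Vr_add_one]
    have h1 := hNA.equidistribution (by linarith : t₀ - r < t₀ + r) hDne (by linarith : η₁ < 1)
      hms hper
    have h2 := volume_Vr_small hk (r := 2 * A) (by positivity)
    have h3 : {t | t ∈ s ∧ |Vr k (Y (M + 1) t)| ≤ 2 * A} =
        Icc (t₀ - r) (t₀ + r) ∩ Y (M + 1) ⁻¹' {x : ℝ | |Vr k x| ≤ 2 * A} := by
      ext t; simp [hs]
    rw [h3]
    refine h1.trans ((mul_le_mul_of_nonneg_left h2 (by positivity)).trans ?_)
    rw [← ENNReal.ofReal_mul (by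
      refine div_nonneg ?_ ?_
      · have : 0 ≤ (1 + η₁) * |D (M + 1) t₀| * (t₀ + r - (t₀ - r)) :=
          mul_nonneg (by positivity) (by linarith)
        linarith
      · exact mul_nonneg (by linarith) (abs_nonneg _))]
    refine ENNReal.ofReal_le_ofReal ?_
    have hden : 0 < (1 - η₁) * lam := mul_pos (by linarith) hlam0
    have h4 : ((1 + η₁) * lam * (t₀ + r - (t₀ - r)) + 1) / ((1 - η₁) * lam) ≤ 8 * r / δ := by
      rw [div_le_div_iff₀ hden hδ]
      have e : t₀ + r - (t₀ - r) = 2 * r := by ring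
      rw [e]
      have h5 : (1 + η₁) * lam * (2 * r) + 1 ≤ 21 / 10 * (lam * r) + 1 := by
        have : (1 + η₁) * lam * (2 * r) ≤ 21 / 20 * lam * (2 * r) := by gcongr; linarith
        linarith
      have h6 : 8 * r * (19 / 20 * lam) ≤ 8 * r * ((1 - η₁) * lam) := by gcongr; linarith
      have h7 : (21 / 10 * (lam * r) + 1) * δ ≤ 8 * r * (19 / 20 * lam) := by
        have h8 : (lam * r) * δ ≤ lam * r * 1 := by gcongr
        nlinarith
      calc ((1 + η₁) * lam * (2 * r) + 1) * δ ≤ (21 / 10 * (lam * r) + 1) * δ := by gcongr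
        _ ≤ _ := h7.trans h6
    calc ((1 + η₁) * |D (M + 1) t₀| * (t₀ + r - (t₀ - r)) + 1) / ((1 - η₁) * |D (M + 1) t₀|) *
          (2 * A / k) ≤ 8 * r / δ * (2 * A / k) := by gcongr
      _ = 2 * r * (8 * A / (k * δ)) := by field_simp
  -- conclusion
  set G : Finset ℕ := (Finset.range N).filter (fun i => A ≤ |Vr k (Y (M + 1) (a i))|) with hG
  have hfin : {t | t ∈ s ∧ (Y (M + 1) t, Y (M + 2) t) ∈ E} ⊆
      (⋃ i ∈ G, {t | t ∈ Icc (a i) (a (i + 1)) ∧ (Y (M + 1) t, Y (M + 2) t) ∈ E}) ∪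
      {t | t ∈ s ∧ |Vr k (Y (M + 1) t)| ≤ 2 * A} := by
    rintro t ⟨hts, htE⟩
    have h1 := hcover hts
    simp only [mem_iUnion, Finset.mem_range, exists_prop] at h1
    obtain ⟨i, hi, hti⟩ := h1
    by_cases hAi : A ≤ |Vr k (Y (M + 1) (a i))|
    · left
      simp only [mem_iUnion, exists_prop]
      exact ⟨i, Finset.mem_filter.2 ⟨Finset.mem_range.2 hi, hAi⟩, hti, htE⟩
    · right
      push Not at hAi
      refine ⟨hts, ?_⟩
      have h2 := hVvar i hi t hti
      have h3 : |Vr k (Y (M + 1) t)| ≤ |Vr k (Y (M + 1) t) - Vr k (Y (M + 1) (a i))| +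
          |Vr k (Y (M + 1) (a i))| := by
        calc |Vr k (Y (M + 1) t)| = |(Vr k (Y (M + 1) t) - Vr k (Y (M + 1) (a i))) +
              Vr k (Y (M + 1) (a i))| := by ring_nf
          _ ≤ _ := abs_add_le _ _
      linarith
  calc volume {t | t ∈ s ∧ (Y (M + 1) t, Y (M + 2) t) ∈ E}
      ≤ volume ((⋃ i ∈ G, {t | t ∈ Icc (a i) (a (i + 1)) ∧ (Y (M + 1) t, Y (M + 2) t) ∈ E}) ∪
        {t | t ∈ s ∧ |Vr k (Y (M + 1) t)| ≤ 2 * A}) := measure_mono hfin
    _ ≤ volume (⋃ i ∈ G, {t | t ∈ Icc (a i) (a (i + 1)) ∧ (Y (M + 1) t, Y (M + 2) t) ∈ E}) +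
        volume {t | t ∈ s ∧ |Vr k (Y (M + 1) t)| ≤ 2 * A} := measure_union_le _ _
    _ ≤ ∑ i ∈ G, ENNReal.ofReal ((2 * ε + 16 / (A * w)) * p) +
        ENNReal.ofReal (2 * r * (8 * A / (k * δ))) := by
        refine add_le_add ((measure_biUnion_finset_le _ _).trans (Finset.sum_le_sum ?_)) hbad
        intro i hi
        obtain ⟨h1, h2⟩ := Finset.mem_filter.1 hi
        exact hgood i (Finset.mem_range.1 h1) h2
    _ ≤ ENNReal.ofReal (N * ((2 * ε + 16 / (A * w)) * p)) +
        ENNReal.ofReal (2 * r * (8 * A / (k * δ))) := by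
        refine add_le_add ?_ le_rfl
        rw [Finset.sum_const, nsmul_eq_mul, ENNReal.ofReal_mul (p := (N : ℝ)) (by positivity),
          ENNReal.ofReal_natCast]
        gcongr
        calc G.card ≤ (Finset.range N).card := Finset.card_filter_le _ _
          _ = N := Finset.card_range N
    _ = ENNReal.ofReal (2 * r * (2 * ε + 16 / (A * w) + 8 * A / (k * δ))) := by
        rw [← ENNReal.ofReal_add (by positivity) (by positivity)]
        congr 1
        have : (N : ℝ) * p = 2 * r := by rw [hp]; field_simp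
        calc (N : ℝ) * ((2 * ε + 16 / (A * w)) * p) + 2 * r * (8 * A / (k * δ))
            = (N * p) * (2 * ε + 16 / (A * w)) + 2 * r * (8 * A / (k * δ)) := by ring
          _ = _ := by rw [this]; ring

end Crest.Agent.R128.Fresh
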