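import Crest.Agent.R128.CellA2
import Crest.Agent.R128.Near

/-!
# Fresh cells: from an exit curve of small size to full laps (row 128, label P1)

`RO k s Y D`: a family of real orbits `Y n t` with derivatives `D n t` on the interval `s`.
-/

set_option autoImplicit false

open Set MeasureTheory
open scoped NNReal ENNReal

namespace Crest.Agent.R128.Fresh

open Crest.Agent.R128.CellA

/-- real digit -/
noncomputable def Vr (k x : ℝ) : ℝ := 2 + 2 * Real.pi * k * Real.cos (2 * Real.pi * x)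

theorem Vr_add_one (k x : ℝ) : Vr k (x + 1) = Vr k x := by
  unfold Vr
  rw [show 2 * Real.pi * (x + 1) = 2 * Real.pi * x + 2 * Real.pi by ring, Real.cos_add_two_pi]

theorem abs_Vr_le {k : ℝ} (hk : 1 ≤ k) (x : ℝ) : |Vr k x| ≤ 10 * k := by
  unfold Vr
  have h1 := Real.abs_cos_le_one (2 * Real.pi * x)
  have h2 := Real.pi_lt_d2
  have h3 := Real.pi_pos
  have h4 : |2 * Real.pi * k * Real.cos (2 * Real.pi * x)| ≤ 2 * Real.pi * k := by
    rw [abs_mul, abs_of_nonneg (by positivity : 0 ≤ 2 * Real.pi * k)]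
    exact mul_le_of_le_one_right (by positivity) h1
  calc |2 + 2 * Real.pi * k * Real.cos (2 * Real.pi * x)|
      ≤ |(2 : ℝ)| + |2 * Real.pi * k * Real.cos (2 * Real.pi * x)| := abs_add_le _ _
    _ ≤ 2 + 2 * Real.pi * k := by rw [abs_of_pos (by norm_num : (0 : ℝ) < 2)]; linarith
    _ ≤ 10 * k := by nlinarith

theorem abs_Vr_sub_le {k : ℝ} (hk : 0 ≤ k) (x y : ℝ) : |Vr k x - Vr k y| ≤ 40 * k * |x - y| := by
  unfold Vr
  have h2 := Real.pi_lt_d2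
  have h3 := Real.pi_pos
  have e : 2 + 2 * Real.pi * k * Real.cos (2 * Real.pi * x) -
      (2 + 2 * Real.pi * k * Real.cos (2 * Real.pi * y)) =
      2 * Real.pi * k * (Real.cos (2 * Real.pi * x) - Real.cos (2 * Real.pi * y)) := by ring
  rw [e, abs_mul, abs_of_nonneg (by positivity : 0 ≤ 2 * Real.pi * k)]
  have h4 : |Real.cos (2 * Real.pi * x) - Real.cos (2 * Real.pi * y)| ≤
      |2 * Real.pi * x - 2 * Real.pi * y| := Real.abs_cos_sub_cos_le _ _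
  have h5 : |2 * Real.pi * x - 2 * Real.pi * y| = 2 * Real.pi * |x - y| := by
    rw [← mul_sub, abs_mul, abs_of_pos (by positivity : 0 < 2 * Real.pi)]
  rw [h5] at h4
  have h6 : Real.pi ^ 2 ≤ 10 := by nlinarith
  calc 2 * Real.pi * k * |Real.cos (2 * Real.pi * x) - Real.cos (2 * Real.pi * y)|
      ≤ 2 * Real.pi * k * (2 * Real.pi * |x - y|) := by gcongr
    _ = 4 * Real.pi ^ 2 * (k * |x - y|) := by ring
    _ ≤ 4 * 10 * (k * |x - y|) := by gcongr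
    _ = 40 * k * |x - y| := by ring

/-- near critical positions have small measure -/
theorem volume_Vr_small {k : ℝ} (hk : 1 ≤ k) {r : ℝ} (hr : 0 ≤ r) :
    volume ({x : ℝ | |Vr k x| ≤ r} ∩ Ico 0 1) ≤ ENNReal.ofReal (r / k) := by
  have h := volume_V_lin hk (s := 0) (by simpa using (by linarith : (0 : ℝ) ≤ k)) hr
  simp only [sub_zero] at h
  have hms : MeasurableSet {x : UnitAddCircle | |V k x| ≤ r} := by
    refine measurableSet_le ?_ measurable_const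
    have hcont : Continuous fun x : UnitAddCircle => V k x := by
      unfold V
      have : Continuous fun x : UnitAddCircle => (AddCircle.toCircle x : ℂ).re :=
        Complex.continuous_re.comp (continuous_subtype_val.comp AddCircle.continuous_toCircle)
      fun_prop
    exact hcont.abs.measurable
  have hmp := UnitAddCircle.measurePreserving_mk 0
  rw [zero_add] at hmp
  have h1 := hmp.measure_preimage hms.nullMeasurableSet
  rw [Measure.restrict_apply (hmp.measurable hms)] at h1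
  rw [← h1] at h
  have hsub : {x : ℝ | |Vr k x| ≤ r} ∩ Ico 0 1 ⊆
      (((fun x : ℝ => (x : UnitAddCircle)) ⁻¹' {x : UnitAddCircle | |V k x| ≤ r}) ∩ Ioc 0 1) ∪ {0} := by
    rintro x ⟨hx1, hx2⟩
    rcases eq_or_lt_of_le hx2.1 with h0 | h0
    · right; simp [← h0]
    · left
      refine ⟨?_, h0, hx2.2.le⟩
      simp only [mem_preimage, mem_ofPred_eq, V_coe]
      exact hx1
  calc volume ({x : ℝ | |Vr k x| ≤ r} ∩ Ico 0 1)
      ≤ volume ((((fun x : ℝ => (x : UnitAddCircle)) ⁻¹' {x : UnitAddCircle | |V k x| ≤ r}) ∩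
          Ioc 0 1) ∪ {0}) := measure_mono hsub
    _ ≤ volume (((fun x : ℝ => (x : UnitAddCircle)) ⁻¹' {x : UnitAddCircle | |V k x| ≤ r}) ∩
          Ioc 0 1) + volume {(0 : ℝ)} := measure_union_le _ _
    _ ≤ ENNReal.ofReal (r / k) := by
        rw [Real.volume_singleton, add_zero]; exact h

/-- a family of real orbits with derivatives -/
structure RO (k : ℝ) (s : Set ℝ) (Y D : ℕ → ℝ → ℝ) : Prop where
  deriv : ∀ n, ∀ t ∈ s, HasDerivWithinAt (Y n) (D n t) s t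
  step : ∀ n, ∀ t ∈ s, D (n + 2) t = Vr k (Y (n + 1) t) * D (n + 1) t - D n t

theorem RO.mono {k : ℝ} {s s' : Set ℝ} {Y D : ℕ → ℝ → ℝ} (h : RO k s Y D) (hs : s' ⊆ s) :
    RO k s' Y D :=
  ⟨fun n t ht => (h.deriv n t (hs ht)).mono hs, fun n t ht => h.step n t (hs ht)⟩

theorem _root_.Crest.Agent.R128.CellA.NearAff.mono {φ φ' : ℝ → ℝ} {s s' : Set ℝ} {lam η : ℝ}
    (h : NearAff φ φ' s lam η) (hs : s' ⊆ s) : NearAff φ φ' s' lam η :=
  ⟨fun t ht => (h.deriv t (hs ht)).mono hs, fun t ht => h.close t (hs ht)⟩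

/-- One regular step. -/
theorem step {k : ℝ} {s : Set ℝ} {Y D : ℕ → ℝ → ℝ} (h : RO k s Y D) {t₀ : ℝ} (ht₀ : t₀ ∈ s)
    {n : ℕ} {η ζ A : ℝ} (hNA : NearAff (Y (n + 1)) (D (n + 1)) s (D (n + 1) t₀) η) (hη0 : 0 ≤ η)
    (hη : η ≤ 1) (hσ : ∀ t ∈ s, |D n t| ≤ |D (n + 1) t₀|) (hA20 : 22 ≤ A)
    (hA : A ≤ |Vr k (Y (n + 1) t₀)|)
    (hζ : ∀ t ∈ s, |Vr k (Y (n + 1) t) - Vr k (Y (n + 1) t₀)| ≤ ζ * |Vr k (Y (n + 1) t₀)|) :
    NearAff (Y (n + 2)) (D (n + 2)) s (D (n + 2) t₀) (1.1 * (η + 2 * ζ + 2 / A)) ∧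
      (∀ t ∈ s, |D (n + 1) t| ≤ 4 / A * |D (n + 2) t₀|) ∧
      A / 2 * |D (n + 1) t₀| ≤ |D (n + 2) t₀| := by
  set a := |Vr k (Y (n + 1) t₀)| with ha
  set d := |D (n + 1) t₀| with hd
  have hd0 : 0 ≤ d := abs_nonneg _
  have ha0 : 0 < a := by linarith
  have hζ0 : 0 ≤ ζ := by
    have := hζ t₀ ht₀
    rw [sub_self, abs_zero] at this
    by_contra hcon
    push Not at hcon
    have := mul_neg_of_neg_of_pos hcon ha0
    linarith
  have hlow : (a - 1) * d ≤ |D (n + 2) t₀| := by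
    rw [h.step n t₀ ht₀]
    have h1 : |Vr k (Y (n + 1) t₀) * D (n + 1) t₀| = a * d := abs_mul _ _
    have h2 := abs_sub_abs_le_abs_sub (Vr k (Y (n + 1) t₀) * D (n + 1) t₀) (D n t₀)
    have h3 := hσ t₀ ht₀
    rw [h1] at h2
    linarith
  have hup : ∀ t ∈ s, |D (n + 1) t| ≤ 2 * d := by
    intro t ht
    have h1 := hNA.close t ht
    have h2 : |D (n + 1) t| ≤ |D (n + 1) t - D (n + 1) t₀| + |D (n + 1) t₀| := by
      have : D (n + 1) t = (D (n + 1) t - D (n + 1) t₀) + D (n + 1) t₀ := by ring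
      calc |D (n + 1) t| = |(D (n + 1) t - D (n + 1) t₀) + D (n + 1) t₀| := by rw [← this]
        _ ≤ _ := abs_add_le _ _
    have h3 : η * d ≤ 1 * d := by gcongr
    linarith
  refine ⟨⟨fun t ht => h.deriv _ t ht, ?_⟩, ?_, ?_⟩
  · intro t ht
    have e : D (n + 2) t - D (n + 2) t₀ =
        (Vr k (Y (n + 1) t) - Vr k (Y (n + 1) t₀)) * D (n + 1) t +
        Vr k (Y (n + 1) t₀) * (D (n + 1) t - D (n + 1) t₀) + (-(D n t) + D n t₀) := by
      rw [h.step n t ht, h.step n t₀ ht₀]; ring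
    have h1 : |(Vr k (Y (n + 1) t) - Vr k (Y (n + 1) t₀)) * D (n + 1) t| ≤ ζ * a * (2 * d) := by
      rw [abs_mul]
      exact mul_le_mul (hζ t ht) (hup t ht) (abs_nonneg _) (by positivity)
    have h2 : |Vr k (Y (n + 1) t₀) * (D (n + 1) t - D (n + 1) t₀)| ≤ a * (η * d) := by
      rw [abs_mul]
      exact mul_le_mul_of_nonneg_left (hNA.close t ht) (abs_nonneg _)
    have h3 : |-(D n t) + D n t₀| ≤ 2 * d := by
      refine (abs_add_le _ _).trans ?_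
      rw [abs_neg]
      linarith [hσ t ht, hσ t₀ ht₀]
    have h4 : |D (n + 2) t - D (n + 2) t₀| ≤ ζ * a * (2 * d) + a * (η * d) + 2 * d := by
      rw [e]
      refine (abs_add_le _ _).trans (add_le_add ((abs_add_le _ _).trans (add_le_add h1 h2)) h3)
    refine h4.trans ?_
    have h5 : ζ * a * (2 * d) + a * (η * d) + 2 * d ≤ (η + 2 * ζ + 2 / A) * (a * d) := by
      have : 2 * d ≤ 2 / A * (a * d) := by
        rw [div_mul_eq_mul_div, le_div_iff₀ (by linarith)]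
        nlinarith
      nlinarith
    refine h5.trans ?_
    have h6 : a * d ≤ 1.1 * ((a - 1) * d) := by nlinarith
    have h7 : 0 ≤ η + 2 * ζ + 2 / A := by positivity
    have h8 : a * d ≤ 1.1 * |D (n + 2) t₀| := by linarith
    calc (η + 2 * ζ + 2 / A) * (a * d) ≤ (η + 2 * ζ + 2 / A) * (1.1 * |D (n + 2) t₀|) :=
          mul_le_mul_of_nonneg_left h8 h7
      _ = 1.1 * (η + 2 * ζ + 2 / A) * |D (n + 2) t₀| := by ring
  · intro t ht
    refine (hup t ht).trans ?_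
    rw [div_mul_eq_mul_div, le_div_iff₀ (by linarith)]
    have : A / 2 * d ≤ |D (n + 2) t₀| := by nlinarith
    nlinarith
  · nlinarith

theorem _root_.Crest.Agent.R128.CellA.NearAff.weaken {φ φ' : ℝ → ℝ} {s : Set ℝ} {lam η η' : ℝ}
    (h : NearAff φ φ' s lam η) (hη : η ≤ η') : NearAff φ φ' s lam η' :=
  ⟨h.deriv, fun t ht => (h.close t ht).trans (by gcongr)⟩

theorem _root_.Crest.Agent.R128.CellA.NearAff.abs_le {φ φ' : ℝ → ℝ} {s : Set ℝ} {lam η : ℝ}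
    (h : NearAff φ φ' s lam η) {t : ℝ} (ht : t ∈ s) : |φ' t| ≤ (1 + η) * |lam| := by
  have h1 := h.close t ht
  have h2 : |φ' t| ≤ |φ' t - lam| + |lam| := by
    calc |φ' t| = |(φ' t - lam) + lam| := by ring_nf
      _ ≤ _ := abs_add_le _ _
  linarith

theorem _root_.Crest.Agent.R128.CellA.NearAff.le_abs {φ φ' : ℝ → ℝ} {s : Set ℝ} {lam η : ℝ}
    (h : NearAff φ φ' s lam η) {t : ℝ} (ht : t ∈ s) : (1 - η) * |lam| ≤ |φ' t| := by
  have h1 := h.close t ht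
  have h2 : |lam| ≤ |φ' t| + |φ' t - lam| := by
    calc |lam| = |φ' t - (φ' t - lam)| := by ring_nf
      _ ≤ _ := abs_sub _ _
  linarith

/-- Iteration of regular steps as long as the curve is shorter than `δ`. -/
theorem iter {k : ℝ} (hk : 1 ≤ k) {t₀ r : ℝ} (hr : 0 < r) {Y D : ℕ → ℝ → ℝ}
    (h : RO k (Icc (t₀ - r) (t₀ + r)) Y D) {n₀ : ℕ} {η₀ δ A : ℝ} (hη₀ : 0 ≤ η₀) (hδ : 0 ≤ δ)
    (hNA : NearAff (Y (n₀ + 1)) (D (n₀ + 1)) (Icc (t₀ - r) (t₀ + r)) (D (n₀ + 1) t₀) η₀)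
    (hσ : ∀ t ∈ Icc (t₀ - r) (t₀ + r), |D n₀ t| ≤ |D (n₀ + 1) t₀|) (hA20 : 22 ≤ A) {J : ℕ}
    (hJ : J ≤ 13) (hA : ∀ j < J, A ≤ |Vr k (Y (n₀ + 1 + j) t₀)|)
    (hsz : ∀ j < J, |D (n₀ + 1 + j) t₀| * r ≤ δ)
    (hsmall : 4 * (η₀ + 13 * (2 * (80 * k * δ / A) + 2 / A)) ≤ 1) :
    NearAff (Y (n₀ + 1 + J)) (D (n₀ + 1 + J)) (Icc (t₀ - r) (t₀ + r)) (D (n₀ + 1 + J) t₀)
      ((1.1 : ℝ) ^ J * (η₀ + J * (2 * (80 * k * δ / A) + 2 / A))) ∧
    (∀ t ∈ Icc (t₀ - r) (t₀ + r), |D (n₀ + J) t| ≤ |D (n₀ + 1 + J) t₀|) ∧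
    (0 < J → ∀ t ∈ Icc (t₀ - r) (t₀ + r), |D (n₀ + J) t| ≤ 4 / A * |D (n₀ + 1 + J) t₀|) ∧
    (A / 2) ^ J * |D (n₀ + 1) t₀| ≤ |D (n₀ + 1 + J) t₀| := by
  have hA0 : 0 < A := by linarith
  have ht₀ : t₀ ∈ Icc (t₀ - r) (t₀ + r) := ⟨by linarith, by linarith⟩
  set τ : ℝ := 2 * (80 * k * δ / A) + 2 / A with hτ
  have hτ0 : 0 ≤ τ := by positivity
  induction J with
  | zero =>
    refine ⟨by simpa using hNA, by simpa using hσ, fun h => absurd h (lt_irrefl 0), by simp⟩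
  | succ J ih =>
    obtain ⟨i1, i2, -, i4⟩ := ih (by omega) (fun j hj => hA j (by omega)) (fun j hj => hsz j (by omega))
    have hJ13 : (J : ℝ) ≤ 13 := by exact_mod_cast (by omega : J ≤ 13)
    have hpow : (1.1 : ℝ) ^ J ≤ 4 := by
      calc (1.1 : ℝ) ^ J ≤ 1.1 ^ 13 := pow_le_pow_right₀ (by norm_num) (by omega)
        _ ≤ 4 := by norm_num
    have hη0 : 0 ≤ (1.1 : ℝ) ^ J * (η₀ + J * τ) := by positivity
    have hη1 : (1.1 : ℝ) ^ J * (η₀ + J * τ) ≤ 1 := by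
      calc (1.1 : ℝ) ^ J * (η₀ + J * τ) ≤ 4 * (η₀ + 13 * τ) := by gcongr
        _ ≤ 1 := hsmall
    have hAJ := hA J (by omega)
    have hszJ := hsz J (by omega)
    have e1 : n₀ + 1 + J = (n₀ + J) + 1 := by omega
    rw [e1] at i1 i4 hAJ hszJ
    rw [e1] at i2
    have hV0 : 0 < |Vr k (Y (n₀ + J + 1) t₀)| := by linarith
    have hζ : ∀ t ∈ Icc (t₀ - r) (t₀ + r), |Vr k (Y (n₀ + J + 1) t) - Vr k (Y (n₀ + J + 1) t₀)| ≤
        80 * k * δ / A * |Vr k (Y (n₀ + J + 1) t₀)| := by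
      intro t ht
      have h1 := abs_Vr_sub_le (by linarith : 0 ≤ k) (Y (n₀ + J + 1) t) (Y (n₀ + J + 1) t₀)
      have h2 := i1.dist_le (convex_Icc _ _) ht₀ ht
      have h3 : |t - t₀| ≤ r := by rw [abs_le]; constructor <;> linarith [ht.1, ht.2]
      have h4 : |Y (n₀ + J + 1) t - Y (n₀ + J + 1) t₀| ≤ 2 * δ := by
        refine h2.trans ?_
        calc (1 + (1.1 : ℝ) ^ J * (η₀ + J * τ)) * |D (n₀ + J + 1) t₀| * |t - t₀|
            ≤ 2 * |D (n₀ + J + 1) t₀| * r := by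
              have : 1 + (1.1 : ℝ) ^ J * (η₀ + J * τ) ≤ 2 := by linarith
              gcongr
          _ = 2 * (|D (n₀ + J + 1) t₀| * r) := by ring
          _ ≤ 2 * δ := by linarith
      calc _ ≤ 40 * k * |Y (n₀ + J + 1) t - Y (n₀ + J + 1) t₀| := h1
        _ ≤ 40 * k * (2 * δ) := by gcongr
        _ = 80 * k * δ / A * A := by field_simp; ring
        _ ≤ 80 * k * δ / A * |Vr k (Y (n₀ + J + 1) t₀)| := by gcongr
    have hst := step h ht₀ (n := n₀ + J) i1 hη0 hη1 i2 hA20 hAJ hζ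
    have e2 : n₀ + 1 + (J + 1) = n₀ + J + 2 := by omega
    have e3 : n₀ + (J + 1) = n₀ + J + 1 := by omega
    rw [e2, e3]
    refine ⟨hst.1.weaken ?_, ?_, fun _ => hst.2.1, ?_⟩
    · have h1 : (1.1 : ℝ) * ((1.1 : ℝ) ^ J * (η₀ + J * τ) + 2 * (80 * k * δ / A) + 2 / A) =
          (1.1 : ℝ) ^ (J + 1) * (η₀ + J * τ) + 1.1 * τ := by rw [hτ]; ring
      rw [h1]
      have h2 : (1.1 : ℝ) * τ ≤ (1.1 : ℝ) ^ (J + 1) * τ := by
        have : (1.1 : ℝ) ≤ (1.1 : ℝ) ^ (J + 1) := by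
          calc (1.1 : ℝ) = 1.1 ^ 1 := by norm_num
            _ ≤ 1.1 ^ (J + 1) := pow_le_pow_right₀ (by norm_num) (by omega)
        gcongr
      push_cast
      nlinarith
    · intro t ht
      refine (hst.2.1 t ht).trans ?_
      have : 4 / A ≤ 1 := by rw [div_le_one hA0]; linarith
      exact mul_le_of_le_one_left (abs_nonneg _) this
    · calc (A / 2) ^ (J + 1) * |D (n₀ + 1) t₀| = A / 2 * ((A / 2) ^ J * |D (n₀ + 1) t₀|) := by ring
        _ ≤ A / 2 * |D (n₀ + J + 1) t₀| := by gcongr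
        _ ≤ _ := hst.2.2

/-- Existence of the first time at which the curve has length at least `δ`. -/
theorem exists_time {k : ℝ} (hk : 1 ≤ k) {t₀ r : ℝ} (hr : 0 < r) {Y D : ℕ → ℝ → ℝ}
    (h : RO k (Icc (t₀ - r) (t₀ + r)) Y D) {n₀ : ℕ} {η₀ δ A : ℝ} (hη₀ : 0 ≤ η₀) (hδ : 0 ≤ δ)
    (hNA : NearAff (Y (n₀ + 1)) (D (n₀ + 1)) (Icc (t₀ - r) (t₀ + r)) (D (n₀ + 1) t₀) η₀)
    (hσ : ∀ t ∈ Icc (t₀ - r) (t₀ + r), |D n₀ t| ≤ |D (n₀ + 1) t₀|) (hA20 : 22 ≤ A)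
    (hA : ∀ j < 12, A ≤ |Vr k (Y (n₀ + 1 + j) t₀)|)
    (hsmall : 4 * (η₀ + 13 * (2 * (80 * k * δ / A) + 2 / A)) ≤ 1)
    (h0 : |D (n₀ + 1) t₀| * r < δ) (h12 : δ ≤ (A / 2) ^ 12 * (|D (n₀ + 1) t₀| * r)) :
    ∃ J, 0 < J ∧ J ≤ 12 ∧ δ ≤ |D (n₀ + 1 + J) t₀| * r ∧
      NearAff (Y (n₀ + 1 + J)) (D (n₀ + 1 + J)) (Icc (t₀ - r) (t₀ + r)) (D (n₀ + 1 + J) t₀)
        (4 * (η₀ + 13 * (2 * (80 * k * δ / A) + 2 / A))) ∧
      (∀ t ∈ Icc (t₀ - r) (t₀ + r), |D (n₀ + J) t| ≤ 4 / A * |D (n₀ + 1 + J) t₀|) := by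
  classical
  have hA0 : 0 < A := by linarith
  have hex : ∃ j, j ≤ 12 ∧ δ ≤ |D (n₀ + 1 + j) t₀| * r := by
    by_contra hcon
    push Not at hcon
    have := iter hk hr h hη₀ hδ hNA hσ hA20 (J := 12) (by norm_num) hA
      (fun j hj => (hcon j (by omega)).le) hsmall
    have h1 := this.2.2.2
    have h2 := hcon 12 le_rfl
    have h3 : (A / 2) ^ 12 * (|D (n₀ + 1) t₀| * r) ≤ |D (n₀ + 1 + 12) t₀| * r := by
      calc (A / 2) ^ 12 * (|D (n₀ + 1) t₀| * r) = ((A / 2) ^ 12 * |D (n₀ + 1) t₀|) * r := by ring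
        _ ≤ _ := by gcongr
    linarith
  set J := Nat.find hex with hJ
  obtain ⟨hJ12, hJδ⟩ := Nat.find_spec hex
  rw [← hJ] at hJ12 hJδ
  have hJ0 : 0 < J := by
    rcases Nat.eq_zero_or_pos J with h | h
    · rw [h] at hJδ; simp only [add_zero] at hJδ; linarith
    · exact h
  have hmin : ∀ j < J, |D (n₀ + 1 + j) t₀| * r ≤ δ := by
    intro j hj
    have := Nat.find_min hex hj
    by_contra hcon
    push Not at hcon
    exact this ⟨by omega, hcon.le⟩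
  obtain ⟨i1, -, i3, -⟩ := iter hk hr h hη₀ hδ hNA hσ hA20 (J := J) (by omega)
    (fun j hj => hA j (by omega)) hmin hsmall
  refine ⟨J, hJ0, hJ12, hJδ, i1.weaken ?_, i3 hJ0⟩
  have hJ13 : (J : ℝ) ≤ 13 := by exact_mod_cast (by omega : J ≤ 13)
  have hpow : (1.1 : ℝ) ^ J ≤ 4 := by
    calc (1.1 : ℝ) ^ J ≤ 1.1 ^ 13 := pow_le_pow_right₀ (by norm_num) (by omega)
      _ ≤ 4 := by norm_num
  have hk0 : 0 < k := by linarith
  gcongr

/-- the unit curves used by LAM0 -/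
def UnitCurve (κ : ℝ≥0) (g : ℝ → ℝ) (a : ℝ) : Prop := LipschitzOnWith κ g (Icc a (a + 1))

end Crest.Agent.R128.Fresh
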