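import Crest.Agent.R128.Iter

/-! Row 128, node GEN (helper516): generations of largest fresh cells. Sorry free.

Dyadic cells of `Iter.lean`. `E` is an arbitrary set of points, `G t n` says that the dyadic level `n`
is fresh for `t`. `V E G n₁ n` is the union of the fresh cells (cells of level in `[n, n₁]` which
contain a point of `E` for which this level is fresh). If inside every fresh cell of level `n` the
later fresh cells (level `≥ n + g`) have total measure `≤ q |cell|`, and every point of `E` has more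
than `M g` fresh levels, then `|E ∩ cell| ≤ q ^ M |cell|`. -/

set_option autoImplicit false
open MeasureTheory Set
open scoped ENNReal

namespace Crest.Agent.R128.Gen

open Crest.Agent.R128.Iter

/-- union of the fresh cells of level in `[n, n₁]` -/
def V (E : Set ℝ) (G : ℝ → ℕ → Prop) (n₁ n : ℕ) : Set ℝ :=
  {u | ∃ n', n ≤ n' ∧ n' ≤ n₁ ∧ ∃ t ∈ E, t ∈ cell n' (idx n' u) ∧ G t n'}

theorem V_anti {E : Set ℝ} {G : ℝ → ℕ → Prop} {n₁ n n' : ℕ} (h : n ≤ n') :
    V E G n₁ n' ⊆ V E G n₁ n := by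
  rintro u ⟨p, hp, hp1, hp2⟩
  exact ⟨p, h.trans hp, hp1, hp2⟩

theorem mem_V {E : Set ℝ} {G : ℝ → ℕ → Prop} {n₁ n i : ℕ} {t : ℝ} (ht : t ∈ E)
    (h1 : n ≤ i) (h2 : i ≤ n₁) (hG : G t i) : t ∈ V E G n₁ n :=
  ⟨i, h1, h2, t, ht, mem_cell_idx i t, hG⟩

theorem V_eq_iUnion (E : Set ℝ) (G : ℝ → ℕ → Prop) (n₁ n : ℕ) :
    V E G n₁ n = ⋃ n' ∈ Finset.Icc n n₁, ⋃ m' ∈ {m' : ℤ | ∃ t ∈ E, t ∈ cell n' m' ∧ G t n'},
      cell n' m' := by
  ext u
  simp only [V, mem_ofPred_eq, mem_iUnion, Finset.mem_Icc, exists_prop]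
  constructor
  · rintro ⟨n', h1, h2, t, ht, htc, hG⟩
    exact ⟨n', ⟨h1, h2⟩, idx n' u, ⟨t, ht, htc, hG⟩, mem_cell_idx n' u⟩
  · rintro ⟨n', ⟨h1, h2⟩, m', ⟨t, ht, htc, hG⟩, hu⟩
    refine ⟨n', h1, h2, t, ht, ?_, hG⟩
    rw [(mem_cell_iff n' m' u).1 hu]
    exact htc

theorem measurableSet_V (E : Set ℝ) (G : ℝ → ℕ → Prop) (n₁ n : ℕ) :
    MeasurableSet (V E G n₁ n) := by
  rw [V_eq_iUnion]
  refine Finset.measurableSet_biUnion _ fun n' _ => ?_
  exact MeasurableSet.biUnion (to_countable _) fun m' _ => measurableSet_cell _ _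

/-- a cell is the disjoint union of its descendants `g` levels below -/
theorem sum_cells {S : Set ℝ} (hS : MeasurableSet S) (n g : ℕ) (m : ℤ) :
    ∑ m' ∈ Finset.Ico (m * 2 ^ g) ((m + 1) * 2 ^ g), volume (cell (n + g) m' ∩ S) ≤
      volume (cell n m ∩ S) := by
  rw [← measure_biUnion_finset]
  · refine measure_mono ?_
    intro u hu
    rw [mem_iUnion₂] at hu
    obtain ⟨m', hm', hu1, hu2⟩ := hu
    rw [Finset.mem_Ico] at hm'
    exact ⟨cell_subset hm'.1 hm'.2 hu1, hu2⟩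
  · intro a _ b _ hab
    exact (cell_disjoint _ hab).mono inter_subset_left inter_subset_left
  · intro m' _
    exact (measurableSet_cell _ _).inter hS

theorem cover_cells {E' : Set ℝ} {n : ℕ} (g : ℕ) {m : ℤ} (hE' : E' ⊆ cell n m) :
    E' ⊆ ⋃ m' ∈ Finset.Ico (m * 2 ^ g) ((m + 1) * 2 ^ g), (E' ∩ cell (n + g) m') := by
  intro u hu
  have hb := idx_bounds (g := g) (hE' hu)
  rw [mem_iUnion₂]
  exact ⟨idx (n + g) u, Finset.mem_Ico.2 hb, hu, mem_cell_idx _ _⟩

theorem gen {E : Set ℝ} {G : ℝ → ℕ → Prop} {g : ℕ} (hg : 1 ≤ g) {q : ℝ≥0∞} {n₀ n₁ : ℕ}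
    (hpay : ∀ n m, n₀ ≤ n → n ≤ n₁ → (∃ t ∈ E ∩ cell n m, G t n) →
      volume (cell n m ∩ V E G n₁ (n + g)) ≤ q * volume (cell n m)) :
    ∀ (d n : ℕ) (_ : n₁ < n + d) (_ : n₀ ≤ n) (m : ℤ) (M : ℕ) (E' : Set ℝ), E' ⊆ E ∩ cell n m →
      (∀ t ∈ E', ∃ s : Finset ℕ, M * g < s.card ∧ ∀ i ∈ s, n ≤ i ∧ i ≤ n₁ ∧ G t i) →
      volume E' ≤ q ^ M * volume (cell n m ∩ V E G n₁ n) := by
  intro d
  induction d using Nat.strong_induction_on with
  | _ d ih =>
    intro n hd hn m M E' hE' hs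
    rcases E'.eq_empty_or_nonempty with rfl | ⟨t₀, ht₀⟩
    · simp
    have hnn : n ≤ n₁ := by
      obtain ⟨s, hs1, hs2⟩ := hs t₀ ht₀
      have : 0 < s.card := by omega
      obtain ⟨i, hi⟩ := Finset.card_pos.1 this
      exact (hs2 i hi).1.trans (hs2 i hi).2.1
    by_cases hgood : ∃ t ∈ E ∩ cell n m, G t n
    · -- a fresh cell
      have hh := hpay n m hn hnn hgood
      have hcellV : cell n m ∩ V E G n₁ n = cell n m := by
        apply inter_eq_left.2
        intro u hu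
        obtain ⟨t, ⟨htE, htc⟩, hG⟩ := hgood
        exact ⟨n, le_refl _, hnn, t, htE, by rw [(mem_cell_iff n m u).1 hu]; exact htc, hG⟩
      rw [hcellV]
      rcases Nat.eq_zero_or_pos M with rfl | hM
      · rw [pow_zero, one_mul]
        exact measure_mono fun t ht => (hE' ht).2
      obtain ⟨M', rfl⟩ : ∃ M', M = M' + 1 := ⟨M - 1, by omega⟩
      have hcov := cover_cells (E' := E') g (fun t ht => (hE' ht).2)
      have hkid : ∀ m' ∈ Finset.Ico (m * 2 ^ g) ((m + 1) * 2 ^ g), volume (E' ∩ cell (n + g) m') ≤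
          q ^ M' * volume (cell (n + g) m' ∩ V E G n₁ (n + g)) := by
        intro m' _
        refine ih (d - g) (by omega) (n + g) (by omega) (by omega) m' M' _ ?_ ?_
        · rintro u ⟨hu, hu'⟩
          exact ⟨(hE' hu).1, hu'⟩
        · rintro u ⟨hu, -⟩
          obtain ⟨s, hs1, hs2⟩ := hs u hu
          refine ⟨s.filter fun i => n + g ≤ i, ?_, ?_⟩
          · have hsub : (s.filter fun i => ¬ (n + g ≤ i)) ⊆ Finset.Ico n (n + g) := by
              intro i hi
              rw [Finset.mem_filter] at hi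
              rw [Finset.mem_Ico]
              exact ⟨(hs2 i hi.1).1, by omega⟩
            have h1 := Finset.card_le_card hsub
            rw [Nat.card_Ico] at h1
            have h2 := Finset.card_filter_add_card_filter_not (s := s) (fun i => n + g ≤ i)
            have h3 : (M' + 1) * g = M' * g + g := by ring
            omega
          · intro i hi
            rw [Finset.mem_filter] at hi
            exact ⟨hi.2, (hs2 i hi.1).2⟩
      calc volume E'
          ≤ volume (⋃ m' ∈ Finset.Ico (m * 2 ^ g) ((m + 1) * 2 ^ g), (E' ∩ cell (n + g) m')) :=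
            measure_mono hcov
        _ ≤ ∑ m' ∈ Finset.Ico (m * 2 ^ g) ((m + 1) * 2 ^ g), volume (E' ∩ cell (n + g) m') :=
            measure_biUnion_finset_le _ _
        _ ≤ ∑ m' ∈ Finset.Ico (m * 2 ^ g) ((m + 1) * 2 ^ g),
              q ^ M' * volume (cell (n + g) m' ∩ V E G n₁ (n + g)) := Finset.sum_le_sum hkid
        _ = q ^ M' * ∑ m' ∈ Finset.Ico (m * 2 ^ g) ((m + 1) * 2 ^ g),
              volume (cell (n + g) m' ∩ V E G n₁ (n + g)) := by rw [Finset.mul_sum]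
        _ ≤ q ^ M' * volume (cell n m ∩ V E G n₁ (n + g)) := by
            gcongr
            exact sum_cells (measurableSet_V _ _ _ _) n g m
        _ ≤ q ^ M' * (q * volume (cell n m)) := by gcongr
        _ = q ^ (M' + 1) * volume (cell n m) := by rw [pow_succ]; ring
    · -- the cell is not fresh: split into the two halves
      push Not at hgood
      have hcov := cover_cells (E' := E') 1 (fun t ht => (hE' ht).2)
      have hkid : ∀ m' ∈ Finset.Ico (m * 2 ^ 1) ((m + 1) * 2 ^ 1), volume (E' ∩ cell (n + 1) m') ≤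
          q ^ M * volume (cell (n + 1) m' ∩ V E G n₁ (n + 1)) := by
        intro m' _
        refine ih (d - 1) (by omega) (n + 1) (by omega) (by omega) m' M _ ?_ ?_
        · rintro u ⟨hu, hu'⟩
          exact ⟨(hE' hu).1, hu'⟩
        · rintro u ⟨hu, -⟩
          obtain ⟨s, hs1, hs2⟩ := hs u hu
          refine ⟨s, hs1, fun i hi => ⟨?_, (hs2 i hi).2⟩⟩
          have h1 := (hs2 i hi).1
          rcases Nat.eq_or_lt_of_le h1 with h | h
          · exact absurd (h ▸ (hs2 i hi).2.2) (hgood u (hE' hu))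
          · exact h
      calc volume E'
          ≤ volume (⋃ m' ∈ Finset.Ico (m * 2 ^ 1) ((m + 1) * 2 ^ 1), (E' ∩ cell (n + 1) m')) :=
            measure_mono hcov
        _ ≤ ∑ m' ∈ Finset.Ico (m * 2 ^ 1) ((m + 1) * 2 ^ 1), volume (E' ∩ cell (n + 1) m') :=
            measure_biUnion_finset_le _ _
        _ ≤ ∑ m' ∈ Finset.Ico (m * 2 ^ 1) ((m + 1) * 2 ^ 1),
              q ^ M * volume (cell (n + 1) m' ∩ V E G n₁ (n + 1)) := Finset.sum_le_sum hkid
        _ = q ^ M * ∑ m' ∈ Finset.Ico (m * 2 ^ 1) ((m + 1) * 2 ^ 1),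
              volume (cell (n + 1) m' ∩ V E G n₁ (n + 1)) := by rw [Finset.mul_sum]
        _ ≤ q ^ M * volume (cell n m ∩ V E G n₁ (n + 1)) := by
            gcongr
            exact sum_cells (measurableSet_V _ _ _ _) n 1 m
        _ ≤ q ^ M * volume (cell n m ∩ V E G n₁ n) := by
            gcongr
            exact V_anti (Nat.le_succ n)

/-- **Generations of fresh cells**, on one cell. -/
theorem generations {E : Set ℝ} {G : ℝ → ℕ → Prop} {g : ℕ} (hg : 1 ≤ g) {q : ℝ≥0∞} {n₀ n₁ : ℕ}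
    (hpay : ∀ n m, n₀ ≤ n → n ≤ n₁ → (∃ t ∈ E ∩ cell n m, G t n) →
      volume (cell n m ∩ V E G n₁ (n + g)) ≤ q * volume (cell n m)) (m : ℤ) (M : ℕ)
    (hs : ∀ t ∈ E ∩ cell n₀ m, ∃ s : Finset ℕ, M * g < s.card ∧
      ∀ i ∈ s, n₀ ≤ i ∧ i ≤ n₁ ∧ G t i) :
    volume (E ∩ cell n₀ m) ≤ q ^ M * volume (cell n₀ m) := by
  refine (gen hg hpay (n₁ + 1) n₀ (by omega) le_rfl m M (E ∩ cell n₀ m) subset_rfl hs).trans ?_
  gcongr
  exact inter_subset_left

/-- the same on the unit interval `[0, 1)` -/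
theorem generations_unit {E : Set ℝ} {G : ℝ → ℕ → Prop} {g : ℕ} (hg : 1 ≤ g) {q : ℝ≥0∞}
    {n₁ : ℕ} (hE : E ⊆ Ico 0 1)
    (hpay : ∀ n m, n ≤ n₁ → (∃ t ∈ E ∩ cell n m, G t n) →
      volume (cell n m ∩ V E G n₁ (n + g)) ≤ q * volume (cell n m)) (M : ℕ)
    (hs : ∀ t ∈ E, ∃ s : Finset ℕ, M * g < s.card ∧ ∀ i ∈ s, i ≤ n₁ ∧ G t i) :
    volume E ≤ q ^ M := by
  have hc : cell 0 0 = Ico (0:ℝ) 1 := by simp [cell]
  have h := generations (E := E) (G := G) hg (q := q) (n₀ := 0) (n₁ := n₁)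
    (fun n m _ h2 h3 => hpay n m h2 h3) 0 M (fun t ht => by
      obtain ⟨s, hs1, hs2⟩ := hs t ht.1
      exact ⟨s, hs1, fun i hi => ⟨Nat.zero_le _, (hs2 i hi).1, (hs2 i hi).2⟩⟩)
  rw [hc, inter_eq_left.2 hE, Real.volume_Ico] at h
  simpa using h

/-- the payment hypothesis from an explicit list of exceptional sets: every later fresh cell in a
fresh cell is contained in a set `P` of measure `≤ q |cell|` -/
theorem pay_of_subset {E : Set ℝ} {G : ℝ → ℕ → Prop} {g n₁ n : ℕ} {m : ℤ} {q : ℝ≥0∞} {P : Set ℝ}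
    (hP : volume P ≤ q * volume (cell n m))
    (hsub : ∀ n' m', n + g ≤ n' → n' ≤ n₁ → (∃ t ∈ E ∩ cell n' m', G t n') →
      (cell n' m' ∩ cell n m).Nonempty → cell n' m' ∩ cell n m ⊆ P) :
    volume (cell n m ∩ V E G n₁ (n + g)) ≤ q * volume (cell n m) := by
  refine le_trans (measure_mono ?_) hP
  rintro u ⟨hu, n', h1, h2, t, ht, htc, hG⟩
  exact hsub n' (idx n' u) h1 h2 ⟨t, ⟨ht, htc⟩, hG⟩ ⟨u, mem_cell_idx n' u, hu⟩
    ⟨mem_cell_idx n' u, hu⟩

end Crest.Agent.R128.Gen
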