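import Crest.Agent.R128.Chain

set_option autoImplicit false

/-!
# GEO: along a clean path that stays above a level of the root contour, the distance to the start
is the height above the level

`g` is the sequence of matrices seen from the root, `f n = log ‖g n‖` the root contour,
`‖g m * (g v)⁻¹‖ = ‖A_{v→m}‖`.
-/

open scoped Matrix.Norms.L2Operator
open Matrix Finset

namespace Crest.Agent.R128.Geo

open Crest.Agent.R128.Hyp Crest.Agent.R128.Chain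

/-- the weight of one step -/
theorem wt_le {g : ℕ → M2} (hg : ∀ i, (g i).det = 1) {A : ℝ} {j : ℕ}
    (hstep : ‖g (j + 1) * (g j)⁻¹‖ ≤ A) : wt g j ≤ A ^ 2 / ‖g j‖ ^ 2 := by
  have p1 := norm_pos' (hg j)
  have p2 := norm_pos' (hg (j + 1))
  have hA : 0 ≤ A := (norm_nonneg _).trans hstep
  have h1 : ‖g j‖ ≤ A * ‖g (j + 1)‖ := by
    have h2 := le_transfer hg (j + 1) j
    rw [norm_symm (hg j) (hg (j + 1))] at h2
    exact h2.trans (mul_le_mul_of_nonneg_right hstep p2.le)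
  unfold wt ch
  rw [div_le_div_iff₀ (by positivity) (by positivity)]
  calc ‖g (j + 1) * (g j)⁻¹‖ * ‖g j‖ ^ 2 ≤ A * ‖g j‖ ^ 2 := by gcongr
    _ = A * ‖g j‖ * ‖g j‖ := by ring
    _ ≤ A * ‖g j‖ * (A * ‖g (j + 1)‖) := by gcongr
    _ = A ^ 2 * (‖g j‖ * ‖g (j + 1)‖) := by ring

/-- the potential `S m = Σ_{v ≤ j < m} (L / ‖g j‖)²` -/
noncomputable def S (g : ℕ → M2) (L : ℝ) (v m : ℕ) : ℝ := ∑ j ∈ Ico v m, (L / ‖g j‖) ^ 2

theorem S_nonneg (g : ℕ → M2) (L : ℝ) (v m : ℕ) : 0 ≤ S g L v m :=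
  Finset.sum_nonneg fun _ _ => sq_nonneg _

theorem S_succ (g : ℕ → M2) (L : ℝ) {v m : ℕ} (h : v ≤ m) :
    S g L v (m + 1) = S g L v m + (L / ‖g m‖) ^ 2 := by
  unfold S
  rw [Finset.sum_Ico_succ_top h]

/-- chain inequality in terms of the potential -/
theorem transfer_le_S {g : ℕ → M2} (hg : ∀ i, (g i).det = 1) {A L : ℝ} {v N : ℕ}
    (hstep : ∀ j, v ≤ j → j < N → ‖g (j + 1) * (g j)⁻¹‖ ≤ A) (hL : 0 < L) (hv : ‖g v‖ ≤ L)
    {m : ℕ} (hvm : v < m) (hmN : m ≤ N) :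
    ‖g m * (g v)⁻¹‖ ≤ A ^ 2 * (‖g m‖ / L) * S g L v m := by
  have h1 := chain hg hvm
  have pv := norm_pos' (hg v)
  have pm := norm_pos' (hg m)
  have h2 : ∑ j ∈ Ico v m, wt g j ≤ ∑ j ∈ Ico v m, A ^ 2 / ‖g j‖ ^ 2 := by
    apply Finset.sum_le_sum
    intro j hj
    rw [Finset.mem_Ico] at hj
    exact wt_le hg (hstep j hj.1 (lt_of_lt_of_le hj.2 hmN))
  have h3 : ∑ j ∈ Ico v m, A ^ 2 / ‖g j‖ ^ 2 = A ^ 2 / L ^ 2 * S g L v m := by
    unfold S
    rw [Finset.mul_sum]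
    apply Finset.sum_congr rfl
    intro j _
    have pj := norm_pos' (hg j)
    field_simp
  have hS := S_nonneg g L v m
  calc ‖g m * (g v)⁻¹‖ ≤ ‖g v‖ * ‖g m‖ * ∑ j ∈ Ico v m, wt g j := h1
    _ ≤ ‖g v‖ * ‖g m‖ * ∑ j ∈ Ico v m, A ^ 2 / ‖g j‖ ^ 2 :=
        mul_le_mul_of_nonneg_left h2 (by positivity)
    _ = ‖g v‖ * ‖g m‖ * (A ^ 2 / L ^ 2 * S g L v m) := by rw [h3]
    _ ≤ L * ‖g m‖ * (A ^ 2 / L ^ 2 * S g L v m) := by gcongr
    _ = A ^ 2 * (‖g m‖ / L) * S g L v m := by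
        field_simp

theorem S_start {g : ℕ → M2} (hg : ∀ i, (g i).det = 1) {A L : ℝ} {v N : ℕ} (hL : 0 < L)
    (hv' : L ≤ A * ‖g v‖) (hlow : ∀ j, v < j → j < N → L ≤ ‖g j‖) {m : ℕ} (hvm : v < m)
    (hmN : m ≤ N) : S g L v m ≤ A ^ 2 + ((m - v : ℕ) : ℝ) := by
  have pv := norm_pos' (hg v)
  induction m with
  | zero => exact absurd hvm (Nat.not_lt_zero _)
  | succ m ih =>
    rcases Nat.lt_succ_iff_lt_or_eq.mp hvm with h | h
    · rw [S_succ g L h.le]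
      have h1 := ih h (Nat.le_of_succ_le hmN)
      have pm := norm_pos' (hg m)
      have h2 : (L / ‖g m‖) ^ 2 ≤ 1 := by
        have h3 : L / ‖g m‖ ≤ 1 := by
          rw [div_le_one pm]
          exact hlow m h hmN
        have h4 : 0 ≤ L / ‖g m‖ := by positivity
        nlinarith
      have h5 : ((m + 1 - v : ℕ) : ℝ) = ((m - v : ℕ) : ℝ) + 1 := by
        rw [Nat.succ_sub h.le]
        push_cast
        ring
      rw [h5]
      linarith
    · subst h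
      unfold S
      rw [Finset.sum_Ico_succ_top le_rfl]
      simp only [Finset.Ico_self, Finset.sum_empty, zero_add]
      have h2 : L / ‖g v‖ ≤ A := by
        rw [div_le_iff₀ pv]
        exact hv'
      have h4 : 0 ≤ L / ‖g v‖ := by positivity
      have h6 : (L / ‖g v‖) ^ 2 ≤ A ^ 2 := by gcongr
      have h7 : (0 : ℝ) ≤ ((v + 1 - v : ℕ) : ℝ) := by positivity
      linarith

/-- the potential stays bounded -/
theorem S_le {g : ℕ → M2} (hg : ∀ i, (g i).det = 1) {A L : ℝ} {v N M0 : ℕ}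
    (hstep : ∀ j, v ≤ j → j < N → ‖g (j + 1) * (g j)⁻¹‖ ≤ A) (hL : 0 < L) (hv : ‖g v‖ ≤ L)
    (hv' : L ≤ A * ‖g v‖) (hlow : ∀ j, v < j → j < N → L ≤ ‖g j‖)
    (hsum : 4 * A ^ 4 * (A ^ 2 + M0) * ∑ j ∈ Ico (v + M0) N, 1 / ‖g j * (g v)⁻¹‖ ^ 2 ≤ 1)
    {m : ℕ} (hvm : v < m) (hmN : m ≤ N) : S g L v m ≤ 2 * (A ^ 2 + M0) := by
  have hS0 : 0 ≤ A ^ 2 + (M0 : ℝ) := by positivity
  by_cases hM : m ≤ v + M0
  · have h1 := S_start hg hL hv' hlow hvm hmN
    have h2 : ((m - v : ℕ) : ℝ) ≤ (M0 : ℝ) := by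
      exact_mod_cast (by omega : m - v ≤ M0)
    linarith
  · push Not at hM
    -- induction from v + M0
    have key : ∀ n, v + M0 ≤ n → v < n → n ≤ N →
        S g L v n ≤ (A ^ 2 + M0) *
          (1 + 4 * A ^ 4 * (A ^ 2 + M0) * ∑ j ∈ Ico (v + M0) n, 1 / ‖g j * (g v)⁻¹‖ ^ 2) := by
      intro n hn
      induction n, hn using Nat.le_induction with
      | base =>
        intro h1 h2
        have h3 := S_start hg hL hv' hlow h1 h2
        simp only [Finset.Ico_self, Finset.sum_empty, mul_zero, add_zero, mul_one]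
        have h4 : ((v + M0 - v : ℕ) : ℝ) = (M0 : ℝ) := by
          congr 1
          omega
        rw [h4] at h3
        exact h3
      | succ n hn ih =>
        intro h1 h2
        by_cases hvn : v < n
        · have h3 := ih hvn (Nat.le_of_succ_le h2)
          have hsub : ∑ j ∈ Ico (v + M0) n, 1 / ‖g j * (g v)⁻¹‖ ^ 2 ≤
              ∑ j ∈ Ico (v + M0) N, 1 / ‖g j * (g v)⁻¹‖ ^ 2 :=
            Finset.sum_le_sum_of_subset_of_nonneg
              (Finset.Ico_subset_Ico_right (Nat.le_of_succ_le h2))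
              (fun j _ _ => by positivity)
          have h4 : S g L v n ≤ 2 * (A ^ 2 + M0) := by
            have h5 : 4 * A ^ 4 * (A ^ 2 + M0) *
                ∑ j ∈ Ico (v + M0) n, 1 / ‖g j * (g v)⁻¹‖ ^ 2 ≤ 1 :=
              (mul_le_mul_of_nonneg_left hsub (by positivity)).trans hsum
            nlinarith
          have pn := norm_pos' (hg n)
          have pd : 0 < ‖g n * (g v)⁻¹‖ := norm_pos' (det_mul_inv (hg n) (hg v))
          have h6 := transfer_le_S hg hstep hL hv hvn (Nat.le_of_succ_le h2)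
          have h7 : L / ‖g n‖ ≤ A ^ 2 * S g L v n / ‖g n * (g v)⁻¹‖ := by
            rw [div_le_div_iff₀ pn pd]
            have h8 : L * ‖g n * (g v)⁻¹‖ ≤ L * (A ^ 2 * (‖g n‖ / L) * S g L v n) :=
              mul_le_mul_of_nonneg_left h6 hL.le
            have h9 : L * (A ^ 2 * (‖g n‖ / L) * S g L v n) = A ^ 2 * S g L v n * ‖g n‖ := by
              field_simp
            rw [h9] at h8
            exact h8
          have h10 : (L / ‖g n‖) ^ 2 ≤
              (A ^ 2 * (2 * (A ^ 2 + M0)) / ‖g n * (g v)⁻¹‖) ^ 2 := by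
            have h11 : 0 ≤ L / ‖g n‖ := by positivity
            have h12 : A ^ 2 * S g L v n / ‖g n * (g v)⁻¹‖ ≤
                A ^ 2 * (2 * (A ^ 2 + M0)) / ‖g n * (g v)⁻¹‖ := by
              gcongr
            exact pow_le_pow_left₀ h11 (h7.trans h12) 2
          rw [S_succ g L hvn.le, Finset.sum_Ico_succ_top hn]
          have h13 : (A ^ 2 * (2 * (A ^ 2 + (M0 : ℝ))) / ‖g n * (g v)⁻¹‖) ^ 2 =
              (A ^ 2 + M0) * (4 * A ^ 4 * (A ^ 2 + M0) * (1 / ‖g n * (g v)⁻¹‖ ^ 2)) := by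
            field_simp
            ring
          rw [h13] at h10
          calc S g L v n + (L / ‖g n‖) ^ 2 ≤
              (A ^ 2 + M0) * (1 + 4 * A ^ 4 * (A ^ 2 + M0) *
                ∑ j ∈ Ico (v + M0) n, 1 / ‖g j * (g v)⁻¹‖ ^ 2) +
              (A ^ 2 + M0) * (4 * A ^ 4 * (A ^ 2 + M0) * (1 / ‖g n * (g v)⁻¹‖ ^ 2)) :=
                add_le_add h3 h10
            _ = _ := by ring
        · -- n = v, M0 = 0
          have hnv : n = v := by omega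
          subst hnv
          have hM0 : M0 = 0 := by omega
          subst hM0
          have h3 := S_start hg hL hv' hlow h1 h2
          have h4 : ‖g n * (g n)⁻¹‖ = ‖(1 : M2)‖ := by
            rw [Matrix.mul_nonsing_inv _ (by rw [hg n]; exact isUnit_one)]
          have h5 : ((n + 1 - n : ℕ) : ℝ) = 1 := by
            rw [Nat.add_sub_cancel_left]
            norm_num
          rw [h5] at h3
          have h6 : ‖(1 : M2)‖ = 1 := by
            apply le_antisymm norm_one_le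
            exact one_le_norm (by simp)
          have h7 : ∑ j ∈ Ico (n + 0) (n + 1), 1 / ‖g j * (g n)⁻¹‖ ^ 2 = 1 := by
            simp only [add_zero]
            rw [Finset.sum_Ico_succ_top le_rfl]
            simp [h4, h6]
          -- the single term of the sum must be small, contradiction or direct bound
          have hAone : 1 ≤ A := by
            have h8 : L ≤ A * L := hv'.trans (by
              have hA0 : 0 ≤ A := (norm_nonneg _).trans (hstep n le_rfl (Nat.lt_of_succ_le h2))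
              exact mul_le_mul_of_nonneg_left hv hA0)
            by_contra hcon
            push Not at hcon
            nlinarith
          rw [h7]
          have hA2 : 1 ≤ A ^ 2 := by nlinarith
          have hA4 : 1 ≤ A ^ 4 := by nlinarith
          push_cast
          nlinarith
    have h1 := key m hM.le hvm hmN
    have hsub : ∑ j ∈ Ico (v + M0) m, 1 / ‖g j * (g v)⁻¹‖ ^ 2 ≤
        ∑ j ∈ Ico (v + M0) N, 1 / ‖g j * (g v)⁻¹‖ ^ 2 :=
      Finset.sum_le_sum_of_subset_of_nonneg (Finset.Ico_subset_Ico_right hmN)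
        (fun j _ _ => by positivity)
    have h5 : 4 * A ^ 4 * (A ^ 2 + M0) *
        ∑ j ∈ Ico (v + M0) m, 1 / ‖g j * (g v)⁻¹‖ ^ 2 ≤ 1 :=
      (mul_le_mul_of_nonneg_left hsub (by positivity)).trans hsum
    nlinarith

/-- **GEO, forward**: along a clean path from `v` on which the root contour stays above the level
`log L` of `v`, the distance to `v` is the height above the level, up to a constant. -/
theorem geo {g : ℕ → M2} (hg : ∀ i, (g i).det = 1) {A L : ℝ} {v N M0 : ℕ}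
    (hstep : ∀ j, v ≤ j → j < N → ‖g (j + 1) * (g j)⁻¹‖ ≤ A) (hL : 0 < L) (hv : ‖g v‖ ≤ L)
    (hv' : L ≤ A * ‖g v‖) (hlow : ∀ j, v < j → j < N → L ≤ ‖g j‖)
    (hsum : 4 * A ^ 4 * (A ^ 2 + M0) * ∑ j ∈ Ico (v + M0) N, 1 / ‖g j * (g v)⁻¹‖ ^ 2 ≤ 1)
    {m : ℕ} (hvm : v < m) (hmN : m ≤ N) :
    ‖g m * (g v)⁻¹‖ ≤ 2 * A ^ 2 * (A ^ 2 + M0) * (‖g m‖ / L) := by
  have h1 := transfer_le_S hg hstep hL hv hvm hmN
  have h2 := S_le hg hstep hL hv hv' hlow hsum hvm hmN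
  have pm := norm_pos' (hg m)
  calc ‖g m * (g v)⁻¹‖ ≤ A ^ 2 * (‖g m‖ / L) * S g L v m := h1
    _ ≤ A ^ 2 * (‖g m‖ / L) * (2 * (A ^ 2 + M0)) :=
        mul_le_mul_of_nonneg_left h2 (by positivity)
    _ = 2 * A ^ 2 * (A ^ 2 + M0) * (‖g m‖ / L) := by ring

/-- the lower half of GEO -/
theorem geo_lower {g : ℕ → M2} (hg : ∀ i, (g i).det = 1) {L : ℝ} {v : ℕ} (hL : 0 < L)
    (hv : ‖g v‖ ≤ L) (m : ℕ) : ‖g m‖ / L ≤ ‖g m * (g v)⁻¹‖ := by
  rw [div_le_iff₀ hL]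
  exact (le_transfer hg v m).trans (mul_le_mul_of_nonneg_left hv (norm_nonneg _))

/-- at the return time the transfer is bounded by a constant (279 (4), forward) -/
theorem geo_return {g : ℕ → M2} (hg : ∀ i, (g i).det = 1) {A L : ℝ} {v N M0 : ℕ}
    (hstep : ∀ j, v ≤ j → j < N → ‖g (j + 1) * (g j)⁻¹‖ ≤ A) (hL : 0 < L) (hv : ‖g v‖ ≤ L)
    (hv' : L ≤ A * ‖g v‖) (hlow : ∀ j, v < j → j < N → L ≤ ‖g j‖)
    (hsum : 4 * A ^ 4 * (A ^ 2 + M0) * ∑ j ∈ Ico (v + M0) N, 1 / ‖g j * (g v)⁻¹‖ ^ 2 ≤ 1)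
    (hvN : v < N) (hN : ‖g N‖ ≤ L) :
    ‖g N * (g v)⁻¹‖ ≤ 2 * A ^ 2 * (A ^ 2 + M0) := by
  have h1 := geo hg hstep hL hv hv' hlow hsum hvN le_rfl
  have h2 : ‖g N‖ / L ≤ 1 := by
    rw [div_le_one hL]
    exact hN
  calc ‖g N * (g v)⁻¹‖ ≤ 2 * A ^ 2 * (A ^ 2 + M0) * (‖g N‖ / L) := h1
    _ ≤ 2 * A ^ 2 * (A ^ 2 + M0) * 1 := mul_le_mul_of_nonneg_left h2 (by positivity)
    _ = 2 * A ^ 2 * (A ^ 2 + M0) := by ring

/-- **GEO, backward**: mirror of `geo` (`w` = the end of the path, `N ≤ m < w`). -/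
theorem geo_back {g : ℕ → M2} (hg : ∀ i, (g i).det = 1) {A L : ℝ} {w N M0 : ℕ}
    (hstep : ∀ j, N ≤ j → j < w → ‖g (j + 1) * (g j)⁻¹‖ ≤ A) (hL : 0 < L) (hw : ‖g w‖ ≤ L)
    (hw' : L ≤ A * ‖g w‖) (hlow : ∀ j, N < j → j < w → L ≤ ‖g j‖)
    (hsum : 4 * A ^ 4 * (A ^ 2 + M0) *
      ∑ i ∈ Ico M0 (w - N), 1 / ‖g w * (g (w - i))⁻¹‖ ^ 2 ≤ 1)
    {m : ℕ} (hmw : m < w) (hNm : N ≤ m) :
    ‖g w * (g m)⁻¹‖ ≤ 2 * A ^ 2 * (A ^ 2 + M0) * (‖g m‖ / L) := by
  set g' : ℕ → M2 := fun i => g (w - i) with hg'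
  have hdet : ∀ i, (g' i).det = 1 := fun i => hg _
  have hst : ∀ j, 0 ≤ j → j < w - N → ‖g' (j + 1) * (g' j)⁻¹‖ ≤ A := by
    intro j _ hj
    have h1 := hstep (w - (j + 1)) (by omega) (by omega)
    have h2 : w - (j + 1) + 1 = w - j := by omega
    rw [h2] at h1
    simp only [hg']
    rw [norm_symm (hg _) (hg _)]
    exact h1
  have hlo : ∀ j, 0 < j → j < w - N → L ≤ ‖g' j‖ := by
    intro j hj1 hj2
    exact hlow (w - j) (by omega) (by omega)
  have hsm : 4 * A ^ 4 * (A ^ 2 + M0) *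
      ∑ j ∈ Ico (0 + M0) (w - N), 1 / ‖g' j * (g' 0)⁻¹‖ ^ 2 ≤ 1 := by
    rw [zero_add]
    have h3 : ∑ j ∈ Ico M0 (w - N), 1 / ‖g' j * (g' 0)⁻¹‖ ^ 2 =
        ∑ i ∈ Ico M0 (w - N), 1 / ‖g w * (g (w - i))⁻¹‖ ^ 2 := by
      apply Finset.sum_congr rfl
      intro j _
      simp only [hg', Nat.sub_zero]
      rw [norm_symm (hg _) (hg _)]
    rw [h3]
    exact hsum
  have h0 : ‖g' 0‖ ≤ L := by simpa [hg'] using hw
  have h0' : L ≤ A * ‖g' 0‖ := by simpa [hg'] using hw'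
  have h := geo hdet hst hL h0 h0' hlo hsm (m := w - m) (by omega) (by omega)
  have h4 : w - (w - m) = m := by omega
  simp only [hg', Nat.sub_zero, h4] at h
  rw [norm_symm (hg m) (hg w)] at h
  exact h

theorem geo_back_return {g : ℕ → M2} (hg : ∀ i, (g i).det = 1) {A L : ℝ} {w N M0 : ℕ}
    (hstep : ∀ j, N ≤ j → j < w → ‖g (j + 1) * (g j)⁻¹‖ ≤ A) (hL : 0 < L) (hw : ‖g w‖ ≤ L)
    (hw' : L ≤ A * ‖g w‖) (hlow : ∀ j, N < j → j < w → L ≤ ‖g j‖)
    (hsum : 4 * A ^ 4 * (A ^ 2 + M0) *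
      ∑ i ∈ Ico M0 (w - N), 1 / ‖g w * (g (w - i))⁻¹‖ ^ 2 ≤ 1)
    (hNw : N < w) (hN : ‖g N‖ ≤ L) :
    ‖g w * (g N)⁻¹‖ ≤ 2 * A ^ 2 * (A ^ 2 + M0) := by
  have h1 := geo_back hg hstep hL hw hw' hlow hsum hNw le_rfl
  have h2 : ‖g N‖ / L ≤ 1 := by
    rw [div_le_one hL]
    exact hN
  calc ‖g w * (g N)⁻¹‖ ≤ 2 * A ^ 2 * (A ^ 2 + M0) * (‖g N‖ / L) := h1
    _ ≤ 2 * A ^ 2 * (A ^ 2 + M0) * 1 := mul_le_mul_of_nonneg_left h2 (by positivity)
    _ = 2 * A ^ 2 * (A ^ 2 + M0) := by ring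

/-! ## the sum of a clean path -/

theorem sum_inv_sq_le (a n : ℕ) (ha : 1 ≤ a) : ∑ j ∈ Ico a n, 1 / (j : ℝ) ^ 2 ≤ 2 := by
  have h : ∀ n, a ≤ n → ∑ j ∈ Ico a (n + 1), 1 / (j : ℝ) ^ 2 ≤ 2 - 1 / (n : ℝ) := by
    intro n hn
    induction n, hn using Nat.le_induction with
    | base =>
      rw [Finset.sum_Ico_succ_top le_rfl]
      simp only [Finset.Ico_self, Finset.sum_empty, zero_add]
      have h1 : (1 : ℝ) ≤ (a : ℝ) := by exact_mod_cast ha
      have h2 : 1 / (a : ℝ) ≤ 1 := by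
        rw [div_le_one (by linarith)]
        exact h1
      have h3 : 1 / (a : ℝ) ^ 2 ≤ 1 / (a : ℝ) := by
        apply one_div_le_one_div_of_le (by linarith)
        nlinarith
      linarith
    | succ n hn ih =>
      rw [Finset.sum_Ico_succ_top (by omega)]
      have hn1 : (1 : ℝ) ≤ (n : ℝ) := by exact_mod_cast (le_trans ha hn)
      have hn0 : (0 : ℝ) < n := by linarith
      have h4 : 1 / ((n + 1 : ℕ) : ℝ) ^ 2 ≤ 1 / (n : ℝ) - 1 / ((n + 1 : ℕ) : ℝ) := by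
        push_cast
        rw [div_sub_div _ _ (by positivity) (by positivity), div_le_div_iff₀ (by positivity)
          (by positivity)]
        nlinarith
      linarith
  rcases le_or_gt a n with hn | hn
  · rcases Nat.eq_zero_or_pos n with h0 | h0
    · omega
    · rcases Nat.lt_or_ge a n with h5 | h5
      · have h1 := h (n - 1) (by omega)
        have h6 : n - 1 + 1 = n := by omega
        rw [h6] at h1
        have h2 : 0 ≤ 1 / ((n - 1 : ℕ) : ℝ) := by positivity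
        linarith
      · rw [Finset.Ico_eq_empty (by omega)]
        simp
  · rw [Finset.Ico_eq_empty (by omega)]
    simp

/-- `(c2) + (c3)`: if along the path all distances after the first `M0` steps are `≥ D0` (norms) and
the time is at most the square root of the norm, then the sum in `geo` is at most `2 / D0`. -/
theorem sum_of_clean {d : ℕ → ℝ} {D0 : ℝ} {v N M0 : ℕ} (hM0 : 1 ≤ M0) (hD0 : 0 < D0)
    (h2 : ∀ j, v + M0 ≤ j → j < N → D0 ≤ d j)
    (h3 : ∀ j, v + M0 ≤ j → j < N → ((j - v : ℕ) : ℝ) ^ 2 ≤ d j) :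
    ∑ j ∈ Ico (v + M0) N, 1 / d j ^ 2 ≤ 2 / D0 := by
  have h4 : ∀ j ∈ Ico (v + M0) N, 1 / d j ^ 2 ≤ (1 / D0) * (1 / ((j - v : ℕ) : ℝ) ^ 2) := by
    intro j hj
    rw [Finset.mem_Ico] at hj
    have h5 := h2 j hj.1 hj.2
    have h6 := h3 j hj.1 hj.2
    have h7 : (0 : ℝ) < ((j - v : ℕ) : ℝ) := by
      exact_mod_cast (by omega : 0 < j - v)
    have h10 : 1 / D0 * (1 / ((j - v : ℕ) : ℝ) ^ 2) = 1 / (((j - v : ℕ) : ℝ) ^ 2 * D0) := by
      field_simp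
    rw [h10]
    apply one_div_le_one_div_of_le (by positivity)
    rw [pow_two (d j)]
    exact mul_le_mul h6 h5 hD0.le (by linarith)
  have h8 : ∑ j ∈ Ico (v + M0) N, 1 / ((j - v : ℕ) : ℝ) ^ 2 ≤ 2 := by
    have h9 : ∑ j ∈ Ico (v + M0) N, 1 / ((j - v : ℕ) : ℝ) ^ 2 =
        ∑ i ∈ Ico M0 (N - v), 1 / (i : ℝ) ^ 2 := by
      rcases le_or_gt v N with hvN | hvN
      · have h10 := Finset.sum_Ico_add' (fun j : ℕ => 1 / ((j - v : ℕ) : ℝ) ^ 2) M0 (N - v) v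
        rw [show M0 + v = v + M0 by omega, show N - v + v = N by omega] at h10
        rw [← h10]
        apply Finset.sum_congr rfl
        intro i _
        rw [Nat.add_sub_cancel]
      · rw [Finset.Ico_eq_empty (by omega), Finset.Ico_eq_empty (by omega)]
        simp
    rw [h9]
    exact sum_inv_sq_le M0 (N - v) hM0
  calc ∑ j ∈ Ico (v + M0) N, 1 / d j ^ 2 ≤
      ∑ j ∈ Ico (v + M0) N, (1 / D0) * (1 / ((j - v : ℕ) : ℝ) ^ 2) := Finset.sum_le_sum h4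
    _ = (1 / D0) * ∑ j ∈ Ico (v + M0) N, 1 / ((j - v : ℕ) : ℝ) ^ 2 := by rw [Finset.mul_sum]
    _ ≤ (1 / D0) * 2 := mul_le_mul_of_nonneg_left h8 (by positivity)
    _ = 2 / D0 := by ring

/-- the `v3` form of cleanness: `Σ d^(-δ) ≤ C3`, `δ ≤ 1`, gives the bound `C3 / D0`. -/
theorem sum_of_v3 {d : ℕ → ℝ} {D0 δ C3 : ℝ} {a N : ℕ} (hδ : δ ≤ 1) (hD0 : 1 ≤ D0)
    (h2 : ∀ j, a ≤ j → j < N → D0 ≤ d j)
    (h3 : ∑ j ∈ Ico a N, (d j) ^ (-δ) ≤ C3) :
    ∑ j ∈ Ico a N, 1 / d j ^ 2 ≤ C3 / D0 := by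
  have h4 : ∀ j ∈ Ico a N, 1 / d j ^ 2 ≤ (1 / D0) * (d j) ^ (-δ) := by
    intro j hj
    rw [Finset.mem_Ico] at hj
    have h5 := h2 j hj.1 hj.2
    have p : 0 < d j := by linarith
    have h6 : (d j) ^ (-(1 : ℝ)) ≤ (d j) ^ (-δ) :=
      Real.rpow_le_rpow_of_exponent_le (by linarith) (by linarith)
    have h7 : (d j) ^ (-(1 : ℝ)) = 1 / d j := by
      rw [Real.rpow_neg_one, one_div]
    rw [h7] at h6
    calc 1 / d j ^ 2 = (1 / d j) * (1 / d j) := by rw [pow_two]; field_simp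
      _ ≤ (1 / D0) * (d j) ^ (-δ) := by
          apply mul_le_mul _ h6 (by positivity) (by positivity)
          exact one_div_le_one_div_of_le (by linarith) h5
  calc ∑ j ∈ Ico a N, 1 / d j ^ 2 ≤ ∑ j ∈ Ico a N, (1 / D0) * (d j) ^ (-δ) :=
        Finset.sum_le_sum h4
    _ = (1 / D0) * ∑ j ∈ Ico a N, (d j) ^ (-δ) := by rw [Finset.mul_sum]
    _ ≤ (1 / D0) * C3 := mul_le_mul_of_nonneg_left h3 (by positivity)
    _ = C3 / D0 := by ring

end Crest.Agent.R128.Geo
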