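import Crest.Agent.R128.Geo






/-!
# Row 128 (helper587): GEO with a sharp constant, lower bound of the root field at a fresh foot

`Geo.geo` loses a factor `≈ k ^ 4`; here the loss is `C * k`.
-/

set_option autoImplicit false

open scoped Matrix.Norms.L2Operator
open Matrix Finset

namespace Crest.Agent.R128.GeoSharp

open Crest.Agent.R128.Hyp Crest.Agent.R128.Chain Crest.Agent.R128.Geo

/-- **GEO, forward, sharp constant.** -/
theorem geo_sharp {g : ℕ → M2} (hg : ∀ i, (g i).det = 1) {A L c K : ℝ} {v N M0 : ℕ}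
    (hA : 1 ≤ A) (hc : 1 ≤ c) (hK : K = A * (1 + c * (M0 + 1)))
    (hstep : ∀ j, v ≤ j → j < N → ‖g (j + 1) * (g j)⁻¹‖ ≤ A) (hL : 0 < L) (hv : ‖g v‖ ≤ c * L)
    (hlow : ∀ j, v < j → j ≤ N → L ≤ ‖g j‖)
    (hsum : A * K ^ 2 * ∑ j ∈ Ico (v + M0) N, 1 / ‖g j * (g v)⁻¹‖ ^ 2 ≤ 1)
    {m : ℕ} (hvm : v < m) (hmN : m ≤ N) :
    ‖g m * (g v)⁻¹‖ ≤ K * (‖g m‖ / L) := by
  have hA0 : 0 < A := by linarith
  have hc0 : 0 < c := by linarith
  have hKpos : 0 < K := by rw [hK]; positivity
  induction m using Nat.strong_induction_on with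
  | _ m ih =>
    have pv := norm_pos' (hg v)
    have pm := norm_pos' (hg m)
    -- the terms
    have hterm : ∀ j ∈ Ico v m, wt g j * (‖g v‖ * L) ≤ (if j = v then A else 0) +
        (if j < v + M0 then c * A else 0) +
        (if v + M0 ≤ j then c * A ^ 2 * K ^ 2 * (1 / ‖g j * (g v)⁻¹‖ ^ 2) else 0) := by
      intro j hj
      rw [Finset.mem_Ico] at hj
      have pj := norm_pos' (hg j)
      have pj1 := norm_pos' (hg (j + 1))
      have hjL : L ≤ ‖g (j + 1)‖ := hlow (j + 1) (by omega) (by omega)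
      have hst := hstep j hj.1 (by omega)
      have hwt : wt g j ≤ A / (‖g j‖ * ‖g (j + 1)‖) := by
        unfold wt ch
        have h2 : ‖g j * (g (j + 1))⁻¹‖ ≤ A := by
          rw [norm_symm (hg j) (hg (j + 1))]; exact hst
        gcongr
      rcases eq_or_lt_of_le hj.1 with h0 | h0
      · -- j = v
        subst h0
        have h1 : wt g v * (‖g v‖ * L) ≤ A := by
          calc wt g v * (‖g v‖ * L) ≤ A / (‖g v‖ * ‖g (v + 1)‖) * (‖g v‖ * L) := by gcongr
            _ = A * (L / ‖g (v + 1)‖) := by field_simp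
            _ ≤ A * 1 := by
                gcongr
                rw [div_le_one pj1]; exact hjL
            _ = A := mul_one _
        rw [if_pos rfl]
        have h2 : (0 : ℝ) ≤ (if v < v + M0 then c * A else 0) := by split_ifs <;> positivity
        have h3 : (0 : ℝ) ≤ (if v + M0 ≤ v then c * A ^ 2 * K ^ 2 * (1 / ‖g v * (g v)⁻¹‖ ^ 2) else 0) := by
          split_ifs <;> positivity
        linarith
      · have hjL0 : L ≤ ‖g j‖ := hlow j h0 (by omega)
        rw [if_neg (by omega : ¬ j = v), zero_add]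
        by_cases hjM : j < v + M0
        · rw [if_pos hjM, if_neg (by omega : ¬ v + M0 ≤ j), add_zero]
          calc wt g j * (‖g v‖ * L) ≤ A / (‖g j‖ * ‖g (j + 1)‖) * (‖g v‖ * L) := by gcongr
            _ ≤ A / (L * L) * (c * L * L) := by gcongr
            _ = c * A := by field_simp
        · rw [if_neg hjM, zero_add, if_pos (by omega : v + M0 ≤ j)]
          have hd := ih j hj.2 h0 (by omega)
          have pd : 0 < ‖g j * (g v)⁻¹‖ := norm_pos' (det_mul_inv (hg j) (hg v))
          have h1 : 1 / ‖g j‖ ≤ K / (L * ‖g j * (g v)⁻¹‖) := by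
            rw [div_le_div_iff₀ pj (by positivity)]
            calc 1 * (L * ‖g j * (g v)⁻¹‖) ≤ 1 * (L * (K * (‖g j‖ / L))) := by gcongr
              _ = K * ‖g j‖ := by field_simp
          have h2 := wt_le hg hst
          calc wt g j * (‖g v‖ * L) ≤ A ^ 2 / ‖g j‖ ^ 2 * (c * L * L) := by gcongr
            _ = A ^ 2 * (1 / ‖g j‖) ^ 2 * (c * L * L) := by field_simp
            _ ≤ A ^ 2 * (K / (L * ‖g j * (g v)⁻¹‖)) ^ 2 * (c * L * L) := by gcongr
            _ = c * A ^ 2 * K ^ 2 * (1 / ‖g j * (g v)⁻¹‖ ^ 2) := by field_simp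
    have hS1 : ∑ j ∈ Ico v m, (if j = v then A else 0) ≤ A := by
      rw [Finset.sum_ite_eq']
      split_ifs
      · exact le_rfl
      · exact hA0.le
    have hS2 : ∑ j ∈ Ico v m, (if j < v + M0 then c * A else 0) ≤ M0 * (c * A) := by
      rw [← Finset.sum_filter, Finset.sum_const, nsmul_eq_mul]
      have hcard : ((Ico v m).filter (fun j => j < v + M0)).card ≤ M0 := by
        have hsub : (Ico v m).filter (fun j => j < v + M0) ⊆ Ico v (v + M0) := by
          intro j hj
          rw [Finset.mem_filter, Finset.mem_Ico] at hj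
          rw [Finset.mem_Ico]
          exact ⟨hj.1.1, hj.2⟩
        have := Finset.card_le_card hsub
        rw [Nat.card_Ico] at this
        omega
      have : (((Ico v m).filter (fun j => j < v + M0)).card : ℝ) ≤ M0 := by exact_mod_cast hcard
      gcongr
    have hS3 : ∑ j ∈ Ico v m, (if v + M0 ≤ j then c * A ^ 2 * K ^ 2 *
        (1 / ‖g j * (g v)⁻¹‖ ^ 2) else 0) ≤ c * A := by
      rw [← Finset.sum_filter]
      have hsub : (Ico v m).filter (fun j => v + M0 ≤ j) ⊆ Ico (v + M0) N := by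
        intro j hj
        rw [Finset.mem_filter, Finset.mem_Ico] at hj
        rw [Finset.mem_Ico]
        exact ⟨hj.2, by omega⟩
      calc ∑ j ∈ (Ico v m).filter (fun j => v + M0 ≤ j), c * A ^ 2 * K ^ 2 *
            (1 / ‖g j * (g v)⁻¹‖ ^ 2)
          ≤ ∑ j ∈ Ico (v + M0) N, c * A ^ 2 * K ^ 2 * (1 / ‖g j * (g v)⁻¹‖ ^ 2) :=
            Finset.sum_le_sum_of_subset_of_nonneg hsub (fun i _ _ => by positivity)
        _ = c * A * (A * K ^ 2 * ∑ j ∈ Ico (v + M0) N, 1 / ‖g j * (g v)⁻¹‖ ^ 2) := by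
            rw [← Finset.mul_sum]; ring
        _ ≤ c * A * 1 := by gcongr
        _ = c * A := mul_one _
    have hW : (∑ j ∈ Ico v m, wt g j) * (‖g v‖ * L) ≤ K := by
      rw [Finset.sum_mul]
      refine (Finset.sum_le_sum hterm).trans ?_
      rw [Finset.sum_add_distrib, Finset.sum_add_distrib]
      calc _ ≤ A + M0 * (c * A) + c * A := by linarith
        _ = K := by rw [hK]; ring
    have h1 := chain hg hvm
    calc ‖g m * (g v)⁻¹‖ ≤ ‖g v‖ * ‖g m‖ * ∑ j ∈ Ico v m, wt g j := h1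
      _ = (‖g m‖ / L) * ((∑ j ∈ Ico v m, wt g j) * (‖g v‖ * L)) := by field_simp
      _ ≤ (‖g m‖ / L) * K := by gcongr
      _ = K * (‖g m‖ / L) := mul_comm _ _

end Crest.Agent.R128.GeoSharp
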