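import Crest.Agent.R128.Good
import Crest.Agent.R128.ValNorm

/-!
# Row 128, node V5: the good event is antitone in the number `L` of clean digits (helper366)

`G k L n ⊆ G k L₀ n` for `L₀ ≤ L` and `k` large: the first `L` digits of a clean start are regular,
so the clauses (c2), (c3) from `L₀` on are free.  Hence LOC is needed for one `L₀` only, and the
fraction `η` of `Skel.V5` may be chosen before `L`.
-/

set_option autoImplicit false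
open Crest.Agent.R128 Crest.Agent.R128.AlignMn Crest.Agent.R128.DictY Crest.Agent.R128.Lam0
open Crest.Agent.R128.Good

namespace Crest.Agent.R128.GoodMono

theorem cval_of_le {k : ℝ} {L₀ L : ℕ} (hL : L₀ ≤ L) (hβ : 4 ≤ k ^ ((2 : ℝ) / 3))
    (hbig : (L : ℝ) ^ 400 ≤ (k ^ ((2 : ℝ) / 3) - 1 / 2) ^ L₀) {z : Tor} {n : ℕ}
    (h : CVal k L z n) : CVal k L₀ z n := by
  have hβ3 : (3 : ℝ) ≤ k ^ ((2 : ℝ) / 3) := by linarith
  have c1 : ∀ m, m < min L n → k ^ ((2 : ℝ) / 3) ≤ |V k ((T k)^[m] z).2| := fun m hm =>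
    h.cl m (lt_of_lt_of_le hm (min_le_left _ _)) (lt_of_lt_of_le hm (min_le_right _ _))
  have hone : ∀ e : ℕ, (1 : ℝ) ≤ (k ^ ((2 : ℝ) / 3) - 1 / 2) ^ e := fun e =>
    one_le_pow₀ (by linarith)
  have hW : ∀ m, ValNorm.W k z m = ‖fld k z m‖ := fun _ => rfl
  have mono : ∀ i j, i ≤ j → j ≤ min L n → ‖fld k z i‖ ≤ ‖fld k z j‖ := by
    intro i j hij hj
    have h1 := ValNorm.W_mono hβ3 c1 hij hj
    rw [hW, hW] at h1
    have h2 : 1 * ‖fld k z i‖ ≤ (k ^ ((2 : ℝ) / 3) - 1 / 2) ^ (j - i) * ‖fld k z i‖ :=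
      mul_le_mul_of_nonneg_right (hone _) (norm_nonneg _)
    linarith
  have one : ∀ j, j ≤ min L n → (k ^ ((2 : ℝ) / 3) - 1 / 2) ^ j ≤ ‖fld k z j‖ := by
    intro j hj
    have h1 := ValNorm.W_mono hβ3 c1 (Nat.zero_le j) hj
    rw [hW, hW, fld_zero] at h1
    simpa [Prod.norm_def] using h1
  constructor
  · intro m hm hmn
    exact h.cl m (lt_of_lt_of_le hm hL) hmn
  · intro i j hi hij hj
    rcases le_or_gt j L with hjL | hjL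
    · have h1 := mono i j hij (le_min hjL hj)
      have h2 : 1 ≤ ‖fld k z j‖ := (hone j).trans (one j (le_min hjL hj))
      calc ‖fld k z i‖ ^ 99 ≤ ‖fld k z j‖ ^ 99 := pow_le_pow_left₀ (norm_nonneg _) h1 99
        _ ≤ ‖fld k z j‖ ^ 100 := pow_le_pow_right₀ h2 (by norm_num)
    · rcases le_or_gt L i with hiL | hiL
      · exact h.v2 i j hiL hij hj
      · have h1 := mono i L hiL.le (le_min le_rfl (hjL.le.trans hj))
        calc ‖fld k z i‖ ^ 99 ≤ ‖fld k z L‖ ^ 99 := pow_le_pow_left₀ (norm_nonneg _) h1 99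
          _ ≤ ‖fld k z j‖ ^ 100 := h.v2 L j le_rfl hjL.le hj
  · intro j hj hjn
    rcases le_or_gt L j with hjL | hjL
    · obtain ⟨i, h1, h2, h3⟩ := h.v3 j hjL hjn
      exact ⟨i, hL.trans h1, h2, h3⟩
    · refine ⟨L₀, le_rfl, hj, ?_⟩
      have h1 := one L₀ (le_min hL (hj.trans hjn))
      have h2 : (j : ℝ) ^ 400 ≤ (L : ℝ) ^ 400 :=
        pow_le_pow_left₀ (Nat.cast_nonneg _) (by exact_mod_cast hjL.le) 400
      exact h2.trans (hbig.trans h1)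

theorem side_of_le {k : ℝ} {L₀ L : ℕ} (hL : L₀ ≤ L) (hβ : 4 ≤ k ^ ((2 : ℝ) / 3))
    (hbig : (L : ℝ) ^ 400 ≤ (k ^ ((2 : ℝ) / 3) - 1 / 2) ^ L₀) {ρ : ℝ} {y : Tor} {x : ℕ → ℝ}
    {w M : ℕ} (h : Side k L ρ y x w M) : Side k L₀ ρ y x w M where
  hw := lt_of_le_of_lt hL h.hw
  val := cval_of_le hL hβ hbig h.val
  xrec := h.xrec
  x0 := h.x0
  x1 := h.x1
  lo := h.lo
  hi := h.hi
  hM := h.hM
  run := h.run
  fin := h.fin

theorem vf_of_le {k : ℝ} {L₀ L : ℕ} (hL : L₀ ≤ L) (hβ : 4 ≤ k ^ ((2 : ℝ) / 3))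
    (hbig : (L : ℝ) ^ 400 ≤ (k ^ ((2 : ℝ) / 3) - 1 / 2) ^ L₀) {ρ : ℝ} {y : Tor}
    (h : VF k L ρ y) : VF k L₀ ρ y := by
  obtain ⟨xp, xm, w, M, w', M', h1, h2, h3, h4⟩ := h
  exact ⟨xp, xm, w, M, w', M', side_of_le hL hβ hbig h1, side_of_le hL hβ hbig h2, h3, h4⟩

/-- **G is antitone in `L`** (for `k` large): LOC is only needed for one `L₀`. -/
theorem G_subset {L₀ L : ℕ} (h1 : 1 ≤ L₀) (hL : L₀ ≤ L) :
    ∃ k1 : ℝ, ∀ k : ℝ, k1 ≤ k → ∀ n, G k L n ⊆ G k L₀ n := by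
  refine ⟨((L : ℝ) ^ 400 + 5) ^ ((3 : ℝ) / 2), fun k hk n y hy => ?_⟩
  have hA : (5 : ℝ) ≤ (L : ℝ) ^ 400 + 5 := by
    have : (0 : ℝ) ≤ (L : ℝ) ^ 400 := by positivity
    linarith
  have hk2 : (L : ℝ) ^ 400 + 5 ≤ k ^ ((2 : ℝ) / 3) := by
    have h2 : (((L : ℝ) ^ 400 + 5) ^ ((3 : ℝ) / 2)) ^ ((2 : ℝ) / 3) ≤ k ^ ((2 : ℝ) / 3) :=
      Real.rpow_le_rpow (by positivity) hk (by norm_num)
    rw [← Real.rpow_mul (by positivity)] at h2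
    norm_num at h2
    exact h2
  have hβ : 4 ≤ k ^ ((2 : ℝ) / 3) := by linarith
  have hbig : (L : ℝ) ^ 400 ≤ (k ^ ((2 : ℝ) / 3) - 1 / 2) ^ L₀ := by
    have h3 : (L : ℝ) ^ 400 ≤ k ^ ((2 : ℝ) / 3) - 1 / 2 := by linarith
    have h4 : (1 : ℝ) ≤ k ^ ((2 : ℝ) / 3) - 1 / 2 := by linarith
    calc (L : ℝ) ^ 400 ≤ k ^ ((2 : ℝ) / 3) - 1 / 2 := h3
      _ = (k ^ ((2 : ℝ) / 3) - 1 / 2) ^ 1 := (pow_one _).symm
      _ ≤ _ := pow_le_pow_right₀ h4 h1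
  obtain ⟨hV, ρ, hρ1, hρ2, hvf⟩ := hy
  exact ⟨hV, ρ, hρ1, hρ2, vf_of_le hL hβ hbig hvf⟩

end Crest.Agent.R128.GoodMono
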