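import Crest.Agent.R128.Good

/-!
# Row 128, node V5: the good set is invariant under the reversor (helper662)

`G_Rev : Rev k y ∈ G k L n ↔ y ∈ G k L n`; consequently the fibre `{x | pr (x, c) ∈ G k L n}` in the
coordinate `x = x_{-1}` (675 `PayArea`) and the fibre `{t | zt k c t ∈ G k L n}` in the coordinate
`t = x_1` (`LocA`) are the SAME subset of `ℝ` (`fibre_eq`), no reflection of dyadic cells.
-/

set_option autoImplicit false
open Crest.Agent.R128 Crest.Agent.R128.AlignMn Crest.Agent.R128.DictY Crest.Agent.R128.Lam0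
open Crest.Agent.R128.Good

namespace Crest.Agent.R128.GoodRev

theorem VF_Rev {k : ℝ} {L : ℕ} {ρ : ℝ} {y : Tor} (h : VF k L ρ y) : VF k L ρ (Rev k y) := by
  obtain ⟨xp, xm, w, M, w', M', h1, h2, h3, h4⟩ := h
  refine ⟨xm, xp, w', M', w, M, h2, ?_, h3.symm, ?_⟩
  · rw [Rev_Rev]
    exact h1
  · rw [Rev_snd, ← h3, add_comm]
    exact h4

theorem G_Rev' {k : ℝ} {L n : ℕ} {y : Tor} (h : y ∈ G k L n) : Rev k y ∈ G k L n := by
  obtain ⟨h1, ρ, h2, h3, h4⟩ := h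
  exact ⟨by rw [Rev_snd]; exact h1, ρ, h2, h3, VF_Rev h4⟩

/-- the good set is invariant under the reversor -/
theorem G_Rev {k : ℝ} {L n : ℕ} {y : Tor} : Rev k y ∈ G k L n ↔ y ∈ G k L n := by
  refine ⟨fun h => ?_, G_Rev'⟩
  have := G_Rev' h
  rwa [Rev_Rev] at this

/-- the point with `x_{-1} = x`, `x_0 = c` is the reversed point of `zt k c x` -/
theorem pr_eq_Rev_zt (k c x : ℝ) : pr (x, c) = Rev k (zt k c x) := by
  rw [Rev_zt]
  unfold zt
  rw [tb_tb]

/-- the two fibres are the same subset of `ℝ` -/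
theorem pr_mem_G {k : ℝ} {L n : ℕ} (c x : ℝ) : pr (x, c) ∈ G k L n ↔ zt k c x ∈ G k L n := by
  rw [pr_eq_Rev_zt, G_Rev]

theorem coe_mem_G {k : ℝ} {L n : ℕ} (c x : ℝ) :
    ((x : UnitAddCircle), (c : UnitAddCircle)) ∈ G k L n ↔ zt k c x ∈ G k L n :=
  pr_mem_G c x

theorem fibre_eq (k : ℝ) (L n : ℕ) (c : ℝ) :
    {x : ℝ | ((x : UnitAddCircle), (c : UnitAddCircle)) ∈ G k L n} =
      {t : ℝ | zt k c t ∈ G k L n} := by
  ext x
  exact coe_mem_G c x

/-- `{t | zt k c t ∈ G k L n}` is invariant under the reflection `t ↦ tb k c t` -/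
theorem zt_tb_mem {k : ℝ} {L n : ℕ} (c t : ℝ) : zt k c (tb k c t) ∈ G k L n ↔ zt k c t ∈ G k L n := by
  rw [← Rev_zt, G_Rev]

end Crest.Agent.R128.GoodRev
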