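import Mathlib
import Crest.Agent.R128.Acc

/-!
# Row 128: shares (weights) instead of exact tips, definitions (helper141)

`SH k h N z s`: there is a vector `v` at `z`, contracted below `exp (-h)` at some time of `[-N, 0)` and
at some time of `(0, N]`, of norm at most one in between, with `‖v‖ ≥ (1 + s) / 2`, and whose norm is
at most `‖v‖ - s / 2` at all the previous times of the window.  `W k h N z ∈ [0, 1]` is the
largest such `s` (`0` if there is none).
-/

set_option autoImplicit false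
open MeasureTheory Filter Topology Finset
open Crest.AnalysisR.StandardFamily
open Crest.Agent.R128.Acc

namespace Crest.Agent.R128.Share

/-- the point `z` has a share `s` of an arm of depth `h` -/
def SH (k h : ℝ) (N : ℕ) (z : Tor) (s : ℝ) : Prop :=
  ∃ i j : ℕ, 0 < i ∧ i ≤ N ∧ 0 < j ∧ j ≤ N ∧ ∃ (z' : Tor) (w : ℝ × ℝ),
    (T k)^[i] z' = z ∧ ‖w‖ ≤ Real.exp (-h) ∧
    (∀ m, m ≤ i + j → ‖act (Mn k m z') w‖ ≤ 1) ∧ ‖act (Mn k (i + j) z') w‖ ≤ Real.exp (-h) ∧
    1 / 2 + s / 2 ≤ ‖act (Mn k i z') w‖ ∧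
    (∀ m, m < i → ‖act (Mn k m z') w‖ + s / 2 ≤ ‖act (Mn k i z') w‖)

/-- the weight: the largest share -/
noncomputable def W (k h : ℝ) (N : ℕ) (z : Tor) : ℝ := sSup {s | s = 0 ∨ (0 ≤ s ∧ SH k h N z s)}

theorem SH.le_one {k h : ℝ} {N : ℕ} {z : Tor} {s : ℝ} (H : SH k h N z s) : s ≤ 1 := by
  obtain ⟨i, j, h1, h2, h3, h4, z', w, h5, h6, h7, h8, h9, h10⟩ := H
  have := h7 i (by omega)
  linarith

theorem SH.mono {k h h' : ℝ} {N N' : ℕ} {z : Tor} {s s' : ℝ} (H : SH k h N z s)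
    (hh : h' ≤ h) (hN : N ≤ N') (hs : s' ≤ s) : SH k h' N' z s' := by
  obtain ⟨i, j, h1, h2, h3, h4, z', w, h5, h6, h7, h8, h9, h10⟩ := H
  have e : Real.exp (-h) ≤ Real.exp (-h') := Real.exp_le_exp.mpr (by linarith)
  exact ⟨i, j, h1, h2.trans hN, h3, h4.trans hN, z', w, h5, h6.trans e, h7, h8.trans e,
    by linarith, fun m hm => by linarith [h10 m hm]⟩

theorem bdd (k h : ℝ) (N : ℕ) (z : Tor) : BddAbove {s | s = 0 ∨ (0 ≤ s ∧ SH k h N z s)} := by
  refine ⟨1, ?_⟩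
  rintro s (rfl | ⟨_, hs⟩)
  · norm_num
  · exact hs.le_one

theorem W_nonneg (k h : ℝ) (N : ℕ) (z : Tor) : 0 ≤ W k h N z :=
  le_csSup (bdd k h N z) (Or.inl rfl)

theorem W_le_one (k h : ℝ) (N : ℕ) (z : Tor) : W k h N z ≤ 1 := by
  unfold W
  refine csSup_le ⟨0, Or.inl rfl⟩ ?_
  rintro s (rfl | ⟨_, hs⟩)
  · norm_num
  · exact hs.le_one

theorem SH.le_W {k h : ℝ} {N : ℕ} {z : Tor} {s : ℝ} (H : SH k h N z s) : s ≤ W k h N z := by
  rcases le_or_gt 0 s with hs | hs
  · exact le_csSup (bdd k h N z) (Or.inr ⟨hs, H⟩)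
  · exact hs.le.trans (W_nonneg _ _ _ _)

/-- every exact tip is a point of share at least ... (the predecessor is strictly smaller) -/
theorem SH_V {k h : ℝ} {N : ℕ} {z : Tor} {s : ℝ} (hs : 0 < s) (H : SH k h N z s) :
    |V k z.2| ≤ 3 := by
  obtain ⟨i, j, h1, h2, h3, h4, z', w, h5, h6, h7, h8, h9, h10⟩ := H
  set u := act (Mn k (i - 1) z') w with hu
  set v := act (Mn k i z') w with hv
  have e1 : v = act (Am k ((T k)^[i - 1] z')) u := by
    rw [hv, hu, ← act_mul, ← Mn_succ', show i - 1 + 1 = i by omega]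
  have e2 : act (Mn k (i + 1) z') w = act (Am k z) v := by
    rw [hv, ← act_mul, ← h5, ← Mn_succ']
  have e3 : v.1 = u.2 := by
    rw [e1]
    simp [act, Am]
  have h10' := h10 (i - 1) (by omega)
  rw [← hu] at h10'
  have h11 : |v.1| < ‖v‖ := by
    rw [e3]
    have : |u.2| ≤ ‖u‖ := by simpa using norm_snd_le u
    linarith
  have h12 : |v.2| = ‖v‖ := by
    rw [Prod.norm_def] at h11 ⊢
    simp only [Real.norm_eq_abs] at h11 ⊢
    rcases le_total |v.1| |v.2| with h | h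
    · rw [max_eq_right h]
    · rw [max_eq_left h] at h11
      linarith
  have h13 := h7 (i + 1) (by omega)
  rw [e2] at h13
  have h14 : |(act (Am k z) v).2| ≤ 1 := by
    have : |(act (Am k z) v).2| ≤ ‖act (Am k z) v‖ := by simpa using norm_snd_le (act (Am k z) v)
    linarith
  have e4 : (act (Am k z) v).2 = V k z.2 * v.2 - v.1 := by
    simp [act, Am]
    ring
  rw [e4] at h14
  have h15 := abs_sub_abs_le_abs_sub (V k z.2 * v.2) v.1
  rw [abs_mul, h12] at h15
  by_contra hc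
  push Not at hc
  nlinarith

theorem W_eq_zero {k h : ℝ} {N : ℕ} {z : Tor} (H : 3 < |V k z.2|) : W k h N z = 0 := by
  refine le_antisymm ?_ (W_nonneg _ _ _ _)
  unfold W
  refine csSup_le ⟨0, Or.inl rfl⟩ ?_
  rintro s (rfl | ⟨h0, hs⟩)
  · exact le_rfl
  · by_contra hc
    push Not at hc
    exact absurd (SH_V hc hs) (not_le.mpr H)

end Crest.Agent.R128.Share
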