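import Crest.Agent.R128.Pert
import Crest.Agent.R128.AlignMn
import Crest.Agent.R128.CellOrb
import Crest.Agent.R128.ShareDef

/-!
# Row 128: stability of vectors, relaxed tips and weights inside a cell (helper466)

`z = pr (a, c)`, `(a, c) = (x_{-1}, x_0)`; the cell moves `a` (equivalently `x_1 = F c - a`), with `c`
fixed.  `field_stable`: a two-sided Jacobi field `x` of `z`, small at both ends of a window, is
followed up to `ε` by the field `x'` of `z' = pr (a', c)` with the same `(x (-1), x 0)` between the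
first passages of depth `r`.  `SH_stable`, `W_stable`: the same for 141's shares and weights.
-/

set_option autoImplicit false
open MeasureTheory Filter Topology
open Crest.Agent.R128 Crest.Agent.R128.Two Crest.Agent.R128.Acc Crest.Agent.R128.AlignMn
open Crest.Agent.R128.Cell Crest.Agent.R128.Share Crest.Agent.R128.Pert
open Crest.Agent.R128.TreeSum

namespace Crest.Agent.R128.H1

/-- shares in terms of a two-sided Jacobi field -/
theorem SH_iff {k h : ℝ} {N : ℕ} {z : Tor} {s : ℝ} : SH k h N z s ↔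
    ∃ x : ℤ → ℝ, (∀ n, x (n + 1) = dz k z n * x n - x (n - 1)) ∧
      ∃ i j : ℕ, 0 < i ∧ i ≤ N ∧ 0 < j ∧ j ≤ N ∧
      (∀ n : ℤ, -(i : ℤ) - 1 ≤ n → n ≤ j → |x n| ≤ 1) ∧
      |x (-(i : ℤ) - 1)| ≤ Real.exp (-h) ∧ |x (-(i : ℤ))| ≤ Real.exp (-h) ∧
      |x ((j : ℤ) - 1)| ≤ Real.exp (-h) ∧ |x j| ≤ Real.exp (-h) ∧
      1 / 2 + s / 2 ≤ max |x (-1)| |x 0| ∧
      (∀ n : ℤ, -(i : ℤ) ≤ n → n < 0 → max |x (n - 1)| |x n| + s / 2 ≤ max |x (-1)| |x 0|) := by
  constructor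
  · rintro ⟨i, j, hi, hiN, hj, hjN, z', w, hz, hw, h3, h4, h1, h2⟩
    have hz' : z' = Tz k (-(i : ℤ)) z := by
      rw [← hz, ← Tz_natCast, Tz_neg_cancel]
    subst hz'
    obtain ⟨v, hv⟩ : ∃ v, act (Az k (-(i : ℤ)) z) v = w := by
      refine ⟨act (Mn k i (Tz k (-(i : ℤ)) z)) w, ?_⟩
      rw [← act_mul, ← Az_natCast]
      have : Az k (-(i : ℤ)) z * Az k (i : ℤ) (Tz k (-(i : ℤ)) z) = 1 := by
        have h5 := Az_add k (-(i : ℤ)) (i : ℤ) (Tz k (-(i : ℤ)) z)
        rw [Tz_neg_cancel', neg_add_cancel, Az_zero] at h5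
        exact h5.symm
      rw [this, act_one]
    subst hv
    simp only [act_Mn_Tz, norm_act_Az] at h1 h2 h3 h4
    rw [norm_act_Az] at hw
    rw [max_le_iff] at hw h4
    rw [sub_self] at h1
    norm_num at h1
    refine ⟨xf k z v, xf_succ k z v, i, j, hi, hiN, hj, hjN, ?_, hw.1, hw.2, ?_, ?_, ?_, ?_⟩
    · intro n hn1 hn2
      rcases eq_or_lt_of_le hn1 with h7 | h7
      · have := h3 0 (by omega)
        rw [max_le_iff] at this
        have h8 := this.1
        rw [← h7]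
        rwa [show ((0 : ℕ) : ℤ) - i - 1 = -(i : ℤ) - 1 by push_cast; ring] at h8
      · obtain ⟨m, hm⟩ : ∃ m : ℕ, (m : ℤ) = n + i := ⟨(n + i).toNat, by omega⟩
        have := h3 m (by omega)
        rw [max_le_iff] at this
        have h8 := this.2
        rwa [show (m : ℤ) - i = n by omega] at h8
    · have h8 := h4.1
      rwa [show (((i + j : ℕ) : ℤ) - i) = j by push_cast; ring] at h8
    · have h8 := h4.2
      rwa [show (((i + j : ℕ) : ℤ) - i) = j by push_cast; ring] at h8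
    · rw [le_max_iff]
      exact h1
    · intro n hn1 hn2
      obtain ⟨m, hm⟩ : ∃ m : ℕ, (m : ℤ) = n + i := ⟨(n + i).toNat, by omega⟩
      have h8 := h2 m (by omega)
      rw [show (m : ℤ) - i = n by omega, sub_self] at h8
      simpa using h8
  · rintro ⟨x, hx, i, j, hi, hiN, hj, hjN, hall, ha, hb, hc, hd, h1, h2⟩
    have hxx : ∀ n, xf k z (x (-1), x 0) n = x n := fun n => (eq_xf hx n).symm
    refine ⟨i, j, hi, hiN, hj, hjN, Tz k (-(i : ℤ)) z, act (Az k (-(i : ℤ)) z) (x (-1), x 0),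
      ?_, ?_, ?_, ?_, ?_, ?_⟩
    · rw [← Tz_natCast, Tz_neg_cancel']
    · rw [norm_act_Az, hxx, hxx]
      exact max_le ha hb
    · intro m hm
      rw [act_Mn_Tz, norm_act_Az, hxx, hxx]
      exact max_le (hall _ (by omega) (by omega)) (hall _ (by omega) (by omega))
    · rw [act_Mn_Tz, norm_act_Az, hxx, hxx,
        show (((i + j : ℕ) : ℤ) - i) = j by push_cast; ring]
      exact max_le hc hd
    · rw [act_Mn_Tz, norm_act_Az, hxx, hxx, sub_self]
      simpa using h1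
    · intro m hm
      rw [act_Mn_Tz, norm_act_Az, hxx, hxx, act_Mn_Tz, norm_act_Az, hxx, hxx, sub_self]
      simpa using h2 ((m : ℤ) - i) (by omega) (by omega)

/-! ### the real orbit -/

/-- the orbit with `X 0 = u`, `X 1 = v` -/
noncomputable def gen (k u v : ℝ) : ℕ → ℝ
  | 0 => u
  | 1 => v
  | n + 2 => 2 * gen k u v (n + 1) + k * Real.sin (2 * Real.pi * gen k u v (n + 1)) - gen k u v n

theorem gen_zero (k u v : ℝ) : gen k u v 0 = u := by rw [gen]
theorem gen_one (k u v : ℝ) : gen k u v 1 = v := by rw [gen]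
theorem gen_succ_succ (k u v : ℝ) (n : ℕ) : gen k u v (n + 2) =
    2 * gen k u v (n + 1) + k * Real.sin (2 * Real.pi * gen k u v (n + 1)) - gen k u v n := by
  rw [gen]

theorem iterate_pr (k u v : ℝ) (n : ℕ) :
    (T k)^[n] (pr (u, v)) = pr (gen k u v n, gen k u v (n + 1)) := by
  induction n with
  | zero => rw [Function.iterate_zero_apply, gen_zero, zero_add, gen_one]
  | succ n ih =>
    rw [Function.iterate_succ_apply', ih, ← pr_rstep]
    unfold rstep
    rw [gen_succ_succ]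

theorem iterate_pr_inv (k u v : ℝ) (n : ℕ) :
    (Tinv k)^[n] (pr (u, v)) = pr (gen k v u (n + 1), gen k v u n) := by
  induction n with
  | zero => rw [Function.iterate_zero_apply, gen_zero, zero_add, gen_one]
  | succ n ih =>
    rw [Function.iterate_succ_apply', ih]
    have h : T k (pr (gen k v u (n + 2), gen k v u (n + 1))) =
        pr (gen k v u (n + 1), gen k v u n) := by
      rw [← pr_rstep]
      unfold rstep
      rw [gen_succ_succ]
      congr 2
      ring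
    rw [← h, Tinv_T]

theorem Tz_neg_natCast (k : ℝ) (n : ℕ) (z : Tor) : Tz k (-(n : ℤ)) z = (Tinv k)^[n] z := by
  induction n with
  | zero => simp [Tz]
  | succ n ih =>
    rw [show (-((n + 1 : ℕ) : ℤ)) = -1 + -(n : ℤ) by push_cast; ring, Tz_add, ih, Tz_neg_one,
      Function.iterate_succ_apply']

theorem dz_pos_eq (k a c : ℝ) (n : ℕ) :
    dz k (pr (a, c)) n = Vr k (gen k c (2 * c + k * Real.sin (2 * Real.pi * c) - a) n) := by
  have h : ∀ n, gen k a c (n + 1) = gen k c (2 * c + k * Real.sin (2 * Real.pi * c) - a) n := by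
    intro n
    induction n using Nat.strong_induction_on with
    | _ n ih =>
      match n with
      | 0 => rw [gen_zero, zero_add, gen_one]
      | 1 => rw [gen_one, gen_succ_succ, gen_zero, zero_add, gen_one]
      | n + 2 => rw [gen_succ_succ k c, ← ih (n + 1) (by omega), ← ih n (by omega), gen_succ_succ]
  unfold dz
  rw [Tz_natCast, iterate_pr]
  show V k ((gen k a c (n + 1) : ℝ) : UnitAddCircle) = _
  rw [V_coe, h]
  rfl

theorem dz_neg_eq (k a c : ℝ) (n : ℕ) :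
    dz k (pr (a, c)) (-(n : ℤ)) = Vr k (gen k c a n) := by
  unfold dz
  rw [Tz_neg_natCast, iterate_pr_inv]
  show V k ((gen k c a n : ℝ) : UnitAddCircle) = _
  rw [V_coe]
  rfl

/-! ### one side -/

theorem nn_le_of_le {p : ℝ × ℝ} {b : ℝ} (h1 : |p.1| ≤ b) (h2 : |p.2| ≤ b) : nn p ≤ 2 * b := by
  have := nn_le_add p
  linarith

theorem max_le_nn (p : ℝ × ℝ) : max |p.1| |p.2| ≤ nn p := max_le (abs_fst_le p) (abs_snd_le p)

theorem step_low {A V p q t : ℝ} (hA : 0 ≤ A) (hV : |V| ≤ A) (h : p = V * q - t) :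
    max |p| |q| ≤ (A + 1) * max |q| |t| := by
  have hq := le_max_left |q| |t|
  have ht := le_max_right |q| |t|
  have hm : 0 ≤ max |q| |t| := (abs_nonneg q).trans hq
  apply max_le
  · rw [h]
    have h1 : |V * q - t| ≤ |V * q| + |t| := abs_sub _ _
    rw [abs_mul] at h1
    have h2 : |V| * |q| ≤ A * max |q| |t| := mul_le_mul hV hq (abs_nonneg q) hA
    linarith
  · nlinarith

theorem side {V ξ : ℕ → ℝ} {A e0 : ℝ} {M : ℕ} (hA : 0 ≤ A) (hV : ∀ n, |V n| ≤ A)
    (hξ : ∀ n, ξ (n + 2) = V (n + 1) * ξ (n + 1) - ξ n) (he0 : 0 < e0)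
    (hbig : ∀ n, n < M → e0 ≤ max |ξ n| |ξ (n + 1)|)
    (hM : e0 / (A + 1) ≤ max |ξ M| |ξ (M + 1)|)
    (hle : ∀ n, n ≤ M + 1 → |ξ n| ≤ 1) :
    ∀ n, n ≤ M + 1 → e0 / (A + 1) ^ 2 ≤ nn (pair ξ n) ∧ nn (pair ξ n) ≤ 2 * (A + 1) := by
  have hA1 : 1 ≤ A + 1 := by linarith
  have hA0 : 0 < A + 1 := by linarith
  have d1 : e0 / (A + 1) ≤ e0 := div_le_self he0.le hA1
  have d2 : e0 / (A + 1) ^ 2 ≤ e0 / (A + 1) := by
    rw [sq, ← div_div]
    exact div_le_self (by positivity) hA1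
  intro n hn
  rcases Nat.lt_or_ge n M with h | h
  · refine ⟨(d2.trans d1).trans ((hbig n h).trans (max_le_nn (pair ξ n))), ?_⟩
    have := nn_le_of_le (p := pair ξ n) (hle n (by omega)) (hle (n + 1) (by omega))
    linarith
  rcases Nat.eq_or_lt_of_le h with h | h
  · subst h
    refine ⟨d2.trans (hM.trans (max_le_nn (pair ξ M))), ?_⟩
    have := nn_le_of_le (p := pair ξ M) (hle M (by omega)) (hle (M + 1) (by omega))
    linarith
  · obtain rfl : n = M + 1 := by omega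
    have h1 := step_low (A := A) (V := V (M + 1)) (p := ξ M) (q := ξ (M + 1)) (t := ξ (M + 2)) hA
      (hV _) (by rw [hξ]; ring)
    have h2 : e0 / (A + 1) ^ 2 ≤ max |ξ (M + 1)| |ξ (M + 2)| := by
      rw [sq, ← div_div, div_le_iff₀ hA0]
      linarith
    refine ⟨h2.trans (max_le_nn (pair ξ (M + 1))), ?_⟩
    have h3 : |ξ (M + 2)| ≤ A + 1 := by
      rw [hξ]
      have h4 : |V (M + 1) * ξ (M + 1) - ξ M| ≤ |V (M + 1) * ξ (M + 1)| + |ξ M| := abs_sub _ _
      rw [abs_mul] at h4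
      have h5 : |V (M + 1)| * |ξ (M + 1)| ≤ A * 1 :=
        mul_le_mul (hV _) (hle _ le_rfl) (abs_nonneg _) hA
      have h6 := hle M (by omega)
      linarith
    exact nn_le_of_le (p := pair ξ (M + 1)) ((hle _ le_rfl).trans hA1) h3


/-- the bound of the digits -/
noncomputable def AA (k : ℝ) : ℝ := 2 + 2 * Real.pi * k

theorem AA_nonneg {k : ℝ} (hk : 0 ≤ k) : 0 ≤ AA k := by
  unfold AA
  have := Real.pi_pos
  positivity

theorem abs_Vr_le {k : ℝ} (hk : 0 ≤ k) (x : ℝ) : |Vr k x| ≤ AA k := by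
  unfold Vr AA
  have hp := Real.pi_pos
  have h1 := Real.abs_cos_le_one (2 * Real.pi * x)
  have h2 : |2 + 2 * Real.pi * k * Real.cos (2 * Real.pi * x)| ≤
      |2| + |2 * Real.pi * k * Real.cos (2 * Real.pi * x)| := abs_add_le _ _
  rw [abs_mul, abs_of_nonneg (by positivity : 0 ≤ 2 * Real.pi * k), abs_two] at h2
  have h3 : 2 * Real.pi * k * |Real.cos (2 * Real.pi * x)| ≤ 2 * Real.pi * k * 1 :=
    mul_le_mul_of_nonneg_left h1 (by positivity)
  linarith

theorem numeric {k e0 d ε : ℝ} {N N' : ℕ} (hk : 1 ≤ k) (he0 : 0 < e0) (he1 : e0 ≤ 1)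
    (hN : N ≤ N' + 1) (hd : 0 ≤ d)
    (hε : 10 ^ 19 * k ^ 16 * ((N' : ℝ) + 1) ^ 3 * d ≤ ε * e0 ^ 4) :
    4 * cc k * N * BB (e0 / (AA k + 1) ^ 2) (2 * (AA k + 1)) (2 + 2 * Real.pi * k) N ^ 2 * d *
      (2 * (AA k + 1)) ≤ ε := by
  have hp := Real.pi_pos
  have hp2 : Real.pi ≤ 3.1416 := Real.pi_lt_d4.le
  have hk0 : 0 < k := by linarith
  have hA0 := AA_nonneg hk0.le
  have eA : (2 + 2 * Real.pi * k : ℝ) = AA k := rfl
  rw [eA]
  have a1 : AA k + 1 ≤ 10 * k := by unfold AA; nlinarith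
  have a2 : AA k + 2 ≤ 11 * k := by unfold AA; nlinarith
  set A := AA k
  set M : ℝ := (N' : ℝ) + 1 with hM
  have hM1 : 1 ≤ M := by
    have : (0 : ℝ) ≤ N' := Nat.cast_nonneg _
    linarith
  have hNM : (N : ℝ) ≤ M := by
    rw [hM]
    exact_mod_cast hN
  have c1 : 4 * cc k ≤ 158 * k := by
    unfold cc
    have : Real.pi ^ 2 ≤ 9.87 := by nlinarith
    nlinarith
  have c0 : 0 ≤ cc k := by unfold cc; positivity
  have hB : BB (e0 / (A + 1) ^ 2) (2 * (A + 1)) A N ≤ 4.5e7 * k ^ 7 * M / e0 ^ 2 := by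
    unfold BB
    have e1 : 2 * (2 * (A + 1) / (e0 / (A + 1) ^ 2)) +
        (2 * (A + 1)) ^ 2 * (N * (A + 2) / (e0 / (A + 1) ^ 2) ^ 2) =
        (4 * (A + 1) ^ 3 * e0 + 4 * (A + 1) ^ 6 * (A + 2) * N) / e0 ^ 2 := by
      field_simp
      ring
    rw [e1]
    gcongr
    have b1 : 4 * (A + 1) ^ 3 * e0 ≤ 4 * (10 * k) ^ 3 * 1 := by gcongr
    have b2 : 4 * (A + 1) ^ 6 * (A + 2) * N ≤ 4 * (10 * k) ^ 6 * (11 * k) * M := by gcongr
    have b3 : k ^ 3 ≤ k ^ 7 * M := by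
      calc k ^ 3 ≤ k ^ 7 := pow_le_pow_right₀ hk (by norm_num)
        _ = k ^ 7 * 1 := by ring
        _ ≤ k ^ 7 * M := by gcongr
    have b4 : 0 ≤ k ^ 7 * M := by positivity
    have b5 : 4 * (10 * k) ^ 3 * 1 = 4000 * k ^ 3 := by ring
    have b6 : 4 * (10 * k) ^ 6 * (11 * k) * M = 4.4e7 * (k ^ 7 * M) := by ring
    have b7 : (4.5e7 : ℝ) * k ^ 7 * M = 4.5e7 * (k ^ 7 * M) := by ring
    rw [b7]
    linarith
  have hB0 : 0 ≤ BB (e0 / (A + 1) ^ 2) (2 * (A + 1)) A N :=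
    BB_nonneg (by positivity) (by positivity) hA0 N
  calc 4 * cc k * N * BB (e0 / (A + 1) ^ 2) (2 * (A + 1)) A N ^ 2 * d * (2 * (A + 1))
      ≤ 158 * k * M * (4.5e7 * k ^ 7 * M / e0 ^ 2) ^ 2 * d * (2 * (10 * k)) := by gcongr
    _ = 6.399e18 * (k ^ 16 * M ^ 3 * d) / e0 ^ 4 := by
      field_simp
      ring
    _ ≤ ε := by
      rw [div_le_iff₀ (by positivity)]
      have : 0 ≤ k ^ 16 * M ^ 3 * d := by positivity
      nlinarith

/-- **two-sided stability of a Jacobi field** -/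
theorem field_stable {k r ε a a' c : ℝ} {N : ℕ} {x : ℤ → ℝ} (hk : 1 ≤ k)
    (hr : Real.log 2 ≤ r) (hε1 : ε ≤ 1)
    (hε : 10 ^ 19 * k ^ 16 * ((N : ℝ) + 1) ^ 3 * |a' - a| ≤ ε * Real.exp (-r) ^ 4)
    (hx : ∀ n, x (n + 1) = dz k (pr (a, c)) n * x n - x (n - 1))
    (hinit : 1 / 2 ≤ max |x (-1)| |x 0|)
    {i j : ℕ} (hi : 0 < i) (hiN : i ≤ N) (hj : 0 < j) (hjN : j ≤ N)
    (hall : ∀ n : ℤ, -(i : ℤ) - 1 ≤ n → n ≤ j → |x n| ≤ 1)
    (h1 : |x (-(i : ℤ) - 1)| ≤ Real.exp (-r)) (h2 : |x (-(i : ℤ))| ≤ Real.exp (-r))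
    (h3 : |x ((j : ℤ) - 1)| ≤ Real.exp (-r)) (h4 : |x j| ≤ Real.exp (-r)) :
    ∃ (i' j' : ℕ) (x' : ℤ → ℝ), 0 < i' ∧ i' ≤ i ∧ 0 < j' ∧ j' ≤ j ∧
      (∀ n, x' (n + 1) = dz k (pr (a', c)) n * x' n - x' (n - 1)) ∧
      x' (-1) = x (-1) ∧ x' 0 = x 0 ∧
      |x (-(i' : ℤ) - 1)| ≤ Real.exp (-r) ∧ |x (-(i' : ℤ))| ≤ Real.exp (-r) ∧
      |x ((j' : ℤ) - 1)| ≤ Real.exp (-r) ∧ |x j'| ≤ Real.exp (-r) ∧
      ∀ n : ℤ, -(i' : ℤ) - 1 ≤ n → n ≤ j' → |x' n - x n| ≤ ε := by
  classical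
  have hk0 : 0 < k := by linarith
  have hp := Real.pi_pos
  set e0 := Real.exp (-r) with he0def
  have he0 : 0 < e0 := Real.exp_pos _
  have he0h : e0 ≤ 1 / 2 := by
    rw [he0def, Real.exp_neg, one_div]
    apply inv_anti₀ (by norm_num)
    calc (2 : ℝ) = Real.exp (Real.log 2) := (Real.exp_log (by norm_num)).symm
      _ ≤ Real.exp r := Real.exp_le_exp.mpr hr
  have hA0 := AA_nonneg hk0.le
  have hdz : ∀ n, |dz k (pr (a, c)) n| ≤ AA k := by
    intro n
    obtain ⟨m, rfl | rfl⟩ := n.eq_nat_or_neg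
    · rw [dz_pos_eq]; exact abs_Vr_le hk0.le _
    · rw [dz_neg_eq]; exact abs_Vr_le hk0.le _
  -- first passages
  have hexj : ∃ m : ℕ, 0 < m ∧ max |x ((m : ℤ) - 1)| |x m| ≤ e0 := ⟨j, hj, max_le h3 h4⟩
  have hexi : ∃ m : ℕ, 0 < m ∧ max |x (-(m : ℤ) - 1)| |x (-(m : ℤ))| ≤ e0 := ⟨i, hi, max_le h1 h2⟩
  set j' := Nat.find hexj with hj'
  set i' := Nat.find hexi with hi'
  obtain ⟨pj, qj⟩ := Nat.find_spec hexj
  obtain ⟨pi', qi⟩ := Nat.find_spec hexi
  rw [← hj'] at pj qj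
  rw [← hi'] at pi' qi
  have ljj : j' ≤ j := Nat.find_min' hexj ⟨hj, max_le h3 h4⟩
  have lii : i' ≤ i := Nat.find_min' hexi ⟨hi, max_le h1 h2⟩
  -- lower bounds of the pairs before the passages
  have lowj : ∀ m : ℕ, m < j' → e0 ≤ max |x ((m : ℤ) - 1)| |x m| := by
    intro m hm
    rcases Nat.eq_zero_or_pos m with h | h
    · subst h
      have : max |x (((0 : ℕ) : ℤ) - 1)| |x ((0 : ℕ) : ℤ)| = max |x (-1)| |x 0| := by norm_num
      rw [this]
      linarith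
    · have := Nat.find_min hexj hm
      push Not at this
      exact (this h).le
  have lowi : ∀ m : ℕ, m < i' → e0 ≤ max |x (-(m : ℤ) - 1)| |x (-(m : ℤ))| := by
    intro m hm
    rcases Nat.eq_zero_or_pos m with h | h
    · subst h
      have : max |x (-((0 : ℕ) : ℤ) - 1)| |x (-((0 : ℕ) : ℤ))| = max |x (-1)| |x 0| := by norm_num
      rw [this]
      linarith
    · have := Nat.find_min hexi hm
      push Not at this
      exact (this h).le
  set v : ℝ × ℝ := (x (-1), x 0) with hv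
  set x' : ℤ → ℝ := xf k (pr (a', c)) v with hx'def
  have hx' : ∀ n, x' (n + 1) = dz k (pr (a', c)) n * x' n - x' (n - 1) := xf_succ k _ v
  have hm1 : x' (-1) = x (-1) := xf_neg_one k _ v
  have h00 : x' 0 = x 0 := xf_zero k _ v
  have h11 : x' 1 = x 1 := by
    have e1 := hx' 0
    have e2 := hx 0
    rw [dz_zero] at e1 e2
    rw [zero_add, zero_sub] at e1 e2
    rw [e1, e2, hm1, h00]
    rfl
  have hU1 : (1 : ℝ) ≤ 2 * (AA k + 1) := by linarith
  have hd0 : 0 ≤ |a' - a| := abs_nonneg _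
  -- generic one-sided application
  have one : ∀ (u b b' : ℝ) (ξ ξ' : ℕ → ℝ) (M : ℕ), |b' - b| ≤ |a' - a| → M ≤ N →
      (∀ n, ξ (n + 2) = Vr k (gen k u b (n + 1)) * ξ (n + 1) - ξ n) →
      (∀ n, ξ' (n + 2) = Vr k (gen k u b' (n + 1)) * ξ' (n + 1) - ξ' n) →
      ξ' 0 = ξ 0 → ξ' 1 = ξ 1 →
      (∀ n, n < M → e0 ≤ max |ξ n| |ξ (n + 1)|) →
      (e0 / (AA k + 1) ≤ max |ξ M| |ξ (M + 1)|) →
      (∀ n, n ≤ M + 1 → |ξ n| ≤ 1) → ∀ n, n ≤ M + 1 → |ξ' n - ξ n| ≤ ε := by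
    intro u b b' ξ ξ' M hb hMN g1 g2 g3 g4 g5 g6 g7
    have hs := side (V := fun n => Vr k (gen k u b n)) (ξ := ξ) (A := AA k) (e0 := e0) (M := M)
      hA0 (fun n => abs_Vr_le hk0.le _) g1 he0 g5 g6 g7
    have hnum := numeric (N := M + 1) (N' := N) hk he0 (by linarith) (by omega) hd0 hε
    have hnn : 0 ≤ 4 * cc k * ((M + 1 : ℕ) : ℝ) *
        BB (e0 / (AA k + 1) ^ 2) (2 * (AA k + 1)) (2 + 2 * Real.pi * k) (M + 1) ^ 2 * |a' - a| := by
      have : 0 ≤ cc k := by unfold cc; positivity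
      positivity
    have hone : 4 * cc k * ((M + 1 : ℕ) : ℝ) *
        BB (e0 / (AA k + 1) ^ 2) (2 * (AA k + 1)) (2 + 2 * Real.pi * k) (M + 1) ^ 2 * |a' - a|
        ≤ 1 := by
      nlinarith
    exact (perturb_side (k := k) hk0.le (X := gen k u b) (X' := gen k u b') (ξ := ξ) (ξ' := ξ')
      (fun n => gen_succ_succ k u b n) (fun n => gen_succ_succ k u b' n) g1 g2
      (by rw [gen_zero, gen_zero]) g3 g4 (e := e0 / (AA k + 1) ^ 2) (U := 2 * (AA k + 1))
      (by positivity) (N := M + 1) (fun n hn => (hs n hn).1) (fun n hn => (hs n hn).2)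
      (d := |a' - a|) (by rw [gen_one, gen_one]; exact hb) hone).2 ε (by linarith) hnum
  -- right side
  have hA1 : 0 < AA k + 1 := by linarith
  have right : ∀ n : ℕ, n ≤ j' → |x' n - x n| ≤ ε := by
    obtain ⟨M, hM⟩ : ∃ M, j' = M + 1 := ⟨j' - 1, by omega⟩
    intro n hn
    refine one c (2 * c + k * Real.sin (2 * Real.pi * c) - a)
      (2 * c + k * Real.sin (2 * Real.pi * c) - a') (fun n => x n) (fun n => x' n) M ?_ (by omega)
      ?_ ?_ ?_ ?_ ?_ ?_ ?_ n (by omega)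
    · rw [show 2 * c + k * Real.sin (2 * Real.pi * c) - a' -
        (2 * c + k * Real.sin (2 * Real.pi * c) - a) = -(a' - a) by ring, abs_neg]
    · intro n
      have := hx ((n : ℤ) + 1)
      rw [← Nat.cast_succ, dz_pos_eq] at this
      rw [show (((n + 2 : ℕ)) : ℤ) = ((n + 1 : ℕ) : ℤ) + 1 by push_cast; ring, this]
      congr 2
      push_cast
      ring
    · intro n
      have := hx' ((n : ℤ) + 1)
      rw [← Nat.cast_succ, dz_pos_eq] at this
      rw [show (((n + 2 : ℕ)) : ℤ) = ((n + 1 : ℕ) : ℤ) + 1 by push_cast; ring, this]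
      congr 2
      push_cast
      ring
    · exact_mod_cast h00
    · exact_mod_cast h11
    · intro n hn
      have := lowj (n + 1) (by omega)
      rwa [show (((n + 1 : ℕ)) : ℤ) - 1 = n by push_cast; ring] at this
    · have e1 := lowj M (by omega)
      have e2 := step_low (A := AA k) (V := dz k (pr (a, c)) M) (p := x ((M : ℤ) - 1)) (q := x M)
        (t := x ((M : ℤ) + 1)) hA0 (hdz _) (by rw [hx]; ring)
      rw [div_le_iff₀ hA1, mul_comm]
      push_cast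
      exact e1.trans e2
    · intro n hn
      exact hall n (by omega) (by omega)
  have left : ∀ n : ℕ, n ≤ i' + 1 → |x' (-(n : ℤ)) - x (-(n : ℤ))| ≤ ε := by
    intro n hn
    refine one c a a' (fun n => x (-(n : ℤ))) (fun n => x' (-(n : ℤ))) i' le_rfl (by omega)
      ?_ ?_ ?_ ?_ ?_ ?_ ?_ n (by omega)
    · intro n
      have := hx (-((n + 1 : ℕ) : ℤ))
      rw [dz_neg_eq] at this
      rw [show (-((n + 2 : ℕ) : ℤ)) = -((n + 1 : ℕ) : ℤ) - 1 by push_cast; ring]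
      rw [show (-((n : ℕ) : ℤ)) = -((n + 1 : ℕ) : ℤ) + 1 by push_cast; ring]
      linarith
    · intro n
      have := hx' (-((n + 1 : ℕ) : ℤ))
      rw [dz_neg_eq] at this
      rw [show (-((n + 2 : ℕ) : ℤ)) = -((n + 1 : ℕ) : ℤ) - 1 by push_cast; ring]
      rw [show (-((n : ℕ) : ℤ)) = -((n + 1 : ℕ) : ℤ) + 1 by push_cast; ring]
      linarith
    · simpa using h00
    · simpa using hm1
    · intro n hn
      have := lowi n hn
      rw [max_comm] at this
      rwa [show (-((n + 1 : ℕ) : ℤ)) = -(n : ℤ) - 1 by push_cast; ring]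
    · obtain ⟨M, hM⟩ : ∃ M, i' = M + 1 := ⟨i' - 1, by omega⟩
      have e1 := lowi M (by omega)
      rw [max_comm] at e1
      have e2 := step_low (A := AA k) (V := dz k (pr (a, c)) (-(i' : ℤ))) (p := x (-(M : ℤ)))
        (q := x (-(i' : ℤ))) (t := x (-(i' : ℤ) - 1)) hA0 (hdz _) (by
          have := hx (-(i' : ℤ))
          rw [show -(i' : ℤ) + 1 = -(M : ℤ) by rw [hM]; push_cast; ring] at this
          exact this)
      rw [div_le_iff₀ hA1, mul_comm]
      rw [show (-((i' + 1 : ℕ) : ℤ)) = -(i' : ℤ) - 1 by push_cast; ring]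
      refine e1.trans (le_trans ?_ e2)
      rw [show -(i' : ℤ) = -(M : ℤ) - 1 by rw [hM]; push_cast; ring]
    · intro n hn
      exact hall _ (by omega) (by omega)
  refine ⟨i', j', x', pi', lii, pj, ljj, hx', hm1, h00, (le_max_left _ _).trans qi,
    (le_max_right _ _).trans qi, (le_max_left _ _).trans qj, (le_max_right _ _).trans qj, ?_⟩
  intro n hn1 hn2
  obtain ⟨m, rfl | rfl⟩ := n.eq_nat_or_neg
  · exact right m (by exact_mod_cast hn2)
  · exact left m (by omega)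


/-- **stability of shares** -/
theorem SH_stable {k h r ε a a' c s : ℝ} {N : ℕ} (hk : 1 ≤ k) (hr : Real.log 2 ≤ r) (hrh : r ≤ h)
    (hε0 : 0 ≤ ε) (hεr : ε ≤ Real.exp (-r))
    (hε : 10 ^ 19 * k ^ 16 * ((N : ℝ) + 1) ^ 3 * |a' - a| ≤ ε * Real.exp (-r) ^ 4)
    (hs : 0 ≤ s) (H : SH k h N (pr (a, c)) s) :
    SH k (r - Real.log 2) N (pr (a', c)) (s - 4 * ε) := by
  have hs1 := H.le_one
  have he : Real.exp (-r) ≤ 1 := by
    rw [Real.exp_le_one_iff]
    have := Real.log_nonneg (by norm_num : (1 : ℝ) ≤ 2)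
    linarith
  obtain ⟨x, hx, i, j, hi, hiN, hj, hjN, hall, h1, h2, h3, h4, h5, h6⟩ := SH_iff.mp H
  have hexp : Real.exp (-h) ≤ Real.exp (-r) := Real.exp_le_exp.mpr (by linarith)
  obtain ⟨i', j', x', hi', hii, hj', hjj, hx', hm1, h00, q1, q2, q3, q4, hcl⟩ :=
    field_stable (ε := ε) hk hr (hεr.trans he) hε hx (by linarith) hi hiN hj hjN hall
      (h1.trans hexp) (h2.trans hexp) (h3.trans hexp) (h4.trans hexp)
  have hpos : 0 < 1 + ε := by linarith
  have hend : ∀ y y' : ℝ, |y| ≤ Real.exp (-r) → |y' - y| ≤ ε →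
      |y' / (1 + ε)| ≤ Real.exp (-(r - Real.log 2)) := by
    intro y y' g1 g2
    have e1 : Real.exp (-(r - Real.log 2)) = 2 * Real.exp (-r) := by
      rw [neg_sub, sub_eq_add_neg, Real.exp_add, Real.exp_log (by norm_num)]
    have g3 : |y'| ≤ |y| + |y' - y| := by
      have := abs_add_le y (y' - y)
      simpa using this
    rw [e1, abs_div, abs_of_pos hpos, div_le_iff₀ hpos]
    have : 0 < Real.exp (-r) := Real.exp_pos _
    nlinarith
  rw [SH_iff]
  refine ⟨fun n => x' n / (1 + ε), ?_, i', j', hi', hii.trans hiN, hj', hjj.trans hjN, ?_, ?_, ?_,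
    ?_, ?_, ?_, ?_⟩
  · intro n
    show x' (n + 1) / (1 + ε) = _
    rw [hx']
    ring
  · intro n hn1 hn2
    show |x' n / (1 + ε)| ≤ 1
    rw [abs_div, abs_of_pos hpos, div_le_one hpos]
    have g1 := hcl n hn1 hn2
    have g2 := hall n (by omega) (by omega)
    have g3 : |x' n| ≤ |x n| + |x' n - x n| := by
      have := abs_add_le (x n) (x' n - x n)
      simpa using this
    linarith
  · exact hend _ _ q1 (hcl _ (by omega) (by omega))
  · exact hend _ _ q2 (hcl _ (by omega) (by omega))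
  · exact hend _ _ q3 (hcl _ (by omega) (by omega))
  · exact hend _ _ q4 (hcl _ (by omega) (by omega))
  · show _ ≤ max |x' (-1) / (1 + ε)| |x' 0 / (1 + ε)|
    rw [abs_div, abs_div, abs_of_pos hpos, max_div_div_right hpos.le, hm1, h00,
      le_div_iff₀ hpos]
    nlinarith [mul_nonneg hε0 (sub_nonneg.mpr hs1), mul_nonneg hε0 hε0]
  · intro n hn1 hn2
    show max |x' (n - 1) / (1 + ε)| |x' n / (1 + ε)| + _ ≤ max |x' (-1) / (1 + ε)| |x' 0 / (1 + ε)|
    simp only [abs_div, abs_of_pos hpos, max_div_div_right hpos.le]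
    rw [hm1, h00, le_div_iff₀ hpos, add_mul, div_mul_cancel₀ _ hpos.ne']
    have g0 := h6 n (by omega) hn2
    have g1 := hcl n (by omega) (by omega)
    have g2 := hcl (n - 1) (by omega) (by omega)
    have g3 : |x' n| ≤ |x n| + |x' n - x n| := by
      have := abs_add_le (x n) (x' n - x n)
      simpa using this
    have g4 : |x' (n - 1)| ≤ |x (n - 1)| + |x' (n - 1) - x (n - 1)| := by
      have := abs_add_le (x (n - 1)) (x' (n - 1) - x (n - 1))
      simpa using this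
    have g5 : max |x' (n - 1)| |x' n| ≤ max |x (n - 1)| |x n| + ε :=
      max_le (by linarith [le_max_left |x (n - 1)| |x n|])
        (by linarith [le_max_right |x (n - 1)| |x n|])
    nlinarith [mul_nonneg hε0 (sub_nonneg.mpr hs1), mul_nonneg hε0 hε0]

/-- **stability of weights** (141's (H1')) -/
theorem W_stable {k h r ε a a' c : ℝ} {N : ℕ} (hk : 1 ≤ k) (hr : Real.log 2 ≤ r) (hrh : r ≤ h)
    (hε0 : 0 ≤ ε) (hεr : ε ≤ Real.exp (-r))
    (hε : 10 ^ 19 * k ^ 16 * ((N : ℝ) + 1) ^ 3 * |a' - a| ≤ ε * Real.exp (-r) ^ 4) :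
    W k h N (pr (a, c)) ≤ W k (r - Real.log 2) N (pr (a', c)) + 4 * ε := by
  have h0 := W_nonneg k (r - Real.log 2) N (pr (a', c))
  unfold W
  refine csSup_le ⟨0, Or.inl rfl⟩ ?_
  rintro s (rfl | ⟨hs0, hs⟩)
  · unfold W at h0
    linarith
  · have := (SH_stable hk hr hrh hε0 hεr hε hs0 hs).le_W
    unfold W at this
    linarith

end Crest.Agent.R128.H1
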