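import Mathlib
import Crest.Agent.R128.TreeSum
import Crest.Agent.R128.DistVoc

/-!
# Row 128, node P2 (deterministic kernel): stability of a contracted field under a displacement

One-sided statement.  `X` is an orbit of `x_{n+2} = g (x_{n+1}) - x_n`, `u` a Jacobi field along it
with `ρ ≤ |(u_n, u_{n+1})| ≤ 2` for `n ≤ N`.  Then every transfer matrix in the window is at most
`κ = (8 + 4 N A)/ρ²`, and an orbit `Y` with `Y 0 = X 0`, `|Y 1 - X 1| ≤ δ` stays within `2 κ δ`,
and the Jacobi field of `Y` with the same initial vector stays within `4 N M κ² δ`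
(`M` = bound of `g''`), as soon as `4 N M κ² δ ≤ 1`.
-/

set_option autoImplicit false

open Finset

namespace Crest.Agent.R128.Stab

open Crest.Agent.R128.TreeSum Crest.Agent.R128.Dist

/-- transfer bound from one field of moderate size -/
theorem transfer_le {a : ℕ → ℝ} {w z : ℕ → ℝ × ℝ} (hw : IsField a w) (hz : IsField a z)
    {A ρ : ℝ} (hρ : 0 < ρ) (hρ2 : ρ ≤ 2) (hA : 0 ≤ A) {N m n : ℕ} (hmn : m ≤ n) (hn : n ≤ N)
    (ha : ∀ j, j < N → |a j| + 2 ≤ A)
    (hlo : ∀ j, j ≤ N → ρ ≤ nn (w j)) (hhi : ∀ j, j ≤ N → nn (w j) ≤ 2) :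
    nn (z n) ≤ (8 + 4 * N * A) / ρ ^ 2 * nn (z m) := by
  have hm0 : 0 < nn (w m) := hρ.trans_le (hlo m (hmn.trans hn))
  have hn0 : 0 < nn (w n) := hρ.trans_le (hlo n hn)
  have hwt : wt a w m n ≤ N * (A / ρ ^ 2) := by
    unfold wt
    calc ∑ j ∈ Ico m n, (|a j| + 2) / (nn (w j) * nn (w (j + 1)))
        ≤ ∑ _j ∈ Ico m n, A / ρ ^ 2 := by
          apply Finset.sum_le_sum
          intro j hj
          rw [Finset.mem_Ico] at hj
          have h1 := hlo j (by omega)
          have h2 := hlo (j + 1) (by omega)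
          have h3 := ha j (by omega)
          have h4 : ρ ^ 2 ≤ nn (w j) * nn (w (j + 1)) := by
            rw [sq]; exact mul_le_mul h1 h2 hρ.le (hρ.le.trans h1)
          exact div_le_div₀ hA h3 (by positivity) h4
      _ = ((n - m : ℕ) : ℝ) * (A / ρ ^ 2) := by simp
      _ ≤ N * (A / ρ ^ 2) := by
          apply mul_le_mul_of_nonneg_right _ (by positivity)
          exact_mod_cast (Nat.sub_le n m).trans hn
  have h1 := tree_ineq hw hz hmn hm0
  have hρm := hlo m (hmn.trans hn)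
  have hρn := hlo n hn
  have hm2 := hhi m (hmn.trans hn)
  have hn2 := hhi n hn
  have e1 : nn (w n) / nn (w m) ≤ 4 / ρ ^ 2 := by
    calc nn (w n) / nn (w m) ≤ 2 / ρ := div_le_div₀ (by norm_num) hn2 hρ hρm
      _ ≤ 4 / ρ ^ 2 := by
        rw [div_le_div_iff₀ hρ (by positivity)]
        nlinarith
  have e2 : nn (w m) / nn (w n) ≤ 4 / ρ ^ 2 := by
    calc nn (w m) / nn (w n) ≤ 2 / ρ := div_le_div₀ (by norm_num) hm2 hρ hρn
      _ ≤ 4 / ρ ^ 2 := by
        rw [div_le_div_iff₀ hρ (by positivity)]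
        nlinarith
  have e3 : nn (w m) * nn (w n) * wt a w m n ≤ 4 * (N * (A / ρ ^ 2)) := by
    have h5 : nn (w m) * nn (w n) ≤ 4 := by
      nlinarith [nn_nonneg (w m), nn_nonneg (w n)]
    exact mul_le_mul h5 hwt (wt_nonneg _ _ _ _) (by norm_num)
  calc nn (z n) ≤ nn (z m) * (nn (w n) / nn (w m) + nn (w m) / nn (w n) +
        nn (w m) * nn (w n) * wt a w m n) := h1
    _ ≤ nn (z m) * (4 / ρ ^ 2 + 4 / ρ ^ 2 + 4 * (N * (A / ρ ^ 2))) := by
        apply mul_le_mul_of_nonneg_left _ (nn_nonneg _)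
        linarith
    _ = _ := by
        field_simp
        ring

/-- the pair field of a scalar solution -/
theorem isField_pair {V : ℕ → ℝ} {u : ℕ → ℝ} (h : ∀ n, u (n + 2) = V (n + 1) * u (n + 1) - u n) :
    IsField (fun n => V (n + 1)) (fun n => (u n, u (n + 1))) := by
  intro n
  simp only [stp]
  rw [← h n]

/-- the shifted pair field: field started at time `m` -/
theorem isField_G (V : ℕ → ℝ) (m : ℕ) :
    IsField (fun n => V (m + n + 1)) (fun n => (G V m (m + n), G V m (m + n + 1))) := by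
  intro n
  simp only [stp]
  have := G_succ_succ V m (m + n) (by omega)
  rw [show m + (n + 1) = m + n + 1 by ring, show m + n + 1 + 1 = m + n + 2 by ring, this]

/-- **Stability, one side.** -/
theorem stab {g g' : ℝ → ℝ} {M A ρ δ : ℝ} (hM : 0 ≤ M) (hA : 0 ≤ A) (hρ : 0 < ρ) (hρ2 : ρ ≤ 2)
    (hg : ∀ x y, |g y - g x - g' x * (y - x)| ≤ M * (y - x) ^ 2)
    (hg' : ∀ x y, |g' y - g' x| ≤ M * |y - x|) (hgA : ∀ x, |g' x| + 2 ≤ A)
    {X Y u v : ℕ → ℝ} (hX : ∀ n, X (n + 2) = g (X (n + 1)) - X n)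
    (hY : ∀ n, Y (n + 2) = g (Y (n + 1)) - Y n)
    (hu : ∀ n, u (n + 2) = g' (X (n + 1)) * u (n + 1) - u n)
    (hv : ∀ n, v (n + 2) = g' (Y (n + 1)) * v (n + 1) - v n)
    (h0 : Y 0 = X 0) (h1 : |Y 1 - X 1| ≤ δ) (hv0 : v 0 = u 0) (hv1 : v 1 = u 1) {N : ℕ}
    (hlo : ∀ n, n ≤ N → ρ ≤ nn (u n, u (n + 1))) (hhi : ∀ n, n ≤ N → |u n| ≤ 1)
    (hhi' : |u (N + 1)| ≤ 1) {κ : ℝ} (hκ : κ = (8 + 4 * N * A) / ρ ^ 2)
    (hsmall : 4 * (N + 1) * M * κ ^ 2 * δ ≤ 1) :
    (∀ n, n ≤ N + 1 → |Y n - X n| ≤ 2 * κ * δ) ∧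
    (∀ n, n ≤ N + 1 → |v n - u n| ≤ 4 * (N + 1) * M * κ ^ 2 * δ) := by
  have hδ : 0 ≤ δ := (abs_nonneg _).trans h1
  have hκ1 : 1 ≤ κ := by
    rw [hκ, le_div_iff₀ (by positivity)]
    have : (0 : ℝ) ≤ 4 * N * A := by positivity
    nlinarith
  have hκ0 : 0 < κ := by linarith
  set V : ℕ → ℝ := fun n => g' (X n) with hV
  have huF : IsField (fun n => V (n + 1)) (fun n => (u n, u (n + 1))) := isField_pair hu
  have hn2 : ∀ n, n ≤ N → nn (u n, u (n + 1)) ≤ 2 := by
    intro n hn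
    have h2 : |u (n + 1)| ≤ 1 := by
      rcases Nat.lt_or_ge n N with h | h
      · exact hhi (n + 1) h
      · have : n = N := le_antisymm hn h
        rw [this]; exact hhi'
    calc nn (u n, u (n + 1)) ≤ |u n| + |u (n + 1)| := nn_le_add _
      _ ≤ 2 := by linarith [hhi n hn]
  -- fundamental solutions
  have hG : ∀ m n, 1 ≤ m → n ≤ N + 1 → |G V m n| ≤ κ := by
    intro m n hm1 hn
    rcases Nat.lt_or_ge m n with h | h
    · -- m < n ≤ N+1
      obtain ⟨j, rfl⟩ : ∃ j, n = m + j + 1 := ⟨n - m - 1, by omega⟩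
      have hw' : IsField (fun n => V (m + n + 1)) (fun n => (u (m + n), u (m + n + 1))) := by
        intro n
        have := huF (m + n)
        simpa [add_assoc] using this
      have hb := transfer_le hw' (isField_G V m) hρ hρ2 hA (N := N - m) (Nat.zero_le j) (by omega)
        (fun i _ => hgA _) (fun i hi => hlo (m + i) (by omega)) (fun i hi => hn2 (m + i) (by omega))
      simp only [add_zero] at hb
      rw [G_of_le V m m le_rfl, G_self_succ] at hb
      have e : nn ((0 : ℝ), (1 : ℝ)) = 1 := by simp [nn]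
      rw [e, mul_one] at hb
      calc |G V m (m + j + 1)| ≤ nn (G V m (m + j), G V m (m + j + 1)) :=
            abs_snd_le (G V m (m + j), G V m (m + j + 1))
        _ ≤ (8 + 4 * ((N - m : ℕ) : ℝ) * A) / ρ ^ 2 := hb
        _ ≤ κ := by
          rw [hκ]
          apply div_le_div_of_nonneg_right _ (by positivity)
          have : ((N - m : ℕ) : ℝ) ≤ N := by exact_mod_cast Nat.sub_le N m
          nlinarith
    · rw [G_of_le V m n h, abs_zero]; exact hκ0.le
  -- linear displacement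
  have hS : ∀ n, n ≤ N + 1 → |S V (Y 0 - X 0) (Y 1 - X 1) n| ≤ κ * δ := by
    intro n hn
    rw [h0, sub_self]
    have hSF : IsField (fun n => V (n + 1))
        (fun n => (S V 0 (Y 1 - X 1) n, S V 0 (Y 1 - X 1) (n + 1))) :=
      isField_pair (fun n => S_succ_succ V 0 (Y 1 - X 1) n)
    rcases Nat.eq_zero_or_pos n with h | h
    · subst h; simp; positivity
    · obtain ⟨j, rfl⟩ : ∃ j, n = j + 1 := ⟨n - 1, by omega⟩
      have hb := transfer_le huF hSF hρ hρ2 hA (N := N) (Nat.zero_le j) (by omega)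
        (fun i _ => hgA _) hlo hn2
      have e : nn (S V 0 (Y 1 - X 1) 0, S V 0 (Y 1 - X 1) (0 + 1)) ≤ δ := by
        refine (nn_le_add _).trans ?_
        simpa using h1
      calc |S V 0 (Y 1 - X 1) (j + 1)|
          ≤ nn (S V 0 (Y 1 - X 1) j, S V 0 (Y 1 - X 1) (j + 1)) :=
            abs_snd_le (S V 0 (Y 1 - X 1) j, S V 0 (Y 1 - X 1) (j + 1))
        _ ≤ (8 + 4 * N * A) / ρ ^ 2 * nn (S V 0 (Y 1 - X 1) 0, S V 0 (Y 1 - X 1) (0 + 1)) := hb
        _ ≤ κ * δ := by rw [← hκ]; exact mul_le_mul_of_nonneg_left e hκ0.le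
  have hNM : (0 : ℝ) ≤ (N + 1 : ℝ) * M := by positivity
  have hdisp := displacement V (fun n => g (Y n) - g (X n) - g' (X n) * (Y n - X n))
    (fun n => Y n - X n) (N + 2)
    (by intro n; simp only [hX, hY, hV]; ring) M hM
    (by intro m _; simp only [Real.norm_eq_abs, sq_abs]; exact hg _ _)
    (fun _ => κ * δ) (fun _ => κ * δ)
  have hdisp' : ∀ n, n ≤ N + 1 → |(Y n - X n) - S V (Y 0 - X 0) (Y 1 - X 1) n| ≤ κ * δ := by
    intro n hn
    have := displacement V (fun n => g (Y n) - g (X n) - g' (X n) * (Y n - X n))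
      (fun n => Y n - X n) (N + 1)
      (by intro n; simp only [hX, hY, hV]; ring) M hM
      (by intro m _; simp only [Real.norm_eq_abs, sq_abs]; exact hg _ _)
      (fun _ => κ * δ) (fun _ => κ * δ) (fun n hn => hS n hn) ?_ n hn
    · simpa using this
    · intro n hn
      calc ∑ m ∈ Finset.Ico 1 n, ‖G V m n‖ * (M * (κ * δ + κ * δ) ^ 2)
          ≤ ∑ _m ∈ Finset.Ico 1 n, κ * (M * (κ * δ + κ * δ) ^ 2) := by
            apply Finset.sum_le_sum
            intro m hm
            rw [Finset.mem_Ico] at hm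
            exact mul_le_mul_of_nonneg_right (hG m n hm.1 hn) (by positivity)
        _ = ((n - 1 : ℕ) : ℝ) * (κ * (M * (κ * δ + κ * δ) ^ 2)) := by simp
        _ ≤ (N + 1) * (κ * (M * (κ * δ + κ * δ) ^ 2)) := by
            apply mul_le_mul_of_nonneg_right _ (by positivity)
            have : ((n - 1 : ℕ) : ℝ) ≤ (N : ℝ) := by exact_mod_cast (by omega : n - 1 ≤ N)
            linarith
        _ = (4 * (N + 1) * M * κ ^ 2 * δ) * (κ * δ) := by ring
        _ ≤ 1 * (κ * δ) := mul_le_mul_of_nonneg_right hsmall (by positivity)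
        _ = κ * δ := one_mul _
  have hfirst : ∀ n, n ≤ N + 1 → |Y n - X n| ≤ 2 * κ * δ := by
    intro n hn
    have a1 := hdisp' n hn
    have a2 := hS n hn
    calc |Y n - X n| = |((Y n - X n) - S V (Y 0 - X 0) (Y 1 - X 1) n)
          + S V (Y 0 - X 0) (Y 1 - X 1) n| := by ring_nf
      _ ≤ _ := abs_add_le _ _
      _ ≤ 2 * κ * δ := by linarith
  refine ⟨hfirst, ?_⟩
  -- perturbation of the field
  have hSu : ∀ n, S V (v 0) (v 1) n = u n := by
    intro n
    induction n using Nat.strong_induction_on with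
    | _ n ih =>
      match n with
      | 0 => simp [hv0]
      | 1 => simp [hv1]
      | n + 2 => rw [S_succ_succ, ih (n + 1) (by omega), ih n (by omega), hu n]
  intro n hn
  have hp := perturb V (fun m => g' (Y m) - g' (X m)) v (N + 1)
    (by intro n; simp only [hV]; rw [hv n]; ring)
    (fun _ => 1) (fun _ => 4 * (N + 1) * M * κ ^ 2 * δ) (fun _ => M * (2 * κ * δ))
    (by
      intro m hm
      exact (hg' _ _).trans (mul_le_mul_of_nonneg_left (hfirst m hm.le) hM))
    (by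
      intro n hn
      rw [hSu n]
      rcases Nat.lt_or_ge n (N + 1) with h | h
      · exact hhi n (by omega)
      · have : n = N + 1 := le_antisymm hn h
        rw [this]; exact hhi')
    (by
      intro n hn
      calc ∑ m ∈ Finset.Ico 1 n, ‖G V m n‖ *
              (M * (2 * κ * δ) * (1 + 4 * (N + 1) * M * κ ^ 2 * δ))
          ≤ ∑ _m ∈ Finset.Ico 1 n, κ * (M * (2 * κ * δ) * 2) := by
            apply Finset.sum_le_sum
            intro m hm
            rw [Finset.mem_Ico] at hm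
            apply mul_le_mul (hG m n hm.1 hn) _ (by positivity) hκ0.le
            apply mul_le_mul_of_nonneg_left _ (by positivity)
            linarith
        _ = ((n - 1 : ℕ) : ℝ) * (κ * (M * (2 * κ * δ) * 2)) := by simp
        _ ≤ (N + 1) * (κ * (M * (2 * κ * δ) * 2)) := by
            apply mul_le_mul_of_nonneg_right _ (by positivity)
            have : ((n - 1 : ℕ) : ℝ) ≤ (N : ℝ) := by exact_mod_cast (by omega : n - 1 ≤ N)
            linarith
        _ = 4 * (N + 1) * M * κ ^ 2 * δ := by ring)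
    n hn
  rw [hSu n] at hp
  exact hp

end Crest.Agent.R128.Stab
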