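import Mathlib
import Crest.Agent.R128.Stab
import Crest.Agent.R128.AlignMn
import Crest.Agent.R128.ShareDef

/-!
# Row 128, node P2 = [H1]: shares are stable on a cell (helper230)

`SH k h N z s` at `z = (p, c)` gives `SH k (r-1) N z' (s - 4ε)` at `z' = (q, c)` when `|p - q| ≤ δ`,
`ε = 4 (D+1) M κ² δ` with `κ = (8 + 4 D A)/ρ²`, `ρ = e^{-r}/A`, `A = 4 + 2πk`, `M = 4π²k`,
`D` = a bound of the durations.
-/

set_option autoImplicit false
open MeasureTheory Filter Topology Finset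
open Crest.AnalysisR.StandardFamily
open Crest.Agent.R128.Acc Crest.Agent.R128.TreeSum Crest.Agent.R128.Two Crest.Agent.R128.AlignMn

namespace Crest.Agent.R128.H1X

/-! ### the real orbit -/

/-- `g (x) = 2x + k sin 2πx` -/
noncomputable def gk (k x : ℝ) : ℝ := 2 * x + k * Real.sin (2 * Real.pi * x)

/-- its derivative, the digit -/
noncomputable def gk' (k x : ℝ) : ℝ := 2 + 2 * Real.pi * k * Real.cos (2 * Real.pi * x)

theorem V_eq (k x : ℝ) : V k (x : UnitAddCircle) = gk' k x := V_coe k x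

theorem sin_taylor (x y : ℝ) : |Real.sin y - Real.sin x - Real.cos x * (y - x)| ≤ (y - x) ^ 2 := by
  have hd : ∀ t ∈ Set.uIcc x y, HasDerivWithinAt
      (fun t => Real.sin t - Real.sin x - Real.cos x * (t - x))
      (Real.cos t - Real.cos x) (Set.uIcc x y) t := by
    intro t _
    have h1 : HasDerivAt (fun t => Real.sin t - Real.sin x - Real.cos x * (t - x))
        (Real.cos t - Real.cos x) t := by
      have h2 := ((Real.hasDerivAt_sin t).sub_const (Real.sin x)).sub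
        (((hasDerivAt_id t).sub_const x).const_mul (Real.cos x))
      rw [mul_one] at h2
      exact h2
    exact h1.hasDerivWithinAt
  have hb : ∀ t ∈ Set.uIcc x y, ‖Real.cos t - Real.cos x‖ ≤ |y - x| := by
    intro t ht
    rw [Real.norm_eq_abs]
    exact (Real.abs_cos_sub_cos_le t x).trans (Set.abs_sub_left_of_mem_uIcc ht)
  have h := Convex.norm_image_sub_le_of_norm_hasDerivWithin_le hd hb (convex_uIcc x y)
    Set.left_mem_uIcc Set.right_mem_uIcc
  simp only [sub_self, mul_zero, sub_zero, Real.norm_eq_abs] at h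
  calc |Real.sin y - Real.sin x - Real.cos x * (y - x)| ≤ |y - x| * |y - x| := h
    _ = (y - x) ^ 2 := by rw [← sq, sq_abs]

theorem gk_taylor {k : ℝ} (hk : 0 ≤ k) (x y : ℝ) :
    |gk k y - gk k x - gk' k x * (y - x)| ≤ 4 * Real.pi ^ 2 * k * (y - x) ^ 2 := by
  have h := sin_taylor (2 * Real.pi * x) (2 * Real.pi * y)
  have e : gk k y - gk k x - gk' k x * (y - x) = k * (Real.sin (2 * Real.pi * y) -
      Real.sin (2 * Real.pi * x) - Real.cos (2 * Real.pi * x) * (2 * Real.pi * y - 2 * Real.pi * x)) := by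
    unfold gk gk'; ring
  rw [e, abs_mul, abs_of_nonneg hk]
  calc k * |_| ≤ k * (2 * Real.pi * y - 2 * Real.pi * x) ^ 2 := mul_le_mul_of_nonneg_left h hk
    _ = _ := by ring

theorem gk'_lip {k : ℝ} (hk : 0 ≤ k) (x y : ℝ) :
    |gk' k y - gk' k x| ≤ 4 * Real.pi ^ 2 * k * |y - x| := by
  have h := Real.abs_cos_sub_cos_le (2 * Real.pi * y) (2 * Real.pi * x)
  have e : gk' k y - gk' k x = 2 * Real.pi * k *
      (Real.cos (2 * Real.pi * y) - Real.cos (2 * Real.pi * x)) := by unfold gk'; ring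
  have hp := Real.pi_pos
  rw [e, abs_mul, abs_of_nonneg (by positivity : 0 ≤ 2 * Real.pi * k)]
  calc 2 * Real.pi * k * |_| ≤ 2 * Real.pi * k * |2 * Real.pi * y - 2 * Real.pi * x| :=
        mul_le_mul_of_nonneg_left h (by positivity)
    _ = 2 * Real.pi * k * (2 * Real.pi * |y - x|) := by
        rw [← mul_sub, abs_mul, abs_of_pos (by positivity : 0 < 2 * Real.pi)]
    _ = _ := by ring

theorem gk'_le {k : ℝ} (hk : 0 ≤ k) (x : ℝ) : |gk' k x| + 2 ≤ 4 + 2 * Real.pi * k := by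
  have h1 := Real.abs_cos_le_one (2 * Real.pi * x)
  have hp := Real.pi_pos
  have h2 : |gk' k x| ≤ |2| + |2 * Real.pi * k * Real.cos (2 * Real.pi * x)| := abs_add_le _ _
  rw [abs_mul, abs_of_nonneg (by positivity : 0 ≤ 2 * Real.pi * k), abs_two] at h2
  have h3 : 2 * Real.pi * k * |Real.cos (2 * Real.pi * x)| ≤ 2 * Real.pi * k * 1 :=
    mul_le_mul_of_nonneg_left h1 (by positivity)
  linarith

/-- orbit of `x_{n+2} = g (x_{n+1}) - x_n` -/
noncomputable def ob (k a b : ℝ) : ℕ → ℝ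
  | 0 => a
  | 1 => b
  | n + 2 => gk k (ob k a b (n + 1)) - ob k a b n

theorem ob_rec (k a b : ℝ) (n : ℕ) : ob k a b (n + 2) = gk k (ob k a b (n + 1)) - ob k a b n := rfl

theorem coe_gk (k x y : ℝ) : ((gk k x - y : ℝ) : UnitAddCircle)
    = (x : UnitAddCircle) + x + sk k x - y := by
  have e : gk k x - y = x + x + k * Real.sin (2 * Real.pi * x) - y := by unfold gk; ring
  rw [e, AddCircle.coe_sub, AddCircle.coe_add, AddCircle.coe_add, sk_coe]

theorem Tz_fwd (k p c : ℝ) (n : ℕ) : Tz k ((n : ℤ) + 1) ((p : UnitAddCircle), (c : UnitAddCircle))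
    = ((ob k c (gk k c - p) n : UnitAddCircle), (ob k c (gk k c - p) (n + 1) : UnitAddCircle)) := by
  induction n with
  | zero =>
    have h : Tz k ((0 : ℕ) + 1 : ℤ) ((p : UnitAddCircle), (c : UnitAddCircle))
        = T k ((p : UnitAddCircle), (c : UnitAddCircle)) := by
      rw [show ((0 : ℕ) + 1 : ℤ) = 1 by norm_num, Tz_one]
    rw [h]
    unfold T
    ext
    · rfl
    · simp only [ob]
      rw [coe_gk]
  | succ n ih =>
    have h : Tz k (((n + 1 : ℕ) : ℤ) + 1) ((p : UnitAddCircle), (c : UnitAddCircle))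
        = T k (Tz k ((n : ℤ) + 1) ((p : UnitAddCircle), (c : UnitAddCircle))) := by
      rw [show (((n + 1 : ℕ) : ℤ) + 1) = 1 + ((n : ℤ) + 1) by push_cast; ring, Tz_add, Tz_one]
    rw [h, ih]
    unfold T
    ext
    · rfl
    · simp only [ob_rec k c (gk k c - p) n]
      rw [coe_gk]

theorem Tz_bwd (k p c : ℝ) (n : ℕ) : Tz k (-(n : ℤ)) ((p : UnitAddCircle), (c : UnitAddCircle))
    = ((ob k c p (n + 1) : UnitAddCircle), (ob k c p n : UnitAddCircle)) := by
  induction n with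
  | zero => simp [Tz_zero, ob]
  | succ n ih =>
    have h : Tz k (-((n + 1 : ℕ) : ℤ)) ((p : UnitAddCircle), (c : UnitAddCircle))
        = Tinv k (Tz k (-(n : ℤ)) ((p : UnitAddCircle), (c : UnitAddCircle))) := by
      rw [show (-((n + 1 : ℕ) : ℤ)) = -1 + (-(n : ℤ)) by push_cast; ring, Tz_add, Tz_neg_one]
    rw [h, ih]
    unfold Tinv
    ext
    · simp only [ob_rec k c p n]
      rw [coe_gk]
    · rfl

theorem dz_fwd (k p c : ℝ) (n : ℕ) :
    dz k ((p : UnitAddCircle), (c : UnitAddCircle)) (n : ℤ) = gk' k (ob k c (gk k c - p) n) := by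
  unfold dz
  cases n with
  | zero => rw [Nat.cast_zero, Tz_zero]; simp only [ob]; exact V_eq k c
  | succ n => rw [Nat.cast_succ, Tz_fwd]; exact V_eq k _

theorem dz_bwd (k p c : ℝ) (n : ℕ) :
    dz k ((p : UnitAddCircle), (c : UnitAddCircle)) (-(n : ℤ)) = gk' k (ob k c p n) := by
  unfold dz
  rw [Tz_bwd]; exact V_eq k _

/-! ### the share event in terms of a Jacobi field -/

/-- sup norm of the pair at time `n` -/
noncomputable def nr (x : ℤ → ℝ) (n : ℤ) : ℝ := max |x (n - 1)| |x n|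

theorem SH_iff {k h : ℝ} {N : ℕ} {z : Tor} {s : ℝ} : Share.SH k h N z s ↔
    ∃ x : ℤ → ℝ, (∀ n, x (n + 1) = dz k z n * x n - x (n - 1)) ∧
      ∃ i j : ℕ, 0 < i ∧ i ≤ N ∧ 0 < j ∧ j ≤ N ∧ nr x (-(i : ℤ)) ≤ Real.exp (-h) ∧
      (∀ n : ℤ, -(i : ℤ) ≤ n → n ≤ j → nr x n ≤ 1) ∧ nr x j ≤ Real.exp (-h) ∧
      1 / 2 + s / 2 ≤ nr x 0 ∧ (∀ n : ℤ, -(i : ℤ) ≤ n → n < 0 → nr x n + s / 2 ≤ nr x 0) := by
  constructor
  · rintro ⟨i, j, hi, hiN, hj, hjN, z', w, hz, hw, h1, h2, h3, h4⟩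
    have hz' : z' = Tz k (-(i : ℤ)) z := by
      rw [← hz, ← Tz_natCast, Tz_neg_cancel]
    subst hz'
    obtain ⟨v, hv⟩ : ∃ v, act (Az k (-(i : ℤ)) z) v = w := by
      refine ⟨act (Mn k i (Tz k (-(i : ℤ)) z)) w, ?_⟩
      rw [← act_mul, ← Az_natCast]
      have : Az k (-(i : ℤ)) z * Az k (i : ℤ) (Tz k (-(i : ℤ)) z) = 1 := by
        have h5 := Az_add k (-(i : ℤ)) (i : ℤ) (Tz k (-(i : ℤ)) z)
        rw [Tz_neg_cancel', neg_add_cancel, Az_zero] at h5
        exact h5.symm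
      rw [this, act_one]
    subst hv
    simp only [act_Mn_Tz, norm_act_Az] at h1 h2 h3 h4
    rw [norm_act_Az] at hw
    refine ⟨xf k z v, xf_succ k z v, i, j, hi, hiN, hj, hjN, hw, ?_, ?_, ?_, ?_⟩
    · intro n hn1 hn2
      obtain ⟨m, hm⟩ : ∃ m : ℕ, (m : ℤ) = n + i := ⟨(n + i).toNat, by omega⟩
      have := h1 m (by omega)
      rwa [show (m : ℤ) - i = n by omega] at this
    · rwa [show (((i + j : ℕ) : ℤ) - i) = j by push_cast; ring] at h2
    · rwa [sub_self] at h3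
    · intro n hn1 hn2
      obtain ⟨m, hm⟩ : ∃ m : ℕ, (m : ℤ) = n + i := ⟨(n + i).toNat, by omega⟩
      have := h4 m (by omega)
      rwa [show (m : ℤ) - i = n by omega, sub_self] at this
  · rintro ⟨x, hx, i, j, hi, hiN, hj, hjN, h0, h1, h2, h3, h4⟩
    have hxx : ∀ n, xf k z (x (-1), x 0) n = x n := fun n => (eq_xf hx n).symm
    refine ⟨i, j, hi, hiN, hj, hjN, Tz k (-(i : ℤ)) z, act (Az k (-(i : ℤ)) z) (x (-1), x 0),
      ?_, ?_, ?_, ?_, ?_, ?_⟩
    · rw [← Tz_natCast, Tz_neg_cancel']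
    · rw [norm_act_Az, hxx, hxx]; exact h0
    · intro m hm
      rw [act_Mn_Tz, norm_act_Az, hxx, hxx]
      exact h1 _ (by omega) (by omega)
    · rw [act_Mn_Tz, norm_act_Az, hxx, hxx,
        show (((i + j : ℕ) : ℤ) - i) = j by push_cast; ring]
      exact h2
    · rw [act_Mn_Tz, norm_act_Az, hxx, hxx, sub_self]; exact h3
    · intro m hm
      rw [act_Mn_Tz, norm_act_Az, hxx, hxx, act_Mn_Tz, norm_act_Az, hxx, hxx, sub_self]
      exact h4 _ (by omega) (by omega)

/-! ### two-sided stability of a field -/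

theorem nr_le_nn (x : ℤ → ℝ) (n : ℤ) : nr x n ≤ nn (x (n - 1), x n) :=
  max_le (abs_fst_le (x (n - 1), x n)) (abs_snd_le (x (n - 1), x n))

theorem nr_le_nn' (x : ℤ → ℝ) (n : ℤ) : nr x n ≤ nn (x n, x (n - 1)) :=
  max_le (abs_snd_le (x n, x (n - 1))) (abs_fst_le (x n, x (n - 1)))

/-- the size `κ` of the transfer matrices -/
noncomputable def kap (k ρ : ℝ) (D : ℕ) : ℝ := (8 + 4 * D * (4 + 2 * Real.pi * k)) / ρ ^ 2

/-- the error `ε` -/
noncomputable def err (k ρ δ : ℝ) (D : ℕ) : ℝ :=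
  4 * (D + 1) * (4 * Real.pi ^ 2 * k) * kap k ρ D ^ 2 * δ

theorem kap_mono {k ρ : ℝ} (hk : 0 ≤ k) {a D : ℕ} (h : a ≤ D) : kap k ρ a ≤ kap k ρ D := by
  unfold kap
  have hp := Real.pi_pos
  apply div_le_div_of_nonneg_right _ (by positivity)
  have h1 : (a : ℝ) ≤ D := by exact_mod_cast h
  have h2 : 0 ≤ 4 + 2 * Real.pi * k := by positivity
  nlinarith

theorem kap_nonneg {k ρ : ℝ} (hk : 0 ≤ k) (D : ℕ) : 0 ≤ kap k ρ D := by
  unfold kap
  have hp := Real.pi_pos
  positivity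

theorem err_mono {k ρ δ : ℝ} (hk : 0 ≤ k) (hδ : 0 ≤ δ) {a D : ℕ} (h : a ≤ D) :
    err k ρ δ a ≤ err k ρ δ D := by
  unfold err
  have h1 : (a : ℝ) ≤ D := by exact_mod_cast h
  have h2 := kap_mono (ρ := ρ) hk h
  have h3 := kap_nonneg (ρ := ρ) hk a
  have hp := Real.pi_pos
  gcongr

theorem field_stab {k p q c ρ δ : ℝ} (hk : 0 ≤ k) (hρ : 0 < ρ) (hρ2 : ρ ≤ 2) (hpq : |p - q| ≤ δ)
    {x x' : ℤ → ℝ}
    (hx : ∀ n, x (n + 1) = dz k ((p : UnitAddCircle), (c : UnitAddCircle)) n * x n - x (n - 1))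
    (hx' : ∀ n, x' (n + 1) = dz k ((q : UnitAddCircle), (c : UnitAddCircle)) n * x' n - x' (n - 1))
    (h0 : x' 0 = x 0) (hm1 : x' (-1) = x (-1)) {a b D : ℕ} (haD : a ≤ D) (hbD : b ≤ D)
    (hf : ∀ n : ℕ, n ≤ a → ρ ≤ nr x ((n : ℤ) + 1)) (hb : ∀ n : ℕ, n ≤ b → ρ ≤ nr x (-(n : ℤ)))
    (h1 : ∀ n : ℤ, -(b : ℤ) - 1 ≤ n → n ≤ a + 1 → |x n| ≤ 1) (hs : err k ρ δ D ≤ 1) :
    ∀ n : ℤ, -(b : ℤ) - 1 ≤ n → n ≤ a + 1 → |x' n - x n| ≤ err k ρ δ D := by
  have hp := Real.pi_pos
  have hδ : 0 ≤ δ := (abs_nonneg _).trans hpq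
  have hx1 : x' 1 = x 1 := by
    have e1 := hx 0
    have e2 := hx' 0
    have d1 := dz_fwd k p c 0
    have d2 := dz_fwd k q c 0
    simp only [Nat.cast_zero, ob] at d1 d2
    rw [d1] at e1
    rw [d2] at e2
    simp only [zero_add, zero_sub] at e1 e2
    rw [e1, e2, h0, hm1]
  -- forward
  have fwd := Stab.stab (g := gk k) (g' := gk' k) (M := 4 * Real.pi ^ 2 * k)
    (A := 4 + 2 * Real.pi * k) (ρ := ρ) (δ := δ) (by positivity) (by positivity) hρ hρ2
    (gk_taylor hk) (gk'_lip hk) (gk'_le hk)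
    (X := ob k c (gk k c - p)) (Y := ob k c (gk k c - q)) (u := fun n : ℕ => x n)
    (v := fun n : ℕ => x' n) (ob_rec k c _) (ob_rec k c _)
    (by
      intro n
      have := hx ((n : ℤ) + 1)
      have d := dz_fwd k p c (n + 1)
      push_cast at d ⊢
      rw [d] at this
      rw [add_sub_cancel_right] at this
      rw [show (n : ℤ) + 2 = (n : ℤ) + 1 + 1 by ring, this])
    (by
      intro n
      have := hx' ((n : ℤ) + 1)
      have d := dz_fwd k q c (n + 1)
      push_cast at d ⊢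
      rw [d] at this
      rw [add_sub_cancel_right] at this
      rw [show (n : ℤ) + 2 = (n : ℤ) + 1 + 1 by ring, this])
    (by rfl)
    (by
      show |(gk k c - q) - (gk k c - p)| ≤ δ
      rw [show (gk k c - q) - (gk k c - p) = p - q by ring]
      exact hpq)
    (by simpa using h0) (by simpa using hx1) (N := a)
    (by
      intro n hn
      have e := hf n hn
      have e2 := nr_le_nn x ((n : ℤ) + 1)
      rw [add_sub_cancel_right] at e2
      push_cast
      exact e.trans e2)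
    (fun n hn => h1 _ (by omega) (by omega)) (h1 _ (by push_cast; omega) (by push_cast; omega))
    (κ := kap k ρ a) rfl ((err_mono hk hδ haD).trans hs)
  have bwd := Stab.stab (g := gk k) (g' := gk' k) (M := 4 * Real.pi ^ 2 * k)
    (A := 4 + 2 * Real.pi * k) (ρ := ρ) (δ := δ) (by positivity) (by positivity) hρ hρ2
    (gk_taylor hk) (gk'_lip hk) (gk'_le hk)
    (X := ob k c p) (Y := ob k c q) (u := fun n : ℕ => x (-(n : ℤ)))
    (v := fun n : ℕ => x' (-(n : ℤ))) (ob_rec k c _) (ob_rec k c _)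
    (by
      intro n
      have := hx (-((n : ℤ) + 1))
      have d := dz_bwd k p c (n + 1)
      push_cast at d ⊢
      rw [d, show -((n : ℤ) + 1) + 1 = -(n : ℤ) by ring,
        show -((n : ℤ) + 1) - 1 = -((n : ℤ) + 2) by ring] at this
      linarith)
    (by
      intro n
      have := hx' (-((n : ℤ) + 1))
      have d := dz_bwd k q c (n + 1)
      push_cast at d ⊢
      rw [d, show -((n : ℤ) + 1) + 1 = -(n : ℤ) by ring,
        show -((n : ℤ) + 1) - 1 = -((n : ℤ) + 2) by ring] at this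
      linarith)
    (by rfl)
    (by
      show |q - p| ≤ δ
      rw [abs_sub_comm]
      exact hpq)
    (by simpa using h0) (by simpa using hm1) (N := b)
    (by
      intro n hn
      have e := hb n hn
      have e2 := nr_le_nn' x (-(n : ℤ))
      have e3 : -(n : ℤ) - 1 = -((n + 1 : ℕ) : ℤ) := by push_cast; ring
      rw [e3] at e2
      exact e.trans e2)
    (fun n hn => h1 _ (by omega) (by omega)) (h1 _ (by push_cast; omega) (by push_cast; omega))
    (κ := kap k ρ b) rfl ((err_mono hk hδ hbD).trans hs)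
  intro n hn1 hn2
  rcases le_or_gt 0 n with h | h
  · obtain ⟨m, rfl⟩ := Int.eq_ofNat_of_zero_le h
    exact (fwd.2 m (by omega)).trans (err_mono hk hδ haD)
  · obtain ⟨m, hm⟩ : ∃ m : ℕ, n = -(m : ℤ) := ⟨(-n).toNat, by omega⟩
    subst hm
    exact (bwd.2 m (by omega)).trans (err_mono hk hδ hbD)

/-- two-sided window of depth exactly `r` (first passages), with a share `s` -/
def FP (k r : ℝ) (i j : ℕ) (z : Tor) (s : ℝ) : Prop :=
  ∃ x : ℤ → ℝ, (∀ n, x (n + 1) = dz k z n * x n - x (n - 1)) ∧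
    nr x (-(i : ℤ)) ≤ Real.exp (-r) ∧ nr x j ≤ Real.exp (-r) ∧
    (∀ n : ℤ, -(i : ℤ) < n → n < j → Real.exp (-r) < nr x n) ∧
    (∀ n : ℤ, -(i : ℤ) ≤ n → n ≤ j → nr x n ≤ 1) ∧
    1 / 2 + s / 2 ≤ nr x 0 ∧ (∀ n : ℤ, -(i : ℤ) ≤ n → n < 0 → nr x n + s / 2 ≤ nr x 0)

/-- passage to the first passages of depth `r ≤ h` -/
theorem SH.fp {k h r : ℝ} {N : ℕ} {z : Tor} {s : ℝ} (H : Share.SH k h N z s) (hr : r ≤ h)
    (hs : Real.exp (-r) < 1 / 2 + s / 2) :
    ∃ i j : ℕ, 0 < i ∧ i ≤ N ∧ 0 < j ∧ j ≤ N ∧ FP k r i j z s := by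
  classical
  obtain ⟨x, hx, i, j, hi, hiN, hj, hjN, h0, h1, h2, h3, h4⟩ := SH_iff.1 H
  have e : Real.exp (-h) ≤ Real.exp (-r) := Real.exp_le_exp.mpr (by linarith)
  have hex1 : ∃ i' : ℕ, nr x (-(i' : ℤ)) ≤ Real.exp (-r) := ⟨i, h0.trans e⟩
  have hex2 : ∃ j' : ℕ, nr x (j' : ℤ) ≤ Real.exp (-r) := ⟨j, h2.trans e⟩
  set i' := Nat.find hex1 with hi'
  set j' := Nat.find hex2 with hj'
  have a1 : nr x (-(i' : ℤ)) ≤ Real.exp (-r) := Nat.find_spec hex1
  have a2 : nr x (j' : ℤ) ≤ Real.exp (-r) := Nat.find_spec hex2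
  have b1 : i' ≤ i := Nat.find_min' hex1 (h0.trans e)
  have b2 : j' ≤ j := Nat.find_min' hex2 (h2.trans e)
  have c1 : 0 < i' := by
    rcases Nat.eq_zero_or_pos i' with h' | h'
    · rw [h'] at a1; simp only [Nat.cast_zero, neg_zero] at a1; linarith
    · exact h'
  have c2 : 0 < j' := by
    rcases Nat.eq_zero_or_pos j' with h' | h'
    · rw [h'] at a2; simp only [Nat.cast_zero] at a2; linarith
    · exact h'
  refine ⟨i', j', c1, b1.trans hiN, c2, b2.trans hjN, x, hx, a1, a2, ?_, ?_, h3, ?_⟩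
  · intro n hn1 hn2
    rcases le_or_gt 0 n with h' | h'
    · obtain ⟨m, rfl⟩ := Int.eq_ofNat_of_zero_le h'
      have := Nat.find_min hex2 (m := m) (by omega)
      exact not_le.1 this
    · obtain ⟨m, hm⟩ : ∃ m : ℕ, n = -(m : ℤ) := ⟨(-n).toNat, by omega⟩
      subst hm
      have := Nat.find_min hex1 (m := m) (by omega)
      exact not_le.1 this
  · intro n hn1 hn2; exact h1 n (by omega) (by omega)
  · intro n hn1 hn2; exact h4 n (by omega) hn2

/-- **[H1], short windows.** -/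
theorem FP.stable {k p q c r δ s : ℝ} (hk : 1 ≤ k) (hpq : |p - q| ≤ δ) {i j D : ℕ}
    (hi : 0 < i) (hiD : i ≤ D) (hj : 0 < j) (hjD : j ≤ D) (hr : 0 ≤ r)
    (H : FP k r i j ((p : UnitAddCircle), (c : UnitAddCircle)) s)
    (hs : err k (Real.exp (-r) / (4 + 2 * Real.pi * k)) δ D ≤ Real.exp (-r)) :
    Share.SH k (r - 1) D ((q : UnitAddCircle), (c : UnitAddCircle))
      (s - 4 * err k (Real.exp (-r) / (4 + 2 * Real.pi * k)) δ D) := by
  have hp := Real.pi_pos
  have hk0 : 0 ≤ k := by linarith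
  have hA : 0 < 4 + 2 * Real.pi * k := by positivity
  have hA4 : 4 ≤ 4 + 2 * Real.pi * k := by nlinarith
  set A := 4 + 2 * Real.pi * k with hAdef
  have he : 0 < Real.exp (-r) := Real.exp_pos _
  have he1 : Real.exp (-r) ≤ 1 := Real.exp_le_one_iff.mpr (by linarith)
  set ρ := Real.exp (-r) / A with hρdef
  have hρ : 0 < ρ := by positivity
  have hρe : ρ ≤ Real.exp (-r) := by
    rw [hρdef, div_le_iff₀ hA]
    nlinarith
  set ε := err k ρ δ D with hε
  have hδ : 0 ≤ δ := (abs_nonneg _).trans hpq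
  have hε0 : 0 ≤ ε := by
    rw [hε]; unfold err
    have := kap_nonneg (ρ := ρ) hk0 D
    positivity
  obtain ⟨x, hx, a1, a2, a3, a4, a5, a6⟩ := H
  set z' : Tor := ((q : UnitAddCircle), (c : UnitAddCircle)) with hz'
  set x' : ℤ → ℝ := xf k z' (x (-1), x 0) with hx'def
  have hx' : ∀ n, x' (n + 1) = dz k z' n * x' n - x' (n - 1) := xf_succ k z' _
  have h00 : x' 0 = x 0 := xf_zero k z' _
  have hm1 : x' (-1) = x (-1) := xf_neg_one k z' _
  -- lower bounds up to the last time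
  have digit : ∀ n : ℤ, |dz k ((p : UnitAddCircle), (c : UnitAddCircle)) n| + 2 ≤ A := by
    intro n
    rcases le_or_gt 0 n with h' | h'
    · obtain ⟨m, rfl⟩ := Int.eq_ofNat_of_zero_le h'
      rw [dz_fwd]; exact gk'_le hk0 _
    · obtain ⟨m, hm⟩ : ∃ m : ℕ, n = -(m : ℤ) := ⟨(-n).toNat, by omega⟩
      subst hm
      rw [dz_bwd]; exact gk'_le hk0 _
  have step_fwd : ∀ n : ℤ, nr x n ≤ A * nr x (n + 1) := by
    intro n
    have e1 := hx n
    have e2 : x (n - 1) = dz k ((p : UnitAddCircle), (c : UnitAddCircle)) n * x n - x (n + 1) := by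
      linarith
    have e3 : |x n| ≤ nr x (n + 1) := by
      have := le_max_left |x (n + 1 - 1)| |x (n + 1)|
      unfold nr
      rwa [add_sub_cancel_right] at this ⊢
    have e4 : |x (n + 1)| ≤ nr x (n + 1) := le_max_right _ _
    have e5 := digit n
    have e0 : 0 ≤ nr x (n + 1) := (abs_nonneg _).trans e4
    apply max_le
    · rw [e2]
      calc |_ - _| ≤ |dz k ((p : UnitAddCircle), (c : UnitAddCircle)) n * x n| + |x (n + 1)| :=
            abs_sub _ _
        _ = |dz k ((p : UnitAddCircle), (c : UnitAddCircle)) n| * |x n| + |x (n + 1)| := by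
            rw [abs_mul]
        _ ≤ |dz k ((p : UnitAddCircle), (c : UnitAddCircle)) n| * nr x (n + 1) + nr x (n + 1) := by
            gcongr
        _ ≤ A * nr x (n + 1) := by nlinarith
    · nlinarith
  have step_bwd : ∀ n : ℤ, nr x (n + 1) ≤ A * nr x n := by
    intro n
    have e1 := hx n
    have e3 : |x n| ≤ nr x n := le_max_right _ _
    have e4 : |x (n - 1)| ≤ nr x n := le_max_left _ _
    have e5 := digit n
    have e0 : 0 ≤ nr x n := (abs_nonneg _).trans e4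
    unfold nr
    rw [add_sub_cancel_right]
    apply max_le
    · change |x n| ≤ A * nr x n
      nlinarith
    · change |x (n + 1)| ≤ A * nr x n
      rw [e1]
      calc |_ - _| ≤ |dz k ((p : UnitAddCircle), (c : UnitAddCircle)) n * x n| + |x (n - 1)| :=
            abs_sub _ _
        _ = |dz k ((p : UnitAddCircle), (c : UnitAddCircle)) n| * |x n| + |x (n - 1)| := by
            rw [abs_mul]
        _ ≤ |dz k ((p : UnitAddCircle), (c : UnitAddCircle)) n| * nr x n + nr x n := by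
            gcongr
        _ ≤ A * nr x n := by nlinarith
  have hlow : ∀ n : ℤ, -(i : ℤ) ≤ n → n ≤ j → ρ ≤ nr x n := by
    intro n hn1 hn2
    rcases eq_or_lt_of_le hn1 with h' | h'
    · have e1 := a3 (n + 1) (by omega) (by omega)
      have e2 := step_bwd n
      rw [hρdef, div_le_iff₀ hA]
      nlinarith
    · rcases eq_or_lt_of_le hn2 with h'' | h''
      · have e1 := a3 (n - 1) (by omega) (by omega)
        have e2 := step_fwd (n - 1)
        rw [sub_add_cancel] at e2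
        rw [hρdef, div_le_iff₀ hA]
        nlinarith
      · exact hρe.trans (a3 n h' h'').le
  have habs : ∀ n : ℤ, -(i : ℤ) - 1 ≤ n → n ≤ j → |x n| ≤ 1 := by
    intro n hn1 hn2
    rcases eq_or_lt_of_le hn1 with h' | h'
    · have e1 := a4 (-(i : ℤ)) le_rfl (by omega)
      have e2 : |x (-(i : ℤ) - 1)| ≤ nr x (-(i : ℤ)) := le_max_left _ _
      rw [← h']
      exact e2.trans e1
    · have e2 : |x n| ≤ nr x n := le_max_right _ _
      exact e2.trans (a4 n (by omega) hn2)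
  have key := field_stab (a := j - 1) (b := i) (D := D) hk0 hρ (by linarith) hpq hx hx' h00 hm1
    (by omega) hiD (fun n hn => hlow _ (by omega) (by omega))
    (fun n hn => hlow _ (by omega) (by omega))
    (fun n hn1 hn2 => habs n hn1 (by omega)) (hs.trans he1)
  have hnr : ∀ n : ℤ, -(i : ℤ) ≤ n → n ≤ j → nr x' n ≤ nr x n + ε := by
    intro n hn1 hn2
    have k1 := key n (by omega) (by omega)
    have k2 := key (n - 1) (by omega) (by omega)
    have m1 : |x n| ≤ nr x n := le_max_right _ _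
    have m2 : |x (n - 1)| ≤ nr x n := le_max_left _ _
    apply max_le
    · have := abs_add_le (x' (n - 1) - x (n - 1)) (x (n - 1))
      rw [sub_add_cancel] at this
      linarith
    · have := abs_add_le (x' n - x n) (x n)
      rw [sub_add_cancel] at this
      linarith
  have hnr0 : nr x' 0 = nr x 0 := by
    unfold nr
    rw [zero_sub, h00, hm1]
  -- rescale
  rw [SH_iff]
  have h1e : 0 < 1 + ε := by linarith
  have hsc : ∀ n, nr (fun m => x' m / (1 + ε)) n = nr x' n / (1 + ε) := by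
    intro n
    unfold nr
    rw [abs_div, abs_div, abs_of_pos h1e, max_div_div_right h1e.le]
  refine ⟨fun m => x' m / (1 + ε), ?_, i, j, hi, hiD, hj, hjD, ?_, ?_, ?_, ?_, ?_⟩
  · intro n
    have e1 := hx' n
    show x' (n + 1) / (1 + ε) = dz k z' n * (x' n / (1 + ε)) - x' (n - 1) / (1 + ε)
    rw [e1]
    ring
  · rw [hsc, div_le_iff₀ h1e]
    have e1 := hnr (-(i : ℤ)) le_rfl (by omega)
    have e2 : Real.exp (-(r - 1)) = Real.exp 1 * Real.exp (-r) := by
      rw [← Real.exp_add]; ring_nf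
    have e3 : 2 ≤ Real.exp 1 := by linarith [Real.exp_one_gt_d9]
    rw [e2]
    have e4 : 2 * Real.exp (-r) ≤ Real.exp 1 * Real.exp (-r) :=
      mul_le_mul_of_nonneg_right e3 he.le
    have e5 : 0 ≤ Real.exp 1 * Real.exp (-r) := by positivity
    nlinarith
  · intro n hn1 hn2
    rw [hsc, div_le_iff₀ h1e]
    have e1 := hnr n hn1 hn2
    have e2 := a4 n hn1 hn2
    linarith
  · rw [hsc, div_le_iff₀ h1e]
    have e1 := hnr (j : ℤ) (by omega) le_rfl
    have e2 : Real.exp (-(r - 1)) = Real.exp 1 * Real.exp (-r) := by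
      rw [← Real.exp_add]; ring_nf
    have e3 : 2 ≤ Real.exp 1 := by linarith [Real.exp_one_gt_d9]
    rw [e2]
    have e4 : 2 * Real.exp (-r) ≤ Real.exp 1 * Real.exp (-r) :=
      mul_le_mul_of_nonneg_right e3 he.le
    have e5 : 0 ≤ Real.exp 1 * Real.exp (-r) := by positivity
    nlinarith
  · rw [hsc, hnr0, le_div_iff₀ h1e]
    have e2 := a4 0 (by omega) (by omega)
    nlinarith
  · intro n hn1 hn2
    rw [hsc, hsc, hnr0]
    have e1 := hnr n hn1 (by omega)
    have e2 := a6 n hn1 hn2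
    have e3 := a4 0 (by omega) (by omega)
    have e4 : nr x' n / (1 + ε) + (s - 4 * ε) / 2 ≤ nr x 0 / (1 + ε) := by
      rw [← sub_nonneg]
      have : nr x 0 / (1 + ε) - (nr x' n / (1 + ε) + (s - 4 * ε) / 2)
          = (nr x 0 - nr x' n - (s - 4 * ε) / 2 * (1 + ε)) / (1 + ε) := by
        field_simp
        ring
      rw [this]
      apply div_nonneg _ h1e.le
      have hs1 : s ≤ 1 := by linarith
      have h7 : (s - 4 * ε) / 2 * (1 + ε) ≤ s / 2 - ε := by
        have h8 : s * ε ≤ 1 * ε := mul_le_mul_of_nonneg_right hs1 hε0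
        have h9 : 0 ≤ ε * ε := mul_nonneg hε0 hε0
        have h10 : (s - 4 * ε) / 2 * (1 + ε) = s / 2 - 2 * ε + s * ε / 2 - 2 * (ε * ε) := by ring
        rw [h10]
        linarith
      linarith
    exact e4

/-- **[H1].**  A share at `(p, c)` is a share at `(q, c)`, or its window of depth `r` is long. -/
theorem SH_stable {k p q c h r δ s : ℝ} (hk : 1 ≤ k) (hpq : |p - q| ≤ δ) {N D : ℕ}
    (hr : 0 ≤ r) (hrh : r ≤ h) (hsr : Real.exp (-r) < 1 / 2 + s / 2)
    (H : Share.SH k h N ((p : UnitAddCircle), (c : UnitAddCircle)) s)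
    (hs : err k (Real.exp (-r) / (4 + 2 * Real.pi * k)) δ D ≤ Real.exp (-r)) :
    Share.SH k (r - 1) D ((q : UnitAddCircle), (c : UnitAddCircle))
      (s - 4 * err k (Real.exp (-r) / (4 + 2 * Real.pi * k)) δ D) ∨
    ∃ i j : ℕ, 0 < i ∧ i ≤ N ∧ 0 < j ∧ j ≤ N ∧ D < max i j ∧
      FP k r i j ((p : UnitAddCircle), (c : UnitAddCircle)) s := by
  obtain ⟨i, j, hi, hiN, hj, hjN, hF⟩ := SH.fp H hrh hsr
  by_cases hD : max i j ≤ D
  · exact Or.inl (hF.stable hk hpq hi ((le_max_left i j).trans hD) hj ((le_max_right i j).trans hD)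
      hr hs)
  · exact Or.inr ⟨i, j, hi, hiN, hj, hjN, not_le.1 hD, hF⟩

end Crest.Agent.R128.H1X
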