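import Crest.Agent.R128.H4
import Crest.Agent.R128.SideSize

/-!
# Row 128, V5-LOC, (H4): sizes before the foot (helper220)

`foot` : for a side of a very fresh point all `|Q_j|`, `j ≤ w`, are at most `k^50 e^ρ`;
`good3` : `H4.good3` with this hypothesis discharged (only the sizes before the exits remain).
-/

set_option autoImplicit false

open Crest.Agent.R128 Crest.Agent.R128.Cell Crest.Agent.R128.CellB Crest.Agent.R128.TreeSum
open Crest.Agent.R128.AlignMn Crest.Agent.R128.DictY Crest.Agent.R128.CleanDisc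

namespace Crest.Agent.R128.H4Fin

theorem exists_zt (k : ℝ) (y : Tor) : ∃ c t : ℝ, y = zt k c t := by
  obtain ⟨y1, y2⟩ := y
  obtain ⟨c, hc⟩ := QuotientAddGroup.mk_surjective y2
  obtain ⟨s, hs⟩ := QuotientAddGroup.mk_surjective y1
  refine ⟨c, tb k c s, ?_⟩
  unfold zt pr
  rw [tb_tb]
  ext
  · exact hs.symm
  · exact hc.symm

theorem Q_eq_wf (k c t : ℝ) (m : ℕ) :
    Align.Q (ap k (zt k c t)) (m + 1) = (wf k c t m).2 := by
  apply Complex.ofReal_injective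
  rw [Qp_eq, wf_snd]

theorem foot {k ρ : ℝ} {L w M : ℕ} {y : Tor} {x : ℕ → ℝ} (hk : (2 : ℝ) ^ 400 ≤ k) (hL : 20 ≤ L)
    (hρ : 0 ≤ ρ) (h : Good.Side k L ρ y x w M) :
    ∀ j ≤ w, |Align.Q (ap k y) j| ≤ k ^ 50 * Real.exp ρ := by
  obtain ⟨c, t, rfl⟩ := exists_zt k y
  have hC := SideSize.clean hk hL hρ h
  have hS := SideSize.sizes hk hL hρ h
  have hX := SideSize.XX_eq hk hL h
  have hk4 : 4 ≤ k := SideSize.four_le hk
  have hk20 : (2 : ℝ) ^ 20 ≤ k := le_trans (pow_le_pow_right₀ (by norm_num) (by norm_num)) hk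
  clear hk
  have he := Real.exp_pos ρ
  intro j hj
  rcases Nat.eq_zero_or_pos j with h0 | h0
  · rw [h0, Align.Q_zero, abs_zero]
    positivity
  obtain ⟨m, rfl⟩ : ∃ m, j = m + 1 := ⟨j - 1, by omega⟩
  have hm : m ≤ w - 1 := by omega
  rw [Q_eq_wf]
  have h1 := hC.R_le hm
  have h2 : nn (SideSize.EF k c t w m) ^ (-(1 - 3 * (1 / 60 : ℝ))) ≤ 1 :=
    Real.rpow_le_one_of_one_le_of_nonpos (hC.one m hm) (by norm_num)
  have hCC : CleanNum.C1 (8 * k) 3 4 ≤ 200 * k ^ 2 := by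
    unfold CleanNum.C1
    nlinarith
  have hC0 : 0 ≤ CleanNum.C1 (8 * k) 3 4 := by
    unfold CleanNum.C1
    positivity
  have hXle : |wr (wf k c t 0) (SideSize.EF k c t w 0)| ≤ 2 * k ^ 3 * Real.exp ρ := by
    have : |wr (wf k c t 0) (SideSize.EF k c t w 0)| = |(wf k c t (w - 1)).2| := hX.2
    rw [this]
    exact hS.2
  calc |(wf k c t m).2| ≤ nn (wf k c t m) := abs_snd_le _
    _ ≤ CleanNum.C1 (8 * k) 3 4 * |wr (wf k c t 0) (SideSize.EF k c t w 0)| *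
        nn (SideSize.EF k c t w m) ^ (-(1 - 3 * (1 / 60 : ℝ))) := h1
    _ ≤ CleanNum.C1 (8 * k) 3 4 * |wr (wf k c t 0) (SideSize.EF k c t w 0)| * 1 :=
        mul_le_mul_of_nonneg_left h2 (mul_nonneg hC0 (abs_nonneg _))
    _ = CleanNum.C1 (8 * k) 3 4 * |wr (wf k c t 0) (SideSize.EF k c t w 0)| := mul_one _
    _ ≤ (200 * k ^ 2) * (2 * k ^ 3 * Real.exp ρ) :=
        mul_le_mul hCC hXle (abs_nonneg _) (by positivity)
    _ = (400 * k ^ 5) * Real.exp ρ := by ring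
    _ ≤ k ^ 50 * Real.exp ρ := by
        refine mul_le_mul_of_nonneg_right ?_ he.le
        have h5 : (400 : ℝ) ≤ k := le_trans (by norm_num) hk20
        calc 400 * k ^ 5 ≤ k * k ^ 5 := mul_le_mul_of_nonneg_right h5 (by positivity)
          _ = k ^ 6 := by ring
          _ ≤ k ^ 50 := pow_le_pow_right₀ (by linarith) (by norm_num)

/-- **(H4)**, final form: only the sizes before the exits are hypotheses. -/
theorem good3 (C1 : ℝ) {L : ℕ} (hL : 20 ≤ L) : ∃ k1 : ℝ, ∀ k : ℝ, k1 ≤ k →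
    ∀ (c u : ℝ) (n : ℕ) (s : Bool) (n1 n1' : ℕ) (m R lam q0 q1 q2 : ℝ),
    zt k c u ∈ Good.G k L n → k ^ 60 * 2 ^ n ≤ R / 4 → R ≤ k ^ 74 * 2 ^ n →
    |lam| ≤ C1 * Real.sqrt k → Loc.Cell3 k c s n1 n1' m R lam C1 q0 q1 q2 → |u - m| ≤ 3 / R →
    (∀ i ≤ n1, ‖Loc.D k c s i u‖ ≤ k ^ 74 * Real.sqrt k * 2 ^ n) →
    (∀ i ≤ n1', ‖Loc.D k c (!s) i u‖ ≤ k ^ 74 * Real.sqrt k * 2 ^ n) →
    Loc.Good3 k c s n1 n1' R u := by
  obtain ⟨k1, h⟩ := H4.good3 C1 L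
  refine ⟨max k1 (2 ^ 400), fun k hk => ?_⟩
  exact h k (le_trans (le_max_left _ _) hk)
    (fun ρ y x w M hρ S => foot (le_trans (le_max_right _ _) hk) hL hρ S)

end Crest.Agent.R128.H4Fin
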