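import Crest.Agent.R128.Trunc
import Crest.Agent.R128.AlignLam

/-!
# Row 128: the content identity for a two-sided field with regular digits at the exits (helper556)

`content_field`: for a two-sided Jacobi field with `|x 0| = 1` which is small at the exits plus
`r + 1` regular digits, the truncated content equals the two first fresh terms up to an explicit
error.
-/

set_option autoImplicit false
open Crest.Agent.R128 Crest.Agent.R128.Two Crest.Agent.R128.Acc Crest.Agent.R128.AlignMn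

namespace Crest.Agent.R128.TruncF

open TreeSum Crest.Agent.R128.Trunc

/-- growth of `Q` along regular digits -/
theorem growth {a : ℕ → ℝ} {m : ℕ} {A : ℝ} (hA : 2 ≤ A)
    (hc : |Align.Q a m| ≤ |Align.Q a (m + 1)|) :
    ∀ {r : ℕ}, (∀ i, m + 1 ≤ i → i ≤ m + r → A ≤ |a i|) →
    |Align.Q a (m + r)| ≤ |Align.Q a (m + r + 1)| ∧
      (A / 2) ^ r * |Align.Q a (m + 1)| ≤ |Align.Q a (m + r + 1)| := by
  intro r
  induction r with
  | zero =>
    intro _
    simpa using hc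
  | succ r ih =>
    intro h
    obtain ⟨h1, h2⟩ := ih (fun i hi hi' => h i hi (by omega))
    have e2 : Align.Q a (m + r + 1 + 1) = a (m + r + 1) * Align.Q a (m + r + 1) -
        Align.Q a (m + r) := Align.Q_add_two a (m + r)
    have h3 : A / 2 * |Align.Q a (m + r + 1)| ≤ |Align.Q a (m + r + 1 + 1)| := by
      have h4 : |a (m + r + 1) * Align.Q a (m + r + 1)| ≤
          |Align.Q a (m + r + 1 + 1)| + |Align.Q a (m + r)| := by
        have : a (m + r + 1) * Align.Q a (m + r + 1) =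
            Align.Q a (m + r + 1 + 1) + Align.Q a (m + r) := by rw [e2]; ring
        rw [this]
        exact abs_add_le _ _
      rw [abs_mul] at h4
      have h5 := mul_le_mul_of_nonneg_right (h (m + r + 1) (by omega) (by omega))
        (abs_nonneg (Align.Q a (m + r + 1)))
      have h6 : 1 * |Align.Q a (m + r + 1)| ≤ A / 2 * |Align.Q a (m + r + 1)| :=
        mul_le_mul_of_nonneg_right (by linarith) (abs_nonneg _)
      linarith
    have h7 : |Align.Q a (m + r + 1)| ≤ |Align.Q a (m + r + 1 + 1)| := by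
      have h6 : 1 * |Align.Q a (m + r + 1)| ≤ A / 2 * |Align.Q a (m + r + 1)| :=
        mul_le_mul_of_nonneg_right (by linarith) (abs_nonneg _)
      linarith
    refine ⟨h7, ?_⟩
    calc (A / 2) ^ (r + 1) * |Align.Q a (m + 1)| =
        A / 2 * ((A / 2) ^ r * |Align.Q a (m + 1)|) := by ring
      _ ≤ A / 2 * |Align.Q a (m + r + 1)| := mul_le_mul_of_nonneg_left h2 (by linarith)
      _ ≤ _ := h3

/-- upper growth of `Q` along digits of size at most `K` -/
theorem growth_upper {a : ℕ → ℝ} {m : ℕ} {A K : ℝ} (hA : 2 ≤ A)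
    (hc : |Align.Q a m| ≤ |Align.Q a (m + 1)|) :
    ∀ {r : ℕ}, (∀ i, m + 1 ≤ i → i ≤ m + r → A ≤ |a i|) →
      (∀ i, m + 1 ≤ i → i ≤ m + r → |a i| ≤ K) →
      |Align.Q a (m + r + 1)| ≤ (K + 1) ^ r * |Align.Q a (m + 1)| := by
  intro r
  induction r with
  | zero =>
    intro _ _
    simp
  | succ r ih =>
    intro h hK
    have h1 := (growth hA hc (r := r) (fun i hi hi' => h i hi (by omega))).1
    have h2 := ih (fun i hi hi' => h i hi (by omega)) (fun i hi hi' => hK i hi (by omega))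
    have e2 : Align.Q a (m + r + 1 + 1) = a (m + r + 1) * Align.Q a (m + r + 1) -
        Align.Q a (m + r) := Align.Q_add_two a (m + r)
    have hK0 : 0 ≤ K := (abs_nonneg _).trans (hK (m + r + 1) (by omega) (by omega))
    change |Align.Q a (m + r + 1 + 1)| ≤ _
    rw [e2]
    refine (abs_sub _ _).trans ?_
    rw [abs_mul]
    have h5 := mul_le_mul_of_nonneg_right (hK (m + r + 1) (by omega) (by omega))
        (abs_nonneg (Align.Q a (m + r + 1)))
    calc |a (m + r + 1)| * |Align.Q a (m + r + 1)| + |Align.Q a (m + r)| ≤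
        (K + 1) * |Align.Q a (m + r + 1)| := by linarith
      _ ≤ (K + 1) * ((K + 1) ^ r * |Align.Q a (m + 1)|) :=
        mul_le_mul_of_nonneg_left h2 (by linarith)
      _ = _ := by ring

/-- **one side**: the exit is `m + 1`, the digits `m + 1, …, m + 2 + r` are regular, the
contracted solution is at most `e` at the indices `m + 2 + r`, `m + 3 + r`. -/
theorem side_regular {a : ℕ → ℝ} {u v : ℝ} (hu : |u| = 1) {m r : ℕ} {e δ A K : ℝ}
    (h0 : |Align.sol a u v (m + 2 + r)| ≤ e) (h1 : |Align.sol a u v (m + 2 + r + 1)| ≤ e)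
    (hQ : Align.Q a (m + 1) ≠ 0) (hδ : |Align.Q a m| ≤ δ * |Align.Q a (m + 1)|) (hδ1 : δ ≤ 1)
    (hA : 4 ≤ A) (hdig : ∀ i, m + 1 ≤ i → i ≤ m + 2 + r → A ≤ |a i|) (hK : |a (m + 2)| ≤ K) :
    |(v - u * Align.mu a (m + 1)) - u * (1 / (a (m + 1) * Align.Q a (m + 1) ^ 2))| ≤
      (K + 2) * (2 * e / ((A / 2) ^ (r + 2) * |Align.Q a (m + 1)|)) +
        (2 * δ + 56 / A) * (1 / (A ^ 2 * Align.Q a (m + 1) ^ 2)) := by
  have hq0 : 0 < |Align.Q a (m + 1)| := abs_pos.mpr hQ
  have hc : |Align.Q a m| ≤ |Align.Q a (m + 1)| := by nlinarith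
  have g1 := growth (a := a) (m := m) (A := A) (by linarith) hc (r := 1)
    (fun i hi hi' => hdig i hi (by omega))
  have g2 := growth (a := a) (m := m) (A := A) (by linarith) hc (r := 2)
    (fun i hi hi' => hdig i hi (by omega))
  have gr := growth (a := a) (m := m) (A := A) (by linarith) hc (r := r + 2)
    (fun i hi hi' => hdig i hi (by omega))
  have h23 : |Align.Q a (m + 2)| ≤ |Align.Q a (m + 3)| := g2.1
  have hq3 : 0 < |Align.Q a (m + 3)| := lt_of_lt_of_le (by positivity) g2.2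
  have hE : 0 < (A / 2) ^ (r + 2) * |Align.Q a (m + 1)| := by positivity
  have hbig : (A / 2) ^ (r + 2) * |Align.Q a (m + 1)| ≤ nn (Trunc.pr a 0 1 (m + 2 + r)) := by
    have h3 := gr.2
    have h4 := abs_snd_le (Trunc.pr a 0 1 (m + 2 + r))
    have h5 : (Trunc.pr a 0 1 (m + 2 + r)).2 = Align.Q a (m + (r + 2) + 1) := by
      have : m + 2 + r + 1 = m + (r + 2) + 1 := by ring
      change Align.sol a 0 1 (m + 2 + r + 1) = _
      rw [this]
      rfl
    rw [h5] at h4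
    exact h3.trans h4
  have hwt := (AlignLam.wt_regular (a := a) (n := m + 2) h23 (abs_pos.mp hq3)
    (m := m + 2 + r) (by omega) (fun i hi hi' => by
      have := hdig (i + 1) (by omega) (by omega)
      unfold AlignLam.sh
      linarith)).2.2
  have hS : nn (Trunc.pr a 0 1 (m + 2)) ^ 2 *
      wt (fun n => a (n + 1)) (Trunc.pr a 0 1) (m + 2) (m + 2 + r) ≤ 6 := by
    have hw : wt (fun n => a (n + 1)) (Trunc.pr a 0 1) (m + 2) (m + 2 + r) ≤
        3 / |Align.Q a (m + 3)| ^ 2 := by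
      have h6 : wt (fun n => a (n + 1)) (Trunc.pr a 0 1) (m + 2) (m + 2 + r) =
          wt (AlignLam.sh a) (AlignLam.Wq a) (m + 2) (m + 2 + r) := rfl
      rw [h6]
      refine hwt.trans ?_
      have : 0 ≤ 3 / |Align.Q a (m + 2 + r + 1)| ^ 2 := by positivity
      linarith
    have hn : nn (Trunc.pr a 0 1 (m + 2)) ^ 2 ≤ 2 * |Align.Q a (m + 3)| ^ 2 := by
      have h7 : nn (Trunc.pr a 0 1 (m + 2)) ^ 2 = |Align.Q a (m + 2)| ^ 2 + |Align.Q a (m + 3)| ^ 2 := by
        unfold nn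
        rw [Real.sq_sqrt (by positivity), sq_abs, sq_abs]
        rfl
      rw [h7]
      have := pow_le_pow_left₀ (abs_nonneg _) h23 2
      linarith
    calc nn (Trunc.pr a 0 1 (m + 2)) ^ 2 *
        wt (fun n => a (n + 1)) (Trunc.pr a 0 1) (m + 2) (m + 2 + r) ≤
        (2 * |Align.Q a (m + 3)| ^ 2) * (3 / |Align.Q a (m + 3)| ^ 2) :=
          mul_le_mul hn hw (wt_nonneg _ _ _ _) (by positivity)
      _ = 6 := by
          field_simp
          norm_num
  have hfin := side (a := a) (u := u) (v := v) hu (m := m) (J := m + 2 + r) (by omega)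
    (e := e) (E := (A / 2) ^ (r + 2) * |Align.Q a (m + 1)|) (S := 6) (δ := δ) (A := A) (A2 := A)
    (K := K) hE h0 h1 hbig hQ hδ (by linarith) (by linarith)
    (hdig (m + 1) (by omega) (by omega)) (by linarith) (hdig (m + 2) (by omega) (by omega)) hK
    (by norm_num) hS
  refine hfin.trans (le_of_eq ?_)
  norm_num

/-- data of one side at the exit `m + 1`, straight up to the foot `J` -/
structure Foot (a : ℕ → ℝ) (m J : ℕ) (E S δ A A2 K : ℝ) : Prop where
  mJ : m + 2 ≤ J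
  big : E ≤ nn (Trunc.pr a 0 1 J)
  Q0 : Align.Q a (m + 1) ≠ 0
  del : |Align.Q a m| ≤ δ * |Align.Q a (m + 1)|
  dig : A ≤ |a (m + 1)|
  dig2 : A2 ≤ |a (m + 2)|
  digK : |a (m + 2)| ≤ K
  sum : nn (Trunc.pr a 0 1 (m + 2)) ^ 2 *
    wt (fun n => a (n + 1)) (Trunc.pr a 0 1) (m + 2) J ≤ S

/-- **content identity at two feet, for a two-sided field** (general form) -/
theorem content_feet {k : ℝ} {z : Tor} {x : ℤ → ℝ}
    (hx : ∀ n, x (n + 1) = dz k z n * x n - x (n - 1)) (hx0 : |x 0| = 1)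
    {m J m' J' : ℕ} {e e' E E' S δ A A2 K : ℝ} (hE : 0 < E) (hE' : 0 < E') (hδA : 2 * δ ≤ A)
    (hA : 2 ≤ A) (hA2 : 2 ≤ A2) (hS : 0 ≤ S)
    (h0 : |x (J : ℤ)| ≤ e) (h1 : |x ((J : ℤ) + 1)| ≤ e)
    (h0' : |x (-(J' : ℤ))| ≤ e') (h1' : |x (-(J' : ℤ) - 1)| ≤ e')
    (R : Foot (ap k z) m J E S δ A A2 K) (L : Foot (am k z) m' J' E' S δ A A2 K) :
    |cont k z m m' - 1 / (ap k z (m + 1) * Align.Q (ap k z) (m + 1) ^ 2)
        - 1 / (am k z (m' + 1) * Align.Q (am k z) (m' + 1) ^ 2)| ≤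
      (K + 2) * (2 * e / E) + (K + 2) * (2 * e' / E') +
        (2 * δ + 8 * (S + 1) / A2) * (1 / (A ^ 2 * Align.Q (ap k z) (m + 1) ^ 2)
        + 1 / (A ^ 2 * Align.Q (am k z) (m' + 1) ^ 2)) := by
  have hrec : x 1 + x (-1) = V k z.2 * x 0 := by
    have := hx 0
    rw [dz_zero] at this
    norm_num at this
    linarith
  have h1n : |x ((J + 1 : ℕ) : ℤ)| ≤ e := by
    push_cast
    exact h1
  have h1n' : |x (-((J' + 1 : ℕ) : ℤ))| ≤ e' := by
    have : -((J' + 1 : ℕ) : ℤ) = -(J' : ℤ) - 1 := by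
      push_cast
      ring
    rw [this]
    exact h1'
  rw [right_sol hx] at h0 h1n
  rw [left_sol hx] at h0' h1n'
  have hRs := side (a := ap k z) (u := x 0) (v := x 1) hx0 R.mJ (e := e) (E := E) (S := S)
    (δ := δ) (A := A) (A2 := A2) (K := K) hE h0 h1n R.big R.Q0 R.del hδA hA R.dig hA2 R.dig2
    R.digK hS R.sum
  have hLs := side (a := am k z) (u := x 0) (v := x (-1)) hx0 L.mJ (e := e') (E := E') (S := S)
    (δ := δ) (A := A) (A2 := A2) (K := K) hE' h0' h1n' L.big L.Q0 L.del hδA hA L.dig hA2 L.dig2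
    L.digK hS L.sum
  have hsum : x 0 * (cont k z m m' - 1 / (ap k z (m + 1) * Align.Q (ap k z) (m + 1) ^ 2)
        - 1 / (am k z (m' + 1) * Align.Q (am k z) (m' + 1) ^ 2)) =
      ((x 1 - x 0 * Align.mu (ap k z) (m + 1)) -
          x 0 * (1 / (ap k z (m + 1) * Align.Q (ap k z) (m + 1) ^ 2))) +
        ((x (-1) - x 0 * Align.mu (am k z) (m' + 1)) -
          x 0 * (1 / (am k z (m' + 1) * Align.Q (am k z) (m' + 1) ^ 2))) := by
    unfold cont
    linear_combination -hrec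
  have habs : |cont k z m m' - 1 / (ap k z (m + 1) * Align.Q (ap k z) (m + 1) ^ 2)
        - 1 / (am k z (m' + 1) * Align.Q (am k z) (m' + 1) ^ 2)| =
      |x 0 * (cont k z m m' - 1 / (ap k z (m + 1) * Align.Q (ap k z) (m + 1) ^ 2)
        - 1 / (am k z (m' + 1) * Align.Q (am k z) (m' + 1) ^ 2))| := by
    rw [abs_mul, hx0, one_mul]
  rw [habs, hsum]
  refine (abs_add_le _ _).trans ((add_le_add hRs hLs).trans (le_of_eq ?_))
  ring

/-- **content identity for a two-sided field** -/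
theorem content_field {k : ℝ} {z : Tor} {x : ℤ → ℝ}
    (hx : ∀ n, x (n + 1) = dz k z n * x n - x (n - 1)) (hx0 : |x 0| = 1)
    {m r m' r' : ℕ} {e e' δ A K : ℝ} (hδ1 : δ ≤ 1) (hA : 4 ≤ A)
    (h0 : |x ((m + 2 + r : ℕ) : ℤ)| ≤ e) (h1 : |x ((m + 2 + r + 1 : ℕ) : ℤ)| ≤ e)
    (hQ : Align.Q (ap k z) (m + 1) ≠ 0)
    (hδ : |Align.Q (ap k z) m| ≤ δ * |Align.Q (ap k z) (m + 1)|)
    (hdig : ∀ i, m + 1 ≤ i → i ≤ m + 2 + r → A ≤ |ap k z i|) (hK : |ap k z (m + 2)| ≤ K)
    (h0' : |x (-((m' + 2 + r' : ℕ) : ℤ))| ≤ e') (h1' : |x (-((m' + 2 + r' + 1 : ℕ) : ℤ))| ≤ e')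
    (hQ' : Align.Q (am k z) (m' + 1) ≠ 0)
    (hδ' : |Align.Q (am k z) m'| ≤ δ * |Align.Q (am k z) (m' + 1)|)
    (hdig' : ∀ i, m' + 1 ≤ i → i ≤ m' + 2 + r' → A ≤ |am k z i|) (hK' : |am k z (m' + 2)| ≤ K) :
    |cont k z m m' - 1 / (ap k z (m + 1) * Align.Q (ap k z) (m + 1) ^ 2)
        - 1 / (am k z (m' + 1) * Align.Q (am k z) (m' + 1) ^ 2)| ≤
      (K + 2) * (2 * e / ((A / 2) ^ (r + 2) * |Align.Q (ap k z) (m + 1)|)) +
      (K + 2) * (2 * e' / ((A / 2) ^ (r' + 2) * |Align.Q (am k z) (m' + 1)|)) +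
        (2 * δ + 56 / A) * (1 / (A ^ 2 * Align.Q (ap k z) (m + 1) ^ 2)
        + 1 / (A ^ 2 * Align.Q (am k z) (m' + 1) ^ 2)) := by
  have hrec : x 1 + x (-1) = V k z.2 * x 0 := by
    have := hx 0
    rw [dz_zero] at this
    norm_num at this
    linarith
  rw [right_sol hx] at h0 h1
  rw [left_sol hx] at h0' h1'
  have hRs := side_regular (a := ap k z) (u := x 0) (v := x 1) hx0 h0 h1 hQ hδ hδ1 hA hdig hK
  have hLs := side_regular (a := am k z) (u := x 0) (v := x (-1)) hx0 h0' h1' hQ' hδ' hδ1 hA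
    hdig' hK'
  have hsum : x 0 * (cont k z m m' - 1 / (ap k z (m + 1) * Align.Q (ap k z) (m + 1) ^ 2)
        - 1 / (am k z (m' + 1) * Align.Q (am k z) (m' + 1) ^ 2)) =
      ((x 1 - x 0 * Align.mu (ap k z) (m + 1)) -
          x 0 * (1 / (ap k z (m + 1) * Align.Q (ap k z) (m + 1) ^ 2))) +
        ((x (-1) - x 0 * Align.mu (am k z) (m' + 1)) -
          x 0 * (1 / (am k z (m' + 1) * Align.Q (am k z) (m' + 1) ^ 2))) := by
    unfold cont
    linear_combination -hrec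
  have habs : |cont k z m m' - 1 / (ap k z (m + 1) * Align.Q (ap k z) (m + 1) ^ 2)
        - 1 / (am k z (m' + 1) * Align.Q (am k z) (m' + 1) ^ 2)| =
      |x 0 * (cont k z m m' - 1 / (ap k z (m + 1) * Align.Q (ap k z) (m + 1) ^ 2)
        - 1 / (am k z (m' + 1) * Align.Q (am k z) (m' + 1) ^ 2))| := by
    rw [abs_mul, hx0, one_mul]
  rw [habs, hsum]
  refine (abs_add_le _ _).trans ((add_le_add hRs hLs).trans (le_of_eq ?_))
  ring

end Crest.Agent.R128.TruncF
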