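import Crest.Agent.R128.LocDef
import Crest.Agent.R128.DictY
import Crest.Agent.R128.TruncF

/-!
# Row 128, node N6-H4: a straight two-sided field gives a good point (helper556)
-/

set_option autoImplicit false
open Crest.Agent.R128 Crest.Agent.R128.Two Crest.Agent.R128.Acc Crest.Agent.R128.AlignMn
open Crest.Agent.R128.Cell Crest.Agent.R128.CellB Crest.Agent.R128.CellDy

namespace Crest.Agent.R128.H4b

open TreeSum Crest.Agent.R128.Trunc

/-- real digits of a side -/
noncomputable def ad (k : ℝ) (z : Tor) (s : Bool) : ℕ → ℝ := if s then ap k z else am k z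

/-- values of a field on a side -/
def sx (x : ℤ → ℝ) (s : Bool) (n : ℕ) : ℝ := if s then x n else x (-(n : ℤ))

theorem dg_eq (k c t : ℝ) (s : Bool) (n : ℕ) :
    ((ad k (DictY.zt k c t) s n : ℝ) : ℂ) = Loc.dg k c s (t : ℂ) n := by
  cases s with
  | true =>
    unfold ad Loc.dg Loc.Y Loc.sdC
    simpa using DictY.ap_eq k c t n
  | false =>
    unfold ad Loc.dg Loc.Y Loc.sdC
    have := DictY.am_eq k c t n
    simp only [Bool.false_eq_true, if_false]
    rw [this]
    congr 2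
    unfold DictY.tb kap
    push_cast
    ring

theorem D_eq (k c t : ℝ) (s : Bool) (n : ℕ) :
    ((Align.Q (ad k (DictY.zt k c t) s) n : ℝ) : ℂ) = Loc.D k c s n (t : ℂ) := by
  rw [← Loc.Q_dg]
  have := DictY.sol_cast (A := Loc.dg k c s (t : ℂ)) (fun n => dg_eq k c t s n) 0 1 n
  rw [Complex.ofReal_zero, Complex.ofReal_one] at this
  exact this

theorem mu_eq (k c t : ℝ) (s : Bool) (n : ℕ) :
    ((Align.mu (ad k (DictY.zt k c t) s) n : ℝ) : ℂ) = Loc.mu k c s n (t : ℂ) := by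
  have h1 := DictY.sol_cast (A := Loc.dg k c s (t : ℂ)) (fun n => dg_eq k c t s n) 0 1 n
  have h2 := DictY.sol_cast (A := Loc.dg k c s (t : ℂ)) (fun n => dg_eq k c t s n) 1 0 n
  rw [Complex.ofReal_zero, Complex.ofReal_one] at h1 h2
  unfold Loc.mu Align.mu
  push_cast
  unfold Align.P Align.Q
  rw [h1, h2]

theorem cont_eq (k c t : ℝ) (s : Bool) (n n' : ℕ) :
    ((V k (c : UnitAddCircle) - Align.mu (ad k (DictY.zt k c t) s) n -
      Align.mu (ad k (DictY.zt k c t) (!s)) n' : ℝ) : ℂ) = Loc.cont k c s n n' (t : ℂ) := by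
  unfold Loc.cont
  push_cast
  rw [mu_eq, mu_eq, cV_ofReal]

theorem norm_cont (k c t : ℝ) (s : Bool) (n n' : ℕ) :
    ‖Loc.cont k c s n n' (t : ℂ)‖ = |V k (c : UnitAddCircle) -
      Align.mu (ad k (DictY.zt k c t) s) n - Align.mu (ad k (DictY.zt k c t) (!s)) n'| := by
  rw [← cont_eq, Complex.norm_real, Real.norm_eq_abs]

theorem norm_D (k c t : ℝ) (s : Bool) (n : ℕ) :
    ‖Loc.D k c s n (t : ℂ)‖ = |Align.Q (ad k (DictY.zt k c t) s) n| := by
  rw [← D_eq, Complex.norm_real, Real.norm_eq_abs]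

theorem norm_dg (k c t : ℝ) (s : Bool) (n : ℕ) :
    ‖Loc.dg k c s (t : ℂ) n‖ = |ad k (DictY.zt k c t) s n| := by
  rw [← dg_eq, Complex.norm_real, Real.norm_eq_abs]

theorem abs_ad_le {k : ℝ} (hk : 1 ≤ k) (z : Tor) (s : Bool) (n : ℕ) : |ad k z s n| ≤ 9 * k := by
  have h : ∀ y : UnitAddCircle, |V k y| ≤ 9 * k := by
    intro y
    induction y using QuotientAddGroup.induction_on with
    | H y =>
      rw [V_coe]
      have h1 := Real.abs_cos_le_one (2 * Real.pi * y)
      have h2 := Real.pi_lt_d2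
      have h3 := Real.pi_pos
      have h4 : |2 * Real.pi * k * Real.cos (2 * Real.pi * y)| ≤ 2 * Real.pi * k := by
        rw [abs_mul, abs_of_pos (by positivity : 0 < 2 * Real.pi * k)]
        nlinarith [mul_pos (mul_pos (by norm_num : (0:ℝ) < 2) h3) (by linarith : 0 < k)]
      have h5 := abs_add_le 2 (2 * Real.pi * k * Real.cos (2 * Real.pi * y))
      have h6 : |(2 : ℝ)| = 2 := by norm_num
      rw [h6] at h5
      nlinarith
  unfold ad
  cases s
  · exact h _
  · exact h _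

/-- the tail of the content beyond the index `p`, for a solution which is small at the end of a
regular run -/
theorem tail_le {a : ℕ → ℝ} {u v : ℝ} (hu : |u| = 1) {p J : ℕ} (hpJ : p ≤ J) {e A K : ℝ}
    (he : 0 < e) (hA : 4 ≤ A) (hQ : Align.Q a p ≠ 0)
    (hc : A / 2 * |Align.Q a p| ≤ |Align.Q a (p + 1)|)
    (hK : |Align.Q a (p + 1)| ≤ (K + 1) * |Align.Q a p|)
    (hdig : ∀ i, p + 1 ≤ i → i ≤ J → A ≤ |a i|)
    (h0 : |Align.sol a u v J| ≤ e) (h1 : |Align.sol a u v (J + 1)| ≤ e) :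
    |v - u * Align.mu a p| ≤ (K + 2) * (4 * e ^ 2) + 14 / (A * Align.Q a p ^ 2) := by
  have hq : 0 < |Align.Q a p| := abs_pos.mpr hQ
  have hA0 : 0 < A := by linarith
  have hq1 : 0 < |Align.Q a (p + 1)| := lt_of_lt_of_le (by positivity) hc
  have hcc : |Align.Q a p| ≤ |Align.Q a (p + 1)| := by
    have : 1 * |Align.Q a p| ≤ A / 2 * |Align.Q a p| :=
      mul_le_mul_of_nonneg_right (by linarith) hq.le
    linarith
  have hwt := (AlignLam.wt_regular (a := a) (n := p) hcc (abs_pos.mp hq1)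
    (m := J) hpJ (fun i hi hi' => by
      have := hdig (i + 1) (by omega) (by omega)
      unfold AlignLam.sh
      linarith)).2.2
  have hn : nn (Trunc.pr a 0 1 p) ^ 2 = |Align.Q a p| ^ 2 + |Align.Q a (p + 1)| ^ 2 := by
    unfold nn
    rw [Real.sq_sqrt (by positivity), sq_abs, sq_abs]
    rfl
  have hS : nn (Trunc.pr a 0 1 p) ^ 2 *
      wt (fun n => a (n + 1)) (Trunc.pr a 0 1) p J ≤ 6 := by
    have hw : wt (fun n => a (n + 1)) (Trunc.pr a 0 1) p J ≤ 3 / |Align.Q a (p + 1)| ^ 2 := by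
      have h6 : wt (fun n => a (n + 1)) (Trunc.pr a 0 1) p J =
          wt (AlignLam.sh a) (AlignLam.Wq a) p J := rfl
      rw [h6]
      refine hwt.trans ?_
      have : 0 ≤ 3 / |Align.Q a (J + 1)| ^ 2 := by positivity
      linarith
    have hn2 : nn (Trunc.pr a 0 1 p) ^ 2 ≤ 2 * |Align.Q a (p + 1)| ^ 2 := by
      rw [hn]
      have := pow_le_pow_left₀ (abs_nonneg _) hcc 2
      linarith
    calc nn (Trunc.pr a 0 1 p) ^ 2 *
        wt (fun n => a (n + 1)) (Trunc.pr a 0 1) p J ≤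
        (2 * |Align.Q a (p + 1)| ^ 2) * (3 / |Align.Q a (p + 1)| ^ 2) :=
          mul_le_mul hn2 hw (wt_nonneg _ _ _ _) (by positivity)
      _ = 6 := by
          field_simp
          norm_num
  -- size of the growing field at `J`
  have hE : 1 / (2 * e) ≤ nn (Trunc.pr a 0 1 J) := by
    have h3 := abs_wr_le (Trunc.pr a 0 1 J) (Trunc.pr a u v J)
    rw [wr_pr, abs_neg, hu] at h3
    have h4 : nn (Trunc.pr a u v J) ≤ 2 * e := by
      refine (nn_le_add _).trans ?_
      have : |(Trunc.pr a u v J).1| + |(Trunc.pr a u v J).2| =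
        |Align.sol a u v J| + |Align.sol a u v (J + 1)| := rfl
      rw [this]
      linarith
    rw [div_le_iff₀ (by positivity)]
    exact h3.trans (mul_le_mul_of_nonneg_left h4 (nn_nonneg _))
  have hz := nn_le_of_end (a := a) hu hpJ (e := e) (E := 1 / (2 * e)) (S := 6) (by positivity)
    h0 h1 hE hS
  have e1 : 2 * e / (1 / (2 * e)) = 4 * e ^ 2 := by
    field_simp
    ring
  rw [e1] at hz
  have hs : |Align.sol a u v p| ≤ nn (Trunc.pr a u v p) := abs_fst_le (Trunc.pr a u v p)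
  have hw1 : A / 2 * |Align.Q a p| ≤ nn (Trunc.pr a 0 1 p) :=
    hc.trans (abs_snd_le (Trunc.pr a 0 1 p))
  have hw2 : nn (Trunc.pr a 0 1 p) ≤ (K + 2) * |Align.Q a p| := by
    refine (nn_le_add _).trans ?_
    have : |(Trunc.pr a 0 1 p).1| + |(Trunc.pr a 0 1 p).2| =
      |Align.Q a p| + |Align.Q a (p + 1)| := rfl
    rw [this]
    linarith
  have hwpos : 0 < nn (Trunc.pr a 0 1 p) := lt_of_lt_of_le (by positivity) hw1
  rw [Align.sub_mu u v hQ, abs_div, div_le_iff₀ hq]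
  have h7 : (6 + 1) / nn (Trunc.pr a 0 1 p) ≤ 14 / (A * Align.Q a p ^ 2) * |Align.Q a p| := by
    have h8 : (6 + 1) / nn (Trunc.pr a 0 1 p) ≤ (6 + 1) / (A / 2 * |Align.Q a p|) :=
      div_le_div_of_nonneg_left (by norm_num) (by positivity) hw1
    refine h8.trans (le_of_eq ?_)
    rw [← sq_abs (Align.Q a p)]
    field_simp
    norm_num
  have h11 : nn (Trunc.pr a 0 1 p) * (4 * e ^ 2) ≤ (K + 2) * |Align.Q a p| * (4 * e ^ 2) :=
    mul_le_mul_of_nonneg_right hw2 (by positivity)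
  calc |Align.sol a u v p| ≤ nn (Trunc.pr a u v p) := hs
    _ ≤ _ := hz
    _ ≤ (K + 2) * |Align.Q a p| * (4 * e ^ 2) + 14 / (A * Align.Q a p ^ 2) * |Align.Q a p| :=
      add_le_add h11 h7
    _ = _ := by ring

/-- the content cut at two indices, for a two-sided field -/
theorem content_eq {k : ℝ} {z : Tor} {x : ℤ → ℝ}
    (hx : ∀ n, x (n + 1) = dz k z n * x n - x (n - 1)) (hx0 : |x 0| = 1) (s : Bool) (p p' : ℕ) :
    |V k z.2 - Align.mu (ad k z s) p - Align.mu (ad k z (!s)) p'| ≤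
      |sx x s 1 - x 0 * Align.mu (ad k z s) p| +
        |sx x (!s) 1 - x 0 * Align.mu (ad k z (!s)) p'| := by
  have hrec : x 1 + x (-1) = V k z.2 * x 0 := by
    have := hx 0
    rw [dz_zero] at this
    norm_num at this
    linarith
  have hs : sx x s 1 + sx x (!s) 1 = V k z.2 * x 0 := by
    cases s
    · simp only [sx, Bool.false_eq_true, if_false, Bool.not_false, if_true]
      push_cast
      linarith
    · simp only [sx, Bool.not_true, Bool.false_eq_true, if_false, if_true]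
      push_cast
      linarith
  have h1 : |V k z.2 - Align.mu (ad k z s) p - Align.mu (ad k z (!s)) p'| =
      |x 0 * (V k z.2 - Align.mu (ad k z s) p - Align.mu (ad k z (!s)) p')| := by
    rw [abs_mul, hx0, one_mul]
  rw [h1]
  have h2 : x 0 * (V k z.2 - Align.mu (ad k z s) p - Align.mu (ad k z (!s)) p') =
      (sx x s 1 - x 0 * Align.mu (ad k z s) p) +
        (sx x (!s) 1 - x 0 * Align.mu (ad k z (!s)) p') := by
    linear_combination -hs
  rw [h2]
  exact abs_add_le _ _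

theorem sx_sol {k : ℝ} {z : Tor} {x : ℤ → ℝ}
    (hx : ∀ n, x (n + 1) = dz k z n * x n - x (n - 1)) (s : Bool) (n : ℕ) :
    sx x s n = Align.sol (ad k z s) (x 0) (sx x s 1) n := by
  cases s
  · simp only [sx, ad, Bool.false_eq_true, if_false]
    have := left_sol hx n
    simpa using this
  · simp only [sx, ad, if_true]
    have := right_sol hx n
    simpa using this

/-- one side of a good point: all the needed bounds -/
theorem side_bounds {k : ℝ} {z : Tor} {x : ℤ → ℝ} (hk : 1000 ≤ k)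
    (hx : ∀ n, x (n + 1) = dz k z n * x n - x (n - 1)) (hx0 : |x 0| = 1) (s : Bool) {n J : ℕ}
    {R e A : ℝ} (hR : 0 < R) (he : 0 < e) (hA : 4 ≤ A) (hJ : n + 3 ≤ J)
    (h0 : |sx x s J| ≤ e) (h1 : |sx x s (J + 1)| ≤ e)
    (hQ : |Align.Q (ad k z s) n| ≤ |Align.Q (ad k z s) (n + 1)|)
    (hR1 : R / 2 ≤ |Align.Q (ad k z s) (n + 1)|)
    (hdig : ∀ i, n + 1 ≤ i → i ≤ J → A ≤ |ad k z s i|) :
    |sx x s 1 - x 0 * Align.mu (ad k z s) (n + 2)| ≤ 10 * k * (4 * e ^ 2) +
        224 / (A ^ 3 * R ^ 2) ∧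
    0 < |Align.Q (ad k z s) (n + 2)| ∧
    |sx x s 1 - x 0 * Align.mu (ad k z s) (n + 3)| ≤ 10 * k * (4 * e ^ 2) +
        56 / (A ^ 3 * |Align.Q (ad k z s) (n + 2)| ^ 2) ∧
    |Align.Q (ad k z s) (n + 2)| ≤ 10 * k * |Align.Q (ad k z s) (n + 1)| := by
  have hA0 : 0 < A := by linarith
  have hA1 : 1 ≤ A / 2 := by linarith
  set a := ad k z s with ha
  have hKb : ∀ i, |a i| ≤ 9 * k := fun i => abs_ad_le (by linarith) z s i
  have hq1 : 0 < |Align.Q a (n + 1)| := lt_of_lt_of_le (by positivity) hR1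
  -- one step of growth
  have step : ∀ i, A ≤ |a (i + 1)| → |Align.Q a i| ≤ |Align.Q a (i + 1)| →
      A / 2 * |Align.Q a (i + 1)| ≤ |Align.Q a (i + 2)| ∧
        |Align.Q a (i + 2)| ≤ (9 * k + 1) * |Align.Q a (i + 1)| := by
    intro i hi hqi
    have e2 : Align.Q a (i + 2) = a (i + 1) * Align.Q a (i + 1) - Align.Q a i :=
      Align.Q_add_two a i
    constructor
    · have h4 : |a (i + 1) * Align.Q a (i + 1)| ≤ |Align.Q a (i + 2)| + |Align.Q a i| := by
        have : a (i + 1) * Align.Q a (i + 1) = Align.Q a (i + 2) + Align.Q a i := by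
          rw [e2]; ring
        rw [this]
        exact abs_add_le _ _
      rw [abs_mul] at h4
      have h5 := mul_le_mul_of_nonneg_right hi (abs_nonneg (Align.Q a (i + 1)))
      have h6 : 1 * |Align.Q a (i + 1)| ≤ A / 2 * |Align.Q a (i + 1)| :=
        mul_le_mul_of_nonneg_right hA1 (abs_nonneg _)
      linarith
    · rw [e2]
      refine (abs_sub _ _).trans ?_
      rw [abs_mul]
      have h5 := mul_le_mul_of_nonneg_right (hKb (i + 1)) (abs_nonneg (Align.Q a (i + 1)))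
      linarith
  have le_of_step : ∀ i, A / 2 * |Align.Q a (i + 1)| ≤ |Align.Q a (i + 2)| →
      |Align.Q a (i + 1)| ≤ |Align.Q a (i + 2)| := by
    intro i h
    have h6 : 1 * |Align.Q a (i + 1)| ≤ A / 2 * |Align.Q a (i + 1)| :=
        mul_le_mul_of_nonneg_right hA1 (abs_nonneg _)
    linarith
  obtain ⟨g1, u1⟩ := step n (hdig (n + 1) le_rfl (by omega)) hQ
  have l1 := le_of_step n g1
  obtain ⟨g2, u2⟩ := step (n + 1) (hdig (n + 2) (by omega) (by omega)) l1
  have l2 := le_of_step (n + 1) g2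
  obtain ⟨g3, u3⟩ := step (n + 2) (hdig (n + 3) (by omega) (by omega)) l2
  have q2 : 0 < |Align.Q a (n + 2)| := lt_of_lt_of_le (by positivity) g1
  have q3 : 0 < |Align.Q a (n + 3)| := lt_of_lt_of_le (by positivity) g2
  have hne2 : Align.Q a (n + 2) ≠ 0 := abs_pos.mp q2
  have hne3 : Align.Q a (n + 3) ≠ 0 := abs_pos.mp q3
  have s0 := sx_sol hx s J
  have s1 := sx_sol hx s (J + 1)
  rw [s0] at h0
  rw [s1] at h1
  have t2 := tail_le (a := a) (u := x 0) (v := sx x s 1) hx0 (p := n + 2) (J := J) (by omega)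
    (K := 9 * k) he hA (abs_pos.mp q2) g2 u2 (fun i hi hi' => hdig i (by omega) hi') h0 h1
  have t3 := tail_le (a := a) (u := x 0) (v := sx x s 1) hx0 (p := n + 3) (J := J) hJ
    (K := 9 * k) he hA (abs_pos.mp q3) g3 u3 (fun i hi hi' => hdig i (by omega) hi') h0 h1
  have hkk : (9 * k + 2) * (4 * e ^ 2) ≤ 10 * k * (4 * e ^ 2) :=
    mul_le_mul_of_nonneg_right (by linarith) (by positivity)
  refine ⟨?_, q2, ?_, ?_⟩
  · refine t2.trans (add_le_add hkk ?_)
    have h8 : A / 2 * (R / 2) ≤ |Align.Q a (n + 2)| :=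
      (mul_le_mul_of_nonneg_left hR1 (by linarith)).trans g1
    have h9 : (A / 2 * (R / 2)) ^ 2 ≤ Align.Q a (n + 2) ^ 2 := by
      rw [← sq_abs (Align.Q a (n + 2))]
      exact pow_le_pow_left₀ (by positivity) h8 2
    rw [div_le_div_iff₀ (by positivity) (by positivity)]
    nlinarith [mul_le_mul_of_nonneg_left h9 hA0.le]
  · refine t3.trans (add_le_add hkk ?_)
    have h9 : (A / 2 * |Align.Q a (n + 2)|) ^ 2 ≤ Align.Q a (n + 3) ^ 2 := by
      rw [← sq_abs (Align.Q a (n + 3))]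
      exact pow_le_pow_left₀ (by positivity) g2 2
    rw [div_le_div_iff₀ (by positivity) (by positivity)]
    nlinarith [mul_le_mul_of_nonneg_left h9 hA0.le]
  · refine u1.trans ?_
    exact mul_le_mul_of_nonneg_right (by linarith) (abs_nonneg _)

set_option maxHeartbeats 1000000 in
/-- **(H4), main part**: a two-sided field which is small at the ends of two regular runs gives a
good point in the sense of `LocDef`. -/
theorem good3_of_field {k c t : ℝ} (hk : 100000 ≤ k) {x : ℤ → ℝ}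
    (hx : ∀ m, x (m + 1) = dz k (DictY.zt k c t) m * x m - x (m - 1)) (hx0 : |x 0| = 1)
    (s : Bool) {n n' J J' : ℕ} {R e : ℝ} (hR : 0 < R) (he : 0 < e) (heR : k ^ 4 * R * e ≤ 1)
    (hJ : n + 3 ≤ J) (hJ' : n' + 3 ≤ J')
    (h0 : |sx x s J| ≤ e) (h1 : |sx x s (J + 1)| ≤ e)
    (h0' : |sx x (!s) J'| ≤ e) (h1' : |sx x (!s) (J' + 1)| ≤ e)
    (hQ : |Align.Q (ad k (DictY.zt k c t) s) n| ≤ |Align.Q (ad k (DictY.zt k c t) s) (n + 1)|)
    (hR1 : R / 2 ≤ |Align.Q (ad k (DictY.zt k c t) s) (n + 1)|)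
    (hR2 : |Align.Q (ad k (DictY.zt k c t) s) (n + 1)| ≤ 2 * R)
    (hQ' : |Align.Q (ad k (DictY.zt k c t) (!s)) n'| ≤
      |Align.Q (ad k (DictY.zt k c t) (!s)) (n' + 1)|)
    (hR1' : R / 2 ≤ |Align.Q (ad k (DictY.zt k c t) (!s)) (n' + 1)|)
    (hdig : ∀ i, n + 1 ≤ i → i ≤ J → k ^ (2 / 3 : ℝ) ≤ |ad k (DictY.zt k c t) s i|)
    (hdig' : ∀ i, n' + 1 ≤ i → i ≤ J' → k ^ (2 / 3 : ℝ) ≤ |ad k (DictY.zt k c t) (!s) i|) :
    Loc.Good3 k c s n n' R t := by
  have hk0 : 0 < k := by linarith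
  set A : ℝ := k ^ (2 / 3 : ℝ) with hAdef
  have hA3 : A ^ 3 = k ^ 2 := by
    rw [hAdef, ← Real.rpow_natCast, ← Real.rpow_mul hk0.le]
    norm_num
  have hA0 : 0 < A := Real.rpow_pos_of_pos hk0 _
  have hA : 4 ≤ A := by
    by_contra hc
    push Not at hc
    have h3 : A ^ 3 < 4 ^ 3 := pow_lt_pow_left₀ hc hA0.le (by norm_num)
    rw [hA3] at h3
    nlinarith
  obtain ⟨b1, b2, b3, b4⟩ := side_bounds (by linarith) hx hx0 s hR he hA hJ h0 h1 hQ hR1 hdig
  obtain ⟨b1', b2', b3', b4'⟩ := side_bounds (by linarith) hx hx0 (!s) hR he hA hJ' h0' h1'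
    hQ' hR1' hdig'
  have hpi := Real.pi_lt_d2
  have hpi0 := Real.pi_pos
  -- the contribution of the end
  have hRe : R ^ 2 * e ^ 2 ≤ 1 / k ^ 8 := by
    rw [le_div_iff₀ (by positivity)]
    have h3 : (k ^ 4 * R * e) ^ 2 ≤ 1 ^ 2 := pow_le_pow_left₀ (by positivity) heR 2
    nlinarith
  have hcont : ∀ p p' : ℕ, ‖Loc.cont k c s p p' (t : ℂ)‖ ≤
      |sx x s 1 - x 0 * Align.mu (ad k (DictY.zt k c t) s) p| +
        |sx x (!s) 1 - x 0 * Align.mu (ad k (DictY.zt k c t) (!s)) p'| := by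
    intro p p'
    rw [norm_cont]
    exact content_eq hx hx0 s p p'
  refine ⟨?_, ?_, ?_, ?_⟩
  · intro i hi
    rw [norm_dg]
    exact hdig _ (by omega) (by omega)
  · intro i hi
    rw [norm_dg]
    exact hdig' _ (by omega) (by omega)
  · have h2 : ‖Loc.cont k c s (n + 2) (n' + 2) (t : ℂ)‖ ≤
        80 * k * e ^ 2 + 448 / (k ^ 2 * R ^ 2) := by
      refine (hcont _ _).trans ((add_le_add b1 b1').trans (le_of_eq ?_))
      rw [hA3]
      ring
    calc 2 * Real.pi * k * R ^ 2 * ‖Loc.cont k c s (n + 2) (n' + 2) (t : ℂ)‖ ≤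
        2 * Real.pi * k * R ^ 2 * (80 * k * e ^ 2 + 448 / (k ^ 2 * R ^ 2)) :=
          mul_le_mul_of_nonneg_left h2 (by positivity)
      _ = 160 * Real.pi * k ^ 2 * (R ^ 2 * e ^ 2) + 896 * Real.pi / k := by
          field_simp
          ring
      _ ≤ 160 * Real.pi * k ^ 2 * (1 / k ^ 8) + 896 * Real.pi / k := by
          have := mul_le_mul_of_nonneg_left hRe (by positivity : 0 ≤ 160 * Real.pi * k ^ 2)
          linarith
      _ ≤ 1 / 16 + 1 / 16 := by
          apply add_le_add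
          · have e1 : 160 * Real.pi * k ^ 2 * (1 / k ^ 8) = 160 * Real.pi / k ^ 6 := by
              field_simp
            rw [e1, div_le_div_iff₀ (by positivity) (by norm_num)]
            have h5 : (100000 : ℝ) ^ 6 ≤ k ^ 6 := pow_le_pow_left₀ (by norm_num) hk 6
            norm_num at h5
            linarith
          · rw [div_le_div_iff₀ (by positivity) (by norm_num)]
            linarith
      _ = 1 / 8 := by norm_num
  · rw [norm_D, norm_D]
    set q := |Align.Q (ad k (DictY.zt k c t) s) (n + 2)| with hq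
    set q' := |Align.Q (ad k (DictY.zt k c t) (!s)) (n' + 2)| with hq'
    set mn := min q q' with hmn
    have hm0 : 0 < mn := lt_min b2 b2'
    have hmq : mn ≤ q := min_le_left _ _
    have hmq' : mn ≤ q' := min_le_right _ _
    have hc1 : 56 / (A ^ 3 * q ^ 2) ≤ 56 / (k ^ 2 * mn ^ 2) := by
      rw [hA3]
      apply div_le_div_of_nonneg_left (by norm_num) (by positivity)
      exact mul_le_mul_of_nonneg_left (pow_le_pow_left₀ hm0.le hmq 2) (by positivity)
    have hc1' : 56 / (A ^ 3 * q' ^ 2) ≤ 56 / (k ^ 2 * mn ^ 2) := by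
      rw [hA3]
      apply div_le_div_of_nonneg_left (by norm_num) (by positivity)
      exact mul_le_mul_of_nonneg_left (pow_le_pow_left₀ hm0.le hmq' 2) (by positivity)
    have h2 : ‖Loc.cont k c s (n + 3) (n' + 3) (t : ℂ)‖ ≤
        80 * k * e ^ 2 + 112 / (k ^ 2 * mn ^ 2) := by
      refine (hcont _ _).trans ((add_le_add b3 b3').trans ?_)
      have := add_le_add hc1 hc1'
      have e3 : 56 / (k ^ 2 * mn ^ 2) + 56 / (k ^ 2 * mn ^ 2) = 112 / (k ^ 2 * mn ^ 2) := by ring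
      rw [e3] at this
      linarith
    have hmR : mn ^ 2 ≤ 400 * k ^ 2 * R ^ 2 := by
      have h3 : mn ≤ 20 * k * R := by
        refine hmq.trans (b4.trans ?_)
        have := mul_le_mul_of_nonneg_left hR2 (by positivity : 0 ≤ 10 * k)
        linarith
      calc mn ^ 2 ≤ (20 * k * R) ^ 2 := pow_le_pow_left₀ hm0.le h3 2
        _ = _ := by ring
    calc 2 * Real.pi * k * mn ^ 2 * ‖Loc.cont k c s (n + 3) (n' + 3) (t : ℂ)‖ ≤
        2 * Real.pi * k * mn ^ 2 * (80 * k * e ^ 2 + 112 / (k ^ 2 * mn ^ 2)) :=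
          mul_le_mul_of_nonneg_left h2 (by positivity)
      _ = 160 * Real.pi * k ^ 2 * e ^ 2 * mn ^ 2 + 224 * Real.pi / k := by
          field_simp
          ring
      _ ≤ 160 * Real.pi * k ^ 2 * e ^ 2 * (400 * k ^ 2 * R ^ 2) + 224 * Real.pi / k := by
          have := mul_le_mul_of_nonneg_left hmR
            (by positivity : 0 ≤ 160 * Real.pi * k ^ 2 * e ^ 2)
          linarith
      _ = 64000 * Real.pi * k ^ 4 * (R ^ 2 * e ^ 2) + 224 * Real.pi / k := by ring
      _ ≤ 64000 * Real.pi * k ^ 4 * (1 / k ^ 8) + 224 * Real.pi / k := by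
          have := mul_le_mul_of_nonneg_left hRe (by positivity : 0 ≤ 64000 * Real.pi * k ^ 4)
          linarith
      _ ≤ 1 / 16 + 1 / 16 := by
          apply add_le_add
          · have e1 : 64000 * Real.pi * k ^ 4 * (1 / k ^ 8) = 64000 * Real.pi / k ^ 4 := by
              field_simp
            rw [e1, div_le_div_iff₀ (by positivity) (by norm_num)]
            have h5 : (100000 : ℝ) ^ 4 ≤ k ^ 4 := pow_le_pow_left₀ (by norm_num) hk 4
            norm_num at h5
            linarith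
          · rw [div_le_div_iff₀ (by positivity) (by norm_num)]
            linarith
      _ = 1 / 8 := by norm_num

/-- **(H4) on a cell**: `Cell3` gives all the size information -/
theorem good3_of_cell {k c : ℝ} {C1 : ℝ} (hk : 100000 ≤ k) (hC1 : 1 ≤ C1)
    (hkC : 4 * C1 ^ 4 ≤ k) (s : Bool) {n n' : ℕ} {m R lam q0 q1 q2 : ℝ}
    (hlam : |lam| ≤ C1 * Real.sqrt k) (H : Loc.Cell3 k c s n n' m R lam C1 q0 q1 q2)
    {u : ℝ} (hu : |u - m| < 4 / R) {x : ℤ → ℝ}
    (hx : ∀ i, x (i + 1) = dz k (DictY.zt k c u) i * x i - x (i - 1)) (hx0 : |x 0| = 1)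
    {J J' : ℕ} {e : ℝ} (he : 0 < e) (heR : k ^ 4 * R * e ≤ 1) (hJ : n + 3 ≤ J)
    (hJ' : n' + 3 ≤ J') (h0 : |sx x s J| ≤ e) (h1 : |sx x s (J + 1)| ≤ e)
    (h0' : |sx x (!s) J'| ≤ e) (h1' : |sx x (!s) (J' + 1)| ≤ e)
    (hdig : ∀ i, n + 1 ≤ i → i ≤ J → k ^ (2 / 3 : ℝ) ≤ |ad k (DictY.zt k c u) s i|)
    (hdig' : ∀ i, n' + 1 ≤ i → i ≤ J' → k ^ (2 / 3 : ℝ) ≤ |ad k (DictY.zt k c u) (!s) i|) :
    Loc.Good3 k c s n n' R u := by
  have hk0 : 0 < k := by linarith
  have hR0 : 0 < R := by linarith [H.hR]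
  have hmem : (u : ℂ) ∈ Metric.ball (m : ℂ) (4 / R) := by
    rw [Metric.mem_ball, Complex.dist_of_im_eq (by simp)]
    simpa [Real.dist_eq] using hu
  have hlam0 : 0 < |lam| := by linarith [H.hlam]
  -- `C1 * |lam| / k ≤ 1 / 2`
  have hsq : Real.sqrt k ^ 2 = k := Real.sq_sqrt hk0.le
  have hsq0 : 0 < Real.sqrt k := Real.sqrt_pos.mpr hk0
  have hs2 : 2 * C1 ^ 2 ≤ Real.sqrt k := by
    apply Real.le_sqrt_of_sq_le
    nlinarith
  have hCl : C1 * |lam| / k ≤ 1 / 2 := by
    rw [div_le_div_iff₀ hk0 (by norm_num)]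
    have h3 : C1 * |lam| ≤ C1 * (C1 * Real.sqrt k) := mul_le_mul_of_nonneg_left hlam (by linarith)
    nlinarith
  have hC1k : C1 / k ≤ 1 / 2 := by
    refine le_trans ?_ hCl
    apply div_le_div_of_nonneg_right _ hk0.le
    nlinarith [H.hlam]
  -- slow side
  obtain ⟨σ, hσ, hslow⟩ := H.slow
  have a1 := hslow u hmem
  have a2 := H.slow0 u hmem
  have a3 := H.fast u hmem
  have a4 := H.fast0 u hmem
  rw [norm_D] at a2 a4
  rw [← D_eq, ← Complex.ofReal_sub, Complex.norm_real, Real.norm_eq_abs] at a1 a3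
  have hσR : |σ * R| = R := by
    rcases hσ with h | h <;> rw [h] <;> simp [abs_of_pos hR0]
  have c1 : C1 * R / k ≤ R / 2 := by
    have := mul_le_mul_of_nonneg_right hC1k hR0.le
    calc C1 * R / k = C1 / k * R := by ring
      _ ≤ 1 / 2 * R := this
      _ = R / 2 := by ring
  have s1 : R / 2 ≤ |Align.Q (ad k (DictY.zt k c u) s) (n + 1)| := by
    have := abs_sub_abs_le_abs_sub (σ * R) (Align.Q (ad k (DictY.zt k c u) s) (n + 1))
    rw [hσR, abs_sub_comm] at this
    linarith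
  have s2 : |Align.Q (ad k (DictY.zt k c u) s) (n + 1)| ≤ 2 * R := by
    have := abs_sub_abs_le_abs_sub (Align.Q (ad k (DictY.zt k c u) s) (n + 1)) (σ * R)
    rw [hσR] at this
    linarith
  have c2 : C1 * |lam| ^ 2 * R / k ≤ |lam| * R / 2 := by
    have := mul_le_mul_of_nonneg_right hCl (by positivity : 0 ≤ |lam| * R)
    calc C1 * |lam| ^ 2 * R / k = C1 * |lam| / k * (|lam| * R) := by ring
      _ ≤ 1 / 2 * (|lam| * R) := this
      _ = |lam| * R / 2 := by ring
  have hlR : R ≤ |lam| * R := by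
    have := mul_le_mul_of_nonneg_right H.hlam hR0.le
    linarith
  have s3 : |lam| * R / 2 ≤ |Align.Q (ad k (DictY.zt k c u) (!s)) (n' + 1)| := by
    have := abs_sub_abs_le_abs_sub (lam * R) (Align.Q (ad k (DictY.zt k c u) (!s)) (n' + 1))
    rw [abs_mul, abs_of_pos hR0, abs_sub_comm] at this
    linarith
  have c3 : C1 * |lam| * R / k ≤ |lam| * R / 2 := by
    have := mul_le_mul_of_nonneg_right hC1k (by positivity : 0 ≤ |lam| * R)
    calc C1 * |lam| * R / k = C1 / k * (|lam| * R) := by ring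
      _ ≤ 1 / 2 * (|lam| * R) := this
      _ = |lam| * R / 2 := by ring
  exact good3_of_field hk hx hx0 s hR0 he heR hJ hJ' h0 h1 h0' h1' (by linarith) s1 s2
    (by linarith) (by linarith) hdig hdig'

end Crest.Agent.R128.H4b
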