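import Crest.Agent.R128.Iter

/-! Row 128, PAY-ITER2 (helper334): exponential moment version of `Iter.attempts`. Sorry free.

Per level `n` an arbitrary set `E n` (the points at which the level `n` is "very fresh and direct" and
alive). If for every dyadic cell of every level `n` in the range the hull of `E n` at level `n + g` has
proportion at most `q` of the cell, then the points which belong to many of the `E n` have exponentially
small measure: no hypothesis about the other points of the cell. -/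

set_option autoImplicit false
open MeasureTheory Set
open scoped ENNReal

namespace Crest.Agent.R128.Iter2

open Crest.Agent.R128.Iter

theorem cell_eq_iUnion (n g : ℕ) (m : ℤ) :
    cell n m = ⋃ m' ∈ Finset.Ico (m * 2 ^ g) ((m + 1) * 2 ^ g), cell (n + g) m' := by
  ext t
  constructor
  · intro h
    rw [mem_iUnion₂]
    have hb := idx_bounds (g := g) h
    exact ⟨idx (n + g) t, Finset.mem_Ico.2 hb, mem_cell_idx _ _⟩
  · intro h
    obtain ⟨m', hm', ht⟩ := mem_iUnion₂.1 h
    rw [Finset.mem_Ico] at hm'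
    exact cell_subset hm'.1 hm'.2 ht

theorem measurableSet_hull (n : ℕ) (E : Set ℝ) : MeasurableSet (hull n E) := by
  have e : hull n E = ⋃ m ∈ {m : ℤ | (cell n m ∩ E).Nonempty}, cell n m := by
    ext t
    rw [mem_iUnion₂]
    constructor
    · intro h
      exact ⟨idx n t, h, mem_cell_idx _ _⟩
    · rintro ⟨m, hm, ht⟩
      have := (mem_cell_iff n m t).1 ht
      unfold hull
      rw [mem_ofPred_eq, this]
      exact hm
  rw [e]
  exact MeasurableSet.biUnion (Set.to_countable _) fun m _ => measurableSet_cell n m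

/-- the hull is constant on cells -/
theorem mem_hull_iff_of_mem {n : ℕ} {E : Set ℝ} {m : ℤ} {t : ℝ} (ht : t ∈ cell n m) :
    t ∈ hull n E ↔ (cell n m ∩ E).Nonempty := by
  have := (mem_cell_iff n m t).1 ht
  unfold hull
  rw [mem_ofPred_eq, this]

/-- the weight `2 ^ (number of levels n, n+g, .., n+(S-1)g whose hull contains t)` -/
noncomputable def wgt (E : ℕ → Set ℝ) (g : ℕ) : ℕ → ℕ → ℝ → ℝ≥0∞
  | 0, _, _ => 1
  | S + 1, n, t => (1 + (hull (n + g) (E n)).indicator (fun _ => (1 : ℝ≥0∞)) t) * wgt E g S (n + g) t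

theorem measurable_wgt (E : ℕ → Set ℝ) (g : ℕ) : ∀ (S n : ℕ), Measurable (wgt E g S n)
  | 0, _ => measurable_const
  | S + 1, n => by
      have h1 : Measurable ((hull (n + g) (E n)).indicator (fun _ => (1 : ℝ≥0∞))) :=
        measurable_const.indicator (measurableSet_hull _ _)
      exact (measurable_const.add h1).mul (measurable_wgt E g S (n + g))

theorem lintegral_wgt {E : ℕ → Set ℝ} {g : ℕ} {q : ℝ≥0∞} {n₀ n₁ : ℕ}
    (hE : ∀ n m, n₀ ≤ n → n ≤ n₁ → volume (hull (n + g) (E n) ∩ cell n m) ≤ q * volume (cell n m)) :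
    ∀ (S n : ℕ) (_ : n₀ ≤ n) (_ : n + S * g ≤ n₁ + g) (m : ℤ),
      ∫⁻ t in cell n m, wgt E g S n t ≤ (1 + q) ^ S * volume (cell n m) := by
  intro S
  induction S with
  | zero =>
    intro n _ _ m
    simp [wgt]
  | succ S ih =>
    intro n hn hS m
    have hS' : n + g + S * g ≤ n₁ + g := by
      have : (S + 1) * g = S * g + g := by ring
      omega
    have hdis : (↑(Finset.Ico (m * 2 ^ g) ((m + 1) * 2 ^ g)) : Set ℤ).PairwiseDisjoint
        (fun m' => cell (n + g) m') := fun a _ b _ hab => cell_disjoint _ hab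
    set c : ℝ≥0∞ := ENNReal.ofReal (1 / 2 ^ (n + g)) with hc
    have hvc : ∀ m', volume (cell (n + g) m') = c := fun m' => volume_cell _ _
    have h1 : ∫⁻ t in cell n m, wgt E g (S + 1) n t =
        ∑ m' ∈ Finset.Ico (m * 2 ^ g) ((m + 1) * 2 ^ g),
          ∫⁻ t in cell (n + g) m', wgt E g (S + 1) n t := by
      rw [cell_eq_iUnion n g m]
      exact lintegral_biUnion_finset hdis (fun m' _ => measurableSet_cell _ _) _
    classical
    have h2 : ∀ m' ∈ Finset.Ico (m * 2 ^ g) ((m + 1) * 2 ^ g),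
        ∫⁻ t in cell (n + g) m', wgt E g (S + 1) n t ≤
          (1 + if m' ∈ kids (E n) n g m then 1 else 0) * ((1 + q) ^ S * c) := by
      intro m' hm'
      have e : ∀ t ∈ cell (n + g) m', wgt E g (S + 1) n t =
          (1 + if m' ∈ kids (E n) n g m then 1 else 0) * wgt E g S (n + g) t := by
        intro t ht
        have hk : t ∈ hull (n + g) (E n) ↔ m' ∈ kids (E n) n g m := by
          rw [mem_hull_iff_of_mem ht, mem_kids]
          rw [Finset.mem_Ico] at hm'
          exact ⟨fun h => ⟨hm', h⟩, fun h => h.2⟩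
        show (1 + (hull (n + g) (E n)).indicator (fun _ => (1 : ℝ≥0∞)) t) * _ = _
        by_cases h : m' ∈ kids (E n) n g m
        · rw [Set.indicator_of_mem (hk.2 h), if_pos h]
        · rw [Set.indicator_of_notMem (fun h' => h (hk.1 h')), if_neg h]
      rw [setLIntegral_congr_fun (measurableSet_cell _ _) e,
        lintegral_const_mul _ (measurable_wgt E g S (n + g))]
      refine mul_le_mul_right ?_ _
      rw [← hvc m']
      by_cases hcase : n + g ≤ n₁ + g
      · exact ih (n + g) (by omega) hS' m'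
      · exact ih (n + g) (by omega) hS' m'
    rw [h1]
    calc ∑ m' ∈ Finset.Ico (m * 2 ^ g) ((m + 1) * 2 ^ g),
          ∫⁻ t in cell (n + g) m', wgt E g (S + 1) n t
        ≤ ∑ m' ∈ Finset.Ico (m * 2 ^ g) ((m + 1) * 2 ^ g),
          (1 + if m' ∈ kids (E n) n g m then 1 else 0) * ((1 + q) ^ S * c) := Finset.sum_le_sum h2
      _ = (1 + q) ^ S * (volume (cell n m) + volume (hull (n + g) (E n) ∩ cell n m)) := by
          have hk : ∑ m' ∈ Finset.Ico (m * 2 ^ g) ((m + 1) * 2 ^ g),
              (if m' ∈ kids (E n) n g m then (1 : ℝ≥0∞) else 0) = (kids (E n) n g m).card := by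
            rw [Finset.sum_ite_mem, Finset.inter_eq_right.2]
            · simp
            · intro x hx
              rw [Finset.mem_Ico]
              exact (mem_kids.1 hx).1
          have hv : volume (cell n m) = ∑ _m' ∈ Finset.Ico (m * 2 ^ g) ((m + 1) * 2 ^ g), c := by
            conv_lhs => rw [cell_eq_iUnion n g m]
            rw [measure_biUnion_finset hdis (fun m' _ => measurableSet_cell _ _)]
            exact Finset.sum_congr rfl fun m' _ => hvc m'
          rw [← Finset.sum_mul, Finset.sum_add_distrib, hk, hv, volume_hull_inter_cell, ← hc]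
          rw [Finset.sum_const, Finset.sum_const, nsmul_eq_mul, nsmul_eq_mul, mul_one]
          ring
      _ ≤ (1 + q) ^ S * (volume (cell n m) + q * volume (cell n m)) := by
          gcongr
          refine hE n m hn ?_
          have : (S + 1) * g = S * g + g := by ring
          omega
      _ = (1 + q) ^ (S + 1) * volume (cell n m) := by ring

/-- number of levels `n, n+g, .., n+(S-1)g` at which `t` belongs to `E` -/
noncomputable def cnt (E : ℕ → Set ℝ) (g S n : ℕ) (t : ℝ) : ℕ := by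
  classical
  exact ((Finset.range S).filter fun j => t ∈ E (n + j * g)).card

theorem two_pow_cnt_le (E : ℕ → Set ℝ) (g : ℕ) : ∀ (S n : ℕ) (t : ℝ),
    (2 : ℝ≥0∞) ^ cnt E g S n t ≤ wgt E g S n t := by
  classical
  intro S
  induction S with
  | zero =>
    intro n t
    simp [cnt, wgt]
  | succ S ih =>
    intro n t
    have hc : cnt E g (S + 1) n t = (if t ∈ E n then 1 else 0) + cnt E g S (n + g) t := by
      unfold cnt
      rw [Finset.card_filter, Finset.card_filter, Finset.sum_range_succ', zero_mul, add_zero, add_comm]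
      congr 1
      apply Finset.sum_congr rfl
      intro j _
      rw [show n + (j + 1) * g = n + g + j * g by ring]
    rw [hc, pow_add]
    show _ ≤ (1 + (hull (n + g) (E n)).indicator (fun _ => (1 : ℝ≥0∞)) t) * wgt E g S (n + g) t
    refine mul_le_mul' ?_ (ih (n + g) t)
    split_ifs with h
    · rw [Set.indicator_of_mem (subset_hull _ _ h), pow_one]
      norm_num
    · simp

/-- **one residue class of levels** -/
theorem one_class {E : ℕ → Set ℝ} {g : ℕ} {q : ℝ≥0∞} {n₀ n₁ : ℕ}
    (hE : ∀ n m, n₀ ≤ n → n ≤ n₁ → volume (hull (n + g) (E n) ∩ cell n m) ≤ q * volume (cell n m))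
    (S n : ℕ) (hn : n₀ ≤ n) (hS : n + S * g ≤ n₁ + g) (m : ℤ) (s : ℕ) :
    volume {t | t ∈ cell n m ∧ s ≤ cnt E g S n t} ≤ (1 + q) ^ S / 2 ^ s * volume (cell n m) := by
  have h := lintegral_wgt hE S n hn hS m
  have h2 : (2 : ℝ≥0∞) ^ s * volume {t | t ∈ cell n m ∧ s ≤ cnt E g S n t} ≤
      ∫⁻ t in cell n m, wgt E g S n t := by
    have hm : MeasurableSet {t | (2 : ℝ≥0∞) ^ s ≤ wgt E g S n t} :=
      measurableSet_le measurable_const (measurable_wgt E g S n)
    calc (2 : ℝ≥0∞) ^ s * volume {t | t ∈ cell n m ∧ s ≤ cnt E g S n t}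
        ≤ (2 : ℝ≥0∞) ^ s * (volume.restrict (cell n m)) {t | (2 : ℝ≥0∞) ^ s ≤ wgt E g S n t} := by
          refine mul_le_mul_right ?_ _
          rw [Measure.restrict_apply hm]
          apply measure_mono
          rintro t ⟨h1, h2⟩
          refine ⟨?_, h1⟩
          show (2 : ℝ≥0∞) ^ s ≤ wgt E g S n t
          exact (pow_le_pow_right₀ (by norm_num) h2).trans (two_pow_cnt_le E g S n t)
      _ ≤ ∫⁻ t in cell n m, wgt E g S n t := mul_meas_ge_le_lintegral (measurable_wgt E g S n) _
  have h3 := h2.trans h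
  have h20 : (2 : ℝ≥0∞) ^ s ≠ 0 := pow_ne_zero _ (by norm_num)
  have h2t : (2 : ℝ≥0∞) ^ s ≠ ∞ := ENNReal.pow_ne_top (by norm_num)
  rw [mul_comm, ← ENNReal.le_div_iff_mul_le (Or.inl h20) (Or.inl h2t)] at h3
  refine h3.trans (le_of_eq ?_)
  rw [ENNReal.mul_div_right_comm]

/-- **all levels**: the points of `cell n₀ m` which are in at least `s * g` of the sets `E i`,
`n₀ ≤ i < n₀ + S * g`, have measure at most `g * (1 + q) ^ S / 2 ^ s` times the cell. -/
theorem moment {E : ℕ → Set ℝ} {g : ℕ} (hg : 1 ≤ g) {q : ℝ≥0∞} {n₀ S : ℕ}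
    (hE : ∀ n m, n₀ ≤ n → n < n₀ + S * g →
      volume (hull (n + g) (E n) ∩ cell n m) ≤ q * volume (cell n m)) (m : ℤ) (s : ℕ) :
    volume {t | t ∈ cell n₀ m ∧ ∃ F : Finset ℕ, s * g ≤ F.card ∧
        ∀ i ∈ F, n₀ ≤ i ∧ i < n₀ + S * g ∧ t ∈ E i} ≤
      g * ((1 + q) ^ S / 2 ^ s) * volume (cell n₀ m) := by
  classical
  rcases Nat.eq_zero_or_pos S with rfl | hS0
  · rcases Nat.eq_zero_or_pos s with rfl | hs
    · calc volume {t | t ∈ cell n₀ m ∧ ∃ F : Finset ℕ, 0 * g ≤ F.card ∧
            ∀ i ∈ F, n₀ ≤ i ∧ i < n₀ + 0 * g ∧ t ∈ E i} ≤ volume (cell n₀ m) :=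
            measure_mono fun t ht => ht.1
        _ = 1 * volume (cell n₀ m) := (one_mul _).symm
        _ ≤ _ := by
            gcongr
            simp only [pow_zero, div_one, mul_one]
            exact_mod_cast hg
    · have : {t | t ∈ cell n₀ m ∧ ∃ F : Finset ℕ, s * g ≤ F.card ∧
            ∀ i ∈ F, n₀ ≤ i ∧ i < n₀ + 0 * g ∧ t ∈ E i} = ∅ := by
        rw [Set.eq_empty_iff_forall_notMem]
        rintro t ⟨-, F, hF, hF'⟩
        have : 0 < F.card := lt_of_lt_of_le (Nat.mul_pos hs hg) hF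
        obtain ⟨i, hi⟩ := Finset.card_pos.1 this
        have := hF' i hi
        omega
      rw [this, measure_empty]
      exact bot_le
  -- residues
  have hcov : {t | t ∈ cell n₀ m ∧ ∃ F : Finset ℕ, s * g ≤ F.card ∧
        ∀ i ∈ F, n₀ ≤ i ∧ i < n₀ + S * g ∧ t ∈ E i} ⊆
      ⋃ r ∈ Finset.range g, {t | t ∈ cell n₀ m ∧ s ≤ cnt E g S (n₀ + r) t} := by
    rintro t ⟨ht, F, hF, hF'⟩
    by_contra hcon
    simp only [mem_iUnion, mem_ofPred_eq, not_exists, not_and, not_le, Finset.mem_range] at hcon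
    have hlt : ∀ r ∈ Finset.range g, cnt E g S (n₀ + r) t + 1 ≤ s := fun r hr =>
      hcon r (Finset.mem_range.1 hr) ht
    have hFle : F.card ≤ ∑ r ∈ Finset.range g, cnt E g S (n₀ + r) t := by
      have hsub : F ⊆ (Finset.range g).biUnion fun r =>
          ((Finset.range S).filter fun j => t ∈ E (n₀ + r + j * g)).image fun j => n₀ + r + j * g := by
        intro i hi
        obtain ⟨h1, h2, h3⟩ := hF' i hi
        rw [Finset.mem_biUnion]
        refine ⟨(i - n₀) % g, Finset.mem_range.2 (Nat.mod_lt _ hg), ?_⟩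
        rw [Finset.mem_image]
        have hdm := Nat.mod_add_div (i - n₀) g
        have he : n₀ + (i - n₀) % g + (i - n₀) / g * g = i := by
          rw [mul_comm ((i - n₀) / g) g]
          omega
        refine ⟨(i - n₀) / g, ?_, he⟩
        rw [Finset.mem_filter, Finset.mem_range, he]
        refine ⟨?_, h3⟩
        rw [Nat.div_lt_iff_lt_mul hg]
        omega
      refine (Finset.card_le_card hsub).trans (Finset.card_biUnion_le.trans ?_)
      apply Finset.sum_le_sum
      intro r _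
      exact Finset.card_image_le
    have h1 : ∑ r ∈ Finset.range g, (cnt E g S (n₀ + r) t + 1) ≤ ∑ r ∈ Finset.range g, s :=
      Finset.sum_le_sum hlt
    rw [Finset.sum_add_distrib] at h1
    simp only [Finset.sum_const, Finset.card_range, smul_eq_mul, mul_one] at h1
    have : g * s = s * g := mul_comm _ _
    omega
  refine (measure_mono hcov).trans ((measure_biUnion_finset_le _ _).trans ?_)
  have hr : ∀ r ∈ Finset.range g, volume {t | t ∈ cell n₀ m ∧ s ≤ cnt E g S (n₀ + r) t} ≤
      (1 + q) ^ S / 2 ^ s * volume (cell n₀ m) := by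
    intro r hr
    rw [Finset.mem_range] at hr
    have hE' : ∀ n m, n₀ ≤ n → n ≤ n₀ + S * g - 1 →
        volume (hull (n + g) (E n) ∩ cell n m) ≤ q * volume (cell n m) := by
      intro n m h1 h2
      refine hE n m h1 ?_
      have : 0 < S * g := Nat.mul_pos hS0 hg
      omega
    have hdis : (↑(Finset.Ico (m * 2 ^ r) ((m + 1) * 2 ^ r)) : Set ℤ).PairwiseDisjoint
        (fun m' => cell (n₀ + r) m') := fun a _ b _ hab => cell_disjoint _ hab
    calc volume {t | t ∈ cell n₀ m ∧ s ≤ cnt E g S (n₀ + r) t}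
        ≤ volume (⋃ m' ∈ Finset.Ico (m * 2 ^ r) ((m + 1) * 2 ^ r),
            {t | t ∈ cell (n₀ + r) m' ∧ s ≤ cnt E g S (n₀ + r) t}) := by
          apply measure_mono
          rintro t ⟨h1, h2⟩
          rw [cell_eq_iUnion n₀ r m] at h1
          obtain ⟨m', hm', h1'⟩ := mem_iUnion₂.1 h1
          exact mem_iUnion₂.2 ⟨m', hm', h1', h2⟩
      _ ≤ ∑ m' ∈ Finset.Ico (m * 2 ^ r) ((m + 1) * 2 ^ r),
            volume {t | t ∈ cell (n₀ + r) m' ∧ s ≤ cnt E g S (n₀ + r) t} :=
          measure_biUnion_finset_le _ _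
      _ ≤ ∑ m' ∈ Finset.Ico (m * 2 ^ r) ((m + 1) * 2 ^ r),
            (1 + q) ^ S / 2 ^ s * volume (cell (n₀ + r) m') := by
          apply Finset.sum_le_sum
          intro m' _
          refine one_class hE' S (n₀ + r) (by omega) ?_ m' s
          have : 0 < S * g := Nat.mul_pos hS0 hg
          omega
      _ = (1 + q) ^ S / 2 ^ s * volume (cell n₀ m) := by
          rw [← Finset.mul_sum]
          congr 1
          conv_rhs => rw [cell_eq_iUnion n₀ r m]
          rw [measure_biUnion_finset hdis (fun m' _ => measurableSet_cell _ _)]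
  calc ∑ r ∈ Finset.range g, volume {t | t ∈ cell n₀ m ∧ s ≤ cnt E g S (n₀ + r) t}
      ≤ ∑ _r ∈ Finset.range g, (1 + q) ^ S / 2 ^ s * volume (cell n₀ m) := Finset.sum_le_sum hr
    _ = g * ((1 + q) ^ S / 2 ^ s) * volume (cell n₀ m) := by
        rw [Finset.sum_const, Finset.card_range, nsmul_eq_mul, mul_assoc]

/-- **numerical form**: `q = 1 - c`, all but `e * g` of the `S * g` levels are good and `4 e ≤ c S`:
measure at most `g * exp (- c S / 4)` times the cell. -/
theorem moment_exp {E : ℕ → Set ℝ} {g : ℕ} (hg : 1 ≤ g) {c : ℝ} (_hc : 0 ≤ c) (hc1 : c ≤ 1)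
    {n₀ S e : ℕ}
    (hE : ∀ n m, n₀ ≤ n → n < n₀ + S * g →
      volume (hull (n + g) (E n) ∩ cell n m) ≤ ENNReal.ofReal (1 - c) * volume (cell n m))
    (heS : e ≤ S) (he : 4 * (e : ℝ) ≤ c * S) (m : ℤ) :
    volume {t | t ∈ cell n₀ m ∧ ∃ F : Finset ℕ, (S - e) * g ≤ F.card ∧
        ∀ i ∈ F, n₀ ≤ i ∧ i < n₀ + S * g ∧ t ∈ E i} ≤
      g * ENNReal.ofReal (Real.exp (-(c * S / 4))) * volume (cell n₀ m) := by
  refine (moment hg hE m (S - e)).trans ?_
  refine mul_le_mul_left ?_ _
  refine mul_le_mul_right ?_ _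
  have h2 : (2 : ℝ≥0∞) ^ (S - e) = ENNReal.ofReal (2 ^ (S - e)) := by
    rw [ENNReal.ofReal_pow (by norm_num)]
    norm_num
  have h1 : (1 + ENNReal.ofReal (1 - c)) ^ S = ENNReal.ofReal ((2 - c) ^ S) := by
    rw [ENNReal.ofReal_pow (by linarith), ← ENNReal.ofReal_one,
      ← ENNReal.ofReal_add (by norm_num) (by linarith)]
    congr 2
    ring
  rw [h1, h2, ← ENNReal.ofReal_div_of_pos (by positivity)]
  apply ENNReal.ofReal_le_ofReal
  rw [div_le_iff₀ (by positivity)]
  have hpow : (2 : ℝ) ^ (S - e) * 2 ^ e = 2 ^ S := by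
    rw [← pow_add, Nat.sub_add_cancel heS]
  have h3 : (1 - c / 2) ≤ Real.exp (-(c / 2)) := by
    have := Real.add_one_le_exp (-(c / 2))
    linarith
  have h4 : (1 - c / 2) ^ S ≤ Real.exp (-(c / 2)) ^ S :=
    pow_le_pow_left₀ (by linarith) h3 S
  have h5 : (2 - c) ^ S = 2 ^ S * (1 - c / 2) ^ S := by
    rw [← mul_pow]
    congr 1
    ring
  have h6 : (2 : ℝ) ^ e ≤ Real.exp (c * S / 4) := by
    have h7 : (2 : ℝ) ≤ Real.exp 1 := by
      have := Real.add_one_le_exp (1 : ℝ)
      linarith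
    calc (2 : ℝ) ^ e ≤ Real.exp 1 ^ e := pow_le_pow_left₀ (by norm_num) h7 e
      _ = Real.exp e := by rw [← Real.exp_nat_mul, mul_one]
      _ ≤ Real.exp (c * S / 4) := Real.exp_le_exp.2 (by linarith)
  have h8 : Real.exp (-(c / 2)) ^ S = Real.exp (-(c * S / 4)) * Real.exp (-(c * S / 4)) := by
    rw [← Real.exp_nat_mul, ← Real.exp_add]
    congr 1
    ring
  rw [h5]
  calc (2 : ℝ) ^ S * (1 - c / 2) ^ S ≤ 2 ^ S * (Real.exp (-(c * S / 4)) * Real.exp (-(c * S / 4))) := by
        rw [← h8]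
        exact mul_le_mul_of_nonneg_left h4 (by positivity)
    _ = Real.exp (-(c * S / 4)) * 2 ^ (S - e) * (2 ^ e * Real.exp (-(c * S / 4))) := by
        rw [← hpow]
        ring
    _ ≤ Real.exp (-(c * S / 4)) * 2 ^ (S - e) * (Real.exp (c * S / 4) * Real.exp (-(c * S / 4))) := by
        gcongr
    _ = Real.exp (-(c * S / 4)) * 2 ^ (S - e) := by
        rw [← Real.exp_add, add_neg_cancel, Real.exp_zero, mul_one]

end Crest.Agent.R128.Iter2
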