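import Mathlib
import Crest.Agent.R128.Boot

/-! Row 128: Kac inequality for disjoint windows and the `log duration` estimate
(`(1/K) ∑ log d ≤ eps * (total height) + C / k`). Written by helper337. Sorry free. -/

namespace Crest.Agent.R128.KacJ

open MeasureTheory Set
open scoped ENNReal

theorem log_le_add (d : ℕ) {a : ℝ} (ha : 0 ≤ a) :
    Real.log d ≤ a + Real.exp (-a) * d := by
  rcases Nat.eq_zero_or_pos d with h | h
  · subst h; simpa using ha
  · have hd : (0:ℝ) < d := by exact_mod_cast h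
    have h1 := Real.log_le_sub_one_of_pos (mul_pos (Real.exp_pos (-a)) hd)
    rw [Real.log_mul (Real.exp_pos _).ne' hd.ne', Real.log_exp] at h1
    linarith

theorem ofReal_log_le (d : ℕ) {a : ℝ} (ha : 0 ≤ a) :
    ENNReal.ofReal (Real.log d) ≤ ENNReal.ofReal a + ENNReal.ofReal (Real.exp (-a)) * d := by
  calc ENNReal.ofReal (Real.log d) ≤ ENNReal.ofReal (a + Real.exp (-a) * d) :=
        ENNReal.ofReal_le_ofReal (log_le_add d ha)
    _ = ENNReal.ofReal a + ENNReal.ofReal (Real.exp (-a)) * d := by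
        rw [ENNReal.ofReal_add ha (by positivity), ENNReal.ofReal_mul (Real.exp_pos _).le,
          ENNReal.ofReal_natCast]

variable {Ω : Type*} [MeasurableSpace Ω] {μ : Measure Ω}

/-- `log d` is integrated over one level: `∫_A log d ≤ a μ(A) + e^{-a} ∫_A d`. -/
theorem lintegral_log_le (A : Set Ω) (d : Ω → ℕ) {a : ℝ} (ha : 0 ≤ a) :
    ∫⁻ z in A, ENNReal.ofReal (Real.log (d z)) ∂μ ≤
      ENNReal.ofReal a * μ A + ENNReal.ofReal (Real.exp (-a)) * ∫⁻ z in A, (d z : ℝ≥0∞) ∂μ := by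
  calc ∫⁻ z in A, ENNReal.ofReal (Real.log (d z)) ∂μ
      ≤ ∫⁻ z in A, (ENNReal.ofReal a + ENNReal.ofReal (Real.exp (-a)) * d z) ∂μ :=
        lintegral_mono fun z => ofReal_log_le (d z) ha
    _ = ∫⁻ _ in A, ENNReal.ofReal a ∂μ +
        ∫⁻ z in A, ENNReal.ofReal (Real.exp (-a)) * d z ∂μ :=
        lintegral_add_left measurable_const _
    _ = _ := by
        rw [setLIntegral_const, lintegral_const_mul' _ _ ENNReal.ofReal_ne_top]

/-- **Main estimate.** `A` = set of tips, `h` = height, `d` = duration; Kac holds on every unit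
band of heights. Then `∫_A log d ≤ a ∫_A h + b μ(A) + e^{-b}/(1-e^{-a})`.
(Use `a = eps * K`, `b = K = log k` and divide by `K`.) -/
theorem lintegral_log_duration_le {A : Set Ω} (hA : MeasurableSet A) {h : Ω → ℝ}
    (hh : Measurable h) (h0 : ∀ z ∈ A, 0 ≤ h z) (d : Ω → ℕ)
    (hkac : ∀ m : ℕ, ∫⁻ z in A ∩ {z | (m:ℝ) ≤ h z ∧ h z < m + 1}, (d z : ℝ≥0∞) ∂μ ≤ 1)
    {a b : ℝ} (ha : 0 < a) (hb : 0 ≤ b) :
    ∫⁻ z in A, ENNReal.ofReal (Real.log (d z)) ∂μ ≤
      ENNReal.ofReal a * ∫⁻ z in A, ENNReal.ofReal (h z) ∂μ + ENNReal.ofReal b * μ A +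
        ENNReal.ofReal (Real.exp (-b) / (1 - Real.exp (-a))) := by
  set L : ℕ → Set Ω := fun m => A ∩ {z | (m:ℝ) ≤ h z ∧ h z < m + 1} with hL
  have hLm : ∀ m, MeasurableSet (L m) := fun m =>
    hA.inter ((measurableSet_le measurable_const hh).inter (measurableSet_lt hh measurable_const))
  have hLd : Pairwise (fun i j => Disjoint (L i) (L j)) := by
    intro i j hij
    rw [Set.disjoint_left]
    rintro z ⟨-, h1, h2⟩ ⟨-, h3, h4⟩
    apply hij
    have e1 : (i:ℝ) < j + 1 := lt_of_le_of_lt h1 h4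
    have e2 : (j:ℝ) < i + 1 := lt_of_le_of_lt h3 h2
    have e1' : i < j + 1 := by exact_mod_cast e1
    have e2' : j < i + 1 := by exact_mod_cast e2
    omega
  have hAU : A = ⋃ m, L m := by
    ext z
    constructor
    · intro hz
      refine mem_iUnion.2 ⟨⌊h z⌋₊, hz, Nat.floor_le (h0 z hz), ?_⟩
      exact Nat.lt_floor_add_one (h z)
    · intro hz
      obtain ⟨m, hm⟩ := mem_iUnion.1 hz
      exact hm.1
  have hone : ∀ m, ∫⁻ z in L m, ENNReal.ofReal (Real.log (d z)) ∂μ ≤
      ∫⁻ z in L m, (ENNReal.ofReal a * ENNReal.ofReal (h z) + ENNReal.ofReal b) ∂μ +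
        ENNReal.ofReal (Real.exp (-(a * m + b))) := by
    intro m
    have hamb : 0 ≤ a * m + b := by positivity
    calc ∫⁻ z in L m, ENNReal.ofReal (Real.log (d z)) ∂μ
        ≤ ENNReal.ofReal (a * m + b) * μ (L m) +
          ENNReal.ofReal (Real.exp (-(a * m + b))) * ∫⁻ z in L m, (d z : ℝ≥0∞) ∂μ :=
          lintegral_log_le (L m) d hamb
      _ ≤ ∫⁻ z in L m, (ENNReal.ofReal a * ENNReal.ofReal (h z) + ENNReal.ofReal b) ∂μ +
          ENNReal.ofReal (Real.exp (-(a * m + b))) * 1 := by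
          gcongr
          · rw [← setLIntegral_const]
            apply setLIntegral_mono' (hLm m)
            intro z hz
            have hz1 : (m:ℝ) ≤ h z := hz.2.1
            rw [← ENNReal.ofReal_mul ha.le, ← ENNReal.ofReal_add (mul_nonneg ha.le (h0 z hz.1)) hb]
            apply ENNReal.ofReal_le_ofReal
            nlinarith
          · exact hkac m
      _ = _ := by rw [mul_one]
  have hsum : ∑' m : ℕ, ENNReal.ofReal (Real.exp (-(a * m + b))) =
      ENNReal.ofReal (Real.exp (-b) / (1 - Real.exp (-a))) := by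
    have hr0 : 0 ≤ Real.exp (-a) := (Real.exp_pos _).le
    have hr1 : Real.exp (-a) < 1 := by rw [Real.exp_lt_one_iff]; linarith
    have e : ∀ m : ℕ, Real.exp (-(a * m + b)) = Real.exp (-b) * Real.exp (-a) ^ m := by
      intro m
      rw [← Real.exp_nat_mul, ← Real.exp_add]
      congr 1; ring
    have hs : HasSum (fun m : ℕ => Real.exp (-b) * Real.exp (-a) ^ m)
        (Real.exp (-b) * (1 - Real.exp (-a))⁻¹) :=
      (hasSum_geometric_of_lt_one hr0 hr1).mul_left _
    rw [← ENNReal.ofReal_tsum_of_nonneg (fun m => (Real.exp_pos _).le)]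
    · congr 1
      simp_rw [e]
      rw [hs.tsum_eq, div_eq_mul_inv]
    · simp_rw [e]
      exact hs.summable
  calc ∫⁻ z in A, ENNReal.ofReal (Real.log (d z)) ∂μ
      = ∫⁻ z in ⋃ m, L m, ENNReal.ofReal (Real.log (d z)) ∂μ := by rw [← hAU]
    _ ≤ ∑' m, ∫⁻ z in L m, ENNReal.ofReal (Real.log (d z)) ∂μ := lintegral_iUnion_le _ _
    _ ≤ ∑' m, (∫⁻ z in L m, (ENNReal.ofReal a * ENNReal.ofReal (h z) + ENNReal.ofReal b) ∂μ +
        ENNReal.ofReal (Real.exp (-(a * m + b)))) := ENNReal.tsum_le_tsum hone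
    _ = ∑' m, ∫⁻ z in L m, (ENNReal.ofReal a * ENNReal.ofReal (h z) + ENNReal.ofReal b) ∂μ +
        ∑' m : ℕ, ENNReal.ofReal (Real.exp (-(a * m + b))) := ENNReal.tsum_add
    _ = ∫⁻ z in A, (ENNReal.ofReal a * ENNReal.ofReal (h z) + ENNReal.ofReal b) ∂μ +
        ENNReal.ofReal (Real.exp (-b) / (1 - Real.exp (-a))) := by
        rw [hsum, ← lintegral_iUnion hLm hLd, ← hAU]
    _ = _ := by
        rw [lintegral_add_right _ measurable_const, setLIntegral_const,
          lintegral_const_mul' _ _ ENNReal.ofReal_ne_top]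

/-- **Kac**: windows of the points of `A` (`R n` = points of `A` whose window contains time `n`)
which are pairwise disjoint along every orbit have total length at most `μ univ`. -/
theorem kac {S : ℤ → Ω → Ω} (hS : ∀ n, MeasurePreserving (S n) μ μ) {R : ℤ → Set Ω}
    (hR : ∀ n, MeasurableSet (R n))
    (hdis : ∀ w, ∀ n n' : ℤ, S n w ∈ R n → S n' w ∈ R n' → n = n') :
    ∫⁻ z, ∑' n, (R n).indicator (fun _ => (1 : ℝ≥0∞)) z ∂μ ≤ μ univ := by
  rw [← Crest.Agent.R128.Boot.mass_transport hS (fun n => measurable_const.indicator (hR n))]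
  calc ∫⁻ z, ∑' n, (R n).indicator (fun _ => (1 : ℝ≥0∞)) (S n z) ∂μ ≤ ∫⁻ _, 1 ∂μ := by
        apply lintegral_mono
        intro z
        by_cases hz : ∃ n, S n z ∈ R n
        · obtain ⟨n, hn⟩ := hz
          show ∑' n, (R n).indicator (fun _ => (1 : ℝ≥0∞)) (S n z) ≤ 1
          rw [tsum_eq_single n]
          · rw [indicator_of_mem hn]
          · intro n' hn'
            apply indicator_of_notMem
            intro hmem
            exact hn' (hdis z n' n hmem hn)
        · push Not at hz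
          show ∑' n, (R n).indicator (fun _ => (1 : ℝ≥0∞)) (S n z) ≤ 1
          have : ∀ n, (R n).indicator (fun _ => (1 : ℝ≥0∞)) (S n z) = 0 :=
            fun n => indicator_of_notMem (hz n) _
          simp [this]
    _ = μ univ := by simp

/-- Kac for durations: `d z` = number of times in the window of `z`. -/
theorem kac_duration {S : ℤ → Ω → Ω} (hS : ∀ n, MeasurePreserving (S n) μ μ) {R : ℤ → Set Ω}
    (hR : ∀ n, MeasurableSet (R n))
    (hdis : ∀ w, ∀ n n' : ℤ, S n w ∈ R n → S n' w ∈ R n' → n = n')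
    {B : Set Ω} (hB : MeasurableSet B) {d : Ω → ℕ}
    (hd : ∀ z ∈ B, ∃ E : Finset ℤ, d z ≤ E.card ∧ ∀ n ∈ E, z ∈ R n) :
    ∫⁻ z in B, (d z : ℝ≥0∞) ∂μ ≤ μ univ := by
  refine le_trans ?_ (kac hS hR hdis)
  calc ∫⁻ z in B, (d z : ℝ≥0∞) ∂μ
      ≤ ∫⁻ z in B, ∑' n, (R n).indicator (fun _ => (1 : ℝ≥0∞)) z ∂μ := by
        apply setLIntegral_mono' hB
        intro z hz
        obtain ⟨E, hE, hE2⟩ := hd z hz
        calc (d z : ℝ≥0∞) ≤ (E.card : ℝ≥0∞) := by exact_mod_cast hE
          _ = ∑ n ∈ E, (R n).indicator (fun _ => (1 : ℝ≥0∞)) z := by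
              rw [Finset.sum_congr rfl fun n hn => indicator_of_mem (hE2 n hn) _]
              simp
          _ ≤ _ := ENNReal.sum_le_tsum E
    _ ≤ _ := setLIntegral_le_lintegral _ _

/-- elementary: the other terms of the charges are dominated by the height. -/
theorem log_le_self' {h : ℝ} (hh : 1 ≤ h) : Real.log h ≤ h := by
  have := Real.log_le_sub_one_of_pos (by linarith : 0 < h)
  linarith

theorem log_sq_le {h : ℝ} (hh : 1 ≤ h) : Real.log h ^ 2 ≤ 4 * h := by
  have h0 : 0 < h := by linarith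
  have h1 : Real.log h ≤ 2 * Real.sqrt h := by
    have h2 : Real.log (Real.sqrt h) ≤ Real.sqrt h := by
      have := Real.log_le_sub_one_of_pos (Real.sqrt_pos.2 h0)
      linarith
    rw [Real.log_sqrt h0.le] at h2
    linarith
  have h3 : 0 ≤ Real.log h := Real.log_nonneg hh
  calc Real.log h ^ 2 ≤ (2 * Real.sqrt h) ^ 2 := by gcongr
    _ = 4 * h := by rw [mul_pow, Real.sq_sqrt h0.le]; norm_num

end Crest.Agent.R128.KacJ
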