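import Mathlib
import Crest.Agent.R128.TreeSum

/-!
# Row 128: last exits and perturbation of a product by blocks (helper220)

* `last_exit`: after a last exit `e` of the `t`-field `w` every transfer matrix `A_{e → n}` is at
  most `κ_e ‖w n‖ / ‖w e‖`, `κ_e = 2 + ‖w e‖² wt a w e n` (weighted duration after `e`).
* `nc`: Euclidean norm of complex pairs, `tree_ineq_c`, `last_exit_c` for complex fields over a real
  potential.
* `perturb`: perturbation of the orbit `w' (i+1) = B' i (w' i)` of `w (i+1) = B i (w i)`,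
  telescoping with unperturbed suffix and perturbed prefix.
-/

set_option autoImplicit false

open Finset Crest.Agent.R128.TreeSum

namespace Crest.Agent.R128.LastExit

/-- the weighted duration constant at `e` -/
noncomputable def kap (a : ℕ → ℝ) (w : ℕ → ℝ × ℝ) (e n : ℕ) : ℝ :=
  2 + nn (w e) ^ 2 * wt a w e n

theorem two_le_kap (a : ℕ → ℝ) (w : ℕ → ℝ × ℝ) (e n : ℕ) : 2 ≤ kap a w e n := by
  unfold kap
  have := wt_nonneg a w e n
  have h2 : 0 ≤ nn (w e) ^ 2 * wt a w e n := by positivity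
  linarith

theorem kap_mono (a : ℕ → ℝ) (w : ℕ → ℝ × ℝ) (e : ℕ) {n n' : ℕ} (h : n ≤ n') :
    kap a w e n ≤ kap a w e n' := by
  unfold kap wt
  have : ∑ j ∈ Ico e n, (|a j| + 2) / (nn (w j) * nn (w (j + 1)))
      ≤ ∑ j ∈ Ico e n', (|a j| + 2) / (nn (w j) * nn (w (j + 1))) := by
    apply Finset.sum_le_sum_of_subset_of_nonneg (Finset.Ico_subset_Ico le_rfl h)
    intro j _ _
    have := nn_nonneg (w j)
    have := nn_nonneg (w (j + 1))
    positivity
  have h2 : (0 : ℝ) ≤ nn (w e) ^ 2 := sq_nonneg _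
  nlinarith

/-- **last exit**: `‖A_{e → n}‖ ≤ κ ‖w n‖ / ‖w e‖`. -/
theorem last_exit {a : ℕ → ℝ} {w z : ℕ → ℝ × ℝ} (hw : IsField a w) (hz : IsField a z)
    {e n : ℕ} (hen : e ≤ n) (h0 : 0 < nn (w e)) (hle : nn (w e) ≤ nn (w n)) :
    nn (z n) ≤ kap a w e n * (nn (w n) / nn (w e)) * nn (z e) := by
  have hn := hw.pos hen h0
  have h1 := tree_ineq hw hz hen h0
  have h2 : nn (w e) / nn (w n) ≤ nn (w n) / nn (w e) := by
    have a1 : nn (w e) / nn (w n) ≤ 1 := (div_le_one hn).mpr hle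
    have a2 : 1 ≤ nn (w n) / nn (w e) := (one_le_div h0).mpr hle
    linarith
  have h3 : nn (w e) * nn (w n) * wt a w e n
      = nn (w e) ^ 2 * wt a w e n * (nn (w n) / nn (w e)) := by
    field_simp
  calc nn (z n) ≤ nn (z e) * (nn (w n) / nn (w e) + nn (w e) / nn (w n) +
      nn (w e) * nn (w n) * wt a w e n) := h1
    _ ≤ nn (z e) * (nn (w n) / nn (w e) + nn (w n) / nn (w e) +
      nn (w e) ^ 2 * wt a w e n * (nn (w n) / nn (w e))) := by
        rw [h3]
        have := nn_nonneg (z e)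
        gcongr
    _ = _ := by unfold kap; ring

/-- bound of `κ`: if `|a j| + 2 ≤ A` and the `j`-th norm is at least `‖w e‖`, then
`κ ≤ 2 + A D` where `D ≥ ∑ ‖w e‖ ² / (‖w j‖ ‖w (j+1)‖)` -/
theorem kap_le {a : ℕ → ℝ} {w : ℕ → ℝ × ℝ} {e n : ℕ} {A D : ℝ}
    (hA : ∀ j, e ≤ j → j < n → |a j| + 2 ≤ A)
    (hD : ∑ j ∈ Ico e n, nn (w e) ^ 2 / (nn (w j) * nn (w (j + 1))) ≤ D) (hA0 : 0 ≤ A) :
    kap a w e n ≤ 2 + A * D := by
  unfold kap wt
  have : nn (w e) ^ 2 * ∑ j ∈ Ico e n, (|a j| + 2) / (nn (w j) * nn (w (j + 1)))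
      ≤ A * ∑ j ∈ Ico e n, nn (w e) ^ 2 / (nn (w j) * nn (w (j + 1))) := by
    rw [Finset.mul_sum, Finset.mul_sum]
    apply Finset.sum_le_sum
    intro j hj
    rw [Finset.mem_Ico] at hj
    have h1 := hA j hj.1 hj.2
    have h3 := nn_nonneg (w j)
    have h4 := nn_nonneg (w (j + 1))
    have h5 : 0 ≤ nn (w e) ^ 2 / (nn (w j) * nn (w (j + 1))) := by positivity
    calc nn (w e) ^ 2 * ((|a j| + 2) / (nn (w j) * nn (w (j + 1))))
        = (|a j| + 2) * (nn (w e) ^ 2 / (nn (w j) * nn (w (j + 1)))) := by ring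
      _ ≤ A * (nn (w e) ^ 2 / (nn (w j) * nn (w (j + 1)))) :=
        mul_le_mul_of_nonneg_right h1 h5
  have := mul_le_mul_of_nonneg_left hD hA0
  linarith

/-! ### complex fields over a real potential -/

/-- Euclidean norm of a complex pair -/
noncomputable def nc (v : ℂ × ℂ) : ℝ := Real.sqrt (‖v.1‖ ^ 2 + ‖v.2‖ ^ 2)

/-- one step, complex -/
def stpc (a : ℂ) (v : ℂ × ℂ) : ℂ × ℂ := (v.2, a * v.2 - v.1)

theorem nc_nonneg (v : ℂ × ℂ) : 0 ≤ nc v := Real.sqrt_nonneg _

theorem nc_sq (v : ℂ × ℂ) : nc v ^ 2 = ‖v.1‖ ^ 2 + ‖v.2‖ ^ 2 := Real.sq_sqrt (by positivity)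

/-- real part of a complex pair -/
def rp (v : ℂ × ℂ) : ℝ × ℝ := (v.1.re, v.2.re)
/-- imaginary part of a complex pair -/
def ip (v : ℂ × ℂ) : ℝ × ℝ := (v.1.im, v.2.im)

theorem nc_sq_eq (v : ℂ × ℂ) : nc v ^ 2 = nn (rp v) ^ 2 + nn (ip v) ^ 2 := by
  rw [nc_sq, nn_sq, nn_sq, Complex.sq_norm, Complex.sq_norm, Complex.normSq_apply,
    Complex.normSq_apply]
  unfold rp ip
  ring

theorem nc_add_le (u v : ℂ × ℂ) : nc (u + v) ≤ nc u + nc v := by
  have h1 : ‖u.1 + v.1‖ ≤ ‖u.1‖ + ‖v.1‖ := norm_add_le _ _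
  have h2 : ‖u.2 + v.2‖ ≤ ‖u.2‖ + ‖v.2‖ := norm_add_le _ _
  have hu := nc_sq u
  have hv := nc_sq v
  have huv := nc_sq (u + v)
  have e1 : (u + v).1 = u.1 + v.1 := rfl
  have e2 : (u + v).2 = u.2 + v.2 := rfl
  rw [e1, e2] at huv
  have hu0 := nc_nonneg u
  have hv0 := nc_nonneg v
  have cs : ‖u.1‖ * ‖v.1‖ + ‖u.2‖ * ‖v.2‖ ≤ nc u * nc v := by
    apply le_of_sq_le_sq' 
    · rw [mul_pow, hu, hv]
      nlinarith [sq_nonneg (‖u.1‖ * ‖v.2‖ - ‖u.2‖ * ‖v.1‖)]
    · positivity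
  apply le_of_sq_le_sq'
  · have a1 : ‖u.1 + v.1‖ ^ 2 ≤ (‖u.1‖ + ‖v.1‖) ^ 2 := by gcongr
    have a2 : ‖u.2 + v.2‖ ^ 2 ≤ (‖u.2‖ + ‖v.2‖) ^ 2 := by gcongr
    nlinarith
  · positivity
where
  le_of_sq_le_sq' {x y : ℝ} (h : x ^ 2 ≤ y ^ 2) (hy : 0 ≤ y) : x ≤ y :=
    le_trans (le_abs_self x) (abs_le_of_sq_le_sq h hy)

theorem nc_ofReal (v : ℝ × ℝ) : nc ((v.1 : ℂ), (v.2 : ℂ)) = nn v := by
  unfold nc nn
  simp

theorem stpc_rp (a : ℝ) (v : ℂ × ℂ) : rp (stpc a v) = stp a (rp v) := by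
  unfold rp stpc stp
  simp

theorem stpc_ip (a : ℝ) (v : ℂ × ℂ) : ip (stpc a v) = stp a (ip v) := by
  unfold ip stpc stp
  simp

/-- a complex field over a real potential -/
def IsFieldC (a : ℕ → ℝ) (z : ℕ → ℂ × ℂ) : Prop := ∀ n, z (n + 1) = stpc (a n) (z n)

/-- **last exit, complex fields** -/
theorem last_exit_c {a : ℕ → ℝ} {w : ℕ → ℝ × ℝ} {z : ℕ → ℂ × ℂ} (hw : IsField a w)
    (hz : IsFieldC a z) {e n : ℕ} (hen : e ≤ n) (h0 : 0 < nn (w e))
    (hle : nn (w e) ≤ nn (w n)) :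
    nc (z n) ≤ kap a w e n * (nn (w n) / nn (w e)) * nc (z e) := by
  have hr : IsField a (fun m => rp (z m)) := fun m => by
    change rp (z (m + 1)) = _
    rw [hz m, stpc_rp]
  have hi : IsField a (fun m => ip (z m)) := fun m => by
    change ip (z (m + 1)) = _
    rw [hz m, stpc_ip]
  have h1 := last_exit hw hr hen h0 hle
  have h2 := last_exit hw hi hen h0 hle
  change nn (rp (z n)) ≤ _ at h1
  change nn (ip (z n)) ≤ _ at h2
  set K := kap a w e n * (nn (w n) / nn (w e)) with hK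
  have hK0 : 0 ≤ K := by
    have := two_le_kap a w e n
    have := nn_nonneg (w n)
    have := nn_nonneg (w e)
    positivity
  have hs : nc (z n) ^ 2 ≤ (K * nc (z e)) ^ 2 := by
    rw [mul_pow, nc_sq_eq, nc_sq_eq, mul_add, ← mul_pow, ← mul_pow]
    have a1 : nn (rp (z n)) ^ 2 ≤ (K * nn (rp (z e))) ^ 2 :=
      pow_le_pow_left₀ (nn_nonneg _) h1 2
    have a2 : nn (ip (z n)) ^ 2 ≤ (K * nn (ip (z e))) ^ 2 :=
      pow_le_pow_left₀ (nn_nonneg _) h2 2
    linarith
  exact le_trans (le_abs_self _) (abs_le_of_sq_le_sq hs (mul_nonneg hK0 (nc_nonneg _)))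

/-! ### perturbation of an orbit by blocks -/

section perturb

variable {E : Type*} [AddCommGroup E]

/-- transfer over `n` blocks starting at block `i` -/
def tr (B : ℕ → E → E) (i : ℕ) : ℕ → E → E
  | 0, v => v
  | n + 1, v => B (i + n) (tr B i n v)

/-- telescoping identity -/
theorem telescope {B : ℕ → E → E} {w w' : ℕ → E} (hadd : ∀ i u v, B i (u + v) = B i u + B i v)
    (hw : ∀ i, w (i + 1) = B i (w i)) (j : ℕ) :
    w' j - w j = tr B 0 j (w' 0 - w 0) +
      ∑ i ∈ range j, tr B (i + 1) (j - (i + 1)) (w' (i + 1) - B i (w' i)) := by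
  have h0 : ∀ i, B i 0 = 0 := fun i => by
    have := hadd i 0 0
    rw [add_zero] at this
    exact (left_eq_add.mp this)
  have hneg : ∀ i v, B i (-v) = -B i v := fun i v => by
    have := hadd i v (-v)
    rw [add_neg_cancel, h0] at this
    exact (neg_eq_of_add_eq_zero_right this.symm).symm
  have hsub : ∀ i u v, B i (u - v) = B i u - B i v := fun i u v => by
    rw [sub_eq_add_neg, hadd, hneg, ← sub_eq_add_neg]
  have hsum : ∀ (i : ℕ) (s : Finset ℕ) (f : ℕ → E), B i (∑ x ∈ s, f x) = ∑ x ∈ s, B i (f x) := by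
    intro i s f
    classical
    induction s using Finset.induction_on with
    | empty => simp [h0]
    | insert x s hx ih => rw [Finset.sum_insert hx, Finset.sum_insert hx, hadd, ih]
  induction j with
  | zero => simp [tr]
  | succ j ih =>
    have e1 : w' (j + 1) - w (j + 1) = (w' (j + 1) - B j (w' j)) + B j (w' j - w j) := by
      rw [hsub, ← hw j]
      abel
    rw [e1, ih, hadd, hsum, Finset.sum_range_succ]
    have e2 : tr B (j + 1) (j + 1 - (j + 1)) (w' (j + 1) - B j (w' j)) =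
        w' (j + 1) - B j (w' j) := by
      rw [Nat.sub_self]
      rfl
    rw [e2]
    have e3 : ∑ x ∈ range j, B j (tr B (x + 1) (j - (x + 1)) (w' (x + 1) - B x (w' x)))
        = ∑ x ∈ range j, tr B (x + 1) (j + 1 - (x + 1)) (w' (x + 1) - B x (w' x)) := by
      apply Finset.sum_congr rfl
      intro x hx
      rw [Finset.mem_range] at hx
      have : j + 1 - (x + 1) = (j - (x + 1)) + 1 := by omega
      rw [this]
      change _ = B (x + 1 + (j - (x + 1))) _
      rw [show x + 1 + (j - (x + 1)) = j by omega]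
    rw [e3]
    have e4 : tr B 0 (j + 1) (w' 0 - w 0) = B j (tr B 0 j (w' 0 - w 0)) := by
      change B (0 + j) _ = _
      rw [zero_add]
    rw [e4]
    abel

/-- **perturbation by blocks**.  `N` is a (semi)norm; `w` is the unperturbed orbit and `w'` the
perturbed one; the one-block defect of `w'` at block `i` is at most `b i`, the suffix after block
`i` has norm at most `κ i * N (w j) / N (w (i+1))`. -/
theorem perturb {B : ℕ → E → E} {w w' : ℕ → E} {N : E → ℝ} {m : ℕ} {κ b : ℕ → ℝ}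
    (hN0 : N 0 = 0) (hNadd : ∀ u v, N (u + v) ≤ N u + N v)
    (hadd : ∀ i u v, B i (u + v) = B i u + B i v)
    (hw : ∀ i, w (i + 1) = B i (w i)) (h0 : w' 0 = w 0)
    (hpos : ∀ i ≤ m, 0 < N (w i))
    (hκ : ∀ i < m, 0 ≤ κ i) (hb : ∀ i < m, 0 ≤ b i)
    (hdef : ∀ i < m, (∀ j ≤ i, N (w' j - w j) ≤ N (w j)) → N (w' (i + 1) - B i (w' i)) ≤ b i)
    (hS : ∀ i j, i < j → j ≤ m → ∀ v, N (tr B (i + 1) (j - (i + 1)) v)
      ≤ κ i * (N (w j) / N (w (i + 1))) * N v)
    (hε : ∑ i ∈ range m, κ i * b i / N (w (i + 1)) ≤ 1) :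
    ∀ j ≤ m, N (w' j - w j) ≤ (∑ i ∈ range j, κ i * b i / N (w (i + 1))) * N (w j) := by
  have htr0 : ∀ i n, tr B i n 0 = 0 := by
    intro i n
    have h0' : ∀ i, B i 0 = 0 := fun i => by
      have := hadd i 0 0
      rw [add_zero] at this
      exact (left_eq_add.mp this)
    induction n with
    | zero => rfl
    | succ n ih => change B (i + n) (tr B i n 0) = 0; rw [ih, h0']
  have hNsum : ∀ (s : Finset ℕ) (f : ℕ → E), N (∑ x ∈ s, f x) ≤ ∑ x ∈ s, N (f x) := by
    intro s f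
    classical
    induction s using Finset.induction_on with
    | empty => simp [hN0]
    | insert x s hx ih =>
      rw [Finset.sum_insert hx, Finset.sum_insert hx]
      exact (hNadd _ _).trans (by linarith)
  have hterm : ∀ i < m, 0 ≤ κ i * b i / N (w (i + 1)) := fun i hi =>
    div_nonneg (mul_nonneg (hκ i hi) (hb i hi)) (hpos (i + 1) hi).le
  intro j
  induction j using Nat.strong_induction_on with
  | _ j ih =>
    intro hj
    have hdef' : ∀ i < j, N (w' (i + 1) - B i (w' i)) ≤ b i := by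
      intro i hi
      refine hdef i (by omega) (fun l hl => ?_)
      have h1 := ih l (by omega) (by omega)
      have h2 : ∑ i ∈ range l, κ i * b i / N (w (i + 1)) ≤ 1 := by
        refine le_trans (Finset.sum_le_sum_of_subset_of_nonneg ?_ ?_) hε
        · exact Finset.range_mono (by omega)
        · intro x hx _
          exact hterm x (Finset.mem_range.mp hx)
      have h3 := (hpos l (by omega)).le
      calc N (w' l - w l) ≤ _ := h1
        _ ≤ 1 * N (w l) := mul_le_mul_of_nonneg_right h2 h3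
        _ = _ := one_mul _
    rw [telescope (w' := w') hadd hw j, h0, sub_self, htr0, zero_add, Finset.sum_mul]
    refine (hNsum _ _).trans (Finset.sum_le_sum fun i hi => ?_)
    rw [Finset.mem_range] at hi
    have hp := hpos (i + 1) (by omega)
    have hpj := hpos j hj
    calc N (tr B (i + 1) (j - (i + 1)) (w' (i + 1) - B i (w' i)))
        ≤ κ i * (N (w j) / N (w (i + 1))) * N (w' (i + 1) - B i (w' i)) := hS i j hi hj _
      _ ≤ κ i * (N (w j) / N (w (i + 1))) * b i := by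
          have := hκ i (by omega)
          exact mul_le_mul_of_nonneg_left (hdef' i hi) (by positivity)
      _ = κ i * b i / N (w (i + 1)) * N (w j) := by ring

end perturb

end Crest.Agent.R128.LastExit
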