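import Mathlib

/-! Row 128, node V5-LocA2 (second implementation, helper344): the numerical sum. Mathlib only. -/

set_option autoImplicit false

namespace Crest.Agent.R128.LocA2X

/-- macroscopic digits -/
theorem t2_macro {k s v q : ℝ} (hk0 : 0 < k) (hs0 : 0 < s) (hss : s * s = k)
    (hs65 : 10 ^ 65 ≤ s) (hv : k / 10 ^ 4 ≤ v) (hq0 : 0 ≤ q) (hq : q ≤ 2 * 10 ^ 4 / k) :
    65 * 10 ^ 33 * k ^ 4 * s / v ^ 4 * q ≤ 1 / 10 ^ 5 := by
  have hv0 : 0 < k / 10 ^ 4 := by positivity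
  have h1 : 65 * 10 ^ 33 * k ^ 4 * s / v ^ 4 ≤ 65 * 10 ^ 33 * k ^ 4 * s / (k / 10 ^ 4) ^ 4 := by
    apply div_le_div_of_nonneg_left (by positivity) (by positivity)
    exact pow_le_pow_left₀ hv0.le hv 4
  have h2 : 65 * 10 ^ 33 * k ^ 4 * s / (k / 10 ^ 4) ^ 4 = 65 * 10 ^ 49 * s := by
    field_simp
  rw [h2] at h1
  calc 65 * 10 ^ 33 * k ^ 4 * s / v ^ 4 * q ≤ 65 * 10 ^ 49 * s * (2 * 10 ^ 4 / k) :=
        mul_le_mul h1 hq hq0 (by positivity)
    _ = 13 * 10 ^ 54 / s := by rw [← hss]; field_simp; ring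
    _ ≤ 1 / 10 ^ 5 := by
        rw [div_le_div_iff₀ hs0 (by positivity)]
        linarith

/-- digits `≥ A` -/
theorem t2_A {k s A v q : ℝ} (hk0 : 0 < k) (hs0 : 0 < s) (hA0 : 0 < A)
    (hA : 10 ^ 60 * k ^ 2 * s ≤ A ^ 5) (hv : A ≤ v) (hq0 : 0 ≤ q)
    (hq : q ≤ 1 / ((A / 2) * (k / (2 * 10 ^ 4)) ^ 2)) :
    65 * 10 ^ 33 * k ^ 4 * s / v ^ 4 * q ≤ 1 / 10 ^ 5 := by
  have h1 : 65 * 10 ^ 33 * k ^ 4 * s / v ^ 4 ≤ 65 * 10 ^ 33 * k ^ 4 * s / A ^ 4 := by
    apply div_le_div_of_nonneg_left (by positivity) (by positivity)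
    exact pow_le_pow_left₀ hA0.le hv 4
  calc 65 * 10 ^ 33 * k ^ 4 * s / v ^ 4 * q
      ≤ 65 * 10 ^ 33 * k ^ 4 * s / A ^ 4 * (1 / ((A / 2) * (k / (2 * 10 ^ 4)) ^ 2)) :=
        mul_le_mul h1 hq hq0 (by positivity)
    _ = 52 * 10 ^ 42 * (k ^ 2 * s) / A ^ 5 := by field_simp; ring
    _ ≤ 1 / 10 ^ 5 := by
        rw [div_le_div_iff₀ (by positivity) (by positivity)]
        have : (0 : ℝ) ≤ k ^ 2 * s := by positivity
        nlinarith

/-- second part of one term -/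
theorem t2_red {k s R b dj dj1 vj : ℝ} (hk0 : 0 < k) (hs0 : 0 < s) (hR0 : 0 < R) (hb0 : 0 < b)
    (hdj : 0 < dj) (hdj1 : 0 < dj1) (hv0 : 0 < vj) (hRb : b ≤ 4 * s * R)
    (hg : vj / 2 * dj ≤ dj1) :
    20 / (dj * dj1) * ((4 / R) / (1 / 10 ^ 10 * vj / (k * dj))) ^ 3 *
      (2 * Real.pi * k * R ^ 2) ≤ 65 * 10 ^ 33 * k ^ 4 * s / vj ^ 4 * (dj / b) := by
  have hpi := Real.pi_pos
  have hpi4 : Real.pi ≤ 3.1416 := Real.pi_lt_d4.le
  have e : 20 / (dj * dj1) * ((4 / R) / (1 / 10 ^ 10 * vj / (k * dj))) ^ 3 *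
      (2 * Real.pi * k * R ^ 2) =
      Real.pi * (2560 * 10 ^ 30 * k ^ 4 * dj ^ 2 / vj ^ 3) * (1 / dj1) * (1 / R) := by
    field_simp; ring
  rw [e]
  have hR' : 1 / R ≤ 4 * s / b := by
    rw [div_le_div_iff₀ hR0 hb0]; linarith
  have h1 : 1 / dj1 ≤ 2 / (vj * dj) := by
    rw [div_le_div_iff₀ hdj1 (by positivity)]; linarith
  have f0 : 0 ≤ 2560 * 10 ^ 30 * k ^ 4 * dj ^ 2 / vj ^ 3 := by positivity
  have f1 := mul_le_mul_of_nonneg_right hpi4 f0
  calc Real.pi * (2560 * 10 ^ 30 * k ^ 4 * dj ^ 2 / vj ^ 3) * (1 / dj1) * (1 / R)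
      ≤ 3.1416 * (2560 * 10 ^ 30 * k ^ 4 * dj ^ 2 / vj ^ 3) * (2 / (vj * dj)) * (4 * s / b) :=
        mul_le_mul (mul_le_mul f1 h1 (by positivity) (by positivity)) hR' (by positivity)
          (by positivity)
    _ = 64339968 * 10 ^ 27 * (k ^ 4 * s / vj ^ 4 * (dj / b)) := by
        field_simp; ring
    _ ≤ 65000000 * 10 ^ 27 * (k ^ 4 * s / vj ^ 4 * (dj / b)) :=
        mul_le_mul_of_nonneg_right (by norm_num) (by positivity)
    _ = 65 * 10 ^ 33 * k ^ 4 * s / vj ^ 4 * (dj / b) := by ring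

/-- first part of one term -/
theorem t1_red {k R r0 ρ d0 dj dj1 : ℝ} (hk0 : 0 < k) (hR0 : 0 < R) (hr0 : 0 < r0)
    (hd0 : 0 < d0) (hdj : d0 ≤ dj) (hdj1 : d0 ≤ dj1) (hR : 1 ≤ R * ρ)
    (hkey : 10 ^ 9 * k * ρ ≤ d0 ^ 2 * r0 ^ 3) :
    20 / (dj * dj1) * ((4 / R) / r0) ^ 3 * (2 * Real.pi * k * R ^ 2) ≤ 1 / 10 ^ 5 := by
  have hpi := Real.pi_pos
  have hpi4 : Real.pi ≤ 3.1416 := Real.pi_lt_d4.le
  have hj0 : 0 < dj := hd0.trans_le hdj
  have hj1 : 0 < dj1 := hd0.trans_le hdj1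
  have e : 20 / (dj * dj1) * ((4 / R) / r0) ^ 3 * (2 * Real.pi * k * R ^ 2) =
      Real.pi * (2560 * k) / (R * (dj * dj1 * r0 ^ 3)) := by
    field_simp; ring
  rw [e, div_le_div_iff₀ (by positivity) (by positivity)]
  have h3 : d0 ^ 2 * r0 ^ 3 ≤ dj * dj1 * r0 ^ 3 := by
    have : d0 ^ 2 ≤ dj * dj1 := by
      rw [pow_two]
      exact mul_le_mul hdj hdj1 hd0.le hj0.le
    exact mul_le_mul_of_nonneg_right this (by positivity)
  have h4 : Real.pi * (2560 * k) ≤ 3.1416 * (2560 * k) :=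
    mul_le_mul_of_nonneg_right hpi4 (by positivity)
  have h5 : 10 ^ 9 * k * 1 ≤ 10 ^ 9 * k * (R * ρ) := mul_le_mul_of_nonneg_left hR (by positivity)
  have h6 : R * (10 ^ 9 * k * ρ) ≤ R * (dj * dj1 * r0 ^ 3) :=
    mul_le_mul_of_nonneg_left (hkey.trans h3) hR0.le
  nlinarith

/-- numerical sum of the cubic remainders of one side -/
theorem side_sum {k A ρ r0 R b σ : ℝ} {d v rr : ℕ → ℝ} {jS i : ℕ} (hk : 10 ^ 130 ≤ k)
    (hA0 : 1 ≤ A) (hA : 10 ^ 60 * k ^ 2 * Real.sqrt k ≤ A ^ 5) (hr0 : 0 < r0)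
    (hR : 1 ≤ R * ρ) (hR0 : 0 < R) (hb : b = d (jS + i)) (hRb : b ≤ 4 * Real.sqrt k * R)
    (hi : 3 ≤ i) (hJ : jS + i ≤ 240) (hd : ∀ j ≤ jS + i, 0 < d j)
    (hg : ∀ j < jS + i, v j / 2 * d j ≤ d (j + 1)) (hv : ∀ j ≤ jS, A ≤ v j)
    (hv' : ∀ j, jS < j → j < jS + i → k / 10 ^ 4 ≤ v j)
    (hrr : ∀ j < jS + i, rr j = min r0 (1 / 10 ^ 10 * v j / (k * d j)))
    (h0 : 10 ^ 9 * k * (d 0 * ρ) ≤ (d 0 * r0) ^ 3) (hσ : σ = 4 / R) :
    2 * Real.pi * k * R ^ 2 * ∑ j ∈ Finset.range (jS + i), 20 / (d j * d (j + 1)) *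
      (σ / rr j) ^ 3 ≤ 1 / 100 := by
  have hk0 : 0 < k := lt_of_lt_of_le (by positivity) hk
  have hk1 : 1 ≤ k := le_trans (by norm_num) hk
  have hs0 : 0 < Real.sqrt k := Real.sqrt_pos.2 hk0
  have hss : Real.sqrt k * Real.sqrt k = k := Real.mul_self_sqrt hk0.le
  have hs65 : 10 ^ 65 ≤ Real.sqrt k := by
    rw [show (10 : ℝ) ^ 65 = Real.sqrt ((10 ^ 65) ^ 2) from (Real.sqrt_sq (by positivity)).symm]
    exact Real.sqrt_le_sqrt (by norm_num at hk ⊢; linarith)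
  have hA0' : 0 < A := by linarith
  -- `A ≥ 2`
  have hA2 : 2 ≤ A := by
    by_contra hcon
    push Not at hcon
    have h1 : A ^ 5 ≤ 2 ^ 5 := pow_le_pow_left₀ hA0'.le hcon.le 5
    have h3 : (1 : ℝ) ≤ k ^ 2 := one_le_pow₀ hk1
    have h4 : (1 : ℝ) ≤ Real.sqrt k := le_trans (by norm_num) hs65
    have h2 : (10 : ℝ) ^ 60 * 1 * 1 ≤ 10 ^ 60 * k ^ 2 * Real.sqrt k :=
      mul_le_mul (mul_le_mul_of_nonneg_left h3 (by positivity)) h4 (by norm_num) (by positivity)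
    norm_num at h1 h2
    linarith
  have hk4 : 2 ≤ k / 10 ^ 4 := by
    rw [le_div_iff₀ (by positivity)]
    exact le_trans (by norm_num) hk
  have hv2 : ∀ j < jS + i, 2 ≤ v j := fun j hj => by
    rcases Nat.lt_or_ge jS j with h | h
    · exact hk4.trans (hv' j h hj)
    · exact hA2.trans (hv j h)
  -- monotonicity
  have hstep : ∀ j < jS + i, d j ≤ d (j + 1) := fun j hj => by
    have h1 := hg j hj
    have h2 := hv2 j hj
    have h3 := hd j hj.le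
    have h4 : 1 * d j ≤ v j / 2 * d j := mul_le_mul_of_nonneg_right (by linarith) h3.le
    linarith
  have hmono : ∀ m n, m ≤ n → n ≤ jS + i → d m ≤ d n := by
    intro m n hmn
    induction n, hmn using Nat.le_induction with
    | base => intro _; exact le_rfl
    | succ n _ ih => intro h; exact (ih (by omega)).trans (hstep n (by omega))
  have hb0 : 0 < b := by rw [hb]; exact hd _ le_rfl
  have hd0 : 0 < d 0 := hd 0 (Nat.zero_le _)
  have hkey : 10 ^ 9 * k * ρ ≤ d 0 ^ 2 * r0 ^ 3 := by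
    have h1 : d 0 * (10 ^ 9 * k * ρ) ≤ d 0 * (d 0 ^ 2 * r0 ^ 3) := by
      calc d 0 * (10 ^ 9 * k * ρ) = 10 ^ 9 * k * (d 0 * ρ) := by ring
        _ ≤ (d 0 * r0) ^ 3 := h0
        _ = d 0 * (d 0 ^ 2 * r0 ^ 3) := by ring
    exact le_of_mul_le_mul_left h1 hd0
  have hP : 0 < 2 * Real.pi * k * R ^ 2 := by have := Real.pi_pos; positivity
  -- one term
  have hterm : ∀ j ∈ Finset.range (jS + i), 20 / (d j * d (j + 1)) * (σ / rr j) ^ 3 ≤
      (2 / 10 ^ 5) / (2 * Real.pi * k * R ^ 2) := by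
    intro j hj
    have hj' : j < jS + i := Finset.mem_range.1 hj
    have hdj := hd j hj'.le
    have hdj1 := hd (j + 1) hj'
    have hv0 : 0 < v j := by linarith [hv2 j hj']
    have hx0 : 0 < 1 / 10 ^ 10 * v j / (k * d j) := by positivity
    rw [le_div_iff₀ hP]
    have hT1 := t1_red hk0 hR0 hr0 hd0 (hmono 0 j (Nat.zero_le _) hj'.le)
      (hmono 0 (j + 1) (Nat.zero_le _) hj') hR hkey
    have hT2 : 20 / (d j * d (j + 1)) * ((4 / R) / (1 / 10 ^ 10 * v j / (k * d j))) ^ 3 *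
        (2 * Real.pi * k * R ^ 2) ≤ 1 / 10 ^ 5 := by
      refine (t2_red hk0 hs0 hR0 hb0 hdj hdj1 hv0 hRb (hg j hj')).trans ?_
      have hq0 : 0 ≤ d j / b := by positivity
      rcases Nat.lt_or_ge jS j with h | h
      · have h3 := hv' j h hj'
        refine t2_macro hk0 hs0 hss hs65 h3 hq0 ?_
        rw [div_le_div_iff₀ hb0 hk0]
        have h5 : d (j + 1) ≤ b := by rw [hb]; exact hmono _ _ hj' le_rfl
        have h6 : k / 10 ^ 4 / 2 * d j ≤ v j / 2 * d j :=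
          mul_le_mul_of_nonneg_right (by linarith) hdj.le
        have h7 : k / 10 ^ 4 / 2 * d j ≤ b := h6.trans ((hg j hj').trans h5)
        have e7 : k / 10 ^ 4 / 2 * d j = k * d j / (2 * 10 ^ 4) := by ring
        rw [e7, div_le_iff₀ (by positivity)] at h7
        linarith
      · refine t2_A hk0 hs0 hA0' hA (hv j h) hq0 ?_
        have stp : ∀ m, 1 ≤ m → m < 3 → k / (2 * 10 ^ 4) * d (jS + m) ≤ d (jS + m + 1) := by
          intro m hm1 hm2
          refine le_trans ?_ (hg (jS + m) (by omega))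
          have h7 := hv' (jS + m) (by omega) (by omega)
          have h8 := hd (jS + m) (by omega)
          have : k / (2 * 10 ^ 4) ≤ v (jS + m) / 2 := by
            have e : k / (2 * 10 ^ 4) = k / 10 ^ 4 / 2 := by ring
            rw [e]; linarith
          exact mul_le_mul_of_nonneg_right this h8.le
        have a0 : d j ≤ d jS := hmono _ _ h (by omega)
        have a1 : A / 2 * d jS ≤ d (jS + 1) :=
          le_trans (mul_le_mul_of_nonneg_right (by linarith [hv jS le_rfl])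
            (hd jS (by omega)).le) (hg jS (by omega))
        have a2 := stp 1 le_rfl (by norm_num)
        have a3 := stp 2 (by norm_num) (by norm_num)
        have a4 : d (jS + 2 + 1) ≤ b := by rw [hb]; exact hmono _ _ (by omega) le_rfl
        have hK : 0 ≤ k / (2 * 10 ^ 4) := by positivity
        have b1 : A / 2 * d j ≤ d (jS + 1) :=
          (mul_le_mul_of_nonneg_left a0 (by positivity)).trans a1
        have b2 : k / (2 * 10 ^ 4) * (A / 2 * d j) ≤ d (jS + 1 + 1) :=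
          (mul_le_mul_of_nonneg_left b1 hK).trans a2
        have b3 : k / (2 * 10 ^ 4) * (k / (2 * 10 ^ 4) * (A / 2 * d j)) ≤ b :=
          ((mul_le_mul_of_nonneg_left b2 hK).trans a3).trans a4
        rw [div_le_div_iff₀ hb0 (by positivity)]
        calc d j * ((A / 2) * (k / (2 * 10 ^ 4)) ^ 2)
            = k / (2 * 10 ^ 4) * (k / (2 * 10 ^ 4) * (A / 2 * d j)) := by ring
          _ ≤ b := b3
          _ = 1 * b := (one_mul b).symm
    have hc : 0 ≤ 20 / (d j * d (j + 1)) := by positivity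
    have hsplit : 20 / (d j * d (j + 1)) * (σ / rr j) ^ 3 * (2 * Real.pi * k * R ^ 2) ≤
        20 / (d j * d (j + 1)) * ((4 / R) / r0) ^ 3 * (2 * Real.pi * k * R ^ 2) +
        20 / (d j * d (j + 1)) * ((4 / R) / (1 / 10 ^ 10 * v j / (k * d j))) ^ 3 *
          (2 * Real.pi * k * R ^ 2) := by
      rw [hrr j hj', hσ]
      rcases min_choice r0 (1 / 10 ^ 10 * v j / (k * d j)) with h | h <;> rw [h]
      · have : 0 ≤ 20 / (d j * d (j + 1)) * ((4 / R) / (1 / 10 ^ 10 * v j / (k * d j))) ^ 3 *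
          (2 * Real.pi * k * R ^ 2) := by positivity
        linarith
      · have : 0 ≤ 20 / (d j * d (j + 1)) * ((4 / R) / r0) ^ 3 *
          (2 * Real.pi * k * R ^ 2) := by positivity
        linarith
    refine hsplit.trans ((add_le_add hT1 hT2).trans (by norm_num))
  have hsum := Finset.sum_le_sum hterm
  rw [Finset.sum_const, Finset.card_range, nsmul_eq_mul] at hsum
  have hJr : ((jS + i : ℕ) : ℝ) ≤ 240 := by exact_mod_cast hJ
  calc 2 * Real.pi * k * R ^ 2 * ∑ j ∈ Finset.range (jS + i), 20 / (d j * d (j + 1)) *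
        (σ / rr j) ^ 3
      ≤ 2 * Real.pi * k * R ^ 2 * (((jS + i : ℕ) : ℝ) * ((2 / 10 ^ 5) /
          (2 * Real.pi * k * R ^ 2))) := mul_le_mul_of_nonneg_left hsum hP.le
    _ = ((jS + i : ℕ) : ℝ) * (2 / 10 ^ 5) := by field_simp
    _ ≤ 240 * (2 / 10 ^ 5) := mul_le_mul_of_nonneg_right hJr (by norm_num)
    _ ≤ 1 / 100 := by norm_num

end Crest.Agent.R128.LocA2X
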