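import Crest.Agent.R128.LocDef

/-!
# Row 128, node V5-LOC, (H3): increments of the content are real quadratic polynomials up to a
cubic remainder, on complex discs (helper658).
-/

set_option autoImplicit false

open Complex Metric Set
open Crest.Agent.R128 Crest.Agent.R128.Cell Crest.Agent.R128.CellB Crest.Agent.R128.CellDy

namespace Crest.Agent.R128.LocQB

theorem im_deriv_eq_zero {h : ℂ → ℂ} {t₁ r : ℝ} (hd : DifferentiableOn ℂ h (ball (t₁ : ℂ) r))
    (him : ∀ x : ℝ, |x - t₁| < r → (h x).im = 0) :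
    ∀ x : ℝ, |x - t₁| < r → (deriv h x).im = 0 := by
  intro x hx
  have hx' : (x : ℂ) ∈ ball (t₁ : ℂ) r := by
    rw [mem_ball, dist_eq_norm, ← Complex.ofReal_sub, Complex.norm_real]
    exact hx
  have h1 : HasDerivAt h (deriv h x) (x : ℂ) :=
    (hd.differentiableAt (isOpen_ball.mem_nhds hx')).hasDerivAt
  have h2 : HasDerivAt (fun y : ℝ => h y) (deriv h x) x := h1.comp_ofReal
  have h3 : HasDerivAt (fun y : ℝ => (h y).im) (deriv h x).im x :=
    Complex.imCLM.hasFDerivAt.comp_hasDerivAt x h2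
  have h4 : (fun y : ℝ => (h y).im) =ᶠ[nhds x] fun _ => (0 : ℝ) := by
    have h5 : {y : ℝ | |y - t₁| < r} ∈ nhds x :=
      (isOpen_lt (by fun_prop) continuous_const).mem_nhds hx
    filter_upwards [h5] with y hy using him y hy
  have h5 : HasDerivAt (fun y : ℝ => (h y).im) 0 x :=
    (hasDerivAt_const x (0 : ℝ)).congr_of_eventuallyEq h4
  exact h3.unique h5

theorem im_iteratedDeriv_eq_zero {h : ℂ → ℂ} {t₁ r : ℝ}
    (hd : DifferentiableOn ℂ h (ball (t₁ : ℂ) r))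
    (him : ∀ x : ℝ, |x - t₁| < r → (h x).im = 0) (n : ℕ) :
    DifferentiableOn ℂ (iteratedDeriv n h) (ball (t₁ : ℂ) r) ∧
      ∀ x : ℝ, |x - t₁| < r → (iteratedDeriv n h x).im = 0 := by
  induction n with
  | zero => simpa using ⟨hd, him⟩
  | succ n ih =>
    rw [iteratedDeriv_succ]
    exact ⟨ih.1.deriv isOpen_ball, im_deriv_eq_zero ih.1 ih.2⟩

/-- Real quadratic Taylor polynomial with cubic remainder on a complex disc. -/
theorem taylor3 {h : ℂ → ℂ} {t₁ r s B : ℝ} (hr : 0 < r) (hs : 0 ≤ s) (hsr : 2 * s ≤ r)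
    (hd : DifferentiableOn ℂ h (ball (t₁ : ℂ) r))
    (him : ∀ x : ℝ, |x - t₁| < r → (h x).im = 0)
    (hB : ∀ z ∈ ball (t₁ : ℂ) r, ‖h z‖ ≤ B) :
    ∃ q0 q1 q2 : ℝ, ∀ t ∈ ball (t₁ : ℂ) s,
      ‖h t - (q0 + q1 * (t - t₁) + q2 * (t - t₁) ^ 2)‖ ≤ 4 * B * (s / r) ^ 3 := by
  have hB0 : 0 ≤ B := (norm_nonneg _).trans (hB t₁ (mem_ball_self hr))
  set R : ℝ := 9 / 10 * r with hRdef
  have hR : 0 < R := by positivity
  have hRr : R < r := by rw [hRdef]; linarith
  have hsub : closedBall (t₁ : ℂ) R ⊆ ball (t₁ : ℂ) r := closedBall_subset_ball hRr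
  have hcoef : ∀ n : ℕ, ‖iteratedDeriv n h t₁‖ ≤ n.factorial * B / R ^ n := fun n =>
    Complex.norm_iteratedDeriv_le_of_forall_mem_sphere_norm_le n hR
      (by
        apply DifferentiableOn.diffContOnCl
        rw [closure_ball (t₁ : ℂ) hR.ne']
        exact hd.mono hsub)
      (fun z hz => hB z (hsub (sphere_subset_closedBall hz)))
  set a : ℕ → ℂ := fun n => (n.factorial : ℂ)⁻¹ * iteratedDeriv n h t₁ with ha
  have han : ∀ n, ‖a n‖ ≤ B / R ^ n := by
    intro n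
    simp only [ha]
    rw [norm_mul, norm_inv, Complex.norm_natCast]
    have h1 := hcoef n
    have hfac : (0 : ℝ) < n.factorial := by exact_mod_cast n.factorial_pos
    calc (n.factorial : ℝ)⁻¹ * ‖iteratedDeriv n h t₁‖
        ≤ (n.factorial : ℝ)⁻¹ * (n.factorial * B / R ^ n) := by gcongr
      _ = B / R ^ n := by field_simp
  have him' : ∀ n, (a n).im = 0 := by
    intro n
    have h1 := (im_iteratedDeriv_eq_zero hd him n).2 t₁ (by simpa using hr)
    simp only [ha]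
    rw [← Complex.ofReal_natCast, ← Complex.ofReal_inv, Complex.im_ofReal_mul, h1, mul_zero]
  have hre : ∀ n, ((a n).re : ℂ) = a n := by
    intro n
    apply Complex.ext
    · simp
    · simp [him' n]
  refine ⟨(a 0).re, (a 1).re, (a 2).re, ?_⟩
  intro z hz
  rw [hre, hre, hre]
  have hz' : ‖z - t₁‖ < s := by rwa [mem_ball, dist_eq_norm] at hz
  set q : ℝ := s / R with hq
  have hq0 : 0 ≤ q := by positivity
  have hq1 : q ≤ 5 / 9 := by
    rw [hq, div_le_iff₀ hR, hRdef]; linarith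
  have hsum : HasSum (fun n : ℕ => a n * (z - t₁) ^ n) (h z) := by
    have h0 := Complex.hasSum_taylorSeries_on_ball (r := R) (c := (t₁ : ℂ)) (z := z)
      (hd.mono (ball_subset_ball hRr.le)) (by
        rw [mem_ball, dist_eq_norm]
        rw [hRdef]
        linarith)
    have he : (fun n : ℕ => a n * (z - t₁) ^ n) =
        (fun n : ℕ => (n.factorial : ℂ)⁻¹ • (z - t₁) ^ n • iteratedDeriv n h t₁) := by
      funext n
      rw [smul_eq_mul, smul_eq_mul]
      show (n.factorial : ℂ)⁻¹ * iteratedDeriv n h t₁ * (z - t₁) ^ n = _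
      ring
    rw [he]
    exact h0
  have hterm : ∀ n, ‖a n * (z - t₁) ^ n‖ ≤ B * q ^ n := by
    intro n
    rw [norm_mul, norm_pow]
    calc ‖a n‖ * ‖z - t₁‖ ^ n ≤ B / R ^ n * s ^ n := by
          gcongr
          exact han n
      _ = B * q ^ n := by
          rw [hq, div_pow]
          ring
  have hsplit := hsum.summable.sum_add_tsum_nat_add 3
  rw [hsum.tsum_eq] at hsplit
  have e3 : ∑ i ∈ Finset.range 3, a i * (z - t₁) ^ i =
      a 0 + a 1 * (z - t₁) + a 2 * (z - t₁) ^ 2 := by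
    simp [Finset.sum_range_succ]
  rw [e3] at hsplit
  rw [← hsplit, add_sub_cancel_left]
  have hgeo : HasSum (fun n : ℕ => B * q ^ 3 * (5 / 9 : ℝ) ^ n)
      (B * q ^ 3 * (1 - 5 / 9)⁻¹) :=
    (hasSum_geometric_of_lt_one (by norm_num) (by norm_num)).mul_left (B * q ^ 3)
  have hb : ∀ n : ℕ, ‖a (n + 3) * (z - t₁) ^ (n + 3)‖ ≤ B * q ^ 3 * (5 / 9 : ℝ) ^ n := by
    intro n
    refine (hterm (n + 3)).trans ?_
    have h1 : q ^ n ≤ (5 / 9 : ℝ) ^ n := pow_le_pow_left₀ hq0 hq1 n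
    calc B * q ^ (n + 3) = B * q ^ 3 * q ^ n := by rw [pow_add]; ring
      _ ≤ _ := mul_le_mul_of_nonneg_left h1 (by positivity)
  refine (tsum_of_norm_bounded hgeo hb).trans ?_
  have e4 : q ^ 3 = 1000 / 729 * (s / r) ^ 3 := by
    rw [hq, hRdef]
    field_simp
    ring
  rw [e4]
  have h6 : 0 ≤ B * (s / r) ^ 3 := by positivity
  nlinarith

theorem inv_mul_quadratic {f g : ℂ → ℂ} {t₁ r s : ℝ} (hr : 0 < r) (hs : 0 ≤ s)
    (hsr : 2 * s ≤ r) (hf : DifferentiableOn ℂ f (Metric.ball (t₁ : ℂ) r))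
    (hg : DifferentiableOn ℂ g (Metric.ball (t₁ : ℂ) r))
    (hfr : ∀ x : ℝ, |x - t₁| < r → (f x).im = 0) (hgr : ∀ x : ℝ, |x - t₁| < r → (g x).im = 0)
    (f0 : f t₁ ≠ 0) (g0 : g t₁ ≠ 0)
    (cf : ∀ t ∈ Metric.ball (t₁ : ℂ) r, ‖f t - f t₁‖ ≤ 1 / 10 * ‖f t₁‖)
    (cg : ∀ t ∈ Metric.ball (t₁ : ℂ) r, ‖g t - g t₁‖ ≤ 1 / 10 * ‖g t₁‖) :
    ∃ q0 q1 q2 : ℝ, ∀ t ∈ Metric.ball (t₁ : ℂ) s,
      ‖1 / (f t * g t) - (q0 + q1 * (t - t₁) + q2 * (t - t₁) ^ 2)‖ ≤
        20 / (‖f t₁‖ * ‖g t₁‖) * (s / r) ^ 3 := by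
  have low : ∀ {u : ℂ → ℂ}, (∀ t ∈ Metric.ball (t₁ : ℂ) r, ‖u t - u t₁‖ ≤ 1 / 10 * ‖u t₁‖) →
      ∀ t ∈ Metric.ball (t₁ : ℂ) r, 9 / 10 * ‖u t₁‖ ≤ ‖u t‖ := by
    intro u hu t ht
    have h1 := hu t ht
    have h2 : ‖u t₁‖ ≤ ‖u t‖ + ‖u t - u t₁‖ := by
      have h3 := norm_sub_le (u t) (u t - u t₁)
      simpa using h3
    linarith
  have pf : 0 < ‖f t₁‖ := norm_pos_iff.2 f0
  have pg : 0 < ‖g t₁‖ := norm_pos_iff.2 g0
  have nf : ∀ t ∈ Metric.ball (t₁ : ℂ) r, f t ≠ 0 := by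
    intro t ht
    have := low cf t ht
    exact norm_pos_iff.1 (by linarith)
  have ng : ∀ t ∈ Metric.ball (t₁ : ℂ) r, g t ≠ 0 := by
    intro t ht
    have := low cg t ht
    exact norm_pos_iff.1 (by linarith)
  have hd : DifferentiableOn ℂ (fun t => 1 / (f t * g t)) (Metric.ball (t₁ : ℂ) r) := by
    apply DifferentiableOn.div (differentiableOn_const _) (hf.mul hg)
    intro t ht
    exact mul_ne_zero (nf t ht) (ng t ht)
  have him : ∀ x : ℝ, |x - t₁| < r → ((fun t => 1 / (f t * g t)) (x : ℂ)).im = 0 := by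
    intro x hx
    have e1 : f x = ((f x).re : ℂ) := by
      apply Complex.ext
      · simp
      · simp [hfr x hx]
    have e2 : g x = ((g x).re : ℂ) := by
      apply Complex.ext
      · simp
      · simp [hgr x hx]
    show (1 / (f x * g x)).im = 0
    rw [e1, e2, ← Complex.ofReal_mul, ← Complex.ofReal_one, ← Complex.ofReal_div]
    exact Complex.ofReal_im _
  have hB : ∀ z ∈ Metric.ball (t₁ : ℂ) r, ‖(fun t => 1 / (f t * g t)) z‖ ≤
      5 / (‖f t₁‖ * ‖g t₁‖) := by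
    intro z hz
    have h1 := low cf z hz
    have h2 := low cg z hz
    show ‖1 / (f z * g z)‖ ≤ _
    rw [norm_div, norm_one, norm_mul]
    rw [div_le_div_iff₀ (mul_pos (by linarith) (by linarith)) (mul_pos pf pg)]
    have h3 : (9 / 10 * ‖f t₁‖) * (9 / 10 * ‖g t₁‖) ≤ ‖f z‖ * ‖g z‖ := by
      apply mul_le_mul h1 h2 (by positivity) (by positivity)
    nlinarith [mul_pos pf pg]
  obtain ⟨q0, q1, q2, h⟩ := taylor3 hr hs hsr hd him hB
  refine ⟨q0, q1, q2, fun t ht => (h t ht).trans (le_of_eq ?_)⟩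
  ring

theorem im_D (k c : ℝ) (s : Bool) (n : ℕ) (x : ℝ) : (Loc.D k c s n (x : ℂ)).im = 0 := by
  unfold Loc.D Loc.sdC
  cases s
  · have e : (if (false = true) then (x : ℂ) else (kap k c : ℂ) - x) = ((kap k c - x : ℝ) : ℂ) := by
      simp
    rw [e, yd_ofReal]
    exact Complex.ofReal_im _
  · have e : (if (true = true) then (x : ℂ) else (kap k c : ℂ) - x) = (x : ℂ) := by
      simp
    rw [e, yd_ofReal]
    exact Complex.ofReal_im _

theorem differentiable_yd (k : ℝ) (c : ℂ) (n : ℕ) : Differentiable ℂ (yd k c n) := by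
  have e : yd k c n = deriv (y k c n) := funext fun z => (hasDerivAt_y k c n z).deriv.symm
  rw [e]
  exact differentiableOn_univ.1 ((differentiable_y k c n).differentiableOn.deriv isOpen_univ)

theorem differentiable_D (k c : ℝ) (s : Bool) (n : ℕ) : Differentiable ℂ (Loc.D k c s n) := by
  unfold Loc.D
  have h1 : Differentiable ℂ (fun z : ℂ => Loc.sdC k c s z) := by
    unfold Loc.sdC
    cases s
    · have e : (fun z : ℂ => if (false = true) then z else (kap k c : ℂ) - z) =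
          fun z : ℂ => (kap k c : ℂ) - z := by
        funext z; simp
      rw [e]
      exact (differentiable_const _).sub differentiable_id
    · have e : (fun z : ℂ => if (true = true) then z else (kap k c : ℂ) - z) =
          fun z : ℂ => z := by
        funext z; simp
      rw [e]
      exact differentiable_id
  exact (differentiable_yd k c n).comp h1

theorem mu_quadratic (k c : ℝ) (s : Bool) {t₁ σ : ℝ} (hσ : 0 ≤ σ) {n0 J : ℕ} {r : ℕ → ℝ}
    (hr : ∀ j < J, 2 * σ ≤ r j ∧ 0 < r j)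
    (h : ∀ j < J, ∀ t ∈ Metric.ball (t₁ : ℂ) (r j),
      ‖Loc.D k c s (n0+1+j) t - Loc.D k c s (n0+1+j) t₁‖ ≤ 1/10 * ‖Loc.D k c s (n0+1+j) t₁‖ ∧
      ‖Loc.D k c s (n0+2+j) t - Loc.D k c s (n0+2+j) t₁‖ ≤ 1/10 * ‖Loc.D k c s (n0+2+j) t₁‖)
    (h0 : ∀ j ≤ J, Loc.D k c s (n0+1+j) t₁ ≠ 0) :
    ∃ q0 q1 q2 : ℝ, ∀ t ∈ Metric.ball (t₁ : ℂ) σ,
      ‖Loc.mu k c s (n0+1+J) t - Loc.mu k c s (n0+1) t -
        (q0 + q1 * (t - t₁) + q2 * (t - t₁) ^ 2)‖ ≤
      ∑ j ∈ Finset.range J, 20 / (‖Loc.D k c s (n0+1+j) t₁‖ * ‖Loc.D k c s (n0+2+j) t₁‖) *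
        (σ / r j) ^ 3 := by
  have step : ∀ j, ∃ q0 q1 q2 : ℝ, j < J → ∀ t ∈ Metric.ball (t₁ : ℂ) σ,
      ‖1 / (Loc.D k c s (n0+1+j) t * Loc.D k c s (n0+2+j) t) -
        (q0 + q1 * (t - t₁) + q2 * (t - t₁) ^ 2)‖ ≤
      20 / (‖Loc.D k c s (n0+1+j) t₁‖ * ‖Loc.D k c s (n0+2+j) t₁‖) * (σ / r j) ^ 3 := by
    intro j
    by_cases hj : j < J
    · have hA : Loc.D k c s (n0 + 2 + j) t₁ ≠ 0 := by
        have h1 := h0 (j + 1) (by omega)
        have e : n0 + 1 + (j + 1) = n0 + 2 + j := by omega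
        rwa [e] at h1
      obtain ⟨q0, q1, q2, hq⟩ := inv_mul_quadratic (hr j hj).2 hσ (hr j hj).1
        (differentiable_D k c s (n0+1+j)).differentiableOn
        (differentiable_D k c s (n0+2+j)).differentiableOn
        (fun x _ => im_D k c s _ x) (fun x _ => im_D k c s _ x) (h0 j hj.le) hA
        (fun t ht => (h j hj t ht).1) (fun t ht => (h j hj t ht).2)
      exact ⟨q0, q1, q2, fun _ => hq⟩
    · exact ⟨0, 0, 0, fun h => absurd h hj⟩
  choose q0 q1 q2 hq using step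
  refine ⟨∑ j ∈ Finset.range J, q0 j, ∑ j ∈ Finset.range J, q1 j, ∑ j ∈ Finset.range J, q2 j, ?_⟩
  intro t ht
  have hne : ∀ j ≤ J, 0 < J → Loc.D k c s (n0 + 1 + j) t ≠ 0 := by
    intro j hj hJ
    rcases Nat.lt_or_ge j J with h1 | h1
    · have h2 := (h j h1 t (ball_subset_ball (by linarith [(hr j h1).1]) ht)).1
      have h3 : 0 < ‖Loc.D k c s (n0 + 1 + j) t₁‖ := norm_pos_iff.2 (h0 j hj)
      intro h4
      rw [h4, zero_sub, norm_neg] at h2
      linarith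
    · have h5 : j = J := le_antisymm hj h1
      subst h5
      have h6 : j - 1 < j := by omega
      have h2 := (h (j - 1) h6 t (ball_subset_ball (by linarith [(hr (j - 1) h6).1]) ht)).2
      have e : n0 + 2 + (j - 1) = n0 + 1 + j := by omega
      rw [e] at h2
      have h3 : 0 < ‖Loc.D k c s (n0 + 1 + j) t₁‖ := norm_pos_iff.2 (h0 j hj)
      intro h4
      rw [h4, zero_sub, norm_neg] at h2
      linarith
  have hmu : Loc.mu k c s (n0+1+J) t - Loc.mu k c s (n0+1) t =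
      ∑ j ∈ Finset.range J, 1 / (Loc.D k c s (n0+1+j) t * Loc.D k c s (n0+2+j) t) := by
    rcases Nat.eq_zero_or_pos J with hJ | hJ
    · subst hJ; simp
    · unfold Loc.mu
      rw [Align.mu_sub (by omega : n0 + 1 ≤ n0 + 1 + J)]
      · rw [Finset.sum_Ico_eq_sum_range]
        have e : n0 + 1 + J - (n0 + 1) = J := by omega
        rw [e]
        apply Finset.sum_congr rfl
        intro j hj
        rw [Loc.Q_dg, Loc.Q_dg]
        have e2 : n0 + 1 + j + 1 = n0 + 2 + j := by omega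
        rw [e2]
      · intro i hi1 hi2
        rw [Loc.Q_dg]
        have h1 := hne (i - (n0 + 1)) (by omega) hJ
        have e : n0 + 1 + (i - (n0 + 1)) = i := by omega
        rwa [e] at h1
  have e : Loc.mu k c s (n0+1+J) t - Loc.mu k c s (n0+1) t -
        (((∑ j ∈ Finset.range J, q0 j : ℝ) : ℂ) + ((∑ j ∈ Finset.range J, q1 j : ℝ) : ℂ) * (t - t₁) +
          ((∑ j ∈ Finset.range J, q2 j : ℝ) : ℂ) * (t - t₁) ^ 2) =
      ∑ j ∈ Finset.range J, (1 / (Loc.D k c s (n0+1+j) t * Loc.D k c s (n0+2+j) t) -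
        ((q0 j : ℂ) + (q1 j : ℂ) * (t - t₁) + (q2 j : ℂ) * (t - t₁) ^ 2)) := by
    rw [hmu, Finset.sum_sub_distrib, Finset.sum_add_distrib, Finset.sum_add_distrib,
      ← Finset.sum_mul, ← Finset.sum_mul]
    push_cast
    rfl
  rw [e]
  refine (norm_sum_le _ _).trans (Finset.sum_le_sum fun j hj => ?_)
  exact hq j (Finset.mem_range.1 hj) t ht

end Crest.Agent.R128.LocQB
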