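import Crest.Agent.R128.LocA1
import Crest.Agent.R128.LocSel
import Crest.Agent.R128.LocQB
import Crest.Agent.R128.LocDef
import Crest.Agent.R128.LocA2XN
import Crest.Agent.R128.LocA2

/-! # Row 128, node V5-LocA2, second implementation (helper344)

Two regular sides at a real point `t₁` (chain of nearly affine curves, five macroscopic digits after
the exit digit on both sides) and a quadratic old content give a `Loc.Cell3`. -/

set_option autoImplicit false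

open MeasureTheory Metric Set
open Crest.Agent.R128 Crest.Agent.R128.Cell Crest.Agent.R128.CellB Crest.Agent.R128.CellDy Crest.Agent.R128.LocA

namespace Crest.Agent.R128.LocA2X

/-- sizes of the derivatives -/
noncomputable def dd (k c t₁ : ℝ) (b : Bool) (n0 j : ℕ) : ℝ := ‖Loc.D k c b (n0 + 1 + j) (t₁ : ℂ)‖
/-- sizes of the digits -/
noncomputable def dv (k c t₁ : ℝ) (b : Bool) (n0 j : ℕ) : ℝ := vv k (Loc.Y k c b) (n0 + 1 + j) (t₁ : ℂ)
/-- radii of the chain -/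
noncomputable def dr (k c t₁ : ℝ) (b : Bool) (n0 : ℕ) (r0 : ℝ) (j : ℕ) : ℝ :=
  rad k (Loc.Y k c b) (Loc.D k c b) n0 r0 t₁ j

/-- the data of one side at the real point `t₁` -/
structure SD (k c t₁ ρ A δ : ℝ) (b : Bool) (n0 jS : ℕ) (r0 : ℝ) : Prop where
  na : ∀ j ≤ jS + 6, ∀ t ∈ ball (t₁ : ℂ) (dr k c t₁ b n0 r0 j),
    ‖Loc.D k c b (n0 + 1 + j) t - Loc.D k c b (n0 + 1 + j) t₁‖ ≤ 1 / 100 * dd k c t₁ b n0 j
  pos : ∀ j ≤ jS + 6, 0 < dd k c t₁ b n0 j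
  r0pos : 0 < r0
  mono : ∀ j < jS + 6, dr k c t₁ b n0 r0 (j + 1) ≤ dr k c t₁ b n0 r0 j
  lo : ∀ j < jS + 6, dv k c t₁ b n0 j / 2 * dd k c t₁ b n0 j ≤ dd k c t₁ b n0 (j + 1)
  up : ∀ j < jS + 6, dd k c t₁ b n0 (j + 1) ≤ (dv k c t₁ b n0 j + 1) * dd k c t₁ b n0 j
  prev : ∀ j < jS + 6, ∀ t ∈ ball (t₁ : ℂ) (dr k c t₁ b n0 r0 (j + 1)),
    ‖Loc.D k c b (n0 + 1 + j) t‖ ≤ 2 / dv k c t₁ b n0 j * dd k c t₁ b n0 (j + 1)
  dig : ∀ j ≤ jS, A ≤ dv k c t₁ b n0 j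
  dig' : ∀ i, 1 ≤ i → i ≤ 5 → k / 10 ^ 4 ≤ dv k c t₁ b n0 (jS + i)
  h0 : 10 ^ 9 * k * (dd k c t₁ b n0 0 * ρ) ≤ (dd k c t₁ b n0 0 * r0) ^ 3
  small : 10 ^ 10 * k * (dd k c t₁ b n0 0 * r0) ≤ A
  ex1 : δ / 2 ≤ dd k c t₁ b n0 jS * ρ
  ex2 : dd k c t₁ b n0 jS * ρ ≤ 20 * k * δ

theorem dv_le {k : ℝ} (hk : 1 ≤ k) (c t₁ : ℝ) (b : Bool) (n0 j : ℕ) :
    dv k c t₁ b n0 j ≤ 10 * k := by
  unfold dv vv
  have him := im_Y k c b (n0 + 1 + j) t₁
  set w : ℂ := Loc.Y k c b (n0 + 1 + j) (t₁ : ℂ) with hw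
  have e : w = ((w.re : ℝ) : ℂ) := by
    apply Complex.ext
    · simp
    · simpa using him
  rw [e]
  have e2 : cV k ((w.re : ℝ) : ℂ) = ((2 + 2 * Real.pi * k * Real.cos (2 * Real.pi * w.re) : ℝ) : ℂ) := by
    unfold cV
    push_cast
    ring
  rw [e2, Complex.norm_real, Real.norm_eq_abs]
  have h1 := Real.abs_cos_le_one (2 * Real.pi * w.re)
  have h2 := Real.pi_lt_d2
  have h3 := Real.pi_pos
  have h4 : |2 * Real.pi * k * Real.cos (2 * Real.pi * w.re)| ≤ 6.3 * k := by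
    rw [abs_mul, abs_of_pos (by positivity : (0 : ℝ) < 2 * Real.pi * k)]
    calc 2 * Real.pi * k * |Real.cos (2 * Real.pi * w.re)| ≤ 2 * 3.15 * k * 1 := by gcongr
      _ = 6.3 * k := by ring
  calc |2 + 2 * Real.pi * k * Real.cos (2 * Real.pi * w.re)|
      ≤ |2| + |2 * Real.pi * k * Real.cos (2 * Real.pi * w.re)| := abs_add_le _ _
    _ ≤ 2 + 6.3 * k := by rw [abs_of_pos (by norm_num : (0 : ℝ) < 2)]; gcongr
    _ ≤ 10 * k := by linarith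

section side
variable {k c t₁ ρ A δ r0 : ℝ} {b : Bool} {n0 jS : ℕ}

theorem dr_anti (S : SD k c t₁ ρ A δ b n0 jS r0) {i j : ℕ} (hij : i ≤ j) (hj : j ≤ jS + 6) :
    dr k c t₁ b n0 r0 j ≤ dr k c t₁ b n0 r0 i := by
  induction j, hij using Nat.le_induction with
  | base => exact le_rfl
  | succ j _ ih => exact (S.mono j (by omega)).trans (ih (by omega))

/-- lower bound of the radius -/
theorem dr_ge (hk : 10 ^ 130 ≤ k) (hρ : 0 < ρ) (S : SD k c t₁ ρ A δ b n0 jS r0) {i : ℕ} {R : ℝ}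
    (hi : 3 ≤ i) (hi6 : i ≤ 6) (hR : R ≤ dd k c t₁ b n0 (jS + i))
    (hkR : k ≤ R * ρ) :
    k / (2 * 10 ^ 18 * dd k c t₁ b n0 (jS + i)) ≤ dr k c t₁ b n0 r0 (jS + i) := by
  have hk0 : 0 < k := lt_of_lt_of_le (by positivity) hk
  have hk1 : 1 ≤ k := le_trans (by norm_num) hk
  obtain ⟨m, rfl⟩ : ∃ m, i = m + 1 := ⟨i - 1, by omega⟩
  have hdJ : 0 < dd k c t₁ b n0 (jS + (m + 1)) := S.pos _ (by omega)
  have hdm : 0 < dd k c t₁ b n0 (jS + m) := S.pos _ (by omega)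
  have hv := S.dig' m (by omega) (by omega)
  have hv0 : 0 < dv k c t₁ b n0 (jS + m) := lt_of_lt_of_le (by positivity) hv
  have hlo := S.lo (jS + m) (by omega)
  have e : dr k c t₁ b n0 r0 (jS + (m + 1)) = min r0 (1 / 10 ^ 10 * dv k c t₁ b n0 (jS + m) /
      (k * dd k c t₁ b n0 (jS + m))) := rfl
  rw [e]
  refine le_min ?_ ?_
  · -- `r0`
    have h0 := S.h0
    have hsm := S.small
    have hA : A ≤ 10 * k := (S.dig 0 (Nat.zero_le _)).trans (dv_le hk1 _ _ _ _ _)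
    have hd0 : 0 < dd k c t₁ b n0 0 := S.pos 0 (Nat.zero_le _)
    have hr0 := S.r0pos
    set a : ℝ := dd k c t₁ b n0 0 * r0 with ha
    have ha0 : 0 < a := by positivity
    have ha1 : a ≤ 1 := by
      have : 10 ^ 10 * k * a ≤ 10 * k := hsm.trans hA
      by_contra hcon
      push Not at hcon
      nlinarith
    have h1 : 10 ^ 9 * k * ρ ≤ r0 := by
      have h2 : 10 ^ 9 * k * ρ * a ≤ r0 * a := by
        calc 10 ^ 9 * k * ρ * a = 10 ^ 9 * k * (dd k c t₁ b n0 0 * ρ) * r0 := by rw [ha]; ring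
          _ ≤ a ^ 3 * r0 := by gcongr
          _ = (a * a) * (r0 * a) := by ring
          _ ≤ (1 * 1) * (r0 * a) := by gcongr
          _ = r0 * a := by ring
      exact le_of_mul_le_mul_right h2 ha0
    rw [div_le_iff₀ (by positivity)]
    calc k ≤ R * ρ := hkR
      _ ≤ dd k c t₁ b n0 (jS + (m + 1)) * ρ := by gcongr
      _ = 1 * (1 * ρ) * (1 * dd k c t₁ b n0 (jS + (m + 1))) := by ring
      _ ≤ 10 ^ 9 * (k * ρ) * (2 * 10 ^ 18 * dd k c t₁ b n0 (jS + (m + 1))) := by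
          gcongr <;> norm_num
      _ = 10 ^ 9 * k * ρ * (2 * 10 ^ 18 * dd k c t₁ b n0 (jS + (m + 1))) := by ring
      _ ≤ r0 * (2 * 10 ^ 18 * dd k c t₁ b n0 (jS + (m + 1))) := by gcongr
  · rw [div_le_div_iff₀ (by positivity) (by positivity)]
    have h1 : (k / 10 ^ 4) * (k / 10 ^ 4) * dd k c t₁ b n0 (jS + m) ≤
        dv k c t₁ b n0 (jS + m) * (2 * dd k c t₁ b n0 (jS + (m + 1))) := by
      calc (k / 10 ^ 4) * (k / 10 ^ 4) * dd k c t₁ b n0 (jS + m)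
          ≤ dv k c t₁ b n0 (jS + m) * dv k c t₁ b n0 (jS + m) * dd k c t₁ b n0 (jS + m) := by
            gcongr
        _ = dv k c t₁ b n0 (jS + m) * (2 * (dv k c t₁ b n0 (jS + m) / 2 *
              dd k c t₁ b n0 (jS + m))) := by ring
        _ ≤ _ := by gcongr; exact hlo
    have e2 : k * (k * dd k c t₁ b n0 (jS + m)) =
        10 ^ 8 * ((k / 10 ^ 4) * (k / 10 ^ 4) * dd k c t₁ b n0 (jS + m)) := by ring
    have e3 : 1 / 10 ^ 10 * dv k c t₁ b n0 (jS + m) *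
        (2 * 10 ^ 18 * dd k c t₁ b n0 (jS + (m + 1))) =
        10 ^ 8 * (dv k c t₁ b n0 (jS + m) * (2 * dd k c t₁ b n0 (jS + (m + 1)))) := by ring
    rw [e2, e3]
    gcongr

theorem sixteen (hk : 10 ^ 130 ≤ k) {R d : ℝ} (hR0 : 0 < R) (hd : 0 < d)
    (h : d ≤ 4 * Real.sqrt k * R) : 8 / R ≤ k / (2 * 10 ^ 18 * d) := by
  have hk0 : 0 < k := lt_of_lt_of_le (by positivity) hk
  have hs0 : 0 < Real.sqrt k := Real.sqrt_pos.2 hk0
  have hss : Real.sqrt k * Real.sqrt k = k := Real.mul_self_sqrt hk0.le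
  have hs65 : 10 ^ 65 ≤ Real.sqrt k := by
    rw [show (10 : ℝ) ^ 65 = Real.sqrt ((10 ^ 65) ^ 2) from (Real.sqrt_sq (by positivity)).symm]
    exact Real.sqrt_le_sqrt (by norm_num at hk ⊢; linarith)
  rw [div_le_div_iff₀ hR0 (by positivity)]
  calc 8 * (2 * 10 ^ 18 * d) ≤ 8 * (2 * 10 ^ 18 * (4 * Real.sqrt k * R)) := by gcongr
    _ = 64 * 10 ^ 18 * (Real.sqrt k * R) := by ring
    _ ≤ 10 ^ 65 * (Real.sqrt k * R) := by gcongr; norm_num
    _ ≤ Real.sqrt k * (Real.sqrt k * R) := by gcongr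
    _ = k * R := by rw [← mul_assoc, hss]

/-- all that is needed from one side -/
theorem side (hk : 10 ^ 130 ≤ k) (hA0 : 1 ≤ A) (hA : 10 ^ 60 * k ^ 2 * Real.sqrt k ≤ A ^ 5)
    (hρ : 0 < ρ) (hJ : jS + 6 ≤ 240) (S : SD k c t₁ ρ A δ b n0 jS r0) {i : ℕ} {R : ℝ}
    (hi : 3 ≤ i) (hi6 : i ≤ 6) (hR0 : 0 < R) (hR : R ≤ dd k c t₁ b n0 (jS + i))
    (hR4 : dd k c t₁ b n0 (jS + i) ≤ 4 * Real.sqrt k * R) (hkR : k ≤ R * ρ) :
    (∀ z ∈ ball (t₁ : ℂ) (4 / R), ‖Loc.D k c b (n0 + 1 + (jS + i)) z -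
        Loc.D k c b (n0 + 1 + (jS + i)) t₁‖ ≤ 10 ^ 18 * dd k c t₁ b n0 (jS + i) ^ 2 / (R * k)) ∧
    (∀ z ∈ ball (t₁ : ℂ) (4 / R), ‖Loc.D k c b (n0 + (jS + i)) z‖ ≤
        10 ^ 18 * dd k c t₁ b n0 (jS + i) / k) ∧
    ∃ p0 p1 p2 : ℝ, ∀ z ∈ ball (t₁ : ℂ) (4 / R),
      2 * Real.pi * k * R ^ 2 * ‖Loc.mu k c b (n0 + 1 + (jS + i)) z - Loc.mu k c b (n0 + 1) z -
        (p0 + p1 * (z - t₁) + p2 * (z - t₁) ^ 2)‖ ≤ 1 / 100 := by
  have hk0 : 0 < k := lt_of_lt_of_le (by positivity) hk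
  have hk1 : 1 ≤ k := le_trans (by norm_num) hk
  have hdJ : 0 < dd k c t₁ b n0 (jS + i) := S.pos _ (by omega)
  have hrad := dr_ge hk hρ S hi hi6 hR hkR
  have h16 := sixteen hk hR0 hdJ hR4
  have h8 : 8 / R ≤ dr k c t₁ b n0 r0 (jS + i) := h16.trans hrad
  have h4 : 4 / R ≤ dr k c t₁ b n0 r0 (jS + i) := le_trans (by gcongr; norm_num) h8
  have hrpos : 0 < dr k c t₁ b n0 r0 (jS + i) := lt_of_lt_of_le (by positivity) h8
  refine ⟨fun z hz => ?_, fun z hz => ?_, ?_⟩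
  · -- distortion by the Schwarz lemma
    have hz' : z ∈ ball (t₁ : ℂ) (dr k c t₁ b n0 r0 (jS + i)) := ball_subset_ball h4 hz
    have hmaps : MapsTo (Loc.D k c b (n0 + 1 + (jS + i)))
        (ball (t₁ : ℂ) (dr k c t₁ b n0 r0 (jS + i)))
        (closedBall (Loc.D k c b (n0 + 1 + (jS + i)) t₁) (2 / 100 * dd k c t₁ b n0 (jS + i))) := by
      intro w hw
      rw [mem_closedBall, dist_eq_norm]
      have := S.na (jS + i) (by omega) w hw
      linarith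
    have hS := Complex.dist_le_div_mul_dist_of_mapsTo_ball
      ((LocQB.differentiable_D k c b (n0 + 1 + (jS + i))).differentiableOn) hmaps hz'
    rw [dist_eq_norm] at hS
    refine hS.trans ?_
    have hz4 : dist z (t₁ : ℂ) ≤ 4 / R := (mem_ball.1 hz).le
    have hinv : 1 / dr k c t₁ b n0 r0 (jS + i) ≤ 2 * 10 ^ 18 * dd k c t₁ b n0 (jS + i) / k := by
      rw [div_le_div_iff₀ hrpos hk0]
      rw [div_le_iff₀ (by positivity)] at hrad
      linarith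
    calc 2 / 100 * dd k c t₁ b n0 (jS + i) / dr k c t₁ b n0 r0 (jS + i) * dist z (t₁ : ℂ)
        = 2 / 100 * dd k c t₁ b n0 (jS + i) * (1 / dr k c t₁ b n0 r0 (jS + i)) *
            dist z (t₁ : ℂ) := by ring
      _ ≤ 2 / 100 * dd k c t₁ b n0 (jS + i) * (2 * 10 ^ 18 * dd k c t₁ b n0 (jS + i) / k) *
            (4 / R) := by gcongr
      _ = 16 / 100 * 10 ^ 18 * (dd k c t₁ b n0 (jS + i) ^ 2 / (R * k)) := by field_simp; ring
      _ ≤ 1 * 10 ^ 18 * (dd k c t₁ b n0 (jS + i) ^ 2 / (R * k)) := by gcongr; norm_num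
      _ = 10 ^ 18 * dd k c t₁ b n0 (jS + i) ^ 2 / (R * k) := by ring
  · obtain ⟨m, rfl⟩ : ∃ m, i = m + 1 := ⟨i - 1, by omega⟩
    have hz' : z ∈ ball (t₁ : ℂ) (dr k c t₁ b n0 r0 (jS + m + 1)) := ball_subset_ball h4 hz
    have h1 := S.prev (jS + m) (by omega) z hz'
    have hv := S.dig' m (by omega) (by omega)
    have hv0 : 0 < dv k c t₁ b n0 (jS + m) := lt_of_lt_of_le (by positivity) hv
    have e1 : n0 + (jS + (m + 1)) = n0 + 1 + (jS + m) := by omega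
    rw [e1]
    refine h1.trans ?_
    have hdJ' : 0 < dd k c t₁ b n0 (jS + m + 1) := hdJ
    calc 2 / dv k c t₁ b n0 (jS + m) * dd k c t₁ b n0 (jS + m + 1)
        ≤ 2 / (k / 10 ^ 4) * dd k c t₁ b n0 (jS + m + 1) := by gcongr
      _ = 2 * 10 ^ 4 * (dd k c t₁ b n0 (jS + m + 1) / k) := by field_simp
      _ ≤ 10 ^ 18 * (dd k c t₁ b n0 (jS + m + 1) / k) := by gcongr; norm_num
      _ = 10 ^ 18 * dd k c t₁ b n0 (jS + (m + 1)) / k := by rw [← add_assoc]; ring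
  · have hmu := LocQB.mu_quadratic k c b (t₁ := t₁) (σ := 4 / R) (by positivity) (n0 := n0)
      (J := jS + i) (r := fun j => dr k c t₁ b n0 r0 (j + 1))
      (fun j hj => ⟨by
        refine le_trans ?_ (h8.trans (dr_anti S (by omega : j + 1 ≤ jS + i) (by omega)))
        rw [show 2 * (4 / R) = 8 / R by ring], lt_of_lt_of_le hrpos
          (dr_anti S (by omega : j + 1 ≤ jS + i) (by omega))⟩)
      (fun j hj t ht => by
        have a1 := S.na j (by omega) t (ball_subset_ball (S.mono j (by omega)) ht)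
        have a2 := S.na (j + 1) (by omega) t ht
        have e1 : n0 + 2 + j = n0 + 1 + (j + 1) := by omega
        rw [e1]
        have b1 : 0 ≤ dd k c t₁ b n0 j := norm_nonneg _
        have b2 : 0 ≤ dd k c t₁ b n0 (j + 1) := norm_nonneg _
        refine ⟨a1.trans ?_, a2.trans ?_⟩
        · show 1 / 100 * dd k c t₁ b n0 j ≤ 1 / 10 * dd k c t₁ b n0 j
          linarith
        · show 1 / 100 * dd k c t₁ b n0 (j + 1) ≤ 1 / 10 * dd k c t₁ b n0 (j + 1)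
          linarith)
      (fun j hj => by
        have := S.pos j (by omega)
        unfold dd at this
        exact norm_pos_iff.1 this)
    obtain ⟨p0, p1, p2, hp⟩ := hmu
    refine ⟨p0, p1, p2, fun z hz => ?_⟩
    have hP : 0 ≤ 2 * Real.pi * k * R ^ 2 := by positivity
    refine (mul_le_mul_of_nonneg_left (hp z hz) hP).trans ?_
    have hsum := side_sum (k := k) (A := A) (ρ := ρ) (r0 := r0) (R := R)
      (b := dd k c t₁ b n0 (jS + i)) (σ := 4 / R) (d := fun j => dd k c t₁ b n0 j)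
      (v := fun j => dv k c t₁ b n0 j) (rr := fun j => dr k c t₁ b n0 r0 (j + 1))
      (jS := jS) (i := i) hk hA0 hA S.r0pos (hk1.trans hkR) hR0 rfl hR4 hi (by omega)
      (fun j hj => S.pos j (by omega)) (fun j hj => S.lo j (by omega)) S.dig
      (fun j h1 h2 => by
        obtain ⟨m, rfl⟩ : ∃ m, j = jS + m := ⟨j - jS, by omega⟩
        exact S.dig' m (by omega) (by omega))
      (fun j hj => rfl) S.h0 rfl
    refine le_trans (le_of_eq ?_) hsum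
    congr 1
    refine Finset.sum_congr rfl fun j hj => ?_
    have e1 : n0 + 2 + j = n0 + 1 + (j + 1) := by omega
    rw [e1]
    rfl

end side

/-- the assembly, slow side `s` -/
theorem assemble {k c t₁ ρ A δ : ℝ} {s : Bool} {n0 m0 jS lS : ℕ} {r0 r0' : ℝ}
    (hk : 10 ^ 130 ≤ k) (hA0 : 1 ≤ A) (hA : 10 ^ 60 * k ^ 2 * Real.sqrt k ≤ A ^ 5)
    (hρ : 0 < ρ) (hρ1 : ρ ≤ 1) (hJ : jS + 6 ≤ 240) (hJ' : lS + 6 ≤ 240)
    (S : SD k c t₁ ρ A δ s n0 jS r0) (S' : SD k c t₁ ρ A δ (!s) m0 lS r0')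
    {i j : ℕ} (hi : 3 ≤ i) (hi6 : i ≤ 6) (hj : 3 ≤ j) (hj6 : j ≤ 6)
    (h1 : dd k c t₁ s n0 (jS + i) ≤ dd k c t₁ (!s) m0 (lS + j))
    (h2 : dd k c t₁ (!s) m0 (lS + j) ≤ 4 * Real.sqrt k * dd k c t₁ s n0 (jS + i))
    (h3 : k ≤ dd k c t₁ s n0 (jS + i) * ρ)
    {a0 a1 a2 : ℝ} (old : ∀ z ∈ ball (t₁ : ℂ) (4 / dd k c t₁ s n0 (jS + i)),
      2 * Real.pi * k * dd k c t₁ s n0 (jS + i) ^ 2 *
        ‖Loc.cont k c s (n0 + 1) (m0 + 1) z - (a0 + a1 * (z - t₁) + a2 * (z - t₁) ^ 2)‖ ≤ 1 / 100) :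
    ∃ lam q0 q1 q2 : ℝ, |lam| ≤ 4 * Real.sqrt k ∧
      |lam| * dd k c t₁ s n0 (jS + i) = dd k c t₁ (!s) m0 (lS + j) ∧
      Loc.Cell3 k c s (n0 + (jS + i)) (m0 + (lS + j)) t₁ (dd k c t₁ s n0 (jS + i)) lam (10 ^ 18)
        q0 q1 q2 := by
  have hk0 : 0 < k := lt_of_lt_of_le (by positivity) hk
  have hk1 : 1 ≤ k := le_trans (by norm_num) hk
  have hpi := Real.pi_pos
  have hR0 : 0 < dd k c t₁ s n0 (jS + i) := S.pos _ (by omega)
  have hb0 : 0 < dd k c t₁ (!s) m0 (lS + j) := S'.pos _ (by omega)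
  have hsq1 : 1 ≤ Real.sqrt k := by rw [Real.one_le_sqrt]; exact hk1
  obtain ⟨d1, d2, p0, p1, p2, dp⟩ := side hk hA0 hA hρ hJ S hi hi6 hR0 le_rfl
    (by nlinarith) h3
  obtain ⟨f1, f2, g0, g1, g2, fp⟩ := side hk hA0 hA hρ hJ' S' hj hj6 hR0 h1 h2 h3
  -- the real values
  have hre : ∀ (b : Bool) (n : ℕ), Loc.D k c b n (t₁ : ℂ) = (((Loc.D k c b n (t₁ : ℂ)).re : ℝ) : ℂ) := by
    intro b n
    apply Complex.ext
    · simp
    · simpa using LocA.im_D k c b n t₁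
  have habs : ∀ (b : Bool) (n : ℕ), |(Loc.D k c b n (t₁ : ℂ)).re| = ‖Loc.D k c b n (t₁ : ℂ)‖ := by
    intro b n
    conv_rhs => rw [hre b n]
    rw [Complex.norm_real, Real.norm_eq_abs]
  set R : ℝ := dd k c t₁ s n0 (jS + i) with hR
  set B : ℝ := dd k c t₁ (!s) m0 (lS + j) with hB
  set x : ℝ := (Loc.D k c s (n0 + 1 + (jS + i)) (t₁ : ℂ)).re with hx
  set y : ℝ := (Loc.D k c (!s) (m0 + 1 + (lS + j)) (t₁ : ℂ)).re with hy
  have hxR : |x| = R := habs _ _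
  have hyB : |y| = B := habs _ _
  have en : n0 + (jS + i) + 1 = n0 + 1 + (jS + i) := by omega
  have em : m0 + (lS + j) + 1 = m0 + 1 + (lS + j) := by omega
  have hlamR : y / R * R = y := by field_simp
  have hlam : |y / R| = B / R := by rw [abs_div, hyB, abs_of_pos hR0]
  set K : ℝ := 2 * Real.pi * k * R ^ 2 with hK
  have hK0 : 0 < K := by positivity
  refine ⟨y / R, K * (a0 - p0 - g0), K * (a1 - p1 - g1) / R, K * (a2 - p2 - g2) / R ^ 2, ?_, ?_,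
    ?_⟩
  · rw [hlam, div_le_iff₀ hR0]; exact h2
  · rw [hlam]; field_simp
  · refine ⟨?_, ?_, ?_, ?_, ?_, ?_, ?_⟩
    · -- `1 ≤ R`
      by_contra hcon
      push Not at hcon
      have : R * ρ < 1 * 1 := by
        calc R * ρ ≤ R * 1 := by gcongr
          _ < 1 * 1 := by linarith
      linarith
    · rw [hlam, le_div_iff₀ hR0, one_mul]; exact h1
    · -- slow
      have hsg : ∃ σ : ℝ, (σ = 1 ∨ σ = -1) ∧ σ * R = x := by
        rcases le_or_gt 0 x with h | h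
        · exact ⟨1, Or.inl rfl, by rw [← hxR, abs_of_nonneg h, one_mul]⟩
        · exact ⟨-1, Or.inr rfl, by rw [← hxR, abs_of_neg h]; ring⟩
      obtain ⟨σ, hσ, hσx⟩ := hsg
      refine ⟨σ, hσ, fun z hz => ?_⟩
      rw [en, hσx, hx, ← hre]
      refine (d1 z hz).trans (le_of_eq ?_)
      field_simp
    · intro z hz
      exact d2 z hz
    · -- fast
      intro z hz
      rw [em, hlamR, hy, ← hre]
      refine (f1 z hz).trans (le_of_eq ?_)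
      rw [hlam]
      field_simp
    · intro z hz
      refine (f2 z hz).trans (le_of_eq ?_)
      rw [hlam]
      field_simp
    · -- the content
      intro z hz
      have o1 := old z hz
      have o2 := dp z hz
      have o3 := fp z hz
      rw [en, em]
      have hRne : (R : ℂ) ≠ 0 := by exact_mod_cast hR0.ne'
      have key : ((2 * Real.pi * k * R ^ 2 : ℝ) : ℂ) * Loc.cont k c s (n0 + 1 + (jS + i))
            (m0 + 1 + (lS + j)) z -
          (((K * (a0 - p0 - g0) : ℝ) : ℂ) + ((K * (a1 - p1 - g1) / R : ℝ) : ℂ) * ((R : ℂ) * (z - t₁)) +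
            ((K * (a2 - p2 - g2) / R ^ 2 : ℝ) : ℂ) * ((R : ℂ) * (z - t₁)) ^ 2) =
          (K : ℂ) * (Loc.cont k c s (n0 + 1) (m0 + 1) z -
            (a0 + a1 * (z - t₁) + a2 * (z - t₁) ^ 2)) -
          (K : ℂ) * (Loc.mu k c s (n0 + 1 + (jS + i)) z - Loc.mu k c s (n0 + 1) z -
            (p0 + p1 * (z - t₁) + p2 * (z - t₁) ^ 2)) -
          (K : ℂ) * (Loc.mu k c (!s) (m0 + 1 + (lS + j)) z - Loc.mu k c (!s) (m0 + 1) z -
            (g0 + g1 * (z - t₁) + g2 * (z - t₁) ^ 2)) := by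
        rw [← hK]
        unfold Loc.cont
        push_cast
        field_simp
        ring
      rw [key]
      have nK : ∀ w : ℂ, ‖(K : ℂ) * w‖ = K * ‖w‖ := fun w => by
        rw [norm_mul, Complex.norm_real, Real.norm_eq_abs, abs_of_pos hK0]
      calc _ ≤ ‖(K : ℂ) * (Loc.cont k c s (n0 + 1) (m0 + 1) z -
            (a0 + a1 * (z - t₁) + a2 * (z - t₁) ^ 2))‖ +
          ‖(K : ℂ) * (Loc.mu k c s (n0 + 1 + (jS + i)) z - Loc.mu k c s (n0 + 1) z -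
            (p0 + p1 * (z - t₁) + p2 * (z - t₁) ^ 2))‖ +
          ‖(K : ℂ) * (Loc.mu k c (!s) (m0 + 1 + (lS + j)) z - Loc.mu k c (!s) (m0 + 1) z -
            (g0 + g1 * (z - t₁) + g2 * (z - t₁) ^ 2))‖ :=
            (norm_sub_le _ _).trans (add_le_add_left (norm_sub_le _ _) _)
        _ ≤ 1 / 100 + 1 / 100 + 1 / 100 := by
            rw [nK, nK, nK]
            exact add_le_add (add_le_add o1 o2) o3
        _ ≤ 1 / 16 := by norm_num

theorem dr_eq (k c t₁ : ℝ) (b : Bool) (n0 : ℕ) (r0 : ℝ) (j : ℕ) :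
    rad k (Loc.Y k c b) (Ds k c b) n0 r0 t₁ j = dr k c t₁ b n0 r0 j := by
  unfold dr
  cases j with
  | zero => rfl
  | succ j => simp only [rad, norm_Ds]

/-- 595's `SideOK` gives the data `SD` -/
theorem sd_of_ok {k c t₁ ρ A δ r0 : ℝ} {b : Bool} {n0 jS : ℕ} (N : NumB k A δ ρ)
    (S : SideOK k c b n0 jS r0 ρ δ A t₁) : SD k c t₁ ρ A δ b n0 jS r0 := by
  obtain ⟨c1, c2⟩ := S.chain' N
  have hA2 : 2 ≤ A := le_trans (by norm_num) N.A_pos
  have hdig : ∀ j < jS + 6, A ≤ vv k (Loc.Y k c b) (n0 + 1 + j) t₁ := S.start.dig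
  refine ⟨fun j hj t ht => ?_, fun j hj => ?_, S.start.pos, fun j hj => ?_, fun j hj => ?_,
    fun j hj => ?_, fun j hj t ht => ?_, fun j hj => hdig j (by omega), S.mac, ?_, ?_, ?_, ?_⟩
  · have h1 := (c1 j hj).1.close t (by rw [dr_eq]; exact ht)
    have e : n0 + j + 1 = n0 + 1 + j := by omega
    rw [e, norm_Ds_sub, norm_Ds] at h1
    exact h1
  · have h1 := (c1 j hj).2.1
    rw [norm_Ds] at h1
    exact h1
  · have h1 := (c2 j hj).1
    rw [dr_eq, dr_eq] at h1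
    exact h1
  · have h1 := (c2 j hj).2.1
    rw [norm_Ds, norm_Ds] at h1
    refine le_trans ?_ h1
    have h2 := hdig j hj
    show vv k (Loc.Y k c b) (n0 + 1 + j) t₁ / 2 * ‖Loc.D k c b (n0 + 1 + j) (t₁ : ℂ)‖ ≤ _
    exact mul_le_mul_of_nonneg_right (by linarith) (norm_nonneg _)
  · have h1 := (c2 j hj).2.2.1
    rw [norm_Ds, norm_Ds] at h1
    exact h1
  · have h1 := (c2 j hj).2.2.2 t (by rw [dr_eq]; exact ht)
    rw [norm_Ds, norm_Ds] at h1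
    exact h1
  · have h1 := S.old
    rw [norm_Ds] at h1
    exact h1
  · have h1 := S.start.small
    rw [norm_Ds] at h1
    exact h1
  · have h1 := S.lo
    rw [norm_Ds] at h1
    exact h1
  · have h1 := S.hi
    rw [norm_Ds] at h1
    exact h1

/-- **two good sides and a quadratic old content give a cell** -/
theorem cell3_sd {k c t₁ ρ A δ : ℝ} {n0 jS : Bool → ℕ} {r0 : Bool → ℝ} (N : NumB k A δ ρ)
    (hρ1 : ρ ≤ 1) (hJ : ∀ b, jS b + 6 ≤ 240)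
    (S : ∀ b, SD k c t₁ ρ A δ b (n0 b) (jS b) (r0 b)) {a0 a1 a2 : ℝ}
    (old : ∀ z ∈ ball (t₁ : ℂ) (4 * ρ / k), 2 * Real.pi * k * (k ^ 8 / ρ) ^ 2 *
      ‖Loc.cont k c true (n0 true + 1) (n0 false + 1) z -
        (a0 + a1 * (z - t₁) + a2 * (z - t₁) ^ 2)‖ ≤ 1 / 100) :
    ∃ (s : Bool) (i j : ℕ) (lam q0 q1 q2 : ℝ), 3 ≤ i ∧ i ≤ 6 ∧ 3 ≤ j ∧ j ≤ 6 ∧
      k ≤ ‖Loc.D k c s (n0 s + 1 + (jS s + i)) t₁‖ * ρ ∧
      ‖Loc.D k c s (n0 s + 1 + (jS s + i)) t₁‖ * ρ ≤ k ^ 8 ∧ |lam| ≤ 4 * Real.sqrt k ∧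
      |lam| * ‖Loc.D k c s (n0 s + 1 + (jS s + i)) t₁‖ =
        ‖Loc.D k c (!s) (n0 (!s) + 1 + (jS (!s) + j)) t₁‖ ∧
      Loc.Cell3 k c s (n0 s + (jS s + i)) (n0 (!s) + (jS (!s) + j)) t₁
        ‖Loc.D k c s (n0 s + 1 + (jS s + i)) t₁‖ lam (10 ^ 18) q0 q1 q2 := by
  have hk := N.k_large
  have hk0 : 0 < k := lt_of_lt_of_le (by positivity) hk
  have hk1 : 1 ≤ k := le_trans (by norm_num) hk
  have hρ := N.ρ_pos
  have hA0 : 1 ≤ A := le_trans (by norm_num) N.A_pos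
  have hpi := Real.pi_pos
  have h1 : ∀ b, A / 2 * dd k c t₁ b (n0 b) (jS b + 0) ≤ dd k c t₁ b (n0 b) (jS b + 1) := by
    intro b
    refine le_trans ?_ ((S b).lo (jS b) (by omega))
    exact mul_le_mul_of_nonneg_right (by linarith [(S b).dig (jS b) le_rfl]) (norm_nonneg _)
  have h2 : ∀ b, ∀ j, 1 ≤ j → j ≤ 5 →
      k / 10 ^ 5 * dd k c t₁ b (n0 b) (jS b + j) ≤ dd k c t₁ b (n0 b) (jS b + (j + 1)) := by
    intro b j hj1 hj5
    refine le_trans ?_ ((S b).lo (jS b + j) (by omega))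
    have := (S b).dig' j hj1 hj5
    refine mul_le_mul_of_nonneg_right ?_ (norm_nonneg _)
    have e : k / 10 ^ 5 = k / 10 ^ 4 / 10 := by ring
    rw [e]
    have : 0 < k / 10 ^ 4 := by positivity
    linarith
  have h3 : ∀ b, ∀ j ≤ 5,
      dd k c t₁ b (n0 b) (jS b + (j + 1)) ≤ 11 * k * dd k c t₁ b (n0 b) (jS b + j) := by
    intro b j hj
    refine ((S b).up (jS b + j) (by omega)).trans ?_
    refine mul_le_mul_of_nonneg_right ?_ (norm_nonneg _)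
    linarith [dv_le hk1 c t₁ b (n0 b) (jS b + j)]
  obtain ⟨i, j, hi, hi6, hj, hj6, hor, hka, hkb, hka8, hkb8⟩ := LocSel.select_k (k := k) (A := A)
    (δ := δ) (ρ := ρ) (a := fun j => dd k c t₁ true (n0 true) (jS true + j))
    (b := fun j => dd k c t₁ false (n0 false) (jS false + j))
    (le_trans (by norm_num) hk) N.A2 (le_trans (by norm_num) N.A_pos) N.δ_pos N.δ_le N.Aδ hρ
    (S true).ex1 (S true).ex2 (S false).ex1 (S false).ex2 (h1 true) (h1 false) (h2 true) (h2 false)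
    (h3 true) (h3 false)
  -- the old content on the smaller ball
  have hold : ∀ R : ℝ, k ≤ R * ρ → R * ρ ≤ k ^ 8 → ∀ z ∈ ball (t₁ : ℂ) (4 / R),
      2 * Real.pi * k * R ^ 2 * ‖Loc.cont k c true (n0 true + 1) (n0 false + 1) z -
        (a0 + a1 * (z - t₁) + a2 * (z - t₁) ^ 2)‖ ≤ 1 / 100 := by
    intro R hR1 hR2 z hz
    have hR0 : 0 < R := by
      by_contra hcon
      push Not at hcon
      nlinarith
    have hz' : z ∈ ball (t₁ : ℂ) (4 * ρ / k) := by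
      refine ball_subset_ball ?_ hz
      rw [div_le_div_iff₀ hR0 hk0]
      nlinarith
    refine le_trans ?_ (old z hz')
    refine mul_le_mul_of_nonneg_right ?_ (norm_nonneg _)
    have hRk : R ≤ k ^ 8 / ρ := by rw [le_div_iff₀ hρ]; exact hR2
    have : R ^ 2 ≤ (k ^ 8 / ρ) ^ 2 := pow_le_pow_left₀ hR0.le hRk 2
    exact mul_le_mul_of_nonneg_left this (by positivity)
  rcases hor with ⟨o1, o2⟩ | ⟨o1, o2⟩
  · obtain ⟨lam, q0, q1, q2, l1, l2, l3⟩ := assemble (s := true) hk hA0 N.A5 hρ hρ1 (hJ true)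
      (hJ false) (S true) (S false) hi hi6 hj hj6 o1 o2 hka (hold _ hka hka8)
    exact ⟨true, i, j, lam, q0, q1, q2, hi, hi6, hj, hj6, hka, hka8, l1, l2, l3⟩
  · have hcont : ∀ z : ℂ, Loc.cont k c false (n0 false + 1) (n0 true + 1) z =
        Loc.cont k c true (n0 true + 1) (n0 false + 1) z := by
      intro z
      unfold Loc.cont
      simp only [Bool.not_false, Bool.not_true]
      ring
    obtain ⟨lam, q0, q1, q2, l1, l2, l3⟩ := assemble (s := false) hk hA0 N.A5 hρ hρ1 (hJ false)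
      (hJ true) (S false) (S true) hj hj6 hi hi6 o1 o2 hkb (a0 := a0) (a1 := a1) (a2 := a2)
      (fun z hz => by rw [hcont]; exact hold _ hkb hkb8 z hz)
    exact ⟨false, j, i, lam, q0, q1, q2, hj, hj6, hi, hi6, hkb, hkb8, l1, l2, l3⟩

/-- the same with 595's `SideOK` -/
theorem cell3 {k c t₁ ρ A δ : ℝ} {n0 jS : Bool → ℕ} {r0 : Bool → ℝ} (N : NumB k A δ ρ)
    (hρ1 : ρ ≤ 1) (S : ∀ b, SideOK k c b (n0 b) (jS b) (r0 b) ρ δ A t₁) {a0 a1 a2 : ℝ}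
    (old : ∀ z ∈ ball (t₁ : ℂ) (4 * ρ / k), 2 * Real.pi * k * (k ^ 8 / ρ) ^ 2 *
      ‖Loc.cont k c true (n0 true + 1) (n0 false + 1) z -
        (a0 + a1 * (z - t₁) + a2 * (z - t₁) ^ 2)‖ ≤ 1 / 100) :
    ∃ (s : Bool) (i j : ℕ) (lam q0 q1 q2 : ℝ), 3 ≤ i ∧ i ≤ 6 ∧ 3 ≤ j ∧ j ≤ 6 ∧
      k ≤ ‖Loc.D k c s (n0 s + 1 + (jS s + i)) t₁‖ * ρ ∧
      ‖Loc.D k c s (n0 s + 1 + (jS s + i)) t₁‖ * ρ ≤ k ^ 8 ∧ |lam| ≤ 4 * Real.sqrt k ∧
      |lam| * ‖Loc.D k c s (n0 s + 1 + (jS s + i)) t₁‖ =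
        ‖Loc.D k c (!s) (n0 (!s) + 1 + (jS (!s) + j)) t₁‖ ∧
      Loc.Cell3 k c s (n0 s + (jS s + i)) (n0 (!s) + (jS (!s) + j)) t₁
        ‖Loc.D k c s (n0 s + 1 + (jS s + i)) t₁‖ lam (10 ^ 18) q0 q1 q2 :=
  cell3_sd N hρ1 (fun b => (S b).len.trans (by norm_num)) (fun b => sd_of_ok N (S b)) old

end Crest.Agent.R128.LocA2X
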