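import Crest.Agent.R128.LocA2
import Crest.Agent.R128.LocQB

/-!
# LocA, `Loc.Cell3` at a good centre (row 128, helper595)
-/

set_option autoImplicit false

open MeasureTheory Metric Set
open Crest.Agent.R128 Crest.Agent.R128.Cell Crest.Agent.R128.CellB

namespace Crest.Agent.R128.LocA

/-- numerical sum over the digits of one side (`LocNum.side_sum`) -/
def SideSum : Prop :=
  ∀ (k A ρ r0 R b σ : ℝ) (d v rr : ℕ → ℝ) (jS i : ℕ), 10 ^ 130 ≤ k → 1 ≤ A →
    10 ^ 60 * k ^ 2 * Real.sqrt k ≤ A ^ 5 → 0 < ρ → 0 < r0 → 1 ≤ R * ρ → 0 < R →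
    b = d (jS + i) → b ≤ 4 * Real.sqrt k * R → 3 ≤ i → i ≤ 6 → jS + i ≤ 100 →
    (∀ j ≤ jS + i, 0 < d j) → (∀ j < jS + i, v j / 2 * d j ≤ d (j + 1)) →
    (∀ j ≤ jS, A ≤ v j) → (∀ j, jS < j → j < jS + i → k / 10 ^ 4 ≤ v j) →
    (∀ j < jS + i, rr j = min r0 (1 / 10 ^ 10 * v j / (k * d j))) →
    10 ^ 9 * k * (d 0 * ρ) ≤ (d 0 * r0) ^ 3 → σ = 4 / R →
    2 * Real.pi * k * R ^ 2 *
      ∑ j ∈ Finset.range (jS + i), 20 / (d j * d (j + 1)) * (σ / rr j) ^ 3 ≤ 1 / 100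

variable {k c : ℝ} {s : Bool} {n0 jS : ℕ} {r0 ρ δ A t₁ : ℝ}

/-- the new content of one side is quadratic -/
theorem SideOK.quad (hSS : SideSum) (N : NumB k A δ ρ) (S : SideOK k c s n0 jS r0 ρ δ A t₁)
    {i : ℕ} (hi3 : 3 ≤ i) (hi6 : i ≤ 6) {R : ℝ} (hR0 : 0 < R) (hR : 1 ≤ R * ρ)
    (hbR : R ≤ ‖Ds k c s (n0 + 1 + (jS + i)) t₁‖)
    (hb : ‖Ds k c s (n0 + 1 + (jS + i)) t₁‖ ≤ 4 * Real.sqrt k * R) :
    ∃ q0 q1 q2 : ℝ, ∀ t ∈ ball (t₁ : ℂ) (4 / R),
      2 * Real.pi * k * R ^ 2 * ‖Loc.mu k c s (n0 + 1 + (jS + i)) t - Loc.mu k c s (n0 + 1) t -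
        (q0 + q1 * (t - t₁) + q2 * (t - t₁) ^ 2)‖ ≤ 1 / 100 := by
  obtain ⟨c1, c2⟩ := S.chain' N
  have hk := N.k_large
  have hk0 : 0 < k := by linarith
  have hρ := N.ρ_pos
  set b := ‖Ds k c s (n0 + 1 + (jS + i)) t₁‖ with hbd
  have hb0 : 0 < b := (c1 (jS + i) (by omega)).2.1
  have hbρ : 1 ≤ b * ρ := hR.trans (by gcongr)
  have hrad := S.rad_ge N (i := i) (by omega) hi6 hbρ
  rw [← hbd] at hrad
  set rr : ℕ → ℝ := fun j => rad k (Loc.Y k c s) (Ds k c s) n0 r0 t₁ (j + 1) with hrr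
  -- radii are decreasing
  have hanti : ∀ m, ∀ j, j + m = jS + i → rad k (Loc.Y k c s) (Ds k c s) n0 r0 t₁ (jS + i) ≤
      rad k (Loc.Y k c s) (Ds k c s) n0 r0 t₁ j := by
    intro m
    induction m with
    | zero => intro j hj; have : j = jS + i := by omega
              rw [this]
    | succ m ih =>
      intro j hj
      exact (ih (j + 1) (by omega)).trans (c2 j (by omega)).1
  have hsq : Real.sqrt k * Real.sqrt k = k := Real.mul_self_sqrt hk0.le
  have hsq0 : 0 < Real.sqrt k := Real.sqrt_pos.mpr hk0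
  have hsqL : 10 ^ 60 ≤ Real.sqrt k := by
    rw [show (10 : ℝ) ^ 60 = Real.sqrt ((10 ^ 60) ^ 2) by
      rw [Real.sqrt_sq (by positivity)]]
    apply Real.sqrt_le_sqrt
    norm_num at hk ⊢
    linarith
  have h8 : 2 * (4 / R) ≤ k / (10 ^ 19 * b) := by
    rw [mul_div_assoc', div_le_div_iff₀ hR0 (by positivity)]
    calc 2 * 4 * (10 ^ 19 * b) ≤ 2 * 4 * (10 ^ 19 * (4 * Real.sqrt k * R)) := by gcongr
      _ = (32 * 10 ^ 19) * (Real.sqrt k * R) := by ring
      _ ≤ Real.sqrt k * (Real.sqrt k * R) := by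
          gcongr
          norm_num at hsqL ⊢
          linarith
      _ = k * R := by rw [← mul_assoc, hsq]
  have hq := LocQB.mu_quadratic k c s (t₁ := t₁) (σ := 4 / R) (by positivity) (n0 := n0)
    (J := jS + i) (r := rr) (fun j hj => by
      have h1 := hanti (jS + i - (j + 1)) (j + 1) (by omega)
      have h2 := (c1 (j + 1) (by omega)).2.2
      exact ⟨(h8.trans hrad).trans h1, h2⟩) (fun j hj t ht => by
      have ha := (c1 j (by omega)).1
      have hb' := (c1 (j + 1) (by omega)).1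
      have hm := (c2 j (by omega)).1
      have e1 : n0 + j + 1 = n0 + 1 + j := by omega
      have e2 : n0 + (j + 1) + 1 = n0 + 2 + j := by omega
      have h1 := ha.close t (ball_subset_ball hm ht)
      have h2 := hb'.close t ht
      rw [e1] at h1
      rw [e2] at h2
      rw [norm_Ds_sub, norm_Ds] at h1 h2
      constructor
      · refine h1.trans ?_
        gcongr
        norm_num
      · refine h2.trans ?_
        gcongr
        norm_num) (fun j hj => by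
      have := (c1 j (by omega)).2.1
      rw [norm_Ds] at this
      exact norm_pos_iff.mp this)
  obtain ⟨q0, q1, q2, hq⟩ := hq
  refine ⟨q0, q1, q2, fun t ht => ?_⟩
  have hsum := hSS k A ρ r0 R b (4 / R) (fun j => ‖Ds k c s (n0 + 1 + j) t₁‖)
    (fun j => vv k (Loc.Y k c s) (n0 + 1 + j) t₁) rr jS i hk (by linarith [N.A_pos]) N.A5 hρ
    S.start.pos hR hR0 rfl hb hi3 hi6 (by have := S.len; omega)
    (fun j hj => (c1 j (by omega)).2.1) (fun j hj => by
      refine le_trans ?_ (c2 j (by omega)).2.1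
      have hv := S.start.dig j (by omega)
      have hA := N.A_pos
      gcongr
      linarith) (fun j hj => S.start.dig j (by omega)) (fun j hj1 hj2 => by
      have := S.mac (j - jS) (by omega) (by omega)
      have e : jS + (j - jS) = j := by omega
      rwa [e] at this) (fun j hj => rfl) (by simpa using S.old) rfl
  refine le_trans ?_ hsum
  have hq' := hq t ht
  refine mul_le_mul_of_nonneg_left (hq'.trans (le_of_eq ?_)) (by positivity)
  refine Finset.sum_congr rfl (fun j _ => ?_)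
  have e : n0 + 2 + j = n0 + 1 + (j + 1) := by omega
  simp only [norm_Ds, e]

/-- the constant of the cells -/
noncomputable def CC : ℝ := 10 ^ 19

theorem D_eq_ofReal (k c : ℝ) (s : Bool) (n : ℕ) (x : ℝ) :
    Loc.D k c s n (x : ℂ) = (((Loc.D k c s n (x : ℂ)).re : ℝ) : ℂ) := by
  apply Complex.ext
  · simp
  · simp [im_D]

set_option maxHeartbeats 1600000 in
/-- **`Cell3` at a good centre**, slow side `s` with index `i`, fast side `!s` with index `j` -/
theorem cell3 (hSS : SideSum) (N : NumB k A δ ρ) (hρ1 : ρ ≤ 1) {n0 jS : Bool → ℕ} {r0 : Bool → ℝ}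
    (S : ∀ s, SideOK k c s (n0 s) (jS s) (r0 s) ρ δ A t₁) {ε : ℝ}
    (old : ∃ p0 p1 p2 : ℝ, ∀ z ∈ ball (t₁ : ℂ) (4 * ρ / k),
      ‖Loc.cont k c true (n0 true + 1) (n0 false + 1) z -
        (p0 + p1 * (z - t₁) + p2 * (z - t₁) ^ 2)‖ ≤ ε)
    (hε : 10 ^ 3 * k ^ 17 * ε ≤ ρ ^ 2) (s : Bool) {i j : ℕ} (hi3 : 3 ≤ i) (hi6 : i ≤ 6) (hj3 : 3 ≤ j)
    (hj6 : j ≤ 6)
    (hab : ‖Ds k c s (n0 s + 1 + (jS s + i)) t₁‖ ≤ ‖Ds k c (!s) (n0 (!s) + 1 + (jS (!s) + j)) t₁‖)
    (hba : ‖Ds k c (!s) (n0 (!s) + 1 + (jS (!s) + j)) t₁‖ ≤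
      4 * Real.sqrt k * ‖Ds k c s (n0 s + 1 + (jS s + i)) t₁‖)
    (hlo : k ≤ ‖Ds k c s (n0 s + 1 + (jS s + i)) t₁‖ * ρ)
    (hhi : ‖Ds k c s (n0 s + 1 + (jS s + i)) t₁‖ * ρ ≤ k ^ 8) :
    ∃ lam q0 q1 q2 : ℝ, |lam| ≤ CC * Real.sqrt k ∧
      Loc.Cell3 k c s (n0 s + (jS s + i)) (n0 (!s) + (jS (!s) + j)) t₁
        ‖Ds k c s (n0 s + 1 + (jS s + i)) t₁‖ lam CC q0 q1 q2 := by
  have hk := N.k_large
  have hk0 : 0 < k := by linarith
  have hρ := N.ρ_pos
  have hsq : Real.sqrt k * Real.sqrt k = k := Real.mul_self_sqrt hk0.le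
  have hsq0 : 0 < Real.sqrt k := Real.sqrt_pos.mpr hk0
  have hsqL : 10 ^ 60 ≤ Real.sqrt k := by
    rw [show (10 : ℝ) ^ 60 = Real.sqrt ((10 ^ 60) ^ 2) by
      rw [Real.sqrt_sq (by positivity)]]
    apply Real.sqrt_le_sqrt
    norm_num at hk ⊢
    linarith
  set R := ‖Ds k c s (n0 s + 1 + (jS s + i)) t₁‖ with hRd
  set b := ‖Ds k c (!s) (n0 (!s) + 1 + (jS (!s) + j)) t₁‖ with hbd
  have hR0 : 0 < R := (((S s).chain' N).1 (jS s + i) (by omega)).2.1
  have hb0 : 0 < b := lt_of_lt_of_le hR0 hab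
  have hRρ : 1 ≤ R * ρ := by linarith
  have hbρ : 1 ≤ b * ρ := hRρ.trans (by gcongr)
  have hR1 : 1 ≤ R := by nlinarith
  -- the real numbers
  set x := (Loc.D k c s (n0 s + 1 + (jS s + i)) (t₁ : ℂ)).re with hx
  set y := (Loc.D k c (!s) (n0 (!s) + 1 + (jS (!s) + j)) (t₁ : ℂ)).re with hy
  have hxe : Loc.D k c s (n0 s + 1 + (jS s + i)) (t₁ : ℂ) = (x : ℂ) := D_eq_ofReal _ _ _ _ _
  have hye : Loc.D k c (!s) (n0 (!s) + 1 + (jS (!s) + j)) (t₁ : ℂ) = (y : ℂ) :=
    D_eq_ofReal _ _ _ _ _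
  have hxR : |x| = R := by
    rw [hRd, norm_Ds, hxe, Complex.norm_real, Real.norm_eq_abs]
  have hyb : |y| = b := by
    rw [hbd, norm_Ds, hye, Complex.norm_real, Real.norm_eq_abs]
  have h4R : 4 / R ≤ k / (10 ^ 19 * R) := by
    rw [div_le_div_iff₀ hR0 (by positivity)]
    have : 4 * 10 ^ 19 ≤ k := by norm_num at hk ⊢; linarith
    calc 4 * (10 ^ 19 * R) = (4 * 10 ^ 19) * R := by ring
      _ ≤ k * R := by gcongr
  have h4b : 4 / R ≤ k / (10 ^ 19 * b) := by
    rw [div_le_div_iff₀ hR0 (by positivity)]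
    calc 4 * (10 ^ 19 * b) ≤ 4 * (10 ^ 19 * (4 * Real.sqrt k * R)) := by gcongr
      _ = (16 * 10 ^ 19) * (Real.sqrt k * R) := by ring
      _ ≤ Real.sqrt k * (Real.sqrt k * R) := by
          gcongr
          norm_num at hsqL ⊢
          linarith
      _ = k * R := by rw [← mul_assoc, hsq]
  have ei : n0 s + (jS s + i) + 1 = n0 s + 1 + (jS s + i) := by omega
  have ej : n0 (!s) + (jS (!s) + j) + 1 = n0 (!s) + 1 + (jS (!s) + j) := by omega
  -- contents
  obtain ⟨a0, a1, a2, hqa⟩ := (S s).quad hSS N hi3 hi6 hR0 hRρ le_rfl (by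
    rw [← hRd]
    have : 1 * R ≤ 4 * Real.sqrt k * R := by gcongr; norm_num at hsqL ⊢; linarith
    linarith)
  obtain ⟨b0, b1, b2, hqb⟩ := (S (!s)).quad hSS N hj3 hj6 hR0 hRρ hab hba
  obtain ⟨p0, p1, p2, hp⟩ := old
  refine ⟨y / R, 2 * Real.pi * k * R ^ 2 * (p0 - a0 - b0), 2 * Real.pi * k * R * (p1 - a1 - b1),
    2 * Real.pi * k * (p2 - a2 - b2), ?_, ?_⟩
  · rw [abs_div, hyb, abs_of_pos hR0, div_le_iff₀ hR0]
    refine hba.trans ?_
    have : (4 : ℝ) ≤ CC := by unfold CC; norm_num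
    gcongr
  · refine ⟨hR1, ?_, ?_, ?_, ?_, ?_, ?_⟩
    · rw [abs_div, hyb, abs_of_pos hR0, one_le_div hR0]; exact hab
    · refine ⟨if 0 ≤ x then 1 else -1, ?_, fun z hz => ?_⟩
      · split_ifs
        · left; rfl
        · right; rfl
      · have hxs : (((if 0 ≤ x then 1 else -1 : ℝ)) * R : ℝ) = x := by
          split_ifs with h
          · rw [one_mul, ← hxR, abs_of_nonneg h]
          · rw [← hxR, abs_of_neg (not_le.mp h)]; ring
        rw [hxs, ei, ← hxe]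
        have hz' : ‖z - t₁‖ < 4 / R := by rw [← dist_eq_norm]; exact mem_ball.mp hz
        have h1 := ((S s).exit N (by omega) hi6 hRρ (lt_of_lt_of_le hz' h4R)).1
        rw [norm_Ds_sub, ← hRd] at h1
        refine h1.trans ?_
        calc 10 ^ 17 * R ^ 2 / k * ‖z - t₁‖ ≤ 10 ^ 17 * R ^ 2 / k * (4 / R) := by gcongr
          _ = 4 * 10 ^ 17 * R / k := by field_simp
          _ ≤ CC * R / k := by
              have : (4 * 10 ^ 17 : ℝ) ≤ CC := by unfold CC; norm_num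
              gcongr
    · intro z hz
      have hz' : ‖z - t₁‖ < 4 / R := by rw [← dist_eq_norm]; exact mem_ball.mp hz
      have h1 := ((S s).exit N (by omega) hi6 hRρ (lt_of_lt_of_le hz' h4R)).2
      rw [norm_Ds, ← hRd] at h1
      refine h1.trans ?_
      have : (10 ^ 5 : ℝ) ≤ CC := by unfold CC; norm_num
      gcongr
    · intro z hz
      have hz' : ‖z - t₁‖ < 4 / R := by rw [← dist_eq_norm]; exact mem_ball.mp hz
      have h1 := ((S (!s)).exit N (by omega) hj6 hbρ (lt_of_lt_of_le hz' h4b)).1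
      rw [norm_Ds_sub, ← hbd] at h1
      have hyl : ((y / R * R : ℝ)) = y := by field_simp
      rw [hyl, ej, ← hye]
      refine h1.trans ?_
      have hl : |y / R| ^ 2 = b ^ 2 / R ^ 2 := by rw [abs_div, hyb, abs_of_pos hR0, div_pow]
      rw [hl]
      calc 10 ^ 17 * b ^ 2 / k * ‖z - t₁‖ ≤ 10 ^ 17 * b ^ 2 / k * (4 / R) := by gcongr
        _ = 4 * 10 ^ 17 * (b ^ 2 / R ^ 2) * R / k := by field_simp
        _ ≤ CC * (b ^ 2 / R ^ 2) * R / k := by
            have : (4 * 10 ^ 17 : ℝ) ≤ CC := by unfold CC; norm_num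
            gcongr
    · intro z hz
      have hz' : ‖z - t₁‖ < 4 / R := by rw [← dist_eq_norm]; exact mem_ball.mp hz
      have h1 := ((S (!s)).exit N (by omega) hj6 hbρ (lt_of_lt_of_le hz' h4b)).2
      rw [norm_Ds, ← hbd] at h1
      have hl : |y / R| = b / R := by rw [abs_div, hyb, abs_of_pos hR0]
      rw [hl]
      refine h1.trans ?_
      have h2 : CC * (b / R) * R / k = CC * b / k := by field_simp
      rw [h2]
      have : (10 ^ 5 : ℝ) ≤ CC := by unfold CC; norm_num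
      gcongr
    · intro z hz
      have h1 := hqa z hz
      have h2 := hqb z hz
      have h3 := hp z (ball_subset_ball (by
        rw [div_le_div_iff₀ hR0 hk0]
        nlinarith) hz)
      rw [ei, ej]
      set W : ℝ := 2 * Real.pi * k * R ^ 2 with hW
      have hW0 : 0 ≤ W := by positivity
      have hWε : W * ε ≤ 1 / 100 := by
        have hε0 : 0 ≤ ε := le_trans (norm_nonneg _) h3
        have h5 : (R * ρ) ^ 2 ≤ (k ^ 8) ^ 2 := by gcongr
        have h6 : W * ε * ρ ^ 2 ≤ 2 * 3.15 * k ^ 17 * ε := by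
          calc W * ε * ρ ^ 2 = 2 * Real.pi * k * (R * ρ) ^ 2 * ε := by rw [hW]; ring
            _ ≤ 2 * 3.15 * k * (k ^ 8) ^ 2 * ε := by
                have := Real.pi_lt_d2
                gcongr
            _ = 2 * 3.15 * k ^ 17 * ε := by ring
        have h7 : W * ε * ρ ^ 2 ≤ 1 / 100 * ρ ^ 2 := by
          refine h6.trans ?_
          nlinarith
        exact le_of_mul_le_mul_right h7 (by positivity)
      have hcont : Loc.cont k c s (n0 s + 1) (n0 (!s) + 1) z =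
          Loc.cont k c true (n0 true + 1) (n0 false + 1) z := by
        cases s with
        | true => rfl
        | false =>
          simp only [Loc.cont, Bool.not_false, Bool.not_true]
          ring
      have hdec : (W : ℂ) * Loc.cont k c s (n0 s + 1 + (jS s + i))
          (n0 (!s) + 1 + (jS (!s) + j)) z -
          (((2 * Real.pi * k * R ^ 2 * (p0 - a0 - b0) : ℝ) : ℂ) +
            ((2 * Real.pi * k * R * (p1 - a1 - b1) : ℝ) : ℂ) * ((R : ℂ) * (z - t₁)) +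
            ((2 * Real.pi * k * (p2 - a2 - b2) : ℝ) : ℂ) * ((R : ℂ) * (z - t₁)) ^ 2) =
          (W : ℂ) * ((Loc.cont k c true (n0 true + 1) (n0 false + 1) z -
            (p0 + p1 * (z - t₁) + p2 * (z - t₁) ^ 2)) -
            (Loc.mu k c s (n0 s + 1 + (jS s + i)) z - Loc.mu k c s (n0 s + 1) z -
              (a0 + a1 * (z - t₁) + a2 * (z - t₁) ^ 2)) -
            (Loc.mu k c (!s) (n0 (!s) + 1 + (jS (!s) + j)) z - Loc.mu k c (!s) (n0 (!s) + 1) z -
              (b0 + b1 * (z - t₁) + b2 * (z - t₁) ^ 2))) := by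
        rw [← hcont, hW]
        simp only [Loc.cont]
        push_cast
        ring
      have hgoal : ‖(W : ℂ) * Loc.cont k c s (n0 s + 1 + (jS s + i))
          (n0 (!s) + 1 + (jS (!s) + j)) z -
          (((2 * Real.pi * k * R ^ 2 * (p0 - a0 - b0) : ℝ) : ℂ) +
            ((2 * Real.pi * k * R * (p1 - a1 - b1) : ℝ) : ℂ) * ((R : ℂ) * (z - t₁)) +
            ((2 * Real.pi * k * (p2 - a2 - b2) : ℝ) : ℂ) * ((R : ℂ) * (z - t₁)) ^ 2)‖ ≤ 1 / 16 := by
        rw [hdec, norm_mul, Complex.norm_real, Real.norm_eq_abs, abs_of_nonneg hW0]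
        refine le_trans (mul_le_mul_of_nonneg_left ((norm_sub_le _ _).trans
          (add_le_add (norm_sub_le _ _) le_rfl)) hW0) ?_
        have h8 : W * ‖Loc.cont k c true (n0 true + 1) (n0 false + 1) z -
            (p0 + p1 * (z - t₁) + p2 * (z - t₁) ^ 2)‖ ≤ 1 / 100 :=
          (mul_le_mul_of_nonneg_left h3 hW0).trans hWε
        rw [mul_add, mul_add]
        linarith
      exact hgoal

end Crest.Agent.R128.LocA
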