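import Crest.Agent.R128.LocA5
import Crest.Agent.R128.LocA2X
import Crest.Agent.R128.LocGlue365

/-!
# Row 128, V5-LOC: `LocA4Stmt` for 595's `Base` (second implementation, helper220)

= 595 `LocA5` (exit, nice points, `SideOK`) + 344 `LocA2X.cell3` + sizes after the foot.
-/

set_option autoImplicit false

open MeasureTheory Metric Set
open Crest.Agent.R128 Crest.Agent.R128.Cell Crest.Agent.R128.CellB Crest.Agent.R128.LocA

namespace Crest.Agent.R128.LocA4S

theorem cell3_mono {k c : ℝ} {s : Bool} {n n' : ℕ} {m R lam C C' q0 q1 q2 : ℝ} (hk : 0 < k)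
    (hC : C ≤ C') (h : Loc.Cell3 k c s n n' m R lam C q0 q1 q2) :
    Loc.Cell3 k c s n n' m R lam C' q0 q1 q2 := by
  have hR : 0 < R := lt_of_lt_of_le one_pos h.hR
  obtain ⟨σ, hσ, hs⟩ := h.slow
  refine ⟨h.hR, h.hlam, ⟨σ, hσ, fun z hz => (hs z hz).trans ?_⟩, fun z hz => (h.slow0 z hz).trans ?_,
    fun z hz => (h.fast z hz).trans ?_, fun z hz => (h.fast0 z hz).trans ?_, h.quad⟩ <;> gcongr

variable {k c : ℝ} {s : Bool} {n0 jS : ℕ} {r0 ρ δ A t₁ : ℝ}

/-- sizes after the foot, up to the exit -/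
theorem size (N : NumB k A δ ρ) (S : SideOK k c s n0 jS r0 ρ δ A t₁) {i : ℕ} (hi2 : 2 ≤ i)
    (hi6 : i ≤ 6) (hb : 1 ≤ ‖Ds k c s (n0 + 1 + (jS + i)) t₁‖ * ρ) {u : ℂ}
    (hu : ‖u - t₁‖ < k / (10 ^ 19 * ‖Ds k c s (n0 + 1 + (jS + i)) t₁‖)) :
    ∀ l, n0 + 1 ≤ l → l ≤ n0 + 1 + (jS + i) →
      ‖Loc.D k c s l u‖ ≤ 101 / 100 * ‖Ds k c s (n0 + 1 + (jS + i)) t₁‖ := by
  have hrad := S.rad_ge N hi2 hi6 hb
  obtain ⟨c1, c2⟩ := S.chain' N
  have hanti : ∀ d j, j + d = jS + i → rad k (Loc.Y k c s) (Ds k c s) n0 r0 t₁ (jS + i) ≤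
      rad k (Loc.Y k c s) (Ds k c s) n0 r0 t₁ j ∧
      ‖Ds k c s (n0 + 1 + j) t₁‖ ≤ ‖Ds k c s (n0 + 1 + (jS + i)) t₁‖ := by
    intro d
    induction d with
    | zero =>
      intro j hj
      obtain rfl : j = jS + i := by omega
      exact ⟨le_rfl, le_rfl⟩
    | succ d ih =>
      intro j hj
      obtain ⟨h1, h2⟩ := ih (j + 1) (by omega)
      obtain ⟨h3, h4, -, -⟩ := c2 j (by omega)
      refine ⟨h1.trans h3, le_trans ?_ h2⟩
      have h5 := S.start.dig j (by omega)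
      have h6 := N.A_pos
      have h7 : (2 : ℝ) ≤ vv k (Loc.Y k c s) (n0 + 1 + j) t₁ := by
        have : (2 : ℝ) ≤ 10 ^ 60 := by norm_num
        linarith
      have h8 : 1 * ‖Ds k c s (n0 + 1 + j) t₁‖ ≤
          (vv k (Loc.Y k c s) (n0 + 1 + j) t₁ - 1) * ‖Ds k c s (n0 + 1 + j) t₁‖ :=
        mul_le_mul_of_nonneg_right (by linarith) (norm_nonneg _)
      linarith
  intro l hl0 hl
  obtain ⟨j, rfl⟩ : ∃ j, l = n0 + 1 + j := ⟨l - (n0 + 1), by omega⟩
  have hj : j ≤ jS + i := by omega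
  obtain ⟨h1, h2⟩ := hanti (jS + i - j) j (by omega)
  obtain ⟨hNA, -, -⟩ := c1 j (by omega)
  have hmem : u ∈ ball (t₁ : ℂ) (rad k (Loc.Y k c s) (Ds k c s) n0 r0 t₁ j) := by
    rw [mem_ball, dist_eq_norm]
    exact hu.trans_le (hrad.trans h1)
  have h3 := hNA.close u hmem
  have e : n0 + j + 1 = n0 + 1 + j := by omega
  rw [e] at h3
  have h4 : ‖Ds k c s (n0 + 1 + j) u‖ ≤
      ‖Ds k c s (n0 + 1 + j) u - Ds k c s (n0 + 1 + j) t₁‖ + ‖Ds k c s (n0 + 1 + j) t₁‖ := by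
    have := norm_add_le (Ds k c s (n0 + 1 + j) u - Ds k c s (n0 + 1 + j) t₁)
      (Ds k c s (n0 + 1 + j) t₁)
    rwa [sub_add_cancel] at this
  rw [← norm_Ds]
  have h5 := norm_nonneg (Ds k c s (n0 + 1 + j) t₁)
  linarith

theorem volume_good {t0 r : ℝ} (hr : 0 < r) {P Q : ℝ → Prop}
    (hP : volume {t : ℝ | t ∈ Icc (t0 - r) (t0 + r) ∧ ¬ P t} ≤ ENNReal.ofReal (2 * r / 8))
    (hQ : volume {t : ℝ | t ∈ Icc (t0 - r) (t0 + r) ∧ ¬ Q t} ≤ ENNReal.ofReal (2 * r / 8)) :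
    ENNReal.ofReal r ≤ volume {t : ℝ | t ∈ Icc (t0 - r) (t0 + r) ∧ P t ∧ Q t} := by
  set S := {t : ℝ | t ∈ Icc (t0 - r) (t0 + r) ∧ P t ∧ Q t} with hS
  have hcov : Icc (t0 - r) (t0 + r) ⊆ S ∪
      ({t : ℝ | t ∈ Icc (t0 - r) (t0 + r) ∧ ¬ P t} ∪
        {t : ℝ | t ∈ Icc (t0 - r) (t0 + r) ∧ ¬ Q t}) := by
    intro t ht
    by_cases ha : P t
    · by_cases hb : Q t
      · exact Or.inl ⟨ht, ha, hb⟩
      · exact Or.inr (Or.inr ⟨ht, hb⟩)
    · exact Or.inr (Or.inl ⟨ht, ha⟩)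
  have h1 : ENNReal.ofReal (2 * r) ≤ volume S + (ENNReal.ofReal (2 * r / 8) +
      ENNReal.ofReal (2 * r / 8)) := by
    calc ENNReal.ofReal (2 * r) = volume (Icc (t0 - r) (t0 + r)) := by
          rw [Real.volume_Icc]; congr 1; ring
      _ ≤ _ := (measure_mono hcov).trans ((measure_union_le _ _).trans
          (add_le_add le_rfl ((measure_union_le _ _).trans (add_le_add hP hQ))))
  rw [← ENNReal.ofReal_add (by linarith) (by linarith)] at h1
  have h2 : ENNReal.ofReal (2 * r) - ENNReal.ofReal (2 * r / 8 + 2 * r / 8) ≤ volume S :=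
    tsub_le_iff_right.mpr h1
  rw [← ENNReal.ofReal_sub _ (by linarith)] at h2
  refine le_trans (ENNReal.ofReal_le_ofReal ?_) h2
  linarith

theorem locA4 : LocGlue365.LocA4Stmt LocA.Base := by
  refine ⟨10 ^ 1000, ?_⟩
  intro k hk c t0 r hr1 n0 M r0 B old
  obtain ⟨u, h⟩ := exists_u hk
  have hk240 : (10 : ℝ) ^ 240 ≤ k := le_trans (pow_le_pow_right₀ (by norm_num) (by norm_num)) hk
  have hk50 : (10 : ℝ) ^ 50 ≤ k := le_trans (pow_le_pow_right₀ (by norm_num) (by norm_num)) hk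
  clear hk
  have hk0 : 0 < k := lt_of_lt_of_le (by positivity) hk50
  have hr := (B true).r_pos
  have hE : ∀ s, ∃ jS, ExitAt k c u s (n0 s) (M s) jS t0 r := fun s => (B s).exit h
  choose jS E using hE
  refine ⟨{t : ℝ | t ∈ Icc (t0 - r) (t0 + r) ∧ Nice k c true (n0 true) (jS true) t ∧
    Nice k c false (n0 false) (jS false) t}, fun t ht => ht.1,
    volume_good hr ((B true).nice_measure h hk240 (E true))
      ((B false).nice_measure h hk240 (E false)), ?_⟩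
  rintro m ⟨hm, hNt, hNf⟩
  have hm' : |m - t0| ≤ r := by rw [abs_le]; constructor <;> linarith [hm.1, hm.2]
  have hNice : ∀ b, Nice k c b (n0 b) (jS b) m := by
    intro b; cases b
    · exact hNf
    · exact hNt
  have S : ∀ b, SideOK k c b (n0 b) (jS b) (r0 b) (2 * r) (1 / u ^ 21) (u ^ 36) m :=
    fun b => (B b).sideOK h (E b) hm' (hNice b)
  have N := h.numB (ρ := 2 * r) (by linarith)
  obtain ⟨p0, p1, p2, hp⟩ := old
  have h8k : 8 / k ≤ 1 := by
    rw [div_le_one hk0]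
    exact le_trans (by norm_num) hk50
  have hold : ∀ z ∈ ball (m : ℂ) (4 * (2 * r) / k), 2 * Real.pi * k * (k ^ 8 / (2 * r)) ^ 2 *
      ‖Loc.cont k c true (n0 true + 1) (n0 false + 1) z -
        (((p0 + p1 * (m - t0) + p2 * (m - t0) ^ 2 : ℝ) : ℂ) +
          ((p1 + 2 * p2 * (m - t0) : ℝ) : ℂ) * (z - m) + (p2 : ℂ) * (z - m) ^ 2)‖ ≤ 1 / 100 := by
    intro z hz
    have hz' : z ∈ ball (t0 : ℂ) (2 * r) := by
      rw [mem_ball, dist_eq_norm] at hz ⊢
      have h1 : ‖z - t0‖ ≤ ‖z - m‖ + ‖(m : ℂ) - t0‖ := by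
        have := norm_add_le (z - (m : ℂ)) ((m : ℂ) - t0)
        rwa [sub_add_sub_cancel] at this
      have h2 : ‖(m : ℂ) - t0‖ ≤ r := by
        rw [← Complex.ofReal_sub, Complex.norm_real, Real.norm_eq_abs]
        exact hm'
      have h3 : 4 * (2 * r) / k ≤ r := by
        calc 4 * (2 * r) / k = 8 / k * r := by ring
          _ ≤ 1 * r := mul_le_mul_of_nonneg_right h8k hr.le
          _ = r := one_mul r
      linarith
    have h1 := hp z hz'
    have e : (((p0 + p1 * (m - t0) + p2 * (m - t0) ^ 2 : ℝ) : ℂ) +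
          ((p1 + 2 * p2 * (m - t0) : ℝ) : ℂ) * (z - m) + (p2 : ℂ) * (z - m) ^ 2) =
        ((p0 : ℂ) + p1 * (z - t0) + p2 * (z - t0) ^ 2) := by
      push_cast
      ring
    rw [e]
    have hpi := Real.pi_lt_d2
    have hpi0 := Real.pi_pos
    calc 2 * Real.pi * k * (k ^ 8 / (2 * r)) ^ 2 *
          ‖Loc.cont k c true (n0 true + 1) (n0 false + 1) z -
            ((p0 : ℂ) + p1 * (z - t0) + p2 * (z - t0) ^ 2)‖
        ≤ 2 * Real.pi * k * (k ^ 8 / (2 * r)) ^ 2 * (r ^ 2 / k ^ 18) :=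
          mul_le_mul_of_nonneg_left h1 (by positivity)
      _ = Real.pi / (2 * k) := by field_simp
      _ ≤ 1 / 100 := by
          rw [div_le_div_iff₀ (by positivity) (by norm_num)]
          have : (1000 : ℝ) ≤ k := le_trans (by norm_num) hk50
          linarith
  obtain ⟨s, i, j, lam, q0, q1, q2, hi3, hi6, hj3, hj6, g1, g2, g3, g4, g5⟩ :=
    LocA2X.cell3 N hr1 S hold
  set R := ‖Loc.D k c s (n0 s + 1 + (jS s + i)) m‖ with hR
  have hR1 : 1 ≤ R := g5.hR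
  have hR0 : 0 < R := by linarith
  have hk1 : (1 : ℝ) ≤ k := le_trans (by norm_num) hk50
  have hlam1 := g5.hlam
  have hq : (10 : ℝ) ^ 25 ≤ Real.sqrt k := by
    refine Real.le_sqrt_of_sq_le ?_
    calc ((10 : ℝ) ^ 25) ^ 2 = 10 ^ 50 := by norm_num
      _ ≤ k := hk50
  have hqq : Real.sqrt k * Real.sqrt k = k := Real.mul_self_sqrt hk0.le
  have hq0 : 0 < Real.sqrt k := lt_of_lt_of_le (by positivity) hq
  refine ⟨s, n0 s + (jS s + i), n0 (!s) + (jS (!s) + j), R, lam, q0, q1, q2, g1, g2, ?_,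
    cell3_mono hk0 (by norm_num) g5, ?_, ?_⟩
  · refine g3.trans (mul_le_mul_of_nonneg_right (by norm_num) hq0.le)
  · intro l hl1 hl2 t ht
    rw [mem_ball, dist_eq_norm] at ht
    have hsz := size N (S s) (i := i) (by omega) hi6 (u := t)
      (by rw [norm_Ds]; exact hk1.trans g1)
      (by
        rw [norm_Ds]
        refine ht.trans_le ?_
        rw [← hR, div_le_div_iff₀ hR0 (by positivity)]
        have : 4 * 10 ^ 19 ≤ k := le_trans (by norm_num) hk50
        nlinarith) l hl1 (by omega)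
    rw [norm_Ds, ← hR] at hsz
    linarith
  · intro l hl1 hl2 t ht
    rw [mem_ball, dist_eq_norm] at ht
    have hb' : ‖Loc.D k c (!s) (n0 (!s) + 1 + (jS (!s) + j)) m‖ = |lam| * R := g4.symm
    have hlR : R ≤ |lam| * R := by nlinarith
    have hlam0 : 0 < |lam| := by linarith
    have hsz := size N (S (!s)) (i := j) (by omega) hj6 (u := t)
      (by
        rw [norm_Ds, hb']
        have : R * (2 * r) ≤ |lam| * R * (2 * r) := mul_le_mul_of_nonneg_right hlR (by linarith)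
        linarith)
      (by
        rw [norm_Ds, hb']
        refine ht.trans_le ?_
        rw [div_le_div_iff₀ hR0 (by positivity)]
        have h1 : 4 * (10 ^ 19 * (|lam| * R)) ≤ 4 * (10 ^ 19 * ((4 * Real.sqrt k) * R)) := by
          gcongr
        have h2 : 4 * (10 ^ 19 * ((4 * Real.sqrt k) * R)) ≤ k * R := by
          have h3 : 16 * 10 ^ 19 * Real.sqrt k ≤ Real.sqrt k * Real.sqrt k := by
            refine mul_le_mul_of_nonneg_right (le_trans (by norm_num) hq) hq0.le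
          rw [hqq] at h3
          calc 4 * (10 ^ 19 * ((4 * Real.sqrt k) * R)) = (16 * 10 ^ 19 * Real.sqrt k) * R := by ring
            _ ≤ k * R := mul_le_mul_of_nonneg_right h3 hR0.le
        exact h1.trans h2) l hl1 (by omega)
    rw [norm_Ds, hb'] at hsz
    have : 0 < |lam| * R := by positivity
    linarith

end Crest.Agent.R128.LocA4S
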