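import Crest.Agent.R128.LocA0
import Crest.Agent.R128.Rough
import Crest.Agent.R128.BVP4

/-!
# Row 128, node N6-DIG (helper421): most points of a fresh interval have large next digits

`F k (x, y) = (y, 2 y + k sin 2πy - x)`.  A set which is small on every unit curve has a preimage under
`F` which is small on every unit curve (the unit curves are only Lipschitz, no measurability).
-/

set_option autoImplicit false

open Set MeasureTheory Metric
open scoped NNReal ENNReal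

namespace Crest.Agent.R128.UCStep

open Crest.Agent.R128.Cell Crest.Agent.R128.CellB Crest.Agent.R128.LocA

/-- the real digit -/
noncomputable def vr (k x : ℝ) : ℝ := 2 + 2 * Real.pi * k * Real.cos (2 * Real.pi * x)

/-- the force -/
noncomputable def fo (k y : ℝ) : ℝ := 2 * y + k * Real.sin (2 * Real.pi * y)

/-- one step of the orbit in the coordinates `(x_{n-1}, x_n)` -/
noncomputable def F (k : ℝ) (p : ℝ × ℝ) : ℝ × ℝ := (p.2, fo k p.2 - p.1)

/-- small on every unit curve of slope `κ` -/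
def UCB (κ : ℝ) (E : Set (ℝ × ℝ)) (ε : ℝ) : Prop :=
  ∀ (g : ℝ → ℝ) (a : ℝ), (∀ y ∈ Icc a (a + 1), ∀ z ∈ Icc a (a + 1), |g y - g z| ≤ κ * |y - z|) →
    volume {x | x ∈ Icc a (a + 1) ∧ (g x, x) ∈ E} ≤ ENNReal.ofReal ε

theorem hasDerivAt_fo (k y : ℝ) : HasDerivAt (fo k) (vr k y) y := by
  have h1 : HasDerivAt (fun y : ℝ => 2 * Real.pi * y) (2 * Real.pi) y := by
    simpa using (hasDerivAt_id y).const_mul (2 * Real.pi)
  have h3 : HasDerivAt (fun y : ℝ => 2 * y) 2 y := by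
    simpa using (hasDerivAt_id y).const_mul (2 : ℝ)
  have h4 := h3.add (h1.sin.const_mul k)
  have e : vr k y = 2 + k * (Real.cos (2 * Real.pi * y) * (2 * Real.pi)) := by
    unfold vr; ring
  rw [e]
  exact h4

theorem abs_vr_sub_le {k : ℝ} (hk : 0 ≤ k) (x y : ℝ) : |vr k x - vr k y| ≤ 40 * k * |x - y| := by
  unfold vr
  have h2 := Real.pi_lt_d2
  have h3 := Real.pi_pos
  have e : 2 + 2 * Real.pi * k * Real.cos (2 * Real.pi * x) -
      (2 + 2 * Real.pi * k * Real.cos (2 * Real.pi * y)) =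
      2 * Real.pi * k * (Real.cos (2 * Real.pi * x) - Real.cos (2 * Real.pi * y)) := by ring
  rw [e, abs_mul, abs_of_nonneg (by positivity : 0 ≤ 2 * Real.pi * k)]
  have h4 : |Real.cos (2 * Real.pi * x) - Real.cos (2 * Real.pi * y)| ≤
      |2 * Real.pi * x - 2 * Real.pi * y| := Real.abs_cos_sub_cos_le _ _
  have h5 : |2 * Real.pi * x - 2 * Real.pi * y| = 2 * Real.pi * |x - y| := by
    rw [← mul_sub, abs_mul, abs_of_pos (by positivity : 0 < 2 * Real.pi)]
  rw [h5] at h4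
  have h6 : Real.pi ^ 2 ≤ 10 := by nlinarith
  calc 2 * Real.pi * k * |Real.cos (2 * Real.pi * x) - Real.cos (2 * Real.pi * y)|
      ≤ 2 * Real.pi * k * (2 * Real.pi * |x - y|) := by gcongr
    _ = 4 * Real.pi ^ 2 * (k * |x - y|) := by ring
    _ ≤ 4 * 10 * (k * |x - y|) := by gcongr
    _ = 40 * k * |x - y| := by ring

theorem fo_sub {k : ℝ} (hk : 0 ≤ k) {b δ : ℝ} {y z : ℝ} (hy : y ∈ Icc b (b + δ))
    (hz : z ∈ Icc b (b + δ)) :
    |fo k z - fo k y - vr k b * (z - y)| ≤ 40 * k * δ * |z - y| := by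
  have key : ∀ y z : ℝ, y ∈ Icc b (b + δ) → z ∈ Icc b (b + δ) → y < z →
      |fo k z - fo k y - vr k b * (z - y)| ≤ 40 * k * δ * |z - y| := by
    intro y z hy hz hyz
    obtain ⟨c, hc, hc'⟩ := exists_hasDerivAt_eq_slope (fo k) (vr k) hyz
      (fun x _ => (hasDerivAt_fo k x).continuousAt.continuousWithinAt)
      (fun x _ => hasDerivAt_fo k x)
    have h1 : fo k z - fo k y = vr k c * (z - y) := by
      rw [hc', div_mul_cancel₀]
      exact (sub_pos.2 hyz).ne'
    have h2 : |c - b| ≤ δ := by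
      rw [abs_le]; constructor <;> linarith [hc.1, hc.2, hy.1, hy.2, hz.1, hz.2]
    rw [h1, ← sub_mul, abs_mul]
    have h3 := abs_vr_sub_le hk c b
    have h4 : 40 * k * |c - b| ≤ 40 * k * δ := by gcongr
    exact mul_le_mul_of_nonneg_right (h3.trans h4) (abs_nonneg _)
  rcases lt_trichotomy y z with h | h | h
  · exact key y z hy hz h
  · subst h; simp
  · have := key z y hz hy h
    rw [abs_sub_comm z y]
    calc |fo k z - fo k y - vr k b * (z - y)| = |fo k y - fo k z - vr k b * (y - z)| := by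
          rw [← abs_neg]; congr 1; ring
      _ ≤ _ := this

/-- one good piece -/
theorem piece {k A δ κ ε : ℝ} (hk : 0 ≤ k) (hδ : 0 < δ) (hA : 0 < A) (hκ : 0 < κ)
    {E : Set (ℝ × ℝ)} (hE : UCB κ E ε) (hε : 0 ≤ ε) {g : ℝ → ℝ} {b : ℝ}
    (hg : ∀ y ∈ Icc b (b + δ), ∀ z ∈ Icc b (b + δ), |g y - g z| ≤ κ * |y - z|)
    (hV : A < |vr k b|) (h1 : 40 * k * δ ≤ A / 200) (h2 : κ ≤ A / 200) (h3 : 2 / A ≤ κ)
    (h4 : 100 ≤ A * δ) :
    volume {y | y ∈ Icc b (b + δ) ∧ (y, fo k y - g y) ∈ E} ≤ ENNReal.ofReal (3 * ε * δ) := by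
  classical
  set v := |vr k b| with hv
  have hv0 : 0 < v := lt_trans hA hV
  set φ : ℝ → ℝ := fun y => fo k y - g y with hφ
  set P : Set ℝ := Icc b (b + δ) with hP
  have hbP : b ∈ P := ⟨le_rfl, by linarith⟩
  have hd : ∀ y ∈ P, ∀ z ∈ P, |φ z - φ y - vr k b * (z - y)| ≤ v / 100 * |z - y| := by
    intro y hy z hz
    have e1 := fo_sub hk hy hz
    have e2 := hg z hz y hy
    have e3 : φ z - φ y - vr k b * (z - y) =
        (fo k z - fo k y - vr k b * (z - y)) - (g z - g y) := by simp only [hφ]; ring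
    rw [e3]
    calc |(fo k z - fo k y - vr k b * (z - y)) - (g z - g y)|
        ≤ |fo k z - fo k y - vr k b * (z - y)| + |g z - g y| := abs_sub _ _
      _ ≤ 40 * k * δ * |z - y| + κ * |z - y| := add_le_add e1 e2
      _ = (40 * k * δ + κ) * |z - y| := by ring
      _ ≤ v / 100 * |z - y| := by
          apply mul_le_mul_of_nonneg_right _ (abs_nonneg _)
          linarith
  have hlow : ∀ y ∈ P, ∀ z ∈ P, 99 / 100 * v * |z - y| ≤ |φ z - φ y| := by
    intro y hy z hz
    have e1 := hd y hy z hz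
    have e2 : v * |z - y| ≤ |φ z - φ y| + v / 100 * |z - y| := by
      calc v * |z - y| = |vr k b * (z - y)| := by rw [abs_mul]
        _ = |(φ z - φ y) - (φ z - φ y - vr k b * (z - y))| := by congr 1; ring
        _ ≤ |φ z - φ y| + |φ z - φ y - vr k b * (z - y)| := abs_sub _ _
        _ ≤ _ := by linarith
    linarith
  have hupp : ∀ y ∈ P, |φ y - φ b| ≤ 101 / 100 * v * δ := by
    intro y hy
    have e1 := hd b hbP y hy
    have e2 : |φ y - φ b| ≤ 101 / 100 * v * |y - b| := by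
      calc |φ y - φ b| = |(φ y - φ b - vr k b * (y - b)) + vr k b * (y - b)| := by congr 1; ring
        _ ≤ |φ y - φ b - vr k b * (y - b)| + |vr k b * (y - b)| := abs_add_le _ _
        _ ≤ v / 100 * |y - b| + v * |y - b| := by rw [abs_mul (vr k b)]; linarith
        _ = _ := by ring
    refine e2.trans (mul_le_mul_of_nonneg_left ?_ (by positivity))
    rw [abs_of_nonneg (by linarith [hy.1])]
    linarith [hy.2]
  -- the inverse
  set C : ℝ := 100 / (99 * v) with hC
  have hC0 : 0 < C := by positivity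
  have hexp : ∀ y ∈ P, ∀ z ∈ P, |z - y| ≤ C * |φ z - φ y| := by
    intro y hy z hz
    have e1 := hlow y hy z hz
    rw [hC, div_mul_eq_mul_div, le_div_iff₀ (by positivity)]
    linarith
  have hCκ : C ≤ κ := by
    refine le_trans ?_ h3
    rw [hC, div_le_div_iff₀ (by positivity) hA]
    nlinarith
  have hinj : InjOn φ P := by
    intro y hy z hz e
    have := hexp y hy z hz
    rw [e, sub_self, abs_zero, mul_zero] at this
    have h0 : z - y = 0 := abs_eq_zero.mp (le_antisymm this (abs_nonneg _))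
    linarith
  have hinv : ∀ t ∈ P, Function.invFunOn φ P (φ t) = t := fun t ht => hinj.leftInvOn_invFunOn ht
  have hL : LipschitzOnWith (Real.toNNReal κ) (Function.invFunOn φ P) (φ '' P) := by
    rw [lipschitzOnWith_iff_dist_le_mul]
    rintro _ ⟨s, hs, rfl⟩ _ ⟨t, ht, rfl⟩
    rw [hinv s hs, hinv t ht, Real.dist_eq, Real.dist_eq, Real.coe_toNNReal _ hκ.le]
    have := hexp t ht s hs
    exact this.trans (mul_le_mul_of_nonneg_right hCκ (abs_nonneg _))
  obtain ⟨g', hgL, hgE⟩ := hL.extend_real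
  -- unit pieces of the image
  set c0 : ℝ := φ b - 101 / 100 * v * δ with hc0
  set N : ℕ := ⌈202 / 100 * v * δ⌉₊ with hN
  have hN1 : 202 / 100 * v * δ ≤ N := Nat.le_ceil _
  have hN2 : (N : ℝ) < 202 / 100 * v * δ + 1 := Nat.ceil_lt_add_one (by positivity)
  have hNpos : 0 < N := by
    rw [hN, Nat.ceil_pos]; positivity
  have hone : ∀ i : ℕ, volume {y | (y ∈ P ∧ φ y ∈ Icc (c0 + i) (c0 + i + 1)) ∧ (y, φ y) ∈ E} ≤
      ENNReal.ofReal (C * ε) := by
    intro i
    set D : Set ℝ := {y | (y ∈ P ∧ φ y ∈ Icc (c0 + i) (c0 + i + 1)) ∧ (y, φ y) ∈ E} with hD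
    have e1 : volume D ≤ (Real.toNNReal C : ℝ≥0∞) * volume (φ '' D) := by
      refine BVP.volume_le_of_expand fun y hy z hz => ?_
      rw [Real.coe_toNNReal _ hC0.le]
      exact hexp y hy.1.1 z hz.1.1
    have e2 : φ '' D ⊆ {x | x ∈ Icc (c0 + i) (c0 + i + 1) ∧ (g' x, x) ∈ E} := by
      rintro _ ⟨y, ⟨⟨hyP, hyI⟩, hyE⟩, rfl⟩
      refine ⟨hyI, ?_⟩
      rw [← hgE (mem_image_of_mem φ hyP), hinv y hyP]
      exact hyE
    have e3 := hE g' (c0 + i) (fun y _ z _ => by
      have := hgL.dist_le_mul y z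
      rwa [Real.dist_eq, Real.dist_eq, Real.coe_toNNReal _ hκ.le] at this)
    calc volume D ≤ (Real.toNNReal C : ℝ≥0∞) * volume (φ '' D) := e1
      _ ≤ (Real.toNNReal C : ℝ≥0∞) * ENNReal.ofReal ε := by
          gcongr
          exact (measure_mono e2).trans e3
      _ = ENNReal.ofReal (C * ε) := by
          rw [ENNReal.ofReal_mul hC0.le]; rfl
  have hcov : {y | y ∈ P ∧ (y, φ y) ∈ E} ⊆ ⋃ i ∈ Finset.range N,
      {y | (y ∈ P ∧ φ y ∈ Icc (c0 + i) (c0 + i + 1)) ∧ (y, φ y) ∈ E} := by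
    rintro y ⟨hyP, hyE⟩
    have e1 := abs_le.1 (hupp y hyP)
    have e2 : 0 ≤ φ y - c0 := by rw [hc0]; linarith [e1.1]
    have e3 : φ y - c0 ≤ N := by
      rw [hc0]
      have : φ y - (φ b - 101 / 100 * v * δ) ≤ 202 / 100 * v * δ := by linarith [e1.2]
      exact this.trans hN1
    rcases eq_or_lt_of_le e3 with e4 | e4
    · refine mem_iUnion₂.2 ⟨N - 1, Finset.mem_range.2 (by omega), ⟨hyP, ?_, ?_⟩, hyE⟩
      · rw [Nat.cast_sub (by omega)]; push_cast; linarith
      · rw [Nat.cast_sub (by omega)]; push_cast; linarith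
    · refine mem_iUnion₂.2 ⟨⌊φ y - c0⌋₊, Finset.mem_range.2 ?_, ⟨hyP, ?_, ?_⟩, hyE⟩
      · rw [Nat.floor_lt e2]; exact e4
      · linarith [Nat.floor_le e2]
      · linarith [Nat.lt_floor_add_one (φ y - c0)]
  calc volume {y | y ∈ P ∧ (y, φ y) ∈ E}
      ≤ ∑ i ∈ Finset.range N,
          volume {y | (y ∈ P ∧ φ y ∈ Icc (c0 + i) (c0 + i + 1)) ∧ (y, φ y) ∈ E} :=
        (measure_mono hcov).trans (measure_biUnion_finset_le _ _)
    _ ≤ ∑ _i ∈ Finset.range N, ENNReal.ofReal (C * ε) := Finset.sum_le_sum fun i _ => hone i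
    _ = ENNReal.ofReal (N * (C * ε)) := by
        rw [Finset.sum_const, Finset.card_range, nsmul_eq_mul,
          ENNReal.ofReal_mul (Nat.cast_nonneg N), ENNReal.ofReal_natCast]
    _ ≤ ENNReal.ofReal (3 * ε * δ) := by
        apply ENNReal.ofReal_le_ofReal
        have e1 : (N : ℝ) * C ≤ 3 * δ := by
          rw [hC, mul_div_assoc', div_le_iff₀ (by positivity)]
          have e2 : 100 ≤ v * δ := by nlinarith
          nlinarith
        nlinarith

theorem volume_vr_small {k A a b : ℝ} (hk : 0 < k) (hA : 2 < A) (hab : a ≤ b) :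
    volume {y | y ∈ Icc a b ∧ |vr k y| ≤ 2 * A} ≤ ENNReal.ofReal (((b - a) + 1) * (A / k)) := by
  have hsub : {y | y ∈ Icc a b ∧ |vr k y| ≤ 2 * A} ⊆
      {y | y ∈ Icc a b ∧ |Real.cos (2 * Real.pi * (0 + 1 * y))| < A / k} := by
    rintro y ⟨hy, h⟩
    refine ⟨hy, ?_⟩
    unfold vr at h
    have e8 : |2 * Real.pi * k * Real.cos (2 * Real.pi * y)| ≤ 2 * A + 2 := by
      have := abs_sub (2 + 2 * Real.pi * k * Real.cos (2 * Real.pi * y)) 2
      rw [add_sub_cancel_left] at this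
      have h2 : |(2:ℝ)| = 2 := by norm_num
      rw [h2] at this
      linarith
    rw [abs_mul, abs_of_pos (by positivity : 0 < 2 * Real.pi * k)] at e8
    rw [zero_add, one_mul, lt_div_iff₀ hk]
    have hpi := Real.pi_gt_three
    have e9 : 6 * k * |Real.cos (2 * Real.pi * y)| ≤ 2 * A + 2 := by
      have : 6 * k * |Real.cos (2 * Real.pi * y)| ≤
          2 * Real.pi * k * |Real.cos (2 * Real.pi * y)| := by
        apply mul_le_mul_of_nonneg_right _ (abs_nonneg _)
        nlinarith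
      linarith
    nlinarith [abs_nonneg (Real.cos (2 * Real.pi * y))]
  refine (measure_mono hsub).trans ((Rough.vol_cos (x0 := 0) (lam := 1) one_ne_zero hab
    (by positivity)).trans ?_)
  apply ENNReal.ofReal_le_ofReal
  rw [abs_one, div_one]

/-- one step from a segment of curve of arbitrary length `b - a ≥ A / (8000 k)` -/
theorem seg_step {k A κ ε a b : ℝ} (hk : 0 < k) (hA : 10 ^ 6 ≤ A) (hAk : 10 ^ 8 * k ≤ A ^ 2)
    (hκ1 : κ ≤ 1) (h3 : 2 / A ≤ κ) (hab : A / (8000 * k) ≤ b - a)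
    {E : Set (ℝ × ℝ)} (hε : 0 ≤ ε) (hE : UCB κ E ε) {g : ℝ → ℝ}
    (hg : ∀ y ∈ Icc a b, ∀ z ∈ Icc a b, |g y - g z| ≤ κ * |y - z|) :
    volume {y | y ∈ Icc a b ∧ (y, fo k y - g y) ∈ E} ≤
      ENNReal.ofReal (3 * ε * (b - a) + ((b - a) + 1) * (A / k)) := by
  classical
  have hA0 : 0 < A := by linarith
  have hκ0 : 0 < κ := lt_of_lt_of_le (by positivity) h3
  have hl0 : 0 < b - a := lt_of_lt_of_le (by positivity) hab
  set x : ℝ := 8000 * k * (b - a) / A with hx
  have hx1 : 1 ≤ x := by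
    rw [hx, le_div_iff₀ hA0, one_mul]
    rw [div_le_iff₀ (by positivity)] at hab
    linarith
  set N : ℕ := ⌈x⌉₊ with hN
  have hN1 : x ≤ N := Nat.le_ceil _
  have hN2 : (N : ℝ) ≤ 2 * x := by
    have : (N : ℝ) < x + 1 := Nat.ceil_lt_add_one (by linarith)
    linarith
  have hNp : (0 : ℝ) < N := by linarith
  set δ : ℝ := (b - a) / N with hδ
  have hδ0 : 0 < δ := by positivity
  have hNδ : (N : ℝ) * δ = b - a := by rw [hδ]; field_simp
  have hxA : x * A = 8000 * k * (b - a) := by rw [hx]; field_simp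
  have h1 : 40 * k * δ ≤ A / 200 := by
    rw [hδ, mul_div_assoc', div_le_div_iff₀ hNp (by norm_num)]
    have := mul_le_mul_of_nonneg_right hN1 hA0.le
    nlinarith
  have h4 : 100 ≤ A * δ := by
    rw [hδ, mul_div_assoc', le_div_iff₀ hNp]
    have e1 : 100 * (N : ℝ) ≤ 200 * x := by linarith
    have e2 : 200 * x ≤ A * (b - a) := by
      rw [← mul_le_mul_iff_left₀ hA0]
      have : 200 * x * A = 1600000 * k * (b - a) := by
        rw [mul_assoc, hxA]; ring
      rw [this]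
      nlinarith
    linarith
  have h2 : κ ≤ A / 200 := by linarith
  set G : Finset ℕ := (Finset.range N).filter fun j => A < |vr k (a + j * δ)| with hG
  have hcov : {y | y ∈ Icc a b ∧ (y, fo k y - g y) ∈ E} ⊆
      (⋃ j ∈ G, {y | y ∈ Icc (a + j * δ) (a + j * δ + δ) ∧ (y, fo k y - g y) ∈ E}) ∪
      {y | y ∈ Icc a b ∧ |vr k y| ≤ 2 * A} := by
    rintro y ⟨hy, hyE'⟩
    have e0 : 0 ≤ (y - a) / δ := div_nonneg (by linarith [hy.1]) hδ0.le
    have e1 : (y - a) / δ ≤ N := by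
      rw [div_le_iff₀ hδ0, hNδ]; linarith [hy.2]
    obtain ⟨j, hjN, hj1, hj2⟩ : ∃ j : ℕ, j < N ∧ (j : ℝ) ≤ (y - a) / δ ∧ (y - a) / δ ≤ j + 1 := by
      rcases eq_or_lt_of_le e1 with e2 | e2
      · have hN1' : 1 ≤ N := by
          have : (0:ℝ) < N := hNp
          exact_mod_cast this
        refine ⟨N - 1, by omega, ?_, ?_⟩
        · rw [Nat.cast_sub hN1']; push_cast; linarith
        · rw [Nat.cast_sub hN1']; push_cast; linarith
      · exact ⟨⌊(y - a) / δ⌋₊, (Nat.floor_lt e0).2 e2, Nat.floor_le e0,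
          (Nat.lt_floor_add_one _).le⟩
    have hyj : y ∈ Icc (a + j * δ) (a + j * δ + δ) := by
      rw [le_div_iff₀ hδ0] at hj1
      rw [div_le_iff₀ hδ0] at hj2
      constructor
      · linarith
      · linarith
    by_cases hgood : A < |vr k (a + j * δ)|
    · left
      exact mem_iUnion₂.2 ⟨j, Finset.mem_filter.2 ⟨Finset.mem_range.2 hjN, hgood⟩, hyj, hyE'⟩
    · right
      refine ⟨hy, ?_⟩
      push Not at hgood
      have e3 := abs_vr_sub_le hk.le y (a + j * δ)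
      have e4 : |y - (a + j * δ)| ≤ δ := by
        rw [abs_le]; constructor <;> linarith [hyj.1, hyj.2]
      have e6 : |vr k y| ≤ |vr k y - vr k (a + j * δ)| + |vr k (a + j * δ)| := by
        have := abs_add_le (vr k y - vr k (a + j * δ)) (vr k (a + j * δ))
        rwa [sub_add_cancel] at this
      have e7 : 40 * k * |y - (a + j * δ)| ≤ 40 * k * δ := by gcongr
      linarith
  calc volume {y | y ∈ Icc a b ∧ (y, fo k y - g y) ∈ E}
      ≤ volume (⋃ j ∈ G, {y | y ∈ Icc (a + j * δ) (a + j * δ + δ) ∧ (y, fo k y - g y) ∈ E}) +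
        volume {y | y ∈ Icc a b ∧ |vr k y| ≤ 2 * A} :=
        (measure_mono hcov).trans (measure_union_le _ _)
    _ ≤ ∑ j ∈ G, ENNReal.ofReal (3 * ε * δ) + ENNReal.ofReal (((b - a) + 1) * (A / k)) := by
        refine add_le_add ((measure_biUnion_finset_le _ _).trans (Finset.sum_le_sum ?_))
          (volume_vr_small hk (by linarith) (by linarith))
        intro j hj
        rw [hG, Finset.mem_filter, Finset.mem_range] at hj
        have hjN : ((j : ℝ) + 1) * δ ≤ b - a := by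
          rw [← hNδ]
          have : (j : ℝ) + 1 ≤ N := by exact_mod_cast hj.1
          exact mul_le_mul_of_nonneg_right this hδ0.le
        have hjδ : 0 ≤ (j : ℝ) * δ := by positivity
        have hsub : Icc (a + j * δ) (a + j * δ + δ) ⊆ Icc a b := by
          apply Icc_subset_Icc
          · linarith
          · linarith
        exact piece hk.le hδ0 hA0 hκ0 hE hε
          (fun y hy z hz => hg y (hsub hy) z (hsub hz)) hj.2 h1 h2 h3 h4
    _ ≤ ENNReal.ofReal (3 * ε * (b - a)) + ENNReal.ofReal (((b - a) + 1) * (A / k)) := by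
        gcongr
        rw [Finset.sum_const, nsmul_eq_mul]
        have e1 : (G.card : ℝ≥0∞) ≤ ENNReal.ofReal N := by
          rw [ENNReal.ofReal_natCast]
          have : G.card ≤ N := by
            calc G.card ≤ (Finset.range N).card := Finset.card_filter_le _ _
              _ = N := Finset.card_range N
          exact_mod_cast this
        calc (G.card : ℝ≥0∞) * ENNReal.ofReal (3 * ε * δ)
            ≤ ENNReal.ofReal N * ENNReal.ofReal (3 * ε * δ) := by gcongr
          _ = ENNReal.ofReal (N * (3 * ε * δ)) := by rw [← ENNReal.ofReal_mul hNp.le]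
          _ = ENNReal.ofReal (3 * ε * (b - a)) := by
              congr 1
              calc (N : ℝ) * (3 * ε * δ) = 3 * ε * (N * δ) := by ring
                _ = 3 * ε * (b - a) := by rw [hNδ]
    _ = ENNReal.ofReal (3 * ε * (b - a) + ((b - a) + 1) * (A / k)) := by
        rw [← ENNReal.ofReal_add (by positivity) (by positivity)]

/-- the bad set: one of the next `n` digits is small -/
def Bad (k w : ℝ) (n : ℕ) : Set (ℝ × ℝ) := {p | ∃ i < n, |vr k ((F k)^[i] p).2| < w}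

theorem Bad_succ (k w : ℝ) (n : ℕ) :
    Bad k w (n + 1) ⊆ {p | |vr k p.2| < w} ∪ F k ⁻¹' Bad k w n := by
  rintro p ⟨i, hi, h⟩
  rcases Nat.eq_zero_or_pos i with rfl | hi0
  · left; exact h
  · right
    obtain ⟨j, rfl⟩ : ∃ j, i = j + 1 := ⟨i - 1, by omega⟩
    exact ⟨j, by omega, by rwa [Function.iterate_succ_apply] at h⟩

/-- **digits**: on every unit curve the set where one of the next `n` digits is `< 2 A'` is small. -/
theorem uc_bad {k A A' κ : ℝ} (hk : 0 < k) (hA : 10 ^ 6 ≤ A) (hAk : 10 ^ 8 * k ≤ A ^ 2)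
    (hA8 : A ≤ 8000 * k) (hκ1 : κ ≤ 1) (h3 : 2 / A ≤ κ) (hA' : 2 < A') (n : ℕ) :
    UCB κ (Bad k (2 * A') n) ((3 ^ n - 1) * (A' / k + A / k)) := by
  have hA0 : 0 < A := by linarith
  have hp : 0 ≤ A' / k + A / k := by positivity
  induction n with
  | zero =>
    intro g a _
    have : {x | x ∈ Icc a (a + 1) ∧ (g x, x) ∈ Bad k (2 * A') 0} = ∅ := by
      ext x; simp [Bad]
    rw [this, measure_empty]
    exact zero_le
  | succ n ih =>
    intro g a hg
    have h1 : (1 : ℝ) ≤ 3 ^ n := one_le_pow₀ (by norm_num)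
    have hε : 0 ≤ (3 ^ n - 1) * (A' / k + A / k) := mul_nonneg (by linarith) hp
    have e1 := seg_step (a := a) (b := a + 1) hk hA hAk hκ1 h3 (by
      rw [add_sub_cancel_left, div_le_one (by positivity)]; exact hA8) hε ih hg
    have e2 := volume_vr_small (a := a) (b := a + 1) hk hA' (by linarith)
    have hsub : {x | x ∈ Icc a (a + 1) ∧ (g x, x) ∈ Bad k (2 * A') (n + 1)} ⊆
        {x | x ∈ Icc a (a + 1) ∧ (x, fo k x - g x) ∈ Bad k (2 * A') n} ∪
        {x | x ∈ Icc a (a + 1) ∧ |vr k x| ≤ 2 * A'} := by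
      rintro x ⟨hx, hB⟩
      rcases Bad_succ _ _ _ hB with h | h
      · right; exact ⟨hx, le_of_lt h⟩
      · left; exact ⟨hx, h⟩
    refine (measure_mono hsub).trans ((measure_union_le _ _).trans
      ((add_le_add e1 e2).trans ?_))
    have hA'k : 0 ≤ A' / k := by positivity
    have hAk' : 0 ≤ A / k := by positivity
    rw [← ENNReal.ofReal_add (by rw [add_sub_cancel_left]; linarith)
      (by rw [add_sub_cancel_left]; linarith)]
    apply ENNReal.ofReal_le_ofReal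
    rw [add_sub_cancel_left, pow_succ]
    nlinarith

/-- iterates of `F` along an orbit -/
theorem iterate_F {k : ℝ} {x : ℕ → ℝ} (hx : ∀ n, x (n + 2) = fo k (x (n + 1)) - x n) (m i : ℕ) :
    (F k)^[i] (x m, x (m + 1)) = (x (m + i), x (m + 1 + i)) := by
  induction i with
  | zero => rfl
  | succ i ih =>
    rw [Function.iterate_succ_apply', ih]
    unfold F
    have h := hx (m + i)
    ext
    · show x (m + 1 + i) = x (m + (i + 1))
      congr 1; omega
    · show fo k (x (m + 1 + i)) - x (m + i) = x (m + 1 + (i + 1))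
      rw [show m + 1 + (i + 1) = m + i + 2 by omega, h, show m + i + 1 = m + 1 + i by omega]

theorem vv_real {k : ℝ} {Y : ℕ → ℂ → ℂ} {m : ℕ} {t : ℝ} (h : (Y m (t : ℂ)).im = 0) :
    vv k Y m (t : ℂ) = |vr k (Y m (t : ℂ)).re| := by
  have e : Y m (t : ℂ) = (((Y m (t : ℂ)).re : ℝ) : ℂ) := Complex.ext (by simp) (by simp [h])
  unfold vv
  rw [e]
  unfold cV vr
  have : (2 + 2 * (Real.pi : ℂ) * (k : ℂ) *
      Complex.cos (2 * (Real.pi : ℂ) * (((Y m (t : ℂ)).re : ℝ) : ℂ))) =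
      ((2 + 2 * Real.pi * k * Real.cos (2 * Real.pi * (Y m (t : ℂ)).re) : ℝ) : ℂ) := by
    push_cast; rfl
  rw [this, Complex.norm_real, Real.norm_eq_abs, Complex.ofReal_re]

theorem num_aux {L q ε δ ρ l : ℝ} (hq1 : q ≤ 1 / 10 ^ 8) (hq2 : q ≤ δ / 10 ^ 8)
    (hLδ : 99 / 100 * δ ≤ L) (hL0 : 0 < L) (hε1 : ε ≤ 13 / 1000) (hl : 0 < l)
    (hL2 : L ≤ 101 / 100 * l * ρ) :
    100 / (99 * l) * ((3 * ε * L + (L + 1) * q) + (L + 1) * q) ≤ ρ / 8 := by
  have e1 : (L + 1) * q ≤ 1 / 1000 * L := by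
    have e2 : L * q ≤ L * (1 / 10 ^ 8) := mul_le_mul_of_nonneg_left hq1 hL0.le
    have e3 : q ≤ 2 * L / 10 ^ 8 := by
      refine hq2.trans (div_le_div_of_nonneg_right ?_ (by norm_num))
      linarith
    nlinarith
  have e2 : (3 * ε * L + (L + 1) * q) + (L + 1) * q ≤ 1 / 20 * L := by nlinarith
  have e3 : 100 / (99 * l) * (1 / 20 * L) ≤ ρ / 8 := by
    rw [div_mul_eq_mul_div, div_le_div_iff₀ (by positivity) (by norm_num)]
    nlinarith
  exact (mul_le_mul_of_nonneg_left e2 (by positivity)).trans e3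

set_option maxHeartbeats 2000000 in
/-- **N6-DIG**: from the exit curve on, the next digits are large at most points of the cell. -/
theorem good_volume {k A0 A δ : ℝ} (hn : Num k A0 A δ) {Y D : ℕ → ℂ → ℂ} {t₀ a b ρ : ℝ}
    (hρ : 0 < ρ) (hab : b - a = ρ) (ht₀ : t₀ ∈ Icc a b) {n0 jS : ℕ}
    (hco : CO k (ball (t₀ : ℂ) (2 * ρ)) Y D)
    (hrec : ∀ n (x : ℝ), (Y (n + 2) (x : ℂ)).re = 2 * (Y (n + 1) (x : ℂ)).re +
      k * Real.sin (2 * Real.pi * (Y (n + 1) (x : ℂ)).re) - (Y n (x : ℂ)).re)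
    (hsize : δ ≤ ‖D (n0 + 1 + jS) t₀‖ * ρ)
    (hclose : ∀ t ∈ ball (t₀ : ℂ) (2 * ρ),
      ‖D (n0 + 1 + jS) t - D (n0 + 1 + jS) t₀‖ ≤ 1 / 100 * ‖D (n0 + 1 + jS) t₀‖)
    (hprev : ∀ t ∈ ball (t₀ : ℂ) (2 * ρ), ‖D (n0 + jS) t‖ ≤ 3 / A0 * ‖D (n0 + 1 + jS) t₀‖) :
    volume {t : ℝ | t ∈ Icc a b ∧ ¬ (A ≤ vv k Y (n0 + 1 + jS) t ∧
      ∀ i, 1 ≤ i → i ≤ 5 → 1 / 10 ^ 4 * k ≤ vv k Y (n0 + 1 + (jS + i)) t)} ≤
      ENNReal.ofReal (ρ / 8) := by
  classical
  set M : ℕ := n0 + jS with hM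
  have hM1 : n0 + 1 + jS = M + 1 := by omega
  rw [hM1] at hsize hclose hprev ⊢
  -- numbers
  have hk : 0 < k := lt_of_lt_of_le (by norm_num) hn.k_large
  have hA0 : 0 < A := lt_of_lt_of_le (by norm_num) hn.n7
  have hA6 : 10 ^ 6 ≤ A := le_trans (by norm_num) hn.n7
  have hδ : 0 < δ := by
    by_contra h
    push Not at h
    have := hn.n3
    nlinarith
  have hAk8 : 10 ^ 8 * k ≤ A ^ 2 := by
    have := hn.n4
    nlinarith
  have hAkδ : A / k ≤ δ / 10 ^ 8 := by
    rw [div_le_div_iff₀ hk (by norm_num)]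
    linarith [hn.n2]
  have hAk1 : A / k ≤ 1 / 10 ^ 8 := by
    refine hAkδ.trans ?_
    apply div_le_div_of_nonneg_right hn.n6 (by norm_num)
  have hA8 : A ≤ 8000 * k := by
    rw [div_le_iff₀ hk] at hAk1
    linarith
  have hA00 : 0 < A0 := by linarith [hn.n5]
  set κ : ℝ := 2 / A with hκ
  have hκ0 : 0 < κ := by positivity
  have hκ1 : κ ≤ 1 := by
    rw [hκ, div_le_one hA0]; linarith
  -- real functions
  set lam : ℝ := (D (M + 1) (t₀ : ℂ)).re with hlam
  have hDn : ∀ n (x : ℝ), ‖D n (x : ℂ)‖ = |(D n (x : ℂ)).re| := by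
    intro n x
    have e : D n (x : ℂ) = (((D n (x : ℂ)).re : ℝ) : ℂ) :=
      Complex.ext (by simp) (by simp [hco.realD n x])
    rw [e, Complex.norm_real, Real.norm_eq_abs, Complex.ofReal_re]
  have hl0 : ‖D (M + 1) (t₀ : ℂ)‖ = |lam| := hDn _ _
  rw [hl0] at hsize hclose hprev
  have hlpos : 0 < |lam| := by
    by_contra h
    push Not at h
    have : |lam| = 0 := le_antisymm h (abs_nonneg _)
    rw [this, zero_mul] at hsize
    linarith
  have hmem : ∀ t ∈ Icc a b, (t : ℂ) ∈ ball (t₀ : ℂ) (2 * ρ) := by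
    intro t ht
    rw [mem_ball, dist_eq_norm, ← Complex.ofReal_sub, Complex.norm_real, Real.norm_eq_abs, abs_lt]
    constructor <;> linarith [ht.1, ht.2, ht₀.1, ht₀.2]
  set φ : ℝ → ℝ := fun t => (Y (M + 1) (t : ℂ)).re with hφ
  set ψ : ℝ → ℝ := fun t => (Y M (t : ℂ)).re with hψ
  have hdφ : ∀ t ∈ Icc a b, HasDerivAt φ (D (M + 1) (t : ℂ)).re t := fun t ht =>
    (hco.deriv (M + 1) t (hmem t ht)).real_of_complex
  have hdψ : ∀ t ∈ Icc a b, HasDerivAt ψ (D M (t : ℂ)).re t := fun t ht =>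
    (hco.deriv M t (hmem t ht)).real_of_complex
  have hlin : ∀ s ∈ Icc a b, ∀ t ∈ Icc a b, |φ t - φ s - lam * (t - s)| ≤ |lam| / 100 * |t - s| := by
    intro s hs t ht
    have key := (convex_Icc a b).norm_image_sub_le_of_norm_hasDerivWithin_le
      (f := fun x => φ x - lam * x) (f' := fun x => (D (M + 1) (x : ℂ)).re - lam)
      (C := |lam| / 100) (fun x hx => by
        have h1 : HasDerivAt (fun x : ℝ => lam * x) lam x := by
          simpa using (hasDerivAt_id x).const_mul lam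
        exact ((hdφ x hx).sub h1).hasDerivWithinAt) (fun x hx => by
        have h1 := hclose x (hmem x hx)
        have h2 : |(D (M + 1) (x : ℂ)).re - lam| ≤ ‖D (M + 1) (x : ℂ) - D (M + 1) (t₀ : ℂ)‖ := by
          rw [hlam, ← Complex.sub_re]
          exact Complex.abs_re_le_norm _
        rw [Real.norm_eq_abs]
        linarith) hs ht
    rw [Real.norm_eq_abs, Real.norm_eq_abs] at key
    have e : φ t - lam * t - (φ s - lam * s) = φ t - φ s - lam * (t - s) := by ring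
    rwa [e] at key
  have hlow : ∀ s ∈ Icc a b, ∀ t ∈ Icc a b, 99 / 100 * |lam| * |t - s| ≤ |φ t - φ s| := by
    intro s hs t ht
    have e1 := hlin s hs t ht
    have e2 : |lam| * |t - s| ≤ |φ t - φ s| + |lam| / 100 * |t - s| := by
      calc |lam| * |t - s| = |lam * (t - s)| := by rw [abs_mul]
        _ = |(φ t - φ s) - (φ t - φ s - lam * (t - s))| := by congr 1; ring
        _ ≤ |φ t - φ s| + |φ t - φ s - lam * (t - s)| := abs_sub _ _
        _ ≤ _ := by linarith
    linarith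
  have hupp : ∀ s ∈ Icc a b, ∀ t ∈ Icc a b, |φ t - φ s| ≤ 101 / 100 * |lam| * |t - s| := by
    intro s hs t ht
    have e1 := hlin s hs t ht
    calc |φ t - φ s| = |(φ t - φ s - lam * (t - s)) + lam * (t - s)| := by congr 1; ring
      _ ≤ |φ t - φ s - lam * (t - s)| + |lam * (t - s)| := abs_add_le _ _
      _ ≤ |lam| / 100 * |t - s| + |lam| * |t - s| := by rw [abs_mul lam]; linarith
      _ = _ := by ring
  have hψlip : ∀ s ∈ Icc a b, ∀ t ∈ Icc a b, |ψ t - ψ s| ≤ 3 / A0 * |lam| * |t - s| := by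
    intro s hs t ht
    have key := (convex_Icc a b).norm_image_sub_le_of_norm_hasDerivWithin_le
      (f := ψ) (f' := fun x => (D M (x : ℂ)).re)
      (C := 3 / A0 * |lam|) (fun x hx => (hdψ x hx).hasDerivWithinAt) (fun x hx => by
        rw [Real.norm_eq_abs, ← hDn]
        exact hprev x (hmem x hx)) hs ht
    rwa [Real.norm_eq_abs, Real.norm_eq_abs] at key
  have haI : a ∈ Icc a b := ⟨le_rfl, by linarith⟩
  have hbI : b ∈ Icc a b := ⟨by linarith, le_rfl⟩
  -- the image interval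
  obtain ⟨α, β, hαβ1, hαβ2, himg⟩ : ∃ α β : ℝ, 99 / 100 * |lam| * ρ ≤ β - α ∧
      β - α ≤ 101 / 100 * |lam| * ρ ∧ ∀ t ∈ Icc a b, φ t ∈ Icc α β := by
    have e1 := hlow a haI b hbI
    have e2 := hupp a haI b hbI
    rw [hab, abs_of_pos hρ] at e1 e2
    rcases lt_or_ge 0 lam with h | h
    · have hpos : ∀ s ∈ Icc a b, ∀ t ∈ Icc a b, s ≤ t → φ s ≤ φ t := by
        intro s hs t ht hst
        have e3 := abs_le.1 (hlin s hs t ht)
        rw [abs_of_pos h, abs_of_nonneg (by linarith : 0 ≤ t - s)] at e3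
        nlinarith [e3.1]
      have e3 := hpos a haI b hbI (by linarith)
      rw [abs_of_nonneg (by linarith : 0 ≤ φ b - φ a)] at e1 e2
      exact ⟨φ a, φ b, e1, e2, fun t ht => ⟨hpos a haI t ht ht.1, hpos t ht b hbI ht.2⟩⟩
    · have hneg : ∀ s ∈ Icc a b, ∀ t ∈ Icc a b, s ≤ t → φ t ≤ φ s := by
        intro s hs t ht hst
        have e3 := abs_le.1 (hlin s hs t ht)
        rw [abs_of_nonpos h, abs_of_nonneg (by linarith : 0 ≤ t - s)] at e3
        nlinarith [e3.2]
      have e3 := hneg a haI b hbI (by linarith)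
      rw [abs_of_nonpos (by linarith : φ b - φ a ≤ 0)] at e1 e2
      exact ⟨φ b, φ a, by linarith, by linarith,
        fun t ht => ⟨hneg t ht b hbI ht.2, hneg a haI t ht ht.1⟩⟩
  have hLδ : 99 / 100 * δ ≤ β - α := by
    have : 99 / 100 * δ ≤ 99 / 100 * (|lam| * ρ) := by linarith
    linarith
  -- the curve over the image
  set C : ℝ := 100 / (99 * |lam|) with hC
  have hC0 : 0 < C := by positivity
  have hexp : ∀ s ∈ Icc a b, ∀ t ∈ Icc a b, |t - s| ≤ C * |φ t - φ s| := by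
    intro s hs t ht
    have e1 := hlow s hs t ht
    rw [hC, div_mul_eq_mul_div, le_div_iff₀ (by positivity)]
    linarith
  have hinj : InjOn φ (Icc a b) := by
    intro s hs t ht e
    have := hexp s hs t ht
    rw [e, sub_self, abs_zero, mul_zero] at this
    have h0 : t - s = 0 := abs_eq_zero.mp (le_antisymm this (abs_nonneg _))
    linarith
  have hinv : ∀ t ∈ Icc a b, Function.invFunOn φ (Icc a b) (φ t) = t :=
    fun t ht => hinj.leftInvOn_invFunOn ht
  have hL : LipschitzOnWith (Real.toNNReal κ) (fun x => ψ (Function.invFunOn φ (Icc a b) x))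
      (φ '' Icc a b) := by
    rw [lipschitzOnWith_iff_dist_le_mul]
    rintro _ ⟨s, hs, rfl⟩ _ ⟨t, ht, rfl⟩
    show dist (ψ (Function.invFunOn φ (Icc a b) (φ s))) (ψ (Function.invFunOn φ (Icc a b) (φ t))) ≤ _
    rw [hinv s hs, hinv t ht, Real.dist_eq, Real.dist_eq, Real.coe_toNNReal _ hκ0.le]
    have e1 := hψlip t ht s hs
    have e2 := hlow t ht s hs
    have e3 : 3 / A0 ≤ 99 / 100 * κ := by
      rw [hκ, mul_div_assoc', div_le_div_iff₀ hA00 hA0]
      nlinarith [hn.n5]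
    calc |ψ s - ψ t| ≤ 3 / A0 * |lam| * |s - t| := e1
      _ = 3 / A0 * (|lam| * |s - t|) := by ring
      _ ≤ 99 / 100 * κ * (|lam| * |s - t|) := by gcongr
      _ = κ * (99 / 100 * |lam| * |s - t|) := by ring
      _ ≤ κ * |φ s - φ t| := by gcongr
  obtain ⟨g, hgL, hgE⟩ := hL.extend_real
  have hgl : ∀ y ∈ Icc α β, ∀ z ∈ Icc α β, |g y - g z| ≤ κ * |y - z| := fun y _ z _ => by
    have := hgL.dist_le_mul y z
    rwa [Real.dist_eq, Real.dist_eq, Real.coe_toNNReal _ hκ0.le] at this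
  have hgφ : ∀ t ∈ Icc a b, g (φ t) = ψ t := by
    intro t ht
    rw [← hgE (mem_image_of_mem φ ht)]
    show ψ (Function.invFunOn φ (Icc a b) (φ t)) = ψ t
    rw [hinv t ht]
  -- the bad set
  set A' : ℝ := k / (2 * 10 ^ 4) with hA'
  have hA'2 : 2 < A' := by
    rw [hA', lt_div_iff₀ (by norm_num)]
    exact lt_of_lt_of_le (by norm_num) hn.k_large
  have h2A' : 2 * A' = 1 / 10 ^ 4 * k := by rw [hA']; ring
  have hA'k : A' / k = 1 / 20000 := by
    rw [hA']; field_simp; norm_num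
  set ε : ℝ := (3 ^ 5 - 1) * (A' / k + A / k) with hε
  have hε0 : 0 ≤ ε := by rw [hε]; positivity
  have hε1 : ε ≤ 13 / 1000 := by
    rw [hε, hA'k]
    have : A / k ≤ 1 / 10 ^ 8 := hAk1
    norm_num at this ⊢
    linarith
  have hUC : UCB κ (Bad k (2 * A') 5) ε := uc_bad hk hA6 hAk8 hA8 hκ1 le_rfl hA'2 5
  have hseg := seg_step (a := α) (b := β) hk hA6 hAk8 hκ1 le_rfl (by
    have e1 : A / (8000 * k) = A / k / 8000 := by
      rw [div_div, mul_comm k]
    rw [e1]
    have : A / k / 8000 ≤ δ / 10 ^ 8 / 8000 := by gcongr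
    have h3 : δ / 10 ^ 8 / 8000 ≤ 99 / 100 * δ := by
      rw [div_div, div_le_iff₀ (by norm_num)]
      nlinarith
    linarith) hε0 hUC hgl
  have hsmall := volume_vr_small (a := α) (b := β) hk (by linarith : (2:ℝ) < A) (by linarith)
  set T : Set ℝ := {t : ℝ | t ∈ Icc a b ∧ ¬ (A ≤ vv k Y (M + 1) t ∧
      ∀ i, 1 ≤ i → i ≤ 5 → 1 / 10 ^ 4 * k ≤ vv k Y (n0 + 1 + (jS + i)) t)} with hT
  have hTI : ∀ t ∈ T, t ∈ Icc a b := fun t ht => ht.1
  have hTS : φ '' T ⊆ {x | x ∈ Icc α β ∧ (x, fo k x - g x) ∈ Bad k (2 * A') 5} ∪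
      {x | x ∈ Icc α β ∧ |vr k x| ≤ 2 * A} := by
    rintro _ ⟨t, ⟨htI, ht⟩, rfl⟩
    set x : ℕ → ℝ := fun n => (Y n (t : ℂ)).re with hx
    have hxr : ∀ n, x (n + 2) = fo k (x (n + 1)) - x n := fun n => hrec n t
    by_cases h1 : A ≤ vv k Y (M + 1) t
    · left
      refine ⟨himg t htI, ?_⟩
      have h2 : ¬ ∀ i, 1 ≤ i → i ≤ 5 → 1 / 10 ^ 4 * k ≤ vv k Y (n0 + 1 + (jS + i)) t :=
        fun h => ht ⟨h1, h⟩
      push Not at h2
      obtain ⟨i, hi1, hi5, hi⟩ := h2
      rw [vv_real (hco.real _ t)] at hi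
      rw [hgφ t htI]
      have e2 : fo k (φ t) - ψ t = x (M + 2) := (hxr M).symm
      rw [e2]
      refine ⟨i - 1, by omega, ?_⟩
      have e3 := iterate_F hxr (M + 1) (i - 1)
      have e4 : ((F k)^[i - 1] (φ t, x (M + 2))) = (x (M + 1 + (i - 1)), x (M + 1 + 1 + (i - 1))) := e3
      rw [e4, h2A']
      have e5 : M + 1 + 1 + (i - 1) = n0 + 1 + (jS + i) := by omega
      show |vr k (x (M + 1 + 1 + (i - 1)))| < 1 / 10 ^ 4 * k
      rw [e5]
      exact hi
    · right
      refine ⟨himg t htI, ?_⟩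
      push Not at h1
      rw [vv_real (hco.real _ t)] at h1
      show |vr k (φ t)| ≤ 2 * A
      linarith
  have hfin : volume T ≤ (Real.toNNReal C : ℝ≥0∞) * volume (φ '' T) :=
    BVP.volume_le_of_expand fun s hs t ht => by
      rw [Real.coe_toNNReal _ hC0.le]
      exact hexp s (hTI s hs) t (hTI t ht)
  refine hfin.trans ?_
  have hL0 : 0 < β - α := by linarith [mul_pos (by norm_num : (0:ℝ) < 99 / 100) hδ]
  calc (Real.toNNReal C : ℝ≥0∞) * volume (φ '' T)
      ≤ (Real.toNNReal C : ℝ≥0∞) * (ENNReal.ofReal (3 * ε * (β - α) + ((β - α) + 1) * (A / k)) +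
        ENNReal.ofReal (((β - α) + 1) * (A / k))) := by
        gcongr
        exact (measure_mono hTS).trans ((measure_union_le _ _).trans (add_le_add hseg hsmall))
    _ = ENNReal.ofReal (C * ((3 * ε * (β - α) + ((β - α) + 1) * (A / k)) +
          ((β - α) + 1) * (A / k))) := by
        rw [← ENNReal.ofReal_add (by positivity) (by positivity), ENNReal.ofReal_mul hC0.le]
        rfl
    _ ≤ ENNReal.ofReal (ρ / 8) := by
        apply ENNReal.ofReal_le_ofReal
        exact num_aux hAk1 hAkδ hLδ hL0 hε1 hlpos hαβ2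

/-- the position recursion of the instance `y k c` -/
theorem y_rec (k c : ℝ) (n : ℕ) (x : ℝ) :
    (y k (c : ℂ) (n + 2) (x : ℂ)).re = 2 * (y k (c : ℂ) (n + 1) (x : ℂ)).re +
      k * Real.sin (2 * Real.pi * (y k (c : ℂ) (n + 1) (x : ℂ)).re) - (y k (c : ℂ) n (x : ℂ)).re := by
  rw [y_add_two]
  have e : y k (c : ℂ) (n + 1) (x : ℂ) = (((y k (c : ℂ) (n + 1) (x : ℂ)).re : ℝ) : ℂ) :=
    Complex.ext (by simp) (by simp [im_y_ofReal])
  set w : ℝ := (y k (c : ℂ) (n + 1) (x : ℂ)).re with hw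
  rw [e]
  have e2 : (2 * ((w : ℝ) : ℂ) + (k : ℂ) * Complex.sin (2 * (Real.pi : ℂ) * ((w : ℝ) : ℂ))) =
      ((2 * w + k * Real.sin (2 * Real.pi * w) : ℝ) : ℂ) := by push_cast; rfl
  rw [e2, Complex.sub_re, Complex.ofReal_re]

/-- the position recursion of the reversed side `t ↦ y k c n (s - t)` -/
theorem y_rec_sub (k c s : ℝ) (n : ℕ) (x : ℝ) :
    (y k (c : ℂ) (n + 2) ((s : ℂ) - (x : ℂ))).re = 2 * (y k (c : ℂ) (n + 1) ((s : ℂ) - (x : ℂ))).re +
      k * Real.sin (2 * Real.pi * (y k (c : ℂ) (n + 1) ((s : ℂ) - (x : ℂ))).re) -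
        (y k (c : ℂ) n ((s : ℂ) - (x : ℂ))).re := by
  rw [← Complex.ofReal_sub]
  exact y_rec k c n (s - x)

end Crest.Agent.R128.UCStep
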