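import Crest.Agent.R128.LocA3
import Crest.Agent.R128.LocD2
import Crest.Agent.R128.LocSel
import Crest.Agent.R128.LocNum
import Crest.Agent.R128.UCStep

/-!
# LocA, from base data at the foot to cells of measure one half (row 128, helper772)

Second implementation of 595's `LocA4`.
-/

set_option autoImplicit false

open MeasureTheory Metric Set
open Crest.Agent.R128 Crest.Agent.R128.Cell Crest.Agent.R128.CellB Crest.Agent.R128.LocA

namespace Crest.Agent.R128.LocA4X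

/-- large parameter `u`, `k = u^60` -/
structure UU (k u : ℝ) : Prop where
  hu : (10 : ℝ) ^ 20 ≤ u
  k_eq : k = u ^ 60
  A0 : k ^ (2 / 3 : ℝ) = u ^ 40
  A : k ^ (3 / 5 : ℝ) = u ^ 36
  δ : k ^ (-(7 / 20) : ℝ) = (u ^ 21)⁻¹
  sq : Real.sqrt k = u ^ 30

theorem UU.exists {k : ℝ} (hk : (10 : ℝ) ^ 1200 ≤ k) : ∃ u, UU k u := by
  have hk0 : 0 < k := lt_of_lt_of_le (by positivity) hk
  set u : ℝ := k ^ (1 / 60 : ℝ) with hu
  have hu0 : 0 < u := Real.rpow_pos_of_pos hk0 _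
  have hk60 : k = u ^ 60 := by
    rw [hu, ← Real.rpow_natCast, ← Real.rpow_mul hk0.le]; norm_num
  refine ⟨u, ?_, hk60, ?_, ?_, ?_, ?_⟩
  · by_contra h
    push Not at h
    have h1 : u ^ 60 < ((10 : ℝ) ^ 20) ^ 60 := pow_lt_pow_left₀ h hu0.le (by norm_num)
    rw [← hk60, ← pow_mul] at h1
    exact absurd hk (not_le.mpr h1)
  · rw [hu, ← Real.rpow_natCast, ← Real.rpow_mul hk0.le]; norm_num
  · rw [hu, ← Real.rpow_natCast, ← Real.rpow_mul hk0.le]; norm_num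
  · rw [hu, ← Real.rpow_natCast, ← Real.rpow_mul hk0.le, ← Real.rpow_neg hk0.le]; norm_num
  · rw [hk60, show (60 : ℕ) = 30 * 2 by norm_num, pow_mul]
    exact Real.sqrt_sq (by positivity)

section

variable {k u : ℝ}

theorem UU.one_le (U : UU k u) : 1 ≤ u := le_trans (by norm_num) U.hu

theorem UU.pos (U : UU k u) : 0 < u := lt_of_lt_of_le one_pos U.one_le

theorem UU.pow_ge (U : UU k u) (n : ℕ) : ((10 : ℝ) ^ 20) ^ n ≤ u ^ n :=
  pow_le_pow_left₀ (by norm_num) U.hu n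

theorem UU.pow_le (U : UU k u) {m n : ℕ} (h : m ≤ n) : u ^ m ≤ u ^ n :=
  pow_le_pow_right₀ U.one_le h

/-- gap of two powers -/
theorem UU.gap (U : UU k u) {m n : ℕ} (h : m + 1 ≤ n) : (10 : ℝ) ^ 20 * u ^ m ≤ u ^ n := by
  have h1 : u * u ^ m ≤ u ^ n := by
    rw [← pow_succ']
    exact U.pow_le h
  refine le_trans ?_ h1
  have := U.hu
  have h0 := U.pos
  gcongr

theorem UU.gap6 (U : UU k u) {m n : ℕ} (h : m + 6 ≤ n) : (10 : ℝ) ^ 120 * u ^ m ≤ u ^ n := by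
  have h1 : u ^ 6 * u ^ m ≤ u ^ n := by
    rw [← pow_add]
    exact U.pow_le (by omega)
  refine le_trans ?_ h1
  have h0 := U.pos
  have h2 := U.pow_ge 6
  rw [← pow_mul] at h2
  exact mul_le_mul_of_nonneg_right h2 (by positivity)

theorem UU.k_large (U : UU k u) : (10 : ℝ) ^ 1200 ≤ k := by
  rw [U.k_eq]
  have := U.pow_ge 60
  rw [← pow_mul] at this
  exact this

theorem UU.k_pos (U : UU k u) : 0 < k := lt_of_lt_of_le (by positivity) U.k_large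

theorem UU.k_ge (U : UU k u) {n : ℕ} (hn : n ≤ 1200) : (10 : ℝ) ^ n ≤ k :=
  le_trans (pow_le_pow_right₀ (by norm_num) hn) U.k_large

theorem UU.k10 (U : UU k u) : 10 ≤ k := by
  have := U.k_ge (n := 1) (by norm_num)
  rwa [pow_one] at this

theorem UU.k1 (U : UU k u) : 1 ≤ k := le_trans (by norm_num) U.k10

theorem UU.numB (U : UU k u) {ρ : ℝ} (hρ : 0 < ρ) :
    NumB k (k ^ (3 / 5 : ℝ)) (k ^ (-(7 / 20) : ℝ)) ρ := by
  have h0 := U.pos
  have h1 := U.one_le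
  refine ⟨?_, ?_, ?_, ?_, ?_, ?_, ?_, ?_, hρ⟩
  · refine le_trans ?_ U.k_large
    exact pow_le_pow_right₀ (by norm_num) (by norm_num)
  · rw [U.A, U.sq, U.k_eq]
    have := U.gap6 (m := 150) (n := 180) (by norm_num)
    calc (10 : ℝ) ^ 60 * (u ^ 60) ^ 2 * u ^ 30 = 10 ^ 60 * u ^ 150 := by ring
      _ ≤ 10 ^ 120 * u ^ 150 := by gcongr <;> norm_num
      _ ≤ u ^ 180 := this
      _ = (u ^ 36) ^ 5 := by ring
  · rw [U.A, U.k_eq]
    have := U.gap6 (m := 60) (n := 72) (by norm_num)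
    calc (10 : ℝ) ^ 40 * u ^ 60 ≤ 10 ^ 120 * u ^ 60 := by gcongr <;> norm_num
      _ ≤ u ^ 72 := this
      _ = (u ^ 36) ^ 2 := by ring
  · rw [U.A, U.k_eq, le_div_iff₀ (by norm_num)]
    have := U.gap (m := 36) (n := 60) (by norm_num)
    calc u ^ 36 * 10 ^ 4 ≤ 10 ^ 20 * u ^ 36 := by
          rw [mul_comm]
          gcongr <;> norm_num
      _ ≤ u ^ 60 := this
  · rw [U.A]
    have := U.gap6 (m := 0) (n := 36) (by norm_num)
    calc (10 : ℝ) ^ 60 ≤ 10 ^ 120 * u ^ 0 := by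
          rw [pow_zero, mul_one]
          exact pow_le_pow_right₀ (by norm_num) (by norm_num)
      _ ≤ u ^ 36 := this
  · rw [U.δ]; positivity
  · rw [U.δ]
    exact inv_le_one_of_one_le₀ (one_le_pow₀ h1)
  · rw [U.δ, U.A, ← div_eq_mul_inv, le_div_iff₀ (by positivity), one_mul]
    exact U.pow_le (by norm_num)

end

/-- real digits are at most `7 k` -/
theorem vv_le7 {k : ℝ} (hk : 10 ≤ k) {Y D : ℕ → ℂ → ℂ} {S : Set ℂ} (co : CO k S Y D) (m : ℕ)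
    (x : ℝ) : vv k Y m (x : ℂ) ≤ 7 * k := by
  rw [UCStep.vv_real (co.real m x)]
  unfold UCStep.vr
  have h1 := Real.abs_cos_le_one (2 * Real.pi * (Y m (x : ℂ)).re)
  have h3 := Real.pi_lt_d2
  have h4 := Real.pi_pos
  calc |2 + 2 * Real.pi * k * Real.cos (2 * Real.pi * (Y m (x : ℂ)).re)|
      ≤ |(2 : ℝ)| + |2 * Real.pi * k * Real.cos (2 * Real.pi * (Y m (x : ℂ)).re)| :=
        abs_add_le _ _
    _ = 2 + 2 * Real.pi * k * |Real.cos (2 * Real.pi * (Y m (x : ℂ)).re)| := by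
        rw [abs_mul, abs_of_nonneg (by positivity : 0 ≤ 2 * Real.pi * k),
          abs_of_pos (by norm_num : (0 : ℝ) < 2)]
    _ ≤ 2 + 2 * 3.15 * k * 1 := by gcongr
    _ ≤ 7 * k := by linarith

/-- base data of one side at the point `t0`, radius `r` -/
structure Base (k c : ℝ) (s : Bool) (n0 M : ℕ) (t0 r0 r : ℝ) : Prop where
  r0_pos : 0 < r0
  r_pos : 0 < r
  close : ∀ t ∈ ball (t0 : ℂ) (2 * r0),
    ‖Loc.D k c s (n0 + 1) t - Loc.D k c s (n0 + 1) t0‖ ≤ 1 / 2500 * ‖Loc.D k c s (n0 + 1) t0‖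
  prev : ∀ t ∈ ball (t0 : ℂ) (2 * r0), ‖Loc.D k c s n0 t‖ ≤ 99 / 100 * ‖Loc.D k c s (n0 + 1) t0‖
  ne : Loc.D k c s (n0 + 1) t0 ≠ 0
  small : 10 ^ 11 * k * (‖Loc.D k c s (n0 + 1) t0‖ * r0) ≤ k ^ (3 / 5 : ℝ)
  old : 10 ^ 11 * k * (‖Loc.D k c s (n0 + 1) t0‖ * r) ≤ (‖Loc.D k c s (n0 + 1) t0‖ * r0) ^ 3
  lower : 1 ≤ k ^ 61 * (‖Loc.D k c s (n0 + 1) t0‖ * (2 * r))
  dig : ∀ j < M, k ^ (2 / 3 : ℝ) ≤ ‖cV k (Loc.Y k c s (n0 + 1 + j) t0)‖
  big : k ^ (-(7 / 20) : ℝ) ≤ ‖Loc.D k c s (n0 + 1 + M) t0‖ * (2 * r)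

section side

variable {k u c t0 r r0 : ℝ} {s : Bool} {n0 M : ℕ}

theorem Base.d_pos (B : Base k c s n0 M t0 r0 r) : 0 < ‖Loc.D k c s (n0 + 1) t0‖ :=
  norm_pos_iff.mpr B.ne

theorem Base.x_le (U : UU k u) (B : Base k c s n0 M t0 r0 r) :
    10 ^ 11 * u ^ 24 * (‖Loc.D k c s (n0 + 1) t0‖ * r0) ≤ 1 := by
  have h1 := B.small
  rw [U.A] at h1
  have h0 := U.pos
  have h2 : u ^ 36 * (10 ^ 11 * u ^ 24 * (‖Loc.D k c s (n0 + 1) t0‖ * r0)) ≤ u ^ 36 * 1 := by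
    calc u ^ 36 * (10 ^ 11 * u ^ 24 * (‖Loc.D k c s (n0 + 1) t0‖ * r0))
        = 10 ^ 11 * u ^ 60 * (‖Loc.D k c s (n0 + 1) t0‖ * r0) := by ring
      _ = 10 ^ 11 * k * (‖Loc.D k c s (n0 + 1) t0‖ * r0) := by rw [← U.k_eq]
      _ ≤ u ^ 36 := h1
      _ = _ := (mul_one _).symm
  exact le_of_mul_le_mul_left h2 (by positivity)

theorem Base.x_le_one (U : UU k u) (B : Base k c s n0 M t0 r0 r) :
    ‖Loc.D k c s (n0 + 1) t0‖ * r0 ≤ 1 := by
  have h1 := B.x_le U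
  have h0 := U.pos
  have h2 : 0 ≤ ‖Loc.D k c s (n0 + 1) t0‖ * r0 := mul_nonneg (norm_nonneg _) B.r0_pos.le
  have h3 : 1 ≤ 10 ^ 11 * u ^ 24 := by
    have : 1 ≤ u ^ 24 := one_le_pow₀ U.one_le
    linarith
  nlinarith

theorem Base.cube_le (U : UU k u) (B : Base k c s n0 M t0 r0 r) :
    (‖Loc.D k c s (n0 + 1) t0‖ * r0) ^ 3 ≤ ‖Loc.D k c s (n0 + 1) t0‖ * r0 := by
  have h1 := B.x_le_one U
  have h2 : 0 ≤ ‖Loc.D k c s (n0 + 1) t0‖ * r0 := mul_nonneg (norm_nonneg _) B.r0_pos.le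
  calc (‖Loc.D k c s (n0 + 1) t0‖ * r0) ^ 3
      = (‖Loc.D k c s (n0 + 1) t0‖ * r0) ^ 2 * (‖Loc.D k c s (n0 + 1) t0‖ * r0) := by ring
    _ ≤ 1 ^ 2 * (‖Loc.D k c s (n0 + 1) t0‖ * r0) := by gcongr
    _ = _ := by ring

/-- `r` is much smaller than `r0` -/
theorem Base.r_le (U : UU k u) (B : Base k c s n0 M t0 r0 r) : 10 ^ 11 * k * r ≤ r0 := by
  have h1 := B.old.trans (B.cube_le U)
  have h2 : ‖Loc.D k c s (n0 + 1) t0‖ * (10 ^ 11 * k * r) ≤ ‖Loc.D k c s (n0 + 1) t0‖ * r0 := by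
    linarith
  exact le_of_mul_le_mul_left h2 B.d_pos

theorem Base.r_le' (U : UU k u) (B : Base k c s n0 M t0 r0 r) : 10 ^ 11 * r ≤ r0 := by
  refine le_trans ?_ (B.r_le U)
  have hr := B.r_pos
  have h1 := mul_le_mul_of_nonneg_left U.k1 (by positivity : 0 ≤ 10 ^ 11 * r)
  linarith

theorem base_start (U : UU k u) (B : Base k c s n0 M t0 r0 r) {J : ℕ} (hJ : J ≤ M) :
    Start k (Loc.Y k c s) (Ds k c s) n0 t0 (2 * r0) (1 / 1000) (k ^ (2 / 3 : ℝ)) J := by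
  have hd0 := norm_nonneg (Loc.D k c s (n0 + 1) t0)
  have hr0 := B.r0_pos
  have hk0 := U.k_pos
  refine ⟨co_loc k c s _, ⟨fun t ht => ?_, fun t ht => ?_⟩, by linarith, ?_, ?_,
    fun j hj => B.dig j (by omega)⟩
  · rw [norm_Ds_sub, norm_Ds]
    refine (B.close t ht).trans ?_
    gcongr
    norm_num
  · rw [norm_Ds, norm_Ds]
    refine (B.prev t ht).trans ?_
    linarith
  · intro h
    apply B.ne
    have := norm_Ds k c s (n0 + 1) t0
    rw [h, norm_zero] at this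
    exact norm_eq_zero.mp this.symm
  · rw [norm_Ds]
    have h1 := B.small
    have h2 : k ^ (3 / 5 : ℝ) ≤ k ^ (2 / 3 : ℝ) := by
      rw [U.A, U.A0]; exact U.pow_le (by norm_num)
    refine le_trans ?_ (h1.trans h2)
    have h3 : 0 ≤ k * (‖Loc.D k c s (n0 + 1) t0‖ * r0) := by positivity
    nlinarith

theorem base_chain (U : UU k u) (B : Base k c s n0 M t0 r0 r) {J : ℕ} (hJ : J ≤ M)
    (hJ' : J ≤ 100) :
    (∀ j ≤ J, NA (Loc.Y k c s) (Ds k c s) (n0 + j) t0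
        (rad k (Loc.Y k c s) (Ds k c s) n0 (2 * r0) t0 j) (1 / 100) ∧
      0 < ‖Ds k c s (n0 + 1 + j) t0‖ ∧ 0 < rad k (Loc.Y k c s) (Ds k c s) n0 (2 * r0) t0 j) ∧
    (∀ j < J, rad k (Loc.Y k c s) (Ds k c s) n0 (2 * r0) t0 (j + 1) ≤
        rad k (Loc.Y k c s) (Ds k c s) n0 (2 * r0) t0 j ∧
      (vv k (Loc.Y k c s) (n0 + 1 + j) t0 - 1) * ‖Ds k c s (n0 + 1 + j) t0‖ ≤
        ‖Ds k c s (n0 + 1 + (j + 1)) t0‖ ∧
      ‖Ds k c s (n0 + 1 + (j + 1)) t0‖ ≤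
        (vv k (Loc.Y k c s) (n0 + 1 + j) t0 + 1) * ‖Ds k c s (n0 + 1 + j) t0‖ ∧
      ∀ t ∈ ball (t0 : ℂ) (rad k (Loc.Y k c s) (Ds k c s) n0 (2 * r0) t0 (j + 1)),
        ‖Ds k c s (n0 + 1 + j) t‖ ≤
          2 / vv k (Loc.Y k c s) (n0 + 1 + j) t0 * ‖Ds k c s (n0 + 1 + (j + 1)) t0‖) := by
  have h0 := U.pos
  refine chain (U.k_ge (by norm_num)) ?_ ?_ hJ' (base_start U B hJ)
  · rw [U.A0, U.k_eq]
    have := U.gap (m := 60) (n := 80) (by norm_num)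
    calc 16000 * u ^ 60 ≤ 10 ^ 20 * u ^ 60 := by gcongr; norm_num
      _ ≤ u ^ 80 := this
      _ = (u ^ 40) ^ 2 := by ring
  · rw [U.A0]; positivity

/-- growth of the sizes along the run -/
theorem base_growth (U : UU k u) (B : Base k c s n0 M t0 r0 r) {J : ℕ} (hJ : J ≤ M)
    (hJ' : J ≤ 100) : ∀ j ≤ J, (u ^ 39) ^ j * ‖Ds k c s (n0 + 1) t0‖ ≤
      ‖Ds k c s (n0 + 1 + j) t0‖ := by
  obtain ⟨c1, c2⟩ := base_chain U B hJ hJ'
  have h0 := U.pos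
  intro j
  induction j with
  | zero => intro _; simp
  | succ j ih =>
    intro hj
    have h1 := ih (by omega)
    have h2 := (c2 j (by omega)).2.1
    have h3 : k ^ (2 / 3 : ℝ) ≤ vv k (Loc.Y k c s) (n0 + 1 + j) t0 := B.dig j (by omega)
    rw [U.A0] at h3
    have h4 := U.gap (m := 39) (n := 40) (by norm_num)
    have h5 : u ^ 39 ≤ vv k (Loc.Y k c s) (n0 + 1 + j) t0 - 1 := by
      have : 1 ≤ u ^ 39 := one_le_pow₀ U.one_le
      linarith
    calc (u ^ 39) ^ (j + 1) * ‖Ds k c s (n0 + 1) t0‖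
        = u ^ 39 * ((u ^ 39) ^ j * ‖Ds k c s (n0 + 1) t0‖) := by ring
      _ ≤ (vv k (Loc.Y k c s) (n0 + 1 + j) t0 - 1) * ‖Ds k c s (n0 + 1 + j) t0‖ := by
          apply mul_le_mul h5 h1 (by positivity)
          have : 0 ≤ u ^ 39 := by positivity
          linarith
      _ ≤ _ := h2

/-- the exit index -/
theorem exists_exit (U : UU k u) (B : Base k c s n0 M t0 r0 r) :
    ∃ jS, 1 ≤ jS ∧ jS ≤ M ∧ jS + 6 ≤ 100 ∧
      (∀ j < jS, ‖Ds k c s (n0 + 1 + j) t0‖ * (2 * r) < k ^ (-(7 / 20) : ℝ)) ∧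
      k ^ (-(7 / 20) : ℝ) ≤ ‖Ds k c s (n0 + 1 + jS) t0‖ * (2 * r) := by
  classical
  have h0 := U.pos
  have hr := B.r_pos
  have hex : ∃ j, k ^ (-(7 / 20) : ℝ) ≤ ‖Ds k c s (n0 + 1 + j) t0‖ * (2 * r) :=
    ⟨M, by rw [norm_Ds]; exact B.big⟩
  set jS := Nat.find hex with hjS
  have hP := Nat.find_spec hex
  rw [← hjS] at hP
  have hmin : ∀ j < jS, ‖Ds k c s (n0 + 1 + j) t0‖ * (2 * r) < k ^ (-(7 / 20) : ℝ) :=
    fun j hj => not_le.mp (Nat.find_min hex hj)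
  have hM : jS ≤ M := Nat.find_min' hex (by rw [norm_Ds]; exact B.big)
  refine ⟨jS, ?_, hM, ?_, hmin, hP⟩
  · by_contra hcon
    have hj0 : jS = 0 := by omega
    rw [hj0] at hP
    simp only [add_zero] at hP
    rw [norm_Ds, U.δ] at hP
    have h1 := B.old.trans (B.cube_le U)
    have h2 := B.x_le U
    have h3 : 10 ^ 11 * k * (‖Loc.D k c s (n0 + 1) t0‖ * r) ≤ 1 := by
      refine h1.trans (B.x_le_one U)
    rw [inv_le_iff_one_le_mul₀ (by positivity)] at hP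
    have h5 : u ^ 21 * (‖Loc.D k c s (n0 + 1) t0‖ * (2 * r)) ≤ 1 / 10 ^ 10 := by
      have h6 : u ^ 21 ≤ k := by
        rw [U.k_eq]; exact U.pow_le (by norm_num)
      have h7 : 0 ≤ ‖Loc.D k c s (n0 + 1) t0‖ * r := by positivity
      have h8 : u ^ 21 * (‖Loc.D k c s (n0 + 1) t0‖ * r) ≤
          k * (‖Loc.D k c s (n0 + 1) t0‖ * r) := by gcongr
      rw [le_div_iff₀ (by norm_num)]
      linarith
    have h9 : ‖Loc.D k c s (n0 + 1) t0‖ * (2 * r) * u ^ 21 =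
        u ^ 21 * (‖Loc.D k c s (n0 + 1) t0‖ * (2 * r)) := by ring
    norm_num at h5
    linarith
  · by_contra hcon
    have h94 : 94 < jS := by omega
    have h1 := base_growth U B (J := 94) (by omega) (by norm_num) 94 le_rfl
    have h2 := hmin 94 h94
    have h3 := B.lower
    rw [norm_Ds] at h1
    have hδ : k ^ (-(7 / 20) : ℝ) ≤ 1 := by
      rw [U.δ]
      exact inv_le_one_of_one_le₀ (one_le_pow₀ U.one_le)
    have h4 : (u ^ 39) ^ 94 * (‖Loc.D k c s (n0 + 1) t0‖ * (2 * r)) < 1 := by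
      calc (u ^ 39) ^ 94 * (‖Loc.D k c s (n0 + 1) t0‖ * (2 * r))
          = ((u ^ 39) ^ 94 * ‖Loc.D k c s (n0 + 1) t0‖) * (2 * r) := by ring
        _ ≤ ‖Ds k c s (n0 + 1 + 94) t0‖ * (2 * r) := by gcongr
        _ < 1 := lt_of_lt_of_le h2 hδ
    have h5 : k ^ 61 ≤ (u ^ 39) ^ 94 := by
      rw [U.k_eq, ← pow_mul, ← pow_mul]
      exact U.pow_le (by norm_num)
    have h6 : k ^ 61 * (‖Loc.D k c s (n0 + 1) t0‖ * (2 * r)) ≤
        (u ^ 39) ^ 94 * (‖Loc.D k c s (n0 + 1) t0‖ * (2 * r)) := by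
      have : 0 ≤ ‖Loc.D k c s (n0 + 1) t0‖ * (2 * r) := by positivity
      gcongr
    linarith

/-- the digits are nice at `t` -/
def Nice (k c : ℝ) (s : Bool) (n0 jS : ℕ) (t : ℝ) : Prop :=
  k ^ (3 / 5 : ℝ) ≤ vv k (Loc.Y k c s) (n0 + jS + 1) t ∧
    ∀ i, 1 ≤ i → i ≤ 5 → 1 / 10 ^ 4 * k ≤ vv k (Loc.Y k c s) (n0 + jS + 1 + i) t

/-- **one side**: exit index, nice set, good sides -/
theorem side (U : UU k u) (B : Base k c s n0 M t0 r0 r) :
    ∃ jS, 1 ≤ jS ∧ jS + 6 ≤ 100 ∧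
      volume {t : ℝ | t ∈ Icc (t0 - r) (t0 + r) ∧ ¬ Nice k c s n0 jS t} ≤
        ENNReal.ofReal (2 * r / 8) ∧
      ∀ t1 ∈ Icc (t0 - r) (t0 + r), Nice k c s n0 jS t1 →
        SideOK k c s n0 jS r0 (2 * r) (k ^ (-(7 / 20) : ℝ)) (k ^ (3 / 5 : ℝ)) t1 := by
  obtain ⟨jS, hj1, hjM, hj100, hmin, hexit⟩ := exists_exit U B
  obtain ⟨c1, c2⟩ := base_chain U B hjM (by omega)
  have hk0 := U.k_pos
  have hk10 := U.k10
  have hk1 := U.k1
  have h0 := U.pos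
  have hr := B.r_pos
  have hr0 := B.r0_pos
  have hd0 := B.d_pos
  have hrr := B.r_le' U
  set Y := Loc.Y k c s with hY
  set D := Ds k c s with hD
  -- radii
  have hrad : ∀ j ≤ jS, 20 * r ≤ rad k Y D n0 (2 * r0) t0 j := by
    intro j hj
    cases j with
    | zero =>
      simp only [rad]
      linarith
    | succ j =>
      simp only [rad]
      refine le_min (by linarith) ?_
      have hdj : 0 < ‖D (n0 + 1 + j) t0‖ := (c1 j (by omega)).2.1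
      have h1 := hmin j (by omega)
      rw [U.δ] at h1
      have h2 : k ^ (2 / 3 : ℝ) ≤ vv k Y (n0 + 1 + j) t0 := B.dig j (by omega)
      rw [U.A0] at h2
      rw [le_div_iff₀ (by positivity)]
      have h3 : k * (‖D (n0 + 1 + j) t0‖ * (2 * r)) ≤ u ^ 39 := by
        calc k * (‖D (n0 + 1 + j) t0‖ * (2 * r)) ≤ k * (u ^ 21)⁻¹ := by gcongr
          _ = u ^ 60 * (u ^ 21)⁻¹ := by rw [← U.k_eq]
          _ = u ^ 39 := by field_simp
      have h4 := U.gap (m := 39) (n := 40) (by norm_num)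
      calc 20 * r * (k * ‖D (n0 + 1 + j) t0‖)
          = 10 * (k * (‖D (n0 + 1 + j) t0‖ * (2 * r))) := by ring
        _ ≤ 10 * u ^ 39 := by gcongr
        _ ≤ 1 / 10 ^ 10 * (10 ^ 20 * u ^ 39) := by
            have : 0 ≤ u ^ 39 := by positivity
            norm_num
            linarith
        _ ≤ 1 / 10 ^ 10 * vv k Y (n0 + 1 + j) t0 := by
            have := h4.trans h2
            gcongr
  have hball : ∀ j ≤ jS, ball (t0 : ℂ) (2 * (2 * r)) ⊆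
      ball (t0 : ℂ) (rad k Y D n0 (2 * r0) t0 j) := fun j hj =>
    ball_subset_ball (by linarith [hrad j hj])
  have hin : ∀ t1 ∈ Icc (t0 - r) (t0 + r), ∀ j ≤ jS,
      (t1 : ℂ) ∈ ball (t0 : ℂ) (rad k Y D n0 (2 * r0) t0 j) := by
    intro t1 ht1 j hj
    rw [mem_ball, Complex.dist_eq, ← Complex.ofReal_sub, Complex.norm_real, Real.norm_eq_abs]
    have := hrad j hj
    rw [abs_lt]
    constructor <;> linarith [ht1.1, ht1.2]
  refine ⟨jS, hj1, hj100, ?_, ?_⟩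
  · -- the measure of the bad digits
    have hNA := (c1 jS le_rfl).1
    have hprev := (c2 (jS - 1) (by omega)).2.2.2
    have e1 : jS - 1 + 1 = jS := by omega
    rw [e1] at hprev
    have e2 : n0 + jS + 1 = n0 + 1 + jS := by omega
    have e3 : n0 + 1 + (jS - 1) = n0 + jS := by omega
    have h := LocD.nice_points (k := k) (U.k_ge (by norm_num))
      (Y := Y) (D := D) (t₀ := t0) (ρ := 2 * r) (a := t0 - r) (b := t0 + r) (by linarith)
      (by ring) (by linarith) (by linarith) (co_loc k c s _) (M := n0 + jS)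
      (fun t ht => hNA.close t (hball jS le_rfl ht))
      (fun t ht => by
        have h1 := hprev t (hball jS le_rfl ht)
        have h2 : k ^ (2 / 3 : ℝ) ≤ vv k Y (n0 + 1 + (jS - 1)) t0 := B.dig (jS - 1) (by omega)
        rw [U.A0] at h2
        rw [e3] at h1 h2
        rw [e2]
        refine h1.trans ?_
        have h3 : (10 : ℝ) ≤ vv k Y (n0 + jS) t0 := by
          refine le_trans ?_ h2
          have := U.gap (m := 0) (n := 40) (by norm_num)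
          rw [pow_zero, mul_one] at this
          refine le_trans ?_ this
          norm_num
        have h4 : 2 / vv k Y (n0 + jS) t0 ≤ 1 / 5 := by
          rw [div_le_div_iff₀ (by linarith) (by norm_num)]
          linarith
        gcongr)
      (by rw [e2]; exact hexit)
    exact h
  · -- the good side
    intro t1 ht1 hnice
    have hD1 : ‖D (n0 + 1) t0‖ = ‖Loc.D k c s (n0 + 1) t0‖ := norm_Ds _ _ _ _ _
    have hsub : ball (t1 : ℂ) r0 ⊆ ball (t0 : ℂ) (2 * r0) := by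
      apply ball_subset_ball'
      rw [Complex.dist_eq, ← Complex.ofReal_sub, Complex.norm_real, Real.norm_eq_abs]
      have : |t1 - t0| ≤ r := abs_le.mpr ⟨by linarith [ht1.1], by linarith [ht1.2]⟩
      linarith
    have ht1b : (t1 : ℂ) ∈ ball (t0 : ℂ) (2 * r0) := hsub (mem_ball_self hr0)
    have hc1 := B.close t1 ht1b
    set d := ‖Loc.D k c s (n0 + 1) t0‖ with hd
    have hlow : 0.9996 * d ≤ ‖Loc.D k c s (n0 + 1) t1‖ := by
      have h1 := norm_sub_norm_le (Loc.D k c s (n0 + 1) t0) (Loc.D k c s (n0 + 1) t1)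
      rw [norm_sub_rev] at h1
      linarith
    have hupp : ‖Loc.D k c s (n0 + 1) t1‖ ≤ 1.0004 * d := by
      have h1 := norm_sub_norm_le (Loc.D k c s (n0 + 1) t1) (Loc.D k c s (n0 + 1) t0)
      linarith
    have hx1 := B.x_le_one U
    have hsm := B.small
    have hold := B.old
    rw [← hd] at hx1 hsm hold
    have hx0 : 0 < d * r0 := by positivity
    -- digits before the exit
    have hdig : ∀ j < jS, k ^ (3 / 5 : ℝ) ≤ vv k Y (n0 + 1 + j) t1 := by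
      intro j hj
      have hNA := (c1 j hj.le).1
      have hmono := (c2 j hj).1
      have h2 : k ^ (2 / 3 : ℝ) ≤ vv k Y (n0 + 1 + j) t0 := B.dig j (by omega)
      have hdj : 0 < ‖D (n0 + 1 + j) t0‖ := (c1 j hj.le).2.1
      have e1 : n0 + j + 1 = n0 + 1 + j := by omega
      have h3 := digit_var (k := k) hk1 (n := n0 + j) (η := 1 / 100)
        (r := rad k Y D n0 (2 * r0) t0 (j + 1)) (v := vv k Y (n0 + 1 + j) t0)
        (co_loc k c s _) (hNA.mono hmono) (by norm_num) le_rfl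
        (by
          have := vv_le7 hk10 (co_loc k c s univ) (n0 + 1 + j) t0
          linarith) (by
          rw [e1]
          have h7 : rad k Y D n0 (2 * r0) t0 (j + 1) ≤
              1 / 10 ^ 10 * vv k Y (n0 + 1 + j) t0 / (k * ‖D (n0 + 1 + j) t0‖) := by
            simp only [rad]; exact min_le_right _ _
          rw [le_div_iff₀ (by positivity)] at h7
          nlinarith) (t := t1) (hin t1 ht1 (j + 1) (by omega))
      rw [e1] at h3
      have h4 : vv k Y (n0 + 1 + j) t0 - vv k Y (n0 + 1 + j) t1 ≤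
          1 / 10 ^ 5 * vv k Y (n0 + 1 + j) t0 := by
        refine le_trans ?_ h3
        have := norm_sub_norm_le (cV k (Y (n0 + 1 + j) t0)) (cV k (Y (n0 + 1 + j) t1))
        rw [norm_sub_rev] at this
        exact this
      rw [U.A0] at h2
      rw [U.A]
      have h5 := U.gap (m := 36) (n := 40) (by norm_num)
      have h6 : 0 < u ^ 36 := by positivity
      nlinarith
    have hNAj := (c1 jS le_rfl).1
    have hcj := hNAj.close t1 (hin t1 ht1 jS le_rfl)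
    have e1 : n0 + jS + 1 = n0 + 1 + jS := by omega
    rw [e1] at hcj
    obtain ⟨hn1, hn2⟩ := hnice
    rw [e1] at hn1 hn2
    refine ⟨⟨co_loc k c s _, ⟨fun t ht => ?_, fun t ht => ?_⟩, hr0, ?_, ?_, fun j hj => ?_⟩, ?_, ?_,
      ?_, ?_, hj100⟩
    · rw [norm_Ds_sub, norm_Ds]
      have h1 := B.close t (hsub ht)
      rw [← hd] at h1
      have h2 : ‖Loc.D k c s (n0 + 1) t - Loc.D k c s (n0 + 1) t1‖ ≤
          ‖Loc.D k c s (n0 + 1) t - Loc.D k c s (n0 + 1) t0‖ +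
            ‖Loc.D k c s (n0 + 1) t1 - Loc.D k c s (n0 + 1) t0‖ := by
        rw [norm_sub_rev (Loc.D k c s (n0 + 1) t1)]
        have := norm_add_le (Loc.D k c s (n0 + 1) t - Loc.D k c s (n0 + 1) t0)
          (Loc.D k c s (n0 + 1) t0 - Loc.D k c s (n0 + 1) t1)
        rwa [sub_add_sub_cancel] at this
      linarith
    · rw [norm_Ds, norm_Ds]
      have h1 := B.prev t (hsub ht)
      rw [← hd] at h1
      linarith
    · intro h
      have := norm_Ds k c s (n0 + 1) t1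
      rw [h, norm_zero] at this
      linarith
    · rw [norm_Ds]
      have h1 : ‖Loc.D k c s (n0 + 1) t1‖ * r0 ≤ 1.0004 * (d * r0) := by
        calc ‖Loc.D k c s (n0 + 1) t1‖ * r0 ≤ (1.0004 * d) * r0 := by gcongr
          _ = _ := by ring
      have h2 : 10 ^ 10 * k * (‖Loc.D k c s (n0 + 1) t1‖ * r0) ≤
          10 ^ 10 * k * (1.0004 * (d * r0)) := by gcongr
      have h3 : 0 < k * (d * r0) := by positivity
      nlinarith
    · rcases lt_or_ge j jS with h1 | h1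
      · exact hdig j h1
      · rcases Nat.eq_or_lt_of_le h1 with h2 | h2
        · rw [← h2]; exact hn1
        · have h3 := hn2 (j - jS) (by omega) (by omega)
          have e4 : n0 + 1 + jS + (j - jS) = n0 + 1 + j := by omega
          rw [e4] at h3
          refine le_trans ?_ h3
          have := (U.numB (ρ := 1) one_pos).A_le
          linarith
    · intro i hi1 hi5
      have h3 := hn2 i hi1 hi5
      have e4 : n0 + 1 + jS + i = n0 + 1 + (jS + i) := by omega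
      rw [e4] at h3
      linarith
    · have h1 := norm_sub_norm_le (D (n0 + 1 + jS) t0) (D (n0 + 1 + jS) t1)
      rw [norm_sub_rev] at h1
      have h2 : 1 / 2 * ‖D (n0 + 1 + jS) t0‖ ≤ ‖D (n0 + 1 + jS) t1‖ := by
        have := norm_nonneg (D (n0 + 1 + jS) t0)
        linarith
      have h3 : 1 / 2 * ‖D (n0 + 1 + jS) t0‖ * (2 * r) ≤ ‖D (n0 + 1 + jS) t1‖ * (2 * r) := by
        gcongr
      linarith
    · have h1 := norm_sub_norm_le (D (n0 + 1 + jS) t1) (D (n0 + 1 + jS) t0)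
      have h2 : ‖D (n0 + 1 + jS) t1‖ ≤ 1.01 * ‖D (n0 + 1 + jS) t0‖ := by linarith
      have h3 := (c2 (jS - 1) (by omega)).2.2.1
      have e5 : jS - 1 + 1 = jS := by omega
      rw [e5] at h3
      have h4 := vv_le7 hk10 (co_loc k c s univ) (n0 + 1 + (jS - 1)) t0
      have h5 := hmin (jS - 1) (by omega)
      have hδ0 : 0 < k ^ (-(7 / 20) : ℝ) := by positivity
      have hdd : 0 ≤ ‖D (n0 + 1 + (jS - 1)) t0‖ := norm_nonneg _
      calc ‖D (n0 + 1 + jS) t1‖ * (2 * r)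
          ≤ 1.01 * ((vv k Y (n0 + 1 + (jS - 1)) t0 + 1) * ‖D (n0 + 1 + (jS - 1)) t0‖) * (2 * r) := by
            have := h2.trans (mul_le_mul_of_nonneg_left h3 (by norm_num : (0 : ℝ) ≤ 1.01))
            gcongr
        _ ≤ 1.01 * ((7 * k + 1) * ‖D (n0 + 1 + (jS - 1)) t0‖) * (2 * r) := by gcongr
        _ = 1.01 * (7 * k + 1) * (‖D (n0 + 1 + (jS - 1)) t0‖ * (2 * r)) := by ring
        _ ≤ 1.01 * (7 * k + 1) * k ^ (-(7 / 20) : ℝ) := by gcongr
        _ ≤ 20 * k * k ^ (-(7 / 20) : ℝ) := by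
            have h6 : 1.01 * (7 * k + 1) ≤ 20 * k := by linarith
            exact mul_le_mul_of_nonneg_right h6 hδ0.le
    · rw [norm_Ds]
      have h1 : 10 ^ 9 * k * (‖Loc.D k c s (n0 + 1) t1‖ * (2 * r)) ≤
          10 ^ 9 * k * (1.0004 * d * (2 * r)) := by gcongr
      have h2 : (0.9996 * d * r0) ^ 3 ≤ (‖Loc.D k c s (n0 + 1) t1‖ * r0) ^ 3 := by gcongr
      have h3 : (0.9996 * d * r0) ^ 3 = 0.9996 ^ 3 * (d * r0) ^ 3 := by ring
      have h4 : 0 < (d * r0) ^ 3 := by positivity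
      have h5 : (0.9 : ℝ) * (d * r0) ^ 3 ≤ 0.9996 ^ 3 * (d * r0) ^ 3 := by
        gcongr
        norm_num
      nlinarith

end side

theorem sideSum : SideSum := fun _ _ _ _ _ _ _ _ _ _ _ _ hk hA0 hA hρ hr0 hR hR0 hb hRb hi hi6 hJ hd
    hg hv hv' hrr h0 hσ =>
  LocNum.side_sum hk hA0 hA hρ hr0 hR hR0 hb hRb hi hi6 hJ hd hg hv hv' hrr h0 hσ

/-- measure of the good set -/
theorem measure_part {r t0 : ℝ} (hr : 0 < r) {P Q : ℝ → Prop}
    (hP : volume {t : ℝ | t ∈ Icc (t0 - r) (t0 + r) ∧ ¬ P t} ≤ ENNReal.ofReal (2 * r / 8))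
    (hQ : volume {t : ℝ | t ∈ Icc (t0 - r) (t0 + r) ∧ ¬ Q t} ≤ ENNReal.ofReal (2 * r / 8)) :
    ENNReal.ofReal r ≤ volume {t : ℝ | t ∈ Icc (t0 - r) (t0 + r) ∧ P t ∧ Q t} := by
  have hcov : Icc (t0 - r) (t0 + r) ⊆ {t : ℝ | t ∈ Icc (t0 - r) (t0 + r) ∧ P t ∧ Q t} ∪
      ({t : ℝ | t ∈ Icc (t0 - r) (t0 + r) ∧ ¬ P t} ∪
        {t : ℝ | t ∈ Icc (t0 - r) (t0 + r) ∧ ¬ Q t}) := by
    intro t ht
    by_cases h1 : P t
    · by_cases h2 : Q t
      · left; exact ⟨ht, h1, h2⟩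
      · right; right; exact ⟨ht, h2⟩
    · right; left; exact ⟨ht, h1⟩
  have h1 := (measure_mono (μ := volume) hcov).trans ((measure_union_le _ _).trans
    (add_le_add le_rfl ((measure_union_le _ _).trans (add_le_add hP hQ))))
  rw [Real.volume_Icc] at h1
  have e1 : ENNReal.ofReal (2 * r / 8) + ENNReal.ofReal (2 * r / 8) = ENNReal.ofReal (r / 2) := by
    rw [← ENNReal.ofReal_add (by positivity) (by positivity)]
    congr 1
    ring
  rw [e1] at h1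
  by_contra hcon
  push Not at hcon
  have h2 := ENNReal.add_lt_add_right (ENNReal.ofReal_ne_top (r := r / 2)) hcon
  rw [← ENNReal.ofReal_add hr.le (by positivity)] at h2
  have h3 := lt_of_le_of_lt h1 h2
  rw [ENNReal.ofReal_lt_ofReal_iff (by positivity)] at h3
  linarith

section seq

variable {k c : ℝ} {s : Bool} {n0 jS : ℕ} {r0 ρ δ A m : ℝ}

/-- the sizes of the six curves after the exit -/
theorem side_seq (N : NumB k A δ ρ) (S : SideOK k c s n0 jS r0 ρ δ A m) :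
    (δ / 2 ≤ ‖Ds k c s (n0 + 1 + (jS + 0)) m‖ * ρ) ∧
    (‖Ds k c s (n0 + 1 + (jS + 0)) m‖ * ρ ≤ 20 * k * δ) ∧
    (A / 2 * ‖Ds k c s (n0 + 1 + (jS + 0)) m‖ ≤ ‖Ds k c s (n0 + 1 + (jS + 1)) m‖) ∧
    (∀ j, 1 ≤ j → j ≤ 5 → k / 10 ^ 5 * ‖Ds k c s (n0 + 1 + (jS + j)) m‖ ≤
      ‖Ds k c s (n0 + 1 + (jS + (j + 1))) m‖) ∧
    (∀ j ≤ 5, ‖Ds k c s (n0 + 1 + (jS + (j + 1))) m‖ ≤
      11 * k * ‖Ds k c s (n0 + 1 + (jS + j)) m‖) := by
  obtain ⟨c1, c2⟩ := S.chain' N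
  have hk := N.k_large
  have hk130 : (10 : ℝ) ^ 6 ≤ k := le_trans (pow_le_pow_right₀ (by norm_num) (by norm_num)) hk
  clear hk
  have hA : 2 ≤ A := by
    have h1 := N.A_pos
    have h2 : (2 : ℝ) ≤ 10 ^ 60 := by norm_num
    exact h2.trans h1
  refine ⟨S.lo, S.hi, ?_, fun j hj1 hj5 => ?_, fun j hj5 => ?_⟩
  · refine le_trans ?_ (c2 jS (by omega)).2.1
    have h1 := S.start.dig jS (by omega)
    simp only [add_zero]
    gcongr
    linarith
  · refine le_trans ?_ (c2 (jS + j) (by omega)).2.1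
    have h1 := S.mac j hj1 hj5
    gcongr
    have : k / 10 ^ 5 ≤ k / 10 ^ 4 - 1 := by
      have h9 : k / 10 ^ 4 = 10 * (k / 10 ^ 5) := by ring
      have h10 : 1 ≤ k / 10 ^ 5 := by
        rw [le_div_iff₀ (by norm_num)]
        norm_num at hk130 ⊢
        linarith
      linarith
    linarith
  · refine le_trans (c2 (jS + j) (by omega)).2.2.1 ?_
    have h1 := vv_le7 (by norm_num at hk130 ⊢; linarith) (co_loc k c s univ) (n0 + 1 + (jS + j)) m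
    gcongr
    norm_num at hk130
    linarith

/-- sizes before the exit -/
theorem side_size (N : NumB k A δ ρ) (S : SideOK k c s n0 jS r0 ρ δ A m) {i : ℕ} (hi2 : 2 ≤ i)
    (hi6 : i ≤ 6) (hb : 1 ≤ ‖Ds k c s (n0 + 1 + (jS + i)) m‖ * ρ) {t : ℂ}
    (ht : t ∈ ball (m : ℂ) (k / (10 ^ 19 * ‖Ds k c s (n0 + 1 + (jS + i)) m‖))) :
    ∀ l ≤ jS + i, ‖Ds k c s (n0 + 1 + l) t‖ ≤ 1.01 * ‖Ds k c s (n0 + 1 + (jS + i)) m‖ := by
  obtain ⟨c1, c2⟩ := S.chain' N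
  have hrad := S.rad_ge N hi2 hi6 hb
  have hA : 2 ≤ A := by
    have h1 := N.A_pos
    have h2 : (2 : ℝ) ≤ 10 ^ 60 := by norm_num
    exact h2.trans h1
  have hk4 : 2 ≤ k / 10 ^ 4 := hA.trans N.A_le
  have hanti : ∀ e, ∀ j, j + e = jS + i → rad k (Loc.Y k c s) (Ds k c s) n0 r0 m (jS + i) ≤
      rad k (Loc.Y k c s) (Ds k c s) n0 r0 m j ∧
      ‖Ds k c s (n0 + 1 + j) m‖ ≤ ‖Ds k c s (n0 + 1 + (jS + i)) m‖ := by
    intro e
    induction e with
    | zero => intro j hj; have : j = jS + i := by omega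
              rw [this]; exact ⟨le_rfl, le_rfl⟩
    | succ e ih =>
      intro j hj
      obtain ⟨h1, h2⟩ := ih (j + 1) (by omega)
      obtain ⟨h3, h4, -, -⟩ := c2 j (by omega)
      refine ⟨h1.trans h3, le_trans ?_ h2⟩
      refine le_trans ?_ h4
      have h5 : 2 ≤ vv k (Loc.Y k c s) (n0 + 1 + j) m := hA.trans (S.start.dig j (by omega))
      have := norm_nonneg (Ds k c s (n0 + 1 + j) m)
      nlinarith
  intro l hl
  obtain ⟨h1, h2⟩ := hanti (jS + i - l) l (by omega)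
  have h3 := (c1 l (by omega)).1.close t (ball_subset_ball (hrad.trans h1) ht)
  have e : n0 + l + 1 = n0 + 1 + l := by omega
  rw [e] at h3
  have h4 := norm_sub_norm_le (Ds k c s (n0 + 1 + l) t) (Ds k c s (n0 + 1 + l) m)
  linarith

end seq

/-- recentring a quadratic -/
theorem recentre {F : ℂ → ℂ} {t0 m r ε w : ℝ} (hm : |m - t0| ≤ r) (hw : w ≤ r)
    (h : ∃ p0 p1 p2 : ℝ, ∀ z ∈ ball (t0 : ℂ) (2 * r),
      ‖F z - (p0 + p1 * (z - t0) + p2 * (z - t0) ^ 2)‖ ≤ ε) :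
    ∃ p0 p1 p2 : ℝ, ∀ z ∈ ball (m : ℂ) w,
      ‖F z - (p0 + p1 * (z - m) + p2 * (z - m) ^ 2)‖ ≤ ε := by
  obtain ⟨p0, p1, p2, h⟩ := h
  refine ⟨p0 + p1 * (m - t0) + p2 * (m - t0) ^ 2, p1 + 2 * p2 * (m - t0), p2, fun z hz => ?_⟩
  have hz' : z ∈ ball (t0 : ℂ) (2 * r) := by
    rw [mem_ball, Complex.dist_eq] at hz ⊢
    have h1 : ‖z - t0‖ ≤ ‖z - m‖ + ‖(m : ℂ) - t0‖ := by
      have := norm_add_le (z - m) ((m : ℂ) - t0)
      rwa [sub_add_sub_cancel] at this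
    have h2 : ‖(m : ℂ) - t0‖ = |m - t0| := by
      rw [← Complex.ofReal_sub, Complex.norm_real, Real.norm_eq_abs]
    rw [h2] at h1
    linarith
  have h1 := h z hz'
  refine le_trans (le_of_eq ?_) h1
  congr 1
  push_cast
  ring

theorem cell_point {k u c t0 r m : ℝ} (U : UU k u) (hr1 : 2 * r ≤ 1) (hr : 0 < r) {n0 jS : Bool → ℕ}
    {r0 : Bool → ℝ}
    (S : ∀ s, SideOK k c s (n0 s) (jS s) (r0 s) (2 * r) (k ^ (-(7 / 20) : ℝ)) (k ^ (3 / 5 : ℝ)) m)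
    (hm : |m - t0| ≤ r)
    (old : ∃ p0 p1 p2 : ℝ, ∀ z ∈ ball (t0 : ℂ) (2 * r),
      ‖Loc.cont k c true (n0 true + 1) (n0 false + 1) z -
        (p0 + p1 * (z - t0) + p2 * (z - t0) ^ 2)‖ ≤ r ^ 2 / k ^ 18)
    (s : Bool) {i j : ℕ} (hi3 : 3 ≤ i) (hi6 : i ≤ 6) (hj3 : 3 ≤ j) (hj6 : j ≤ 6)
    (hab : ‖Ds k c s (n0 s + 1 + (jS s + i)) m‖ ≤ ‖Ds k c (!s) (n0 (!s) + 1 + (jS (!s) + j)) m‖)
    (hba : ‖Ds k c (!s) (n0 (!s) + 1 + (jS (!s) + j)) m‖ ≤
      4 * Real.sqrt k * ‖Ds k c s (n0 s + 1 + (jS s + i)) m‖)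
    (hlo : k ≤ ‖Ds k c s (n0 s + 1 + (jS s + i)) m‖ * (2 * r))
    (hhi : ‖Ds k c s (n0 s + 1 + (jS s + i)) m‖ * (2 * r) ≤ k ^ 8) :
    ∃ (s : Bool) (n n' : ℕ) (R lam q0 q1 q2 : ℝ), k ≤ R * (2 * r) ∧ R * (2 * r) ≤ k ^ 8 ∧
      |lam| ≤ 10 ^ 19 * Real.sqrt k ∧ Loc.Cell3 k c s n n' m R lam (10 ^ 19) q0 q1 q2 ∧
      n0 s + 3 ≤ n ∧ n0 (!s) + 3 ≤ n' ∧
      (∀ i, n0 s + 1 ≤ i → i ≤ n + 1 → ∀ t ∈ ball (m : ℂ) (4 / R), ‖Loc.D k c s i t‖ ≤ 2 * R) ∧
      (∀ i, n0 (!s) + 1 ≤ i → i ≤ n' + 1 → ∀ t ∈ ball (m : ℂ) (4 / R),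
        ‖Loc.D k c (!s) i t‖ ≤ 2 * |lam| * R) := by
  have hN := U.numB (ρ := 2 * r) (by linarith)
  have hk0 := U.k_pos
  have hk1 := U.k1
  have hu0 := U.pos
  have hk20 : (10 : ℝ) ^ 20 ≤ k := U.k_ge (by norm_num)
  have hk30 : (10 : ℝ) ^ 30 ≤ k := U.k_ge (by norm_num)
  have hsq : (10 : ℝ) ^ 60 ≤ Real.sqrt k := by
    rw [U.sq]
    have := U.gap6 (m := 0) (n := 30) (by norm_num)
    rw [pow_zero, mul_one] at this
    refine le_trans ?_ this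
    exact pow_le_pow_right₀ (by norm_num) (by norm_num)
  have hss : Real.sqrt k * Real.sqrt k = k := Real.mul_self_sqrt hk0.le
  obtain ⟨lam, q0, q1, q2, hlam, hcell⟩ := cell3 sideSum hN hr1 S (ε := r ^ 2 / k ^ 18)
    (recentre hm (by
      rw [div_le_iff₀ hk0]
      have : (8 : ℝ) ≤ k := by linarith [U.k10, hk20, (by norm_num : (8 : ℝ) ≤ 10 ^ 20)]
      nlinarith) old) (by
      have h1 : 10 ^ 3 * k ^ 17 * (r ^ 2 / k ^ 18) = 10 ^ 3 * r ^ 2 / k := by field_simp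
      rw [h1, div_le_iff₀ hk0]
      have h2 : (10 : ℝ) ^ 3 ≤ k := U.k_ge (by norm_num)
      have h3 : 0 ≤ r ^ 2 := sq_nonneg r
      nlinarith) s hi3 hi6 hj3 hj6 hab hba hlo hhi
  set R := ‖Ds k c s (n0 s + 1 + (jS s + i)) m‖ with hR
  set b := ‖Ds k c (!s) (n0 (!s) + 1 + (jS (!s) + j)) m‖ with hb
  have hR0 : 0 < R := (((S s).chain' hN).1 (jS s + i) (by omega)).2.1
  have hCC : CC = 10 ^ 19 := rfl
  rw [hCC] at hlam hcell
  have hb0 : 0 < b := lt_of_lt_of_le hR0 hab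
  have hRρ : 1 ≤ R * (2 * r) := hk1.trans hlo
  have hbρ : 1 ≤ b * (2 * r) := hRρ.trans (by gcongr)
  refine ⟨s, _, _, R, lam, q0, q1, q2, hlo, hhi, hlam, hcell, by omega, by omega, ?_, ?_⟩
  · intro l hl1 hl2 t ht
    have h4R : 4 / R ≤ k / (10 ^ 19 * R) := by
      rw [div_le_div_iff₀ hR0 (by positivity)]
      calc 4 * (10 ^ 19 * R) = (4 * 10 ^ 19) * R := by ring
        _ ≤ k * R := by
            have : (4 * 10 ^ 19 : ℝ) ≤ 10 ^ 20 := by norm_num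
            have := this.trans hk20
            gcongr
    have h1 := side_size hN (S s) (by omega : 2 ≤ i) hi6 hRρ (ball_subset_ball h4R ht)
      (l - (n0 s + 1)) (by omega)
    have e : n0 s + 1 + (l - (n0 s + 1)) = l := by omega
    rw [e, norm_Ds] at h1
    rw [← hR] at h1
    linarith
  · intro l hl1 hl2 t ht
    have h4b : 4 / R ≤ k / (10 ^ 19 * b) := by
      rw [div_le_div_iff₀ hR0 (by positivity)]
      calc 4 * (10 ^ 19 * b) ≤ 4 * (10 ^ 19 * (4 * Real.sqrt k * R)) := by gcongr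
        _ = (16 * 10 ^ 19) * (Real.sqrt k * R) := by ring
        _ ≤ Real.sqrt k * (Real.sqrt k * R) := by
            have : (16 * 10 ^ 19 : ℝ) ≤ 10 ^ 60 := by norm_num
            have := this.trans hsq
            gcongr
        _ = k * R := by rw [← mul_assoc, hss]
    have h1 := side_size hN (S (!s)) (by omega : 2 ≤ j) hj6 hbρ (ball_subset_ball h4b ht)
      (l - (n0 (!s) + 1)) (by omega)
    have e : n0 (!s) + 1 + (l - (n0 (!s) + 1)) = l := by omega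
    rw [e, norm_Ds, ← hb] at h1
    -- `b ≤ 1.01 |lam| R`
    have h2 := hcell.fast (m : ℂ) (mem_ball_self (by positivity))
    have e2 : n0 (!s) + (jS (!s) + j) + 1 = n0 (!s) + 1 + (jS (!s) + j) := by omega
    rw [e2] at h2
    have h3 := norm_sub_norm_le (Loc.D k c (!s) (n0 (!s) + 1 + (jS (!s) + j)) m)
      ((lam * R : ℝ) : ℂ)
    rw [Complex.norm_real, Real.norm_eq_abs, abs_mul, abs_of_pos hR0, ← norm_Ds k c (!s), ← hb] at h3
    have h4 : 10 ^ 19 * |lam| ^ 2 * R / k ≤ 1 / 100 * (|lam| * R) := by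
      rw [div_le_iff₀ hk0]
      have h5 : 10 ^ 19 * |lam| * 100 ≤ k := by
        calc 10 ^ 19 * |lam| * 100 ≤ 10 ^ 19 * (10 ^ 19 * Real.sqrt k) * 100 := by gcongr
          _ = 10 ^ 40 * Real.sqrt k := by ring
          _ ≤ Real.sqrt k * Real.sqrt k := by
              have : (10 : ℝ) ^ 40 ≤ 10 ^ 60 := pow_le_pow_right₀ (by norm_num) (by norm_num)
              have := this.trans hsq
              gcongr
          _ = k := hss
      have h6 : 0 ≤ |lam| * R := by positivity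
      calc 10 ^ 19 * |lam| ^ 2 * R = (10 ^ 19 * |lam| * 100) * (1 / 100 * (|lam| * R)) := by ring
        _ ≤ k * (1 / 100 * (|lam| * R)) := by gcongr
        _ = _ := by ring
    have h7 : 0 ≤ |lam| * R := by positivity
    have h8 : b ≤ 1.01 * (|lam| * R) := by linarith
    calc ‖Loc.D k c (!s) l t‖ ≤ 1.01 * b := h1
      _ ≤ 1.01 * (1.01 * (|lam| * R)) := by gcongr
      _ ≤ 2 * |lam| * R := by linarith

/-- **595's `locA4`** -/
theorem locA4 : ∃ k1 : ℝ, ∀ k : ℝ, k1 ≤ k → ∀ c t0 r : ℝ, 2 * r ≤ 1 → ∀ (n0 M : Bool → ℕ)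
    (r0 : Bool → ℝ), (∀ s, Base k c s (n0 s) (M s) t0 (r0 s) r) →
    (∃ p0 p1 p2 : ℝ, ∀ z ∈ ball (t0 : ℂ) (2 * r),
      ‖Loc.cont k c true (n0 true + 1) (n0 false + 1) z -
        (p0 + p1 * (z - t0) + p2 * (z - t0) ^ 2)‖ ≤ r ^ 2 / k ^ 18) →
    ∃ N : Set ℝ, N ⊆ Icc (t0 - r) (t0 + r) ∧ ENNReal.ofReal r ≤ volume N ∧
      ∀ m ∈ N, ∃ (s : Bool) (n n' : ℕ) (R lam q0 q1 q2 : ℝ), k ≤ R * (2 * r) ∧
        R * (2 * r) ≤ k ^ 8 ∧
        |lam| ≤ 10 ^ 19 * Real.sqrt k ∧ Loc.Cell3 k c s n n' m R lam (10 ^ 19) q0 q1 q2 ∧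
        n0 s + 3 ≤ n ∧ n0 (!s) + 3 ≤ n' ∧
        (∀ i, n0 s + 1 ≤ i → i ≤ n + 1 → ∀ t ∈ ball (m : ℂ) (4 / R),
          ‖Loc.D k c s i t‖ ≤ 2 * R) ∧
        (∀ i, n0 (!s) + 1 ≤ i → i ≤ n' + 1 → ∀ t ∈ ball (m : ℂ) (4 / R),
          ‖Loc.D k c (!s) i t‖ ≤ 2 * |lam| * R) := by
  refine ⟨10 ^ 1200, fun k hk c t0 r hr1 n0 M r0 B old => ?_⟩
  obtain ⟨u, U⟩ := UU.exists hk
  clear hk
  have hr := (B true).r_pos
  choose jS h1 h2 h3 h4 using fun s => side U (B s)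
  refine ⟨{t : ℝ | t ∈ Icc (t0 - r) (t0 + r) ∧ Nice k c true (n0 true) (jS true) t ∧
    Nice k c false (n0 false) (jS false) t}, fun t ht => ht.1,
    measure_part hr (h3 true) (h3 false), ?_⟩
  rintro m ⟨hm, hmt, hmf⟩
  have hN := U.numB (ρ := 2 * r) (by linarith)
  have S : ∀ s, SideOK k c s (n0 s) (jS s) (r0 s) (2 * r) (k ^ (-(7 / 20) : ℝ))
      (k ^ (3 / 5 : ℝ)) m := by
    intro s
    cases s with
    | true => exact h4 true m hm hmt
    | false => exact h4 false m hm hmf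
  have hmr : |m - t0| ≤ r := abs_le.mpr ⟨by linarith [hm.1], by linarith [hm.2]⟩
  obtain ⟨a0, a0', a1, aj, aj'⟩ := side_seq hN (S true)
  obtain ⟨b0, b0', b1, bj, bj'⟩ := side_seq hN (S false)
  obtain ⟨i, j, hi3, hi6, hj3, hj6, hor, hik, hjk, hi8, hj8⟩ := LocSel.select_k (k := k)
    (A := k ^ (3 / 5 : ℝ)) (δ := k ^ (-(7 / 20) : ℝ)) (ρ := 2 * r)
    (a := fun i => ‖Ds k c true (n0 true + 1 + (jS true + i)) m‖)
    (b := fun i => ‖Ds k c false (n0 false + 1 + (jS false + i)) m‖)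
    (U.k_ge (by norm_num)) hN.A2
    (le_trans (pow_le_pow_right₀ (by norm_num) (by norm_num)) hN.A_pos) hN.δ_pos hN.δ_le hN.Aδ
    hN.ρ_pos a0 a0' b0 b0' a1 b1 aj bj aj' bj'
  rcases hor with ⟨h5, h6⟩ | ⟨h5, h6⟩
  · exact cell_point U hr1 hr S hmr old true hi3 hi6 hj3 hj6 h5 h6 hik hi8
  · exact cell_point U hr1 hr S hmr old false hj3 hj6 hi3 hi6 h5 h6 hjk hj8

end Crest.Agent.R128.LocA4X
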