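import Crest.Agent.R128.LocA4

/-!
# LocA, the set of good centres (row 128, helper595)
-/

set_option autoImplicit false

open MeasureTheory Metric Set
open Crest.Agent.R128 Crest.Agent.R128.Cell Crest.Agent.R128.CellB

namespace Crest.Agent.R128.LocA

variable {k c u : ℝ} {s : Bool} {n0 M jS : ℕ} {t₀ r0 r t₁ : ℝ}

/-- one side is good at `t₁` -/
def Nice (k c : ℝ) (s : Bool) (n0 jS : ℕ) (t : ℝ) : Prop :=
  k ^ (3 / 5 : ℝ) ≤ vv k (Loc.Y k c s) (n0 + jS + 1) t ∧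
    ∀ i, 1 ≤ i → i ≤ 5 → 1 / 10 ^ 4 * k ≤ vv k (Loc.Y k c s) (n0 + jS + 1 + i) t

/-- exit data of one side at the base point -/
structure ExitAt (k c u : ℝ) (s : Bool) (n0 M jS : ℕ) (t₀ r : ℝ) : Prop where
  le_M : jS ≤ M
  one_le : 1 ≤ jS
  le92 : jS ≤ 92
  before : ∀ j < jS, ‖Ds k c s (n0 + 1 + j) t₀‖ * (2 * r) < 1 / u ^ 21
  at_exit : 1 / u ^ 21 ≤ ‖Ds k c s (n0 + 1 + jS) t₀‖ * (2 * r)

theorem Base.exit (h : UU k u) (B : Base k c s n0 M t₀ r0 r) :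
    ∃ jS, ExitAt k c u s n0 M jS t₀ r := by
  obtain ⟨jS, h1, h2, h3, h4, h5⟩ := B.exists_exit h
  exact ⟨jS, ⟨h1, h2, h3, h4, h5⟩⟩

theorem mem_ball_of_abs {t₀ t₁ ρ : ℝ} (h : |t₁ - t₀| < ρ) : (t₁ : ℂ) ∈ ball (t₀ : ℂ) ρ := by
  rw [mem_ball, Complex.dist_eq, ← Complex.ofReal_sub, Complex.norm_real, Real.norm_eq_abs]
  exact h

/-- measure of the not nice points of one side -/
theorem Base.nice_measure (h : UU k u) (hk : 10 ^ 240 ≤ k) (B : Base k c s n0 M t₀ r0 r)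
    (E : ExitAt k c u s n0 M jS t₀ r) :
    volume {t : ℝ | t ∈ Icc (t₀ - r) (t₀ + r) ∧ ¬ Nice k c s n0 jS t} ≤
      ENNReal.ofReal (2 * r / 8) := by
  have hr := B.r_pos
  obtain ⟨c1, c2⟩ := B.chain0 h E.le_M (by have := E.le92; omega)
  have hrad := B.rad_ge h E.le_M E.before (fun j hj => (c1 j hj.le).2.1)
  have hu0 := h.u_pos
  have := LocD.nice_points (k := k) hk (Y := Loc.Y k c s) (D := Ds k c s) (t₀ := t₀) (ρ := 2 * r)
    (a := t₀ - r) (b := t₀ + r) (by linarith) (by ring) (by linarith) (by linarith)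
    (co_loc k c s _) (M := n0 + jS) (fun t ht => by
      refine (c1 jS le_rfl).1.close t (ball_subset_ball ?_ ht)
      have := hrad jS le_rfl
      linarith) (fun t ht => by
      obtain ⟨j, hj⟩ : ∃ j, jS = j + 1 := ⟨jS - 1, by have := E.one_le; omega⟩
      have h2 := (c2 j (by omega)).2.2.2 t (ball_subset_ball (by
        have := hrad (j + 1) (by omega)
        linarith) ht)
      have e1 : n0 + jS = n0 + 1 + j := by omega
      have e2 : n0 + jS + 1 = n0 + 1 + (j + 1) := by omega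
      rw [e2, e1]
      refine h2.trans ?_
      have hv := (B.start h E.le_M).dig j (by omega)
      have h40 : 10 ≤ u ^ 40 := le_trans (by norm_num)
        (le_trans (pow_le_pow_right₀ (by norm_num : (1:ℝ) ≤ 10) (by norm_num : 1 ≤ 16 * 40))
          (h.pow_ge 40))
      have hv10 : 10 ≤ vv k (Loc.Y k c s) (n0 + 1 + j) t₀ := h40.trans hv
      have h5 : 2 / vv k (Loc.Y k c s) (n0 + 1 + j) t₀ ≤ 1 / 5 := by
        rw [div_le_div_iff₀ (by linarith) (by norm_num)]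
        linarith
      gcongr) (by
      have e2 : n0 + jS + 1 = n0 + 1 + jS := by omega
      rw [e2, h.e720]
      exact E.at_exit)
  exact this

/-- `SideOK` at a nice point of the cell -/
theorem Base.sideOK (h : UU k u) (B : Base k c s n0 M t₀ r0 r)
    (E : ExitAt k c u s n0 M jS t₀ r) (ht₁ : |t₁ - t₀| ≤ r) (hN : Nice k c s n0 jS t₁) :
    SideOK k c s n0 jS r0 (2 * r) (1 / u ^ 21) (u ^ 36) t₁ := by
  have hr := B.r_pos
  have hr0 := B.r0_pos
  have hu0 := h.u_pos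
  have hk0 : 0 < k := by rw [h.k_eq]; positivity
  have hk1 : 1 ≤ k := by
    rw [h.k_eq]; exact one_le_pow₀ (by linarith [h.u_large])
  obtain ⟨c1, c2⟩ := B.chain0 h E.le_M (by have := E.le92; omega)
  have hrad := B.rad_ge h E.le_M E.before (fun j hj => (c1 j hj.le).2.1)
  obtain ⟨hrr, hdr⟩ := B.r_le h
  have hrr0 : r < r0 := by nlinarith
  have N := h.numB (ρ := 2 * r) (by linarith)
  have hd0 : 0 < ‖Loc.D k c s (n0 + 1) t₀‖ := norm_pos_iff.mpr B.ne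
  have hS := B.start h E.le_M
  -- value at `t₁`
  have hmem : (t₁ : ℂ) ∈ ball (t₀ : ℂ) (2 * r0) := mem_ball_of_abs (by linarith)
  have hc1 := B.close t₁ hmem
  have hlow : (1 - 1 / 2500) * ‖Loc.D k c s (n0 + 1) t₀‖ ≤ ‖Loc.D k c s (n0 + 1) t₁‖ := by
    have := norm_sub_norm_le (Loc.D k c s (n0 + 1) t₀) (Loc.D k c s (n0 + 1) t₁)
    rw [norm_sub_rev] at this
    linarith
  have hupp : ‖Loc.D k c s (n0 + 1) t₁‖ ≤ (1 + 1 / 2500) * ‖Loc.D k c s (n0 + 1) t₀‖ := by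
    have := norm_sub_norm_le (Loc.D k c s (n0 + 1) t₁) (Loc.D k c s (n0 + 1) t₀)
    linarith
  have hsubset : ball (t₁ : ℂ) r0 ⊆ ball (t₀ : ℂ) (2 * r0) := by
    apply ball_subset_ball'
    rw [Complex.dist_eq, ← Complex.ofReal_sub, Complex.norm_real, Real.norm_eq_abs]
    linarith
  have hmem4 : ∀ j ≤ jS, (t₁ : ℂ) ∈
      ball (t₀ : ℂ) (rad k (Loc.Y k c s) (Ds k c s) n0 (2 * r0) t₀ j) := by
    intro j hj
    refine mem_ball_of_abs ?_
    have := hrad j hj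
    linarith
  -- regular digits at `t₁`
  have hdig : ∀ j < jS, u ^ 36 ≤ vv k (Loc.Y k c s) (n0 + 1 + j) t₁ := by
    intro j hj
    have hv := hS.dig j hj
    have hNA := (c1 j hj.le).1.mono (c2 j hj).1
    have e : n0 + j + 1 = n0 + 1 + j := by omega
    have h1 := digit_var hk1 (co_loc k c s _) hNA (by norm_num) le_rfl
      (vv_le hk1 (co_loc k c s univ) (n0 + j + 1) t₀) (by
        rw [e]
        have h7 : rad k (Loc.Y k c s) (Ds k c s) n0 (2 * r0) t₀ (j + 1) ≤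
            1 / 10 ^ 10 * vv k (Loc.Y k c s) (n0 + 1 + j) t₀ /
              (k * ‖Ds k c s (n0 + 1 + j) t₀‖) := by
          simp only [rad]; exact min_le_right _ _
        have hp := (c1 j hj.le).2.1
        rw [le_div_iff₀ (by positivity)] at h7
        nlinarith) (hmem4 (j + 1) hj)
    rw [e] at h1
    have h2 : vv k (Loc.Y k c s) (n0 + 1 + j) t₀ - vv k (Loc.Y k c s) (n0 + 1 + j) t₁ ≤
        1 / 10 ^ 5 * vv k (Loc.Y k c s) (n0 + 1 + j) t₀ := by
      refine le_trans ?_ h1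
      unfold vv
      rw [norm_sub_rev]
      exact norm_sub_norm_le _ _
    have h3 : 2 * u ^ 36 ≤ u ^ 40 := by
      have h4 : (2 : ℝ) ≤ u ^ 4 := le_trans (by norm_num)
        (le_trans (pow_le_pow_right₀ (by norm_num : (1:ℝ) ≤ 10) (by norm_num : 1 ≤ 16 * 4))
          (h.pow_ge 4))
      calc 2 * u ^ 36 ≤ u ^ 4 * u ^ 36 := by gcongr
        _ = u ^ 40 := by ring
    have h5 : 0 ≤ u ^ 36 := by positivity
    linarith
  have hmac : ∀ i, 1 ≤ i → i ≤ 5 → k / 10 ^ 4 ≤ vv k (Loc.Y k c s) (n0 + 1 + (jS + i)) t₁ := by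
    intro i hi1 hi5
    have := hN.2 i hi1 hi5
    have e : n0 + jS + 1 + i = n0 + 1 + (jS + i) := by omega
    rw [e] at this
    linarith
  -- sizes at the exit
  have hex := (c1 jS le_rfl).1.close t₁ (hmem4 jS le_rfl)
  have eX : n0 + jS + 1 = n0 + 1 + jS := by omega
  rw [eX] at hex
  have hexl : 99 / 100 * ‖Ds k c s (n0 + 1 + jS) t₀‖ ≤ ‖Ds k c s (n0 + 1 + jS) t₁‖ := by
    have := norm_sub_norm_le (Ds k c s (n0 + 1 + jS) t₀) (Ds k c s (n0 + 1 + jS) t₁)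
    rw [norm_sub_rev] at this
    linarith
  have hexu : ‖Ds k c s (n0 + 1 + jS) t₁‖ ≤ 101 / 100 * ‖Ds k c s (n0 + 1 + jS) t₀‖ := by
    have := norm_sub_norm_le (Ds k c s (n0 + 1 + jS) t₁) (Ds k c s (n0 + 1 + jS) t₀)
    linarith
  refine ⟨⟨co_loc k c s _, ⟨fun t ht => ?_, fun t ht => ?_⟩, hr0, ?_, ?_, ?_⟩, hmac, ?_, ?_, ?_, ?_⟩
  · rw [norm_Ds_sub, norm_Ds]
    have h1 := B.close t (hsubset ht)
    have h2 : ‖Loc.D k c s (n0 + 1) t - Loc.D k c s (n0 + 1) t₁‖ ≤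
        ‖Loc.D k c s (n0 + 1) t - Loc.D k c s (n0 + 1) t₀‖ +
        ‖Loc.D k c s (n0 + 1) t₁ - Loc.D k c s (n0 + 1) t₀‖ := by
      have e : Loc.D k c s (n0 + 1) t - Loc.D k c s (n0 + 1) t₁ =
        (Loc.D k c s (n0 + 1) t - Loc.D k c s (n0 + 1) t₀) -
        (Loc.D k c s (n0 + 1) t₁ - Loc.D k c s (n0 + 1) t₀) := by ring
      rw [e]; exact norm_sub_le _ _
    linarith
  · rw [norm_Ds, norm_Ds]
    have h1 := B.prev t (hsubset ht)
    linarith
  · rw [← norm_pos_iff, norm_Ds]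
    linarith
  · rw [norm_Ds]
    have h1 := B.small
    rw [h.e35] at h1
    have h3 : k * (‖Loc.D k c s (n0 + 1) t₁‖ * r0) ≤
        k * ((1 + 1 / 2500) * ‖Loc.D k c s (n0 + 1) t₀‖ * r0) := by gcongr
    have h4 : 0 ≤ k * (‖Loc.D k c s (n0 + 1) t₀‖ * r0) := by positivity
    nlinarith
  · intro j hj
    rcases lt_trichotomy j jS with hlt | heq | hgt
    · exact hdig j hlt
    · have := hN.1
      rw [h.e35, eX] at this
      rw [heq]; exact this
    · have := hmac (j - jS) (by omega) (by omega)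
      have e : jS + (j - jS) = j := by omega
      rw [e] at this
      exact N.A_le.trans this
  · have h1 := E.at_exit
    have h2 : 99 / 100 * (‖Ds k c s (n0 + 1 + jS) t₀‖ * (2 * r)) ≤
        ‖Ds k c s (n0 + 1 + jS) t₁‖ * (2 * r) := by
      calc _ = (99 / 100 * ‖Ds k c s (n0 + 1 + jS) t₀‖) * (2 * r) := by ring
        _ ≤ _ := by gcongr
    have h3 := N.δ_pos
    linarith
  · obtain ⟨j, hj⟩ : ∃ j, jS = j + 1 := ⟨jS - 1, by have := E.one_le; omega⟩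
    have h1 := (c2 j (by omega)).2.2.1
    have h2 := E.before j (by omega)
    have h3 := vv_le10 (c := c) (s := s) hk1 (n0 + 1 + j) t₀
    rw [← hj] at h1
    have h4 : ‖Ds k c s (n0 + 1 + jS) t₀‖ * (2 * r) ≤ 11 * k * (1 / u ^ 21) := by
      calc ‖Ds k c s (n0 + 1 + jS) t₀‖ * (2 * r)
          ≤ ((vv k (Loc.Y k c s) (n0 + 1 + j) t₀ + 1) * ‖Ds k c s (n0 + 1 + j) t₀‖) * (2 * r) := by
            gcongr
        _ = (vv k (Loc.Y k c s) (n0 + 1 + j) t₀ + 1) * (‖Ds k c s (n0 + 1 + j) t₀‖ * (2 * r)) := by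
            ring
        _ ≤ (11 * k) * (1 / u ^ 21) := by
            refine mul_le_mul (by linarith) h2.le (by positivity) (by positivity)
    have h5 : ‖Ds k c s (n0 + 1 + jS) t₁‖ * (2 * r) ≤
        101 / 100 * (‖Ds k c s (n0 + 1 + jS) t₀‖ * (2 * r)) := by
      calc _ ≤ (101 / 100 * ‖Ds k c s (n0 + 1 + jS) t₀‖) * (2 * r) := by gcongr
        _ = _ := by ring
    have h6 : 0 < k * (1 / u ^ 21) := by positivity
    linarith
  · rw [norm_Ds]
    have h1 := B.old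
    have h2 : k * (‖Loc.D k c s (n0 + 1) t₁‖ * (2 * r)) ≤
        k * ((1 + 1 / 2500) * ‖Loc.D k c s (n0 + 1) t₀‖ * (2 * r)) := by gcongr
    have h3 : ((1 - 1 / 2500) * ‖Loc.D k c s (n0 + 1) t₀‖ * r0) ^ 3 ≤
        (‖Loc.D k c s (n0 + 1) t₁‖ * r0) ^ 3 := by
      refine pow_le_pow_left₀ (by positivity) ?_ 3
      gcongr
    have h4 : ((1 - 1 / 2500) * ‖Loc.D k c s (n0 + 1) t₀‖ * r0) ^ 3 =
        (1 - 1 / 2500) ^ 3 * (‖Loc.D k c s (n0 + 1) t₀‖ * r0) ^ 3 := by ring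
    have h5 : (1 / 2 : ℝ) ≤ (1 - 1 / 2500) ^ 3 := by norm_num
    have h6 : 0 ≤ (‖Loc.D k c s (n0 + 1) t₀‖ * r0) ^ 3 := by positivity
    have h7 : 1 / 2 * (‖Loc.D k c s (n0 + 1) t₀‖ * r0) ^ 3 ≤
        (1 - 1 / 2500) ^ 3 * (‖Loc.D k c s (n0 + 1) t₀‖ * r0) ^ 3 := by gcongr
    have h8 : 0 ≤ k * (‖Loc.D k c s (n0 + 1) t₀‖ * r) := by positivity
    nlinarith
  · have := E.le92
    omega

end Crest.Agent.R128.LocA
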