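import Crest.Agent.R128.LocA5
import Crest.Agent.R128.LocA2X
import Crest.Agent.R128.LocGlue365

/-!
# Row 128, V5: `locA4` in the form of `LocGlue365.LocA4Stmt` (helper398, from 595's `LocA5`
and 344's `LocA2X.cell3`)
-/

set_option autoImplicit false

open MeasureTheory Metric Set
open Crest.Agent.R128 Crest.Agent.R128.Cell Crest.Agent.R128.CellB

namespace Crest.Agent.R128.LocA398

open Crest.Agent.R128.LocA

variable {k c δ A ρ r0 t₁ : ℝ} {s : Bool} {n0 jS : ℕ}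

/-- sizes up to the exit, after the foot (662's `LocSize.size`, stronger conclusion) -/
theorem size_up (N : NumB k A δ ρ) (S : SideOK k c s n0 jS r0 ρ δ A t₁) {i : ℕ} (hi2 : 2 ≤ i)
    (hi6 : i ≤ 6) (hb : 1 ≤ ‖Ds k c s (n0 + 1 + (jS + i)) t₁‖ * ρ) {u : ℂ}
    (hu : ‖u - t₁‖ < k / (10 ^ 19 * ‖Ds k c s (n0 + 1 + (jS + i)) t₁‖)) {l : ℕ} (hl0 : n0 + 1 ≤ l)
    (hl : l ≤ n0 + 1 + (jS + i)) :
    ‖Loc.D k c s l u‖ ≤ 2 * ‖Ds k c s (n0 + 1 + (jS + i)) t₁‖ := by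
  have hrad := S.rad_ge N hi2 hi6 hb
  obtain ⟨c1, c2⟩ := S.chain' N
  -- the radii are antitone and the sizes are increasing
  have hanti : ∀ d j, j + d = jS + i → rad k (Loc.Y k c s) (Ds k c s) n0 r0 t₁ (jS + i) ≤
      rad k (Loc.Y k c s) (Ds k c s) n0 r0 t₁ j ∧
      ‖Ds k c s (n0 + 1 + j) t₁‖ ≤ ‖Ds k c s (n0 + 1 + (jS + i)) t₁‖ := by
    intro d
    induction d with
    | zero =>
      intro j hj
      obtain rfl : j = jS + i := by omega
      exact ⟨le_rfl, le_rfl⟩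
    | succ d ih =>
      intro j hj
      obtain ⟨h1, h2⟩ := ih (j + 1) (by omega)
      obtain ⟨h3, h4, -, -⟩ := c2 j (by omega)
      refine ⟨h1.trans h3, le_trans ?_ h2⟩
      have h5 := S.start.dig j (by omega)
      have h6 := N.A_pos
      have h7 : (2 : ℝ) ≤ vv k (Loc.Y k c s) (n0 + 1 + j) t₁ := by
        have : (2 : ℝ) ≤ 10 ^ 60 := by norm_num
        linarith
      have h8 : 1 * ‖Ds k c s (n0 + 1 + j) t₁‖ ≤
          (vv k (Loc.Y k c s) (n0 + 1 + j) t₁ - 1) * ‖Ds k c s (n0 + 1 + j) t₁‖ :=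
        mul_le_mul_of_nonneg_right (by linarith) (norm_nonneg _)
      linarith
  obtain ⟨j, rfl⟩ : ∃ j, l = n0 + 1 + j := ⟨l - (n0 + 1), by omega⟩
  have hj : j ≤ jS + i := by omega
  obtain ⟨h1, h2⟩ := hanti (jS + i - j) j (by omega)
  obtain ⟨hNA, -, -⟩ := c1 j (by omega)
  have hmem : u ∈ ball (t₁ : ℂ) (rad k (Loc.Y k c s) (Ds k c s) n0 r0 t₁ j) := by
    rw [mem_ball, dist_eq_norm]
    exact hu.trans_le (hrad.trans h1)
  have h3 := hNA.close u hmem
  have e : n0 + j + 1 = n0 + 1 + j := by omega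
  rw [e] at h3
  have h4 : ‖Ds k c s (n0 + 1 + j) u‖ ≤
      ‖Ds k c s (n0 + 1 + j) u - Ds k c s (n0 + 1 + j) t₁‖ + ‖Ds k c s (n0 + 1 + j) t₁‖ := by
    have := norm_add_le (Ds k c s (n0 + 1 + j) u - Ds k c s (n0 + 1 + j) t₁)
      (Ds k c s (n0 + 1 + j) t₁)
    rwa [sub_add_cancel] at this
  rw [← norm_Ds]
  have h5 := norm_nonneg (Ds k c s (n0 + 1 + j) t₁)
  linarith

/-- `Cell3` is monotone in the constant -/
theorem cell3_mono {n n' : ℕ} {m R lam C C' q0 q1 q2 : ℝ} (hk : 0 < k)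
    (h : Loc.Cell3 k c s n n' m R lam C q0 q1 q2) (hC : C ≤ C') :
    Loc.Cell3 k c s n n' m R lam C' q0 q1 q2 := by
  have hR0 : 0 < R := lt_of_lt_of_le one_pos h.hR
  obtain ⟨σ, hσ, hs⟩ := h.slow
  exact
    { hR := h.hR
      hlam := h.hlam
      slow := ⟨σ, hσ, fun z hz => (hs z hz).trans (by gcongr)⟩
      slow0 := fun z hz => (h.slow0 z hz).trans (by gcongr)
      fast := fun z hz => (h.fast z hz).trans (by gcongr)
      fast0 := fun z hz => (h.fast0 z hz).trans (by gcongr)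
      quad := h.quad }

theorem vol_N {t0 r : ℝ} (hr : 0 < r) {P Q : ℝ → Prop}
    (hP : volume {t : ℝ | t ∈ Icc (t0 - r) (t0 + r) ∧ ¬ P t} ≤ ENNReal.ofReal (2 * r / 8))
    (hQ : volume {t : ℝ | t ∈ Icc (t0 - r) (t0 + r) ∧ ¬ Q t} ≤ ENNReal.ofReal (2 * r / 8)) :
    ENNReal.ofReal r ≤ volume {t : ℝ | t ∈ Icc (t0 - r) (t0 + r) ∧ (P t ∧ Q t)} := by
  have hsub : Icc (t0 - r) (t0 + r) ⊆ {t : ℝ | t ∈ Icc (t0 - r) (t0 + r) ∧ (P t ∧ Q t)} ∪
      ({t : ℝ | t ∈ Icc (t0 - r) (t0 + r) ∧ ¬ P t} ∪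
        {t : ℝ | t ∈ Icc (t0 - r) (t0 + r) ∧ ¬ Q t}) := by
    intro t ht
    by_cases h1 : P t
    · by_cases h2 : Q t
      · exact Or.inl ⟨ht, h1, h2⟩
      · exact Or.inr (Or.inr ⟨ht, h2⟩)
    · exact Or.inr (Or.inl ⟨ht, h1⟩)
  have h1 := measure_mono (μ := volume) hsub
  rw [Real.volume_Icc] at h1
  have h2 := h1.trans (measure_union_le _ _)
  have h3 : volume ({t : ℝ | t ∈ Icc (t0 - r) (t0 + r) ∧ ¬ P t} ∪
        {t : ℝ | t ∈ Icc (t0 - r) (t0 + r) ∧ ¬ Q t}) ≤ ENNReal.ofReal r := by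
    refine (measure_union_le _ _).trans ((add_le_add hP hQ).trans ?_)
    rw [← ENNReal.ofReal_add (by positivity) (by positivity)]
    exact ENNReal.ofReal_le_ofReal (by linarith)
  have h4 : ENNReal.ofReal (t0 + r - (t0 - r)) = ENNReal.ofReal r + ENNReal.ofReal r := by
    rw [← ENNReal.ofReal_add hr.le hr.le]; congr 1; ring
  rw [h4] at h2
  have h5 := h2.trans (add_le_add_right h3 _)
  exact (ENNReal.add_le_add_iff_right ENNReal.ofReal_ne_top).mp h5

/-- **`locA4`** -/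
theorem locA4 : LocGlue365.LocA4Stmt LocA.Base := by
  refine ⟨10 ^ 1000, fun k hk c t0 r hr2 n0 M r0 hB hold => ?_⟩
  obtain ⟨u, h⟩ := LocA.exists_u hk
  have hu0 := h.u_pos
  have hk240 : (10:ℝ) ^ 240 ≤ k :=
    (pow_le_pow_right₀ (by norm_num) (by norm_num)).trans hk
  clear hk
  have hk20 : (10:ℝ) ^ 60 ≤ k := (pow_le_pow_right₀ (by norm_num) (by norm_num)).trans hk240
  have hk0 : 0 < k := lt_of_lt_of_le (by norm_num) hk20
  have hk1 : 1 ≤ k := le_trans (by norm_num) hk20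
  have hr : 0 < r := (hB true).r_pos
  have hE : ∀ s, ∃ jS, LocA.ExitAt k c u s (n0 s) (M s) jS t0 r := fun s => (hB s).exit h
  choose jS hE using hE
  have hN := h.numB (ρ := 2 * r) (by linarith)
  refine ⟨{t : ℝ | t ∈ Icc (t0 - r) (t0 + r) ∧
    (LocA.Nice k c true (n0 true) (jS true) t ∧ LocA.Nice k c false (n0 false) (jS false) t)},
    fun t ht => ht.1, vol_N hr ((hB true).nice_measure h hk240 (hE true))
      ((hB false).nice_measure h hk240 (hE false)), ?_⟩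
  rintro m ⟨hm, hmt, hmf⟩
  have hmr : |m - t0| ≤ r := abs_le.2 ⟨by linarith [hm.1], by linarith [hm.2]⟩
  have hS : ∀ b, LocA.SideOK k c b (n0 b) (jS b) (r0 b) (2 * r) (1 / u ^ 21) (u ^ 36) m := by
    intro b
    refine (hB b).sideOK h (hE b) hmr ?_
    cases b
    · exact hmf
    · exact hmt
  obtain ⟨p0, p1, p2, hq⟩ := hold
  obtain ⟨s, i, j, lam, q0, q1, q2, hi3, hi6, hj3, hj6, hkb, hkb8, hlam, hlamR, hC⟩ :=
    LocA2X.cell3 hN hr2 hS (a0 := p0 + p1 * (m - t0) + p2 * (m - t0) ^ 2)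
      (a1 := p1 + 2 * p2 * (m - t0)) (a2 := p2) (by
      intro z hz
      have hz2 : z ∈ ball (t0 : ℂ) (2 * r) := by
        rw [mem_ball, dist_eq_norm] at hz ⊢
        have h1 : ‖z - t0‖ ≤ ‖z - m‖ + ‖(m : ℂ) - t0‖ := by
          have := norm_add_le (z - (m : ℂ)) ((m : ℂ) - t0)
          rwa [sub_add_sub_cancel] at this
        have h2 : ‖(m : ℂ) - t0‖ ≤ r := by
          rw [← Complex.ofReal_sub, Complex.norm_real, Real.norm_eq_abs]; exact hmr
        have h3 : 4 * (2 * r) / k ≤ r := by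
          rw [div_le_iff₀ hk0]
          nlinarith
        linarith
      have h4 := hq z hz2
      have e : (((p0 + p1 * (m - t0) + p2 * (m - t0) ^ 2 : ℝ) : ℂ) +
          ((p1 + 2 * p2 * (m - t0) : ℝ) : ℂ) * (z - m) + (p2 : ℂ) * (z - m) ^ 2) =
          (p0 + p1 * (z - t0) + p2 * (z - t0) ^ 2 : ℂ) := by
        push_cast; ring
      rw [e]
      have h5 : 2 * Real.pi * k * (k ^ 8 / (2 * r)) ^ 2 * (r ^ 2 / k ^ 18) ≤ 1 / 100 := by
        have h6 : 2 * Real.pi * k * (k ^ 8 / (2 * r)) ^ 2 * (r ^ 2 / k ^ 18) =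
            Real.pi / (2 * k) := by
          field_simp
        rw [h6, div_le_div_iff₀ (by positivity) (by norm_num)]
        have := Real.pi_lt_four
        nlinarith
      refine le_trans ?_ h5
      gcongr)
  set R := ‖Loc.D k c s (n0 s + 1 + (jS s + i)) m‖ with hRd
  have hR0 : 0 < R := lt_of_lt_of_le one_pos hC.hR
  have hsq1 : 1 ≤ Real.sqrt k := by rw [Real.one_le_sqrt]; exact hk1
  have hsqk : Real.sqrt k * Real.sqrt k = k := Real.mul_self_sqrt hk0.le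
  have hsqL : 10 ^ 22 ≤ Real.sqrt k := by
    rw [show (10 : ℝ) ^ 22 = Real.sqrt ((10 ^ 22) ^ 2) by rw [Real.sqrt_sq (by positivity)]]
    apply Real.sqrt_le_sqrt
    refine le_trans ?_ hk20
    norm_num
  have hlam1 := hC.hlam
  have hlamb : |lam| * R * (2 * r) = ‖Ds k c (!s) (n0 (!s) + 1 + (jS (!s) + j)) m‖ * (2 * r) := by
    rw [hlamR, norm_Ds]
  have hRr : 1 ≤ R * (2 * r) := hk1.trans hkb
  refine ⟨s, n0 s + (jS s + i), n0 (!s) + (jS (!s) + j), R, lam, q0, q1, q2, hkb, hkb8,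
    hlam.trans ?_, cell3_mono hk0 hC (by norm_num), ?_, ?_⟩
  · have : (4:ℝ) ≤ 10 ^ 19 := by norm_num
    gcongr
  · intro l hl1 hl2 t ht
    rw [mem_ball, dist_eq_norm] at ht
    have hb : ‖Ds k c s (n0 s + 1 + (jS s + i)) m‖ = R := by rw [norm_Ds]
    have := size_up hN (hS s) (i := i) (by omega) hi6 (by rw [hb]; exact hRr) (u := t) (by
      rw [hb]
      refine ht.trans_le ?_
      rw [div_le_div_iff₀ hR0 (by positivity)]
      have : 4 * 10 ^ 19 ≤ k := le_trans (by norm_num) hk20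
      nlinarith) (l := l) hl1 (by omega)
    rw [hb] at this
    exact this
  · intro l hl1 hl2 t ht
    rw [mem_ball, dist_eq_norm] at ht
    have hb : ‖Ds k c (!s) (n0 (!s) + 1 + (jS (!s) + j)) m‖ = |lam| * R := by rw [norm_Ds, hlamR]
    have := size_up hN (hS (!s)) (i := j) (by omega) hj6 (by
      rw [hb]
      have : 1 * (R * (2 * r)) ≤ |lam| * (R * (2 * r)) :=
        mul_le_mul_of_nonneg_right hlam1 (by positivity)
      linarith) (u := t) (by
      rw [hb]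
      refine ht.trans_le ?_
      rw [div_le_div_iff₀ hR0 (by positivity)]
      have h1 : 4 * (10 ^ 19 * (|lam| * R)) ≤ 4 * (10 ^ 19 * (4 * Real.sqrt k * R)) := by gcongr
      have h2 : (16 * 10 ^ 19 * Real.sqrt k) * R ≤ k * R := by
        refine mul_le_mul_of_nonneg_right ?_ hR0.le
        nlinarith
      linarith) (l := l) hl1 (by omega)
    rw [hb] at this
    linarith

end Crest.Agent.R128.LocA398
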