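import Crest.Agent.R128.LocA6
import Crest.Agent.R128.LocGlue365

/-!
# LocA: `LocGlue365.LocA4Stmt LocA.Base` (row 128, helper595)
-/

set_option autoImplicit false

open MeasureTheory Metric Set
open Crest.Agent.R128 Crest.Agent.R128.Cell Crest.Agent.R128.CellB

namespace Crest.Agent.R128.LocA

theorem locA4Stmt : LocGlue365.LocA4Stmt Base := by
  refine ⟨10 ^ 1000, fun k hk c t0 r hr1 n0 M r0 B old => ?_⟩
  obtain ⟨N, hN1, hN2, hN3⟩ := locA4 hk hr1 B old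
  refine ⟨N, hN1, hN2, fun m hm => ?_⟩
  obtain ⟨s, n, n', R, lam, q0, q1, q2, g1, g2, g3⟩ := hN3 m hm
  exact ⟨s, n, n', R, lam, q0, q1, q2, g1, g2, g3.lam_le, g3.cell, g3.mon, g3.mon'⟩

end Crest.Agent.R128.LocA
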