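import Crest.Agent.R128.LocA2

/-!
# Row 128, V5-LOC, LocA (helper686): from the base point to every good point of the cell

`Base` = data of one side at the real base point `t0`; `exists_exit`: exit index `jS`, the
hypotheses of `UCStep.good_volume` at `t0`, and `LocA.SideOK` at every real `t1` with
`|t1 - t0| ≤ ρ` whose exit digit is `≥ A` and whose next five digits are macroscopic.
-/

set_option autoImplicit false

open MeasureTheory Metric Set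
open Crest.Agent.R128 Crest.Agent.R128.Cell Crest.Agent.R128.CellB
open Crest.Agent.R128.LocA

namespace Crest.Agent.R128.Move686

/-- numerical relations: `A0` digits at the base point, `A` digits at the good points, `δ` size of the
exit curve -/
structure NumM (k A0 A δ : ℝ) : Prop where
  k_large : 10 ^ 12 ≤ k
  A0_sq : 16000 * k ≤ A0 ^ 2
  A0_pos : 10 ^ 6 ≤ A0
  AA0 : 2 * A ≤ A0
  A_pos : 10 ^ 6 ≤ A
  A_le : A ≤ k / 10 ^ 4
  δ_pos : 0 < δ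
  δ_le : δ ≤ 1
  kδ : 10 ^ 11 * k * δ ≤ A0

/-- base data of one side at the real point `t0` -/
structure Base (k A0 A δ : ℝ) (Y D : ℕ → ℂ → ℂ) (n0 : ℕ) (t0 r0 ρ : ℝ) : Prop where
  close : ∀ t ∈ ball (t0 : ℂ) (2 * r0), ‖D (n0 + 1) t - D (n0 + 1) t0‖ ≤ 1 / 2500 * ‖D (n0 + 1) t0‖
  prev : ∀ t ∈ ball (t0 : ℂ) (2 * r0), ‖D n0 t‖ ≤ 99 / 100 * ‖D (n0 + 1) t0‖
  pos : 0 < r0
  ne : 0 < ‖D (n0 + 1) t0‖
  small : 10 ^ 10 * k * (‖D (n0 + 1) t0‖ * (2 * r0)) ≤ A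
  old : 10 ^ 11 * k * (‖D (n0 + 1) t0‖ * ρ) ≤ (‖D (n0 + 1) t0‖ * r0) ^ 3
  reach : ∃ J ≤ 94, (∀ j < J, A0 ≤ vv k Y (n0 + 1 + j) t0) ∧ δ ≤ ‖D (n0 + 1 + J) t0‖ * ρ

theorem vv_real_le {k : ℝ} (hk : 10 ≤ k) {Y D : ℕ → ℂ → ℂ} {S : Set ℂ} (co : CO k S Y D) (m : ℕ)
    (x : ℝ) : vv k Y m (x : ℂ) ≤ 7 * k := by
  have h2 : Y m (x : ℂ) = (((Y m (x : ℂ)).re : ℝ) : ℂ) := by
    apply Complex.ext
    · simp
    · simp [co.real m x]
  have h3 : cV k (Y m (x : ℂ)) =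
      ((2 + 2 * Real.pi * k * Real.cos (2 * Real.pi * (Y m (x : ℂ)).re) : ℝ) : ℂ) := by
    rw [h2]; unfold cV; push_cast; simp
  unfold vv
  rw [h3, Complex.norm_real, Real.norm_eq_abs]
  have h4 := Real.abs_cos_le_one (2 * Real.pi * (Y m (x : ℂ)).re)
  have h5 := Real.pi_lt_d2
  have h6 := Real.pi_pos
  calc |2 + 2 * Real.pi * k * Real.cos (2 * Real.pi * (Y m (x : ℂ)).re)|
      ≤ |2| + |2 * Real.pi * k * Real.cos (2 * Real.pi * (Y m (x : ℂ)).re)| := abs_add_le _ _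
    _ = 2 + 2 * Real.pi * k * |Real.cos (2 * Real.pi * (Y m (x : ℂ)).re)| := by
        rw [abs_mul, abs_of_pos (by positivity : 0 < 2 * Real.pi * k)]; norm_num
    _ ≤ 2 + 2 * Real.pi * k * 1 := by gcongr
    _ ≤ 7 * k := by nlinarith

variable {k A0 A δ : ℝ} {Y D : ℕ → ℂ → ℂ} {n0 : ℕ} {t0 r0 ρ : ℝ}

theorem Base.rho_le (N : NumM k A0 A δ) (B : Base k A0 A δ Y D n0 t0 r0 ρ) (hρ : 0 < ρ) :
    ‖D (n0 + 1) t0‖ * r0 ≤ 1 ∧ 10 ^ 11 * k * ρ ≤ r0 ∧ 4 * ρ ≤ r0 := by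
  have hk := N.k_large
  have hk0 : 0 < k := by linarith
  have hd := B.ne
  set d := ‖D (n0 + 1) t0‖ with hdd
  have h1 := B.small
  rw [← hdd] at h1
  have hr := B.pos
  have hdr0 : 0 < d * r0 := by positivity
  have h2 : d * r0 ≤ 1 := by
    have hA := N.A_le
    have h3 : 10 ^ 11 * k * (d * r0) ≤ k := by
      have : k / 10 ^ 4 ≤ k := div_le_self hk0.le (by norm_num)
      linarith
    have h4 : k * (10 ^ 11 * (d * r0)) ≤ k * 1 := by linarith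
    have h5 := le_of_mul_le_mul_left h4 hk0
    linarith
  have h3 : (d * r0) ^ 3 ≤ d * r0 := by
    calc (d * r0) ^ 3 = (d * r0) ^ 2 * (d * r0) := by ring
      _ ≤ 1 ^ 2 * (d * r0) := by gcongr
      _ = _ := by ring
  have h4 := B.old
  rw [← hdd] at h4
  have h5 : d * (10 ^ 11 * k * ρ) ≤ d * r0 := by linarith
  have h6 := le_of_mul_le_mul_left h5 hd
  refine ⟨h2, h6, ?_⟩
  refine le_trans ?_ h6
  nlinarith

/-- start data at `t0`, radius `2 r0` -/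
theorem Base.start0 (N : NumM k A0 A δ) (B : Base k A0 A δ Y D n0 t0 r0 ρ)
    (co : CO k (ball (t0 : ℂ) (2 * r0)) Y D) {J : ℕ}
    (hJ : ∀ j < J, A0 ≤ vv k Y (n0 + 1 + j) t0) :
    Start k Y D n0 t0 (2 * r0) (1 / 1000) A0 J := by
  have hd := B.ne
  have hpos := B.pos
  refine ⟨co, ⟨fun t ht => ?_, fun t ht => ?_⟩, by linarith, ?_, ?_, hJ⟩
  · exact (B.close t ht).trans (by gcongr; norm_num)
  · exact (B.prev t ht).trans (by linarith)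
  · intro h
    rw [h, norm_zero] at hd
    exact lt_irrefl _ hd
  · have h1 := B.small
    have h2 := N.AA0
    have h3 := N.A_pos
    linarith

/-- existence of the exit index -/
theorem Base.exists_index (B : Base k A0 A δ Y D n0 t0 r0 ρ) :
    ∃ jS ≤ 94, (∀ j < jS, A0 ≤ vv k Y (n0 + 1 + j) t0) ∧
      (∀ j < jS, ‖D (n0 + 1 + j) t0‖ * ρ < δ) ∧ δ ≤ ‖D (n0 + 1 + jS) t0‖ * ρ := by
  classical
  obtain ⟨J, hJ, hd, hr⟩ := B.reach
  have hex : ∃ j, δ ≤ ‖D (n0 + 1 + j) t0‖ * ρ := ⟨J, hr⟩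
  have hle : Nat.find hex ≤ J := Nat.find_min' hex hr
  refine ⟨Nat.find hex, hle.trans hJ, fun j hj => hd j (lt_of_lt_of_le hj hle), fun j hj => ?_,
    Nat.find_spec hex⟩
  exact not_le.1 (Nat.find_min hex hj)

/-- the geometry at the base point up to the exit -/
theorem Base.geom (N : NumM k A0 A δ) (B : Base k A0 A δ Y D n0 t0 r0 ρ) (hρ : 0 < ρ)
    (co : CO k (ball (t0 : ℂ) (2 * r0)) Y D) {jS : ℕ} (h94 : jS ≤ 94)
    (hdig : ∀ j < jS, A0 ≤ vv k Y (n0 + 1 + j) t0)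
    (hbef : ∀ j < jS, ‖D (n0 + 1 + j) t0‖ * ρ < δ) :
    (∀ j ≤ jS, NA Y D (n0 + j) t0 (2 * ρ) (1 / 100) ∧ 0 < ‖D (n0 + 1 + j) t0‖) ∧
    (∀ j < jS, (vv k Y (n0 + 1 + j) t0 - 1) * ‖D (n0 + 1 + j) t0‖ ≤ ‖D (n0 + 1 + (j + 1)) t0‖ ∧
      ‖D (n0 + 1 + (j + 1)) t0‖ ≤ (vv k Y (n0 + 1 + j) t0 + 1) * ‖D (n0 + 1 + j) t0‖ ∧
      ∀ t ∈ ball (t0 : ℂ) (2 * ρ),
        ‖D (n0 + 1 + j) t‖ ≤ 2 / vv k Y (n0 + 1 + j) t0 * ‖D (n0 + 1 + (j + 1)) t0‖) := by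
  have hk := N.k_large
  have hk0 : 0 < k := by linarith
  have hA0 := N.A0_pos
  obtain ⟨c1, c2⟩ := chain hk N.A0_sq (by linarith) (by omega) (B.start0 N co hdig)
  obtain ⟨-, -, hρr⟩ := B.rho_le N hρ
  have hrad : ∀ j ≤ jS, 2 * ρ ≤ rad k Y D n0 (2 * r0) t0 j := by
    intro j hj
    cases j with
    | zero =>
      simp only [rad]
      linarith
    | succ j =>
      simp only [rad]
      refine le_min (by linarith) ?_
      have h1 := hbef j (by omega)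
      have h2 := hdig j (by omega)
      have h3 : 0 < ‖D (n0 + 1 + j) t0‖ := (c1 j (by omega)).2.1
      rw [le_div_iff₀ (by positivity)]
      have h4 : 10 ^ 11 * k * (‖D (n0 + 1 + j) t0‖ * ρ) ≤ 10 ^ 11 * k * δ := by gcongr
      have h5 := N.kδ
      linarith
  have hsub : ∀ j ≤ jS, ball (t0 : ℂ) (2 * ρ) ⊆ ball (t0 : ℂ) (rad k Y D n0 (2 * r0) t0 j) :=
    fun j hj => ball_subset_ball (hrad j hj)
  refine ⟨fun j hj => ⟨(c1 j hj).1.mono (hrad j hj), (c1 j hj).2.1⟩, fun j hj => ?_⟩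
  obtain ⟨-, h2, h3, h4⟩ := c2 j hj
  exact ⟨h2, h3, fun t ht => h4 t (hsub (j + 1) (by omega) ht)⟩

/-- the exit index is positive and the exit slope is not too large -/
theorem Base.exit_le (N : NumM k A0 A δ) (hδ : 1 / 10 ^ 11 / k < δ)
    (B : Base k A0 A δ Y D n0 t0 r0 ρ) (hρ : 0 < ρ)
    (co : CO k (ball (t0 : ℂ) (2 * r0)) Y D) {jS : ℕ} (h94 : jS ≤ 94)
    (hdig : ∀ j < jS, A0 ≤ vv k Y (n0 + 1 + j) t0)
    (hbef : ∀ j < jS, ‖D (n0 + 1 + j) t0‖ * ρ < δ)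
    (hexit : δ ≤ ‖D (n0 + 1 + jS) t0‖ * ρ) :
    1 ≤ jS ∧ ‖D (n0 + 1 + jS) t0‖ * ρ ≤ 8 * k * δ := by
  have hk := N.k_large
  have hk0 : 0 < k := by linarith
  obtain ⟨hdr, hρ1, hρ2⟩ := B.rho_le N hρ
  have h0 : jS ≠ 0 := by
    rintro rfl
    have h1 := B.old
    have h2 : (‖D (n0 + 1) t0‖ * r0) ^ 3 ≤ 1 :=
      pow_le_one₀ (mul_nonneg (norm_nonneg _) B.pos.le) hdr
    simp only [add_zero] at hexit
    have h3 : 10 ^ 11 * k * δ ≤ 1 := by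
      refine le_trans ?_ (h1.trans h2)
      gcongr
    have h4 : δ ≤ 1 / 10 ^ 11 / k := by
      rw [div_div, le_div_iff₀ (by positivity)]
      linarith
    linarith
  obtain ⟨j, rfl⟩ : ∃ j, jS = j + 1 := ⟨jS - 1, by omega⟩
  refine ⟨by omega, ?_⟩
  obtain ⟨-, c2⟩ := B.geom N hρ co h94 hdig hbef
  obtain ⟨-, h2, -⟩ := c2 j (by omega)
  have h3 := vv_real_le (by linarith) co (n0 + 1 + j) t0
  have h4 := hbef j (by omega)
  have h5 : 0 ≤ ‖D (n0 + 1 + j) t0‖ := norm_nonneg _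
  calc ‖D (n0 + 1 + (j + 1)) t0‖ * ρ ≤ ((vv k Y (n0 + 1 + j) t0 + 1) * ‖D (n0 + 1 + j) t0‖) * ρ := by
        gcongr
    _ = (vv k Y (n0 + 1 + j) t0 + 1) * (‖D (n0 + 1 + j) t0‖ * ρ) := by ring
    _ ≤ (7 * k + 1) * δ := by
        have : 0 ≤ ‖D (n0 + 1 + j) t0‖ * ρ := by positivity
        gcongr
    _ ≤ 8 * k * δ := by
        have := N.δ_pos
        nlinarith

/-- **from the base point to a good point** (abstract form of `LocA.SideOK`) -/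
theorem Base.move (N : NumM k A0 A δ) (hδ : 1 / 10 ^ 11 / k < δ)
    (B : Base k A0 A δ Y D n0 t0 r0 ρ) (hρ : 0 < ρ)
    (co : CO k univ Y D) {jS : ℕ} (h94 : jS ≤ 94)
    (hdig : ∀ j < jS, A0 ≤ vv k Y (n0 + 1 + j) t0)
    (hbef : ∀ j < jS, ‖D (n0 + 1 + j) t0‖ * ρ < δ)
    (hexit : δ ≤ ‖D (n0 + 1 + jS) t0‖ * ρ)
    {t1 : ℝ} (ht1 : |t1 - t0| ≤ ρ)
    (hx : A ≤ vv k Y (n0 + 1 + jS) t1)
    (hmac : ∀ i, 1 ≤ i → i ≤ 5 → 1 / 10 ^ 4 * k ≤ vv k Y (n0 + 1 + (jS + i)) t1) :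
    Start k Y D n0 t1 r0 (1 / 1000) A (jS + 6) ∧
      δ / 2 ≤ ‖D (n0 + 1 + jS) t1‖ * ρ ∧ ‖D (n0 + 1 + jS) t1‖ * ρ ≤ 20 * k * δ ∧
      10 ^ 9 * k * (‖D (n0 + 1) t1‖ * ρ) ≤ (‖D (n0 + 1) t1‖ * r0) ^ 3 := by
  have hk := N.k_large
  have hk0 : 0 < k := by linarith
  have co2 : CO k (ball (t0 : ℂ) (2 * r0)) Y D := co.mono (subset_univ _)
  obtain ⟨hdr, hρ1, hρ2⟩ := B.rho_le N hρ
  obtain ⟨c1, c2⟩ := B.geom N hρ co2 h94 hdig hbef
  obtain ⟨hjS, hexit2⟩ := B.exit_le N hδ hρ co2 h94 hdig hbef hexit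
  have hr0 := B.pos
  have hd := B.ne
  set d0 := ‖D (n0 + 1) t0‖ with hd0
  have hdist : ‖(t1 : ℂ) - t0‖ ≤ ρ := by
    rw [← Complex.ofReal_sub, Complex.norm_real, Real.norm_eq_abs]; exact ht1
  have ht1b : (t1 : ℂ) ∈ ball (t0 : ℂ) (2 * r0) := by
    rw [mem_ball, dist_eq_norm]; linarith
  have ht1c : (t1 : ℂ) ∈ ball (t0 : ℂ) (2 * ρ) := by
    rw [mem_ball, dist_eq_norm]; linarith
  have hsub : ball (t1 : ℂ) r0 ⊆ ball (t0 : ℂ) (2 * r0) := by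
    refine ball_subset_ball' ?_
    rw [dist_eq_norm]; linarith
  -- first slope
  have hcl := B.close t1 ht1b
  rw [← hd0] at hcl
  have hd1lo : 2499 / 2500 * d0 ≤ ‖D (n0 + 1) t1‖ := by
    have := norm_sub_norm_le (D (n0 + 1) (t0 : ℂ)) (D (n0 + 1) (t1 : ℂ))
    rw [norm_sub_rev] at this
    linarith
  have hd1hi : ‖D (n0 + 1) t1‖ ≤ 2501 / 2500 * d0 := by
    have := norm_sub_norm_le (D (n0 + 1) (t1 : ℂ)) (D (n0 + 1) (t0 : ℂ))
    linarith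
  have hd1pos : 0 < ‖D (n0 + 1) t1‖ := by linarith
  -- digits before the exit
  have hdv : ∀ j < jS, A ≤ vv k Y (n0 + 1 + j) t1 := by
    intro j hj
    have hv := hdig j hj
    have h1 := digit_var (v := vv k Y (n0 + 1 + j) t0) (by linarith) (co.mono (subset_univ _))
      (c1 j hj.le).1 (by norm_num) le_rfl (vv_le (by linarith) co _ _) (by
        have e : n0 + j + 1 = n0 + 1 + j := by omega
        rw [e]
        have h2 := hbef j hj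
        have h3 := N.kδ
        have h4 : 10 ^ 11 * k * (‖D (n0 + 1 + j) t0‖ * ρ) ≤ 10 ^ 11 * k * δ := by gcongr
        have h5 : 0 ≤ k * (‖D (n0 + 1 + j) t0‖ * ρ) := by positivity
        linarith) ht1c
    have e : n0 + j + 1 = n0 + 1 + j := by omega
    rw [e] at h1
    have h6 : vv k Y (n0 + 1 + j) t0 - vv k Y (n0 + 1 + j) t1 ≤
        1 / 10 ^ 5 * vv k Y (n0 + 1 + j) t0 := by
      refine le_trans ?_ h1
      have := norm_sub_norm_le (cV k (Y (n0 + 1 + j) (t0 : ℂ))) (cV k (Y (n0 + 1 + j) (t1 : ℂ)))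
      rw [norm_sub_rev] at this
      exact this
    have h7 := N.AA0
    have h8 := N.A_pos
    linarith
  refine ⟨⟨co.mono (subset_univ _), ⟨fun t ht => ?_, fun t ht => ?_⟩, hr0, ?_, ?_, ?_⟩, ?_, ?_, ?_⟩
  · have h1 := B.close t (hsub ht)
    rw [← hd0] at h1
    calc ‖D (n0 + 1) t - D (n0 + 1) t1‖
        = ‖(D (n0 + 1) t - D (n0 + 1) t0) - (D (n0 + 1) t1 - D (n0 + 1) t0)‖ := by ring_nf
      _ ≤ ‖D (n0 + 1) t - D (n0 + 1) t0‖ + ‖D (n0 + 1) t1 - D (n0 + 1) t0‖ := norm_sub_le _ _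
      _ ≤ 1 / 1000 * ‖D (n0 + 1) t1‖ := by linarith
  · have h1 := B.prev t (hsub ht)
    rw [← hd0] at h1
    linarith
  · intro h
    rw [h, norm_zero] at hd1pos
    exact lt_irrefl _ hd1pos
  · have h1 := B.small
    rw [← hd0] at h1
    have h2 : 10 ^ 10 * k * (‖D (n0 + 1) t1‖ * r0) ≤ 10 ^ 10 * k * (2501 / 2500 * d0 * r0) := by
      gcongr
    have h3 : 0 ≤ k * (d0 * r0) := by positivity
    nlinarith
  · intro j hj
    rcases lt_trichotomy j jS with h | h | h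
    · exact hdv j h
    · rw [h]; exact hx
    · obtain ⟨i, rfl⟩ : ∃ i, j = jS + i := ⟨j - jS, by omega⟩
      have h1 := hmac i (by omega) (by omega)
      have h2 := N.A_le
      linarith
  · have hNA := (c1 jS le_rfl).1.close t1 ht1c
    have e : n0 + jS + 1 = n0 + 1 + jS := by omega
    rw [e] at hNA
    have h1 := norm_sub_norm_le (D (n0 + 1 + jS) (t0 : ℂ)) (D (n0 + 1 + jS) (t1 : ℂ))
    rw [norm_sub_rev] at h1
    have h2 : 99 / 100 * ‖D (n0 + 1 + jS) t0‖ ≤ ‖D (n0 + 1 + jS) t1‖ := by linarith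
    have h3 : 99 / 100 * ‖D (n0 + 1 + jS) t0‖ * ρ ≤ ‖D (n0 + 1 + jS) t1‖ * ρ := by gcongr
    have := N.δ_pos
    nlinarith
  · have hNA := (c1 jS le_rfl).1.close t1 ht1c
    have e : n0 + jS + 1 = n0 + 1 + jS := by omega
    rw [e] at hNA
    have h1 := norm_sub_norm_le (D (n0 + 1 + jS) (t1 : ℂ)) (D (n0 + 1 + jS) (t0 : ℂ))
    have h2 : ‖D (n0 + 1 + jS) t1‖ ≤ 101 / 100 * ‖D (n0 + 1 + jS) t0‖ := by linarith
    have h3 : ‖D (n0 + 1 + jS) t1‖ * ρ ≤ 101 / 100 * ‖D (n0 + 1 + jS) t0‖ * ρ := by gcongr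
    have := N.δ_pos
    have h4 : 0 < k * δ := by positivity
    nlinarith
  · have h1 := B.old
    rw [← hd0] at h1
    have h2 : 10 ^ 9 * k * (‖D (n0 + 1) t1‖ * ρ) ≤ 10 ^ 9 * k * (2501 / 2500 * d0 * ρ) := by gcongr
    have h3 : (2499 / 2500 * d0 * r0) ^ 3 ≤ (‖D (n0 + 1) t1‖ * r0) ^ 3 := by gcongr
    refine le_trans ?_ h3
    refine h2.trans ?_
    have e1 : (2499 / 2500 * d0 * r0) ^ 3 = (2499 / 2500) ^ 3 * (d0 * r0) ^ 3 := by ring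
    rw [e1]
    have h5 : 0 ≤ k * (d0 * ρ) := by positivity
    have h6 : (1 : ℝ) / 2 ≤ (2499 / 2500) ^ 3 := by norm_num
    have h7 : 0 ≤ (d0 * r0) ^ 3 := by positivity
    nlinarith

/-- the hypotheses `hclose`, `hprev` of `UCStep.good_volume` -/
theorem Base.good_hyps (N : NumM k A0 A δ) (hδ : 1 / 10 ^ 11 / k < δ)
    (B : Base k A0 A δ Y D n0 t0 r0 ρ) (hρ : 0 < ρ)
    (co : CO k univ Y D) {jS : ℕ} (h94 : jS ≤ 94)
    (hdig : ∀ j < jS, A0 ≤ vv k Y (n0 + 1 + j) t0)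
    (hbef : ∀ j < jS, ‖D (n0 + 1 + j) t0‖ * ρ < δ)
    (hexit : δ ≤ ‖D (n0 + 1 + jS) t0‖ * ρ) :
    (∀ t ∈ ball (t0 : ℂ) (2 * ρ),
      ‖D (n0 + 1 + jS) t - D (n0 + 1 + jS) t0‖ ≤ 1 / 100 * ‖D (n0 + 1 + jS) t0‖) ∧
    (∀ t ∈ ball (t0 : ℂ) (2 * ρ), ‖D (n0 + jS) t‖ ≤ 3 / A0 * ‖D (n0 + 1 + jS) t0‖) := by
  have hk := N.k_large
  have co2 : CO k (ball (t0 : ℂ) (2 * r0)) Y D := co.mono (subset_univ _)
  obtain ⟨c1, c2⟩ := B.geom N hρ co2 h94 hdig hbef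
  obtain ⟨hjS, -⟩ := B.exit_le N hδ hρ co2 h94 hdig hbef hexit
  constructor
  · intro t ht
    have h := (c1 jS le_rfl).1.close t ht
    have e : n0 + jS + 1 = n0 + 1 + jS := by omega
    rwa [e] at h
  · intro t ht
    obtain ⟨j, rfl⟩ : ∃ j, jS = j + 1 := ⟨jS - 1, by omega⟩
    have h := (c2 j (by omega)).2.2 t ht
    have e : n0 + (j + 1) = n0 + 1 + j := by omega
    rw [e]
    refine h.trans ?_
    have h1 := hdig j (by omega)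
    have h2 := N.A0_pos
    gcongr
    norm_num

/-- **`LocA.SideOK` at every good point of the cell.** -/
theorem sideOK {c : ℝ} {s : Bool} (N : NumM k A0 A δ) (hδ : 1 / 10 ^ 11 / k < δ)
    (B : Base k A0 A δ (Loc.Y k c s) (Ds k c s) n0 t0 r0 ρ) (hρ : 0 < ρ) {jS : ℕ} (h94 : jS ≤ 94)
    (hdig : ∀ j < jS, A0 ≤ vv k (Loc.Y k c s) (n0 + 1 + j) t0)
    (hbef : ∀ j < jS, ‖Ds k c s (n0 + 1 + j) t0‖ * ρ < δ)
    (hexit : δ ≤ ‖Ds k c s (n0 + 1 + jS) t0‖ * ρ)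
    {t1 : ℝ} (ht1 : |t1 - t0| ≤ ρ)
    (hx : A ≤ vv k (Loc.Y k c s) (n0 + 1 + jS) t1)
    (hmac : ∀ i, 1 ≤ i → i ≤ 5 → 1 / 10 ^ 4 * k ≤ vv k (Loc.Y k c s) (n0 + 1 + (jS + i)) t1) :
    SideOK k c s n0 jS r0 ρ δ A t1 := by
  obtain ⟨h1, h2, h3, h4⟩ := B.move N hδ hρ (co_loc k c s univ) h94 hdig hbef hexit ht1 hx hmac
  refine ⟨h1, fun i hi1 hi5 => ?_, h2, h3, h4, by omega⟩
  have := hmac i hi1 hi5
  linarith

end Crest.Agent.R128.Move686
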