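import Crest.Agent.R128.VFB162
import Crest.Agent.R128.Move686
import Crest.Agent.R128.LocD2
import Crest.Agent.R128.LocA2X
import Crest.Agent.R128.H4Stmt

/-!
# Row 128, V5-LOC (helper162): `Good.LocA L`

Composition: base data at the very fresh point (`VFB162`, slightly stronger field `old`), exit index
(595), transfer to a good point (686 `Move686.sideOK`), measure of the good points (106
`LocD.nice_points`), two `SideOK` sides give the cell (344 `LocA2X.cell3`), `H4` (220), packaging (365).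
-/

set_option autoImplicit false

open Metric MeasureTheory Set
open Crest.Agent.R128 Crest.Agent.R128.Cell Crest.Agent.R128.CellB

namespace Crest.Agent.R128.LocAFin162

open Crest.Agent.R128.LocA

/-- base data with the stronger field `old` -/
def B2 (k c : ℝ) (s : Bool) (n0 M : ℕ) (t0 r0 r : ℝ) : Prop :=
  LocA.Base k c s n0 M t0 r0 r ∧
    10 ^ 11 * k * (‖Loc.D k c s (n0 + 1) t0‖ * (2 * r)) ≤ (‖Loc.D k c s (n0 + 1) t0‖ * r0) ^ 3

section size

variable {k c : ℝ} {s : Bool} {n0 jS : ℕ} {r0 ρ δ A t₁ : ℝ}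

/-- sizes from the foot to the exit (662's proof, without the part before the foot) -/
theorem size2 (N : NumB k A δ ρ) (S : SideOK k c s n0 jS r0 ρ δ A t₁) {i : ℕ} (hi2 : 2 ≤ i)
    (hi6 : i ≤ 6) (hb : 1 ≤ ‖Loc.D k c s (n0 + 1 + (jS + i)) t₁‖ * ρ) {u : ℂ}
    (hu : ‖u - t₁‖ < k / (10 ^ 19 * ‖Loc.D k c s (n0 + 1 + (jS + i)) t₁‖)) :
    ∀ l, n0 + 1 ≤ l → l ≤ n0 + 1 + (jS + i) →
      ‖Loc.D k c s l u‖ ≤ 2 * ‖Loc.D k c s (n0 + 1 + (jS + i)) t₁‖ := by
  rw [← norm_Ds] at hb hu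
  have hrad := S.rad_ge N hi2 hi6 hb
  obtain ⟨c1, c2⟩ := S.chain' N
  have hanti : ∀ d j, j + d = jS + i → rad k (Loc.Y k c s) (Ds k c s) n0 r0 t₁ (jS + i) ≤
      rad k (Loc.Y k c s) (Ds k c s) n0 r0 t₁ j ∧
      ‖Ds k c s (n0 + 1 + j) t₁‖ ≤ ‖Ds k c s (n0 + 1 + (jS + i)) t₁‖ := by
    intro d
    induction d with
    | zero =>
      intro j hj
      obtain rfl : j = jS + i := by omega
      exact ⟨le_rfl, le_rfl⟩
    | succ d ih =>
      intro j hj
      obtain ⟨h1, h2⟩ := ih (j + 1) (by omega)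
      obtain ⟨h3, h4, -, -⟩ := c2 j (by omega)
      refine ⟨h1.trans h3, le_trans ?_ h2⟩
      have h5 := S.start.dig j (by omega)
      have h6 := N.A_pos
      have h7 : (2 : ℝ) ≤ vv k (Loc.Y k c s) (n0 + 1 + j) t₁ := by
        have : (2 : ℝ) ≤ 10 ^ 60 := by norm_num
        linarith
      have h8 : 1 * ‖Ds k c s (n0 + 1 + j) t₁‖ ≤
          (vv k (Loc.Y k c s) (n0 + 1 + j) t₁ - 1) * ‖Ds k c s (n0 + 1 + j) t₁‖ :=
        mul_le_mul_of_nonneg_right (by linarith) (norm_nonneg _)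
      linarith
  intro l hl0 hl
  obtain ⟨j, rfl⟩ : ∃ j, l = n0 + 1 + j := ⟨l - (n0 + 1), by omega⟩
  have hj : j ≤ jS + i := by omega
  obtain ⟨h1, h2⟩ := hanti (jS + i - j) j (by omega)
  obtain ⟨hNA, -, -⟩ := c1 j (by omega)
  have hmem : u ∈ ball (t₁ : ℂ) (rad k (Loc.Y k c s) (Ds k c s) n0 r0 t₁ j) := by
    rw [mem_ball, dist_eq_norm]
    exact hu.trans_le (hrad.trans h1)
  have h3 := hNA.close u hmem
  have e : n0 + j + 1 = n0 + 1 + j := by omega
  rw [e] at h3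
  have h4 : ‖Ds k c s (n0 + 1 + j) u‖ ≤
      ‖Ds k c s (n0 + 1 + j) u - Ds k c s (n0 + 1 + j) t₁‖ + ‖Ds k c s (n0 + 1 + j) t₁‖ := by
    have := norm_add_le (Ds k c s (n0 + 1 + j) u - Ds k c s (n0 + 1 + j) t₁)
      (Ds k c s (n0 + 1 + j) t₁)
    rwa [sub_add_cancel] at this
  rw [← norm_Ds, ← norm_Ds k c s (n0 + 1 + (jS + i))]
  have h5 := norm_nonneg (Ds k c s (n0 + 1 + j) t₁)
  linarith

end size

/-- `Cell3` is monotone in `C1` -/
theorem cell3_mono {k c : ℝ} {s : Bool} {n n' : ℕ} {m R lam C C' q0 q1 q2 : ℝ} (hk : 0 < k)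
    (hC : C ≤ C') (h : Loc.Cell3 k c s n n' m R lam C q0 q1 q2) :
    Loc.Cell3 k c s n n' m R lam C' q0 q1 q2 := by
  have hR : 0 ≤ R := le_trans zero_le_one h.hR
  obtain ⟨σ, hσ, h1⟩ := h.slow
  refine
    { hR := h.hR
      hlam := h.hlam
      slow := ⟨σ, hσ, fun z hz => (h1 z hz).trans (by gcongr)⟩
      slow0 := fun z hz => (h.slow0 z hz).trans (by gcongr)
      fast := fun z hz => (h.fast z hz).trans (by gcongr)
      fast0 := fun z hz => (h.fast0 z hz).trans (by gcongr)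
      quad := h.quad }

theorem numM {k u : ℝ} (h : UU k u) : Move686.NumM k (u ^ 40) (u ^ 36) (1 / u ^ 21) := by
  have hu := h.u_large
  have hu0 := h.u_pos
  have hk := h.k_eq
  have hu1 : (1 : ℝ) ≤ u := le_trans (by norm_num) hu
  have hp : ∀ {a b : ℕ} {C : ℝ}, C ≤ 10 ^ 16 → a + 1 ≤ b → C * u ^ a ≤ u ^ b := by
    intro a b C hC hab
    calc C * u ^ a ≤ u * u ^ a := mul_le_mul_of_nonneg_right (hC.trans hu) (by positivity)
      _ = u ^ (a + 1) := by ring
      _ ≤ u ^ b := pow_le_pow_right₀ hu1 hab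
  refine ⟨?_, ?_, ?_, ?_, ?_, ?_, by positivity, ?_, ?_⟩
  · rw [hk]
    have := hp (a := 0) (b := 60) (C := 10 ^ 12) (by norm_num) (by norm_num)
    simpa using this
  · rw [hk]
    calc 16000 * u ^ 60 ≤ u ^ 80 := hp (by norm_num) (by norm_num)
      _ = (u ^ 40) ^ 2 := by ring
  · have := hp (a := 0) (b := 40) (C := 10 ^ 6) (by norm_num) (by norm_num)
    simpa using this
  · exact hp (by norm_num) (by norm_num)
  · have := hp (a := 0) (b := 36) (C := 10 ^ 6) (by norm_num) (by norm_num)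
    simpa using this
  · rw [le_div_iff₀ (by norm_num), hk, mul_comm]
    exact hp (by norm_num) (by norm_num)
  · rw [div_le_one (by positivity)]
    exact one_le_pow₀ hu1
  · rw [hk]
    calc 10 ^ 11 * u ^ 60 * (1 / u ^ 21) = 10 ^ 11 * u ^ 39 := by field_simp
      _ ≤ u ^ 40 := hp (by norm_num) (by norm_num)

theorem moveBase {k u c t0 r0 r : ℝ} {s : Bool} {n0 M : ℕ} (h : UU k u)
    (B : B2 k c s n0 M t0 r0 r) {jS : ℕ} (hM : jS ≤ M) (h92 : jS ≤ 92)
    (hx : 1 / u ^ 21 ≤ ‖Ds k c s (n0 + 1 + jS) t0‖ * (2 * r)) :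
    Move686.Base k (u ^ 40) (u ^ 36) (1 / u ^ 21) (Loc.Y k c s) (Ds k c s) n0 t0 r0 (2 * r) := by
  obtain ⟨B, hold⟩ := B
  refine ⟨?_, ?_, B.r0_pos, ?_, ?_, ?_, ⟨jS, by omega, ?_, hx⟩⟩
  · intro t ht
    rw [norm_Ds_sub, norm_Ds]
    exact B.close t ht
  · intro t ht
    rw [norm_Ds, norm_Ds]
    exact B.prev t ht
  · rw [norm_Ds]
    exact norm_pos_iff.mpr B.ne
  · rw [norm_Ds]
    have h1 := B.small
    rw [h.e35] at h1
    have h2 : 0 ≤ k * (‖Loc.D k c s (n0 + 1) t0‖ * r0) := by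
      have := B.r0_pos
      have hk0 : 0 < k := by
        rw [h.k_eq]
        have := h.u_pos
        positivity
      positivity
    calc 10 ^ 10 * k * (‖Loc.D k c s (n0 + 1) t0‖ * (2 * r0)) =
        (2 * 10 ^ 10) * (k * (‖Loc.D k c s (n0 + 1) t0‖ * r0)) := by ring
      _ ≤ 10 ^ 11 * (k * (‖Loc.D k c s (n0 + 1) t0‖ * r0)) := by
          apply mul_le_mul_of_nonneg_right _ h2
          norm_num
      _ = 10 ^ 11 * k * (‖Loc.D k c s (n0 + 1) t0‖ * r0) := by ring
      _ ≤ _ := h1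
  · rw [norm_Ds]
    exact hold
  · intro j hj
    have := B.dig j (by omega)
    rw [h.e23] at this
    exact this

/-- **595's `locA4`** for the base predicate `B2` -/
theorem locA4 : LocGlue365.LocA4Stmt B2 := by
  refine ⟨10 ^ 1000, ?_⟩
  intro k hk1000 c t0 r hr1 n0 M r0 hB hold
  obtain ⟨u, hU⟩ := exists_u hk1000
  have hk400 : (10 : ℝ) ^ 240 ≤ k := le_trans (pow_le_pow_right₀ (by norm_num) (by norm_num)) hk1000
  clear hk1000
  have hk45 : (10 : ℝ) ^ 45 ≤ k := le_trans (pow_le_pow_right₀ (by norm_num) (by norm_num)) hk400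
  have hk0 : 0 < k := lt_of_lt_of_le (by norm_num) hk45
  have hk1 : 1 ≤ k := le_trans (by norm_num) hk45
  have hr := (hB true).1.r_pos
  have hNM := numM hU
  have hNB := hU.numB (ρ := 2 * r) (by linarith)
  have hu0 := hU.u_pos
  have hu := hU.u_large
  have hδ : 1 / 10 ^ 11 / k < 1 / u ^ 21 := by
    rw [hU.k_eq, div_div, div_lt_div_iff₀ (by positivity) (by positivity), one_mul, one_mul]
    have h1 : u ^ 21 ≤ u ^ 60 := pow_le_pow_right₀ (le_trans (by norm_num) hu) (by norm_num)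
    have h2 : 0 < u ^ 60 := by positivity
    linarith
  choose jS hjM hj1 hj92 hjb hjx using fun s => Base.exists_exit hU (hB s).1
  have hMB := fun s => moveBase hU (hB s) (hjM s) (hj92 s) (hjx s)
  have hdig : ∀ s, ∀ j < jS s, u ^ 40 ≤ vv k (Loc.Y k c s) (n0 s + 1 + j) t0 := by
    intro s j hj
    have := (hB s).1.dig j (by have := hjM s; omega)
    rw [hU.e23] at this
    exact this
  -- bad sets
  set bad : Bool → Set ℝ := fun s => {t : ℝ | t ∈ Icc (t0 - r) (t0 + r) ∧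
    ¬ (k ^ (3 / 5 : ℝ) ≤ vv k (Loc.Y k c s) (n0 s + jS s + 1) t ∧
      ∀ i, 1 ≤ i → i ≤ 5 → 1 / 10 ^ 4 * k ≤ vv k (Loc.Y k c s) (n0 s + jS s + 1 + i) t)} with hbad
  have hvol : ∀ s, volume (bad s) ≤ ENNReal.ofReal (2 * r / 8) := by
    intro s
    have hg := (hMB s).good_hyps hNM hδ (by linarith : 0 < 2 * r) (co_loc k c s univ)
      (by have := hj92 s; omega) (hdig s) (hjb s) (hjx s)
    have e : n0 s + jS s + 1 = n0 s + 1 + jS s := by omega
    refine LocD.nice_points hk400 (D := Ds k c s) (t₀ := t0) (by linarith : 0 < 2 * r)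
      (by ring) (by linarith) (by linarith) (co_loc k c s _) (M := n0 s + jS s) ?_ ?_ ?_
    · rw [e]; exact hg.1
    · intro t ht
      rw [e]
      refine (hg.2 t ht).trans ?_
      apply mul_le_mul_of_nonneg_right _ (norm_nonneg _)
      rw [div_le_div_iff₀ (by positivity) (by norm_num)]
      have : (10 : ℝ) ^ 16 ≤ u ^ 40 := hu.trans (le_self_pow₀ (le_trans (by norm_num) hu) (by norm_num))
      linarith
    · rw [e, hU.e720]
      exact hjx s
  refine ⟨Icc (t0 - r) (t0 + r) \ (bad true ∪ bad false), fun x hx => hx.1, ?_, ?_⟩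
  · -- volume
    have h1 : volume (bad true ∪ bad false) ≤ ENNReal.ofReal (2 * r / 8 + 2 * r / 8) := by
      refine (measure_union_le _ _).trans ?_
      rw [ENNReal.ofReal_add (by positivity) (by positivity)]
      exact add_le_add (hvol true) (hvol false)
    have h2 : volume (Icc (t0 - r) (t0 + r)) = ENNReal.ofReal (2 * r) := by
      rw [Real.volume_Icc]
      congr 1
      ring
    calc ENNReal.ofReal r ≤ ENNReal.ofReal (2 * r - (2 * r / 8 + 2 * r / 8)) :=
          ENNReal.ofReal_le_ofReal (by linarith)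
      _ = ENNReal.ofReal (2 * r) - ENNReal.ofReal (2 * r / 8 + 2 * r / 8) :=
          ENNReal.ofReal_sub _ (by positivity)
      _ ≤ volume (Icc (t0 - r) (t0 + r)) - volume (bad true ∪ bad false) := by
          rw [h2]
          exact tsub_le_tsub_left h1 _
      _ ≤ _ := le_measure_sdiff
  · intro m hm
    obtain ⟨hmI, hmb⟩ := hm
    have hgood : ∀ s, k ^ (3 / 5 : ℝ) ≤ vv k (Loc.Y k c s) (n0 s + jS s + 1) m ∧
        ∀ i, 1 ≤ i → i ≤ 5 → 1 / 10 ^ 4 * k ≤ vv k (Loc.Y k c s) (n0 s + jS s + 1 + i) m := by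
      intro s
      by_contra hc
      apply hmb
      cases s with
      | true => exact Or.inl ⟨hmI, hc⟩
      | false => exact Or.inr ⟨hmI, hc⟩
    have hmt : |m - t0| ≤ r := abs_le.2 ⟨by linarith [hmI.1], by linarith [hmI.2]⟩
    have hS : ∀ s, SideOK k c s (n0 s) (jS s) (r0 s) (2 * r) (1 / u ^ 21) (u ^ 36) m := by
      intro s
      refine Move686.sideOK hNM hδ (hMB s) (by linarith) (by have := hj92 s; omega) (hdig s) (hjb s)
        (hjx s) (by linarith) ?_ ?_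
      · have := (hgood s).1
        rw [hU.e35] at this
        have e : n0 s + jS s + 1 = n0 s + 1 + jS s := by omega
        rw [e] at this
        exact this
      · intro i hi1 hi5
        have := (hgood s).2 i hi1 hi5
        have e : n0 s + jS s + 1 + i = n0 s + 1 + (jS s + i) := by omega
        rw [e] at this
        exact this
    -- the old content, recentred
    obtain ⟨p0, p1, p2, hp⟩ := hold
    set h : ℝ := m - t0 with hh
    have hrk : 4 * (2 * r) / k ≤ r := by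
      rw [div_le_iff₀ hk0]
      have : (8 : ℝ) ≤ k := le_trans (by norm_num) hk45
      nlinarith
    have holdm : ∀ z ∈ ball (m : ℂ) (4 * (2 * r) / k), 2 * Real.pi * k * (k ^ 8 / (2 * r)) ^ 2 *
        ‖Loc.cont k c true (n0 true + 1) (n0 false + 1) z -
          (((p0 + p1 * h + p2 * h ^ 2 : ℝ) : ℂ) + ((p1 + 2 * p2 * h : ℝ) : ℂ) * (z - m) +
            (p2 : ℂ) * (z - m) ^ 2)‖ ≤ 1 / 100 := by
      intro z hz
      rw [mem_ball, dist_eq_norm] at hz
      have hz' : z ∈ ball (t0 : ℂ) (2 * r) := by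
        rw [mem_ball, dist_eq_norm]
        have e : z - (t0 : ℂ) = (z - m) + ((h : ℝ) : ℂ) := by rw [hh]; push_cast; ring
        rw [e]
        refine (norm_add_le _ _).trans_lt ?_
        rw [Complex.norm_real, Real.norm_eq_abs]
        linarith
      have h1 := hp z hz'
      have e : (((p0 + p1 * h + p2 * h ^ 2 : ℝ) : ℂ) + ((p1 + 2 * p2 * h : ℝ) : ℂ) * (z - m) +
            (p2 : ℂ) * (z - m) ^ 2) = p0 + p1 * (z - t0) + p2 * (z - t0) ^ 2 := by
        rw [hh]; push_cast; ring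
      rw [e]
      calc 2 * Real.pi * k * (k ^ 8 / (2 * r)) ^ 2 * _ ≤
          2 * Real.pi * k * (k ^ 8 / (2 * r)) ^ 2 * (r ^ 2 / k ^ 18) := by
            have := Real.pi_pos
            gcongr
        _ = Real.pi / (2 * k) := by field_simp
        _ ≤ 1 / 100 := by
            rw [div_le_div_iff₀ (by positivity) (by norm_num)]
            have := Real.pi_lt_d2
            have : (1000 : ℝ) ≤ k := le_trans (by norm_num) hk45
            linarith
    obtain ⟨s, i, j, lam, q0, q1, q2, hi3, hi6, hj3, hj6, hR1, hR2, hlam, hlamR, hC⟩ :=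
      LocA2X.cell3 hNB hr1 hS holdm
    set R := ‖Loc.D k c s (n0 s + 1 + (jS s + i)) m‖ with hR
    have hR0 : 0 < R := lt_of_lt_of_le one_pos hC.hR
    have hsq : 10 ^ 21 ≤ Real.sqrt k := by
      apply Real.le_sqrt_of_sq_le
      refine le_trans ?_ hk45
      norm_num
    have hsq2 : Real.sqrt k * Real.sqrt k = k := Real.mul_self_sqrt hk0.le
    have hsq0 : 0 < Real.sqrt k := lt_of_lt_of_le (by norm_num) hsq
    have hlam1 : 1 ≤ |lam| := hC.hlam
    refine ⟨s, n0 s + (jS s + i), n0 (!s) + (jS (!s) + j), R, lam, q0, q1, q2, hR1, hR2, ?_, ?_, ?_, ?_⟩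
    · refine hlam.trans ?_
      apply mul_le_mul_of_nonneg_right _ hsq0.le
      norm_num
    · exact cell3_mono hk0 (by norm_num) hC
    · intro l hl1 hl2 t ht
      rw [mem_ball, dist_eq_norm] at ht
      refine size2 hNB (hS s) (by omega) hi6 (le_trans hk1 hR1) ?_ l hl1 (by omega)
      rw [← hR]
      refine ht.trans_le ?_
      rw [div_le_div_iff₀ hR0 (by positivity)]
      have : (4 : ℝ) * 10 ^ 19 ≤ k := le_trans (by norm_num) hk45
      nlinarith
    · intro l hl1 hl2 t ht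
      rw [mem_ball, dist_eq_norm] at ht
      have hb : k ≤ ‖Loc.D k c (!s) (n0 (!s) + 1 + (jS (!s) + j)) m‖ * (2 * r) := by
        rw [← hlamR]
        refine hR1.trans ?_
        have : R * (2 * r) ≤ |lam| * (R * (2 * r)) := by
          have h3 : 0 ≤ R * (2 * r) := by positivity
          nlinarith
        linarith
      have h4 := size2 hNB (hS (!s)) (by omega) hj6 (le_trans hk1 hb) (u := t) ?_ l hl1 (by omega)
      · rw [← hlamR] at h4
        linarith
      · rw [← hlamR]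
        refine ht.trans_le ?_
        rw [div_le_div_iff₀ hR0 (by positivity)]
        have h5 : 4 * (10 ^ 19 * |lam|) ≤ k := by
          calc 4 * (10 ^ 19 * |lam|) ≤ 4 * (10 ^ 19 * (4 * Real.sqrt k)) := by gcongr
            _ = (16 * 10 ^ 19) * Real.sqrt k := by ring
            _ ≤ Real.sqrt k * Real.sqrt k := by
                apply mul_le_mul_of_nonneg_right _ hsq0.le
                refine le_trans ?_ hsq
                norm_num
            _ = k := hsq2
        calc 4 * (10 ^ 19 * (|lam| * R)) = 4 * (10 ^ 19 * |lam|) * R := by ring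
          _ ≤ k * R := by gcongr


/-! ### base data with the stronger field `old` (same proof as in `VFB162`) -/

open Crest.Agent.R128.CellDy Crest.Agent.R128.TreeSum Crest.Agent.R128.Disp
open Crest.Agent.R128.CleanNum Crest.Agent.R128.CleanDisc Crest.Agent.R128.CleanCont
open Crest.Agent.R128.AlignMn Crest.Agent.R128.DictY Crest.Agent.R128.VFB

/-- one side -/
theorem side_base2 {k c t0 ρ : ℝ} {L n n0 M : ℕ} {x : ℕ → ℝ} (s : Bool) (hk : (2 : ℝ) ^ 400 ≤ k)
    (hL : 1000 ≤ L) (hLk : 10 ^ 14 * ((L : ℝ) + 1) ^ 5 ≤ k) (h1 : n * Real.log 2 ≤ ρ)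
    (h2 : ρ ≤ n * Real.log 2 + 2 * Real.log k)
    (S : Good.Side k L ρ (zt k c (CellDy.sd k c s t0)) x (n0 + 1) M) :
    ∃ r0 : ℝ, B2 k c s n0 M t0 r0 (1 / (k ^ 60 * 2 ^ n)) := by
  have hk200 : (2 : ℝ) ^ 200 ≤ k := le_trans (pow_le_pow_right₀ (by norm_num) (by norm_num)) hk
  have hk20 : (10 : ℝ) ^ 20 ≤ k := le_trans (by norm_num) hk200
  have hN : SideStart376.NumK k L := ⟨hk20, hL, hLk⟩
  have hk0 : 0 < k := lt_of_lt_of_le (by norm_num) hk20
  have hk1 : 1 ≤ k := le_trans (by norm_num) hk20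
  have hρ : 0 ≤ ρ := le_trans (by have := Real.log_nonneg (by norm_num : (1 : ℝ) ≤ 2); positivity) h1
  obtain ⟨he1, he2⟩ := exp_sizes hk0 h1 h2
  have h2n : (0 : ℝ) < 2 ^ n := by positivity
  have hC := SideSize.clean hk (by omega) hρ S
  have hX := (SideSize.XX_eq hk (by omega) S).2
  have hc := SideSize.cone_foot hk (by omega) hρ S
  have hz := SideSize.sizes hk (by omega) hρ S
  have hkp := SideSize.kp_ge hk
  have hrb := SideStart376.run_big hN hρ S
  have hrd := fun {j : ℕ} (hj : j ≤ M) => SideStart376.run_dig S hj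
  have hc2 : 2 * |(wf k c (CellDy.sd k c s t0) (n0 + 1 - 1)).1| ≤
      |(wf k c (CellDy.sd k c s t0) (n0 + 1 - 1)).2| := by
    refine le_trans ?_ hc
    apply mul_le_mul_of_nonneg_right _ (abs_nonneg _)
    have : (3 : ℝ) ≤ 2 ^ 201 := by norm_num
    have h3 := this.trans hkp
    linarith only [h3]
  have hD := BaseNum.norm_D_real k c s (n0 + 1) (by omega) t0
  have hk60 : (0 : ℝ) < k ^ 60 * 2 ^ n := by positivity
  have hr0 : 0 < 1 / (k ^ 60 * 2 ^ n) := by positivity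
  have hup : ‖Loc.D k c s (n0 + 1) (t0 : ℂ)‖ ≤ 2 * k ^ 5 * 2 ^ n := by
    rw [hD]
    refine hz.2.trans ?_
    calc 2 * k ^ 3 * Real.exp ρ ≤ 2 * k ^ 3 * (2 ^ n * k ^ 2) := by gcongr
      _ = 2 * k ^ 5 * 2 ^ n := by ring
  have hlo : 2 ^ n / 2 ≤ ‖Loc.D k c s (n0 + 1) (t0 : ℂ)‖ := by
    rw [hD]
    refine le_trans ?_ hz.1
    linarith only [he1]
  have hXr : ‖Loc.D k c s (n0 + 1) (t0 : ℂ)‖ * (2 * (1 / (k ^ 60 * 2 ^ n))) ≤ 1 / k ^ 50 := by
    calc ‖Loc.D k c s (n0 + 1) (t0 : ℂ)‖ * (2 * (1 / (k ^ 60 * 2 ^ n)))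
        ≤ (2 * k ^ 5 * 2 ^ n) * (2 * (1 / (k ^ 60 * 2 ^ n))) := by gcongr
      _ = 4 / k ^ 55 := by field_simp; norm_num
      _ ≤ 1 / k ^ 50 := by
          rw [div_le_div_iff₀ (by positivity) (by positivity)]
          have h5 : (4 : ℝ) ≤ k ^ 5 := le_trans (le_trans (by norm_num) hk20) (le_self_pow₀ hk1 (by norm_num))
          calc 4 * k ^ 50 ≤ k ^ 5 * k ^ 50 := by gcongr
            _ = 1 * k ^ 55 := by ring
  obtain ⟨r0, g1, g2, g3, g4, g5, g6⟩ := BaseNum.base_num s hk200 (by omega) hC hX hc2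
    (mul_pos two_pos hr0) hXr
  rw [Nat.add_sub_cancel] at g3
  refine ⟨r0, ⟨g1, hr0, g2, g3, g4, g5, le_trans ?_ g6, ?_, ?_, ?_⟩, g6⟩
  · have h7 : 0 ≤ ‖Loc.D k c s (n0 + 1) (t0 : ℂ)‖ := norm_nonneg _
    gcongr
    linarith only [hr0]
  · -- lower
    calc (1 : ℝ) ≤ k := hk1
      _ = k ^ 61 * (2 ^ n / 2 * (2 * (1 / (k ^ 60 * 2 ^ n)))) := by field_simp
      _ ≤ k ^ 61 * (‖Loc.D k c s (n0 + 1) (t0 : ℂ)‖ * (2 * (1 / (k ^ 60 * 2 ^ n)))) := by gcongr
  · -- digits
    intro j hj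
    have h3 := hrd hj.le
    rw [Nat.add_sub_cancel] at h3
    have e : n0 + 1 + j = (n0 + j) + 1 := by omega
    unfold Loc.Y
    rw [BaseNum.sdC_real, e, cV_y, Complex.norm_real, Real.norm_eq_abs]
    exact h3
  · -- the end of the run
    have h3 : ‖Loc.D k c s (n0 + 1 + M) (t0 : ℂ)‖ =
        SideStart376.Qr k c (CellDy.sd k c s t0) (n0 + 1 + M) := by
      unfold Loc.D
      rw [BaseNum.sdC_real, SideStart376.norm_yd]
    rw [h3]
    have h4 : k ^ 80 * 2 ^ n / 2 ≤ SideStart376.Qr k c (CellDy.sd k c s t0) (n0 + 1 + M) := by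
      have : k ^ 80 * 2 ^ n ≤ k ^ 80 * Real.exp ρ := by gcongr
      linarith only [this, hrb]
    calc k ^ (-(7 / 20) : ℝ) ≤ 1 := Real.rpow_le_one_of_one_le_of_nonpos hk1 (by norm_num)
      _ ≤ k ^ 20 := one_le_pow₀ hk1
      _ = k ^ 80 * 2 ^ n / 2 * (2 * (1 / (k ^ 60 * 2 ^ n))) := by field_simp
      _ ≤ _ := by gcongr

/-- **VF ⟹ Base** -/
theorem vfBase2 {L : ℕ} (hL : 1000 ≤ L) : LocGlue365.VFBase L B2 := by
  refine ⟨max ((2 : ℝ) ^ 400) (10 ^ 14 * ((L : ℝ) + 1) ^ 5), ?_⟩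
  intro k hkk c t0 n hG
  have hk : (2 : ℝ) ^ 400 ≤ k := (le_max_left _ _).trans hkk
  have hLk : 10 ^ 14 * ((L : ℝ) + 1) ^ 5 ≤ k := (le_max_right _ _).trans hkk
  have hk200 : (2 : ℝ) ^ 200 ≤ k := le_trans (pow_le_pow_right₀ (by norm_num) (by norm_num)) hk
  have hk70 : (2 : ℝ) ^ 70 ≤ k := le_trans (pow_le_pow_right₀ (by norm_num) (by norm_num)) hk200
  have hk4 : (4 : ℝ) ≤ k := le_trans (by norm_num) hk70
  have hk1 : (1 : ℝ) ≤ k := le_trans (by norm_num) hk4
  have hk0 : 0 < k := lt_of_lt_of_le (by norm_num) hk4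
  obtain ⟨-, ρ, h1, h2, hVF⟩ := hG
  have hρ : 0 ≤ ρ := le_trans (by have := Real.log_nonneg (by norm_num : (1 : ℝ) ≤ 2); positivity) h1
  obtain ⟨he1, he2⟩ := exp_sizes hk0 h1 h2
  have hside : ∀ s : Bool, ∃ (x : ℕ → ℝ) (n0 M : ℕ),
      Good.Side k L ρ (zt k c (CellDy.sd k c s t0)) x (n0 + 1) M := by
    intro s
    obtain ⟨x, -, w, M, -, -, S, -⟩ := H4.sides s hVF
    rw [zs_eq] at S
    have hw := S.hw
    obtain ⟨n0, rfl⟩ : ∃ n0, w = n0 + 1 := ⟨w - 1, by omega⟩
    exact ⟨x, n0, M, S⟩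
  choose x n0 M S using hside
  choose r0 hB using fun s => side_base2 s hk hL hLk h1 h2 (S s)
  have hC := fun s => SideSize.clean hk (by omega) hρ (S s)
  have hX := fun s => (SideSize.XX_eq hk (by omega) (S s)).2
  have hz := fun s => SideSize.sizes hk (by omega) hρ (S s)
  have hkp := SideSize.kp_ge hk
  have hE : ∀ s, nn (SideSize.EF k c (CellDy.sd k c s t0) (n0 s + 1) (n0 s + 1 - 1)) = 1 := by
    intro s
    rw [SideSize.EF_last hk (by omega) (S s)]
    unfold nn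
    simp
  have hc2 : ∀ s, 2 * |(wf k c (CellDy.sd k c s t0) (n0 s + 1 - 1)).1| ≤
      |(wf k c (CellDy.sd k c s t0) (n0 s + 1 - 1)).2| := by
    intro s
    refine le_trans ?_ (SideSize.cone_foot hk (by omega) hρ (S s))
    apply mul_le_mul_of_nonneg_right _ (abs_nonneg _)
    have : (3 : ℝ) ≤ 2 ^ 201 := by norm_num
    have h3 := this.trans hkp
    linarith only [h3]
  have hXle : ∀ s, XX (wf k c (CellDy.sd k c s t0)) (SideSize.EF k c (CellDy.sd k c s t0) (n0 s + 1)) ≤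
      2 * k ^ 5 * 2 ^ n := by
    intro s
    rw [hX s]
    refine (hz s).2.trans ?_
    calc 2 * k ^ 3 * Real.exp ρ ≤ 2 * k ^ 3 * (2 ^ n * k ^ 2) := by gcongr
      _ = 2 * k ^ 5 * 2 ^ n := by ring
  have hXpos : ∀ s, 0 < XX (wf k c (CellDy.sd k c s t0))
      (SideSize.EF k c (CellDy.sd k c s t0) (n0 s + 1)) := fun s => (hC s).Xpos
  set r : ℝ := 1 / (k ^ 60 * 2 ^ n) with hr
  have hr0 : 0 < r := by positivity
  have hrX : ∀ X : ℝ, X ≤ 2 * k ^ 5 * 2 ^ n → r * X ≤ 2 / k ^ 55 := by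
    intro X hX
    calc r * X ≤ r * (2 * k ^ 5 * 2 ^ n) := by gcongr
      _ = 2 / k ^ 55 := by rw [hr]; field_simp
  have hkpow : ∀ {a b : ℕ} {C : ℝ}, C ≤ 2 ^ 70 → a + 1 ≤ b → C * k ^ a ≤ k ^ b := by
    intro a b C hC hab
    calc C * k ^ a ≤ k * k ^ a := mul_le_mul_of_nonneg_right (hC.trans hk70) (by positivity)
      _ = k ^ (a + 1) := by ring
      _ ≤ k ^ b := pow_le_pow_right₀ hk1 hab
  refine ⟨n0, M, r0, hB, ?_, ?_⟩
  · -- the old content
    have hsm : ∀ X : ℝ, X ≤ 2 * k ^ 5 * 2 ^ n → 2 ^ 59 * k ^ 9 * (2 * r) * X ≤ 1 := by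
      intro X hX
      have h3 := hrX X hX
      calc 2 ^ 59 * k ^ 9 * (2 * r) * X = 2 ^ 60 * k ^ 9 * (r * X) := by ring
        _ ≤ 2 ^ 60 * k ^ 9 * (2 / k ^ 55) := by gcongr
        _ = (2 ^ 61 * k ^ 9) / k ^ 55 := by ring
        _ ≤ 1 := by
            rw [div_le_one (by positivity)]
            exact hkpow (by norm_num) (by norm_num)
    have ht := hC true
    have hf := hC false
    have e1 : CellDy.sd k c true t0 = t0 := rfl
    have e2 : CellDy.sd k c false t0 = CellDy.kap k c - t0 := rfl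
    obtain ⟨q0, q1, q2, hq⟩ := StartNum.content_foot (k := k) (c := c) (t0 := t0) hk200
      (w := n0 true + 1) (w' := n0 false + 1) (by omega) (by omega) ht hf (hE true) (hE false)
      (hc2 true) (hc2 false) (r := 2 * r) (by positivity) (hsm _ (hXle true)) (hsm _ (hXle false)) t0
    refine ⟨q0, q1, q2, fun z hz => ?_⟩
    refine (hq z (ball_subset_closedBall hz)).trans ?_
    have h3 := hrX _ (hXle true)
    have h4 := hrX _ (hXle false)
    rw [e1] at h3
    rw [e2] at h4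
    set Xt := XX (wf k c t0) (SideSize.EF k c t0 (n0 true + 1)) with hXt
    set Xf := XX (wf k c (CellDy.kap k c - t0)) (SideSize.EF k c (CellDy.kap k c - t0) (n0 false + 1))
      with hXf
    calc k ^ 32 * (2 * r) ^ 3 * (Xt + Xf) = 8 * k ^ 32 * r ^ 2 * (r * Xt + r * Xf) := by ring
      _ ≤ 8 * k ^ 32 * r ^ 2 * (2 / k ^ 55 + 2 / k ^ 55) := by gcongr
      _ = r ^ 2 * ((32 * k ^ 32) / k ^ 55) := by ring
      _ ≤ r ^ 2 * (1 / k ^ 18) := by
          apply mul_le_mul_of_nonneg_left _ (by positivity)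
          rw [div_le_div_iff₀ (by positivity) (by positivity), one_mul]
          calc 32 * k ^ 32 * k ^ 18 = 32 * k ^ 50 := by ring
            _ ≤ k ^ 55 := hkpow (by norm_num) (by norm_num)
      _ = r ^ 2 / k ^ 18 := by ring
  · -- old sizes
    intro s i hi u hu
    have hρ0 := StartNum.rho0_ge hk4
    have hb : LocSize.bp k c s t0 = CellDy.sd k c s t0 := rfl
    have h3 := LocSize.foot_loc s (t0 := t0) (u := (u : ℂ)) (hC s) hk1 (by
      rw [hb, ← Complex.ofReal_sub, Complex.norm_real, Real.norm_eq_abs, le_div_iff₀ (hXpos s)]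
      refine le_trans ?_ hρ0
      rw [le_div_iff₀ (by positivity)]
      have h4 := hrX _ (hXle s)
      set X := XX (wf k c (CellDy.sd k c s t0)) (SideSize.EF k c (CellDy.sd k c s t0) (n0 s + 1))
      have hXp : 0 < X := hXpos s
      calc |u - t0| * X * (2 ^ 58 * k ^ 9) ≤ (2 * r) * X * (2 ^ 58 * k ^ 9) := by gcongr
        _ = 2 ^ 59 * k ^ 9 * (r * X) := by ring
        _ ≤ 2 ^ 59 * k ^ 9 * (2 / k ^ 55) := by gcongr
        _ = (2 ^ 60 * k ^ 9) / k ^ 55 := by ring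
        _ ≤ 1 := by
            rw [div_le_one (by positivity)]
            exact hkpow (by norm_num) (by norm_num)) i (by omega)
    refine h3.trans ?_
    have hC1 := StartNum.C1_le hk4
    have hC10 : 0 ≤ C1 (8 * k) 3 4 := by unfold C1; positivity
    calc 2 * (C1 (8 * k) 3 4 * XX (wf k c (LocSize.bp k c s t0))
          (SideSize.EF k c (CellDy.sd k c s t0) (n0 s + 1)))
        ≤ 2 * ((2 ^ 8 * k ^ 2) * (2 * k ^ 5 * 2 ^ n)) := by
          have := hXle s
          rw [hb]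
          have := (hXpos s).le
          gcongr
      _ = (2 ^ 10 * k ^ 7) * 2 ^ n := by ring
      _ ≤ k ^ 74 * 2 ^ n := by
          apply mul_le_mul_of_nonneg_right _ (by positivity)
          exact hkpow (by norm_num) (by norm_num)


/-- **Good.LocA** -/
theorem locA {L : ℕ} (hL : 1000 ≤ L) : Good.LocA L :=
  H4Fin.locA_of (by omega) locA4 (vfBase2 hL)

end Crest.Agent.R128.LocAFin162
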