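import Crest.Agent.R128.LocA6
import Crest.Agent.R128.LocGlue365
import Crest.Agent.R128.H4Stmt
import Crest.Agent.R128.VFB162

/-!
# Row 128, V5: `Good.LocA` (helper365; pieces: 595 `LocA.locA4`, 162 `VFB.vfBase`, 220 `H4Fin`)
-/

set_option autoImplicit false

open Crest.Agent.R128

namespace Crest.Agent.R128.LocAFin365

theorem locA4Stmt : LocGlue365.LocA4Stmt LocA.Base := by
  refine ⟨10 ^ 1000, fun k hk c t0 r hr n0 M r0 hB old => ?_⟩
  obtain ⟨N, h1, h2, h3⟩ := LocA.locA4 hk hr hB old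
  refine ⟨N, h1, h2, fun m hm => ?_⟩
  obtain ⟨s, n, n', R, lam, q0, q1, q2, a, b, o⟩ := h3 m hm
  exact ⟨s, n, n', R, lam, q0, q1, q2, a, b, o.lam_le, o.cell, o.mon, o.mon'⟩

theorem locA {L : ℕ} (hL : 1000 ≤ L) : Good.LocA L :=
  H4Fin.locA_of (by omega) locA4Stmt (VFB.vfBase hL)

end Crest.Agent.R128.LocAFin365
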