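import Crest.Agent.R128.LocA6
import Crest.Agent.R128.VFB162
import Crest.Agent.R128.H4Stmt

set_option autoImplicit false

open Metric MeasureTheory
open Crest.Agent.R128 Crest.Agent.R128.Cell Crest.Agent.R128.CellB Crest.Agent.R128.CellDy

namespace Crest.Agent.R128.LocAFin376

theorem locA4Stmt : LocGlue365.LocA4Stmt LocA.Base := by
  refine ⟨10 ^ 1000, fun k hk c t0 r hr n0 M r0 hB hO => ?_⟩
  obtain ⟨N, h1, h2, h3⟩ := LocA.locA4 hk hr hB hO
  refine ⟨N, h1, h2, fun m hm => ?_⟩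
  obtain ⟨s, n, n', R, lam, q0, q1, q2, h4, h5, h6⟩ := h3 m hm
  exact ⟨s, n, n', R, lam, q0, q1, q2, h4, h5, h6.lam_le, h6.cell, h6.mon, h6.mon'⟩

theorem locA {L : ℕ} (hL : 1000 ≤ L) : Good.LocA L :=
  H4Fin.locA_of (by omega) locA4Stmt (VFB.vfBase hL)

end Crest.Agent.R128.LocAFin376
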