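import Crest.Agent.R128.LocA1
import Crest.Agent.R128.LocQB
import Crest.Agent.R128.CleanCont
import Crest.Agent.R128.ContCplx

/-!
# Row 128, node V5-LOC: the field `quad` of `Loc.Cell3` (helper272)

* `chain200` : 595's chain of nearly affine curves for up to 200 digits;
* `tail_quad` : the content between the foot and the exit, from 658 `mu_quadratic`;
* `old_quad` : the content up to the foot, from 816 `content_quad`, recentred at `m`;
* `quad_cell` : the field `quad` of `Cell3`.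
-/

set_option autoImplicit false

open MeasureTheory Metric Set
open Crest.Agent.R128 Crest.Agent.R128.Cell Crest.Agent.R128.CellB

namespace Crest.Agent.R128.LocAQuad

open Crest.Agent.R128.LocA

/-- **the chain** of nearly affine curves along regular digits -/
theorem chain200 {k : ℝ} {Y D : ℕ → ℂ → ℂ} {n0 : ℕ} {t₁ r0 A : ℝ} {J : ℕ} (hk : 10 ^ 12 ≤ k)
    (hA : 16000 * k ≤ A ^ 2) (hA0 : 0 < A) (hJ : J ≤ 200)
    (S : Start k Y D n0 t₁ r0 (1 / 1000) A J) :
    (∀ j ≤ J, NA Y D (n0 + j) t₁ (rad k Y D n0 r0 t₁ j) (1 / 100) ∧ 0 < ‖D (n0 + 1 + j) t₁‖ ∧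
      0 < rad k Y D n0 r0 t₁ j) ∧
    (∀ j < J, rad k Y D n0 r0 t₁ (j + 1) ≤ rad k Y D n0 r0 t₁ j ∧
      (vv k Y (n0 + 1 + j) t₁ - 1) * ‖D (n0 + 1 + j) t₁‖ ≤ ‖D (n0 + 1 + (j + 1)) t₁‖ ∧
      ‖D (n0 + 1 + (j + 1)) t₁‖ ≤ (vv k Y (n0 + 1 + j) t₁ + 1) * ‖D (n0 + 1 + j) t₁‖ ∧
      ∀ t ∈ ball (t₁ : ℂ) (rad k Y D n0 r0 t₁ (j + 1)),
        ‖D (n0 + 1 + j) t‖ ≤ 2 / vv k Y (n0 + 1 + j) t₁ * ‖D (n0 + 1 + (j + 1)) t₁‖) := by
  have hk1 : 1 ≤ k := by linarith
  have hk0 : 0 < k := by linarith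
  have hA6 : 10 ^ 6 ≤ A := by
    by_contra hcon
    push Not at hcon
    have : A ^ 2 < (10 ^ 6) ^ 2 := by gcongr
    nlinarith
  -- invariants
  have key : ∀ j ≤ J, NA Y D (n0 + j) t₁ (rad k Y D n0 r0 t₁ j) (1 / 1000 + j * (4 / 10 ^ 5)) ∧
      0 < ‖D (n0 + 1 + j) t₁‖ ∧ 0 < rad k Y D n0 r0 t₁ j ∧
      (0 < j → vv k Y (n0 + 1 + (j - 1)) t₁ / 2 * ‖D (n0 + 1 + (j - 1)) t₁‖ ≤
        ‖D (n0 + 1 + j) t₁‖) ∧
      (∀ i, i + 1 = j → rad k Y D n0 r0 t₁ (i + 1) ≤ rad k Y D n0 r0 t₁ i ∧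
      (vv k Y (n0 + 1 + i) t₁ - 1) * ‖D (n0 + 1 + i) t₁‖ ≤ ‖D (n0 + 1 + (i + 1)) t₁‖ ∧
      ‖D (n0 + 1 + (i + 1)) t₁‖ ≤ (vv k Y (n0 + 1 + i) t₁ + 1) * ‖D (n0 + 1 + i) t₁‖ ∧
      ∀ t ∈ ball (t₁ : ℂ) (rad k Y D n0 r0 t₁ (i + 1)),
        ‖D (n0 + 1 + i) t‖ ≤ 2 / vv k Y (n0 + 1 + i) t₁ * ‖D (n0 + 1 + (i + 1)) t₁‖) := by
    intro j
    induction j with
    | zero =>
      intro _
      refine ⟨by simpa [rad] using S.na, ?_, by simpa [rad] using S.pos, fun h => absurd h (lt_irrefl 0),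
        fun i hi => absurd hi (by omega)⟩
      simpa using S.ne
    | succ j ih =>
      intro hj
      obtain ⟨i1, i2, i3, i4, -⟩ := ih (by omega)
      have hdj := S.dig j (by omega)
      have hv0 : 0 < vv k Y (n0 + 1 + j) t₁ := by linarith
      have hpos : 0 < rad k Y D n0 r0 t₁ (j + 1) := by
        simp only [rad]
        refine lt_min S.pos (by positivity)
      have hmono : rad k Y D n0 r0 t₁ (j + 1) ≤ rad k Y D n0 r0 t₁ j := by
        cases j with
        | zero => exact min_le_left _ _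
        | succ i =>
          simp only [rad]
          refine le_min (min_le_left _ _) ((min_le_right _ _).trans ?_)
          have h4 := i4 (by omega)
          have e : i + 1 - 1 = i := by omega
          rw [e] at h4
          have hdi := S.dig i (by omega)
          have hvi0 : 0 < vv k Y (n0 + 1 + i) t₁ := by linarith
          have hup : vv k Y (n0 + 1 + (i + 1)) t₁ ≤ 8000 * k := vv_le hk1 S.co _ _
          have hdpos : 0 < ‖D (n0 + 1 + i) t₁‖ := by
            by_contra hcon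
            have h0 : ‖D (n0 + 1 + i) t₁‖ = 0 := le_antisymm (not_lt.mp hcon) (norm_nonneg _)
            have hpr := i1.prev
            -- `D (n0+1+i)` vanishes at `t₁`; use the recursion bound
            have hub := (ih (by omega)).2.2.2.2 i rfl
            rw [h0, mul_zero] at hub
            linarith [hub.2.2.1]
          rw [div_le_div_iff₀ (by positivity) (by positivity)]
          have h5 : vv k Y (n0 + 1 + (i + 1)) t₁ * ‖D (n0 + 1 + i) t₁‖ ≤
              vv k Y (n0 + 1 + i) t₁ * ‖D (n0 + 1 + (i + 1)) t₁‖ := by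
            have h6 : 16000 * k ≤ vv k Y (n0 + 1 + i) t₁ ^ 2 :=
              hA.trans (by gcongr)
            calc vv k Y (n0 + 1 + (i + 1)) t₁ * ‖D (n0 + 1 + i) t₁‖
                ≤ 8000 * k * ‖D (n0 + 1 + i) t₁‖ := by gcongr
              _ ≤ (vv k Y (n0 + 1 + i) t₁ ^ 2 / 2) * ‖D (n0 + 1 + i) t₁‖ := by gcongr; linarith
              _ = vv k Y (n0 + 1 + i) t₁ *
                  (vv k Y (n0 + 1 + i) t₁ / 2 * ‖D (n0 + 1 + i) t₁‖) := by ring
              _ ≤ _ := by gcongr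
          nlinarith
      have e1 : n0 + 1 + j = n0 + j + 1 := by omega
      have e2 : n0 + 1 + (j + 1) = n0 + j + 2 := by omega
      have e3 : n0 + (j + 1) = n0 + j + 1 := by omega
      have hjr : (j : ℝ) ≤ 200 := by exact_mod_cast (by omega : j ≤ 200)
      have hst := cstep hk1 hpos (S.co.mono (ball_subset_ball (rad_le _ _ _ _ _ _ _)))
        (i1.mono hmono) (by positivity) (by nlinarith) (by rw [← e1]; linarith) (by
          rw [← e1]
          have h7 : rad k Y D n0 r0 t₁ (j + 1) ≤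
              1 / 10 ^ 10 * vv k Y (n0 + 1 + j) t₁ / (k * ‖D (n0 + 1 + j) t₁‖) := by
            simp only [rad]; exact min_le_right _ _
          rw [le_div_iff₀ (by positivity)] at h7
          nlinarith)
      rw [← e1] at hst
      rw [e3, e2]
      have hdd : vv k Y (n0 + 1 + j) t₁ / 2 * ‖D (n0 + 1 + j) t₁‖ ≤ ‖D (n0 + j + 2) t₁‖ := by
        refine le_trans ?_ hst.2.2.1
        gcongr
        linarith
      refine ⟨?_, lt_of_lt_of_le (by positivity) hdd, hpos, fun _ => ?_, ?_⟩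
      · have := hst.1.weaken (η' := 1 / 1000 + ((j + 1 : ℕ) : ℝ) * (4 / 10 ^ 5)) (by push_cast; linarith)
        rw [e1] at this
        exact this
      · have e : j + 1 - 1 = j := by omega
        rw [e]; exact hdd
      · intro i hi
        obtain rfl : i = j := by omega
        refine ⟨hmono, ?_, ?_, ?_⟩
        · rw [e2]; exact hst.2.2.1
        · rw [e2]; exact hst.2.2.2
        · intro t ht
          rw [e2]; exact hst.2.1 t ht
  refine ⟨fun j hj => ?_, fun j hj => (key (j + 1) hj).2.2.2.2 j rfl⟩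
  obtain ⟨h1, h2, h3, -⟩ := key j hj
  refine ⟨h1.weaken ?_, h2, h3⟩
  have hjr : (j : ℝ) ≤ 200 := by exact_mod_cast (by omega : j ≤ 200)
  linarith


/-- the numerical heart of `tail_quad`: every step of the content is far inside its disc -/
theorem step_num {k R A C1 : ℝ} {J : ℕ} {a v : ℕ → ℝ}
    (hC1 : 1 ≤ C1) (hk : 10 ^ 100 ≤ k) (hkC : 10 ^ 60 * C1 ≤ Real.sqrt k)
    (hA : 10 ^ 40 * k ≤ A ^ 2) (hA0 : 0 < A) (hR0 : 0 < R)
    (ha : ∀ j ≤ J, 0 < a j) (hv : ∀ j < J, A ≤ v j)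
    (hg : ∀ j < J, v j / 2 * a j ≤ a (j + 1))
    (nice : ∀ j < J, J ≤ j + 4 → 1 / 10 ^ 4 * k ≤ v j)
    (hS : a J ≤ C1 * Real.sqrt k * R) :
    ∀ j < J, 2 * 10 ^ 39 * k ^ 4 * a j ≤ R * v j ^ 4 := by
  have hk0 : 0 < k := lt_of_lt_of_le (by positivity) hk
  have hk1 : 1 ≤ k := le_trans (by norm_num) hk
  have hsk : Real.sqrt k * Real.sqrt k = k := Real.mul_self_sqrt hk0.le
  have hsk0 : 0 ≤ Real.sqrt k := Real.sqrt_nonneg k
  have hCk : 10 ^ 60 * (C1 * Real.sqrt k) ≤ k := by nlinarith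
  have hA2 : 2 ≤ A := by
    by_contra hcon
    push Not at hcon
    have : A ^ 2 < 2 ^ 2 := by gcongr
    nlinarith
  have mono : ∀ j < J, a j ≤ a (j + 1) := by
    intro j hj
    have h1 := hg j hj
    have h2 := hv j hj
    have h3 := ha j hj.le
    nlinarith
  have mono' : ∀ j i, j ≤ i → i ≤ J → a j ≤ a i := by
    intro j i hji
    induction i, hji using Nat.le_induction with
    | base => intro _; exact le_rfl
    | succ i _ ih => intro h; exact (ih (by omega)).trans (mono i (by omega))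
  have hw : ∀ j < J, J ≤ j + 4 → a j ≤ 2 * 10 ^ 4 / k * a (j + 1) := by
    intro j hj hj4
    have h1 := hg j hj
    have h2 := nice j hj hj4
    have h3 := ha j hj.le
    rw [div_mul_eq_mul_div, le_div_iff₀ hk0]
    nlinarith
  intro j hj
  have haj := ha j hj.le
  by_cases hj4 : J ≤ j + 4
  · have h1 := hg j hj
    have h2 := nice j hj hj4
    have h3 := mono' (j + 1) J (by omega) le_rfl
    have hv0 : 0 < v j := lt_of_lt_of_le (by positivity) h2
    have h4 : v j * a j ≤ 2 * (C1 * Real.sqrt k * R) := by nlinarith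
    have h5 : k ^ 5 ≤ 10 ^ 20 * v j ^ 5 := by
      have : k ≤ 10 ^ 4 * v j := by linarith
      calc k ^ 5 ≤ (10 ^ 4 * v j) ^ 5 := by gcongr
        _ = 10 ^ 20 * v j ^ 5 := by ring
    have h6 : 2 * 10 ^ 39 * k ^ 4 * a j * v j ≤ R * v j ^ 4 * v j := by
      calc 2 * 10 ^ 39 * k ^ 4 * a j * v j = 2 * 10 ^ 39 * k ^ 4 * (v j * a j) := by ring
        _ ≤ 2 * 10 ^ 39 * k ^ 4 * (2 * (C1 * Real.sqrt k * R)) := by gcongr
        _ = 4 * 10 ^ 39 * k ^ 4 * R * (C1 * Real.sqrt k) := by ring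
        _ ≤ 4 * 10 ^ 39 * k ^ 4 * R * (k / 10 ^ 60) := by
            gcongr
            rw [le_div_iff₀ (by positivity)]
            linarith
        _ = 4 / 10 ^ 21 * R * k ^ 5 := by ring
        _ ≤ 4 / 10 ^ 21 * R * (10 ^ 20 * v j ^ 5) := by gcongr
        _ ≤ R * v j ^ 4 * v j := by
            have : 0 ≤ R * v j ^ 5 := by positivity
            nlinarith
    exact le_of_mul_le_mul_right h6 hv0
  · push Not at hj4
    have h1 := mono' j (J - 4) (by omega) (by omega)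
    have e1 := hw (J - 4) (by omega) (by omega)
    have e2 := hw (J - 3) (by omega) (by omega)
    have e3 := hw (J - 2) (by omega) (by omega)
    have e4 := hw (J - 1) (by omega) (by omega)
    rw [show J - 4 + 1 = J - 3 by omega] at e1
    rw [show J - 3 + 1 = J - 2 by omega] at e2
    rw [show J - 2 + 1 = J - 1 by omega] at e3
    rw [show J - 1 + 1 = J by omega] at e4
    have hw0 : 0 ≤ 2 * 10 ^ 4 / k := by positivity
    have h2 : a j ≤ (2 * 10 ^ 4 / k) ^ 4 * (C1 * Real.sqrt k * R) := by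
      calc a j ≤ a (J - 4) := h1
        _ ≤ 2 * 10 ^ 4 / k * a (J - 3) := e1
        _ ≤ 2 * 10 ^ 4 / k * (2 * 10 ^ 4 / k * a (J - 2)) := by gcongr
        _ ≤ 2 * 10 ^ 4 / k * (2 * 10 ^ 4 / k * (2 * 10 ^ 4 / k * a (J - 1))) := by gcongr
        _ ≤ 2 * 10 ^ 4 / k * (2 * 10 ^ 4 / k * (2 * 10 ^ 4 / k * (2 * 10 ^ 4 / k * a J))) := by
            gcongr
        _ = (2 * 10 ^ 4 / k) ^ 4 * a J := by ring
        _ ≤ _ := by gcongr
    have h3 : (10 ^ 40 * k) ^ 2 ≤ v j ^ 4 := by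
      calc (10 ^ 40 * k) ^ 2 ≤ (A ^ 2) ^ 2 := by gcongr
        _ = A ^ 4 := by ring
        _ ≤ v j ^ 4 := by
            have := hv j hj
            gcongr
    calc 2 * 10 ^ 39 * k ^ 4 * a j
        ≤ 2 * 10 ^ 39 * k ^ 4 * ((2 * 10 ^ 4 / k) ^ 4 * (C1 * Real.sqrt k * R)) := by gcongr
      _ = 32 * 10 ^ 55 * R * (C1 * Real.sqrt k) := by
          field_simp
          ring
      _ ≤ 32 * 10 ^ 55 * R * (k / 10 ^ 60) := by
          gcongr
          rw [le_div_iff₀ (by positivity)]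
          linarith
      _ ≤ R * (10 ^ 40 * k) ^ 2 := by
          have h7 : k ≤ k ^ 2 := by nlinarith
          have h8 : 0 ≤ R * k := by positivity
          have h9 : R * k ≤ R * k ^ 2 := by gcongr
          nlinarith
      _ ≤ R * v j ^ 4 := by gcongr

/-- **the content between the foot and the exit** is a real quadratic polynomial on the disc of
radius `4 / R` -/
theorem tail_quad {k c m R A r0 C1 : ℝ} {s : Bool} {n0 J : ℕ}
    (hC1 : 1 ≤ C1) (hk : 10 ^ 100 ≤ k) (hkC : 10 ^ 60 * C1 ≤ Real.sqrt k)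
    (hA : 10 ^ 40 * k ≤ A ^ 2) (hA0 : 0 < A) (hJ : J ≤ 200) (hJ4 : 4 ≤ J)
    (S : Start k (Loc.Y k c s) (Loc.D k c s) n0 m r0 (1 / 1000) A J)
    (nice : ∀ j < J, J ≤ j + 4 → 1 / 10 ^ 4 * k ≤ vv k (Loc.Y k c s) (n0 + 1 + j) m)
    (hR0 : 0 < R) (hSR : ‖Loc.D k c s (n0 + 1 + J) m‖ ≤ C1 * Real.sqrt k * R)
    (hbig : 10 ^ 9 * k * ‖Loc.D k c s (n0 + 1) m‖ ≤ (r0 * ‖Loc.D k c s (n0 + 1) m‖) ^ 3 * R) :
    ∃ q0 q1 q2 : ℝ, ∀ z ∈ closedBall (m : ℂ) (4 / R),
      ‖Loc.mu k c s (n0 + 1 + J) z - Loc.mu k c s (n0 + 1) z -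
        (q0 + q1 * (z - m) + q2 * (z - m) ^ 2)‖ ≤ 1 / (1000 * k * R ^ 2) := by
  have hk0 : 0 < k := lt_of_lt_of_le (by positivity) hk
  have hk1 : 1 ≤ k := le_trans (by norm_num) hk
  obtain ⟨c1, c2⟩ := chain200 (k := k) (J := J) (le_trans (by norm_num) hk)
    (le_trans (by nlinarith) hA) hA0 hJ S
  set a : ℕ → ℝ := fun j => ‖Loc.D k c s (n0 + 1 + j) m‖ with hadef
  set v : ℕ → ℝ := fun j => vv k (Loc.Y k c s) (n0 + 1 + j) m with hvdef
  set rd : ℕ → ℝ := rad k (Loc.Y k c s) (Loc.D k c s) n0 r0 m with hrd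
  have ha : ∀ j ≤ J, 0 < a j := fun j hj => (c1 j hj).2.1
  have hv : ∀ j < J, A ≤ v j := fun j hj => S.dig j hj
  have hv8 : ∀ j, v j ≤ 8000 * k := fun j => vv_le hk1 S.co _ _
  have hA2 : 2 ≤ A := by
    by_contra hcon
    push Not at hcon
    have : A ^ 2 < 2 ^ 2 := by gcongr
    nlinarith
  have hg : ∀ j < J, v j / 2 * a j ≤ a (j + 1) := by
    intro j hj
    have h1 := (c2 j hj).2.1
    have h2 := hv j hj
    have h3 := ha j hj.le
    have h4 : v j / 2 * a j ≤ (v j - 1) * a j := by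
      apply mul_le_mul_of_nonneg_right _ h3.le
      linarith
    exact h4.trans h1
  have key := step_num hC1 hk hkC hA hA0 hR0 ha hv hg nice hSR
  have mono : ∀ j < J, a j ≤ a (j + 1) := by
    intro j hj
    have h1 := hg j hj
    have h2 := hv j hj
    have h3 := ha j hj.le
    nlinarith
  have mono0 : ∀ j ≤ J, a 0 ≤ a j := by
    intro j
    induction j with
    | zero => intro _; exact le_rfl
    | succ j ih => intro h; exact (ih (by omega)).trans (mono j (by omega))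
  have hd0 : 0 < a 0 := ha 0 (by omega)
  have hr0 : 0 < r0 := S.pos
  have hbig' : 10 ^ 9 * k * a 0 ≤ (r0 * a 0) ^ 3 * R := hbig
  have hsm : r0 * a 0 ≤ 1 := by
    have h1 : 10 ^ 10 * k * (a 0 * r0) ≤ A := S.small
    have h2 := hv 0 (by omega)
    have h3 := hv8 0
    have h4 : 10 ^ 10 * k * (a 0 * r0) ≤ 10 ^ 10 * k * 1 := by linarith
    have := le_of_mul_le_mul_left h4 (by positivity)
    linarith
  have hx0 : 0 < r0 * a 0 := by positivity
  have hrR : 10 ^ 9 * k ≤ r0 * R := by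
    have h1 : (r0 * a 0) ^ 3 ≤ r0 * a 0 := by
      calc (r0 * a 0) ^ 3 = (r0 * a 0) * (r0 * a 0) ^ 2 := by ring
        _ ≤ (r0 * a 0) * 1 := by
            gcongr
            exact pow_le_one₀ hx0.le hsm
        _ = _ := mul_one _
    have h2 : 10 ^ 9 * k * a 0 ≤ (r0 * R) * a 0 := by
      calc 10 ^ 9 * k * a 0 ≤ (r0 * a 0) ^ 3 * R := hbig'
        _ ≤ (r0 * a 0) * R := by gcongr
        _ = _ := by ring
    exact le_of_mul_le_mul_right h2 hd0
  have hrd1 : ∀ j, rd (j + 1) = min r0 (1 / 10 ^ 10 * v j / (k * a j)) := fun j => rfl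
  have hσ : (0:ℝ) ≤ 5 / R := by positivity
  -- radii
  have hrad : ∀ j < J, 2 * (5 / R) ≤ rd (j + 1) ∧ 0 < rd (j + 1) := by
    intro j hj
    have h0 := (c1 (j + 1) (by omega)).2.2
    refine ⟨?_, h0⟩
    rw [hrd1]
    have haj := ha j hj.le
    have hvj := hv j hj
    have hvj0 : 0 < v j := by linarith
    have e : 2 * (5 / R) = 10 / R := by ring
    rw [e]
    refine le_min ?_ ?_
    · rw [div_le_iff₀ hR0]
      nlinarith
    · rw [div_le_div_iff₀ hR0 (by positivity)]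
      have h1 := key j hj
      have h2 := hv8 j
      have h3 : v j ^ 4 ≤ (8000 * k) ^ 3 * v j := by
        calc v j ^ 4 = v j ^ 3 * v j := by ring
          _ ≤ (8000 * k) ^ 3 * v j := by gcongr
      have h4 : 2 * 10 ^ 39 * k ^ 4 * a j ≤ R * ((8000 * k) ^ 3 * v j) :=
        h1.trans (by gcongr)
      have h5 : k ^ 3 * (2 * 10 ^ 39 * (k * a j)) ≤ k ^ 3 * (512 * 10 ^ 9 * (R * v j)) := by
        calc k ^ 3 * (2 * 10 ^ 39 * (k * a j)) = 2 * 10 ^ 39 * k ^ 4 * a j := by ring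
          _ ≤ R * ((8000 * k) ^ 3 * v j) := h4
          _ = k ^ 3 * (512 * 10 ^ 9 * (R * v j)) := by ring
      have h6 := le_of_mul_le_mul_left h5 (by positivity)
      have h7 : 0 ≤ R * v j := by positivity
      nlinarith
  obtain ⟨q0, q1, q2, hq⟩ := LocQB.mu_quadratic k c s (t₁ := m) hσ (n0 := n0) (J := J)
    (r := fun j => rd (j + 1)) hrad
    (fun j hj t ht => by
      have h1 := (c1 j hj.le).1.close t (ball_subset_ball (c2 j hj).1 ht)
      have h2 := (c1 (j + 1) (by omega)).1.close t ht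
      have e1 : n0 + j + 1 = n0 + 1 + j := by omega
      have e2 : n0 + (j + 1) + 1 = n0 + 2 + j := by omega
      rw [e1] at h1
      rw [e2] at h2
      refine ⟨h1.trans ?_, h2.trans ?_⟩
      · have := norm_nonneg (Loc.D k c s (n0 + 1 + j) (m : ℂ))
        nlinarith
      · have := norm_nonneg (Loc.D k c s (n0 + 2 + j) (m : ℂ))
        nlinarith)
    (fun j hj => norm_pos_iff.1 (ha j hj))
  refine ⟨q0, q1, q2, fun z hz => ?_⟩
  have hz' : z ∈ ball (m : ℂ) (5 / R) := by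
    rw [mem_closedBall] at hz
    rw [mem_ball]
    refine lt_of_le_of_lt hz ?_
    rw [div_lt_div_iff_of_pos_right hR0]
    norm_num
  refine (hq z hz').trans ?_
  -- the sum
  have hterm : ∀ j ∈ Finset.range J,
      20 / (‖Loc.D k c s (n0 + 1 + j) (m : ℂ)‖ * ‖Loc.D k c s (n0 + 2 + j) (m : ℂ)‖) *
        (5 / R / rd (j + 1)) ^ 3 ≤ 1 / (200 * (1000 * k * R ^ 2)) := by
    intro j hj
    rw [Finset.mem_range] at hj
    have haj := ha j hj.le
    have haj1 := ha (j + 1) (by omega)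
    have hvj := hv j hj
    have hvj0 : 0 < v j := by linarith
    have hgj := hg j hj
    have h0j := mono0 j hj.le
    have h0j1 := mono0 (j + 1) (by omega)
    have e2 : ‖Loc.D k c s (n0 + 2 + j) (m : ℂ)‖ = a (j + 1) := by
      have : n0 + 2 + j = n0 + 1 + (j + 1) := by omega
      rw [this]
    have e1 : ‖Loc.D k c s (n0 + 1 + j) (m : ℂ)‖ = a j := rfl
    rw [e1, e2, hrd1]
    set x := 1 / 10 ^ 10 * v j / (k * a j) with hx
    have hxpos : 0 < x := by positivity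
    have hmin : (5 / R / min r0 x) ^ 3 ≤ (5 / R / r0) ^ 3 + (5 / R / x) ^ 3 := by
      rcases min_choice r0 x with h | h
      · rw [h]
        have : 0 ≤ (5 / R / x) ^ 3 := by positivity
        linarith
      · rw [h]
        have : 0 ≤ (5 / R / r0) ^ 3 := by positivity
        linarith
    have hpos : 0 ≤ 20 / (a j * a (j + 1)) := by positivity
    refine (mul_le_mul_of_nonneg_left hmin hpos).trans ?_
    rw [mul_add]
    have t1 : 20 / (a j * a (j + 1)) * (5 / R / r0) ^ 3 ≤ 1 / (400 * (1000 * k * R ^ 2)) := by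
      have h1 : 20 / (a j * a (j + 1)) ≤ 20 / (a 0 * a 0) := by
        apply div_le_div_of_nonneg_left (by norm_num) (by positivity)
        exact mul_le_mul h0j h0j1 hd0.le haj.le
      refine (mul_le_mul_of_nonneg_right h1 (by positivity)).trans ?_
      have e3 : 20 / (a 0 * a 0) * (5 / R / r0) ^ 3 = 2500 * a 0 / ((r0 * a 0) ^ 3 * R * R ^ 2) := by
        field_simp
        ring
      rw [e3, div_le_div_iff₀ (by positivity) (by positivity)]
      have h2 : 10 ^ 9 * k * a 0 * R ^ 2 ≤ (r0 * a 0) ^ 3 * R * R ^ 2 := by gcongr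
      calc 2500 * a 0 * (400 * (1000 * k * R ^ 2)) = 10 ^ 9 * k * a 0 * R ^ 2 := by ring
        _ ≤ (r0 * a 0) ^ 3 * R * R ^ 2 := h2
        _ = 1 * ((r0 * a 0) ^ 3 * R * R ^ 2) := by ring
    have t2 : 20 / (a j * a (j + 1)) * (5 / R / x) ^ 3 ≤ 1 / (400 * (1000 * k * R ^ 2)) := by
      have h1 : 20 / (a j * a (j + 1)) ≤ 20 / (a j * (v j / 2 * a j)) := by
        apply div_le_div_of_nonneg_left (by norm_num) (by positivity)
        gcongr
      refine (mul_le_mul_of_nonneg_right h1 (by positivity)).trans ?_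
      have e3 : 20 / (a j * (v j / 2 * a j)) * (5 / R / x) ^ 3 =
          5 * 10 ^ 33 * k ^ 3 * a j / (R ^ 3 * v j ^ 4) := by
        rw [hx]
        field_simp
        ring
      rw [e3, div_le_div_iff₀ (by positivity) (by positivity)]
      have h2 := key j hj
      calc 5 * 10 ^ 33 * k ^ 3 * a j * (400 * (1000 * k * R ^ 2))
          = (2 * 10 ^ 39 * k ^ 4 * a j) * R ^ 2 := by ring
        _ ≤ (R * v j ^ 4) * R ^ 2 := by gcongr
        _ = 1 * (R ^ 3 * v j ^ 4) := by ring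
    have e4 : 1 / (200 * (1000 * k * R ^ 2)) =
        1 / (400 * (1000 * k * R ^ 2)) + 1 / (400 * (1000 * k * R ^ 2)) := by
      field_simp
      norm_num
    rw [e4]
    exact add_le_add t1 t2
  refine (Finset.sum_le_sum hterm).trans ?_
  rw [Finset.sum_const, Finset.card_range, nsmul_eq_mul]
  have hJr : (J : ℝ) ≤ 200 := by exact_mod_cast hJ
  calc (J : ℝ) * (1 / (200 * (1000 * k * R ^ 2)))
      ≤ 200 * (1 / (200 * (1000 * k * R ^ 2))) := by gcongr
    _ = 1 / (1000 * k * R ^ 2) := by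
        field_simp


/-! ### the content up to the foot -/

section old

open Crest.Agent.R128.TreeSum Crest.Agent.R128.Disp Crest.Agent.R128.CleanNum
open Crest.Agent.R128.CleanDisc Crest.Agent.R128.CleanCont

/-- **the content up to the foot**, recentred at a point `m` near `t0` -/
theorem old_quad {k c t0 δ K A c0 : ℝ} {z : ℕ → ℝ × ℝ} {n : ℕ}
    (h : Clean (CleanDisc.ra k c t0) (CleanDisc.wf k c t0) z n δ K A c0) (hk : 1 ≤ k) {e : ℕ}
    (he : e ≤ n)
    (hq : 1 / 2 * nn (CleanDisc.wf k c t0 e) ≤ |(CleanDisc.wf k c t0 e).2|) {m σ : ℝ} (hσ : 0 ≤ σ)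
    (hm : |m - t0| ≤ rho0 k A K c0 / XX (CleanDisc.wf k c t0) z / 4)
    (hσr : 8 * σ ≤ rho0 k A K c0 / XX (CleanDisc.wf k c t0) z) :
    ∃ q0 q1 q2 : ℝ, ∀ u ∈ closedBall (m : ℂ) σ,
      ‖Align.mu (fun j => cV k (y k c j u)) (e + 1) -
        (q0 + q1 * (u - m) + q2 * (u - m) ^ 2)‖ ≤
      2 * ((4 * (CV k + 2) * A ^ 3 * K + 8) / 8 / XX (CleanDisc.wf k c t0) z ^ 2) *
        (4 * σ * XX (CleanDisc.wf k c t0) z / rho0 k A K c0) ^ 3 := by
  have hX : 0 < XX (CleanDisc.wf k c t0) z := h.Xpos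
  have hρ := rho0_pos h hk
  have hδ1 := h.δ1
  have hCV := CV_ge k
  have hK := h.K1
  have hA1 := h.A1
  set X := XX (CleanDisc.wf k c t0) z with hXdef
  set ρ := rho0 k A K c0 with hρdef
  have hρX : 0 < ρ / X := by positivity
  obtain ⟨p0, p1, p2, hp⟩ := content_quad h hk he hq (r := ρ / X / 2) (by positivity)
    (le_of_eq (by ring)) m
  have hB : ∀ u ∈ closedBall (t0 : ℂ) (ρ / X / 2),
      ‖Align.mu (fun j => cV k (y k c j u)) (e + 1) -
        (p0 + p1 * (u - m) + p2 * (u - m) ^ 2)‖ ≤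
      (4 * (CV k + 2) * A ^ 3 * K + 8) / 8 / X ^ 2 := by
    intro u hu
    refine (hp u hu).trans ?_
    have h1 : nn (z e) ^ (-(1 - 47 * δ)) ≤ 1 :=
      Real.rpow_le_one_of_one_le_of_nonpos (h.one e he) (by linarith)
    have e1 : ρ / X / 2 * X / ρ = 1 / 2 := by field_simp
    rw [e1]
    have h2 : 0 ≤ (4 * (CV k + 2) * A ^ 3 * K + 8) * (1 / 2) ^ 3 / X ^ 2 := by
      have : 0 ≤ CV k + 2 := by linarith
      positivity
    calc _ ≤ (4 * (CV k + 2) * A ^ 3 * K + 8) * (1 / 2) ^ 3 / X ^ 2 * 1 :=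
          mul_le_mul_of_nonneg_left h1 h2
      _ = _ := by ring
  -- `Align.mu = - pd / yd`
  have hPQ : ∀ u : ℂ, ∀ j, Align.Q (fun j => cV k (y k c j u)) j = yd k c j u ∧
      Align.P (fun j => cV k (y k c j u)) j = pd k c j u := by
    intro u j
    induction j using Nat.strong_induction_on with
    | _ j ih =>
      match j with
      | 0 => exact ⟨by simp, by simp⟩
      | 1 => exact ⟨by simp, by simp⟩
      | j + 2 =>
        rw [Align.Q_add_two, Align.P_add_two, yd_add_two, pd_add_two, (ih (j + 1) (by omega)).1,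
          (ih (j + 1) (by omega)).2, (ih j (by omega)).1, (ih j (by omega)).2]
        exact ⟨rfl, rfl⟩
  have hmu : ∀ u : ℂ, Align.mu (fun j => cV k (y k c j u)) (e + 1) =
      -(pd k c (e + 1) u) / yd k c (e + 1) u := by
    intro u
    unfold Align.mu
    rw [(hPQ u (e + 1)).1, (hPQ u (e + 1)).2]
  have hRe := h.Rpos e
  have hyd0 : ∀ u ∈ closedBall (t0 : ℂ) (ρ / X / 2), yd k c (e + 1) u ≠ 0 := by
    intro u hu h0
    rw [mem_closedBall, dist_eq_norm] at hu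
    have h1 : 1 ≤ nn (z e) ^ (1 - 15 * δ) := Real.one_le_rpow (h.one e he) (by linarith)
    have h2 : ‖u - t0‖ ≤ ρ / X * nn (z e) ^ (1 - 15 * δ) := by
      calc ‖u - t0‖ ≤ ρ / X / 2 := hu
        _ ≤ ρ / X * 1 := by linarith
        _ ≤ _ := mul_le_mul_of_nonneg_left h1 hρX.le
    obtain ⟨_, _, _, _, _, _, _, _, g2⟩ := fields h hk he h2 e le_rfl
    rw [h0, zero_sub, norm_neg, Complex.norm_real, Real.norm_eq_abs] at g2
    linarith
  have hsub : closedBall (m : ℂ) (ρ / X / 4) ⊆ closedBall (t0 : ℂ) (ρ / X / 2) := by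
    apply closedBall_subset_closedBall'
    rw [dist_eq_norm, ← Complex.ofReal_sub, Complex.norm_real, Real.norm_eq_abs]
    linarith
  obtain ⟨s0, s1, s2, hs⟩ := taylor_real
    (f := fun u => Align.mu (fun j => cV k (y k c j u)) (e + 1) -
        (p0 + p1 * (u - m) + p2 * (u - m) ^ 2)) (x0 := m) (R := ρ / X / 4)
    (B := (4 * (CV k + 2) * A ^ 3 * K + 8) / 8 / X ^ 2) (by positivity)
    (fun u hu => by
      have d1 := hyd0 u (hsub hu)
      have e3 : (fun u : ℂ => Align.mu (fun j => cV k (y k c j u)) (e + 1) -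
        (p0 + p1 * (u - m) + p2 * (u - m) ^ 2)) = (fun u : ℂ =>
        -(pd k c (e + 1) u) / yd k c (e + 1) u - (p0 + p1 * (u - m) + p2 * (u - m) ^ 2)) := by
        funext u; rw [hmu]
      rw [e3]
      have d2 : DifferentiableAt ℂ (fun u : ℂ => -(pd k c (e + 1) u) / yd k c (e + 1) u) u :=
        ((CleanDisc.differentiable_pd k c (e + 1)) u).neg.div
          ((CleanDisc.differentiable_yd k c (e + 1)) u) d1
      have d3 : DifferentiableAt ℂ (fun u : ℂ => ((p0 : ℂ) + p1 * (u - m) + p2 * (u - m) ^ 2)) u := by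
        fun_prop
      exact (d2.sub d3).differentiableWithinAt)
    (fun u hu => hB u (hsub hu))
    (fun u => by
      rw [hmu, hmu, yd_conj, pd_conj]
      simp only [map_sub, map_div₀, map_neg, map_add, map_mul, map_pow, Complex.conj_ofReal])
    (r := σ) (by linarith)
  refine ⟨p0 + s0 + s1 * m + s2 * m ^ 2, p1 + s1 + 2 * s2 * m, p2 + s2, fun u hu => ?_⟩
  have h1 := hs u hu
  have e4 : Align.mu (fun j => cV k (y k c j u)) (e + 1) -
      (((p0 + s0 + s1 * m + s2 * m ^ 2 : ℝ) : ℂ) + ((p1 + s1 + 2 * s2 * m : ℝ) : ℂ) * (u - m) +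
        ((p2 + s2 : ℝ) : ℂ) * (u - m) ^ 2) =
      Align.mu (fun j => cV k (y k c j u)) (e + 1) - (p0 + p1 * (u - m) + p2 * (u - m) ^ 2) -
        (s0 + s1 * u + s2 * u ^ 2) := by
    push_cast
    ring
  rw [e4]
  refine h1.trans (le_of_eq ?_)
  congr 2
  field_simp

/-- the unit of the radius is at least `k ^ (-10)` -/
theorem rho0_ge {k : ℝ} (hk : (10:ℝ) ^ 100 ≤ k) : 1 / k ^ 10 ≤ rho0 k (8 * k) 3 4 := by
  have hk1 : 1 ≤ k := le_trans (by norm_num) hk
  have hk0 : 0 < k := by linarith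
  have hCL : CL k ≤ 44000 * k := CL_le hk1
  have hCL1 := CL_ge hk1
  have hk17 : (10:ℝ) ^ 17 ≤ k := le_trans (by norm_num) hk
  have hc1 : CleanNum.C1 (8 * k) 3 4 ≤ 200 * k ^ 2 := by
    unfold CleanNum.C1
    nlinarith
  have hc10 : 0 ≤ CleanNum.C1 (8 * k) 3 4 := by
    unfold CleanNum.C1
    positivity
  have hc2 : C2 (8 * k) 3 4 ≤ (200 * k ^ 2) ^ 3 * 3 ^ 2 * (8 * k) := by
    unfold C2
    gcongr
  have hc20 : 0 < C2 (8 * k) 3 4 := by
    unfold C2 CleanNum.C1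
    positivity
  unfold rho0
  apply div_le_div_of_nonneg_left (by norm_num) (by positivity)
  calc 80 * CL k * (8 * k + 1) * C2 (8 * k) 3 4
      ≤ 80 * (44000 * k) * (9 * k) * ((200 * k ^ 2) ^ 3 * 3 ^ 2 * (8 * k)) := by
        gcongr
        linarith
    _ = (80 * 44000 * 9 * 8000000 * 9 * 8) * k ^ 9 := by ring
    _ ≤ 10 ^ 17 * k ^ 9 := by
        apply mul_le_mul_of_nonneg_right _ (by positivity)
        norm_num
    _ ≤ k * k ^ 9 := by gcongr
    _ = k ^ 10 := by ring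

/-- the content up to the foot, in numbers -/
theorem old_quad' {k c t0 : ℝ} {z : ℕ → ℝ × ℝ} {n : ℕ} (hk : (10:ℝ) ^ 100 ≤ k)
    (h : Clean (CleanDisc.ra k c t0) (CleanDisc.wf k c t0) z n (1 / 60) 3 (8 * k) 4) {e : ℕ}
    (he : e ≤ n)
    (hq : 1 / 2 * nn (CleanDisc.wf k c t0 e) ≤ |(CleanDisc.wf k c t0 e).2|) {m R : ℝ} (hR : 0 < R)
    (hm : 4 * k ^ 10 * XX (CleanDisc.wf k c t0) z * |m - t0| ≤ 1)
    (hXR : k ^ 36 * XX (CleanDisc.wf k c t0) z ≤ R) :
    ∃ q0 q1 q2 : ℝ, ∀ u ∈ closedBall (m : ℂ) (4 / R),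
      ‖Align.mu (fun j => cV k (y k c j u)) (e + 1) -
        (q0 + q1 * (u - m) + q2 * (u - m) ^ 2)‖ ≤ 1 / (1000 * k * R ^ 2) := by
  have hk1 : 1 ≤ k := le_trans (by norm_num) hk
  have hk0 : 0 < k := by linarith
  have hX : 0 < XX (CleanDisc.wf k c t0) z := h.Xpos
  have hρ := rho0_pos h hk1
  have hρ10 := rho0_ge hk
  set X := XX (CleanDisc.wf k c t0) z with hXdef
  set ρ := rho0 k (8 * k) 3 4 with hρdef
  have hρk : 1 ≤ ρ * k ^ 10 := by
    rw [div_le_iff₀ (by positivity)] at hρ10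
    exact hρ10
  have hk14 : (10:ℝ) ^ 14 ≤ k := le_trans (by norm_num) hk
  obtain ⟨q0, q1, q2, hqq⟩ := old_quad h hk1 he hq (m := m) (σ := 4 / R) (by positivity)
    (by
      rw [← hXdef, ← hρdef, div_div, le_div_iff₀ (by positivity)]
      have h1 : |m - t0| * (X * 4) * 1 ≤ |m - t0| * (X * 4) * (ρ * k ^ 10) := by gcongr
      have h2 : ρ * (4 * k ^ 10 * X * |m - t0|) ≤ ρ * 1 := by gcongr
      linarith)
    (by
      rw [← hXdef, ← hρdef, mul_div_assoc', div_le_div_iff₀ hR hX]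
      have h1 : 8 * 4 * X ≤ k ^ 26 * X := by
        gcongr
        calc (8:ℝ) * 4 ≤ 10 ^ 14 := by norm_num
          _ ≤ k := hk14
          _ = k ^ 1 := (pow_one k).symm
          _ ≤ k ^ 26 := pow_le_pow_right₀ hk1 (by norm_num)
      calc 8 * 4 * X ≤ k ^ 26 * X * 1 := by linarith
        _ ≤ k ^ 26 * X * (ρ * k ^ 10) := by gcongr
        _ = ρ * (k ^ 36 * X) := by ring
        _ ≤ ρ * R := by gcongr)
  refine ⟨q0, q1, q2, fun u hu => (hqq u hu).trans ?_⟩
  rw [← hXdef, ← hρdef]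
  have hCV : CV k ≤ 8000 * k := CV_le hk1
  have hCV2 := CV_ge k
  have h1 : (4 * (CV k + 2) * (8 * k) ^ 3 * 3 + 8) / 8 ≤ 10 ^ 7 * k ^ 4 := by
    have h2 : 4 * (CV k + 2) * (8 * k) ^ 3 * 3 ≤ 4 * (8002 * k) * (8 * k) ^ 3 * 3 := by
      gcongr
      linarith
    have h3 : 1 ≤ k ^ 4 := one_le_pow₀ hk1
    have h4 : 4 * (8002 * k) * (8 * k) ^ 3 * 3 = 49164288 * k ^ 4 := by ring
    rw [h4] at h2
    rw [div_le_iff₀ (by norm_num)]
    linarith
  have h5 : 4 * (4 / R) * X / ρ ≤ 16 * k ^ 10 * X / R := by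
    rw [div_le_div_iff₀ hρ hR]
    have e1 : 4 * (4 / R) * X * R = 16 * X := by field_simp; ring
    rw [e1]
    calc 16 * X = 16 * X * 1 := by ring
      _ ≤ 16 * X * (ρ * k ^ 10) := by gcongr
      _ = _ := by ring
  have h6 : 0 ≤ 4 * (4 / R) * X / ρ := by positivity
  calc 2 * ((4 * (CV k + 2) * (8 * k) ^ 3 * 3 + 8) / 8 / X ^ 2) * (4 * (4 / R) * X / ρ) ^ 3
      ≤ 2 * (10 ^ 7 * k ^ 4 / X ^ 2) * (16 * k ^ 10 * X / R) ^ 3 := by gcongr
    _ = 8192 * 10 ^ 7 * k ^ 34 * X / R ^ 3 := by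
        field_simp
        ring
    _ ≤ 1 / (1000 * k * R ^ 2) := by
        rw [div_le_div_iff₀ (by positivity) (by positivity)]
        calc 8192 * 10 ^ 7 * k ^ 34 * X * (1000 * k * R ^ 2)
            = 8192 * 10 ^ 10 * (k ^ 35 * X) * R ^ 2 := by ring
          _ ≤ k * (k ^ 35 * X) * R ^ 2 := by
              gcongr
              linarith
          _ = (k ^ 36 * X) * R ^ 2 := by ring
          _ ≤ R * R ^ 2 := by gcongr
          _ = 1 * R ^ 3 := by ring

end old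

/-! ### one side and both sides -/

/-- the data of one side: clean start at the foot `n0 + 1` seen from `t0` (816), `J` digits of the
real point `m` beyond the foot (595 `Start`), the last four before the exit are macroscopic,
exit slope comparable to `R`. -/
structure QSide (k c t0 m R C1 A : ℝ) (s : Bool) (n0 J : ℕ) (r0 : ℝ) (z : ℕ → ℝ × ℝ) : Prop where
  clean : CleanNum.Clean (CleanDisc.ra k c (ContCplx.sd k c s t0))
    (CleanDisc.wf k c (ContCplx.sd k c s t0)) z n0 (1 / 60) 3 (8 * k) 4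
  cone : 1 / 2 * TreeSum.nn (CleanDisc.wf k c (ContCplx.sd k c s t0) n0) ≤
    |(CleanDisc.wf k c (ContCplx.sd k c s t0) n0).2|
  close : 4 * k ^ 10 * CleanCont.XX (CleanDisc.wf k c (ContCplx.sd k c s t0)) z * |m - t0| ≤ 1
  big : k ^ 36 * CleanCont.XX (CleanDisc.wf k c (ContCplx.sd k c s t0)) z ≤ R
  hA : 10 ^ 40 * k ≤ A ^ 2
  hA0 : 0 < A
  hJ : J ≤ 200
  hJ4 : 4 ≤ J
  start : Start k (Loc.Y k c s) (Loc.D k c s) n0 m r0 (1 / 1000) A J
  nice : ∀ j < J, J ≤ j + 4 → 1 / 10 ^ 4 * k ≤ vv k (Loc.Y k c s) (n0 + 1 + j) m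
  exit : ‖Loc.D k c s (n0 + 1 + J) m‖ ≤ C1 * Real.sqrt k * R
  rad : 10 ^ 9 * k * ‖Loc.D k c s (n0 + 1) m‖ ≤ (r0 * ‖Loc.D k c s (n0 + 1) m‖) ^ 3 * R

theorem QSide.quad {k c t0 m R C1 A r0 : ℝ} {s : Bool} {n0 J : ℕ} {z : ℕ → ℝ × ℝ}
    (h : QSide k c t0 m R C1 A s n0 J r0 z) (hC1 : 1 ≤ C1) (hk : 10 ^ 100 ≤ k)
    (hkC : 10 ^ 60 * C1 ≤ Real.sqrt k) (hR : 0 < R) :
    ∃ q0 q1 q2 : ℝ, ∀ z ∈ closedBall (m : ℂ) (4 / R),
      ‖Loc.mu k c s (n0 + 1 + J) z - (q0 + q1 * (z - m) + q2 * (z - m) ^ 2)‖ ≤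
        1 / (500 * k * R ^ 2) := by
  have hk0 : 0 < k := lt_of_lt_of_le (by positivity) hk
  have hmt : |ContCplx.sd k c s m - ContCplx.sd k c s t0| = |m - t0| := by
    have key : ∀ x a b : ℝ, |x - a - (x - b)| = |a - b| := by
      intro x a b
      rw [show x - a - (x - b) = -(a - b) by ring, abs_neg]
    unfold ContCplx.sd
    cases s
    · simp only [Bool.false_eq_true, if_false]
      exact key _ _ _
    · simp only [if_true]
  obtain ⟨a0, a1, a2, ha⟩ := ContCplx.side_quad (k := k) (c := c) (t0 := m) (ρ := 4 / R) s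
    (n := n0 + 1) (old_quad' (m := ContCplx.sd k c s m) hk h.clean le_rfl h.cone hR
      (by rw [hmt]; exact h.close) h.big)
  obtain ⟨b0, b1, b2, hb⟩ := tail_quad hC1 hk hkC h.hA h.hA0 h.hJ h.hJ4 h.start h.nice hR h.exit
    h.rad
  refine ⟨a0 + b0, a1 + b1, a2 + b2, fun z hz => ?_⟩
  have e : Loc.mu k c s (n0 + 1 + J) z - (((a0 + b0 : ℝ) : ℂ) + ((a1 + b1 : ℝ) : ℂ) * (z - m) +
      ((a2 + b2 : ℝ) : ℂ) * (z - m) ^ 2) =
      (Loc.mu k c s (n0 + 1) z - (a0 + a1 * (z - m) + a2 * (z - m) ^ 2)) +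
      (Loc.mu k c s (n0 + 1 + J) z - Loc.mu k c s (n0 + 1) z -
        (b0 + b1 * (z - m) + b2 * (z - m) ^ 2)) := by
    push_cast
    ring
  rw [e]
  refine (norm_add_le _ _).trans ((add_le_add (ha z hz) (hb z hz)).trans (le_of_eq ?_))
  field_simp
  norm_num

/-- **the field `quad` of `Loc.Cell3`** -/
theorem quad_cell {k c t0 m R C1 A A' r0 r0' : ℝ} {s : Bool} {n0 n0' J J' : ℕ}
    {z z' : ℕ → ℝ × ℝ} (hC1 : 1 ≤ C1) (hk : 10 ^ 100 ≤ k) (hkC : 10 ^ 60 * C1 ≤ Real.sqrt k)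
    (hR : 0 < R) (h : QSide k c t0 m R C1 A s n0 J r0 z)
    (h' : QSide k c t0 m R C1 A' (!s) n0' J' r0' z') :
    ∃ q0 q1 q2 : ℝ, ∀ w ∈ ball (m : ℂ) (4 / R),
      ‖((2 * Real.pi * k * R ^ 2 : ℝ) : ℂ) * Loc.cont k c s (n0 + 1 + J) (n0' + 1 + J') w -
        (q0 + q1 * ((R : ℂ) * (w - m)) + q2 * ((R : ℂ) * (w - m)) ^ 2)‖ ≤ 1 / 16 := by
  have hk0 : 0 < k := lt_of_lt_of_le (by positivity) hk
  obtain ⟨q0, q1, q2, hq⟩ := ContCplx.cont_quad (k := k) (c := c) (t0 := m) (m := m)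
    (ρ := 4 / R) (ρ' := 4 / R) (U := 2 * Real.pi * k * R ^ 2) (R := R) (by positivity) hR.ne'
    (by simp) (h.quad hC1 hk hkC hR) (h'.quad hC1 hk hkC hR)
  refine ⟨q0, q1, q2, fun w hw => (hq w (ball_subset_closedBall hw)).trans ?_⟩
  have e : 2 * Real.pi * k * R ^ 2 * (1 / (500 * k * R ^ 2) + 1 / (500 * k * R ^ 2)) =
      Real.pi / 125 := by
    field_simp
    ring
  rw [e]
  have := Real.pi_lt_d2
  linarith


end Crest.Agent.R128.LocAQuad
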