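import Crest.Agent.R128.LocDef
import Crest.Agent.R128.FreshStep

/-!
# Row 128, node V5-LOC: `RA → LocB` (helper548)
-/

set_option autoImplicit false

open Metric MeasureTheory Set
open Crest.Agent.R128 Crest.Agent.R128.Cell Crest.Agent.R128.CellB Crest.Agent.R128.CellDy

namespace Crest.Agent.R128.Loc

/-! ### real points -/

theorem sdC_real (k c : ℝ) (s : Bool) (t : ℝ) :
    sdC k c s (t : ℂ) = ((if s then t else kap k c - t : ℝ) : ℂ) := by
  unfold sdC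
  cases s <;> simp

theorem im_Y (k c : ℝ) (s : Bool) (n : ℕ) (t : ℝ) : (Y k c s n (t : ℂ)).im = 0 := by
  unfold Y
  rw [sdC_real]
  exact im_y_ofReal k c n _

theorem Y_real (k c : ℝ) (s : Bool) (n : ℕ) (t : ℝ) :
    Y k c s n (t : ℂ) = (((Y k c s n (t : ℂ)).re : ℝ) : ℂ) := by
  apply Complex.ext <;> simp [im_Y]

theorem cV_real (k x : ℝ) : cV k (x : ℂ) = ((Fresh.Vr k x : ℝ) : ℂ) := by
  unfold cV Fresh.Vr
  push_cast
  ring

theorem dg_eq (k c : ℝ) (s : Bool) (n : ℕ) (t : ℝ) :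
    dg k c s (t : ℂ) n = ((Fresh.Vr k (Y k c s n (t : ℂ)).re : ℝ) : ℂ) := by
  unfold dg
  rw [Y_real, cV_real, ← Y_real]

theorem norm_dg_le {k : ℝ} (hk : 1 ≤ k) (c : ℝ) (s : Bool) (n : ℕ) (t : ℝ) :
    ‖dg k c s (t : ℂ) n‖ ≤ 10 * k := by
  rw [dg_eq, Complex.norm_real]
  exact Fresh.abs_Vr_le hk _

theorem norm_dg_sub_le {k : ℝ} (hk : 0 ≤ k) (c : ℝ) (s : Bool) (n : ℕ) (t u : ℝ) :
    ‖dg k c s (t : ℂ) n - dg k c s (u : ℂ) n‖ ≤
      40 * k * ‖Y k c s n (t : ℂ) - Y k c s n (u : ℂ)‖ := by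
  rw [dg_eq, dg_eq, ← Complex.ofReal_sub, Complex.norm_real, Y_real k c s n t, Y_real k c s n u,
    ← Complex.ofReal_sub, Complex.norm_real]
  simpa using Fresh.abs_Vr_sub_le hk (Y k c s n (t : ℂ)).re (Y k c s n (u : ℂ)).re

theorem D_succ_succ (k c : ℝ) (s : Bool) (n : ℕ) (z : ℂ) :
    D k c s (n + 2) z = dg k c s z (n + 1) * D k c s (n + 1) z - D k c s n z := by
  unfold D dg Y
  rw [yd_add_two]

/-! ### differentiability -/

theorem differentiable_sdC (k c : ℝ) (s : Bool) : Differentiable ℂ (sdC k c s) := by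
  cases s
  · have e : sdC k c false = fun z : ℂ => (kap k c : ℂ) - z := by
      funext z; simp [sdC]
    rw [e]
    exact (differentiable_const (kap k c : ℂ)).sub differentiable_id
  · have e : sdC k c true = fun z : ℂ => z := by
      funext z; simp [sdC]
    rw [e]
    exact differentiable_id

theorem differentiable_Y (k c : ℝ) (s : Bool) (n : ℕ) : Differentiable ℂ (Y k c s n) :=
  (differentiable_y k c n).comp (differentiable_sdC k c s)

theorem differentiable_cV (k : ℝ) : Differentiable ℂ (cV k) :=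
  fun z => (hasDerivAt_cV k z).differentiableAt

theorem differentiable_dg (k c : ℝ) (s : Bool) (n : ℕ) :
    Differentiable ℂ (fun z => dg k c s z n) :=
  (differentiable_cV k).comp (differentiable_Y k c s n)

theorem differentiable_sol (k c : ℝ) (s : Bool) (u v : ℂ) (n : ℕ) :
    Differentiable ℂ (fun z => Align.sol (dg k c s z) u v n) := by
  induction n using Nat.strong_induction_on with
  | _ n ih =>
    match n with
    | 0 => simp only [Align.sol_zero]; exact differentiable_const _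
    | 1 => simp only [Align.sol_one]; exact differentiable_const _
    | n + 2 =>
      simp only [Align.sol_add_two]
      exact ((differentiable_dg k c s (n + 1)).mul (ih (n + 1) (by omega))).sub (ih n (by omega))

theorem differentiable_D (k c : ℝ) (s : Bool) (n : ℕ) : Differentiable ℂ (D k c s n) := by
  have h := differentiable_sol k c s 0 1 n
  have e : (fun z => Align.sol (dg k c s z) 0 1 n) = D k c s n := by
    funext z
    exact Q_dg k c s z n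
  rwa [e] at h

theorem differentiableAt_mu (k c : ℝ) (s : Bool) (n : ℕ) {z : ℂ} (h : D k c s n z ≠ 0) :
    DifferentiableAt ℂ (mu k c s n) z := by
  have e : mu k c s n = fun z => -(Align.sol (dg k c s z) 1 0 n) / D k c s n z := by
    funext z
    unfold mu Align.mu
    rw [Q_dg]
    rfl
  rw [e]
  exact (((differentiable_sol k c s 1 0 n) z).neg).div ((differentiable_D k c s n) z) h

/-! ### Lipschitz bounds -/

/-- Cauchy: a holomorphic function close to a constant on the ball is Lipschitz on the real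
segment. -/
theorem lip_of_ball {m R B : ℝ} {a : ℂ} {f : ℂ → ℂ} (hR : 0 < R)
    (hf : ∀ z ∈ ball (m : ℂ) (4 / R), DifferentiableAt ℂ f z)
    (hB : ∀ z ∈ ball (m : ℂ) (4 / R), ‖f z - a‖ ≤ B) {t u : ℝ} (ht : |t - m| ≤ 3 / R)
    (hu : |u - m| ≤ 3 / R) : ‖f t - f u‖ ≤ 2 * B * R * |t - u| := by
  have hsub : ∀ z ∈ closedBall (m : ℂ) (3 / R), closedBall z (1 / (2 * R)) ⊆ ball (m : ℂ) (4 / R) := by
    intro z hz w hw
    rw [mem_closedBall] at hz hw
    rw [mem_ball]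
    have h1 := dist_triangle w z m
    have h2 : 3 / R + 1 / (2 * R) < 4 / R := by
      rw [div_add_div _ _ hR.ne' (by positivity), div_lt_div_iff₀ (by positivity) hR]
      nlinarith [mul_pos hR hR]
    linarith
  have hder : ∀ z ∈ closedBall (m : ℂ) (3 / R), ‖deriv f z‖ ≤ 2 * B * R := by
    intro z hz
    have hs := hsub z hz
    have hr : 0 < 1 / (2 * R) := by positivity
    have h1 : DiffContOnCl ℂ (fun w => f w - a) (ball z (1 / (2 * R))) := by
      apply DifferentiableOn.diffContOnCl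
      rw [closure_ball z hr.ne']
      intro w hw
      exact ((hf w (hs hw)).sub_const a).differentiableWithinAt
    have h2 := Complex.norm_deriv_le_of_forall_mem_sphere_norm_le hr h1
      (C := B) (fun w hw => hB w (hs (sphere_subset_closedBall hw)))
    rw [deriv_sub_const] at h2
    refine h2.trans (le_of_eq ?_)
    field_simp
  have hmem : ∀ x : ℝ, |x - m| ≤ 3 / R → (x : ℂ) ∈ closedBall (m : ℂ) (3 / R) := by
    intro x hx
    rw [mem_closedBall, dist_eq_norm, ← Complex.ofReal_sub, Complex.norm_real]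
    exact hx
  have h := (convex_closedBall (m : ℂ) (3 / R)).norm_image_sub_le_of_norm_deriv_le (𝕜 := ℂ)
    (fun z hz => hf z (hsub z hz (mem_closedBall_self (by positivity)))) hder (hmem u hu) (hmem t ht)
  rwa [← Complex.ofReal_sub, Complex.norm_real, Real.norm_eq_abs] at h

theorem norm_inv_sub_inv {a b : ℂ} {A E : ℝ} (hA : 0 < A) (ha : A ≤ ‖a‖) (hb : A ≤ ‖b‖)
    (h : ‖a - b‖ ≤ E) : ‖a⁻¹ - b⁻¹‖ ≤ E / A ^ 2 := by
  have ha0 : a ≠ 0 := norm_pos_iff.mp (hA.trans_le ha)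
  have hb0 : b ≠ 0 := norm_pos_iff.mp (hA.trans_le hb)
  rw [inv_sub_inv ha0 hb0, norm_div, norm_mul, norm_sub_rev]
  have hE : 0 ≤ E := (norm_nonneg _).trans h
  have : A ^ 2 ≤ ‖a‖ * ‖b‖ := by
    rw [sq]
    exact mul_le_mul ha hb hA.le (norm_nonneg _)
  exact div_le_div₀ hE h (by positivity) this

theorem norm_inv_mul_sub {a b a' b' : ℂ} {A B E F : ℝ} (hA : 0 < A) (hB : 0 < B) (ha : A ≤ ‖a‖)
    (ha' : A ≤ ‖a'‖) (hb : B ≤ ‖b‖) (hb' : B ≤ ‖b'‖) (h1 : ‖a - a'‖ ≤ E) (h2 : ‖b - b'‖ ≤ F) :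
    ‖1 / (a * b) - 1 / (a' * b')‖ ≤ E / (A ^ 2 * B) + F / (B ^ 2 * A) := by
  have e : 1 / (a * b) - 1 / (a' * b') = (a⁻¹ - a'⁻¹) * b⁻¹ + a'⁻¹ * (b⁻¹ - b'⁻¹) := by
    rw [one_div, one_div, mul_inv, mul_inv]
    ring
  rw [e]
  refine (norm_add_le _ _).trans ?_
  rw [norm_mul, norm_mul]
  have i1 := norm_inv_sub_inv hA ha ha' h1
  have i2 := norm_inv_sub_inv hB hb hb' h2
  have i3 : ‖b⁻¹‖ ≤ 1 / B := by
    rw [norm_inv, one_div]
    exact inv_anti₀ hB hb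
  have i4 : ‖a'⁻¹‖ ≤ 1 / A := by
    rw [norm_inv, one_div]
    exact inv_anti₀ hA ha'
  have hE : 0 ≤ E := (norm_nonneg _).trans h1
  have hF : 0 ≤ F := (norm_nonneg _).trans h2
  have j1 : ‖a⁻¹ - a'⁻¹‖ * ‖b⁻¹‖ ≤ E / A ^ 2 * (1 / B) :=
    mul_le_mul i1 i3 (norm_nonneg _) (by positivity)
  have j2 : ‖a'⁻¹‖ * ‖b⁻¹ - b'⁻¹‖ ≤ 1 / A * (F / B ^ 2) :=
    mul_le_mul i4 i2 (norm_nonneg _) (by positivity)
  have e1 : E / A ^ 2 * (1 / B) = E / (A ^ 2 * B) := by field_simp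
  have e2 : 1 / A * (F / B ^ 2) = F / (B ^ 2 * A) := by field_simp
  linarith

/-! ### one side -/

set_option maxHeartbeats 4000000 in
/-- everything on one side: `mu0` is the slope of the exit digit -/
theorem side {k c κ m R μ δ : ℝ} {s : Bool} {n : ℕ} (hκ : 1000 ≤ κ) (hk : k = κ ^ 3) (hR : 1 ≤ R)
    (hμ : R ≤ |μ|) (hμ' : |μ| ≤ κ ^ 2 * R) (hδ : δ = 1 / κ ^ 18)
    (h1 : ∀ z ∈ ball (m : ℂ) (4 / R), ‖D k c s (n + 1) z - (μ : ℝ)‖ ≤ |μ| / 4)
    (h0 : ∀ z ∈ ball (m : ℂ) (4 / R), ‖D k c s n z‖ ≤ |μ| / 4)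
    {t u : ℝ} (ht : |t - m| ≤ 3 / R) (hu : |u - m| ≤ 3 / R) (htu : |u - t| ≤ δ / R)
    (r1 : κ ^ 2 ≤ ‖dg k c s u (n + 1)‖) (r2 : κ ^ 2 ≤ ‖dg k c s u (n + 2)‖) :
    D k c s (n + 1) t ≠ 0 ∧ D k c s (n + 1) u ≠ 0 ∧ D k c s (n + 2) t ≠ 0 ∧ D k c s (n + 2) u ≠ 0 ∧
    D k c s (n + 3) t ≠ 0 ∧ D k c s (n + 3) u ≠ 0 ∧
    ‖D k c s (n + 2) t‖ ≤ (1 + 1 / 100) * ‖D k c s (n + 2) u‖ ∧
    ‖D k c s (n + 2) u‖ ≤ 13 * κ ^ 3 * |μ| ∧
    ‖1 / (D k c s (n + 1) u * D k c s (n + 2) u)‖ ≤ 3 / (κ ^ 2 * R ^ 2) ∧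
    ‖1 / (D k c s (n + 1) t * D k c s (n + 2) t) - 1 / (D k c s (n + 1) u * D k c s (n + 2) u)‖
      ≤ 10 ^ 7 * κ * δ / R ^ 2 ∧
    ‖1 / (D k c s (n + 2) t * D k c s (n + 3) t) - 1 / (D k c s (n + 2) u * D k c s (n + 3) u)‖
      ≤ 10 ^ 7 * κ * δ / R ^ 2 := by
  have hκ0 : 0 < κ := by linarith
  have hR0 : 0 < R := by linarith
  have hk1 : 1 ≤ k := by rw [hk]; nlinarith [pow_pos hκ0 2]
  have hμ0 : 0 < |μ| := hR0.trans_le hμ
  set M : ℝ := |μ| with hM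
  have hδ0 : 0 < δ := by rw [hδ]; positivity
  have hδ1 : δ * κ ^ 18 = 1 := by rw [hδ]; field_simp
  have hd : ∀ j : ℕ, j ≤ 18 → δ * κ ^ j ≤ 1 := by
    intro j hj
    rw [← hδ1]
    gcongr
    linarith
  have hmem : ∀ x : ℝ, |x - m| ≤ 3 / R → (x : ℂ) ∈ ball (m : ℂ) (4 / R) := by
    intro x hx
    rw [mem_ball, dist_eq_norm, ← Complex.ofReal_sub, Complex.norm_real]
    refine lt_of_le_of_lt hx ?_
    gcongr
    norm_num
  have htu' : |t - u| ≤ δ / R := by rwa [abs_sub_comm]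
  have hRtu : R * |t - u| ≤ δ := by
    rw [le_div_iff₀ hR0] at htu'
    linarith
  -- (1)
  have e1 : ‖D k c s (n + 1) t - D k c s (n + 1) u‖ ≤ M / 2 * δ := by
    have := lip_of_ball hR0 (fun z _ => differentiable_D k c s (n + 1) z) h1 ht hu
    refine this.trans ?_
    calc 2 * (M / 4) * R * |t - u| = M / 2 * (R * |t - u|) := by ring
      _ ≤ _ := mul_le_mul_of_nonneg_left hRtu (by positivity)
  have e0 : ‖D k c s n t - D k c s n u‖ ≤ M / 2 * δ := by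
    have := lip_of_ball (a := 0) hR0 (fun z _ => differentiable_D k c s n z)
      (fun z hz => by simpa using h0 z hz) ht hu
    refine this.trans ?_
    calc 2 * (M / 4) * R * |t - u| = M / 2 * (R * |t - u|) := by ring
      _ ≤ _ := mul_le_mul_of_nonneg_left hRtu (by positivity)
  have up1 : ∀ x : ℝ, |x - m| ≤ 3 / R → ‖D k c s (n + 1) x‖ ≤ 5 / 4 * M := by
    intro x hx
    have a := h1 x (hmem x hx)
    have b := norm_le_norm_add_norm_sub' (D k c s (n + 1) (x : ℂ)) ((μ : ℝ) : ℂ)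
    rw [Complex.norm_real, Real.norm_eq_abs] at b
    linarith
  have lo1 : ∀ x : ℝ, |x - m| ≤ 3 / R → 3 / 4 * M ≤ ‖D k c s (n + 1) x‖ := by
    intro x hx
    have a := h1 x (hmem x hx)
    have b := norm_le_norm_add_norm_sub' ((μ : ℝ) : ℂ) (D k c s (n + 1) (x : ℂ))
    rw [norm_sub_rev, Complex.norm_real, Real.norm_eq_abs] at b
    linarith
  have up0 : ∀ x : ℝ, |x - m| ≤ 3 / R → ‖D k c s n x‖ ≤ M / 4 := fun x hx => h0 x (hmem x hx)
  -- (2) the exit digit moves little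
  have hmul : M * |t - u| ≤ κ ^ 2 * δ := by
    calc M * |t - u| ≤ κ ^ 2 * R * |t - u| := mul_le_mul_of_nonneg_right hμ' (abs_nonneg _)
      _ = κ ^ 2 * (R * |t - u|) := by ring
      _ ≤ _ := mul_le_mul_of_nonneg_left hRtu (by positivity)
  have hseg : ∀ x ∈ uIcc t u, |x - m| ≤ 3 / R := by
    intro x hx
    rw [mem_uIcc] at hx
    have a1 := abs_le.mp ht
    have a2 := abs_le.mp hu
    rw [abs_le]
    rcases hx with h | h
    · exact ⟨by linarith [h.1, h.2], by linarith [h.1, h.2]⟩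
    · exact ⟨by linarith [h.1, h.2], by linarith [h.1, h.2]⟩
  have hYl : ∀ (j : ℕ) (B : ℝ), (∀ x : ℝ, |x - m| ≤ 3 / R → ‖D k c s j x‖ ≤ B) →
      ‖Y k c s j t - Y k c s j u‖ ≤ B * |t - u| := by
    intro j B hB
    have hder : ∀ x : ℝ, ∃ e : ℂ, HasDerivAt (fun w : ℝ => Y k c s j (w : ℂ)) e x ∧
        ‖e‖ = ‖D k c s j x‖ := by
      intro x
      cases s
      · have h := (hasDerivAt_Y_false k c j (x : ℂ)).comp_ofReal
        exact ⟨_, h, by rw [norm_neg]⟩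
      · have h := (hasDerivAt_Y_true k c j (x : ℂ)).comp_ofReal
        exact ⟨_, h, rfl⟩
    choose e he hn using hder
    have := (convex_uIcc t u).norm_image_sub_le_of_norm_hasDerivWithin_le (𝕜 := ℝ)
      (f := fun w : ℝ => Y k c s j (w : ℂ)) (f' := e) (C := B)
      (fun x _ => (he x).hasDerivWithinAt) (fun x hx => by rw [hn]; exact hB x (hseg x hx))
      right_mem_uIcc left_mem_uIcc
    simpa [Real.norm_eq_abs] using this
  have y1 : ‖Y k c s (n + 1) t - Y k c s (n + 1) u‖ ≤ 5 / 4 * (κ ^ 2 * δ) := by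
    refine (hYl (n + 1) _ up1).trans ?_
    calc 5 / 4 * M * |t - u| = 5 / 4 * (M * |t - u|) := by ring
      _ ≤ _ := by gcongr
  have hk0 : 0 ≤ k := by linarith
  have a1 : ‖dg k c s t (n + 1) - dg k c s u (n + 1)‖ ≤ 50 * κ ^ 5 * δ := by
    refine (norm_dg_sub_le hk0 c s (n + 1) t u).trans ?_
    calc 40 * k * ‖Y k c s (n + 1) t - Y k c s (n + 1) u‖ ≤ 40 * k * (5 / 4 * (κ ^ 2 * δ)) :=
          mul_le_mul_of_nonneg_left y1 (by positivity)
      _ = 50 * κ ^ 5 * δ := by rw [hk]; ring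
  have b1 : ∀ x : ℝ, ‖dg k c s x (n + 1)‖ ≤ 10 * κ ^ 3 := fun x => by
    have := norm_dg_le hk1 c s (n + 1) x
    rwa [hk] at this ⊢
  have b2 : ∀ x : ℝ, ‖dg k c s x (n + 2)‖ ≤ 10 * κ ^ 3 := fun x => by
    have := norm_dg_le hk1 c s (n + 2) x
    rwa [hk] at this ⊢
  have hκ1 : 1 ≤ κ := by linarith
  have hp3 : 1 ≤ κ ^ 3 := one_le_pow₀ hκ1
  have hp5 : κ ^ 3 ≤ κ ^ 5 := pow_le_pow_right₀ hκ1 (by norm_num)
  -- product rule
  have prod : ∀ {a b a' b' : ℂ} {A B E F : ℝ}, ‖a - a'‖ ≤ E → ‖b - b'‖ ≤ F → ‖b‖ ≤ B → ‖a'‖ ≤ A →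
      0 ≤ E → 0 ≤ F → ‖a * b - a' * b'‖ ≤ E * B + A * F := by
    intro a b a' b' A B E F h1 h2 h3 h4 hE hF
    have e : a * b - a' * b' = (a - a') * b + a' * (b - b') := by ring
    rw [e]
    refine (norm_add_le _ _).trans ?_
    rw [norm_mul, norm_mul]
    exact add_le_add (mul_le_mul h1 h3 (norm_nonneg _) hE)
      (mul_le_mul h4 h2 (norm_nonneg _) ((norm_nonneg _).trans h4))
  have e2 : ‖D k c s (n + 2) t - D k c s (n + 2) u‖ ≤ 70 * κ ^ 5 * δ * M := by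
    rw [D_succ_succ, D_succ_succ]
    have p1 := prod a1 e1 (up1 t ht) (b1 u) (by positivity) (by positivity)
    have e : dg k c s t (n + 1) * D k c s (n + 1) t - D k c s n t -
        (dg k c s u (n + 1) * D k c s (n + 1) u - D k c s n u) =
        (dg k c s t (n + 1) * D k c s (n + 1) t - dg k c s u (n + 1) * D k c s (n + 1) u) -
        (D k c s n t - D k c s n u) := by ring
    rw [e]
    refine (norm_sub_le _ _).trans ((add_le_add p1 e0).trans ?_)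
    have hMd : 0 < M * δ := by positivity
    nlinarith [mul_le_mul_of_nonneg_right hp5 hMd.le, mul_le_mul_of_nonneg_right hp3 hMd.le]
  have lo2u : κ ^ 2 * M / 2 ≤ ‖D k c s (n + 2) u‖ := by
    rw [D_succ_succ]
    have a := norm_sub_norm_le (dg k c s u (n + 1) * D k c s (n + 1) u) (D k c s n u)
    rw [norm_mul] at a
    have b : κ ^ 2 * (3 / 4 * M) ≤ ‖dg k c s u (n + 1)‖ * ‖D k c s (n + 1) u‖ :=
      mul_le_mul r1 (lo1 u hu) (by positivity) (norm_nonneg _)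
    have c1 := up0 u hu
    have : M / 4 ≤ κ ^ 2 * M / 4 := by
      have : 1 ≤ κ ^ 2 := one_le_pow₀ hκ1
      nlinarith
    linarith
  have sm2 : 70 * κ ^ 5 * δ * M ≤ κ ^ 2 * M / 10000 := by
    have h5 := hd 5 (by norm_num)
    have h6 := hd 6 (by norm_num)
    have : κ * (δ * κ ^ 5) ≤ 1 := by
      calc κ * (δ * κ ^ 5) = δ * κ ^ 6 := by ring
        _ ≤ 1 := h6
    have h7 : 1000 * (δ * κ ^ 5) ≤ 1 := by
      have : 0 ≤ δ * κ ^ 5 := by positivity
      nlinarith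
    have h8 : (1000000 : ℝ) ≤ κ ^ 2 := by nlinarith
    nlinarith
  have lo2t : κ ^ 2 * M / 4 ≤ ‖D k c s (n + 2) t‖ := by
    have a := norm_sub_norm_le (D k c s (n + 2) u) (D k c s (n + 2) t)
    rw [norm_sub_rev] at a
    have : κ ^ 2 * M / 10000 ≤ κ ^ 2 * M / 4 := by
      have : 0 ≤ κ ^ 2 * M := by positivity
      linarith
    linarith
  have up2 : ∀ x : ℝ, |x - m| ≤ 3 / R → ‖D k c s (n + 2) x‖ ≤ 13 * κ ^ 3 * M := by
    intro x hx
    rw [D_succ_succ]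
    refine (norm_sub_le _ _).trans ?_
    rw [norm_mul]
    have a := mul_le_mul (b1 x) (up1 x hx) (norm_nonneg _) (by positivity)
    have b := up0 x hx
    have : M / 4 ≤ κ ^ 3 * M / 4 := by nlinarith
    nlinarith
  have ratio : ‖D k c s (n + 2) t‖ ≤ (1 + 1 / 100) * ‖D k c s (n + 2) u‖ := by
    have a := norm_sub_norm_le (D k c s (n + 2) t) (D k c s (n + 2) u)
    have : κ ^ 2 * M / 10000 ≤ 1 / 100 * (κ ^ 2 * M / 2) := by
      have : 0 ≤ κ ^ 2 * M := by positivity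
      linarith
    linarith
  have y2 : ‖Y k c s (n + 2) t - Y k c s (n + 2) u‖ ≤ 13 * κ ^ 5 * δ := by
    refine (hYl (n + 2) _ up2).trans ?_
    calc 13 * κ ^ 3 * M * |t - u| = 13 * κ ^ 3 * (M * |t - u|) := by ring
      _ ≤ 13 * κ ^ 3 * (κ ^ 2 * δ) := mul_le_mul_of_nonneg_left hmul (by positivity)
      _ = _ := by ring
  have a2 : ‖dg k c s t (n + 2) - dg k c s u (n + 2)‖ ≤ 520 * κ ^ 8 * δ := by
    refine (norm_dg_sub_le hk0 c s (n + 2) t u).trans ?_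
    calc 40 * k * ‖Y k c s (n + 2) t - Y k c s (n + 2) u‖ ≤ 40 * k * (13 * κ ^ 5 * δ) :=
          mul_le_mul_of_nonneg_left y2 (by positivity)
      _ = 520 * κ ^ 8 * δ := by rw [hk]; ring
  have f3 : ∀ z : ℂ, D k c s (n + 3) z =
      dg k c s z (n + 2) * D k c s (n + 2) z - D k c s (n + 1) z :=
    fun z => D_succ_succ k c s (n + 1) z
  have e3 : ‖D k c s (n + 3) t - D k c s (n + 3) u‖ ≤ 7500 * κ ^ 11 * δ * M := by
    rw [f3, f3]
    have p1 := prod a2 e2 (up2 t ht) (b2 u) (by positivity) (by positivity)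
    have e : dg k c s t (n + 2) * D k c s (n + 2) t - D k c s (n + 1) t -
        (dg k c s u (n + 2) * D k c s (n + 2) u - D k c s (n + 1) u) =
        (dg k c s t (n + 2) * D k c s (n + 2) t - dg k c s u (n + 2) * D k c s (n + 2) u) -
        (D k c s (n + 1) t - D k c s (n + 1) u) := by ring
    rw [e]
    refine (norm_sub_le _ _).trans ((add_le_add p1 e1).trans ?_)
    have hMd : 0 < M * δ := by positivity
    have q8 : κ ^ 8 ≤ κ ^ 11 := pow_le_pow_right₀ hκ1 (by norm_num)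
    have q0 : 1 ≤ κ ^ 11 := one_le_pow₀ hκ1
    have g1 : 520 * κ ^ 8 * δ * (13 * κ ^ 3 * M) = 6760 * κ ^ 11 * (M * δ) := by ring
    have g2 : 10 * κ ^ 3 * (70 * κ ^ 5 * δ * M) = 700 * κ ^ 8 * (M * δ) := by ring
    have g3 : 7500 * κ ^ 11 * δ * M = 7500 * κ ^ 11 * (M * δ) := by ring
    rw [g1, g2, g3]
    nlinarith [mul_le_mul_of_nonneg_right q8 hMd.le, mul_le_mul_of_nonneg_right q0 hMd.le]
  have lo3u : κ ^ 4 * M / 4 ≤ ‖D k c s (n + 3) u‖ := by
    rw [f3]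
    have a := norm_sub_norm_le (dg k c s u (n + 2) * D k c s (n + 2) u) (D k c s (n + 1) u)
    rw [norm_mul] at a
    have b : κ ^ 2 * (κ ^ 2 * M / 2) ≤ ‖dg k c s u (n + 2)‖ * ‖D k c s (n + 2) u‖ :=
      mul_le_mul r2 lo2u (by positivity) (norm_nonneg _)
    have c1 := up1 u hu
    have : 5 / 4 * M ≤ κ ^ 4 * M / 4 := by
      have : (5 : ℝ) ≤ κ ^ 4 := by
        have : κ ^ 1 ≤ κ ^ 4 := pow_le_pow_right₀ hκ1 (by norm_num)
        linarith
      nlinarith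
    nlinarith
  have sm3 : 7500 * κ ^ 11 * δ * M ≤ κ ^ 4 * M / 8 := by
    have h12 := hd 12 (by norm_num)
    have h7 : 1000 * (δ * κ ^ 11) ≤ 1 := by
      have : 0 ≤ δ * κ ^ 11 := by positivity
      have e : κ * (δ * κ ^ 11) = δ * κ ^ 12 := by ring
      nlinarith
    have h8 : (1000 : ℝ) ≤ κ ^ 4 := by
      have : κ ^ 1 ≤ κ ^ 4 := pow_le_pow_right₀ hκ1 (by norm_num)
      linarith
    nlinarith
  have lo3t : κ ^ 4 * M / 8 ≤ ‖D k c s (n + 3) t‖ := by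
    have a := norm_sub_norm_le (D k c s (n + 3) u) (D k c s (n + 3) t)
    rw [norm_sub_rev] at a
    linarith
  have pos2 : 0 < κ ^ 2 * M / 4 := by positivity
  have pos3 : 0 < κ ^ 4 * M / 8 := by positivity
  have nz : ∀ {a : ℂ} {A : ℝ}, 0 < A → A ≤ ‖a‖ → a ≠ 0 := fun hA ha => norm_pos_iff.mp (hA.trans_le ha)
  have hMR : 1 / M ^ 2 ≤ 1 / R ^ 2 := by
    apply one_div_le_one_div_of_le (by positivity)
    exact pow_le_pow_left₀ hR0.le hμ 2
  refine ⟨nz (by positivity) (lo1 t ht), nz (by positivity) (lo1 u hu), nz pos2 lo2t,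
    nz (by positivity) lo2u, nz pos3 lo3t, nz (by positivity) lo3u, ratio, up2 u hu, ?_, ?_, ?_⟩
  · rw [norm_div, norm_one, norm_mul]
    have h : 3 / 4 * M * (κ ^ 2 * M / 2) ≤ ‖D k c s (n + 1) u‖ * ‖D k c s (n + 2) u‖ :=
      mul_le_mul (lo1 u hu) lo2u (by positivity) (norm_nonneg _)
    calc 1 / (‖D k c s (n + 1) u‖ * ‖D k c s (n + 2) u‖) ≤ 1 / (3 / 4 * M * (κ ^ 2 * M / 2)) :=
          one_div_le_one_div_of_le (by positivity) h
      _ = 8 / 3 / κ ^ 2 * (1 / M ^ 2) := by field_simp; norm_num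
      _ ≤ 8 / 3 / κ ^ 2 * (1 / R ^ 2) := mul_le_mul_of_nonneg_left hMR (by positivity)
      _ ≤ 3 / κ ^ 2 * (1 / R ^ 2) := by gcongr; norm_num
      _ = 3 / (κ ^ 2 * R ^ 2) := by field_simp
  · have h := norm_inv_mul_sub (A := 3 / 4 * M) (B := κ ^ 2 * M / 4) (by positivity) pos2
      (lo1 t ht) (lo1 u hu) lo2t (by
        have : κ ^ 2 * M / 4 ≤ κ ^ 2 * M / 2 := by
          have : 0 ≤ κ ^ 2 * M := by positivity
          linarith
        linarith) e1 e2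
    refine h.trans ?_
    have g : M / 2 * δ / ((3 / 4 * M) ^ 2 * (κ ^ 2 * M / 4)) +
        70 * κ ^ 5 * δ * M / ((κ ^ 2 * M / 4) ^ 2 * (3 / 4 * M)) =
        (32 / 9 / κ ^ 3 + 4480 / 3) * (κ * δ) * (1 / M ^ 2) := by
      field_simp
      ring
    rw [g]
    have g2 : 32 / 9 / κ ^ 3 ≤ 4 := by
      rw [div_le_iff₀ (by positivity)]
      nlinarith
    calc (32 / 9 / κ ^ 3 + 4480 / 3) * (κ * δ) * (1 / M ^ 2)
        ≤ (4 + 4480 / 3) * (κ * δ) * (1 / R ^ 2) := by gcongr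
      _ ≤ 10 ^ 7 * (κ * δ) * (1 / R ^ 2) := by gcongr; norm_num
      _ = _ := by ring
  · have h := norm_inv_mul_sub (A := κ ^ 2 * M / 4) (B := κ ^ 4 * M / 8) pos2 pos3
      lo2t (by
        have : κ ^ 2 * M / 4 ≤ κ ^ 2 * M / 2 := by
          have : 0 ≤ κ ^ 2 * M := by positivity
          linarith
        linarith) lo3t (by
        have : κ ^ 4 * M / 8 ≤ κ ^ 4 * M / 4 := by
          have : 0 ≤ κ ^ 4 * M := by positivity
          linarith
        linarith) e2 e3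
    refine h.trans ?_
    have g : 70 * κ ^ 5 * δ * M / ((κ ^ 2 * M / 4) ^ 2 * (κ ^ 4 * M / 8)) +
        7500 * κ ^ 11 * δ * M / ((κ ^ 4 * M / 8) ^ 2 * (κ ^ 2 * M / 4)) =
        (8960 / κ ^ 4 + 1920000) * (κ * δ) * (1 / M ^ 2) := by
      field_simp
      ring
    rw [g]
    have g2 : 8960 / κ ^ 4 ≤ 8960 := by
      apply div_le_self (by norm_num) (one_le_pow₀ hκ1)
    calc (8960 / κ ^ 4 + 1920000) * (κ * δ) * (1 / M ^ 2)
        ≤ (8960 + 1920000) * (κ * δ) * (1 / R ^ 2) := by gcongr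
      _ ≤ 10 ^ 7 * (κ * δ) * (1 / R ^ 2) := by gcongr; norm_num
      _ = _ := by ring

end Crest.Agent.R128.Loc
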