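import Crest.Agent.R128.LocB

/-!
# Row 128, node V5-LOC: `RA → LocB`, second part (helper548)
-/

set_option autoImplicit false

open Metric MeasureTheory Set
open Crest.Agent.R128 Crest.Agent.R128.Cell Crest.Agent.R128.CellB Crest.Agent.R128.CellDy

namespace Crest.Agent.R128.Loc

/-! ### algebra of the content -/

theorem cont_succ {k c : ℝ} {s : Bool} {n n' : ℕ} {z : ℂ} (h0 : D k c s n z ≠ 0)
    (h1 : D k c s (n + 1) z ≠ 0) (h2 : D k c (!s) n' z ≠ 0) (h3 : D k c (!s) (n' + 1) z ≠ 0) :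
    cont k c s (n + 1) (n' + 1) z = cont k c s n n' z - 1 / (D k c s n z * D k c s (n + 1) z) -
      1 / (D k c (!s) n' z * D k c (!s) (n' + 1) z) := by
  unfold cont mu
  have a := Align.mu_succ_sub (a := dg k c s z) (n := n) (by rwa [Q_dg]) (by rwa [Q_dg])
  have b := Align.mu_succ_sub (a := dg k c (!s) z) (n := n') (by rwa [Q_dg]) (by rwa [Q_dg])
  rw [Q_dg, Q_dg] at a b
  linear_combination -a - b

/-- three separated points determine a quadratic -/
theorem quad_lip {q0 q1 q2 K x1 x2 x3 : ℝ} (hK : 0 ≤ K) (_h1 : -2 ≤ x1) (h1' : x1 ≤ -3 / 2)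
    (h2 : -1 / 4 ≤ x2) (h2' : x2 ≤ 1 / 4) (h3 : 3 / 2 ≤ x3) (h3' : x3 ≤ 2)
    (b1 : |q0 + q1 * x1 + q2 * x1 ^ 2| ≤ K) (b2 : |q0 + q1 * x2 + q2 * x2 ^ 2| ≤ K)
    (b3 : |q0 + q1 * x3 + q2 * x3 ^ 2| ≤ K) {x y : ℝ} (hx : |x| ≤ 3) (hy : |y| ≤ 3) :
    |(q0 + q1 * x + q2 * x ^ 2) - (q0 + q1 * y + q2 * y ^ 2)| ≤ 20 * K * |x - y| := by
  rw [abs_le] at b1 b2 b3 hx hy
  -- divided differences
  set d1 : ℝ := q1 + q2 * (x1 + x2) with hd1
  set d2 : ℝ := q1 + q2 * (x2 + x3) with hd2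
  have e1 : d1 * (x2 - x1) = (q0 + q1 * x2 + q2 * x2 ^ 2) - (q0 + q1 * x1 + q2 * x1 ^ 2) := by
    rw [hd1]; ring
  have e2 : d2 * (x3 - x2) = (q0 + q1 * x3 + q2 * x3 ^ 2) - (q0 + q1 * x2 + q2 * x2 ^ 2) := by
    rw [hd2]; ring
  have a1 : |d1| ≤ 2 * K := by
    have h : |d1| * (x2 - x1) ≤ 2 * K := by
      rw [← abs_of_pos (by linarith : 0 < x2 - x1), ← abs_mul, e1, abs_le]
      constructor <;> linarith [b1.1, b1.2, b2.1, b2.2]
    have : 1 * |d1| ≤ |d1| * (x2 - x1) := by nlinarith [abs_nonneg d1]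
    linarith
  have a2 : |d2| ≤ 2 * K := by
    have h : |d2| * (x3 - x2) ≤ 2 * K := by
      rw [← abs_of_pos (by linarith : 0 < x3 - x2), ← abs_mul, e2, abs_le]
      constructor <;> linarith [b3.1, b3.2, b2.1, b2.2]
    have : 1 * |d2| ≤ |d2| * (x3 - x2) := by nlinarith [abs_nonneg d2]
    linarith
  have a3 : |q2| ≤ 4 / 3 * K := by
    have e3 : q2 * (x3 - x1) = d2 - d1 := by rw [hd1, hd2]; ring
    have h : |q2| * (x3 - x1) ≤ 4 * K := by
      rw [← abs_of_pos (by linarith : 0 < x3 - x1), ← abs_mul, e3]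
      refine (abs_sub _ _).trans ?_
      linarith
    have : 3 * |q2| ≤ |q2| * (x3 - x1) := by nlinarith [abs_nonneg q2]
    linarith
  have a4 : |q1| ≤ 6 * K := by
    have e4 : q1 = d2 - q2 * (x2 + x3) := by rw [hd2]; ring
    have h : |q2 * (x2 + x3)| ≤ 4 / 3 * K * (9 / 4) := by
      rw [abs_mul]
      apply mul_le_mul a3 _ (abs_nonneg _) (by positivity)
      rw [abs_le]; constructor <;> linarith
    rw [e4]
    refine (abs_sub _ _).trans ?_
    linarith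
  have e5 : (q0 + q1 * x + q2 * x ^ 2) - (q0 + q1 * y + q2 * y ^ 2) =
      (q1 + q2 * (x + y)) * (x - y) := by ring
  rw [e5, abs_mul]
  apply mul_le_mul_of_nonneg_right _ (abs_nonneg _)
  refine (abs_add_le _ _).trans ?_
  rw [abs_mul]
  have : |q2| * |x + y| ≤ 4 / 3 * K * 6 := by
    apply mul_le_mul a3 _ (abs_nonneg _) (by positivity)
    rw [abs_le]; constructor <;> linarith [hx.1, hx.2, hy.1, hy.2]
  linarith

set_option maxHeartbeats 2000000 in
/-- what a good point says nearby -/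
theorem transfer {k c κ m R lam C1 q0 q1 q2 δ : ℝ} {s : Bool} {n n' : ℕ} (hκ : 1000 ≤ κ)
    (hk : k = κ ^ 3) (hδ : δ = 1 / κ ^ 18) (hlam : |lam| ≤ κ ^ 2)
    (hC : Cell3 k c s n n' m R lam C1 q0 q1 q2) (c1 : C1 * R / k ≤ R / 4)
    (c2 : C1 * |lam| ^ 2 * R / k ≤ |lam| * R / 4) (c3 : C1 * |lam| * R / k ≤ |lam| * R / 4)
    {t u : ℝ} (ht : |t - m| ≤ 3 / R) (hu : |u - m| ≤ 3 / R) (htu : |u - t| ≤ δ / R)
    (hG : Good3 k c s n n' R u) :
    |q0 + q1 * (R * (u - m)) + q2 * (R * (u - m)) ^ 2| ≤ 41 * κ ∧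
    (|(q0 + q1 * (R * (t - m)) + q2 * (R * (t - m)) ^ 2) -
        (q0 + q1 * (R * (u - m)) + q2 * (R * (u - m)) ^ 2)| ≤ 820 * κ * δ →
      (2 * Real.pi * k * R ^ 2) * ‖cont k c s (n + 2) (n' + 2) t‖ ≤ 1 / 4 ∧
      (2 * Real.pi * k * (min ‖D k c s (n + 2) t‖ ‖D k c (!s) (n' + 2) t‖) ^ 2) *
            ‖cont k c s (n + 3) (n' + 3) t‖ ≤ 1 / 4) := by
  have hκ0 : 0 < κ := by linarith
  have hκ1 : 1 ≤ κ := by linarith
  have hR := hC.hR
  have hR0 : 0 < R := by linarith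
  have hL := hC.hlam
  obtain ⟨σ, hσ, hslow⟩ := hC.slow
  have hσa : |σ| = 1 := by rcases hσ with h | h <;> rw [h] <;> norm_num
  have hk2 : k ^ (2 / 3 : ℝ) = κ ^ 2 := by
    rw [hk, ← Real.rpow_natCast, ← Real.rpow_mul hκ0.le]
    norm_num
  have hpi := Real.pi_gt_three
  have hpi2 : Real.pi < 3.15 := Real.pi_lt_d2
  have hδ0 : 0 < δ := by rw [hδ]; positivity
  have hδ1 : δ * κ ^ 18 = 1 := by rw [hδ]; field_simp
  -- the two sides
  have hμ1 : |σ * R| = R := by rw [abs_mul, hσa, abs_of_pos hR0, one_mul]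
  have S1 := side (k := k) (c := c) (κ := κ) (m := m) (R := R) (μ := σ * R) (δ := δ) (s := s)
    (n := n) hκ hk hR (by rw [hμ1]) (by rw [hμ1]; nlinarith [one_le_pow₀ (n := 2) hκ1]) hδ
    (by intro z hz; rw [hμ1]; exact (hslow z hz).trans c1)
    (by intro z hz; rw [hμ1]; exact (hC.slow0 z hz).trans c1) ht hu htu
    (by have := hG.reg 0 (by norm_num); rwa [hk2] at this)
    (by have := hG.reg 1 (by norm_num); rwa [hk2] at this)
  have hμ2 : |lam * R| = |lam| * R := by rw [abs_mul, abs_of_pos hR0]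
  have S2 := side (k := k) (c := c) (κ := κ) (m := m) (R := R) (μ := lam * R) (δ := δ) (s := !s)
    (n := n') hκ hk hR (by rw [hμ2]; nlinarith) (by rw [hμ2]; nlinarith) hδ
    (by intro z hz; rw [hμ2]; exact (hC.fast z hz).trans c2)
    (by intro z hz; rw [hμ2]; exact (hC.fast0 z hz).trans c3) ht hu htu
    (by have := hG.reg' 0 (by norm_num); rwa [hk2] at this)
    (by have := hG.reg' 1 (by norm_num); rwa [hk2] at this)
  obtain ⟨a1, a2, a3, a4, a5, a6, a7, a8, a9, a10, a11⟩ := S1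
  obtain ⟨b1, b2, b3, b4, b5, b6, b7, b8, b9, b10, b11⟩ := S2
  rw [hμ1] at a8
  set P : ℝ := 2 * Real.pi * k * R ^ 2 with hP
  have hk0 : 0 < k := by rw [hk]; positivity
  have hP0 : 0 < P := by positivity
  have hPle' : P ≤ 6.3 * κ ^ 3 * R ^ 2 := by
    rw [hP, hk]
    have h5 : 0 < κ ^ 3 * R ^ 2 := by positivity
    have e5 : 2 * Real.pi * κ ^ 3 * R ^ 2 = 2 * Real.pi * (κ ^ 3 * R ^ 2) := by ring
    have e6 : 6.3 * κ ^ 3 * R ^ 2 = 6.3 * (κ ^ 3 * R ^ 2) := by ring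
    rw [e5, e6]
    apply mul_le_mul_of_nonneg_right _ h5.le
    clear * - hpi2
    linarith
  have hPle : P ≤ 7 * κ ^ 3 * R ^ 2 := by
    refine hPle'.trans ?_
    gcongr
    norm_num
  have g1 := hG.al1
  have g2 := hG.al2
  have mem : ∀ x : ℝ, |x - m| ≤ 3 / R → (x : ℂ) ∈ ball (m : ℂ) (4 / R) := by
    intro x hx
    rw [mem_ball, dist_eq_norm, ← Complex.ofReal_sub, Complex.norm_real]
    refine lt_of_le_of_lt hx ?_
    gcongr
    norm_num
  -- abbreviations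
  obtain ⟨At, hAt⟩ : ∃ A, A = 1 / (D k c s (n + 1) t * D k c s (n + 2) t) := ⟨_, rfl⟩
  obtain ⟨Au, hAu⟩ : ∃ A, A = 1 / (D k c s (n + 1) u * D k c s (n + 2) u) := ⟨_, rfl⟩
  obtain ⟨At', hAt'⟩ : ∃ A, A = 1 / (D k c s (n + 2) t * D k c s (n + 3) t) := ⟨_, rfl⟩
  obtain ⟨Au', hAu'⟩ : ∃ A, A = 1 / (D k c s (n + 2) u * D k c s (n + 3) u) := ⟨_, rfl⟩
  obtain ⟨Bt, hBt⟩ : ∃ A, A = 1 / (D k c (!s) (n' + 1) t * D k c (!s) (n' + 2) t) := ⟨_, rfl⟩
  obtain ⟨Bu, hBu⟩ : ∃ A, A = 1 / (D k c (!s) (n' + 1) u * D k c (!s) (n' + 2) u) := ⟨_, rfl⟩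
  obtain ⟨Bt', hBt'⟩ : ∃ A, A = 1 / (D k c (!s) (n' + 2) t * D k c (!s) (n' + 3) t) := ⟨_, rfl⟩
  obtain ⟨Bu', hBu'⟩ : ∃ A, A = 1 / (D k c (!s) (n' + 2) u * D k c (!s) (n' + 3) u) := ⟨_, rfl⟩
  have ct1 : cont k c s (n + 2) (n' + 2) t = cont k c s (n + 1) (n' + 1) t - At - Bt := by
    rw [hAt, hBt]; exact cont_succ a1 a3 b1 b3
  have cu1 : cont k c s (n + 2) (n' + 2) u = cont k c s (n + 1) (n' + 1) u - Au - Bu := by
    rw [hAu, hBu]; exact cont_succ a2 a4 b2 b4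
  have ct2 : cont k c s (n + 3) (n' + 3) t = cont k c s (n + 2) (n' + 2) t - At' - Bt' := by
    rw [hAt', hBt']; exact cont_succ a3 a5 b3 b5
  have cu2 : cont k c s (n + 3) (n' + 3) u = cont k c s (n + 2) (n' + 2) u - Au' - Bu' := by
    rw [hAu', hBu']; exact cont_succ a4 a6 b4 b6
  rw [← hAu] at a9
  rw [← hBu] at b9
  rw [← hAt, ← hAu] at a10
  rw [← hBt, ← hBu] at b10
  rw [← hAt', ← hAu'] at a11
  rw [← hBt', ← hBu'] at b11
  -- multiplied by P
  have Pmul : ∀ {w : ℂ}, ‖w‖ ≤ 10 ^ 7 * κ * δ / R ^ 2 → P * ‖w‖ ≤ 7 * 10 ^ 7 * κ ^ 4 * δ := by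
    intro w hw
    calc P * ‖w‖ ≤ (7 * κ ^ 3 * R ^ 2) * (10 ^ 7 * κ * δ / R ^ 2) :=
          mul_le_mul hPle hw (norm_nonneg _) (by positivity)
      _ = _ := by field_simp
  have Pmul2 : ∀ {w : ℂ}, ‖w‖ ≤ 3 / (κ ^ 2 * R ^ 2) → P * ‖w‖ ≤ 19 * κ := by
    intro w hw
    calc P * ‖w‖ ≤ (6.3 * κ ^ 3 * R ^ 2) * (3 / (κ ^ 2 * R ^ 2)) :=
          mul_le_mul hPle' hw (norm_nonneg _) (by positivity)
      _ = 18.9 * κ := by field_simp; norm_num
      _ ≤ 19 * κ := by gcongr; norm_num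
  have Psub : ∀ {X A B : ℂ} {x a b y : ℝ}, P * ‖X‖ ≤ x → P * ‖A‖ ≤ a → P * ‖B‖ ≤ b →
      x + a + b = y → P * ‖X - A - B‖ ≤ y := by
    intro X A B x a b y hX hA hB hy
    have h3 := norm_sub_le (X - A) B
    have h4 := norm_sub_le X A
    calc P * ‖X - A - B‖ ≤ P * (‖X‖ + ‖A‖ + ‖B‖) :=
          mul_le_mul_of_nonneg_left (h3.trans (add_le_add h4 le_rfl)) hP0.le
      _ = P * ‖X‖ + P * ‖A‖ + P * ‖B‖ := by ring
      _ ≤ x + a + b := add_le_add (add_le_add hX hA) hB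
      _ = y := hy
  have qcast : ∀ x : ℝ, (q0 + q1 * ((R : ℂ) * ((x : ℂ) - m)) + q2 * ((R : ℂ) * ((x : ℂ) - m)) ^ 2 : ℂ)
      = ((q0 + q1 * (R * (x - m)) + q2 * (R * (x - m)) ^ 2 : ℝ) : ℂ) := by
    intro x; push_cast; ring
  have hFu := hC.quad u (mem u hu)
  have hPc : ‖((2 * Real.pi * k * R ^ 2 : ℝ) : ℂ)‖ = P := by
    rw [Complex.norm_real, Real.norm_eq_abs, abs_of_pos hP0]
  constructor
  · rw [qcast] at hFu
    have h1 := norm_sub_norm_le ((q0 + q1 * (R * (u - m)) + q2 * (R * (u - m)) ^ 2 : ℝ) : ℂ)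
      (((2 * Real.pi * k * R ^ 2 : ℝ) : ℂ) * cont k c s (n + 1) (n' + 1) u)
    rw [norm_sub_rev, norm_mul, hPc, Complex.norm_real, Real.norm_eq_abs] at h1
    have h2 : P * ‖cont k c s (n + 1) (n' + 1) u‖ ≤ 1 / 8 + 19 * κ + 19 * κ := by
      have e : cont k c s (n + 1) (n' + 1) u = cont k c s (n + 2) (n' + 2) u + Au + Bu := by
        rw [cu1]; ring
      rw [e]
      have h3 : ‖cont k c s (n + 2) (n' + 2) u + Au + Bu‖ ≤
          ‖cont k c s (n + 2) (n' + 2) u‖ + ‖Au‖ + ‖Bu‖ :=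
        (norm_add_le _ _).trans (add_le_add (norm_add_le _ _) le_rfl)
      calc P * ‖cont k c s (n + 2) (n' + 2) u + Au + Bu‖
          ≤ P * (‖cont k c s (n + 2) (n' + 2) u‖ + ‖Au‖ + ‖Bu‖) :=
            mul_le_mul_of_nonneg_left h3 hP0.le
        _ = P * ‖cont k c s (n + 2) (n' + 2) u‖ + P * ‖Au‖ + P * ‖Bu‖ := by ring
        _ ≤ _ := add_le_add (add_le_add g1 (Pmul2 a9)) (Pmul2 b9)
    have h6 := h1.trans hFu
    clear * - h6 h2 hκ
    linarith
  · intro hq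
    -- variation of the old content
    obtain ⟨e, he⟩ : ∃ e : ℂ → ℂ, e = fun z => ((2 * Real.pi * k * R ^ 2 : ℝ) : ℂ) *
      cont k c s (n + 1) (n' + 1) z -
      (q0 + q1 * ((R : ℂ) * (z - m)) + q2 * ((R : ℂ) * (z - m)) ^ 2) := ⟨_, rfl⟩
    have hed : ∀ z ∈ ball (m : ℂ) (4 / R), DifferentiableAt ℂ e z := by
      intro z hz
      have n1 : D k c s (n + 1) z ≠ 0 := by
        intro h0
        have := (hslow z hz).trans c1
        rw [h0, zero_sub, norm_neg, Complex.norm_real, Real.norm_eq_abs, hμ1] at this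
        linarith
      have n2 : D k c (!s) (n' + 1) z ≠ 0 := by
        intro h0
        have := (hC.fast z hz).trans c2
        rw [h0, zero_sub, norm_neg, Complex.norm_real, Real.norm_eq_abs, hμ2] at this
        have h5 : 0 < |lam| * R := by positivity
        clear * - this h5
        linarith
      rw [he]
      have d1 := differentiableAt_mu k c s (n + 1) n1
      have d2 := differentiableAt_mu k c (!s) (n' + 1) n2
      have d3 : DifferentiableAt ℂ (fun z => cont k c s (n + 1) (n' + 1) z) z := by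
        unfold cont
        exact ((differentiableAt_const _).sub d1).sub d2
      have d4 : DifferentiableAt ℂ (fun z : ℂ => (R : ℂ) * (z - m)) z := by fun_prop
      have d5 : DifferentiableAt ℂ (fun z : ℂ => (q0 : ℂ) + q1 * ((R : ℂ) * (z - m)) +
          q2 * ((R : ℂ) * (z - m)) ^ 2) z := by fun_prop
      exact ((differentiableAt_const _).mul d3).sub d5
    have heb : ∀ z ∈ ball (m : ℂ) (4 / R), ‖e z - 0‖ ≤ 1 / 16 := by
      intro z hz
      rw [he, sub_zero]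
      exact hC.quad z hz
    have htu' : |t - u| ≤ δ / R := by rwa [abs_sub_comm]
    have hRtu : R * |t - u| ≤ δ := by
      rw [le_div_iff₀ hR0] at htu'
      linarith
    have he1 := lip_of_ball hR0 hed heb ht hu
    have he2 : ‖e t - e u‖ ≤ δ := by
      refine he1.trans ?_
      calc 2 * (1 / 16) * R * |t - u| = 1 / 8 * (R * |t - u|) := by ring
        _ ≤ 1 / 8 * δ := by gcongr
        _ ≤ δ := by linarith
    have hF : P * ‖cont k c s (n + 1) (n' + 1) t - cont k c s (n + 1) (n' + 1) u‖ ≤ 821 * κ * δ := by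
      have e1 : ((2 * Real.pi * k * R ^ 2 : ℝ) : ℂ) *
          (cont k c s (n + 1) (n' + 1) t - cont k c s (n + 1) (n' + 1) u) =
          (e t - e u) + (((q0 + q1 * (R * (t - m)) + q2 * (R * (t - m)) ^ 2) -
            (q0 + q1 * (R * (u - m)) + q2 * (R * (u - m)) ^ 2) : ℝ) : ℂ) := by
        rw [he, Complex.ofReal_sub, ← qcast, ← qcast]
        ring
      have e2 := congrArg norm e1
      rw [norm_mul, hPc] at e2
      rw [e2]
      refine (norm_add_le _ _).trans ?_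
      rw [Complex.norm_real, Real.norm_eq_abs]
      have h5 : δ ≤ κ * δ := le_mul_of_one_le_left hδ0.le hκ1
      have h7 : 821 * κ * δ = κ * δ + 820 * κ * δ := by ring
      rw [h7]
      exact add_le_add (he2.trans h5) hq
    have hD1 : P * ‖cont k c s (n + 2) (n' + 2) t - cont k c s (n + 2) (n' + 2) u‖ ≤
        821 * κ * δ + 14 * 10 ^ 7 * κ ^ 4 * δ := by
      have e1 : cont k c s (n + 2) (n' + 2) t - cont k c s (n + 2) (n' + 2) u =
          (cont k c s (n + 1) (n' + 1) t - cont k c s (n + 1) (n' + 1) u) - (At - Au) - (Bt - Bu) := by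
        rw [ct1, cu1]; ring
      rw [e1]
      exact Psub hF (Pmul a10) (Pmul b10) (by ring)
    have hD2 : P * ‖cont k c s (n + 3) (n' + 3) t - cont k c s (n + 3) (n' + 3) u‖ ≤
        821 * κ * δ + 28 * 10 ^ 7 * κ ^ 4 * δ := by
      have e1 : cont k c s (n + 3) (n' + 3) t - cont k c s (n + 3) (n' + 3) u =
          (cont k c s (n + 2) (n' + 2) t - cont k c s (n + 2) (n' + 2) u) - (At' - Au') -
            (Bt' - Bu') := by
        rw [ct2, cu2]; ring
      rw [e1]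
      exact Psub hD1 (Pmul a11) (Pmul b11) (by ring)
    have small : ∀ j : ℕ, j ≤ 10 → δ * κ ^ j ≤ 1 / 10 ^ 24 := by
      intro j hj
      have h1 : κ ^ j ≤ κ ^ 10 := pow_le_pow_right₀ hκ1 hj
      have h2 : (1000 : ℝ) ^ 8 ≤ κ ^ 8 := pow_le_pow_left₀ (by norm_num) hκ 8
      have h3 : δ * κ ^ j * κ ^ 8 ≤ 1 := by
        calc δ * κ ^ j * κ ^ 8 ≤ δ * κ ^ 10 * κ ^ 8 := by gcongr
          _ = δ * κ ^ 18 := by ring
          _ = 1 := hδ1
      have h4 : 0 ≤ δ * κ ^ j := by positivity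
      rw [le_div_iff₀ (by norm_num)]
      calc δ * κ ^ j * 10 ^ 24 = δ * κ ^ j * 1000 ^ 8 := by norm_num
        _ ≤ δ * κ ^ j * κ ^ 8 := mul_le_mul_of_nonneg_left h2 h4
        _ ≤ 1 := h3
    have sm1 := small 1 (by norm_num)
    have sm4 := small 4 (by norm_num)
    have sm7 := small 7 (by norm_num)
    have sm10 := small 10 (by norm_num)
    rw [pow_one] at sm1
    constructor
    · have h1 := norm_sub_norm_le (cont k c s (n + 2) (n' + 2) t) (cont k c s (n + 2) (n' + 2) u)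
      have h2 := mul_le_mul_of_nonneg_left h1 hP0.le
      rw [mul_sub] at h2
      have h3 := h2.trans hD1
      have h4 : 821 * κ * δ + 14 * 10 ^ 7 * κ ^ 4 * δ = 821 * (δ * κ) + 14 * 10 ^ 7 * (δ * κ ^ 4) := by
        ring
      rw [h4] at h3
      clear * - h3 sm1 sm4 g1
      linarith
    · set Mt : ℝ := min ‖D k c s (n + 2) t‖ ‖D k c (!s) (n' + 2) t‖ with hMt
      set Mu : ℝ := min ‖D k c s (n + 2) u‖ ‖D k c (!s) (n' + 2) u‖ with hMu
      have hMt0 : 0 ≤ Mt := le_min (norm_nonneg _) (norm_nonneg _)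
      have hMu0 : 0 ≤ Mu := le_min (norm_nonneg _) (norm_nonneg _)
      have hMtu : Mt ≤ (1 + 1 / 100) * Mu := by
        rw [hMu, mul_min_of_nonneg _ _ (by norm_num)]
        exact min_le_min a7 b7
      have hMuR : Mu ≤ 13 * κ ^ 3 * R := (min_le_left _ _).trans a8
      have hsq : Mt ^ 2 ≤ 103 / 100 * Mu ^ 2 := by
        have := pow_le_pow_left₀ hMt0 hMtu 2
        have h5 : 0 ≤ Mu ^ 2 := sq_nonneg Mu
        rw [mul_pow] at this
        clear * - this h5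
        linarith
      have hsq2 : Mu ^ 2 ≤ 169 * κ ^ 6 * R ^ 2 := by
        have := pow_le_pow_left₀ hMu0 hMuR 2
        calc Mu ^ 2 ≤ (13 * κ ^ 3 * R) ^ 2 := this
          _ = _ := by ring
      obtain ⟨Δ, hΔ⟩ : ∃ x, x = ‖cont k c s (n + 3) (n' + 3) t - cont k c s (n + 3) (n' + 3) u‖ :=
        ⟨_, rfl⟩
      have hΔ0 : 0 ≤ Δ := by rw [hΔ]; exact norm_nonneg _
      rw [← hΔ] at hD2
      have h1 : ‖cont k c s (n + 3) (n' + 3) t‖ ≤ ‖cont k c s (n + 3) (n' + 3) u‖ + Δ := by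
        have := norm_sub_norm_le (cont k c s (n + 3) (n' + 3) t) (cont k c s (n + 3) (n' + 3) u)
        rw [← hΔ] at this
        clear * - this
        linarith
      have h2 : 2 * Real.pi * k * Mu ^ 2 * Δ ≤ 169 * κ ^ 6 * (P * Δ) := by
        calc 2 * Real.pi * k * Mu ^ 2 * Δ ≤ 2 * Real.pi * k * (169 * κ ^ 6 * R ^ 2) * Δ := by
              gcongr
          _ = 169 * κ ^ 6 * (P * Δ) := by rw [hP]; ring
      have h3 : 169 * κ ^ 6 * (P * Δ) ≤ 1 / 100 := by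
        calc 169 * κ ^ 6 * (P * Δ) ≤ 169 * κ ^ 6 * (821 * κ * δ + 28 * 10 ^ 7 * κ ^ 4 * δ) := by
              gcongr
          _ = 169 * 821 * (δ * κ ^ 7) + 169 * 28 * 10 ^ 7 * (δ * κ ^ 10) := by ring
          _ ≤ 169 * 821 * (1 / 10 ^ 24) + 169 * 28 * 10 ^ 7 * (1 / 10 ^ 24) := by gcongr
          _ ≤ 1 / 100 := by norm_num
      have hpk : 0 ≤ 2 * Real.pi * k := by positivity
      calc 2 * Real.pi * k * Mt ^ 2 * ‖cont k c s (n + 3) (n' + 3) t‖
          ≤ 2 * Real.pi * k * (103 / 100 * Mu ^ 2) * (‖cont k c s (n + 3) (n' + 3) u‖ + Δ) := by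
            gcongr
        _ = 103 / 100 * (2 * Real.pi * k * Mu ^ 2 * ‖cont k c s (n + 3) (n' + 3) u‖) +
            103 / 100 * (2 * Real.pi * k * Mu ^ 2 * Δ) := by ring
        _ ≤ 103 / 100 * (1 / 8) + 103 / 100 * (1 / 100) := by
            gcongr
            exact h2.trans h3
        _ ≤ 1 / 4 := by norm_num

set_option maxHeartbeats 1000000 in
/-- **LocB from RA** -/
theorem locB_of_RA (hRA : RA) : LocB := by
  intro C1
  obtain ⟨c0, hc0, k1, hk1⟩ := hRA C1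
  refine ⟨min c0 (1 / 4), lt_min hc0 (by norm_num), max k1 (max (10 ^ 9) ((4 * |C1| + 4) ^ 6)), ?_⟩
  intro k hk c s n n' m R lam q0 q1 q2 hlam hC
  have hkk1 : k1 ≤ k := (le_max_left _ _).trans hk
  have hk9 : (10 : ℝ) ^ 9 ≤ k := (le_max_left _ _).trans ((le_max_right _ _).trans hk)
  have hkC : (4 * |C1| + 4) ^ 6 ≤ k := (le_max_right _ _).trans ((le_max_right _ _).trans hk)
  have hk0 : 0 < k := by linarith [show (0 : ℝ) < 10 ^ 9 by norm_num]
  obtain ⟨κ, hκdef⟩ : ∃ κ : ℝ, κ = k ^ (1 / 3 : ℝ) := ⟨_, rfl⟩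
  have hκ0 : 0 < κ := by rw [hκdef]; positivity
  have hk : k = κ ^ 3 := by
    rw [hκdef, ← Real.rpow_natCast, ← Real.rpow_mul hk0.le]
    norm_num
  have hκ : 1000 ≤ κ := by
    by_contra h
    push Not at h
    have : κ ^ 3 < 1000 ^ 3 := pow_lt_pow_left₀ h hκ0.le (by norm_num)
    rw [← hk] at this
    norm_num at this
    linarith
  have hκ1 : 1 ≤ κ := by linarith
  -- the constant is small
  have hCκ : (4 * |C1| + 4) ^ 2 ≤ κ := by
    by_contra h
    push Not at h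
    have : κ ^ 3 < ((4 * |C1| + 4) ^ 2) ^ 3 := pow_lt_pow_left₀ h hκ0.le (by norm_num)
    rw [← hk, ← pow_mul] at this
    norm_num at this
    linarith
  have hC0 : 0 ≤ |C1| := abs_nonneg _
  have hC1le : C1 ≤ |C1| := le_abs_self _
  have hCκ' : 4 * |C1| + 4 ≤ κ := by nlinarith
  have hsqrt : Real.sqrt k = κ * Real.sqrt κ := by
    rw [hk, show κ ^ 3 = κ ^ 2 * κ by ring, Real.sqrt_mul (by positivity), Real.sqrt_sq hκ0.le]
  have hsκ : 4 * |C1| + 4 ≤ Real.sqrt κ := Real.le_sqrt_of_sq_le hCκ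
  have hs0 : 0 < Real.sqrt κ := Real.sqrt_pos.mpr hκ0
  have hss : Real.sqrt κ * Real.sqrt κ = κ := Real.mul_self_sqrt hκ0.le
  have hR := hC.hR
  have hR0 : 0 < R := by linarith
  have hL := hC.hlam
  -- |lam| ≤ |C1| κ √κ
  have hlam1 : |lam| ≤ |C1| * (κ * Real.sqrt κ) := by
    rw [← hsqrt]
    exact hlam.trans (mul_le_mul_of_nonneg_right hC1le (Real.sqrt_nonneg _))
  have hC4 : 4 * |C1| ≤ Real.sqrt κ := by linarith
  have hlam2 : |lam| ≤ κ ^ 2 := by
    calc |lam| ≤ |C1| * (κ * Real.sqrt κ) := hlam1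
      _ ≤ Real.sqrt κ * (κ * Real.sqrt κ) := by
          apply mul_le_mul_of_nonneg_right _ (by positivity)
          linarith
      _ = κ * (Real.sqrt κ * Real.sqrt κ) := by ring
      _ = κ ^ 2 := by rw [hss]; ring
  have hk4 : 4 * |C1| ≤ k := by
    have : κ ≤ κ ^ 3 := by nlinarith [one_le_pow₀ (n := 2) hκ1]
    rw [← hk] at this
    linarith
  have hk5 : 4 * |C1| * |lam| ≤ k := by
    calc 4 * |C1| * |lam| ≤ Real.sqrt κ * (|C1| * (κ * Real.sqrt κ)) :=
          mul_le_mul hC4 hlam1 (abs_nonneg _) hs0.le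
      _ = |C1| * κ * (Real.sqrt κ * Real.sqrt κ) := by ring
      _ = |C1| * κ ^ 2 := by rw [hss]; ring
      _ ≤ κ * κ ^ 2 := by
          apply mul_le_mul_of_nonneg_right _ (by positivity)
          linarith
      _ = k := by rw [hk]; ring
  have cc1 : C1 * R / k ≤ R / 4 := by
    rw [div_le_div_iff₀ hk0 (by norm_num)]
    nlinarith
  have cc2 : C1 * |lam| ^ 2 * R / k ≤ |lam| * R / 4 := by
    rw [div_le_div_iff₀ hk0 (by norm_num)]
    have h0 : 0 ≤ |lam| * R := by positivity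
    have h1 : C1 * |lam| * 4 ≤ k := by nlinarith [abs_nonneg lam]
    calc C1 * |lam| ^ 2 * R * 4 = (C1 * |lam| * 4) * (|lam| * R) := by ring
      _ ≤ k * (|lam| * R) := mul_le_mul_of_nonneg_right h1 h0
      _ = |lam| * R * k := by ring
  have cc3 : C1 * |lam| * R / k ≤ |lam| * R / 4 := by
    rw [div_le_div_iff₀ hk0 (by norm_num)]
    have h0 : 0 ≤ |lam| * R := by positivity
    have h1 : C1 * 4 ≤ k := by linarith
    calc C1 * |lam| * R * 4 = (C1 * 4) * (|lam| * R) := by ring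
      _ ≤ k * (|lam| * R) := mul_le_mul_of_nonneg_right h1 h0
      _ = |lam| * R * k := by ring
  obtain ⟨δ, hδ⟩ : ∃ δ : ℝ, δ = 1 / κ ^ 18 := ⟨_, rfl⟩
  have hδ0 : 0 < δ := by rw [hδ]; positivity
  have hδ1 : δ * κ ^ 18 = 1 := by rw [hδ]; field_simp
  have hδs : δ ≤ 1 / 100 := by
    have h1 : κ ^ 1 ≤ κ ^ 18 := pow_le_pow_right₀ hκ1 (by norm_num)
    have h2 : δ * 1000 ≤ 1 := by
      rw [← hδ1]
      apply mul_le_mul_of_nonneg_left _ hδ0.le
      linarith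
    linarith
  have hδR : 1 / (k ^ 6 * R) = δ / R := by
    rw [hδ, hk]
    field_simp
  rw [hδR]
  set Dead : Set ℝ := {t : ℝ | |t - m| ≤ 2 / R ∧
        ∀ u : ℝ, |u - t| ≤ δ / R → ¬ Good3 k c s n n' R u} with hDead
  -- an interval without good points
  have key : ∀ a b : ℝ, -2 ≤ a → b ≤ 2 → b - a = 1 / 2 →
      (∀ u, Good3 k c s n n' R u → ¬ (a ≤ R * (u - m) ∧ R * (u - m) ≤ b)) →
      ENNReal.ofReal (min c0 (1 / 4) / R) ≤ volume Dead := by
    intro a b ha hb hab hno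
    have hsub : Icc (m + (a + δ) / R) (m + (b - δ) / R) ⊆ Dead := by
      intro t ht
      have t1 : a + δ ≤ R * (t - m) := by
        have := ht.1
        have h5 : (a + δ) / R ≤ t - m := by linarith
        rw [div_le_iff₀ hR0] at h5
        linarith
      have t2 : R * (t - m) ≤ b - δ := by
        have := ht.2
        have h5 : t - m ≤ (b - δ) / R := by linarith
        rw [le_div_iff₀ hR0] at h5
        linarith
      refine ⟨?_, ?_⟩
      · rw [le_div_iff₀ hR0]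
        have h5 : |R * (t - m)| ≤ 2 := by
          rw [abs_le]; constructor <;> linarith
        rw [abs_mul, abs_of_pos hR0] at h5
        linarith
      · intro u hu hGu
        rw [le_div_iff₀ hR0] at hu
        have h5 : |R * (u - t)| ≤ δ := by
          rw [abs_mul, abs_of_pos hR0]
          linarith
        rw [abs_le] at h5
        have e5 : R * (u - m) = R * (u - t) + R * (t - m) := by ring
        apply hno u hGu
        rw [e5]
        constructor <;> linarith [h5.1, h5.2]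
    refine le_trans ?_ (measure_mono hsub)
    rw [Real.volume_Icc]
    apply ENNReal.ofReal_le_ofReal
    have e : m + (b - δ) / R - (m + (a + δ) / R) = (b - a - 2 * δ) / R := by field_simp; ring
    rw [e]
    apply div_le_div_of_nonneg_right _ hR0.le
    have := min_le_right c0 (1 / 4)
    linarith
  have K0 : ∀ u, |R * (u - m)| ≤ 3 → Good3 k c s n n' R u →
      |q0 + q1 * (R * (u - m)) + q2 * (R * (u - m)) ^ 2| ≤ 41 * κ := by
    intro u hu hGu
    have hu' : |u - m| ≤ 3 / R := by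
      rw [le_div_iff₀ hR0]
      rw [abs_mul, abs_of_pos hR0] at hu
      linarith
    exact (transfer hκ hk hδ hlam2 hC cc1 cc2 cc3 hu' hu' (by simp; positivity) hGu).1
  by_cases e1 : ∃ u, Good3 k c s n n' R u ∧ (-2 ≤ R * (u - m) ∧ R * (u - m) ≤ -3 / 2)
  swap
  · push Not at e1
    refine key (-2) (-3 / 2) le_rfl (by norm_num) (by norm_num) ?_
    intro u hGu h
    linarith [e1 u hGu h.1, h.2]
  by_cases e2 : ∃ u, Good3 k c s n n' R u ∧ (-1 / 4 ≤ R * (u - m) ∧ R * (u - m) ≤ 1 / 4)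
  swap
  · push Not at e2
    refine key (-1 / 4) (1 / 4) (by norm_num) (by norm_num) (by norm_num) ?_
    intro u hGu h
    linarith [e2 u hGu h.1, h.2]
  by_cases e3 : ∃ u, Good3 k c s n n' R u ∧ (3 / 2 ≤ R * (u - m) ∧ R * (u - m) ≤ 2)
  swap
  · push Not at e3
    refine key (3 / 2) 2 (by norm_num) le_rfl (by norm_num) ?_
    intro u hGu h
    linarith [e3 u hGu h.1, h.2]
  obtain ⟨u1, g1, l1, r1⟩ := e1
  obtain ⟨u2, g2, l2, r2⟩ := e2
  obtain ⟨u3, g3, l3, r3⟩ := e3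
  have K1 := K0 u1 (by rw [abs_le]; constructor <;> linarith) g1
  have K2 := K0 u2 (by rw [abs_le]; constructor <;> linarith) g2
  have K3 := K0 u3 (by rw [abs_le]; constructor <;> linarith) g3
  refine le_trans (ENNReal.ofReal_le_ofReal ?_)
    ((hk1 k hkk1 c s n n' m R lam q0 q1 q2 hlam hC).trans (measure_mono ?_))
  · exact div_le_div_of_nonneg_right (min_le_left _ _) hR0.le
  rintro t ⟨ht, hbad⟩
  refine ⟨ht, ?_⟩
  intro u hu hGu
  have ht3 : |t - m| ≤ 3 / R := ht.trans (by gcongr; norm_num)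
  have hRt : |R * (t - m)| ≤ 2 := by
    rw [abs_mul, abs_of_pos hR0]
    rw [le_div_iff₀ hR0] at ht
    linarith
  have hRu : |R * (u - t)| ≤ δ := by
    rw [abs_mul, abs_of_pos hR0]
    rw [le_div_iff₀ hR0] at hu
    linarith
  have hRu3 : |R * (u - m)| ≤ 3 := by
    rw [abs_le] at hRt hRu ⊢
    constructor <;> nlinarith [hRt.1, hRt.2, hRu.1, hRu.2]
  have hu3 : |u - m| ≤ 3 / R := by
    rw [le_div_iff₀ hR0]
    rw [abs_mul, abs_of_pos hR0] at hRu3
    linarith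
  have hT := (transfer hκ hk hδ hlam2 hC cc1 cc2 cc3 ht3 hu3 hu hGu).2
  have hql := quad_lip (K := 41 * κ) (by positivity) l1 r1 l2 r2 l3 r3 K1 K2 K3
    (x := R * (t - m)) (y := R * (u - m)) (by linarith) hRu3
  have hdiff : |R * (t - m) - R * (u - m)| ≤ δ := by
    have e : R * (t - m) - R * (u - m) = -(R * (u - t)) := by ring
    rw [e, abs_neg]
    exact hRu
  have hq : |(q0 + q1 * (R * (t - m)) + q2 * (R * (t - m)) ^ 2) -
        (q0 + q1 * (R * (u - m)) + q2 * (R * (u - m)) ^ 2)| ≤ 820 * κ * δ := by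
    refine hql.trans ?_
    calc 20 * (41 * κ) * |R * (t - m) - R * (u - m)| ≤ 20 * (41 * κ) * δ := by gcongr
      _ = 820 * κ * δ := by ring
  obtain ⟨T1, T2⟩ := hT hq
  rcases hbad with h | h
  · exact absurd T1 (not_le.mpr h)
  · exact absurd T2 (not_le.mpr h)

end Crest.Agent.R128.Loc
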