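import Crest.Agent.R128.LocDef

/-!
# Row 128, node V5-LOC, sub-case of `LocB` (helper209): the quadratic part of the content is large

If one of the coefficients `q0, q1, q2` of the content is at least `k`, the good points of the cell
lie in two short intervals (a quadratic polynomial which is small at three separated points has small
coefficients).  No roughness is needed in this case.
-/

set_option autoImplicit false

open Metric MeasureTheory
open Crest.Agent.R128 Crest.Agent.R128.Cell Crest.Agent.R128.CellB Crest.Agent.R128.CellDy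
open Crest.Agent.R128.Loc

namespace Crest.Agent.R128.LocBig

/-- three points with gaps `≥ 1/8` in `[-5/2, 5/2]` control the coefficients of a quadratic -/
theorem coef_le {q0 q1 q2 A x y z : ℝ} (hA : 0 ≤ A) (hx : |x| ≤ 5 / 2) (hy : |y| ≤ 5 / 2)
    (hxy : 1 / 8 ≤ |x - y|) (hxz : 1 / 8 ≤ |x - z|) (hyz : 1 / 8 ≤ |y - z|)
    (h1 : |q0 + q1 * x + q2 * x ^ 2| ≤ A) (h2 : |q0 + q1 * y + q2 * y ^ 2| ≤ A)
    (h3 : |q0 + q1 * z + q2 * z ^ 2| ≤ A) :
    |q2| ≤ 256 * A ∧ |q1| ≤ 1300 * A ∧ |q0| ≤ 6000 * A := by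
  -- divided differences
  have e1 : q1 + q2 * (x + y) =
      ((q0 + q1 * x + q2 * x ^ 2) - (q0 + q1 * y + q2 * y ^ 2)) / (x - y) := by
    have : x - y ≠ 0 := by
      intro h; rw [h, abs_zero] at hxy; norm_num at hxy
    field_simp
    ring
  have e2 : q1 + q2 * (x + z) =
      ((q0 + q1 * x + q2 * x ^ 2) - (q0 + q1 * z + q2 * z ^ 2)) / (x - z) := by
    have : x - z ≠ 0 := by
      intro h; rw [h, abs_zero] at hxz; norm_num at hxz
    field_simp
    ring
  have b1 : |q1 + q2 * (x + y)| ≤ 16 * A := by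
    rw [e1, abs_div, div_le_iff₀ (by linarith)]
    calc |(q0 + q1 * x + q2 * x ^ 2) - (q0 + q1 * y + q2 * y ^ 2)| ≤ A + A :=
          (abs_sub _ _).trans (add_le_add h1 h2)
      _ ≤ 16 * A * |x - y| := by nlinarith
  have b2 : |q1 + q2 * (x + z)| ≤ 16 * A := by
    rw [e2, abs_div, div_le_iff₀ (by linarith)]
    calc |(q0 + q1 * x + q2 * x ^ 2) - (q0 + q1 * z + q2 * z ^ 2)| ≤ A + A :=
          (abs_sub _ _).trans (add_le_add h1 h3)
      _ ≤ 16 * A * |x - z| := by nlinarith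
  have c2 : |q2| ≤ 256 * A := by
    have e3 : q2 = ((q1 + q2 * (x + y)) - (q1 + q2 * (x + z))) / (y - z) := by
      have : y - z ≠ 0 := by
        intro h; rw [h, abs_zero] at hyz; norm_num at hyz
      field_simp
      ring
    rw [e3, abs_div, div_le_iff₀ (by linarith)]
    calc |(q1 + q2 * (x + y)) - (q1 + q2 * (x + z))| ≤ 16 * A + 16 * A :=
          (abs_sub _ _).trans (add_le_add b1 b2)
      _ ≤ 256 * A * |y - z| := by nlinarith
  have c1 : |q1| ≤ 1300 * A := by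
    have e4 : q1 = (q1 + q2 * (x + y)) - q2 * (x + y) := by ring
    have : |q2 * (x + y)| ≤ 256 * A * 5 := by
      rw [abs_mul]
      have hxy' : |x + y| ≤ 5 := (abs_add_le _ _).trans (by linarith)
      exact mul_le_mul c2 hxy' (abs_nonneg _) (by linarith)
    rw [e4]
    exact (abs_sub _ _).trans (by linarith)
  refine ⟨c2, c1, ?_⟩
  have e5 : q0 = (q0 + q1 * x + q2 * x ^ 2) - (q1 * x + q2 * x ^ 2) := by ring
  have t1 : |q1 * x| ≤ 1300 * A * (5 / 2) := by
    rw [abs_mul]; exact mul_le_mul c1 hx (abs_nonneg _) (by linarith)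
  have t2 : |q2 * x ^ 2| ≤ 256 * A * (25 / 4) := by
    rw [abs_mul, abs_pow]
    have : |x| ^ 2 ≤ 25 / 4 := by nlinarith [abs_nonneg x]
    exact mul_le_mul c2 this (by positivity) (by linarith)
  rw [e5]
  calc |(q0 + q1 * x + q2 * x ^ 2) - (q1 * x + q2 * x ^ 2)|
      ≤ |q0 + q1 * x + q2 * x ^ 2| + |q1 * x + q2 * x ^ 2| := abs_sub _ _
    _ ≤ A + (|q1 * x| + |q2 * x ^ 2|) := add_le_add h1 (abs_add_le _ _)
    _ ≤ 6000 * A := by linarith

/-- a set of reals in which any three points of `[a-ρ', a+ρ']` have two at distance `< δ`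
is covered by two balls -/
theorem two_balls {S : Set ℝ} {δ : ℝ}
    (h : ∀ x ∈ S, ∀ y ∈ S, ∀ z ∈ S, δ ≤ |x - y| → δ ≤ |x - z| → δ ≤ |y - z| → False) :
    ∃ x y : ℝ, ∀ z ∈ S, |z - x| ≤ δ ∨ |z - y| ≤ δ := by
  by_cases hS : ∃ x, x ∈ S
  · obtain ⟨x, hx⟩ := hS
    by_cases hy : ∃ y ∈ S, δ ≤ |x - y|
    · obtain ⟨y, hy, hxy⟩ := hy
      refine ⟨x, y, fun z hz => ?_⟩
      by_contra hcon
      push Not at hcon
      exact h x hx y hy z hz hxy (by rw [abs_sub_comm]; exact hcon.1.le)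
        (by rw [abs_sub_comm]; exact hcon.2.le)
    · push Not at hy
      refine ⟨x, x, fun z hz => Or.inl ?_⟩
      rw [abs_sub_comm]
      exact (hy z hz).le
  · push Not at hS
    exact ⟨0, 0, fun z hz => absurd hz (hS z)⟩

theorem rpow_big {k : ℝ} (hk : 10 ^ 12 ≤ k) : 10 ^ 8 ≤ k ^ (2 / 3 : ℝ) := by
  have h1 : ((10 : ℝ) ^ (12 : ℕ)) ^ (2 / 3 : ℝ) = 10 ^ (8 : ℕ) := by
    rw [← Real.rpow_natCast, ← Real.rpow_natCast, ← Real.rpow_mul (by norm_num)]
    norm_num
  rw [← h1]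
  exact Real.rpow_le_rpow (by norm_num) hk (by norm_num)

theorem D_add_two (k c : ℝ) (s : Bool) (z : ℂ) (n : ℕ) :
    D k c s (n + 2) z = dg k c s z (n + 1) * D k c s (n + 1) z - D k c s n z := by
  rw [← Q_dg, ← Q_dg, ← Q_dg, Align.Q_add_two]

theorem mu_step (k c : ℝ) (s : Bool) (z : ℂ) (n : ℕ) (h0 : D k c s n z ≠ 0)
    (h1 : D k c s (n + 1) z ≠ 0) :
    mu k c s (n + 1) z - mu k c s n z = 1 / (D k c s n z * D k c s (n + 1) z) := by
  unfold mu
  rw [Align.mu_succ_sub (by rwa [Q_dg]) (by rwa [Q_dg]), Q_dg, Q_dg]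

/-- one side: `2 π k R² / (D_{n+1} D_{n+2})` is at most `51 k / k^{2/3}` -/
theorem side_le {k R L w : ℝ} {a b d g : ℂ} (hk : 0 < k) (hR : 0 < R) (hL : 1 ≤ L) (hw : 2 ≤ w)
    (hg : w ≤ ‖g‖) (ha : L * R / 2 ≤ ‖a‖) (hb : ‖b‖ ≤ L * R / 2) (hd : d = g * a - b) :
    d ≠ 0 ∧ a ≠ 0 ∧ ‖(2 * Real.pi * k * R ^ 2 : ℝ) * (1 / (a * d))‖ ≤ 51 * (k / w) := by
  have hLR : 0 < L * R := by positivity
  have ha0 : 0 < ‖a‖ := lt_of_lt_of_le (by positivity) ha
  have hw0 : 0 < w := by linarith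
  have hdn : w * (L * R) / 4 ≤ ‖d‖ := by
    rw [hd]
    have h1 : ‖g * a‖ - ‖b‖ ≤ ‖g * a - b‖ := norm_sub_norm_le _ _
    have h2 : w * (L * R / 2) ≤ ‖g * a‖ := by
      rw [norm_mul]
      exact mul_le_mul hg ha (by positivity) (by linarith)
    nlinarith
  have hd0 : 0 < ‖d‖ := lt_of_lt_of_le (by positivity) hdn
  refine ⟨norm_pos_iff.mp hd0, norm_pos_iff.mp ha0, ?_⟩
  rw [norm_mul, norm_div, norm_one, norm_mul, Complex.norm_real, Real.norm_eq_abs,
    abs_of_pos (by positivity)]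
  have hR2 : w * R ^ 2 / 8 ≤ ‖a‖ * ‖d‖ := by
    calc w * R ^ 2 / 8 ≤ (L * R / 2) * (w * (L * R) / 4) := by
          have : 1 ≤ L ^ 2 := by nlinarith
          have h3 : w * R ^ 2 ≤ w * R ^ 2 * L ^ 2 := le_mul_of_one_le_right (by positivity) this
          nlinarith
      _ ≤ ‖a‖ * ‖d‖ := mul_le_mul ha hdn (by positivity) ha0.le
  have hpi : Real.pi < 3.15 := Real.pi_lt_d2
  calc 2 * Real.pi * k * R ^ 2 * (1 / (‖a‖ * ‖d‖))
      ≤ 2 * Real.pi * k * R ^ 2 * (1 / (w * R ^ 2 / 8)) := by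
        gcongr
    _ = 16 * Real.pi * (k / w) := by
        field_simp
        ring
    _ ≤ 51 * (k / w) := by
        have : 0 < k / w := by positivity
        nlinarith

/-- at a good point of the cell the quadratic part is `≤ 102 k / k^{2/3} + 1` -/
theorem quad_le {k c : ℝ} {s : Bool} {n n' : ℕ} {m R lam C1 C q0 q1 q2 u : ℝ} (hC : 1 ≤ C)
    (hC1 : C1 ≤ C) (hk : 10 ^ 12 ≤ k) (hkC : 4 * C ^ 4 ≤ k) (hlam : |lam| ≤ C1 * Real.sqrt k)
    (H : Cell3 k c s n n' m R lam C1 q0 q1 q2) (hu : |u - m| < 4 / R)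
    (hG : Good3 k c s n n' R u) :
    |q0 + q1 * (R * (u - m)) + q2 * (R * (u - m)) ^ 2| ≤ 102 * (k / k ^ (2 / 3 : ℝ)) + 1 := by
  have hk0 : 0 < k := by linarith [show (0 : ℝ) < 10 ^ 12 by norm_num]
  have hR0 : 0 < R := by linarith [H.hR]
  have hw := rpow_big hk
  set w : ℝ := k ^ (2 / 3 : ℝ) with hwdef
  have hub : (u : ℂ) ∈ ball (m : ℂ) (4 / R) := by
    rw [mem_ball, dist_eq_norm, ← Complex.ofReal_sub, Complex.norm_real, Real.norm_eq_abs]
    exact hu
  have hsq : Real.sqrt k * Real.sqrt k = k := Real.mul_self_sqrt hk0.le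
  have hsq0 : 0 < Real.sqrt k := Real.sqrt_pos.mpr hk0
  have hsqC : 2 * C ^ 2 ≤ Real.sqrt k := by
    apply Real.le_sqrt_of_sq_le
    nlinarith
  have hlamC : |lam| ≤ C * Real.sqrt k := hlam.trans (by gcongr)
  have hl0 : 0 < |lam| := by linarith [H.hlam]
  have hCk : 2 * C ≤ k := by nlinarith [pow_le_pow_right₀ hC (show 1 ≤ 4 by norm_num)]
  -- slow side
  obtain ⟨σ, hσ, hslow⟩ := H.slow
  have hσn : ‖((σ * R : ℝ) : ℂ)‖ = R := by
    rw [Complex.norm_real, Real.norm_eq_abs, abs_mul, abs_of_pos hR0]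
    rcases hσ with h | h <;> rw [h] <;> simp
  have hCR : C1 * R / k ≤ R / 2 := by
    rw [div_le_div_iff₀ hk0 two_pos]
    nlinarith
  have a1 : 1 * R / 2 ≤ ‖D k c s (n + 1) u‖ := by
    have h1 := norm_sub_norm_le ((σ * R : ℝ) : ℂ) (((σ * R : ℝ) : ℂ) - D k c s (n + 1) u)
    rw [sub_sub_cancel, hσn, norm_sub_rev] at h1
    have h2 := hslow u hub
    linarith
  have b1 : ‖D k c s n u‖ ≤ 1 * R / 2 := by
    have := H.slow0 u hub
    linarith
  have g1 : w ≤ ‖dg k c s u (n + 1)‖ := by simpa using hG.reg 0 (by norm_num)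
  obtain ⟨d0, a0, s1⟩ := side_le (L := 1) hk0 hR0 le_rfl (by linarith) g1 a1 b1
    (D_add_two k c s u n)
  -- fast side
  have hln : ‖((lam * R : ℝ) : ℂ)‖ = |lam| * R := by
    rw [Complex.norm_real, Real.norm_eq_abs, abs_mul, abs_of_pos hR0]
  have hlk : C1 * |lam| ≤ k / 2 := by
    calc C1 * |lam| ≤ C * (C * Real.sqrt k) := by
          have h1 : C1 * |lam| ≤ C * |lam| := by gcongr
          have h2 : C * |lam| ≤ C * (C * Real.sqrt k) := by gcongr
          linarith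
      _ ≤ k / 2 := by nlinarith
  have a1' : |lam| * R / 2 ≤ ‖D k c (!s) (n' + 1) u‖ := by
    have h1 := norm_sub_norm_le ((lam * R : ℝ) : ℂ)
      (((lam * R : ℝ) : ℂ) - D k c (!s) (n' + 1) u)
    rw [sub_sub_cancel, hln, norm_sub_rev] at h1
    have h2 := H.fast u hub
    have h3 : C1 * |lam| ^ 2 * R / k ≤ |lam| * R / 2 := by
      rw [div_le_div_iff₀ hk0 two_pos]
      have : C1 * |lam| ^ 2 * R * 2 = (C1 * |lam|) * (2 * |lam| * R) := by ring
      rw [this]
      have h4 : (C1 * |lam|) * (2 * |lam| * R) ≤ (k / 2) * (2 * |lam| * R) := by gcongr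
      linarith
    linarith
  have b1' : ‖D k c (!s) n' u‖ ≤ |lam| * R / 2 := by
    have h2 := H.fast0 u hub
    have h3 : C1 * |lam| * R / k ≤ |lam| * R / 2 := by
      rw [div_le_div_iff₀ hk0 two_pos]
      have h5 : C1 * |lam| ≤ C * |lam| := by gcongr
      have h4 : C1 * |lam| * R * 2 ≤ C * |lam| * R * 2 := by gcongr
      have h6 : 0 < |lam| * R := by positivity
      nlinarith
    linarith
  have g1' : w ≤ ‖dg k c (!s) u (n' + 1)‖ := by simpa using hG.reg' 0 (by norm_num)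
  obtain ⟨d0', a0', s1'⟩ := side_le (L := |lam|) hk0 hR0 H.hlam (by linarith) g1' a1' b1'
    (D_add_two k c (!s) u n')
  -- content
  have hc : cont k c s (n + 1) (n' + 1) u = cont k c s (n + 2) (n' + 2) u +
      1 / (D k c s (n + 1) u * D k c s (n + 2) u) +
      1 / (D k c (!s) (n' + 1) u * D k c (!s) (n' + 2) u) := by
    have e1 := mu_step k c s u (n + 1) a0 d0
    have e2 := mu_step k c (!s) u (n' + 1) a0' d0'
    rw [← e1, ← e2]
    unfold cont
    ring
  have hq := H.quad u hub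
  have hal := hG.al1
  have hpk : 0 < 2 * Real.pi * k * R ^ 2 := by positivity
  have hreal : (q0 : ℂ) + q1 * ((R : ℂ) * ((u : ℂ) - m)) + q2 * ((R : ℂ) * ((u : ℂ) - m)) ^ 2 =
      ((q0 + q1 * (R * (u - m)) + q2 * (R * (u - m)) ^ 2 : ℝ) : ℂ) := by
    push_cast; ring
  rw [hreal] at hq
  rw [← Real.norm_eq_abs, ← Complex.norm_real]
  have hal' : ‖(2 * Real.pi * k * R ^ 2 : ℝ) * cont k c s (n + 2) (n' + 2) u‖ ≤ 1 / 8 := by
    rw [norm_mul, Complex.norm_real, Real.norm_eq_abs, abs_of_pos hpk]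
    exact hal
  set X : ℂ := ((q0 + q1 * (R * (u - m)) + q2 * (R * (u - m)) ^ 2 : ℝ) : ℂ) with hX
  set E : ℂ := ((2 * Real.pi * k * R ^ 2 : ℝ) : ℂ) with hE
  have hXe : X = -(E * cont k c s (n + 1) (n' + 1) u - X) + (E * cont k c s (n + 2) (n' + 2) u +
      E * (1 / (D k c s (n + 1) u * D k c s (n + 2) u)) +
      E * (1 / (D k c (!s) (n' + 1) u * D k c (!s) (n' + 2) u))) := by
    rw [hc]; ring
  rw [hXe]
  refine (norm_add_le _ _).trans ?_
  rw [norm_neg]
  have t1 := norm_add_le (E * cont k c s (n + 2) (n' + 2) u +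
      E * (1 / (D k c s (n + 1) u * D k c s (n + 2) u)))
      (E * (1 / (D k c (!s) (n' + 1) u * D k c (!s) (n' + 2) u)))
  have t2 := norm_add_le (E * cont k c s (n + 2) (n' + 2) u)
      (E * (1 / (D k c s (n + 1) u * D k c s (n + 2) u)))
  linarith

/-- **LocB when the quadratic part is large.** -/
theorem big (C1 : ℝ) : ∃ k1 : ℝ, ∀ k : ℝ, k1 ≤ k →
    ∀ (c : ℝ) (s : Bool) (n n' : ℕ) (m R lam q0 q1 q2 : ℝ),
      |lam| ≤ C1 * Real.sqrt k → Cell3 k c s n n' m R lam C1 q0 q1 q2 →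
      k ≤ max |q0| (max |q1| |q2|) →
      ENNReal.ofReal (1 / R) ≤ volume {t : ℝ | |t - m| ≤ 2 / R ∧
        ∀ u : ℝ, |u - t| ≤ 1 / (k ^ 6 * R) → ¬ Good3 k c s n n' R u} := by
  set C : ℝ := max C1 1 with hCdef
  refine ⟨max (10 ^ 12) (4 * C ^ 4), fun k hk c s n n' m R lam q0 q1 q2 hlam H hq => ?_⟩
  have hk12 : 10 ^ 12 ≤ k := (le_max_left _ _).trans hk
  have hkC : 4 * C ^ 4 ≤ k := (le_max_right _ _).trans hk
  have hC : 1 ≤ C := le_max_right _ _
  have hC1 : C1 ≤ C := le_max_left _ _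
  have hk0 : 0 < k := by linarith [show (0 : ℝ) < 10 ^ 12 by norm_num]
  have hR0 : 0 < R := by linarith [H.hR]
  have hw := rpow_big hk12
  have hk6 : 1 / k ^ 6 ≤ 1 / 16 := by
    apply one_div_le_one_div_of_le (by norm_num)
    calc (16 : ℝ) ≤ k := by linarith [show (16 : ℝ) ≤ 10 ^ 12 by norm_num]
      _ ≤ k ^ 6 := le_self_pow₀ (by linarith [show (1 : ℝ) ≤ 10 ^ 12 by norm_num]) (by norm_num)
  have hk6' : 1 / (k ^ 6 * R) = (1 / k ^ 6) / R := by rw [div_div]
  set A : ℝ := 102 * (k / k ^ (2 / 3 : ℝ)) + 1 with hA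
  have hw0 : 0 < k ^ (2 / 3 : ℝ) := by linarith [show (0 : ℝ) < 10 ^ 8 by norm_num]
  have hA0 : 0 ≤ A := by positivity
  have hAk : 6000 * A < k := by
    have h1 : k / k ^ (2 / 3 : ℝ) ≤ k / 10 ^ 8 := by gcongr
    rw [hA]
    have h2 : k / 10 ^ 8 * (6000 * 102) ≤ k * (1 / 100) := by
      have : k / 10 ^ 8 * (6000 * 102) = k * (612000 / 10 ^ 8) := by ring
      rw [this]
      exact mul_le_mul_of_nonneg_left (by norm_num) hk0.le
    have h3 : (6000 : ℝ) ≤ k * (1 / 100) := by linarith [show (600000 : ℝ) ≤ 10 ^ 12 by norm_num]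
    linarith
  -- the good points in the coordinate of the cell
  obtain ⟨x0, y0, hxy⟩ := two_balls (S := {x : ℝ | |x| ≤ 5 / 2 ∧ Good3 k c s n n' R (m + x / R)})
    (δ := 1 / 8) (by
      intro x hx y hy z hz h1 h2 h3
      have key : ∀ v : ℝ, |v| ≤ 5 / 2 → Good3 k c s n n' R (m + v / R) →
          |q0 + q1 * v + q2 * v ^ 2| ≤ A := by
        intro v hv hg
        have hvR : R * (m + v / R - m) = v := by field_simp; ring
        have := quad_le (u := m + v / R) hC hC1 hk12 hkC hlam H (by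
          rw [add_sub_cancel_left, abs_div, abs_of_pos hR0]
          gcongr
          linarith) hg
        rwa [hvR] at this
      obtain ⟨c2, c1, c0⟩ := coef_le hA0 hx.1 hy.1 h1 h2 h3 (key x hx.1 hx.2) (key y hy.1 hy.2)
        (key z hz.1 hz.2)
      have : max |q0| (max |q1| |q2|) ≤ 6000 * A :=
        max_le c0 (max_le (c1.trans (by linarith)) (c2.trans (by linarith)))
      linarith)
  have hsub : closedBall m (2 / R) \
      (closedBall (m + x0 / R) (3 / 16 / R) ∪ closedBall (m + y0 / R) (3 / 16 / R)) ⊆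
      {t : ℝ | |t - m| ≤ 2 / R ∧
        ∀ u : ℝ, |u - t| ≤ 1 / (k ^ 6 * R) → ¬ Good3 k c s n n' R u} := by
    rintro t ⟨ht, ht2⟩
    rw [mem_closedBall, Real.dist_eq] at ht
    refine ⟨ht, fun u hu hg => ht2 ?_⟩
    rw [hk6'] at hu
    set x : ℝ := R * (u - m) with hx
    have hux : m + x / R = u := by rw [hx]; field_simp; ring
    have hRt : |R * (t - m)| ≤ 2 := by
      rw [abs_mul, abs_of_pos hR0]
      calc R * |t - m| ≤ R * (2 / R) := by gcongr
        _ = 2 := by field_simp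
    have hRut : |R * (u - t)| ≤ 1 / 16 := by
      rw [abs_mul, abs_of_pos hR0]
      calc R * |u - t| ≤ R * (1 / k ^ 6 / R) := by gcongr
        _ = 1 / k ^ 6 := by field_simp
        _ ≤ 1 / 16 := hk6
    have hx5 : |x| ≤ 5 / 2 := by
      have e : x = R * (t - m) + R * (u - t) := by rw [hx]; ring
      rw [e]
      exact (abs_add_le _ _).trans (by linarith)
    have key : ∀ w0 : ℝ, |x - w0| ≤ 1 / 8 → t ∈ closedBall (m + w0 / R) (3 / 16 / R) := by
      intro w0 hw0'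
      rw [mem_closedBall, Real.dist_eq, le_div_iff₀ hR0, ← abs_of_pos hR0, ← abs_mul,
        abs_of_pos hR0]
      have e : (t - (m + w0 / R)) * R = (x - w0) - R * (u - t) := by
        rw [hx]; field_simp; ring
      rw [e]
      exact (abs_sub _ _).trans (by linarith)
    rcases hxy x ⟨hx5, by rw [hux]; exact hg⟩ with h | h
    · exact Or.inl (key x0 h)
    · exact Or.inr (key y0 h)
  refine le_trans ?_ (measure_mono hsub)
  refine le_trans ?_ le_measure_sdiff
  have hv1 : volume (closedBall m (2 / R)) = ENNReal.ofReal (4 / R) := by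
    rw [Real.volume_closedBall]; congr 1; ring
  have hv2 : volume (closedBall (m + x0 / R) (3 / 16 / R) ∪ closedBall (m + y0 / R) (3 / 16 / R)) ≤
      ENNReal.ofReal (1 / R) := by
    refine (measure_union_le _ _).trans ?_
    rw [Real.volume_closedBall, Real.volume_closedBall, ← ENNReal.ofReal_add (by positivity)
      (by positivity)]
    apply ENNReal.ofReal_le_ofReal
    rw [le_div_iff₀ hR0]
    have : (2 * (3 / 16 / R) + 2 * (3 / 16 / R)) * R = 3 / 4 := by field_simp; norm_num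
    linarith
  rw [hv1]
  calc ENNReal.ofReal (1 / R) ≤ ENNReal.ofReal (4 / R) - ENNReal.ofReal (1 / R) := by
        rw [← ENNReal.ofReal_sub _ (by positivity)]
        apply ENNReal.ofReal_le_ofReal
        have : 4 / R - 1 / R = 3 * (1 / R) := by ring
        rw [this]
        have : 0 < 1 / R := by positivity
        linarith
    _ ≤ _ := tsub_le_tsub_left hv2 _

end Crest.Agent.R128.LocBig
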