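/-
R128, node CSTEP part 1: local constancy of holomorphic vector valued families.
Off a set of real points of measure `≤ C n² r` (`n` = logarithmic growth), the family is nearly
constant on the complex disc of radius `c r / n²` about the point, relative to its norm there.
-/
import Crest.Agent.R128.Comp
import Crest.Agent.R128.Markov

open Complex Metric Set

namespace Crest.Agent.R128.LocConst

/-- Taylor polynomial approximation on the half disc. -/
theorem taylor_poly {f : ℂ → ℂ} {c : ℂ} {R B : ℝ} (hR : 0 < R)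
    (hf : DifferentiableOn ℂ f (closedBall c (2 * R)))
    (hB : ∀ z ∈ closedBall c (2 * R), ‖f z‖ ≤ B) (m : ℕ) :
    ∃ P : Polynomial ℂ, P.natDegree ≤ m ∧
      ∀ z ∈ closedBall c R, ‖f z - P.eval z‖ ≤ B / 2 ^ m := by
  classical
  have hB0 : 0 ≤ B := (norm_nonneg _).trans (hB c (mem_closedBall_self (by linarith)))
  have hcoef : ∀ n : ℕ, ‖iteratedDeriv n f c‖ ≤ n.factorial * B / (2 * R) ^ n := fun n =>
    Complex.norm_iteratedDeriv_le_of_forall_mem_sphere_norm_le n (by linarith)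
      (by
        apply DifferentiableOn.diffContOnCl
        rw [closure_ball c (by linarith : (2 * R : ℝ) ≠ 0)]
        exact hf)
      (fun z hz => hB z (sphere_subset_closedBall hz))
  set a : ℕ → ℂ := fun n => (n.factorial : ℂ)⁻¹ * iteratedDeriv n f c with ha
  have han : ∀ n, ‖a n‖ ≤ B / (2 * R) ^ n := by
    intro n
    simp only [ha]
    rw [norm_mul, norm_inv, Complex.norm_natCast]
    have h1 := hcoef n
    have hfac : (0 : ℝ) < n.factorial := by exact_mod_cast n.factorial_pos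
    calc (n.factorial : ℝ)⁻¹ * ‖iteratedDeriv n f c‖
        ≤ (n.factorial : ℝ)⁻¹ * (n.factorial * B / (2 * R) ^ n) := by gcongr
      _ = B / (2 * R) ^ n := by field_simp
  refine ⟨∑ n ∈ Finset.range (m + 1), Polynomial.C (a n) * (Polynomial.X - Polynomial.C c) ^ n,
    ?_, ?_⟩
  · apply Polynomial.natDegree_sum_le_of_forall_le
    intro n hn
    refine (Polynomial.natDegree_C_mul_le _ _).trans ?_
    refine (Polynomial.natDegree_pow_le).trans ?_
    rw [Polynomial.natDegree_X_sub_C]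
    have := Finset.mem_range.1 hn
    omega
  · intro z hz
    have hz' : ‖z - c‖ ≤ R := by rwa [mem_closedBall, dist_eq_norm] at hz
    have hs : HasSum (fun n : ℕ => a n * (z - c) ^ n) (f z) := by
      have h0 := Complex.hasSum_taylorSeries_on_ball (r := 2 * R) (c := c) (z := z)
        (hf.mono ball_subset_closedBall) (by rw [mem_ball, dist_eq_norm]; linarith)
      have he : (fun n : ℕ => a n * (z - c) ^ n) =
          (fun n : ℕ => (n.factorial : ℂ)⁻¹ • (z - c) ^ n • iteratedDeriv n f c) := by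
        funext n
        rw [smul_eq_mul, smul_eq_mul]
        show (n.factorial : ℂ)⁻¹ * iteratedDeriv n f c * (z - c) ^ n = _
        ring
      rw [he]
      exact h0
    have heval : (∑ n ∈ Finset.range (m + 1),
        Polynomial.C (a n) * (Polynomial.X - Polynomial.C c) ^ n).eval z =
        ∑ n ∈ Finset.range (m + 1), a n * (z - c) ^ n := by
      rw [Polynomial.eval_finsetSum]
      simp
    rw [heval]
    have hterm : ∀ n, ‖a n * (z - c) ^ n‖ ≤ B * (1 / 2) ^ n := by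
      intro n
      rw [norm_mul, norm_pow]
      calc ‖a n‖ * ‖z - c‖ ^ n ≤ B / (2 * R) ^ n * R ^ n := by
            gcongr
            exact han n
        _ = B * (1 / 2) ^ n := by
            rw [mul_pow, div_mul_eq_mul_div, one_div, inv_pow]
            field_simp
    have hsplit := hs.summable.sum_add_tsum_nat_add (m + 1)
    rw [hs.tsum_eq] at hsplit
    rw [← hsplit, add_sub_cancel_left]
    have hgeo : HasSum (fun n : ℕ => B * (1 / 2) ^ (m + 1) * (1 / 2) ^ n)
        (B * (1 / 2) ^ (m + 1) * 2) := by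
      have := (hasSum_geometric_two).mul_left (B * (1 / 2) ^ (m + 1))
      exact this
    have hb : ∀ n : ℕ, ‖a (n + (m + 1)) * (z - c) ^ (n + (m + 1))‖ ≤
        B * (1 / 2) ^ (m + 1) * (1 / 2) ^ n := by
      intro n
      refine (hterm (n + (m + 1))).trans (le_of_eq ?_)
      rw [pow_add]; ring
    have := tsum_of_norm_bounded hgeo hb
    refine this.trans (le_of_eq ?_)
    rw [pow_succ, one_div, inv_pow]
    field_simp

/-- Two constants: small on a real interval and bounded on a complex disc implies small on a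
smaller complex disc. -/
theorem two_const {f : ℂ → ℂ} {t r B M : ℝ} (hr : 0 < r)
    (hf : DifferentiableOn ℂ f (closedBall (t : ℂ) (2 * r)))
    (hB : ∀ z ∈ closedBall (t : ℂ) (2 * r), ‖f z‖ ≤ B) {m : ℕ} (hm : 1 ≤ m) (hM : 0 < M)
    (hBM : B ≤ M * 2 ^ m) (hreal : ∀ x : ℝ, |x - t| ≤ r → ‖f x‖ ≤ M) {z : ℂ}
    (hz : ‖z - t‖ ≤ r / (m : ℝ) ^ 2) : ‖f z‖ ≤ 42 * M := by
  obtain ⟨P, hP, hfP⟩ := taylor_poly hr hf hB m
  have h2 : (0 : ℝ) < 2 ^ m := by positivity
  have hrem : B / 2 ^ m ≤ M := by rw [div_le_iff₀ h2]; exact hBM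
  have hPreal : ∀ x : ℝ, |x - t| ≤ r → ‖P.eval (x : ℂ)‖ ≤ 2 * M := by
    intro x hx
    have hxm : (x : ℂ) ∈ closedBall (t : ℂ) r := by
      rw [mem_closedBall, dist_eq_norm, ← Complex.ofReal_sub, Complex.norm_real, Real.norm_eq_abs]
      exact hx
    have h1 := hfP x hxm
    have h3 := norm_sub_norm_le (P.eval (x : ℂ)) (f x)
    rw [norm_sub_rev] at h3
    linarith [hreal x hx]
  have hm1 : (1 : ℝ) ≤ (m : ℝ) := by exact_mod_cast hm
  have hzr : r / (m : ℝ) ^ 2 ≤ r := by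
    apply div_le_self hr.le
    nlinarith
  have hPz := Markov.growth P m hm hP (2 * M) t r hr hPreal t (by simp [hr.le]) z hz
  have hzm : z ∈ closedBall (t : ℂ) r := by
    rw [mem_closedBall, dist_eq_norm]; linarith
  have h1 := hfP z hzm
  have h3 := norm_sub_norm_le (f z) (P.eval z)
  have he : Real.exp 3 < 20.5 := by
    have h1 := Real.exp_one_lt_d9
    have h0 : 0 < Real.exp 1 := Real.exp_pos 1
    have : Real.exp 3 = Real.exp 1 ^ 3 := by rw [← Real.exp_nat_mul]; norm_num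
    rw [this]
    have h2 : Real.exp 1 ^ 3 < 2.7182818286 ^ 3 := by gcongr
    refine h2.trans ?_
    norm_num
  have : Real.exp 3 * (2 * M) ≤ 20.5 * (2 * M) := by gcongr
  linarith

theorem log_four_le : Real.log 4 ≤ 7 * Real.log (5 / 4) := by
  have h : Real.log ((5 / 4 : ℝ) ^ 7) = 7 * Real.log (5 / 4) := by
    rw [Real.log_pow]; norm_num
  rw [← h]
  apply Real.log_le_log (by norm_num)
  norm_num

/-- **Local constancy.** Holomorphic family on the disc of radius `4ρ`, bounded by `B`, of norm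
`≥ m` on the real interval of radius `ρ`, `card ι * B² ≤ m² 4^n`. Off a set of measure
`≤ 32 n² r` of real points `t`, the family is constant up to `337 η ‖f t‖` on the complex disc of
radius `η r / n²` about `t`. -/
theorem local_const {ι : Type*} [Fintype ι] {f : ι → ℂ → ℂ} {x0 ρ B m : ℝ} (hρ : 0 < ρ)
    (hf : ∀ i, DifferentiableOn ℂ (f i) (ball (x0 : ℂ) (4 * ρ)))
    (hB : ∀ i, ∀ z ∈ ball (x0 : ℂ) (4 * ρ), ‖f i z‖ ≤ B) (hm : 0 < m)
    (hmin : ∀ t : ℝ, |t - x0| ≤ ρ → m ^ 2 ≤ ∑ i, ‖f i t‖ ^ 2) {r : ℝ} (hr : 0 < r) (hrρ : r ≤ ρ)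
    {n : ℕ} (hn1 : 1 ≤ n) (hn : Fintype.card ι * B ^ 2 ≤ m ^ 2 * 4 ^ n) :
    ∃ S : Set ℝ, MeasurableSet S ∧ MeasureTheory.volume S ≤ ENNReal.ofReal (32 * n ^ 2 * r) ∧
      ∀ t : ℝ, |t - x0| ≤ ρ → t ∉ S →
        (∀ u : ℝ, |u - t| ≤ r → |u - x0| ≤ ρ ∧ ∑ i, ‖f i u‖ ^ 2 ≤ 16 * ∑ i, ‖f i t‖ ^ 2) ∧
        ∀ η : ℝ, 0 ≤ η → η ≤ 1 → ∀ z : ℂ, ‖z - t‖ ≤ η * (r / n ^ 2) → ∀ i,
          ‖f i z - f i t‖ ≤ 337 * η * √(∑ i, ‖f i t‖ ^ 2) := by
  classical
  have hlog : 0 < Real.log (5 / 4) := Real.log_pos (by norm_num)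
  have hmid : (x0 - ρ + (x0 + ρ)) / 2 = x0 := by ring
  have hrad : 2 * (x0 + ρ - (x0 - ρ)) = 4 * ρ := by ring
  have hex : ∀ l : ℕ, ∃ E : Finset (ℝ × ℝ),
      (E.card : ℝ) ≤ 1 + Real.log (max 1 (Fintype.card ι * B ^ 2 / (m * 2 ^ l) ^ 2)) /
        Real.log (5 / 4) ∧
      (∀ p ∈ E, x0 - ρ ≤ p.1 ∧ p.1 ≤ p.2 ∧ p.2 ≤ x0 + ρ) ∧
      (∀ p ∈ E, ∀ q ∈ E, p ≠ q → Disjoint (Icc p.1 p.2) (Icc q.1 q.2)) ∧
      (∀ t : ℝ, t ∈ Icc (x0 - ρ) (x0 + ρ) → ∑ i, ‖f i t‖ ^ 2 ≤ (m * 2 ^ l) ^ 2 →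
        ∃ p ∈ E, t ∈ Icc p.1 p.2) ∧
      (∀ p ∈ E, ∀ t : ℝ, t ∈ Icc p.1 p.2 → ∑ i, ‖f i t‖ ^ 2 ≤ 4 * (m * 2 ^ l) ^ 2) := fun l =>
    Comp.exists_intervals_sumsq (a := x0 - ρ) (b := x0 + ρ) (f := f) (B := B) (s := m * 2 ^ l)
      (by linarith) (by rw [hmid, hrad]; exact hf) (by rw [hmid, hrad]; exact hB) (by positivity)
  choose E hE1 hE2 _hE3 hE4 hE5 using hex
  have hcard : ∀ l, ((E l).card : ℝ) ≤ 8 * n := by
    intro l
    have hn' : (1 : ℝ) ≤ n := by exact_mod_cast hn1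
    have h1 : max 1 (Fintype.card ι * B ^ 2 / (m * 2 ^ l) ^ 2) ≤ (4 : ℝ) ^ n := by
      apply max_le (one_le_pow₀ (by norm_num))
      rw [div_le_iff₀ (by positivity)]
      have h2 : m ^ 2 ≤ (m * 2 ^ l) ^ 2 := by
        have : m ≤ m * 2 ^ l := le_mul_of_one_le_right hm.le (one_le_pow₀ (by norm_num))
        gcongr
      calc (Fintype.card ι : ℝ) * B ^ 2 ≤ m ^ 2 * 4 ^ n := hn
        _ ≤ (m * 2 ^ l) ^ 2 * 4 ^ n := by gcongr
        _ = 4 ^ n * (m * 2 ^ l) ^ 2 := by ring
    have h3 : Real.log (max 1 (Fintype.card ι * B ^ 2 / (m * 2 ^ l) ^ 2)) ≤ n * Real.log 4 := by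
      rw [← Real.log_pow]
      exact Real.log_le_log (lt_of_lt_of_le one_pos (le_max_left _ _)) h1
    have h4 : Real.log (max 1 (Fintype.card ι * B ^ 2 / (m * 2 ^ l) ^ 2)) / Real.log (5 / 4) ≤
        7 * n := by
      rw [div_le_iff₀ hlog]
      calc _ ≤ n * Real.log 4 := h3
        _ ≤ n * (7 * Real.log (5 / 4)) := by gcongr; exact log_four_le
        _ = 7 * n * Real.log (5 / 4) := by ring
    linarith [hE1 l]
  set S : Set ℝ := ⋃ l ∈ Finset.range (n + 1),
    {t : ℝ | ∃ p ∈ E l, t ∈ Icc p.1 p.2 ∧ (t - p.1 ≤ r ∨ p.2 - t ≤ r)} with hS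
  have hSm : MeasurableSet S := by
    rw [hS]
    refine Finset.measurableSet_biUnion _ (fun l _ => ?_)
    have : {t : ℝ | ∃ p ∈ E l, t ∈ Icc p.1 p.2 ∧ (t - p.1 ≤ r ∨ p.2 - t ≤ r)} =
        ⋃ p ∈ E l, (Icc p.1 p.2 ∩ ({t | t - p.1 ≤ r} ∪ {t | p.2 - t ≤ r})) := by
      ext t
      simp only [Set.mem_ofPred_eq, mem_iUnion, mem_inter_iff, mem_union, exists_prop]
    rw [this]
    refine Finset.measurableSet_biUnion _ (fun p _ => ?_)
    refine measurableSet_Icc.inter (MeasurableSet.union ?_ ?_)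
    · exact measurableSet_le (by fun_prop) measurable_const
    · exact measurableSet_le (by fun_prop) measurable_const
  have hn' : (1 : ℝ) ≤ n := by exact_mod_cast hn1
  refine ⟨S, hSm, ?_, ?_⟩
  · calc MeasureTheory.volume S ≤ ∑ l ∈ Finset.range (n + 1), MeasureTheory.volume
          {t : ℝ | ∃ p ∈ E l, t ∈ Icc p.1 p.2 ∧ (t - p.1 ≤ r ∨ p.2 - t ≤ r)} :=
          MeasureTheory.measure_biUnion_finset_le _ _
      _ ≤ ∑ _l ∈ Finset.range (n + 1), ENNReal.ofReal (16 * n * r) := by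
          apply Finset.sum_le_sum
          intro l _
          refine (Comp.volume_near_ends (E l)).trans ?_
          rw [← ENNReal.ofReal_natCast, ← ENNReal.ofReal_mul (Nat.cast_nonneg _)]
          apply ENNReal.ofReal_le_ofReal
          have := hcard l
          nlinarith
      _ = ENNReal.ofReal ((n + 1) * (16 * n * r)) := by
          rw [Finset.sum_const, Finset.card_range, nsmul_eq_mul, ← ENNReal.ofReal_natCast,
            ← ENNReal.ofReal_mul (Nat.cast_nonneg _)]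
          push_cast; rfl
      _ ≤ ENNReal.ofReal (32 * n ^ 2 * r) := by
          apply ENNReal.ofReal_le_ofReal
          have h1 : ((n : ℝ) + 1) ≤ 2 * n := by linarith
          have h2 : 0 ≤ 16 * n * r := by positivity
          calc ((n : ℝ) + 1) * (16 * n * r) ≤ 2 * n * (16 * n * r) := by gcongr
            _ = 32 * n ^ 2 * r := by ring
  · intro t ht htS
    have htI : t ∈ Icc (x0 - ρ) (x0 + ρ) := by
      rw [abs_le] at ht; constructor <;> linarith [ht.1, ht.2]
    set F : ℝ → ℝ := fun u => ∑ i, ‖f i u‖ ^ 2 with hF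
    have hFm : m ^ 2 ≤ F t := hmin t ht
    have hFpos : 0 < F t := lt_of_lt_of_le (by positivity) hFm
    have htball : ∀ u : ℝ, |u - x0| ≤ ρ → (u : ℂ) ∈ ball (x0 : ℂ) (4 * ρ) := by
      intro u hu
      rw [mem_ball, dist_eq_norm, ← Complex.ofReal_sub, Complex.norm_real, Real.norm_eq_abs]
      linarith
    -- the minimal threshold
    have hexl : ∃ l, F t ≤ (m * 2 ^ l) ^ 2 := by
      refine ⟨n, ?_⟩
      calc F t ≤ ∑ _i : ι, B ^ 2 := by
            apply Finset.sum_le_sum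
            intro i _
            have := hB i t (htball t ht)
            gcongr
        _ = Fintype.card ι * B ^ 2 := by rw [Finset.sum_const, Finset.card_univ, nsmul_eq_mul]
        _ ≤ m ^ 2 * 4 ^ n := hn
        _ = (m * 2 ^ n) ^ 2 := by rw [mul_pow, ← pow_mul, mul_comm n 2, pow_mul]; norm_num
    have hFn : F t ≤ (m * 2 ^ n) ^ 2 := by
      calc F t ≤ ∑ _i : ι, B ^ 2 := by
            apply Finset.sum_le_sum
            intro i _
            have := hB i t (htball t ht)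
            gcongr
        _ = Fintype.card ι * B ^ 2 := by rw [Finset.sum_const, Finset.card_univ, nsmul_eq_mul]
        _ ≤ m ^ 2 * 4 ^ n := hn
        _ = (m * 2 ^ n) ^ 2 := by rw [mul_pow, ← pow_mul, mul_comm n 2, pow_mul]; norm_num
    set l := Nat.find hexl with hl
    have hl1 : F t ≤ (m * 2 ^ l) ^ 2 := Nat.find_spec hexl
    have hln : l ≤ n := Nat.find_min' hexl hFn
    have hl2 : (m * 2 ^ l) ^ 2 ≤ 4 * F t := by
      rcases Nat.eq_zero_or_pos l with h0 | h0
      · rw [h0]; simp only [pow_zero, mul_one]; nlinarith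
      · obtain ⟨l', hl'⟩ : ∃ l', l = l' + 1 := ⟨l - 1, by omega⟩
        have := Nat.find_min hexl (m := l') (by omega)
        push Not at this
        have h5 : (m * 2 ^ (l' + 1)) ^ 2 = 4 * (m * 2 ^ l') ^ 2 := by rw [pow_succ]; ring
        rw [hl', h5]
        linarith
    obtain ⟨p, hp, htp⟩ := hE4 l t htI hl1
    have hnot : ¬ (t - p.1 ≤ r ∨ p.2 - t ≤ r) := by
      intro h
      apply htS
      rw [hS]
      exact mem_iUnion₂.2 ⟨l, Finset.mem_range.2 (by omega), ⟨p, hp, htp, h⟩⟩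
    push Not at hnot
    have hreal : ∀ u : ℝ, |u - t| ≤ r → |u - x0| ≤ ρ ∧ F u ≤ 16 * F t := by
      intro u hu
      rw [abs_le] at hu
      have hup : u ∈ Icc p.1 p.2 := ⟨by linarith [hnot.1], by linarith [hnot.2]⟩
      have h2 := hE2 l p hp
      refine ⟨?_, ?_⟩
      · rw [abs_le]; constructor <;> linarith [hup.1, hup.2]
      · have h1 := hE5 l p hp u hup
        simp only [hF]
        simp only [hF] at hl2
        linarith
    refine ⟨hreal, ?_⟩
    intro η hη0 hη1 z hz i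
    have hFsq : √(F t) ^ 2 = F t := Real.sq_sqrt hFpos.le
    have hNpos : 0 < √(F t) := Real.sqrt_pos.2 hFpos
    set N := √(F t) with hN
    have hmN : m ≤ N := by
      rw [hN]; exact Real.le_sqrt_of_sq_le hFm
    have hcb : closedBall (t : ℂ) (2 * r) ⊆ ball (x0 : ℂ) (4 * ρ) := by
      apply closedBall_subset_ball'
      rw [dist_eq_norm, ← Complex.ofReal_sub, Complex.norm_real, Real.norm_eq_abs]
      linarith
    have hBi : B ≤ 4 * N * 2 ^ n := by
      have hc1 : (1 : ℝ) ≤ Fintype.card ι := by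
        exact_mod_cast Fintype.card_pos_iff.2 ⟨i⟩
      have h1 : B ^ 2 ≤ (m * 2 ^ n) ^ 2 := by
        calc B ^ 2 ≤ Fintype.card ι * B ^ 2 := le_mul_of_one_le_left (sq_nonneg _) hc1
          _ ≤ m ^ 2 * 4 ^ n := hn
          _ = (m * 2 ^ n) ^ 2 := by rw [mul_pow, ← pow_mul, mul_comm n 2, pow_mul]; norm_num
      have h2 : B ≤ m * 2 ^ n := le_of_sq_le_sq h1 (by positivity)
      have h3 : (0 : ℝ) < 2 ^ n := by positivity
      nlinarith
    have hsmall : ∀ w : ℂ, ‖w - t‖ ≤ r / (n : ℝ) ^ 2 → ‖f i w‖ ≤ 42 * (4 * N) := by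
      intro w hw
      refine two_const hr ((hf i).mono hcb) (fun z hz => hB i z (hcb hz)) hn1 (by positivity) hBi
        ?_ hw
      intro x hx
      have h1 := (hreal x hx).2
      have h2 : ‖f i x‖ ^ 2 ≤ F x := by
        simp only [hF]
        exact Finset.single_le_sum (f := fun i => ‖f i (x : ℂ)‖ ^ 2) (fun _ _ => sq_nonneg _)
          (Finset.mem_univ i)
      have h3 : ‖f i x‖ ^ 2 ≤ (4 * N) ^ 2 := by
        rw [mul_pow, hFsq]; linarith
      exact le_of_sq_le_sq h3 (by positivity)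
    have hrn : 0 < r / (n : ℝ) ^ 2 := by positivity
    rcases eq_or_lt_of_le hη1 with h1 | h1
    · have h2 := hsmall z (by rw [h1, one_mul] at hz; exact hz)
      have h3 := hsmall t (by simp [hrn.le])
      calc ‖f i z - f i t‖ ≤ ‖f i z‖ + ‖f i t‖ := norm_sub_le _ _
        _ ≤ 337 * η * N := by rw [h1]; linarith
    · have hzb : z ∈ ball (t : ℂ) (r / (n : ℝ) ^ 2) := by
        rw [mem_ball, dist_eq_norm]
        refine lt_of_le_of_lt hz ?_
        nlinarith
      have hrn2 : r / (n : ℝ) ^ 2 ≤ 2 * r := by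
        have : r / (n : ℝ) ^ 2 ≤ r := by
          apply div_le_self hr.le
          nlinarith
        linarith
      have hsch := Complex.dist_le_div_mul_dist_of_mapsTo_ball (f := f i) (c := (t : ℂ))
        (R₁ := r / (n : ℝ) ^ 2) (R₂ := 337 * N) (z := z)
        ((hf i).mono ((ball_subset_closedBall.trans (closedBall_subset_closedBall hrn2)).trans hcb))
        (by
          intro w hw
          rw [mem_ball, dist_eq_norm] at hw
          rw [mem_closedBall, dist_eq_norm]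
          have h2 := hsmall w hw.le
          have h3 := hsmall t (by simp [hrn.le])
          calc ‖f i w - f i t‖ ≤ ‖f i w‖ + ‖f i t‖ := norm_sub_le _ _
            _ ≤ 337 * N := by linarith) hzb
      rw [dist_eq_norm, dist_eq_norm] at hsch
      calc ‖f i z - f i t‖ ≤ 337 * N / (r / (n : ℝ) ^ 2) * ‖z - t‖ := hsch
        _ ≤ 337 * N / (r / (n : ℝ) ^ 2) * (η * (r / n ^ 2)) := by gcongr
        _ = 337 * η * N := by field_simp

end Crest.Agent.R128.LocConst
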