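import Mathlib
import Crest.Agent.R128.Iter

/-! Row 128, V5: from small good intervals to the dyadic cell (helper13).

`dead_le`: if every point of `G` lies in a closed interval (of any size) contained in `J` in which `H`
misses at least the proportion `c`, then `H` misses at least the measure `c |G| / 5` of `J` (Vitali).
`hull_le`: the same for `H = hull (n + g) E` and `J` = a dyadic cell.  Sorry free. -/

set_option autoImplicit false
open MeasureTheory Set Metric
open scoped ENNReal

namespace Crest.Agent.R128.LocCover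

open Crest.Agent.R128.Iter

theorem dead_le {J H G : Set ℝ} (hH : MeasurableSet H) {c : ℝ≥0∞} {R : ℝ}
    (h : ∀ t ∈ G, ∃ x r : ℝ, 0 < r ∧ r ≤ R ∧ t ∈ closedBall x r ∧ closedBall x r ⊆ J ∧
      c * volume (closedBall x r) ≤ volume (closedBall x r \ H)) :
    c * volume G ≤ 5 * volume (J \ H) := by
  classical
  choose! x r h0 hR hmem hsub hc using h
  obtain ⟨u, huG, hdisj, hcov⟩ := Vitali.exists_disjoint_subfamily_covering_enlargement_closedBall
    G x r R hR 5 (by norm_num)
  have hcount : u.Countable := by
    refine hdisj.countable_of_nonempty_interior fun i hi => ?_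
    rw [interior_closedBall _ (h0 i (huG hi)).ne']
    exact ⟨x i, mem_ball_self (h0 i (huG hi))⟩
  have hG : G ⊆ ⋃ b ∈ u, closedBall (x b) (5 * r b) := by
    intro t ht
    obtain ⟨b, hb, hb'⟩ := hcov t ht
    exact mem_iUnion₂.2 ⟨b, hb, hb' (hmem t ht)⟩
  have h5 : ∀ b, volume (closedBall (x b) (5 * r b)) = 5 * volume (closedBall (x b) (r b)) := by
    intro b
    rw [Real.volume_closedBall, Real.volume_closedBall, show 2 * (5 * r b) = 5 * (2 * r b) by ring,
      ENNReal.ofReal_mul (by norm_num)]
    norm_num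
  have hsubJ : (⋃ b ∈ u, closedBall (x b) (r b) \ H) ⊆ J \ H := by
    intro t ht
    obtain ⟨b, hb, hb1, hb2⟩ := mem_iUnion₂.1 ht
    exact ⟨hsub b (huG hb) hb1, hb2⟩
  have hdisj' : u.PairwiseDisjoint fun b => closedBall (x b) (r b) \ H := by
    intro a ha b hb hab
    exact (hdisj ha hb hab).mono sdiff_subset sdiff_subset
  have : Countable u := hcount
  calc c * volume G ≤ c * volume (⋃ b ∈ u, closedBall (x b) (5 * r b)) := by gcongr
    _ ≤ c * ∑' b : u, volume (closedBall (x b) (5 * r b)) := by
        gcongr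
        exact measure_biUnion_le _ hcount _
    _ = 5 * ∑' b : u, c * volume (closedBall (x b) (r b)) := by
        rw [← ENNReal.tsum_mul_left, ← ENNReal.tsum_mul_left]
        congr 1
        ext b
        rw [h5]
        ring
    _ ≤ 5 * ∑' b : u, volume (closedBall (x b) (r b) \ H) := by
        gcongr with b
        exact hc b (huG b.2)
    _ = 5 * volume (⋃ b ∈ u, closedBall (x b) (r b) \ H) := by
        rw [measure_biUnion hcount hdisj' fun b _ => measurableSet_closedBall.diff hH]
    _ ≤ 5 * volume (J \ H) := by gcongr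

theorem measurableSet_hull (n : ℕ) (E : Set ℝ) : MeasurableSet (hull n E) := by
  have e : hull n E = ⋃ m ∈ {m : ℤ | ∃ u ∈ E, idx n u = m}, cell n m := by
    ext t
    simp only [mem_iUnion₂, mem_ofPred_eq, exists_prop]
    constructor
    · rintro ⟨u, hu, huE⟩
      exact ⟨idx n t, ⟨u, huE, (mem_cell_iff n _ u).1 hu⟩, mem_cell_idx n t⟩
    · rintro ⟨m, ⟨u, huE, hu⟩, ht⟩
      exact ⟨u, by rw [(mem_cell_iff n m t).1 ht]; exact (mem_cell_iff n m u).2 hu, huE⟩
  rw [e]
  exact MeasurableSet.biUnion (Set.to_countable _) fun m _ => measurableSet_cell n m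

/-- From good intervals to the dyadic cell: if the points of `G ⊆ cell n m` (at least one half of the
cell) lie in closed intervals inside the cell in which the hull of `E` misses the proportion `c`, then
the hull of `E` misses the proportion `c / 10` of the cell. -/
theorem hull_le {n g : ℕ} {m : ℤ} {E G : Set ℝ} {c : ℝ} (hc : 0 ≤ c) {R : ℝ}
    (hG : ENNReal.ofReal (1 / 2) * volume (cell n m) ≤ volume G)
    (h : ∀ t ∈ G, ∃ x r : ℝ, 0 < r ∧ r ≤ R ∧ t ∈ closedBall x r ∧ closedBall x r ⊆ cell n m ∧
      ENNReal.ofReal c * volume (closedBall x r) ≤ volume (closedBall x r \ hull (n + g) E)) :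
    volume (hull (n + g) E ∩ cell n m) ≤ ENNReal.ofReal (1 - c / 10) * volume (cell n m) := by
  have hH := measurableSet_hull (n + g) E
  have h1 := dead_le hH h
  have hfin := volume_cell_ne_top n m
  have h2 : volume (cell n m ∩ hull (n + g) E) + volume (cell n m \ hull (n + g) E) =
      volume (cell n m) := measure_inter_add_sdiff _ hH
  rw [inter_comm] at h2
  set v := volume (cell n m) with hv
  set a := volume (hull (n + g) E ∩ cell n m) with ha
  set d := volume (cell n m \ hull (n + g) E) with hd
  have hd' : ENNReal.ofReal (c / 10) * v ≤ d := by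
    have h3 : ENNReal.ofReal c * (ENNReal.ofReal (1 / 2) * v) ≤ 5 * d :=
      le_trans (by gcongr) h1
    have h4 : ENNReal.ofReal (1 / 5) * (ENNReal.ofReal c * (ENNReal.ofReal (1 / 2) * v)) ≤
        ENNReal.ofReal (1 / 5) * (5 * d) := by gcongr
    have h5 : ENNReal.ofReal (1 / 5) * (5 * d) = d := by
      rw [← mul_assoc]
      have : ENNReal.ofReal (1 / 5) * 5 = 1 := by
        rw [show (5 : ℝ≥0∞) = ENNReal.ofReal 5 by norm_num, ← ENNReal.ofReal_mul (by norm_num)]
        norm_num
      rw [this, one_mul]
    rw [h5] at h4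
    refine le_trans (le_of_eq ?_) h4
    rw [← mul_assoc, ← mul_assoc, ← ENNReal.ofReal_mul (by norm_num),
      ← ENNReal.ofReal_mul (by positivity)]
    congr 2
    ring
  have hafin : a ≠ ∞ := ne_top_of_le_ne_top hfin (measure_mono inter_subset_right)
  have hdfin : d ≠ ∞ := ne_top_of_le_ne_top hfin (measure_mono sdiff_subset)
  have e1 : a.toReal + d.toReal = v.toReal := by
    rw [← ENNReal.toReal_add hafin hdfin, h2]
  have e2 : c / 10 * v.toReal ≤ d.toReal := by
    have := ENNReal.toReal_mono hdfin hd'
    rwa [ENNReal.toReal_mul, ENNReal.toReal_ofReal (by positivity)] at this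
  rw [← ENNReal.ofReal_toReal hafin, ← ENNReal.ofReal_toReal hfin]
  rcases le_or_gt 0 (1 - c / 10) with h6 | h6
  · rw [← ENNReal.ofReal_mul h6]
    apply ENNReal.ofReal_le_ofReal
    nlinarith
  · have h7 : a.toReal ≤ 0 := by
      have : 0 ≤ v.toReal := ENNReal.toReal_nonneg
      nlinarith
    rw [ENNReal.ofReal_eq_zero.2 h7]
    exact bot_le

end Crest.Agent.R128.LocCover
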