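import Crest.Agent.R128.FreshFin

/-!
# Row 128, node LOC-D (helper106): equidistribution of the next digits on a fresh cell

Unit curves are Lipschitz graphs; the property "few bad digits" is carried one step of the map
backwards (`ucb_step`), and to fresh cells by `lap_transfer_u`.
-/

set_option autoImplicit false

open Set MeasureTheory Metric
open scoped NNReal ENNReal

namespace Crest.Agent.R128.LocD

open Crest.Agent.R128.CellA Crest.Agent.R128.Fresh

/-- the function of the map -/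
noncomputable def fr (k x : ℝ) : ℝ := 2 * x + k * Real.sin (2 * Real.pi * x)

/-- one step on pairs of successive positions -/
noncomputable def st (k : ℝ) (p : ℝ × ℝ) : ℝ × ℝ := (p.2, fr k p.2 - p.1)

theorem hasDerivAt_fr (k x : ℝ) : HasDerivAt (fr k) (Vr k x) x := by
  unfold fr Vr
  have h1 : HasDerivAt (fun x : ℝ => 2 * Real.pi * x) (2 * Real.pi) x := by
    simpa using (hasDerivAt_id x).const_mul (2 * Real.pi)
  have h2 := (h1.sin).const_mul k
  have h3 : HasDerivAt (fun x : ℝ => 2 * x) 2 x := by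
    simpa using (hasDerivAt_id x).const_mul (2 : ℝ)
  have h4 := h3.add h2
  have e : 2 + 2 * Real.pi * k * Real.cos (2 * Real.pi * x) =
      2 + k * (Real.cos (2 * Real.pi * x) * (2 * Real.pi)) := by ring
  rw [e]
  exact h4

/-- Lipschitz images. -/
theorem volume_lip_image {G : ℝ → ℝ} {K : ℝ≥0} (hG : LipschitzWith K G) (S : Set ℝ) :
    volume (G '' S) ≤ K * volume S := by
  have h := hG.hausdorffMeasure_image_le (d := 1) (by norm_num) S
  rw [MeasureTheory.hausdorffMeasure_real] at h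
  simpa using h

/-- one piece: slope `V` up to the factor `1 ± θ` -/
theorem piece {E : Set (ℝ × ℝ)} {κ : ℝ≥0} {ε : ℝ} (hε : 0 ≤ ε) (hE : UCBound κ E ε)
    {h : ℝ → ℝ} {a w V θ : ℝ} (hw : 0 ≤ w) (hV : V ≠ 0) (hθ0 : 0 ≤ θ) (hθ : θ < 1)
    (hκ : 1 / ((1 - θ) * |V|) ≤ κ)
    (hs : ∀ x ∈ Icc a (a + w), ∀ y ∈ Icc a (a + w), |h x - h y - V * (x - y)| ≤ θ * |V| * |x - y|) :
    volume {x | x ∈ Icc a (a + w) ∧ (x, h x) ∈ E} ≤
      ENNReal.ofReal (((1 + θ) * |V| * w + 1) * ε / ((1 - θ) * |V|)) := by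
  classical
  have hVp : 0 < |V| := abs_pos.2 hV
  set P := Icc a (a + w) with hP
  set c := (1 - θ) * |V| with hc
  have hc0 : 0 < c := mul_pos (by linarith) hVp
  have haP : a ∈ P := ⟨le_rfl, by linarith⟩
  have hlo : ∀ x ∈ P, ∀ y ∈ P, c * |x - y| ≤ |h x - h y| := by
    intro x hx y hy
    have h1 := hs x hx y hy
    have h2 := abs_sub_abs_le_abs_sub (V * (x - y)) (V * (x - y) - (h x - h y))
    have h3 : V * (x - y) - (V * (x - y) - (h x - h y)) = h x - h y := by ring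
    have h4 : |V * (x - y) - (h x - h y)| = |h x - h y - V * (x - y)| := abs_sub_comm _ _
    rw [h3, h4, abs_mul] at h2
    have h5 : c * |x - y| = |V| * |x - y| - θ * |V| * |x - y| := by rw [hc]; ring
    linarith
  have hinj : InjOn h P := by
    intro x hx y hy hxy
    have h1 := hlo x hx y hy
    rw [hxy, sub_self, abs_zero] at h1
    have h2 : |x - y| ≤ 0 := by
      by_contra hcon
      push Not at hcon
      have := mul_pos hc0 hcon
      linarith
    have h3 := abs_nonneg (x - y)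
    have h4 : |x - y| = 0 := le_antisymm h2 h3
    linarith [abs_eq_zero.1 h4]
  set K : ℝ≥0 := Real.toNNReal (1 / c) with hK
  have hKr : (K : ℝ) = 1 / c := Real.coe_toNNReal _ (by positivity)
  have hG0 : LipschitzOnWith K (Function.invFunOn h P) (h '' P) := by
    refine LipschitzOnWith.of_dist_le_mul ?_
    rintro _ ⟨x, hx, rfl⟩ _ ⟨y, hy, rfl⟩
    have e1 : Function.invFunOn h P (h x) = x :=
      hinj (Function.invFunOn_mem ⟨x, hx, rfl⟩) hx (Function.invFunOn_eq ⟨x, hx, rfl⟩)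
    have e2 : Function.invFunOn h P (h y) = y :=
      hinj (Function.invFunOn_mem ⟨y, hy, rfl⟩) hy (Function.invFunOn_eq ⟨y, hy, rfl⟩)
    rw [e1, e2, Real.dist_eq, Real.dist_eq, hKr, one_div, ← div_eq_inv_mul, le_div_iff₀ hc0]
    have := hlo x hx y hy
    linarith
  obtain ⟨G, hG, hGe⟩ := hG0.extend_real
  have hGh : ∀ x ∈ P, G (h x) = x := by
    intro x hx
    rw [← hGe ⟨x, hx, rfl⟩]
    exact hinj (Function.invFunOn_mem ⟨x, hx, rfl⟩) hx (Function.invFunOn_eq ⟨x, hx, rfl⟩)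
  -- the interval containing the image
  set L := (1 + θ) * |V| * w with hL
  have hL0 : 0 ≤ L := by positivity
  obtain ⟨b, hb⟩ : ∃ b : ℝ, ∀ x ∈ P, h x ∈ Icc b (b + L) := by
    rcases lt_or_gt_of_ne hV with hneg | hpos
    · refine ⟨h a - L, ?_⟩
      intro x hx
      have h1 := abs_le.1 (hs x hx a haP)
      have h2 : |x - a| = x - a := abs_of_nonneg (by linarith [hx.1])
      rw [h2] at h1
      have h3 : |V| = -V := abs_of_neg hneg
      have h4 : x - a ≤ w := by linarith [hx.2]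
      have h5 : 0 ≤ x - a := by linarith [hx.1]
      have h6 : 0 ≤ (1 - θ) * |V| * (x - a) := mul_nonneg hc0.le h5
      have h7 : (1 + θ) * |V| * (x - a) ≤ L := by
        rw [hL]; gcongr
      rw [h3] at h1 h6 h7
      constructor
      · nlinarith
      · nlinarith
    · refine ⟨h a, ?_⟩
      intro x hx
      have h1 := abs_le.1 (hs x hx a haP)
      have h2 : |x - a| = x - a := abs_of_nonneg (by linarith [hx.1])
      rw [h2] at h1
      have h3 : |V| = V := abs_of_pos hpos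
      have h4 : x - a ≤ w := by linarith [hx.2]
      have h5 : 0 ≤ x - a := by linarith [hx.1]
      have h6 : 0 ≤ (1 - θ) * |V| * (x - a) := mul_nonneg hc0.le h5
      have h7 : (1 + θ) * |V| * (x - a) ≤ L := by
        rw [hL]; gcongr
      rw [h3] at h1 h6 h7
      constructor
      · nlinarith
      · nlinarith
  set N := ⌈L⌉₊ with hN
  have hN1 : L ≤ N := Nat.le_ceil _
  have hN2 : (N : ℝ) ≤ L + 1 := (Nat.ceil_lt_add_one hL0).le
  set S : Set ℝ := {y | y ∈ Icc b (b + L) ∧ (G y, y) ∈ E} with hS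
  have hsub : {x | x ∈ P ∧ (x, h x) ∈ E} ⊆ G '' S := by
    rintro x ⟨hx, hxE⟩
    exact ⟨h x, ⟨hb x hx, by rw [hGh x hx]; exact hxE⟩, hGh x hx⟩
  have hSN : S ⊆ (⋃ j ∈ Finset.range N, {y | y ∈ Icc (b + j) (b + j + 1) ∧ (G y, y) ∈ E}) ∪ {b + L} := by
    rintro y ⟨hy, hyE⟩
    rcases eq_or_lt_of_le hy.2 with h1 | h1
    · right; exact h1
    · left
      simp only [mem_iUnion, Finset.mem_range, exists_prop]
      have h0 : 0 ≤ y - b := by linarith [hy.1]
      refine ⟨⌊y - b⌋₊, ?_, ⟨?_, ?_⟩, hyE⟩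
      · have h3 : (⌊y - b⌋₊ : ℝ) ≤ y - b := Nat.floor_le h0
        have h4 : y - b < N := by linarith
        exact_mod_cast lt_of_le_of_lt h3 h4
      · have h3 : (⌊y - b⌋₊ : ℝ) ≤ y - b := Nat.floor_le h0
        linarith
      · have h3 := Nat.lt_floor_add_one (y - b)
        linarith
  have hGκ : ∀ j, UnitCurve κ G j := by
    intro j
    refine (hG.lipschitzOnWith).weaken ?_
    rw [← NNReal.coe_le_coe, hKr]
    exact hκ
  have hvS : volume S ≤ ENNReal.ofReal (N * ε) := by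
    calc volume S ≤ volume ((⋃ j ∈ Finset.range N, {y | y ∈ Icc (b + j) (b + j + 1) ∧ (G y, y) ∈ E}) ∪
          {b + L}) := measure_mono hSN
      _ ≤ volume (⋃ j ∈ Finset.range N, {y | y ∈ Icc (b + j) (b + j + 1) ∧ (G y, y) ∈ E}) +
          volume {b + L} := measure_union_le _ _
      _ = volume (⋃ j ∈ Finset.range N, {y | y ∈ Icc (b + j) (b + j + 1) ∧ (G y, y) ∈ E}) := by
          rw [Real.volume_singleton, add_zero]
      _ ≤ ∑ j ∈ Finset.range N, volume {y | y ∈ Icc (b + j) (b + j + 1) ∧ (G y, y) ∈ E} :=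
          measure_biUnion_finset_le _ _
      _ ≤ ∑ j ∈ Finset.range N, ENNReal.ofReal ε := Finset.sum_le_sum fun j _ => hE G _ (hGκ _)
      _ = ENNReal.ofReal (N * ε) := by
          rw [Finset.sum_const, Finset.card_range, nsmul_eq_mul, ENNReal.ofReal_mul (by positivity),
            ENNReal.ofReal_natCast]
  calc volume {x | x ∈ P ∧ (x, h x) ∈ E} ≤ volume (G '' S) := measure_mono hsub
    _ ≤ K * volume S := volume_lip_image hG S
    _ ≤ K * ENNReal.ofReal (N * ε) := by gcongr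
    _ = ENNReal.ofReal (1 / c * (N * ε)) := by
        rw [ENNReal.ofReal_mul (p := 1 / c) (by positivity)]; rfl
    _ ≤ ENNReal.ofReal ((L + 1) * ε / c) := by
        refine ENNReal.ofReal_le_ofReal ?_
        rw [one_div, ← div_eq_inv_mul]
        gcongr

/-- few near critical positions on a unit interval -/
theorem volume_Vr_unit {k : ℝ} (hk : 1 ≤ k) {r : ℝ} (hr : 0 ≤ r) (a : ℝ) :
    volume {x | x ∈ Icc a (a + 1) ∧ |Vr k x| ≤ r} ≤ ENNReal.ofReal (2 * (r / k)) := by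
  have h1 := measure_periodic_inter_uIcc_le (A := {x : ℝ | |Vr k x| ≤ r}) (by
    intro x; simp only [mem_ofPred_eq, Vr_add_one]) a (a + 1)
  rw [uIcc_of_le (by linarith : a ≤ a + 1)] at h1
  have h2 := volume_Vr_small hk hr
  have h3 : |a + 1 - a| + 1 = 2 := by
    rw [show a + 1 - a = 1 by ring]; norm_num
  rw [h3] at h1
  calc volume {x | x ∈ Icc a (a + 1) ∧ |Vr k x| ≤ r}
      ≤ volume ({x : ℝ | |Vr k x| ≤ r} ∩ Icc a (a + 1)) := by
        refine measure_mono ?_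
        rintro x ⟨h1, h2⟩
        exact ⟨h2, h1⟩
    _ ≤ ENNReal.ofReal 2 * volume ({x : ℝ | |Vr k x| ≤ r} ∩ Ico 0 1) := h1
    _ ≤ ENNReal.ofReal 2 * ENNReal.ofReal (r / k) := by gcongr
    _ = ENNReal.ofReal (2 * (r / k)) := by rw [ENNReal.ofReal_mul (by norm_num)]

/-- the mean value bound for `fr` -/
theorem fr_sub {k : ℝ} (hk : 0 ≤ k) {a w : ℝ} {x y : ℝ} (hx : x ∈ Icc a (a + w))
    (hy : y ∈ Icc a (a + w)) :
    |fr k x - fr k y - Vr k a * (x - y)| ≤ 40 * k * w * |x - y| := by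
  have h1 : ∀ z ∈ Icc a (a + w), HasDerivWithinAt (fun z => fr k z - Vr k a * z)
      (Vr k z - Vr k a) (Icc a (a + w)) z := by
    intro z _
    have h2 : HasDerivAt (fun z : ℝ => Vr k a * z) (Vr k a) z := by
      simpa using (hasDerivAt_id z).const_mul (Vr k a)
    exact ((hasDerivAt_fr k z).sub h2).hasDerivWithinAt
  have h3 : ∀ z ∈ Icc a (a + w), ‖Vr k z - Vr k a‖ ≤ 40 * k * w := by
    intro z hz
    rw [Real.norm_eq_abs]
    refine (abs_Vr_sub_le hk z a).trans ?_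
    have : |z - a| ≤ w := by
      rw [abs_of_nonneg (by linarith [hz.1])]; linarith [hz.2]
    gcongr
  have h4 := (convex_Icc a (a + w)).norm_image_sub_le_of_norm_hasDerivWithin_le h1 h3 hy hx
  rw [Real.norm_eq_abs, Real.norm_eq_abs] at h4
  have e : fr k x - fr k y - Vr k a * (x - y) = fr k x - Vr k a * x - (fr k y - Vr k a * y) := by ring
  rw [e]
  exact h4

set_option maxHeartbeats 1000000 in
/-- **One step back on unit curves.** -/
theorem ucb_step {u : ℝ} (hu : 2000000 ≤ u) {E : Set (ℝ × ℝ)} {ε : ℝ} (hε : 0 ≤ ε) (hε1 : ε ≤ 1)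
    (hE : UCBound (Real.toNNReal (1 / u ^ 12)) E ε) :
    UCBound (Real.toNNReal (1 / u ^ 12)) (st (u ^ 24) ⁻¹' E) (ε + 1000 / u) := by
  classical
  intro g a hg
  have hu0 : 0 < u := by linarith
  have hu1 : 1 ≤ u := by linarith
  have hk : 1 ≤ u ^ 24 := one_le_pow₀ hu1
  have hk0 : 0 ≤ u ^ 24 := by positivity
  have h12 : (1 : ℝ) ≤ u ^ 12 := one_le_pow₀ hu1
  have e13 : u ^ 13 = u * u ^ 12 := by ring
  set N := ⌈u ^ 12⌉₊ with hN
  have hN1 : u ^ 12 ≤ N := Nat.le_ceil _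
  have hN2 : (N : ℝ) ≤ 2 * u ^ 12 := by
    have := (Nat.ceil_lt_add_one (by positivity : 0 ≤ u ^ 12)).le
    linarith
  have hNr : (0 : ℝ) < N := by linarith
  set w : ℝ := 1 / N with hw
  have hw0 : 0 < w := by positivity
  have hNw : (N : ℝ) * w = 1 := by rw [hw]; field_simp
  have hw1 : w ≤ 1 / u ^ 12 := one_div_le_one_div_of_le (by positivity) hN1
  have hw2 : 1 / (2 * u ^ 12) ≤ w := one_div_le_one_div_of_le hNr hN2
  set h : ℝ → ℝ := fun x => fr (u ^ 24) x - g x with hh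
  set x₀ : ℕ → ℝ := fun i => a + i * w with hx₀
  have hpc : ∀ i < N, Icc (x₀ i) (x₀ i + w) ⊆ Icc a (a + 1) := by
    intro i hi x hx
    have h1 : (i : ℝ) + 1 ≤ N := by exact_mod_cast hi
    have h2 : 0 ≤ (i : ℝ) * w := by positivity
    have h3 : ((i : ℝ) + 1) * w ≤ 1 := by
      calc ((i : ℝ) + 1) * w ≤ N * w := by gcongr
        _ = 1 := hNw
    simp only [hx₀] at hx
    constructor
    · linarith [hx.1]
    · nlinarith [hx.2]
  have hcover : Icc a (a + 1) ⊆ (⋃ i ∈ Finset.range N, Icc (x₀ i) (x₀ i + w)) := by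
    intro x hx
    simp only [mem_iUnion, Finset.mem_range, exists_prop]
    rcases eq_or_lt_of_le hx.2 with h1 | h1
    · refine ⟨N - 1, by
        have : 0 < N := by exact_mod_cast hNr
        omega, ?_, ?_⟩
      · have h2 : ((N - 1 : ℕ) : ℝ) ≤ N := by exact_mod_cast Nat.sub_le N 1
        simp only [hx₀]
        have : ((N - 1 : ℕ) : ℝ) * w ≤ N * w := by gcongr
        linarith
      · have h3 : ((N - 1 : ℕ) : ℝ) = N - 1 := by
          rw [Nat.cast_sub (by
            have : 0 < N := by exact_mod_cast hNr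
            omega)]; simp
        simp only [hx₀]
        rw [h3]
        have : ((N : ℝ) - 1) * w + w = N * w := by ring
        linarith
    · have h2 : 0 ≤ (x - a) / w := div_nonneg (by linarith [hx.1]) hw0.le
      have h3 : (⌊(x - a) / w⌋₊ : ℝ) ≤ (x - a) / w := Nat.floor_le h2
      refine ⟨⌊(x - a) / w⌋₊, ?_, ?_, ?_⟩
      · have h4 : (x - a) / w < N := by
          rw [div_lt_iff₀ hw0, hNw]; linarith
        exact_mod_cast lt_of_le_of_lt h3 h4
      · simp only [hx₀]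
        rw [le_div_iff₀ hw0] at h3
        linarith
      · have h4 := Nat.lt_floor_add_one ((x - a) / w)
        simp only [hx₀]
        rw [div_lt_iff₀ hw0] at h4
        linarith
  have hgL : ∀ x ∈ Icc a (a + 1), ∀ y ∈ Icc a (a + 1), |g x - g y| ≤ 1 * |x - y| := by
    intro x hx y hy
    have h1 := hg.dist_le_mul x hx y hy
    rw [Real.dist_eq, Real.dist_eq, Real.coe_toNNReal _ (by positivity)] at h1
    refine h1.trans ?_
    gcongr
    rw [div_le_one (by positivity)]; exact h12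
  -- good pieces
  have hgood : ∀ i < N, u ^ 13 ≤ |Vr (u ^ 24) (x₀ i)| →
      volume {x | x ∈ Icc (x₀ i) (x₀ i + w) ∧ (x, h x) ∈ E} ≤ ENNReal.ofReal (w * (ε + 900 / u)) := by
    intro i hi hA
    set V := Vr (u ^ 24) (x₀ i) with hVdef
    have hVpos : 0 < |V| := lt_of_lt_of_le (by positivity) hA
    set θ : ℝ := 41 / u with hθ
    have hθ0 : 0 ≤ θ := by positivity
    have hθ1 : θ ≤ 1 / 2 := by
      rw [hθ, div_le_div_iff₀ hu0 (by norm_num)]; linarith
    have hp := piece (E := E) (κ := Real.toNNReal (1 / u ^ 12)) hε hE (h := h) (a := x₀ i) (w := w)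
      (V := V) (θ := θ) hw0.le (abs_pos.1 hVpos) hθ0 (by linarith) (by
        rw [Real.coe_toNNReal _ (by positivity)]
        refine one_div_le_one_div_of_le (by positivity) ?_
        calc u ^ 12 ≤ 1 / 2 * u ^ 13 := by rw [e13]; nlinarith
          _ ≤ (1 - θ) * |V| := mul_le_mul (by linarith) hA (by positivity) (by linarith)) (by
        intro x hx y hy
        have h1 := fr_sub hk0 hx hy
        have h2 := hgL x (hpc i hi hx) y (hpc i hi hy)
        have h3 : h x - h y - V * (x - y) =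
            (fr (u ^ 24) x - fr (u ^ 24) y - V * (x - y)) - (g x - g y) := by
          simp only [hh]; ring
        rw [h3]
        refine (abs_sub _ _).trans ((add_le_add h1 h2).trans ?_)
        have h4 : 40 * u ^ 24 * w ≤ 40 * u ^ 12 := by
          calc 40 * u ^ 24 * w ≤ 40 * u ^ 24 * (1 / u ^ 12) := by gcongr
            _ = 40 * u ^ 12 := by field_simp
        have h5 : 41 * u ^ 12 ≤ θ * |V| := by
          calc 41 * u ^ 12 = θ * u ^ 13 := by rw [hθ]; field_simp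
            _ ≤ θ * |V| := by gcongr
        have h6 := abs_nonneg (x - y)
        have h7 : 40 * u ^ 24 * w + 1 ≤ θ * |V| := by linarith
        calc 40 * u ^ 24 * w * |x - y| + 1 * |x - y| = (40 * u ^ 24 * w + 1) * |x - y| := by ring
          _ ≤ θ * |V| * |x - y| := by gcongr)
    refine hp.trans (ENNReal.ofReal_le_ofReal ?_)
    have hden : 0 < (1 - θ) * |V| := mul_pos (by linarith) hVpos
    rw [div_le_iff₀ hden]
    -- ((1+θ)|V| w + 1) ε ≤ w (ε + 900/u) (1-θ)|V|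
    have hA2 : u ≤ w * |V| * 2 := by
      calc u = 1 / (2 * u ^ 12) * u ^ 13 * 2 := by rw [e13]; field_simp
        _ ≤ w * |V| * 2 := by gcongr
    set z := w * |V| with hz
    have hz0 : 0 < z := by positivity
    have e1 : ((1 + θ) * |V| * w + 1) * ε = (1 + θ) * z * ε + ε := by rw [hz]; ring
    have e2 : w * (ε + 900 / u) * ((1 - θ) * |V|) = (1 - θ) * z * ε + (1 - θ) * z * (900 / u) := by
      rw [hz]; ring
    rw [e1, e2]
    have h1 : ε ≤ 2 * z / u := by
      rw [le_div_iff₀ hu0]; nlinarith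
    have h2 : 2 * θ * z * ε ≤ 82 * (z / u) := by
      calc 2 * θ * z * ε ≤ 2 * θ * z * 1 := by gcongr
        _ = 82 * (z / u) := by rw [hθ]; ring
    have h3 : 1 / 2 * z * (900 / u) ≤ (1 - θ) * z * (900 / u) := by gcongr; linarith
    have h4 : 1 / 2 * z * (900 / u) = 450 * (z / u) := by ring
    have h5 : 0 ≤ z / u := by positivity
    have h6 : 2 * z / u = 2 * (z / u) := by ring
    nlinarith
  -- bad pieces
  have hVvar : ∀ i < N, ∀ x ∈ Icc (x₀ i) (x₀ i + w), |Vr (u ^ 24) x| ≤ |Vr (u ^ 24) (x₀ i)| + 40 * u ^ 12 := by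
    intro i hi x hx
    have h1 := abs_Vr_sub_le hk0 x (x₀ i)
    have h2 : |x - x₀ i| ≤ w := by
      rw [abs_of_nonneg (by linarith [hx.1])]; linarith [hx.2]
    have h3 : |Vr (u ^ 24) x| ≤ |Vr (u ^ 24) x - Vr (u ^ 24) (x₀ i)| + |Vr (u ^ 24) (x₀ i)| := by
      calc |Vr (u ^ 24) x| = |(Vr (u ^ 24) x - Vr (u ^ 24) (x₀ i)) + Vr (u ^ 24) (x₀ i)| := by ring_nf
        _ ≤ _ := abs_add_le _ _
    have h4 : 40 * u ^ 24 * |x - x₀ i| ≤ 40 * u ^ 12 := by
      calc 40 * u ^ 24 * |x - x₀ i| ≤ 40 * u ^ 24 * (1 / u ^ 12) := by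
            gcongr; exact h2.trans hw1
        _ = 40 * u ^ 12 := by field_simp
    linarith
  have hbad := volume_Vr_unit hk (r := 2 * u ^ 13) (by positivity) a
  set G : Finset ℕ := (Finset.range N).filter (fun i => u ^ 13 ≤ |Vr (u ^ 24) (x₀ i)|) with hG
  have hfin : {x | x ∈ Icc a (a + 1) ∧ (g x, x) ∈ st (u ^ 24) ⁻¹' E} ⊆
      (⋃ i ∈ G, {x | x ∈ Icc (x₀ i) (x₀ i + w) ∧ (x, h x) ∈ E}) ∪
      {x | x ∈ Icc a (a + 1) ∧ |Vr (u ^ 24) x| ≤ 2 * u ^ 13} := by
    rintro x ⟨hx, hxE⟩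
    have h1 := hcover hx
    simp only [mem_iUnion, Finset.mem_range, exists_prop] at h1
    obtain ⟨i, hi, hxi⟩ := h1
    by_cases hA : u ^ 13 ≤ |Vr (u ^ 24) (x₀ i)|
    · left
      simp only [mem_iUnion, exists_prop]
      refine ⟨i, Finset.mem_filter.2 ⟨Finset.mem_range.2 hi, hA⟩, hxi, ?_⟩
      exact hxE
    · right
      refine ⟨hx, ?_⟩
      push Not at hA
      have h2 := hVvar i hi x hxi
      have h3 : 40 * u ^ 12 ≤ u ^ 13 := by rw [e13]; nlinarith
      linarith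
  calc volume {x | x ∈ Icc a (a + 1) ∧ (g x, x) ∈ st (u ^ 24) ⁻¹' E}
      ≤ volume ((⋃ i ∈ G, {x | x ∈ Icc (x₀ i) (x₀ i + w) ∧ (x, h x) ∈ E}) ∪
        {x | x ∈ Icc a (a + 1) ∧ |Vr (u ^ 24) x| ≤ 2 * u ^ 13}) := measure_mono hfin
    _ ≤ volume (⋃ i ∈ G, {x | x ∈ Icc (x₀ i) (x₀ i + w) ∧ (x, h x) ∈ E}) +
        volume {x | x ∈ Icc a (a + 1) ∧ |Vr (u ^ 24) x| ≤ 2 * u ^ 13} := measure_union_le _ _
    _ ≤ ∑ i ∈ G, ENNReal.ofReal (w * (ε + 900 / u)) +
        ENNReal.ofReal (2 * (2 * u ^ 13 / u ^ 24)) := by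
        refine add_le_add ((measure_biUnion_finset_le _ _).trans (Finset.sum_le_sum ?_)) hbad
        intro i hi
        obtain ⟨h1, h2⟩ := Finset.mem_filter.1 hi
        exact hgood i (Finset.mem_range.1 h1) h2
    _ ≤ ENNReal.ofReal (N * (w * (ε + 900 / u))) + ENNReal.ofReal (2 * (2 * u ^ 13 / u ^ 24)) := by
        refine add_le_add ?_ le_rfl
        rw [Finset.sum_const, nsmul_eq_mul, ENNReal.ofReal_mul (p := (N : ℝ)) (by positivity),
          ENNReal.ofReal_natCast]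
        gcongr
        calc G.card ≤ (Finset.range N).card := Finset.card_filter_le _ _
          _ = N := Finset.card_range N
    _ = ENNReal.ofReal (N * (w * (ε + 900 / u)) + 2 * (2 * u ^ 13 / u ^ 24)) := by
        rw [← ENNReal.ofReal_add (by positivity) (by positivity)]
    _ ≤ ENNReal.ofReal (ε + 1000 / u) := by
        refine ENNReal.ofReal_le_ofReal ?_
        have h1 : (N : ℝ) * (w * (ε + 900 / u)) = ε + 900 / u := by
          rw [← mul_assoc, hNw, one_mul]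
        have h2 : 2 * (2 * u ^ 13 / u ^ 24) = 4 / u ^ 11 := by field_simp; norm_num
        have h3 : 4 / u ^ 11 ≤ 4 / u := by
          apply div_le_div_of_nonneg_left (by norm_num) hu0
          calc u = u ^ 1 := by ring
            _ ≤ u ^ 11 := pow_le_pow_right₀ hu1 (by norm_num)
        have h4 : (1000 : ℝ) / u = 900 / u + 100 / u := by ring
        have h5 : 4 / u ≤ 100 / u := by gcongr; norm_num
        rw [h1, h2, h4]
        linarith

/-- the set of pairs whose `j`-th next digit has a small cosine -/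
def Bd (k κ₀ : ℝ) (j : ℕ) : Set (ℝ × ℝ) :=
  {p | |Real.cos (2 * Real.pi * ((st k)^[j] p).2)| < κ₀}

theorem measurable_st (k : ℝ) : Measurable (st k) := by
  unfold st fr
  fun_prop

theorem measurableSet_Bd (k κ₀ : ℝ) (j : ℕ) : MeasurableSet (Bd k κ₀ j) := by
  unfold Bd
  have h1 : Measurable fun p : ℝ × ℝ => ((st k)^[j] p).2 :=
    measurable_snd.comp ((measurable_st k).iterate j)
  have h2 : Measurable fun p : ℝ × ℝ => |Real.cos (2 * Real.pi * ((st k)^[j] p).2)| := by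
    fun_prop
  exact measurableSet_lt h2 measurable_const

theorem ucb_zero {k κ₀ : ℝ} (hκ₀ : 0 < κ₀) (hκ₁ : κ₀ ≤ 1) (κ : ℝ≥0) :
    UCBound κ (Bd k κ₀ 0) (20 * κ₀) := by
  intro g a _
  have h1 := volume_Vr_unit (k := 1 / κ₀) (by rw [le_div_iff₀ hκ₀]; linarith) (r := 10) (by norm_num) a
  refine (measure_mono ?_).trans (h1.trans (ENNReal.ofReal_le_ofReal ?_))
  · rintro x ⟨hx, hxB⟩
    refine ⟨hx, ?_⟩
    have h2 : |Real.cos (2 * Real.pi * x)| < κ₀ := hxB
    unfold Vr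
    have h3 := Real.pi_lt_d2
    have h4 := Real.pi_pos
    calc |2 + 2 * Real.pi * (1 / κ₀) * Real.cos (2 * Real.pi * x)|
        ≤ |(2 : ℝ)| + |2 * Real.pi * (1 / κ₀) * Real.cos (2 * Real.pi * x)| := abs_add_le _ _
      _ = 2 + 2 * Real.pi * (1 / κ₀) * |Real.cos (2 * Real.pi * x)| := by
          rw [abs_mul, abs_of_nonneg (by positivity : 0 ≤ 2 * Real.pi * (1 / κ₀)),
            abs_of_pos (by norm_num : (0 : ℝ) < 2)]
      _ ≤ 2 + 2 * Real.pi * (1 / κ₀) * κ₀ := by gcongr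
      _ = 2 + 2 * Real.pi := by field_simp
      _ ≤ 10 := by linarith
  · have : 2 * (10 / (1 / κ₀)) = 20 * κ₀ := by field_simp; norm_num
    rw [this]

/-- **Few bad digits at a later time on every unit curve.** -/
theorem ucb_Bd {u : ℝ} (hu : 2000000 ≤ u) {κ₀ : ℝ} (hκ₀ : 0 < κ₀) (hκ₁ : κ₀ ≤ 1 / 100) (j : ℕ)
    (hj : j ≤ 100) :
    UCBound (Real.toNNReal (1 / u ^ 12)) (Bd (u ^ 24) κ₀ j) (20 * κ₀ + j * (1000 / u)) := by
  have hu0 : 0 < u := by linarith
  induction j with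
  | zero =>
    simpa using ucb_zero hκ₀ (by linarith) _
  | succ j ih =>
    have ih' := ih (by omega)
    have hj' : (j : ℝ) ≤ 100 := by exact_mod_cast (by omega : j ≤ 100)
    have h1 : 1000 / u ≤ 1 / 2000 := by
      rw [div_le_div_iff₀ hu0 (by norm_num)]; linarith
    have h2 : 20 * κ₀ + j * (1000 / u) ≤ 1 := by
      have : (j : ℝ) * (1000 / u) ≤ 100 * (1 / 2000) := by gcongr
      linarith
    have h3 := ucb_step hu (by positivity) h2 ih'
    have e : st (u ^ 24) ⁻¹' Bd (u ^ 24) κ₀ j = Bd (u ^ 24) κ₀ (j + 1) := by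
      ext p
      simp only [Bd, mem_preimage, mem_ofPred_eq, Function.iterate_succ_apply]
    rw [e] at h3
    have e2 : 20 * κ₀ + (j : ℝ) * (1000 / u) + 1000 / u = 20 * κ₀ + ((j + 1 : ℕ) : ℝ) * (1000 / u) := by
      push_cast; ring
    rw [← e2]
    exact h3

/-- the pairs of positions are an orbit of `st` -/
theorem orbit_st {k : ℝ} {Y : ℕ → ℝ → ℝ} {t : ℝ} (hY : ∀ n, Y (n + 2) t = fr k (Y (n + 1) t) - Y n t)
    (n j : ℕ) : (st k)^[j] (Y n t, Y (n + 1) t) = (Y (n + j) t, Y (n + j + 1) t) := by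
  induction j with
  | zero => rfl
  | succ j ih =>
    rw [Function.iterate_succ_apply', ih]
    simp only [st]
    have := hY (n + j)
    rw [show n + (j + 1) = n + j + 1 by omega, show n + j + 1 + 1 = n + j + 2 by omega, this]

/-- **Bad digits on a fresh cell.** -/
theorem bad_digit {u : ℝ} (hu : 2000000 ≤ u) {t₀ r : ℝ} (hr : 0 < r) {Y D : ℕ → ℝ → ℝ}
    (h : RO (u ^ 24) (Icc (t₀ - r) (t₀ + r)) Y D)
    (hY : ∀ n, ∀ t ∈ Icc (t₀ - r) (t₀ + r), Y (n + 2) t = fr (u ^ 24) (Y (n + 1) t) - Y n t)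
    {M : ℕ} {η₁ : ℝ} (hη₁ : 0 ≤ η₁) (hη₁' : η₁ ≤ 1 / 20)
    (hNA : NearAff (Y (M + 1)) (D (M + 1)) (Icc (t₀ - r) (t₀ + r)) (D (M + 1) t₀) η₁)
    (hσ : ∀ t ∈ Icc (t₀ - r) (t₀ + r), |D M t| ≤ 1 / 4 * |D (M + 1) t₀|)
    (hsize : 1 / u ^ 9 ≤ |D (M + 1) t₀| * r)
    {κ₀ : ℝ} (hκ₀ : 0 < κ₀) (hκ₁ : κ₀ ≤ 1 / 100) {j : ℕ} (hj : j ≤ 100) :
    volume {t | t ∈ Icc (t₀ - r) (t₀ + r) ∧ |Real.cos (2 * Real.pi * Y (M + 2 + j) t)| < κ₀} ≤
      ENNReal.ofReal (2 * r * (40 * κ₀ + (2000 * j + 24) / u)) := by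
  have hu0 : 0 < u := by linarith
  have h1 := lap_transfer_u (by linarith : (2000 : ℝ) ≤ u) hr h hη₁ hη₁' hNA hσ hsize
    (measurableSet_Bd (u ^ 24) κ₀ j) (by positivity) (ucb_Bd hu hκ₀ hκ₁ j hj)
  refine (measure_mono ?_).trans (h1.trans (ENNReal.ofReal_le_ofReal ?_))
  · rintro t ⟨ht, hc⟩
    refine ⟨ht, ?_⟩
    unfold Bd
    rw [mem_ofPred_eq, orbit_st (fun n => hY n t ht) (M + 1) j]
    rw [show M + 1 + j + 1 = M + 2 + j by omega]
    exact hc
  · refine mul_le_mul_of_nonneg_left (le_of_eq ?_) (by positivity)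
    ring

/-- **All bad digits on a fresh cell**, absolute constant. -/
theorem bad_digits {u : ℝ} (hu : 10 ^ 9 ≤ u) {t₀ r : ℝ} (hr : 0 < r) {Y D : ℕ → ℝ → ℝ}
    (h : RO (u ^ 24) (Icc (t₀ - r) (t₀ + r)) Y D)
    (hY : ∀ n, ∀ t ∈ Icc (t₀ - r) (t₀ + r), Y (n + 2) t = fr (u ^ 24) (Y (n + 1) t) - Y n t)
    {M : ℕ} {η₁ : ℝ} (hη₁ : 0 ≤ η₁) (hη₁' : η₁ ≤ 1 / 20)
    (hNA : NearAff (Y (M + 1)) (D (M + 1)) (Icc (t₀ - r) (t₀ + r)) (D (M + 1) t₀) η₁)
    (hσ : ∀ t ∈ Icc (t₀ - r) (t₀ + r), |D M t| ≤ 1 / 4 * |D (M + 1) t₀|)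
    (hsize : 1 / u ^ 9 ≤ |D (M + 1) t₀| * r) {n : ℕ} (hn : n ≤ 20) :
    volume {t | t ∈ Icc (t₀ - r) (t₀ + r) ∧
        ∃ j < n, |Real.cos (2 * Real.pi * Y (M + 2 + j) t)| < 1 / 10000} ≤
      ENNReal.ofReal (2 * r * (1 / 10)) := by
  have hu0 : (0 : ℝ) < u := by linarith [show (0 : ℝ) < 10 ^ 9 by norm_num]
  have hsub : {t | t ∈ Icc (t₀ - r) (t₀ + r) ∧
      ∃ j < n, |Real.cos (2 * Real.pi * Y (M + 2 + j) t)| < 1 / 10000} ⊆
      ⋃ j ∈ Finset.range n, {t | t ∈ Icc (t₀ - r) (t₀ + r) ∧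
        |Real.cos (2 * Real.pi * Y (M + 2 + j) t)| < 1 / 10000} := by
    rintro t ⟨ht, j, hj, hc⟩
    simp only [mem_iUnion, Finset.mem_range, exists_prop]
    exact ⟨j, hj, ht, hc⟩
  refine (measure_mono hsub).trans ((measure_biUnion_finset_le _ _).trans ?_)
  calc ∑ j ∈ Finset.range n, volume {t | t ∈ Icc (t₀ - r) (t₀ + r) ∧
        |Real.cos (2 * Real.pi * Y (M + 2 + j) t)| < 1 / 10000}
      ≤ ∑ j ∈ Finset.range n, ENNReal.ofReal (2 * r * (1 / 200)) := by
        refine Finset.sum_le_sum fun j hj => ?_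
        have hjn : j < n := Finset.mem_range.1 hj
        refine (bad_digit (by linarith [show (2000000 : ℝ) ≤ 10 ^ 9 by norm_num]) hr h hY hη₁ hη₁' hNA hσ hsize (κ₀ := 1 / 10000) (by norm_num)
          (by norm_num) (by omega : j ≤ 100)).trans (ENNReal.ofReal_le_ofReal ?_)
        refine mul_le_mul_of_nonneg_left ?_ (by positivity)
        have hj20 : (j : ℝ) ≤ 20 := by exact_mod_cast (by omega : j ≤ 20)
        have h3 : (2000 * (j : ℝ) + 24) / u ≤ 1 / 2000 := by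
          rw [div_le_div_iff₀ hu0 (by norm_num)]
          have : (10 : ℝ) ^ 9 ≤ u := hu
          norm_num at this
          nlinarith
        norm_num at h3 ⊢
        linarith
    _ = ENNReal.ofReal (n * (2 * r * (1 / 200))) := by
        rw [Finset.sum_const, Finset.card_range, nsmul_eq_mul, ENNReal.ofReal_mul (p := (n : ℝ)) (by positivity),
          ENNReal.ofReal_natCast]
    _ ≤ ENNReal.ofReal (2 * r * (1 / 10)) := by
        refine ENNReal.ofReal_le_ofReal ?_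
        have hn20 : (n : ℝ) ≤ 20 := by exact_mod_cast hn
        nlinarith

end Crest.Agent.R128.LocD
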