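import Mathlib

/-!
# Row 128, node V5-LOC-A (helper888, backup): numeric sum of the Taylor remainders of one side
-/

set_option autoImplicit false

namespace Crest.Agent.R128.LocNumX

set_option maxHeartbeats 2000000 in
theorem side_sum {k A ρ r0 R b σ : ℝ} {d v rr : ℕ → ℝ} {jS i : ℕ} (hk : 10 ^ 130 ≤ k)
    (hA0 : 1 ≤ A) (hA : 10 ^ 60 * k ^ 2 * Real.sqrt k ≤ A ^ 5) (hρ : 0 < ρ) (hr0 : 0 < r0)
    (hR : 1 ≤ R * ρ) (hR0 : 0 < R) (hb : b = d (jS + i)) (hRb : b ≤ 4 * Real.sqrt k * R)
    (hi : 3 ≤ i) (hJ : jS + i ≤ 900) (hd : ∀ j ≤ jS + i, 0 < d j)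
    (hg : ∀ j < jS + i, v j / 2 * d j ≤ d (j + 1)) (hv : ∀ j ≤ jS, A ≤ v j)
    (hv' : ∀ j, jS < j → j < jS + i → k / 10 ^ 4 ≤ v j)
    (hrr : ∀ j < jS + i, rr j = min r0 (1 / 10 ^ 10 * v j / (k * d j)))
    (h0 : 10 ^ 9 * k * (d 0 * ρ) ≤ (d 0 * r0) ^ 3) (hσ : σ = 4 / R) :
    2 * Real.pi * k * R ^ 2 * ∑ j ∈ Finset.range (jS + i),
      20 / (d j * d (j + 1)) * (σ / rr j) ^ 3 ≤ 1 / 100 := by
  have hk0 : 0 < k := lt_of_lt_of_le (by norm_num) hk
  obtain ⟨s, hs⟩ : ∃ s, s = Real.sqrt k := ⟨_, rfl⟩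
  have hs2 : s ^ 2 = k := by rw [hs]; exact Real.sq_sqrt hk0.le
  have hs0 : 0 ≤ s := by rw [hs]; exact Real.sqrt_nonneg k
  have hs65 : 10 ^ 65 ≤ s := by
    rw [hs]
    apply Real.le_sqrt_of_sq_le
    calc ((10 : ℝ) ^ 65) ^ 2 = 10 ^ 130 := by norm_num
      _ ≤ k := hk
  have hspos : 0 < s := lt_of_lt_of_le (by norm_num) hs65
  rw [← hs] at hA hRb
  have hk1 : (1 : ℝ) ≤ k := le_trans (by norm_num) hk
  have hA5 : (10 : ℝ) ^ 60 ≤ A ^ 5 := by
    refine le_trans ?_ hA
    have h1 : (1 : ℝ) ≤ k ^ 2 := one_le_pow₀ hk1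
    have h2 : (1 : ℝ) ≤ s := le_trans (by norm_num) hs65
    have h3 : (1 : ℝ) ≤ k ^ 2 * s := by nlinarith
    calc (10 : ℝ) ^ 60 = 10 ^ 60 * 1 := by ring
      _ ≤ 10 ^ 60 * (k ^ 2 * s) := by gcongr
      _ = _ := by ring
  have hA2 : 2 ≤ A := by
    by_contra hcon
    push Not at hcon
    have h1 : A ^ 5 < 2 ^ 5 := pow_lt_pow_left₀ hcon (by linarith) (by norm_num)
    have : (2 : ℝ) ^ 5 < 10 ^ 60 := by norm_num
    linarith
  have hApos : 0 < A := by linarith
  -- all `v j ≥ 2`
  have hvpos : ∀ j < jS + i, 2 ≤ v j := by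
    intro j hj
    rcases le_or_gt j jS with h | h
    · exact hA2.trans (hv j h)
    · refine le_trans ?_ (hv' j h hj)
      rw [le_div_iff₀ (by norm_num)]
      exact le_trans (by norm_num) hk
  have hstep : ∀ j < jS + i, d j ≤ d (j + 1) := by
    intro j hj
    have h1 := hvpos j hj
    have h2 := hd j hj.le
    have h3 := hg j hj
    nlinarith
  have hmono : ∀ j j', j ≤ j' → j' ≤ jS + i → d j ≤ d j' := by
    intro j j' hjj'
    induction j', hjj' using Nat.le_induction with
    | base => intro _; exact le_rfl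
    | succ m hm ih =>
      intro hmi
      exact (ih (by omega)).trans (hstep m (by omega))
  have hb0 : 0 < b := by rw [hb]; exact hd _ le_rfl
  have hd0 : 0 < d 0 := hd 0 (by omega)
  have hpi := Real.pi_lt_d2
  have hpi0 := Real.pi_pos
  -- each term
  have hterm : ∀ j ∈ Finset.range (jS + i),
      2 * Real.pi * k * R ^ 2 * (20 / (d j * d (j + 1)) * (σ / rr j) ^ 3) ≤ 1 / 10 ^ 5 := by
    intro j hj
    have hj' := Finset.mem_range.1 hj
    have hdj := hd j hj'.le
    have hdj1 := hd (j + 1) hj'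
    have hvj := hvpos j hj'
    have hvj0 : 0 < v j := by linarith
    rcases min_choice r0 (1 / 10 ^ 10 * v j / (k * d j)) with hmin | hmin
    · -- `rr j = r0`
      rw [hrr j hj', hmin, hσ]
      have e : 2 * Real.pi * k * R ^ 2 * (20 / (d j * d (j + 1)) * (4 / R / r0) ^ 3)
          = 2560 * Real.pi * (k / (d j * d (j + 1) * R * r0 ^ 3)) := by
        field_simp
        ring
      rw [e]
      have h1 : d 0 ≤ d j := hmono 0 j (Nat.zero_le _) hj'.le
      have h2 : d 0 ≤ d (j + 1) := hmono 0 (j + 1) (Nat.zero_le _) hj'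
      have h3 : k / (d j * d (j + 1) * R * r0 ^ 3) ≤ k / (d 0 * d 0 * R * r0 ^ 3) := by
        gcongr
      have h4 : k / (d 0 * d 0 * R * r0 ^ 3) ≤ 1 / 10 ^ 9 := by
        rw [div_le_div_iff₀ (by positivity) (by norm_num)]
        -- 10^9 k ≤ d0^2 R r0^3
        have h5 : 10 ^ 9 * k * ρ ≤ d 0 ^ 2 * r0 ^ 3 := by
          have h6 : 10 ^ 9 * k * ρ * d 0 ≤ d 0 ^ 2 * r0 ^ 3 * d 0 := by
            calc 10 ^ 9 * k * ρ * d 0 = 10 ^ 9 * k * (d 0 * ρ) := by ring
              _ ≤ (d 0 * r0) ^ 3 := h0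
              _ = _ := by ring
          exact le_of_mul_le_mul_right h6 hd0
        calc k * 10 ^ 9 = 10 ^ 9 * k * 1 := by ring
          _ ≤ 10 ^ 9 * k * (R * ρ) := by gcongr
          _ = 10 ^ 9 * k * ρ * R := by ring
          _ ≤ d 0 ^ 2 * r0 ^ 3 * R := by gcongr
          _ = 1 * (d 0 * d 0 * R * r0 ^ 3) := by ring
      have h7 := h3.trans h4
      have h8 : 0 ≤ k / (d j * d (j + 1) * R * r0 ^ 3) := by positivity
      calc 2560 * Real.pi * (k / (d j * d (j + 1) * R * r0 ^ 3))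
          ≤ 2560 * 3.15 * (1 / 10 ^ 9) := by gcongr
        _ ≤ 1 / 10 ^ 5 := by norm_num
    · rw [hrr j hj', hmin, hσ]
      have e : 2 * Real.pi * k * R ^ 2 *
          (20 / (d j * d (j + 1)) * (4 / R / (1 / 10 ^ 10 * v j / (k * d j))) ^ 3)
          = 2560 * Real.pi * 10 ^ 30 * (k ^ 4 * d j ^ 2 / (R * v j ^ 3 * d (j + 1))) := by
        field_simp
        ring
      rw [e]
      have h1 : k ^ 4 * d j ^ 2 / (R * v j ^ 3 * d (j + 1)) ≤
          2 * (k ^ 4 * d j / (R * v j ^ 4)) := by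
        rw [div_le_iff₀ (by positivity)]
        have h2 := hg j hj'
        have e2 : 2 * (k ^ 4 * d j / (R * v j ^ 4)) * (R * v j ^ 3 * d (j + 1))
            = k ^ 4 * d j * (2 / v j * d (j + 1)) := by
          field_simp
        rw [e2]
        have h3 : d j ≤ 2 / v j * d (j + 1) := by
          rw [div_mul_eq_mul_div, le_div_iff₀ hvj0]
          linarith
        calc k ^ 4 * d j ^ 2 = k ^ 4 * d j * d j := by ring
          _ ≤ k ^ 4 * d j * (2 / v j * d (j + 1)) := by gcongr
      have hRinv : 1 / R ≤ 4 * s / b := by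
        rw [div_le_div_iff₀ hR0 hb0]
        linarith
      have h2 : k ^ 4 * d j / (R * v j ^ 4) ≤ 4 * s * k ^ 4 * (d j / b) / v j ^ 4 := by
        have e3 : k ^ 4 * d j / (R * v j ^ 4) = (1 / R) * (k ^ 4 * d j / v j ^ 4) := by
          field_simp
        have e4 : 4 * s * k ^ 4 * (d j / b) / v j ^ 4 = (4 * s / b) * (k ^ 4 * d j / v j ^ 4) := by
          field_simp
        rw [e3, e4]
        gcongr
      -- the crucial bound
      have h3 : s * k ^ 4 * (d j / b) / v j ^ 4 ≤ 1 / 10 ^ 44 := by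
        rcases le_or_gt j jS with hjS | hjS
        · have hvA := hv j hjS
          have hkk : (0 : ℝ) < k / (2 * 10 ^ 4) := by positivity
          have g1 : d j ≤ d jS := hmono j jS hjS (by omega)
          have g2 : A / 2 * d jS ≤ d (jS + 1) := by
            have := hg jS (by omega)
            have h5 := hv jS le_rfl
            have h6 := hd jS (by omega)
            nlinarith
          have g3 : k / (2 * 10 ^ 4) * d (jS + 1) ≤ d (jS + 2) := by
            have := hg (jS + 1) (by omega)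
            have h5 := hv' (jS + 1) (by omega) (by omega)
            have h6 := hd (jS + 1) (by omega)
            have h7 : k / (2 * 10 ^ 4) ≤ v (jS + 1) / 2 := by
              have : k / (2 * 10 ^ 4) = k / 10 ^ 4 / 2 := by ring
              rw [this]; linarith
            calc _ ≤ v (jS + 1) / 2 * d (jS + 1) := by gcongr
              _ ≤ _ := this
          have g4 : k / (2 * 10 ^ 4) * d (jS + 2) ≤ d (jS + 3) := by
            have := hg (jS + 2) (by omega)
            have h5 := hv' (jS + 2) (by omega) (by omega)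
            have h6 := hd (jS + 2) (by omega)
            have h7 : k / (2 * 10 ^ 4) ≤ v (jS + 2) / 2 := by
              have : k / (2 * 10 ^ 4) = k / 10 ^ 4 / 2 := by ring
              rw [this]; linarith
            calc _ ≤ v (jS + 2) / 2 * d (jS + 2) := by gcongr
              _ ≤ _ := this
          have g5 : d (jS + 3) ≤ b := by rw [hb]; exact hmono _ _ (by omega) le_rfl
          have g6 : d j / b ≤ 8 * 10 ^ 8 / (A * k ^ 2) := by
            rw [div_le_div_iff₀ hb0 (by positivity)]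
            have g7 : A / 2 * (k / (2 * 10 ^ 4)) ^ 2 * d j ≤ b := by
              calc A / 2 * (k / (2 * 10 ^ 4)) ^ 2 * d j
                  ≤ A / 2 * (k / (2 * 10 ^ 4)) ^ 2 * d jS := by gcongr
                _ = (k / (2 * 10 ^ 4)) * ((k / (2 * 10 ^ 4)) * (A / 2 * d jS)) := by ring
                _ ≤ (k / (2 * 10 ^ 4)) * ((k / (2 * 10 ^ 4)) * d (jS + 1)) := by gcongr
                _ ≤ (k / (2 * 10 ^ 4)) * d (jS + 2) := by gcongr
                _ ≤ d (jS + 3) := g4
                _ ≤ b := g5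
            have e5 : A / 2 * (k / (2 * 10 ^ 4)) ^ 2 * d j = (d j * (A * k ^ 2)) / (8 * 10 ^ 8) := by
              ring
            rw [e5, div_le_iff₀ (by norm_num)] at g7
            linarith
          have g8 : A ^ 4 ≤ v j ^ 4 := by gcongr
          calc s * k ^ 4 * (d j / b) / v j ^ 4
              ≤ s * k ^ 4 * (8 * 10 ^ 8 / (A * k ^ 2)) / A ^ 4 := by gcongr
            _ = 8 * 10 ^ 8 * (k ^ 2 * s) / A ^ 5 := by field_simp
            _ ≤ 1 / 10 ^ 44 := by
                rw [div_le_div_iff₀ (by positivity) (by norm_num)]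
                have h9 : 0 ≤ k ^ 2 * s := by positivity
                calc 8 * 10 ^ 8 * (k ^ 2 * s) * 10 ^ 44 = (8 * 10 ^ 52) * (k ^ 2 * s) := by ring
                  _ ≤ 10 ^ 60 * (k ^ 2 * s) := by
                      apply mul_le_mul_of_nonneg_right _ h9
                      norm_num
                  _ = 10 ^ 60 * k ^ 2 * s := by ring
                  _ ≤ A ^ 5 := hA
                  _ = 1 * A ^ 5 := by ring
        · have hvk := hv' j hjS hj'
          have g1 : k / (2 * 10 ^ 4) * d j ≤ b := by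
            have h5 := hg j hj'
            have h7 : k / (2 * 10 ^ 4) ≤ v j / 2 := by
              have : k / (2 * 10 ^ 4) = k / 10 ^ 4 / 2 := by ring
              rw [this]; linarith
            calc _ ≤ v j / 2 * d j := by gcongr
              _ ≤ d (j + 1) := h5
              _ ≤ b := by rw [hb]; exact hmono _ _ hj' le_rfl
          have g2 : d j / b ≤ 2 * 10 ^ 4 / k := by
            rw [div_le_div_iff₀ hb0 hk0]
            have e5 : k / (2 * 10 ^ 4) * d j = (d j * k) / (2 * 10 ^ 4) := by ring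
            rw [e5, div_le_iff₀ (by norm_num)] at g1
            linarith
          have g3 : (k / 10 ^ 4) ^ 4 ≤ v j ^ 4 := by gcongr
          calc s * k ^ 4 * (d j / b) / v j ^ 4
              ≤ s * k ^ 4 * (2 * 10 ^ 4 / k) / (k / 10 ^ 4) ^ 4 := by gcongr
            _ = 2 * 10 ^ 20 * s / k := by field_simp
            _ = 2 * 10 ^ 20 / s := by
                rw [← hs2]; field_simp
            _ ≤ 1 / 10 ^ 44 := by
                rw [div_le_div_iff₀ hspos (by norm_num)]
                linarith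
      have h4 : 4 * s * k ^ 4 * (d j / b) / v j ^ 4 = 4 * (s * k ^ 4 * (d j / b) / v j ^ 4) := by
        ring
      rw [h4] at h2
      have h5 : k ^ 4 * d j ^ 2 / (R * v j ^ 3 * d (j + 1)) ≤ 8 / 10 ^ 44 := by
        linarith
      calc 2560 * Real.pi * 10 ^ 30 * (k ^ 4 * d j ^ 2 / (R * v j ^ 3 * d (j + 1)))
          ≤ 2560 * 3.15 * 10 ^ 30 * (8 / 10 ^ 44) := by gcongr
        _ ≤ 1 / 10 ^ 5 := by norm_num
  rw [Finset.mul_sum]
  calc _ ≤ ∑ _j ∈ Finset.range (jS + i), (1 : ℝ) / 10 ^ 5 := Finset.sum_le_sum hterm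
    _ = ((jS + i : ℕ) : ℝ) * (1 / 10 ^ 5) := by
        rw [Finset.sum_const, Finset.card_range, nsmul_eq_mul]
    _ ≤ 900 * (1 / 10 ^ 5) := by
        have : ((jS + i : ℕ) : ℝ) ≤ 900 := by exact_mod_cast hJ
        gcongr
    _ ≤ 1 / 100 := by norm_num

end Crest.Agent.R128.LocNumX
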