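import Crest.Agent.R128.LocDef
import Crest.Agent.R128.Nice

/-!
# Row 128, node V5-LOC: choice of the pair of exits (helper118)

From un-stretched complex discs on both sides (`Nice.UC`) followed by a few nice digits
(`|V| ≥ κ k`) at the real centre `m` one can choose one exit on each side with slope ratio
`1 ≤ |lam| ≤ C √k`, and all the geometric clauses of `Loc.Cell3` hold on the ball `(m, 4/R)`.
-/

set_option autoImplicit false

open Metric
open Crest.Agent.R128 Crest.Agent.R128.Cell Crest.Agent.R128.CellB Crest.Agent.R128.CellDy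
open Crest.Agent.R128.Nice Crest.Agent.R128.Loc

namespace Crest.Agent.R128.LocPair

/-- `UC` reproduces itself (with `a₀ = 1/4`) through a digit with `|V| ≥ W`. -/
theorem UC_next {k c t₁ R a₀ W : ℝ} {n : ℕ} (h : UC k c n t₁ R a₀) (hW : 2 ≤ W)
    (hV : W ≤ ‖cV k (y k (c : ℂ) (n + 1) (t₁ : ℂ))‖) (haW : 2 ≤ a₀ * W)
    (hCK : CK k ≤ (a₀ * W) ^ 2) :
    UC k c (n + 1) t₁ (1 / (4 * ‖yd k (c : ℂ) (n + 2) (t₁ : ℂ)‖)) (1 / 4) := by
  have hg := growth h hW hV
  have hp := h.pos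
  have hR := h.hR
  have hbig := h.big
  set A := ‖yd k (c : ℂ) (n + 1) (t₁ : ℂ)‖ with hA
  set A' := ‖yd k (c : ℂ) (n + 2) (t₁ : ℂ)‖ with hA'
  have hA1 : A ≤ A' := by nlinarith
  have hA'pos : 0 < A' := lt_of_lt_of_le hp hA1
  have hAR : 1 ≤ A' * R := by
    have h1 : W / 2 * A * R ≤ A' * R := mul_le_mul_of_nonneg_right hg hR.le
    have h2 : W / 2 * a₀ ≤ W / 2 * (A * R) := mul_le_mul_of_nonneg_left hbig (by linarith)
    nlinarith
  have hr : 1 / (4 * A') ≤ R := by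
    rw [div_le_iff₀ (by positivity)]
    nlinarith
  have haW0 : 0 < a₀ * W := by linarith
  refine ⟨by positivity, by norm_num, ?_, ?_, ?_⟩
  · refine unst_succ_of_small (cr := c) rfl h.uns hr ?_
    intro t ht
    rw [mem_ball, dist_eq_norm] at ht
    have e : (1 / 4 : ℝ) / A' = 1 / (4 * A') := by
      rw [div_div]
    have hs := (step h hW hV (M := 1 / 4) (by norm_num) (by linarith) (t := t)
      (by rw [e]; exact ht.le)).1
    have h1 : CK k * (1 / 4) * 4 / (a₀ * W) ^ 2 ≤ 1 := by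
      rw [div_le_one (by positivity)]
      linarith
    have h2 : ‖yd k (c : ℂ) (n + 2) t - yd k (c : ℂ) (n + 2) (t₁ : ℂ)‖ ≤ A' := by
      refine hs.trans ?_
      calc _ ≤ 1 * A' := mul_le_mul_of_nonneg_right h1 hA'pos.le
        _ = A' := one_mul _
    have h3 : ‖yd k (c : ℂ) (n + 2) t‖ ≤ 2 * A' := by
      have := norm_sub_norm_le (yd k (c : ℂ) (n + 2) t) (yd k (c : ℂ) (n + 2) (t₁ : ℂ))
      linarith
    calc ‖yd k (c : ℂ) (n + 1 + 1) t‖ * (1 / (4 * A')) ≤ 2 * A' * (1 / (4 * A')) :=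
          mul_le_mul_of_nonneg_right h3 (by positivity)
      _ = 1 / 2 := by field_simp; norm_num
      _ ≤ 1 := by norm_num
  · show 1 / 4 ≤ A' * (1 / (4 * A'))
    have : A' * (1 / (4 * A')) = 1 / 4 := by field_simp
    rw [this]
  · exact hA1

theorem UC_chain {k c t₁ R κ : ℝ} {n g : ℕ} (h : UC k c n t₁ R (1 / 4)) (hκ : 8 ≤ κ * k)
    (hCK : CK k ≤ (κ * k / 4) ^ 2)
    (hV : ∀ i < g, κ * k ≤ ‖cV k (y k (c : ℂ) (n + 1 + i) (t₁ : ℂ))‖) :
    ∀ i ≤ g, ∃ R', UC k c (n + i) t₁ R' (1 / 4) := by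
  intro i
  induction i with
  | zero => intro _; exact ⟨R, h⟩
  | succ i ih =>
    intro hi
    obtain ⟨R', h'⟩ := ih (by omega)
    have hv := hV i (by omega)
    have e : n + 1 + i = n + i + 1 := by omega
    rw [e] at hv
    refine ⟨_, UC_next h' (W := κ * k) (by linarith) hv (by linarith) ?_⟩
    have : (1 / 4 * (κ * k)) = κ * k / 4 := by ring
    rw [this]
    exact hCK

/-- estimates at the index `n+1+i`, `1 ≤ i ≤ g` -/
theorem est {k c t₁ R κ : ℝ} {n g : ℕ} (h : UC k c n t₁ R (1 / 4)) (hκ0 : 0 < κ) (hk : 1 ≤ k)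
    (hκ : 8 ≤ κ * k) (hCK : CK k ≤ (κ * k / 4) ^ 2)
    (hV : ∀ i < g, κ * k ≤ ‖cV k (y k (c : ℂ) (n + 1 + i) (t₁ : ℂ))‖) {i : ℕ} (hi : i < g)
    {M : ℝ} (hM : 0 ≤ M) (hMk : 32 * M ≤ κ * k) {t : ℂ}
    (ht : ‖t - t₁‖ ≤ M / ‖yd k (c : ℂ) (n + i + 2) (t₁ : ℂ)‖) :
    ‖yd k (c : ℂ) (n + i + 2) t - yd k (c : ℂ) (n + i + 2) (t₁ : ℂ)‖ ≤
      128 * 10 ^ 6 / κ ^ 2 * M / k * ‖yd k (c : ℂ) (n + i + 2) (t₁ : ℂ)‖ ∧
    ‖yd k (c : ℂ) (n + i + 1) t‖ ≤ 64 / κ / k * ‖yd k (c : ℂ) (n + i + 2) (t₁ : ℂ)‖ := by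
  obtain ⟨R', h'⟩ := UC_chain h hκ hCK hV i hi.le
  have hv := hV i hi
  have e : n + 1 + i = n + i + 1 := by omega
  rw [e] at hv
  obtain ⟨h1, h2⟩ := step h' (W := κ * k) (by linarith) hv hM (by linarith) ht
  have hk0 : 0 < k := by linarith
  constructor
  · refine h1.trans (mul_le_mul_of_nonneg_right ?_ (norm_nonneg _))
    rw [div_le_div_iff₀ (by positivity) hk0]
    have hc := CK_le hk
    have e2 : 128 * 10 ^ 6 / κ ^ 2 * M * (1 / 4 * (κ * k)) ^ 2 = 8 * 10 ^ 6 * M * k ^ 2 := by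
      field_simp
      ring
    rw [e2]
    have : CK k * M ≤ 2 * 10 ^ 6 * k * M := mul_le_mul_of_nonneg_right hc hM
    nlinarith
  · refine h2.trans (mul_le_mul_of_nonneg_right ?_ (norm_nonneg _))
    rw [div_div, div_le_div_iff₀ (by positivity) (by positivity)]
    nlinarith

/-- a geometric chain comes `√ρ`-close to any number between its ends -/
theorem select {T : ℕ → ℝ} {x ρ : ℝ} (hρ : 1 ≤ ρ) (hx0 : 0 < x) (hpos : ∀ i, 0 < T i)
    (h1 : T 0 ≤ x) : ∀ g : ℕ, (∀ i < g, T (i + 1) ≤ ρ * T i) → x ≤ T g →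
    ∃ j ≤ g, (T j ≤ x ∧ x ≤ Real.sqrt ρ * T j) ∨ (x ≤ T j ∧ T j ≤ Real.sqrt ρ * x) := by
  have hs : 1 ≤ Real.sqrt ρ := by
    rw [Real.one_le_sqrt]; exact hρ
  have hss : Real.sqrt ρ * Real.sqrt ρ = ρ := Real.mul_self_sqrt (by linarith)
  intro g
  induction g with
  | zero =>
    intro _ hx
    refine ⟨0, le_rfl, Or.inl ⟨h1, ?_⟩⟩
    have := hpos 0
    nlinarith
  | succ g ih =>
    intro hst hx
    by_cases h : x ≤ T g
    · obtain ⟨j, hj, h'⟩ := ih (fun i hi => hst i (by omega)) h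
      exact ⟨j, by omega, h'⟩
    · push Not at h
      by_cases h2 : x ≤ Real.sqrt ρ * T g
      · exact ⟨g, by omega, Or.inl ⟨h.le, h2⟩⟩
      · push Not at h2
        refine ⟨g + 1, le_rfl, Or.inr ⟨hx, ?_⟩⟩
        have h3 := hst g (by omega)
        have h4 : Real.sqrt ρ * (Real.sqrt ρ * T g) ≤ Real.sqrt ρ * x :=
          mul_le_mul_of_nonneg_left h2.le (by linarith)
        have h5 : Real.sqrt ρ * (Real.sqrt ρ * T g) = ρ * T g := by rw [← mul_assoc, hss]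
        linarith

/-- real starting point of the side -/
theorem sdC_ofReal (k c : ℝ) (s : Bool) (m : ℝ) : sdC k c s (m : ℂ) = ((sd k c s m : ℝ) : ℂ) := by
  cases s <;> simp [sdC, sd]

theorem norm_sdC_sub (k c : ℝ) (s : Bool) (z : ℂ) (m : ℝ) :
    ‖sdC k c s z - ((sd k c s m : ℝ) : ℂ)‖ = ‖z - m‖ := by
  rw [← sdC_ofReal]
  cases s
  · unfold sdC
    simp only [Bool.false_eq_true, if_false]
    rw [show (kap k c : ℂ) - z - ((kap k c : ℂ) - m) = -(z - m) by ring, norm_neg]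
  · simp [sdC]

/-- the derivative at a real point is real -/
theorem D_real (k c : ℝ) (s : Bool) (n : ℕ) (m : ℝ) : ∃ d : ℝ, D k c s n (m : ℂ) = (d : ℂ) := by
  unfold D
  rw [sdC_ofReal, yd_ofReal]
  exact ⟨_, rfl⟩

/-- the geometric clauses of `Cell3` -/
structure Geo (k c : ℝ) (s : Bool) (n n' : ℕ) (m R lam C1 : ℝ) : Prop where
  hlam : 1 ≤ |lam|
  hR0 : 0 < R
  hD : ‖D k c s (n + 1) (m : ℂ)‖ = R
  slow : ∃ σ : ℝ, (σ = 1 ∨ σ = -1) ∧
    ∀ z ∈ ball (m : ℂ) (4 / R), ‖D k c s (n + 1) z - (σ * R : ℝ)‖ ≤ C1 * R / k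
  slow0 : ∀ z ∈ ball (m : ℂ) (4 / R), ‖D k c s n z‖ ≤ C1 * R / k
  hD' : D k c (!s) (n' + 1) (m : ℂ) = ((lam * R : ℝ) : ℂ)
  fast : ∀ z ∈ ball (m : ℂ) (4 / R),
    ‖D k c (!s) (n' + 1) z - (lam * R : ℝ)‖ ≤ C1 * |lam| ^ 2 * R / k
  fast0 : ∀ z ∈ ball (m : ℂ) (4 / R), ‖D k c (!s) n' z‖ ≤ C1 * |lam| * R / k

theorem Geo.toCell3 {k c : ℝ} {s : Bool} {n n' : ℕ} {m R lam C1 q0 q1 q2 : ℝ}
    (h : Geo k c s n n' m R lam C1) (hR : 1 ≤ R)
    (hq : ∀ z ∈ ball (m : ℂ) (4 / R),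
      ‖(2 * Real.pi * k * R ^ 2 : ℝ) * cont k c s (n + 1) (n' + 1) z -
        (q0 + q1 * ((R : ℂ) * (z - m)) + q2 * ((R : ℂ) * (z - m)) ^ 2)‖ ≤ 1 / 16) :
    Cell3 k c s n n' m R lam C1 q0 q1 q2 :=
  ⟨hR, h.hlam, h.slow, h.slow0, h.fast, h.fast0, hq⟩

/-- one-sided data: an un-stretched disc of unit size at the exit `n+1` followed by `g` nice
digits -/
structure Side (k c : ℝ) (s : Bool) (n g : ℕ) (m κ : ℝ) : Prop where
  uc : ∃ R, UC k c n (sd k c s m) R (1 / 4)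
  nice : ∀ i < g, κ * k ≤ ‖dg k c s (m : ℂ) (n + 1 + i)‖

/-- slope number `i` after the exit `n+1` -/
noncomputable def slp (k c : ℝ) (s : Bool) (n : ℕ) (m : ℝ) (i : ℕ) : ℝ :=
  ‖D k c s (n + i + 2) (m : ℂ)‖

section
variable {k c m κ : ℝ} {s : Bool} {n g : ℕ}

theorem Side.nice' (h : Side k c s n g m κ) : ∀ i < g, κ * k ≤
    ‖cV k (y k (c : ℂ) (n + 1 + i) ((sd k c s m : ℝ) : ℂ))‖ := by
  intro i hi
  have := h.nice i hi
  unfold dg Y at this
  rwa [sdC_ofReal] at this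

theorem Side.est (h : Side k c s n g m κ) (hκ0 : 0 < κ) (hk : 1 ≤ k)
    (hκ : 8 ≤ κ * k) (hCK : CK k ≤ (κ * k / 4) ^ 2) {i : ℕ} (hi : i < g)
    {M : ℝ} (hM : 0 ≤ M) (hMk : 32 * M ≤ κ * k) {z : ℂ}
    (hz : ‖z - m‖ ≤ M / slp k c s n m i) :
    ‖D k c s (n + i + 2) z - D k c s (n + i + 2) (m : ℂ)‖ ≤
      128 * 10 ^ 6 / κ ^ 2 * M / k * slp k c s n m i ∧
    ‖D k c s (n + i + 1) z‖ ≤ 64 / κ / k * slp k c s n m i := by
  obtain ⟨R, hR⟩ := h.uc
  unfold slp D at *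
  rw [sdC_ofReal] at *
  exact LocPair.est hR hκ0 hk hκ hCK h.nice' hi hM hMk (by rw [norm_sdC_sub]; exact hz)

theorem Side.step (h : Side k c s n g m κ) (hκ : 8 ≤ κ * k) (hCK : CK k ≤ (κ * k / 4) ^ 2)
    {i : ℕ} (hi : i < g) : 0 < slp k c s n m i ∧
    (i + 1 < g → slp k c s n m (i + 1) ≤ (CV k + 1) * slp k c s n m i) := by
  obtain ⟨R, hR⟩ := h.uc
  obtain ⟨R', h'⟩ := UC_chain hR hκ hCK h.nice' (i + 1) hi
  refine ⟨?_, fun hi2 => ?_⟩
  · have := h'.pos
    unfold slp D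
    rw [sdC_ofReal]
    rw [show n + i + 2 = n + (i + 1) + 1 by omega]
    exact this
  · have := growth_le h'
    unfold slp D
    rw [sdC_ofReal]
    rw [show n + (i + 1) + 2 = n + (i + 1) + 2 by rfl, show n + i + 2 = n + (i + 1) + 1 by omega]
    exact this

/-- the geometric clauses from a slow side with index `i` and a fast side with index `j` -/
theorem geo_of_sides {n' g' i j : ℕ} (h : Side k c s n g m κ) (h' : Side k c (!s) n' g' m κ)
    (hκ0 : 0 < κ) (hk : 1 ≤ k) (hκ : 128 ≤ κ * k) (hCK : CK k ≤ (κ * k / 4) ^ 2) (hi : i < g)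
    (hj : j < g') {ρ : ℝ} (hle : slp k c s n m i ≤ slp k c (!s) n' m j)
    (hle' : slp k c (!s) n' m j ≤ ρ * slp k c s n m i) (hρk : 128 * ρ ≤ κ * k) :
    ∃ lam : ℝ, |lam| ≤ ρ ∧
      Geo k c s (n + i + 1) (n' + j + 1) m (slp k c s n m i) lam (512 * 10 ^ 6 / κ ^ 2 + 64 / κ) := by
  have hκ8 : 8 ≤ κ * k := by linarith
  have hS := (h.step hκ8 hCK hi).1
  have hT := (h'.step hκ8 hCK hj).1
  have hk0 : 0 < k := by linarith
  set S := slp k c s n m i with hSdef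
  set T := slp k c (!s) n' m j with hTdef
  obtain ⟨d, hd⟩ := D_real k c s (n + i + 2) m
  obtain ⟨d', hd'⟩ := D_real k c (!s) (n' + j + 2) m
  have hSd : S = |d| := by
    rw [hSdef]; unfold slp; rw [hd, Complex.norm_real, Real.norm_eq_abs]
  have hTd : T = |d'| := by
    rw [hTdef]; unfold slp; rw [hd', Complex.norm_real, Real.norm_eq_abs]
  have hlamabs : |d' / S| = T / S := by
    rw [abs_div, ← hTd, abs_of_pos hS]
  have hlam1 : 1 ≤ T / S := by rw [one_le_div hS]; exact hle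
  have hlamρ : T / S ≤ ρ := by rw [div_le_iff₀ hS]; exact hle'
  have hlamR : d' / S * S = d' := div_mul_cancel₀ _ hS.ne'
  have hC0 : 0 < 64 / κ := by positivity
  have hC1 : 0 < 512 * 10 ^ 6 / κ ^ 2 := by positivity
  refine ⟨d' / S, by rw [hlamabs]; exact hlamρ, ?_, hS, ?_, ?_, ?_, ?_, ?_, ?_⟩
  · rw [hlamabs]; exact hlam1
  · rfl
  · -- slow
    have key : ∀ z ∈ ball (m : ℂ) (4 / S), ‖D k c s (n + i + 2) z - (d : ℂ)‖ ≤
        (512 * 10 ^ 6 / κ ^ 2 + 64 / κ) * S / k := by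
      intro z hz
      rw [mem_ball, dist_eq_norm] at hz
      have h1 := (h.est hκ0 hk hκ8 hCK hi (M := 4) (by norm_num) (by linarith) (z := z) hz.le).1
      rw [hd] at h1
      refine h1.trans ?_
      rw [← hSdef]
      have e : 128 * 10 ^ 6 / κ ^ 2 * 4 / k * S = 512 * 10 ^ 6 / κ ^ 2 * S / k := by ring
      rw [e]
      gcongr
      linarith
    rcases le_or_gt 0 d with h0 | h0
    · refine ⟨1, Or.inl rfl, ?_⟩
      intro z hz
      have e : ((1 * S : ℝ) : ℂ) = (d : ℂ) := by rw [hSd, abs_of_nonneg h0, one_mul]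
      rw [e]; exact key z hz
    · refine ⟨-1, Or.inr rfl, ?_⟩
      intro z hz
      have e : ((-1 * S : ℝ) : ℂ) = (d : ℂ) := by rw [hSd, abs_of_neg h0]; ring_nf
      rw [e]; exact key z hz
  · -- slow0
    intro z hz
    rw [mem_ball, dist_eq_norm] at hz
    have h1 := (h.est hκ0 hk hκ8 hCK hi (M := 4) (by norm_num) (by linarith) (z := z) hz.le).2
    refine h1.trans ?_
    rw [← hSdef]
    have e : 64 / κ / k * S = 64 / κ * S / k := by ring
    rw [e]
    gcongr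
    linarith
  · -- hD'
    rw [hlamR]; exact hd'
  · -- fast
    intro z hz
    rw [mem_ball, dist_eq_norm] at hz
    rw [hlamR, hlamabs]
    have hM : 4 / S = 4 * (T / S) / T := by field_simp
    have h1 := (h'.est hκ0 hk hκ8 hCK hj (M := 4 * (T / S)) (by positivity)
      (by nlinarith) (z := z) (by rw [← hTdef, ← hM]; exact hz.le)).1
    rw [hd'] at h1
    refine h1.trans ?_
    rw [← hTdef]
    have e : 128 * 10 ^ 6 / κ ^ 2 * (4 * (T / S)) / k * T =
        512 * 10 ^ 6 / κ ^ 2 * (T / S) ^ 2 * S / k := by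
      field_simp
      ring
    rw [e]
    gcongr
    linarith
  · -- fast0
    intro z hz
    rw [mem_ball, dist_eq_norm] at hz
    rw [hlamabs]
    have hM : 4 / S = 4 * (T / S) / T := by field_simp
    have h1 := (h'.est hκ0 hk hκ8 hCK hj (M := 4 * (T / S)) (by positivity)
      (by nlinarith) (z := z) (by rw [← hTdef, ← hM]; exact hz.le)).2
    refine h1.trans ?_
    rw [← hTdef]
    have e : 64 / κ / k * T = 64 / κ * (T / S) * S / k := by
      field_simp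
    rw [e]
    gcongr
    linarith

end

/-- **choice of the pair of exits** -/
theorem exists_pair {κ : ℝ} (hκ0 : 0 < κ) : ∃ C1 k1 : ℝ, 1 ≤ C1 ∧ 1 ≤ k1 ∧ ∀ k : ℝ, k1 ≤ k →
    ∀ (c m : ℝ) (n : Bool → ℕ) (g : ℕ), 1 ≤ g → (∀ s, Side k c s (n s) g m κ) →
    (∀ s, slp k c s (n s) m 0 ≤ slp k c (!s) (n (!s)) m (g - 1)) →
    ∃ (s : Bool) (i j : ℕ) (R lam : ℝ), i < g ∧ j < g ∧ |lam| ≤ C1 * Real.sqrt k ∧
      (∀ s', slp k c s' (n s') m 0 ≤ C1 * Real.sqrt k * R) ∧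
      (∃ s', R ≤ slp k c s' (n s') m 0) ∧
      Geo k c s (n s + i + 1) (n (!s) + j + 1) m R lam C1 := by
  set ρ : ℝ → ℝ := fun k => Real.sqrt (CV k + 1) with hρ
  set C1 : ℝ := 512 * 10 ^ 6 / κ ^ 2 + 64 / κ + 10 ^ 4 with hC1
  have hC1' : 1 ≤ C1 := by
    have : 0 < 512 * 10 ^ 6 / κ ^ 2 + 64 / κ := by positivity
    linarith
  refine ⟨C1, max 1 (max (128 / κ) (max (32 * 10 ^ 6 / κ ^ 2) (128 ^ 2 * 10 ^ 4 / κ ^ 2))), hC1',
    le_max_left _ _, ?_⟩
  intro k hk c m n g hg hs hov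
  have hk1 : 1 ≤ k := le_trans (le_max_left _ _) hk
  have hk2 : 128 / κ ≤ k := le_trans ((le_max_left _ _).trans (le_max_right _ _)) hk
  have hk3 : 32 * 10 ^ 6 / κ ^ 2 ≤ k :=
    le_trans (((le_max_left _ _).trans (le_max_right _ _)).trans (le_max_right _ _)) hk
  have hk4 : 128 ^ 2 * 10 ^ 4 / κ ^ 2 ≤ k :=
    le_trans (((le_max_right _ _).trans (le_max_right _ _)).trans (le_max_right _ _)) hk
  have hk0 : 0 < k := by linarith
  have hκk : 128 ≤ κ * k := by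
    rw [div_le_iff₀ hκ0] at hk2; linarith
  have hκ8 : 8 ≤ κ * k := by linarith
  have hCK : CK k ≤ (κ * k / 4) ^ 2 := by
    refine (CK_le hk1).trans ?_
    rw [div_le_iff₀ (by positivity)] at hk3
    nlinarith
  have hCV : CV k + 1 ≤ 10 ^ 4 * k := by
    have := CK_le hk1
    have h2 := CL_nonneg k
    have h3 : CV k + 1 ≤ 3600 * k + 3 := by
      unfold CV
      rw [abs_of_nonneg (by linarith : (0:ℝ) ≤ k)]
      have hpi := Real.pi_lt_d2
      have hpi0 := Real.pi_pos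
      have he : Real.exp (2 * Real.pi) ≤ 560 := by
        have h1 : 2 * Real.pi ≤ 6.3 := by linarith
        have h2 : Real.exp (2 * Real.pi) ≤ Real.exp 6.3 := Real.exp_le_exp.2 h1
        have h3 : Real.exp (6.3 : ℝ) = Real.exp (0.9) ^ 7 := by
          rw [← Real.exp_nat_mul]; norm_num
        have h4 : Real.exp (0.9 : ℝ) ≤ 2.461 := by
          have := Real.exp_bound' (x := 0.9) (by norm_num) (by norm_num) (n := 6) (by norm_num)
          refine this.trans ?_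
          simp [Finset.sum_range_succ, Nat.factorial]
          norm_num
        rw [h3] at h2
        refine h2.trans ?_
        calc Real.exp (0.9 : ℝ) ^ 7 ≤ 2.461 ^ 7 := pow_le_pow_left₀ (Real.exp_pos _).le h4 7
          _ ≤ 560 := by norm_num
      have he0 := Real.exp_pos (2 * Real.pi)
      have h6 : 2 * Real.pi * Real.exp (2 * Real.pi) ≤ 3528 := by nlinarith
      nlinarith
    linarith
  have hCV0 : 1 ≤ CV k + 1 := by linarith [CV_ge k]
  have hρle : ρ k ≤ 100 * Real.sqrt k := by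
    have h1 : ρ k ≤ Real.sqrt (10 ^ 4 * k) := Real.sqrt_le_sqrt hCV
    have h2 : Real.sqrt (10 ^ 4 * k) = 100 * Real.sqrt k := by
      rw [Real.sqrt_mul (by norm_num), show (10:ℝ) ^ 4 = 100 ^ 2 by norm_num,
        Real.sqrt_sq (by norm_num)]
    rw [h2] at h1; exact h1
  have hsk : 0 < Real.sqrt k := Real.sqrt_pos.2 hk0
  have hρk : 128 * ρ k ≤ κ * k := by
    have h1 : 128 * 100 ≤ κ * Real.sqrt k := by
      have h2 : (128 * 100 / κ) ^ 2 ≤ k := by
        have e : (128 * 100 / κ) ^ 2 = 128 ^ 2 * 10 ^ 4 / κ ^ 2 := by ring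
        rw [e]; exact hk4
      have h3 : 128 * 100 / κ ≤ Real.sqrt k := Real.le_sqrt_of_sq_le h2
      rw [div_le_iff₀ hκ0] at h3
      linarith
    have h4 : κ * k = κ * Real.sqrt k * Real.sqrt k := by
      rw [mul_assoc, Real.mul_self_sqrt hk0.le]
    rw [h4]
    nlinarith
  have hρC : ρ k ≤ C1 * Real.sqrt k := by
    refine hρle.trans ?_
    have : 0 < 512 * 10 ^ 6 / κ ^ 2 + 64 / κ := by positivity
    have : (100:ℝ) ≤ C1 := by rw [hC1]; linarith
    exact mul_le_mul_of_nonneg_right this hsk.le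
  have hρ1 : 1 ≤ C1 * Real.sqrt k := by
    have h1 : 1 ≤ Real.sqrt k := by rw [Real.one_le_sqrt]; exact hk1
    nlinarith
  -- monotonicity in the constant
  have up : ∀ {s : Bool} {a b : ℕ} {R lam : ℝ},
      Geo k c s a b m R lam (512 * 10 ^ 6 / κ ^ 2 + 64 / κ) → Geo k c s a b m R lam C1 := by
    intro s a b R lam h
    have hR := h.hR0
    have hle : 512 * 10 ^ 6 / κ ^ 2 + 64 / κ ≤ C1 := by rw [hC1]; linarith
    refine ⟨h.hlam, h.hR0, h.hD, ?_, ?_, h.hD', ?_, ?_⟩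
    · obtain ⟨σ, h1, h2⟩ := h.slow
      exact ⟨σ, h1, fun z hz => (h2 z hz).trans (by gcongr)⟩
    · exact fun z hz => (h.slow0 z hz).trans (by gcongr)
    · exact fun z hz => (h.fast z hz).trans (by gcongr)
    · exact fun z hz => (h.fast0 z hz).trans (by gcongr)
  -- the side whose first slope is the larger one
  have main : ∀ s0 : Bool, slp k c (!s0) (n (!s0)) m 0 ≤ slp k c s0 (n s0) m 0 →
      ∃ (s : Bool) (i j : ℕ) (R lam : ℝ), i < g ∧ j < g ∧ |lam| ≤ C1 * Real.sqrt k ∧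
      (∀ s', slp k c s' (n s') m 0 ≤ C1 * Real.sqrt k * R) ∧
      (∃ s', R ≤ slp k c s' (n s') m 0) ∧
      Geo k c s (n s + i + 1) (n (!s) + j + 1) m R lam C1 := by
    intro s0 hle
    set x := slp k c s0 (n s0) m 0 with hx
    have hx0 : 0 < x := ((hs s0).step hκ8 hCK (i := 0) (by omega)).1
    -- a chain which is positive everywhere
    set T : ℕ → ℝ := fun i => if i < g then slp k c (!s0) (n (!s0)) m i else 1 with hT
    have hTpos : ∀ i, 0 < T i := by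
      intro i
      simp only [hT]
      split_ifs with h
      · exact ((hs (!s0)).step hκ8 hCK h).1
      · exact one_pos
    have hT' : ∀ i < g, T i = slp k c (!s0) (n (!s0)) m i := fun i hi => by
      simp only [hT]; rw [if_pos hi]
    obtain ⟨j, hj, h⟩ := select (T := T) (x := x) hCV0 hx0 hTpos
      (by rw [hT' 0 (by omega)]; exact hle) (g - 1)
      (fun i hi => by
        rw [hT' i (by omega), hT' (i + 1) (by omega)]
        exact ((hs (!s0)).step hκ8 hCK (i := i) (by omega)).2 (by omega))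
      (by rw [hT' (g - 1) (by omega)]; exact hov s0)
    have hjg : j < g := by omega
    rw [hT' j hjg] at h
    have hss : ∀ s', slp k c s' (n s') m 0 ≤ x := by
      intro s'
      cases s' <;> cases s0 <;> simp_all
    rcases h with ⟨h1, h2⟩ | ⟨h1, h2⟩
    · -- slow side `!s0`, fast side `s0`
      have hb : (!(!s0)) = s0 := by cases s0 <;> rfl
      obtain ⟨lam, hl, hgeo⟩ := geo_of_sides (s := !s0) (n := n (!s0)) (g := g) (n' := n s0)
        (g' := g) (i := j) (j := 0) (hs (!s0)) (by rw [hb]; exact hs s0) hκ0 hk1 hκk hCK hjg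
        (by omega) (ρ := ρ k) (by rw [hb]; exact h1) (by rw [hb]; exact h2) hρk
      refine ⟨!s0, j, 0, _, lam, hjg, by omega, hl.trans hρC, ?_, ⟨s0, h1⟩, ?_⟩
      · intro s'
        refine (hss s').trans (h2.trans ?_)
        exact mul_le_mul_of_nonneg_right hρC ((hs (!s0)).step hκ8 hCK hjg).1.le
      · rw [hb]
        exact up hgeo
    · obtain ⟨lam, hl, hgeo⟩ := geo_of_sides (s := s0) (n := n s0) (g := g) (n' := n (!s0))
        (g' := g) (i := 0) (j := j) (hs s0) (hs (!s0)) hκ0 hk1 hκk hCK (by omega)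
        hjg (ρ := ρ k) h1 h2 hρk
      refine ⟨s0, 0, j, _, lam, by omega, hjg, hl.trans hρC, ?_, ⟨s0, le_rfl⟩, up hgeo⟩
      intro s'
      refine (hss s').trans ?_
      have := mul_le_mul_of_nonneg_right hρ1 hx0.le
      rw [one_mul] at this
      exact this
  rcases le_total (slp k c false (n false) m 0) (slp k c true (n true) m 0) with h | h
  · exact main true h
  · exact main false h

end Crest.Agent.R128.LocPair
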