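import Crest.Agent.R128.LocPair
import Crest.Agent.R128.NiceUD

/-!
# Row 128, node V5-LOC: choice of the pair of exits, `UD` version (helper118)

Same as `LocPair.exists_pair` but from helper223's discs `NicePts.UD` (nearly constant exit
derivative) instead of `Nice.UC`.
-/

set_option autoImplicit false

open Metric
open Crest.Agent.R128 Crest.Agent.R128.Cell Crest.Agent.R128.CellB Crest.Agent.R128.CellDy
open Crest.Agent.R128.Loc Crest.Agent.R128.NicePts

namespace Crest.Agent.R128.LocPairU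

open Crest.Agent.R128.LocPair (Geo slp select D_real)

/-- one-sided data: a disc of unit size at the exit `n+1` with nearly constant derivative, followed
by `g` nice digits -/
structure SideU (k c : ℝ) (s : Bool) (n g : ℕ) (m κ : ℝ) : Prop where
  ud : ∃ R, UD k c s n m R 1 (1 / 4)
  nice : ∀ i < g, κ * k ≤ ‖dg k c s (m : ℂ) (n + 1 + i)‖

/-- the constants are large enough -/
structure Big (k κ : ℝ) : Prop where
  κ0 : 0 < κ
  k1 : 1 ≤ k
  b1 : 128 ≤ κ * k
  b2 : 2240000 * k ≤ (κ * k) ^ 2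

variable {k c m κ : ℝ} {s : Bool} {n g : ℕ}

theorem eta_le (hB : Big k κ) {V : ℝ} (hV : κ * k ≤ V) {M : ℝ} (hM : 0 < M) (hM1 : 1 / 2 ≤ M) :
    140000 * k * M / V ^ 2 + 10 * (1 / 4) * M / (V * 1) + 3 / V ≤
      (140000 / κ ^ 2 + 9 / κ) * M / k := by
  have hκ := hB.κ0
  have hk : 0 < k := by linarith [hB.k1]
  have hκk : 0 < κ * k := by positivity
  have hV0 : 0 < V := lt_of_lt_of_le hκk hV
  have h1 : 140000 * k * M / V ^ 2 ≤ 140000 * k * M / (κ * k) ^ 2 :=
    div_le_div_of_nonneg_left (by positivity) (by positivity) (pow_le_pow_left₀ hκk.le hV 2)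
  have h2 : 10 * (1 / 4) * M / (V * 1) ≤ 10 * (1 / 4) * M / (κ * k) := by
    rw [mul_one]
    exact div_le_div_of_nonneg_left (by positivity) hκk hV
  have h3 : 3 / V ≤ 6 * M / (κ * k) := by
    refine (div_le_div_of_nonneg_left (by norm_num) hκk hV).trans ?_
    exact div_le_div_of_nonneg_right (by linarith) hκk.le
  have e : (140000 / κ ^ 2 + 9 / κ) * M / k =
      140000 * k * M / (κ * k) ^ 2 + 9 * M / (κ * k) := by
    field_simp
  rw [e]
  have e2 : 10 * (1 / 4) * M / (κ * k) + 6 * M / (κ * k) ≤ 9 * M / (κ * k) := by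
    rw [← add_div]
    exact div_le_div_of_nonneg_right (by linarith) hκk.le
  linarith

/-- reset to `a = 1`, `η = 1/4` after a nice digit -/
theorem UD_next (hB : Big k κ) {R : ℝ} (h : UD k c s n m R 1 (1 / 4))
    (hV : κ * k ≤ ‖dg k c s (m : ℂ) (n + 1)‖) :
    ∃ R', UD k c s (n + 1) m R' 1 (1 / 4) := by
  have hb1 := hB.b1
  have hb2 := hB.b2
  have hk := hB.k1
  have h1 := h.step hk le_rfl (V := ‖dg k c s (m : ℂ) (n + 1)‖) rfl (by linarith) (M := 1) one_pos
    (by linarith) (by linarith)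
  refine ⟨_, h1.mono h1.hR le_rfl one_pos h1.big ?_⟩
  set V := ‖dg k c s (m : ℂ) (n + 1)‖
  have hV0 : 0 < V := by linarith
  have a1 : 140000 * k * 1 / V ^ 2 ≤ 1 / 16 := by
    rw [div_le_div_iff₀ (by positivity) (by norm_num)]
    have : (κ * k) ^ 2 ≤ V ^ 2 := pow_le_pow_left₀ (by linarith) hV 2
    linarith
  have a2 : 10 * (1 / 4) * 1 / (V * 1) ≤ 1 / 16 := by
    rw [div_le_div_iff₀ (by positivity) (by norm_num)]
    linarith
  have a3 : 3 / V ≤ 1 / 16 := by
    rw [div_le_div_iff₀ hV0 (by norm_num)]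
    linarith
  linarith

theorem SideU.chain (hB : Big k κ) (h : SideU k c s n g m κ) :
    ∀ i ≤ g, ∃ R, UD k c s (n + i) m R 1 (1 / 4) := by
  intro i
  induction i with
  | zero => intro _; exact h.ud
  | succ i ih =>
    intro hi
    obtain ⟨R, hR⟩ := ih (by omega)
    have hv := h.nice i (by omega)
    rw [show n + 1 + i = n + i + 1 by omega] at hv
    exact UD_next hB hR hv

theorem SideU.est (hB : Big k κ) (h : SideU k c s n g m κ) {i : ℕ} (hi : i < g)
    {M : ℝ} (hM : 1 / 2 ≤ M) (hMk : 32 * M ≤ κ * k) {z : ℂ}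
    (hz : z ∈ ball (m : ℂ) (M / slp k c s n m i)) :
    ‖D k c s (n + i + 2) z - D k c s (n + i + 2) (m : ℂ)‖ ≤
      (140000 / κ ^ 2 + 9 / κ) * M / k * slp k c s n m i ∧
    ‖D k c s (n + i + 1) z‖ ≤ 9 / κ / k * slp k c s n m i := by
  obtain ⟨R, hR⟩ := h.chain hB i hi.le
  have hv := h.nice i hi
  rw [show n + 1 + i = n + i + 1 by omega] at hv
  have hb1 := hB.b1
  have hk := hB.k1
  have hκ := hB.κ0
  have hk0 : 0 < k := by linarith
  have hM0 : 0 < M := by linarith
  set V := ‖dg k c s (m : ℂ) (n + i + 1)‖ with hVdef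
  have hV8 : 8 ≤ V := by linarith
  have hV0 : 0 < V := by linarith
  have h1 := hR.step hk le_rfl (V := V) rfl hV8 (M := M) hM0 (by linarith) (by linarith)
  have hsl := hR.slopes le_rfl (V := V) rfl hV8
  have hz' : z ∈ ball (m : ℂ) (M / ‖D k c s (n + i + 2) (m : ℂ)‖) := hz
  have hS : 0 < slp k c s n m i := by
    have := h1.pos
    exact this
  refine ⟨?_, ?_⟩
  · refine (h1.near z hz').trans ?_
    exact mul_le_mul_of_nonneg_right (eta_le hB hv hM0 hM) (norm_nonneg _)
  · -- the previous derivative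
    have hA := hR.pos
    have hRR : M / ‖D k c s (n + i + 2) (m : ℂ)‖ ≤ R := by
      have hA' : 0 < ‖D k c s (n + i + 2) (m : ℂ)‖ := hS
      rw [div_le_iff₀ hA']
      have hbig := hR.big
      have h2 : V / 2 * ‖D k c s (n + i + 1) (m : ℂ)‖ * R ≤ ‖D k c s (n + i + 2) (m : ℂ)‖ * R :=
        mul_le_mul_of_nonneg_right hsl.1 hR.hR.le
      have h3 : V / 2 * 1 ≤ V / 2 * (‖D k c s (n + i + 1) (m : ℂ)‖ * R) :=
        mul_le_mul_of_nonneg_left hbig (by linarith)
      nlinarith
    have hzR : z ∈ ball (m : ℂ) R := ball_subset_ball hRR hz'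
    have h2 := hR.near z hzR
    have h3 : ‖D k c s (n + i + 1) z‖ ≤ 5 / 4 * ‖D k c s (n + i + 1) (m : ℂ)‖ := by
      have := norm_sub_norm_le (D k c s (n + i + 1) z) (D k c s (n + i + 1) (m : ℂ))
      linarith
    have h4 : ‖D k c s (n + i + 1) (m : ℂ)‖ ≤ 2 / V * slp k c s n m i := by
      have h5 : V * ‖D k c s (n + i + 1) (m : ℂ)‖ ≤ 2 * slp k c s n m i := hsl.2.2
      rw [div_mul_eq_mul_div, le_div_iff₀ hV0]
      linarith
    have h5 : 2 / V ≤ 2 / (κ * k) := div_le_div_of_nonneg_left (by norm_num) (by positivity) hv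
    calc ‖D k c s (n + i + 1) z‖ ≤ 5 / 4 * (2 / (κ * k) * slp k c s n m i) := by
          refine h3.trans (mul_le_mul_of_nonneg_left (h4.trans ?_) (by norm_num))
          exact mul_le_mul_of_nonneg_right h5 hS.le
      _ = 5 / 2 / κ / k * slp k c s n m i := by field_simp; ring
      _ ≤ 9 / κ / k * slp k c s n m i := by
          refine mul_le_mul_of_nonneg_right ?_ hS.le
          refine div_le_div_of_nonneg_right ?_ hk0.le
          exact div_le_div_of_nonneg_right (by norm_num) hκ.le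

/-- a real digit is at most `8 k` -/
theorem dg_le (hk : 1 ≤ k) (j : ℕ) : ‖dg k c s (m : ℂ) (j + 1)‖ ≤ 9 * k := by
  unfold dg Y
  rw [LocPair.sdC_ofReal, y_ofReal]
  have h := hk
  unfold cV
  have hc : Complex.cos (2 * Real.pi * ((rorb k j (c, sd k c s m)).2 : ℂ)) =
      ((Real.cos (2 * Real.pi * (rorb k j (c, sd k c s m)).2) : ℝ) : ℂ) := by
    push_cast
    rfl
  rw [hc]
  have e : (2 + 2 * (Real.pi : ℂ) * (k : ℂ) *
      ((Real.cos (2 * Real.pi * (rorb k j (c, sd k c s m)).2) : ℝ) : ℂ)) =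
      ((2 + 2 * Real.pi * k * Real.cos (2 * Real.pi * (rorb k j (c, sd k c s m)).2) : ℝ) : ℂ) := by
    push_cast
    rfl
  rw [e, Complex.norm_real, Real.norm_eq_abs]
  have h1 := Real.abs_cos_le_one (2 * Real.pi * (rorb k j (c, sd k c s m)).2)
  have hpi := Real.pi_lt_d2
  have hpi0 := Real.pi_pos
  have h2 : |2 * Real.pi * k * Real.cos (2 * Real.pi * (rorb k j (c, sd k c s m)).2)| ≤
      2 * Real.pi * k := by
    rw [abs_mul, abs_of_nonneg (by positivity : (0:ℝ) ≤ 2 * Real.pi * k)]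
    exact mul_le_of_le_one_right (by positivity) h1
  have h3 := abs_add_le 2 (2 * Real.pi * k * Real.cos (2 * Real.pi * (rorb k j (c, sd k c s m)).2))
  rw [abs_of_nonneg (by norm_num : (0:ℝ) ≤ 2)] at h3
  nlinarith

theorem SideU.step (hB : Big k κ) (h : SideU k c s n g m κ) {i : ℕ} (hi : i < g) :
    0 < slp k c s n m i ∧
    (i + 1 < g → slp k c s n m (i + 1) ≤ 18 * k * slp k c s n m i) := by
  obtain ⟨R, hR⟩ := h.chain hB (i + 1) hi
  have hpos : 0 < slp k c s n m i := by
    have := hR.pos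
    rw [show n + (i + 1) + 1 = n + i + 2 by omega] at this
    exact this
  refine ⟨hpos, fun hi2 => ?_⟩
  have hv := h.nice (i + 1) hi2
  rw [show n + 1 + (i + 1) = n + (i + 1) + 1 by omega] at hv
  have hb1 := hB.b1
  have h1 := (hR.slopes le_rfl (V := ‖dg k c s (m : ℂ) (n + (i + 1) + 1)‖) rfl (by linarith)).2.1
  have h2 := dg_le (c := c) (m := m) (s := s) hB.k1 (n + (i + 1))
  have h3 : slp k c s n m (i + 1) ≤ 2 * ‖dg k c s (m : ℂ) (n + (i + 1) + 1)‖ * slp k c s n m i := h1
  refine h3.trans ?_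
  nlinarith

/-- the constant -/
noncomputable def Cc (κ : ℝ) : ℝ := 4 * (140000 / κ ^ 2 + 9 / κ)

/-- the geometric clauses from a slow side with index `i` and a fast side with index `j` -/
theorem geo_of_sides {n' g' i j : ℕ} (hB : Big k κ) (h : SideU k c s n g m κ)
    (h' : SideU k c (!s) n' g' m κ) (hi : i < g)
    (hj : j < g') {ρ : ℝ} (hle : slp k c s n m i ≤ slp k c (!s) n' m j)
    (hle' : slp k c (!s) n' m j ≤ ρ * slp k c s n m i) (hρk : 128 * ρ ≤ κ * k) :
    ∃ lam : ℝ, |lam| ≤ ρ ∧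
      Geo k c s (n + i + 1) (n' + j + 1) m (slp k c s n m i) lam (Cc κ) := by
  have hS := (h.step hB hi).1
  have hT := (h'.step hB hj).1
  have hk := hB.k1
  have hκ0 := hB.κ0
  have hκ := hB.b1
  have hk0 : 0 < k := by linarith
  set S := slp k c s n m i with hSdef
  set T := slp k c (!s) n' m j with hTdef
  obtain ⟨d, hd⟩ := D_real k c s (n + i + 2) m
  obtain ⟨d', hd'⟩ := D_real k c (!s) (n' + j + 2) m
  have hSd : S = |d| := by
    rw [hSdef]; unfold slp; rw [hd, Complex.norm_real, Real.norm_eq_abs]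
  have hTd : T = |d'| := by
    rw [hTdef]; unfold slp; rw [hd', Complex.norm_real, Real.norm_eq_abs]
  have hlamabs : |d' / S| = T / S := by
    rw [abs_div, ← hTd, abs_of_pos hS]
  have hlam1 : 1 ≤ T / S := by rw [one_le_div hS]; exact hle
  have hlamρ : T / S ≤ ρ := by rw [div_le_iff₀ hS]; exact hle'
  have hlamR : d' / S * S = d' := div_mul_cancel₀ _ hS.ne'
  have hC0 : 0 < 9 / κ := by positivity
  have hC1 : 0 < 140000 / κ ^ 2 := by positivity
  have hC9 : 9 / κ ≤ Cc κ := by unfold Cc; linarith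
  refine ⟨d' / S, by rw [hlamabs]; exact hlamρ, ?_, hS, ?_, ?_, ?_, ?_, ?_, ?_⟩
  · rw [hlamabs]; exact hlam1
  · rfl
  · -- slow
    have key : ∀ z ∈ ball (m : ℂ) (4 / S), ‖D k c s (n + i + 2) z - (d : ℂ)‖ ≤ Cc κ * S / k := by
      intro z hz
      have h1 := (h.est hB hi (M := 4) (by norm_num) (by linarith) (z := z) hz).1
      rw [hd] at h1
      refine h1.trans (le_of_eq ?_)
      unfold Cc
      ring
    rcases le_or_gt 0 d with h0 | h0
    · refine ⟨1, Or.inl rfl, ?_⟩
      intro z hz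
      have e : ((1 * S : ℝ) : ℂ) = (d : ℂ) := by rw [hSd, abs_of_nonneg h0, one_mul]
      rw [e]; exact key z hz
    · refine ⟨-1, Or.inr rfl, ?_⟩
      intro z hz
      have e : ((-1 * S : ℝ) : ℂ) = (d : ℂ) := by rw [hSd, abs_of_neg h0]; ring_nf
      rw [e]; exact key z hz
  · -- slow0
    intro z hz
    have h1 := (h.est hB hi (M := 4) (by norm_num) (by linarith) (z := z) hz).2
    refine h1.trans ?_
    rw [← hSdef]
    have e : 9 / κ / k * S = 9 / κ * S / k := by ring
    rw [e]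
    gcongr
  · -- hD'
    rw [hlamR]; exact hd'
  · -- fast
    intro z hz
    rw [hlamR, hlamabs]
    have hM : 4 / S = 4 * (T / S) / T := by field_simp
    have h1 := (h'.est hB hj (M := 4 * (T / S)) (by linarith)
      (by nlinarith) (z := z) (by rw [← hTdef, ← hM]; exact hz)).1
    rw [hd'] at h1
    refine h1.trans (le_of_eq ?_)
    rw [← hTdef]
    unfold Cc
    field_simp
  · -- fast0
    intro z hz
    rw [hlamabs]
    have hM : 4 / S = 4 * (T / S) / T := by field_simp
    have h1 := (h'.est hB hj (M := 4 * (T / S)) (by linarith)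
      (by nlinarith) (z := z) (by rw [← hTdef, ← hM]; exact hz)).2
    refine h1.trans ?_
    rw [← hTdef]
    have e : 9 / κ / k * T = 9 / κ * (T / S) * S / k := by
      field_simp
    rw [e]
    gcongr

/-- **choice of the pair of exits** (`UD` version) -/
theorem exists_pair (hκ0 : 0 < κ) : ∃ C1 k1 : ℝ, 1 ≤ C1 ∧ 1 ≤ k1 ∧ ∀ k : ℝ, k1 ≤ k →
    ∀ (c m : ℝ) (n : Bool → ℕ) (g : ℕ), 1 ≤ g → (∀ s, SideU k c s (n s) g m κ) →
    (∀ s, slp k c s (n s) m 0 ≤ slp k c (!s) (n (!s)) m (g - 1)) →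
    ∃ (s : Bool) (i j : ℕ) (R lam : ℝ), i < g ∧ j < g ∧ |lam| ≤ C1 * Real.sqrt k ∧
      (∀ s', slp k c s' (n s') m 0 ≤ C1 * Real.sqrt k * R) ∧
      (∃ s', R ≤ slp k c s' (n s') m 0) ∧
      Geo k c s (n s + i + 1) (n (!s) + j + 1) m R lam C1 := by
  set ρ : ℝ → ℝ := fun k => Real.sqrt (18 * k) with hρ
  set C1 : ℝ := Cc κ + 10 ^ 4 with hC1
  have hCc : 0 < Cc κ := by unfold Cc; positivity
  have hC1' : 1 ≤ C1 := by linarith
  refine ⟨C1, max 1 (max (128 / κ) (max (2240000 / κ ^ 2) (128 ^ 2 * 10 ^ 4 / κ ^ 2))), hC1',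
    le_max_left _ _, ?_⟩
  intro k hk c m n g hg hs hov
  have hk1 : 1 ≤ k := le_trans (le_max_left _ _) hk
  have hk2 : 128 / κ ≤ k := le_trans ((le_max_left _ _).trans (le_max_right _ _)) hk
  have hk3 : 2240000 / κ ^ 2 ≤ k :=
    le_trans (((le_max_left _ _).trans (le_max_right _ _)).trans (le_max_right _ _)) hk
  have hk4 : 128 ^ 2 * 10 ^ 4 / κ ^ 2 ≤ k :=
    le_trans (((le_max_right _ _).trans (le_max_right _ _)).trans (le_max_right _ _)) hk
  have hk0 : 0 < k := by linarith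
  have hκk : 128 ≤ κ * k := by
    rw [div_le_iff₀ hκ0] at hk2; linarith
  have hB : Big k κ := by
    refine ⟨hκ0, hk1, hκk, ?_⟩
    rw [div_le_iff₀ (by positivity)] at hk3
    nlinarith
  have hρle : ρ k ≤ 100 * Real.sqrt k := by
    have h1 : ρ k ≤ Real.sqrt (10 ^ 4 * k) := Real.sqrt_le_sqrt (by linarith)
    have h2 : Real.sqrt (10 ^ 4 * k) = 100 * Real.sqrt k := by
      rw [Real.sqrt_mul (by norm_num), show (10:ℝ) ^ 4 = 100 ^ 2 by norm_num,
        Real.sqrt_sq (by norm_num)]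
    rw [h2] at h1; exact h1
  have hsk : 0 < Real.sqrt k := Real.sqrt_pos.2 hk0
  have hρk : 128 * ρ k ≤ κ * k := by
    have h1 : 128 * 100 ≤ κ * Real.sqrt k := by
      have h2 : (128 * 100 / κ) ^ 2 ≤ k := by
        have e : (128 * 100 / κ) ^ 2 = 128 ^ 2 * 10 ^ 4 / κ ^ 2 := by ring
        rw [e]; exact hk4
      have h3 : 128 * 100 / κ ≤ Real.sqrt k := Real.le_sqrt_of_sq_le h2
      rw [div_le_iff₀ hκ0] at h3
      linarith
    have h4 : κ * k = κ * Real.sqrt k * Real.sqrt k := by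
      rw [mul_assoc, Real.mul_self_sqrt hk0.le]
    rw [h4]
    nlinarith
  have hρC : ρ k ≤ C1 * Real.sqrt k := by
    refine hρle.trans ?_
    have : (100:ℝ) ≤ C1 := by rw [hC1]; linarith
    exact mul_le_mul_of_nonneg_right this hsk.le
  have hρ1 : 1 ≤ C1 * Real.sqrt k := by
    have h1 : 1 ≤ Real.sqrt k := by rw [Real.one_le_sqrt]; exact hk1
    nlinarith
  -- monotonicity in the constant
  have up : ∀ {s : Bool} {a b : ℕ} {R lam : ℝ},
      Geo k c s a b m R lam (Cc κ) → Geo k c s a b m R lam C1 := by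
    intro s a b R lam h
    have hR := h.hR0
    have hle : Cc κ ≤ C1 := by rw [hC1]; linarith
    refine ⟨h.hlam, h.hR0, h.hD, ?_, ?_, h.hD', ?_, ?_⟩
    · obtain ⟨σ, h1, h2⟩ := h.slow
      exact ⟨σ, h1, fun z hz => (h2 z hz).trans (by gcongr)⟩
    · exact fun z hz => (h.slow0 z hz).trans (by gcongr)
    · exact fun z hz => (h.fast z hz).trans (by gcongr)
    · exact fun z hz => (h.fast0 z hz).trans (by gcongr)
  -- the side whose first slope is the larger one
  have main : ∀ s0 : Bool, slp k c (!s0) (n (!s0)) m 0 ≤ slp k c s0 (n s0) m 0 →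
      ∃ (s : Bool) (i j : ℕ) (R lam : ℝ), i < g ∧ j < g ∧ |lam| ≤ C1 * Real.sqrt k ∧
      (∀ s', slp k c s' (n s') m 0 ≤ C1 * Real.sqrt k * R) ∧
      (∃ s', R ≤ slp k c s' (n s') m 0) ∧
      Geo k c s (n s + i + 1) (n (!s) + j + 1) m R lam C1 := by
    intro s0 hle
    set x := slp k c s0 (n s0) m 0 with hx
    have hx0 : 0 < x := ((hs s0).step hB (i := 0) (by omega)).1
    -- a chain which is positive everywhere
    set T : ℕ → ℝ := fun i => if i < g then slp k c (!s0) (n (!s0)) m i else 1 with hT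
    have hTpos : ∀ i, 0 < T i := by
      intro i
      simp only [hT]
      split_ifs with h
      · exact ((hs (!s0)).step hB h).1
      · exact one_pos
    have hT' : ∀ i < g, T i = slp k c (!s0) (n (!s0)) m i := fun i hi => by
      simp only [hT]; rw [if_pos hi]
    obtain ⟨j, hj, h⟩ := select (T := T) (x := x) (ρ := 18 * k) (by linarith) hx0 hTpos
      (by rw [hT' 0 (by omega)]; exact hle) (g - 1)
      (fun i hi => by
        rw [hT' i (by omega), hT' (i + 1) (by omega)]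
        exact ((hs (!s0)).step hB (i := i) (by omega)).2 (by omega))
      (by rw [hT' (g - 1) (by omega)]; exact hov s0)
    have hjg : j < g := by omega
    rw [hT' j hjg] at h
    have hss : ∀ s', slp k c s' (n s') m 0 ≤ x := by
      intro s'
      cases s' <;> cases s0 <;> simp_all
    rcases h with ⟨h1, h2⟩ | ⟨h1, h2⟩
    · -- slow side `!s0`, fast side `s0`
      have hb : (!(!s0)) = s0 := by cases s0 <;> rfl
      obtain ⟨lam, hl, hgeo⟩ := geo_of_sides (s := !s0) (n := n (!s0)) (g := g) (n' := n s0)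
        (g' := g) (i := j) (j := 0) hB (hs (!s0)) (by rw [hb]; exact hs s0) hjg
        (by omega) (ρ := ρ k) (by rw [hb]; exact h1) (by rw [hb]; exact h2) hρk
      refine ⟨!s0, j, 0, _, lam, hjg, by omega, hl.trans hρC, ?_, ⟨s0, h1⟩, ?_⟩
      · intro s'
        refine (hss s').trans (h2.trans ?_)
        exact mul_le_mul_of_nonneg_right hρC ((hs (!s0)).step hB hjg).1.le
      · rw [hb]
        exact up hgeo
    · obtain ⟨lam, hl, hgeo⟩ := geo_of_sides (s := s0) (n := n s0) (g := g) (n' := n (!s0))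
        (g' := g) (i := 0) (j := j) hB (hs s0) (hs (!s0)) (by omega)
        hjg (ρ := ρ k) h1 h2 hρk
      refine ⟨s0, 0, j, _, lam, by omega, hjg, hl.trans hρC, ?_, ⟨s0, le_rfl⟩, up hgeo⟩
      intro s'
      refine (hss s').trans ?_
      have := mul_le_mul_of_nonneg_right hρ1 hx0.le
      rw [one_mul] at this
      exact this
  rcases le_total (slp k c false (n false) m 0) (slp k c true (n true) m 0) with h | h
  · exact main true h
  · exact main false h

end Crest.Agent.R128.LocPairU
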