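import Crest.Agent.R128.LocDef

/-!
# Row 128, node V5-LOC (H3): quadratic approximation of the increments of the content (helper399)

`1 / (f g)` is a real quadratic polynomial up to a cubic error, for `f`, `g` holomorphic on a disc,
real on the reals, with small relative variation.
-/

set_option autoImplicit false

open Metric Set

namespace Crest.Agent.R128.LocQ

/-- one step of the expansion by divided differences -/
theorem step {h : ℂ → ℂ} {t₁ r M : ℝ} (hr : 0 < r)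
    (hd : DifferentiableOn ℂ h (ball (t₁ : ℂ) r))
    (hreal : ∀ x : ℝ, |x - t₁| < r → (h x).im = 0)
    (hM : ∀ t ∈ ball (t₁ : ℂ) r, ‖h t‖ ≤ M) :
    DifferentiableOn ℂ (dslope h t₁) (ball (t₁ : ℂ) r) ∧
    (∀ x : ℝ, |x - t₁| < r → (dslope h t₁ x).im = 0) ∧
    ∀ t ∈ ball (t₁ : ℂ) r, ‖dslope h t₁ t‖ ≤ 2 * M / r := by
  have hnb : ball (t₁ : ℂ) r ∈ nhds (t₁ : ℂ) := ball_mem_nhds _ hr
  have hd1 := (Complex.differentiableOn_dslope hnb).2 hd
  refine ⟨hd1, ?_, ?_⟩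
  · have hne : ∀ x : ℝ, |x - t₁| < r → x ≠ t₁ → (dslope h t₁ x).im = 0 := by
      intro x hx hxt
      have hne' : (x : ℂ) ≠ (t₁ : ℂ) := by exact_mod_cast hxt
      rw [dslope_of_ne _ hne', slope_def_field]
      have h1 := hreal x hx
      have h2 := hreal t₁ (by simpa using hr)
      have e1 : h x = ((h x).re : ℂ) := by apply Complex.ext <;> simp [h1]
      have e2 : h t₁ = ((h t₁).re : ℂ) := by apply Complex.ext <;> simp [h2]
      rw [e1, e2, ← Complex.ofReal_sub, ← Complex.ofReal_sub, ← Complex.ofReal_div]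
      exact Complex.ofReal_im _
    intro x hx
    by_cases hxt : x = t₁
    · subst hxt
      have hc : ContinuousAt (dslope h (x : ℂ)) (x : ℂ) := (hd1.differentiableAt hnb).continuousAt
      have hc2 : ContinuousAt (fun y : ℝ => (dslope h (x : ℂ) (y : ℂ)).im) x :=
        ContinuousAt.comp (g := Complex.im) Complex.continuous_im.continuousAt
          (ContinuousAt.comp (f := fun y : ℝ => (y : ℂ)) (g := dslope h (x : ℂ)) hc
            Complex.continuous_ofReal.continuousAt)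
      have h0 : Filter.Tendsto (fun y : ℝ => (dslope h (x : ℂ) (y : ℂ)).im)
          (nhdsWithin x {x}ᶜ) (nhds 0) := by
        refine tendsto_const_nhds.congr' ?_
        have hball : ball x r ∈ nhdsWithin x {x}ᶜ :=
          mem_nhdsWithin_of_mem_nhds (ball_mem_nhds _ hr)
        filter_upwards [hball, self_mem_nhdsWithin] with y hy hy2
        exact (hne y (by simpa [Real.dist_eq] using hy) hy2).symm
      exact tendsto_nhds_unique (hc2.tendsto.mono_left nhdsWithin_le_nhds) h0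
    · exact hne x hx hxt
  · intro t ht
    have hmaps : MapsTo h (ball (t₁ : ℂ) r) (closedBall (h t₁) (2 * M)) := by
      intro z hz
      rw [mem_closedBall, dist_eq_norm]
      have h0 := norm_sub_le (h z) (h t₁)
      have h1 := hM z hz
      have h2 := hM t₁ (mem_ball_self hr)
      linarith
    exact Complex.norm_dslope_le_div_of_mapsTo_ball hd hmaps ht

/-- A holomorphic function on a disc, real on the reals, bounded by `M`, is a real quadratic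
polynomial up to `8 M (|t - t₁| / r)^3`. -/
theorem quad_of_bdd {h : ℂ → ℂ} {t₁ r M : ℝ} (hr : 0 < r)
    (hd : DifferentiableOn ℂ h (ball (t₁ : ℂ) r))
    (hreal : ∀ x : ℝ, |x - t₁| < r → (h x).im = 0)
    (hM : ∀ t ∈ ball (t₁ : ℂ) r, ‖h t‖ ≤ M) :
    ∃ q0 q1 q2 : ℝ, ∀ t ∈ ball (t₁ : ℂ) r,
      ‖h t - (q0 + q1 * (t - t₁) + q2 * (t - t₁) ^ 2)‖ ≤ 8 * M * (‖t - t₁‖ / r) ^ 3 := by
  obtain ⟨d1, i1, b1⟩ := step hr hd hreal hM
  obtain ⟨d2, i2, b2⟩ := step hr d1 i1 b1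
  obtain ⟨d3, i3, b3⟩ := step hr d2 i2 b2
  set h1 := dslope h t₁ with hh1
  set h2 := dslope h1 t₁ with hh2
  set h3 := dslope h2 t₁ with hh3
  have hz : |t₁ - t₁| < r := by simpa using hr
  have e0 : h t₁ = ((h t₁).re : ℂ) := by apply Complex.ext <;> simp [hreal t₁ hz]
  have e1 : h1 t₁ = ((h1 t₁).re : ℂ) := by apply Complex.ext <;> simp [i1 t₁ hz]
  have e2 : h2 t₁ = ((h2 t₁).re : ℂ) := by apply Complex.ext <;> simp [i2 t₁ hz]
  refine ⟨(h t₁).re, (h1 t₁).re, (h2 t₁).re, fun t ht => ?_⟩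
  rw [← e0, ← e1, ← e2]
  have s1 : (t - t₁) * h1 t = h t - h t₁ := by
    have := sub_smul_dslope h (t₁ : ℂ) t
    simpa [smul_eq_mul] using this
  have s2 : (t - t₁) * h2 t = h1 t - h1 t₁ := by
    have := sub_smul_dslope h1 (t₁ : ℂ) t
    simpa [smul_eq_mul] using this
  have s3 : (t - t₁) * h3 t = h2 t - h2 t₁ := by
    have := sub_smul_dslope h2 (t₁ : ℂ) t
    simpa [smul_eq_mul] using this
  have e : h t - (h t₁ + h1 t₁ * (t - t₁) + h2 t₁ * (t - t₁) ^ 2) = (t - t₁) ^ 3 * h3 t := by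
    linear_combination (-1 : ℂ) * s1 - (t - t₁) * s2 - (t - t₁) ^ 2 * s3
  rw [e, norm_mul, norm_pow]
  calc ‖t - t₁‖ ^ 3 * ‖h3 t‖ ≤ ‖t - t₁‖ ^ 3 * (2 * (2 * (2 * M / r) / r) / r) := by
        gcongr
        exact b3 t ht
    _ = 8 * M * (‖t - t₁‖ / r) ^ 3 := by
        field_simp
        ring

theorem inv_mul_quadratic {f g : ℂ → ℂ} {t₁ r s : ℝ} (hr : 0 < r) (hs : 0 ≤ s) (hsr : 2 * s ≤ r)
    (hf : DifferentiableOn ℂ f (Metric.ball (t₁ : ℂ) r))
    (hg : DifferentiableOn ℂ g (Metric.ball (t₁ : ℂ) r))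
    (hfr : ∀ x : ℝ, |x - t₁| < r → (f x).im = 0) (hgr : ∀ x : ℝ, |x - t₁| < r → (g x).im = 0)
    (f0 : f t₁ ≠ 0) (g0 : g t₁ ≠ 0)
    (cf : ∀ t ∈ Metric.ball (t₁ : ℂ) r, ‖f t - f t₁‖ ≤ 1 / 10 * ‖f t₁‖)
    (cg : ∀ t ∈ Metric.ball (t₁ : ℂ) r, ‖g t - g t₁‖ ≤ 1 / 10 * ‖g t₁‖) :
    ∃ q0 q1 q2 : ℝ, ∀ t ∈ Metric.ball (t₁ : ℂ) s,
      ‖1 / (f t * g t) - (q0 + q1 * (t - t₁) + q2 * (t - t₁) ^ 2)‖ ≤
        20 / (‖f t₁‖ * ‖g t₁‖) * (s / r) ^ 3 := by
  have F0 : 0 < ‖f t₁‖ := norm_pos_iff.2 f0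
  have G0 : 0 < ‖g t₁‖ := norm_pos_iff.2 g0
  have lf : ∀ t ∈ ball (t₁ : ℂ) r, 9 / 10 * ‖f t₁‖ ≤ ‖f t‖ := by
    intro t ht
    have h1 := cf t ht
    have h2 : ‖f t₁‖ ≤ ‖f t‖ + ‖f t - f t₁‖ := by
      have := norm_sub_le (f t) (f t - f t₁)
      simpa using this
    linarith
  have lg : ∀ t ∈ ball (t₁ : ℂ) r, 9 / 10 * ‖g t₁‖ ≤ ‖g t‖ := by
    intro t ht
    have h1 := cg t ht
    have h2 : ‖g t₁‖ ≤ ‖g t‖ + ‖g t - g t₁‖ := by
      have := norm_sub_le (g t) (g t - g t₁)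
      simpa using this
    linarith
  have nf : ∀ t ∈ ball (t₁ : ℂ) r, f t ≠ 0 := fun t ht => by
    have := lf t ht
    exact norm_pos_iff.1 (by linarith)
  have ng : ∀ t ∈ ball (t₁ : ℂ) r, g t ≠ 0 := fun t ht => by
    have := lg t ht
    exact norm_pos_iff.1 (by linarith)
  have hd : DifferentiableOn ℂ (fun t => 1 / (f t * g t)) (ball (t₁ : ℂ) r) :=
    (differentiableOn_const (1 : ℂ)).div (hf.mul hg) fun t ht => mul_ne_zero (nf t ht) (ng t ht)
  have hreal : ∀ x : ℝ, |x - t₁| < r → ((fun t : ℂ => 1 / (f t * g t)) x).im = 0 := by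
    intro x hx
    have e1 : f x = ((f x).re : ℂ) := by apply Complex.ext <;> simp [hfr x hx]
    have e2 : g x = ((g x).re : ℂ) := by apply Complex.ext <;> simp [hgr x hx]
    show (1 / (f x * g x)).im = 0
    rw [e1, e2, ← Complex.ofReal_mul, ← Complex.ofReal_one, ← Complex.ofReal_div]
    exact Complex.ofReal_im _
  have hM : ∀ t ∈ ball (t₁ : ℂ) r, ‖(fun t : ℂ => 1 / (f t * g t)) t‖ ≤
      2 / (‖f t₁‖ * ‖g t₁‖) := by
    intro t ht
    show ‖1 / (f t * g t)‖ ≤ _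
    rw [norm_div, norm_one, norm_mul]
    have h1 := lf t ht
    have h2 := lg t ht
    have h3 : 9 / 10 * ‖f t₁‖ * (9 / 10 * ‖g t₁‖) ≤ ‖f t‖ * ‖g t‖ := by gcongr
    have h4 : 0 < ‖f t₁‖ * ‖g t₁‖ := by positivity
    rw [div_le_div_iff₀ (by nlinarith) h4]
    nlinarith
  obtain ⟨q0, q1, q2, hq⟩ := quad_of_bdd hr hd hreal hM
  refine ⟨q0, q1, q2, fun t ht => ?_⟩
  have ht' : ‖t - t₁‖ < s := by simpa [dist_eq_norm] using ht
  have htr : t ∈ ball (t₁ : ℂ) r := by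
    rw [mem_ball, dist_eq_norm]; linarith
  refine (hq t htr).trans ?_
  have h5 : (‖t - t₁‖ / r) ^ 3 ≤ (s / r) ^ 3 := by gcongr
  have h6 : 0 ≤ (s / r) ^ 3 := by positivity
  have h7 : 0 < ‖f t₁‖ * ‖g t₁‖ := by positivity
  calc 8 * (2 / (‖f t₁‖ * ‖g t₁‖)) * (‖t - t₁‖ / r) ^ 3
      ≤ 8 * (2 / (‖f t₁‖ * ‖g t₁‖)) * (s / r) ^ 3 := by gcongr
    _ ≤ 20 / (‖f t₁‖ * ‖g t₁‖) * (s / r) ^ 3 := by
        refine mul_le_mul_of_nonneg_right ?_ h6
        rw [mul_div_assoc', div_le_div_iff₀ h7 h7]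
        nlinarith

end Crest.Agent.R128.LocQ
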