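/-
R128, node V5 (helper688): from `Good.LocA L` (coordinate `t = x_1`) and `LocB` to the hull bound on
the fibre `{t | (t, c) ∈ Good.G k L n}` (coordinate `x_{-1}`), i.e. the hypothesis of `PayArea.area_good`.
-/
import Mathlib
import Crest.Agent.R128.LocC
import Crest.Agent.R128.Good

set_option autoImplicit false

open MeasureTheory Set Metric
open scoped ENNReal
open Crest.Agent.R128 Crest.Agent.R128.Iter Crest.Agent.R128.Vit Crest.Agent.R128.LocC
  Crest.Agent.R128.Loc Crest.Agent.R128.DictY Crest.Agent.R128.Acc Crest.Agent.R128.Two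

namespace Crest.Agent.R128.LocR

theorem vol_refl (F : ℝ) (S : Set ℝ) : volume {t : ℝ | F - t ∈ S} = volume S := by
  have e : {t : ℝ | F - t ∈ S} = (fun t : ℝ => -t) ⁻¹' ((fun t : ℝ => F + t) ⁻¹' S) := by
    ext t
    simp [sub_eq_add_neg]
  rw [e]
  have h1 := Measure.measure_preimage_neg (volume : Measure ℝ) ((fun t : ℝ => F + t) ⁻¹' S)
  have h2 := measure_preimage_add (volume : Measure ℝ) F S
  rw [h2] at h1
  exact h1

/-- `(t, c) = zt k c (tb k c t)` -/
theorem pr_eq_zt (k c t : ℝ) : pr (t, c) = zt k c (tb k c t) := by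
  unfold zt
  rw [tb_tb]

theorem tb_eq (k c t : ℝ) : tb k c t = tb k c 0 - t := by
  unfold tb
  ring

/-- **hull bound on the fibre** -/
theorem hull_fibre {L : ℕ} (hA : Good.LocA L) (hB : LocB) :
    ∃ q : ℝ, 0 < q ∧ q < 1 ∧ ∃ k1 : ℝ, ∀ k : ℝ, k1 ≤ k → ∀ (c : ℝ) (n g : ℕ) (m : ℤ),
      k ^ 80 ≤ 2 ^ g → ∀ A : Set ℝ, A ⊆ {t : ℝ | pr (t, c) ∈ Good.G k L n} →
        volume (hull (n + g) A ∩ cell n m) ≤ ENNReal.ofReal q * volume (cell n m) := by
  obtain ⟨C1, _, ka, hA⟩ := hA
  obtain ⟨c₀', hc₀', kb, hB⟩ := hB C1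
  obtain ⟨c₀, hc₀, hc1, hcc⟩ : ∃ c₀ : ℝ, 0 < c₀ ∧ c₀ ≤ 1 ∧ c₀ ≤ c₀' :=
    ⟨min c₀' 1, lt_min hc₀' one_pos, min_le_right _ _, min_le_left _ _⟩
  refine ⟨1 - c₀ / 1000, by linarith, by linarith [div_pos hc₀ (by norm_num : (0:ℝ) < 1000)],
    max (max ka kb) (max 4 (8000 / c₀)), ?_⟩
  intro k hk c n g m hg A hAG
  have hka : ka ≤ k := (le_max_left _ _).trans ((le_max_left _ _).trans hk)
  have hkb : kb ≤ k := (le_max_right _ _).trans ((le_max_left _ _).trans hk)
  have hk4 : 4 ≤ k := (le_max_left _ _).trans ((le_max_right _ _).trans hk)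
  have hkc : 8000 / c₀ ≤ k := (le_max_right _ _).trans ((le_max_right _ _).trans hk)
  have hk1 : 1 ≤ k := by linarith
  have hk0 : 0 < k := by linarith
  have h2n : (0:ℝ) < 2 ^ n := by positivity
  have h2g : (0:ℝ) < 2 ^ g := by positivity
  set F := tb k c 0 with hF
  set B : Set ℝ := {t : ℝ | pr (t, c) ∈ Good.G k L n} with hBdef
  have key := loc_of_cells (A := B) (n := n) (g := g) (m := m) (c₀ := c₀)
    (ε := 2 / k ^ 60) (r := 1 / (k ^ 60 * 2 ^ n)) hc₀ (by positivity)
    (by apply le_of_eq; field_simp) (by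
      rw [pow_add]
      apply one_div_le_one_div_of_le (by positivity)
      have : k ^ 60 ≤ 2 ^ g := (pow_le_pow_right₀ hk1 (by norm_num : 60 ≤ 80)).trans hg
      calc k ^ 60 * 2 ^ n ≤ 2 ^ g * 2 ^ n := mul_le_mul_of_nonneg_right this h2n.le
        _ = 2 ^ n * 2 ^ g := by ring) (by
      intro t₀ ht₀ _
      have ht₀' : zt k c (tb k c t₀) ∈ Good.G k L n := by
        rw [← pr_eq_zt]
        exact ht₀
      obtain ⟨N, hN, hvN, hx⟩ := hA k hka c (tb k c t₀) n ht₀'
      refine ⟨{x : ℝ | F - x ∈ N}, ?_, ?_, ?_⟩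
      · intro x hxN
        obtain ⟨h1, h2⟩ := hN hxN
        rw [tb_eq, ← hF] at h1 h2
        constructor <;> linarith
      · rw [vol_refl]
        exact hvN
      · intro x' hx'
        obtain ⟨s, n1, n1', R, lam, q0, q1, q2, hR1, hR2, hlam, hcell, hgood⟩ := hx (F - x') hx'
        have hR0 : 0 < R := by
          have : 0 < k ^ 60 * 2 ^ n := by positivity
          linarith
        have hRr : 4 / R ≤ 1 / (k ^ 60 * 2 ^ n) := by
          rw [div_le_div_iff₀ hR0 (by positivity)]
          linarith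
        refine ⟨R, hR0, ?_, ?_⟩
        · refine le_trans ?_ hRr
          exact div_le_div_of_nonneg_right (by norm_num) hR0.le
        · have hvol := hB k hkb c s n1 n1' (F - x') R lam q0 q1 q2 hlam hcell
          rw [← vol_refl F] at hvol
          refine le_trans (ENNReal.ofReal_le_ofReal (div_le_div_of_nonneg_right hcc hR0.le))
            (hvol.trans (measure_mono ?_))
          rintro t' ⟨ht1, ht2⟩
          have e1 : |F - t' - (F - x')| = |t' - x'| := by
            rw [show F - t' - (F - x') = -(t' - x') by ring, abs_neg]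
          rw [e1] at ht1
          refine ⟨ht1, fun u hu hut => ?_⟩
          have hsmall : 1 / 2 ^ (n + g) ≤ 1 / (k ^ 6 * R) := by
            apply one_div_le_one_div_of_le (by positivity)
            calc k ^ 6 * R ≤ k ^ 6 * (k ^ 74 * 2 ^ n) :=
                  mul_le_mul_of_nonneg_left hR2 (by positivity)
              _ = 2 ^ n * k ^ 80 := by ring
              _ ≤ 2 ^ n * 2 ^ g := mul_le_mul_of_nonneg_left hg h2n.le
              _ = 2 ^ (n + g) := (pow_add _ _ _).symm
          have h6 : 1 / (k ^ 6 * R) ≤ 1 / R := by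
            apply one_div_le_one_div_of_le hR0
            have : 1 ≤ k ^ 6 := one_le_pow₀ hk1
            nlinarith
          have hux : |u - x'| ≤ 3 / R := by
            calc |u - x'| = |(u - t') + (t' - x')| := by ring_nf
              _ ≤ |u - t'| + |t' - x'| := abs_add_le _ _
              _ ≤ 1 / R + 2 / R := by linarith
              _ = 3 / R := by ring
          have hu' : zt k c (F - u) ∈ Good.G k L n := by
            have : pr (u, c) ∈ Good.G k L n := hu
            rw [pr_eq_zt, tb_eq, ← hF] at this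
            exact this
          have hux2 : |F - u - (F - x')| ≤ 3 / R := by
            rw [show F - u - (F - x') = -(u - x') by ring, abs_neg]
            exact hux
          refine ht2 (F - u) ?_ (hgood (F - u) hux2 hu')
          rw [show F - u - (F - t') = -(u - t') by ring, abs_neg]
          exact hut.trans hsmall)
  refine (measure_mono (inter_subset_inter_left _ (hull_mono hAG))).trans (key.trans ?_)
  gcongr
  -- numeric
  have hk8 : k ≤ k ^ 60 := le_self_pow₀ hk1 (by norm_num)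
  have h10 : 2 / k ^ 60 ≤ c₀ / 4000 := by
    rw [div_le_div_iff₀ (by positivity) (by norm_num)]
    rw [div_le_iff₀ hc₀] at hkc
    nlinarith
  rw [div_le_iff₀ (by positivity)]
  nlinarith

/-- the literal form used by `PayArea.area_good` and `V5Fin` -/
theorem hull_fibre' {L : ℕ} (hA : Good.LocA L) (hB : LocB) :
    ∃ q : ℝ, 0 < q ∧ q < 1 ∧ ∃ k1 : ℝ, ∀ k : ℝ, k1 ≤ k → ∀ (c : ℝ) (n g : ℕ) (m : ℤ),
      k ^ 80 ≤ 2 ^ g →
        volume (hull (n + g) {t : ℝ | t ∈ cell n m ∧
            ((t : UnitAddCircle), (c : UnitAddCircle)) ∈ Good.G k L n} ∩ cell n m) ≤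
          ENNReal.ofReal q * volume (cell n m) := by
  obtain ⟨q, h0, h1, k1, h⟩ := hull_fibre hA hB
  refine ⟨q, h0, h1, k1, fun k hk c n g m hg => ?_⟩
  exact h k hk c n g m hg _ (fun t ht => ht.2)

end Crest.Agent.R128.LocR
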