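import Crest.Agent.R128.LocDef

/-!
# Row 128, V5-LOC: reality on the real line and the step of the content (helper660, for helper155)
-/

set_option autoImplicit false

open Metric MeasureTheory
open Crest.Agent.R128 Crest.Agent.R128.Cell Crest.Agent.R128.CellB Crest.Agent.R128.CellDy
open Crest.Agent.R128.Loc

namespace Crest.Agent.R128.LocReal

/-- the real starting point of the side -/
noncomputable def sdR (k c : ℝ) (s : Bool) (t : ℝ) : ℝ := if s then t else kap k c - t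

theorem sdC_ofReal (k c : ℝ) (s : Bool) (t : ℝ) : sdC k c s (t : ℂ) = ((sdR k c s t : ℝ) : ℂ) := by
  unfold sdC sdR
  cases s <;> simp

theorem im_Y (k c : ℝ) (s : Bool) (n : ℕ) (t : ℝ) : (Y k c s n (t : ℂ)).im = 0 := by
  unfold Y
  rw [sdC_ofReal]
  exact im_y_ofReal k c n _

theorem Y_ofReal (k c : ℝ) (s : Bool) (n : ℕ) (t : ℝ) :
    (((Y k c s n (t : ℂ)).re : ℝ) : ℂ) = Y k c s n (t : ℂ) := by
  apply Complex.ext
  · simp
  · simp [im_Y]

theorem im_D (k c : ℝ) (s : Bool) (n : ℕ) (t : ℝ) : (D k c s n (t : ℂ)).im = 0 := by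
  unfold D
  rw [sdC_ofReal, yd_ofReal]
  exact Complex.ofReal_im _

theorem im_mul_zero {z w : ℂ} (hz : z.im = 0) (hw : w.im = 0) : (z * w).im = 0 := by
  rw [Complex.mul_im, hz, hw]; ring

theorem im_div_zero {z w : ℂ} (hz : z.im = 0) (hw : w.im = 0) : (z / w).im = 0 := by
  rw [Complex.div_im, hz, hw]; ring

theorem cV_ofReal (k x : ℝ) :
    cV k (x : ℂ) = ((2 + 2 * Real.pi * k * Real.cos (2 * Real.pi * x) : ℝ) : ℂ) := by
  unfold cV
  push_cast
  rfl

theorem im_cV (k x : ℝ) : (cV k (x : ℂ)).im = 0 := by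
  rw [cV_ofReal]
  exact Complex.ofReal_im _

theorem im_dg (k c : ℝ) (s : Bool) (t : ℝ) (n : ℕ) : (dg k c s (t : ℂ) n).im = 0 := by
  unfold dg
  rw [← Y_ofReal]
  exact im_cV _ _

theorem im_sol {a : ℕ → ℂ} (ha : ∀ n, (a n).im = 0) {u v : ℂ} (hu : u.im = 0) (hv : v.im = 0)
    (n : ℕ) : (Align.sol a u v n).im = 0 := by
  induction n using Nat.strong_induction_on with
  | _ n ih =>
    match n with
    | 0 => simpa [Align.sol] using hu
    | 1 => simpa [Align.sol] using hv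
    | n + 2 =>
      rw [Align.sol_add_two, Complex.sub_im, ih n (by omega),
        im_mul_zero (ha _) (ih (n + 1) (by omega)), sub_zero]

theorem im_mu (k c : ℝ) (s : Bool) (n : ℕ) (t : ℝ) : (mu k c s n (t : ℂ)).im = 0 := by
  unfold mu Align.mu
  refine im_div_zero ?_ ?_
  · rw [Complex.neg_im, neg_eq_zero]
    exact im_sol (im_dg k c s t) (by simp) (by simp) n
  · exact im_sol (im_dg k c s t) (by simp) (by simp) n

theorem im_cont (k c : ℝ) (s : Bool) (n n' : ℕ) (t : ℝ) : (cont k c s n n' (t : ℂ)).im = 0 := by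
  unfold cont
  rw [Complex.sub_im, Complex.sub_im, im_mu, im_mu, sub_zero, sub_zero]
  exact im_cV _ _

theorem norm_cont_ofReal (k c : ℝ) (s : Bool) (n n' : ℕ) (t : ℝ) :
    ‖cont k c s n n' (t : ℂ)‖ = |(cont k c s n n' (t : ℂ)).re| := by
  have e : cont k c s n n' (t : ℂ) = (((cont k c s n n' (t : ℂ)).re : ℝ) : ℂ) := by
    apply Complex.ext
    · simp
    · simp [im_cont]
  conv_lhs => rw [e]
  rw [Complex.norm_real, Real.norm_eq_abs]

theorem norm_D_ofReal (k c : ℝ) (s : Bool) (n : ℕ) (t : ℝ) :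
    ‖D k c s n (t : ℂ)‖ = |(D k c s n (t : ℂ)).re| := by
  have e : D k c s n (t : ℂ) = (((D k c s n (t : ℂ)).re : ℝ) : ℂ) := by
    apply Complex.ext
    · simp
    · simp [im_D]
  conv_lhs => rw [e]
  rw [Complex.norm_real, Real.norm_eq_abs]

/-- derivative of the real digit along the real line, `σ = ±1` for the side -/
theorem hasDerivAt_Yre_true (k c : ℝ) (n : ℕ) (t : ℝ) :
    HasDerivAt (fun x : ℝ => (Y k c true n (x : ℂ)).re) (D k c true n (t : ℂ)).re t :=
  (hasDerivAt_Y_true k c n (t : ℂ)).real_of_complex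

theorem hasDerivAt_Yre_false (k c : ℝ) (n : ℕ) (t : ℝ) :
    HasDerivAt (fun x : ℝ => (Y k c false n (x : ℂ)).re) (-(D k c false n (t : ℂ)).re) t := by
  have := (hasDerivAt_Y_false k c n (t : ℂ)).real_of_complex
  simpa using this

theorem D_ofReal (k c : ℝ) (s : Bool) (n : ℕ) (t : ℝ) :
    (((D k c s n (t : ℂ)).re : ℝ) : ℂ) = D k c s n (t : ℂ) := by
  apply Complex.ext
  · simp
  · simp [im_D]

theorem D_add_two (k c : ℝ) (s : Bool) (n : ℕ) (z : ℂ) :
    D k c s (n + 2) z = dg k c s z (n + 1) * D k c s (n + 1) z - D k c s n z := by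
  unfold D dg Y
  rw [yd_add_two]

theorem mu_succ {k c : ℝ} {s : Bool} {n : ℕ} {z : ℂ} (h0 : D k c s n z ≠ 0)
    (h1 : D k c s (n + 1) z ≠ 0) :
    mu k c s (n + 1) z = mu k c s n z + 1 / (D k c s n z * D k c s (n + 1) z) := by
  have h := Align.mu_succ_sub (a := dg k c s z) (n := n) (by rw [Q_dg]; exact h0)
    (by rw [Q_dg]; exact h1)
  rw [Q_dg, Q_dg] at h
  unfold mu
  rw [← h]
  ring

/-- **the content, one level deeper** -/
theorem cont_succ {k c : ℝ} {s : Bool} {n n' : ℕ} {z : ℂ} (h0 : D k c s n z ≠ 0)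
    (h1 : D k c s (n + 1) z ≠ 0) (h0' : D k c (!s) n' z ≠ 0) (h1' : D k c (!s) (n' + 1) z ≠ 0) :
    cont k c s (n + 1) (n' + 1) z = cont k c s n n' z -
      1 / (D k c s n z * D k c s (n + 1) z) - 1 / (D k c (!s) n' z * D k c (!s) (n' + 1) z) := by
  unfold cont
  rw [mu_succ h0 h1, mu_succ h0' h1']
  ring

end Crest.Agent.R128.LocReal
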