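import Crest.Agent.R128.LocDef

/-!
# Row 128, node V5-LOC: the objects of `LocDef` on the real line (helper888)

`Y_im`, `D_im`, `mu_im`, `cont_im` : everything is real at real points;
`yr`, `dr` : real digit coordinate and its derivative, `hasDerivAt_yr`, recursions;
`cont_succ_succ` : the content cut one step later.
-/

set_option autoImplicit false

open Metric MeasureTheory
open Crest.Agent.R128 Crest.Agent.R128.Cell Crest.Agent.R128.CellB Crest.Agent.R128.CellDy
open Crest.Agent.R128.Loc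

namespace Crest.Agent.R128.LocRealX

/-- sign of `d/dt` on the side `s` -/
def sg (s : Bool) : ℝ := if s then 1 else -1

theorem sg_eq (s : Bool) : sg s = 1 ∨ sg s = -1 := by cases s <;> simp [sg]

theorem abs_sg (s : Bool) : |sg s| = 1 := by rcases sg_eq s with h | h <;> rw [h] <;> simp

theorem sg_not (s : Bool) : sg (!s) = -sg s := by cases s <;> simp [sg]

noncomputable def yr (k c : ℝ) (s : Bool) (n : ℕ) (t : ℝ) : ℝ := (Y k c s n (t : ℂ)).re

noncomputable def dr (k c : ℝ) (s : Bool) (n : ℕ) (t : ℝ) : ℝ := (D k c s n (t : ℂ)).re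

theorem sdC_ofReal (k c : ℝ) (s : Bool) (t : ℝ) :
    sdC k c s (t : ℂ) = ((CellDy.sd k c s t : ℝ) : ℂ) := by
  unfold sdC CellDy.sd
  cases s <;> simp

theorem Y_im (k c : ℝ) (s : Bool) (n : ℕ) (t : ℝ) : (Y k c s n (t : ℂ)).im = 0 := by
  unfold Y
  rw [sdC_ofReal]
  exact im_y_ofReal k c n _

theorem D_im (k c : ℝ) (s : Bool) (n : ℕ) (t : ℝ) : (D k c s n (t : ℂ)).im = 0 := by
  unfold D
  rw [sdC_ofReal, yd_ofReal]
  simp

theorem Y_ofReal (k c : ℝ) (s : Bool) (n : ℕ) (t : ℝ) :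
    Y k c s n (t : ℂ) = ((yr k c s n t : ℝ) : ℂ) := by
  apply Complex.ext
  · simp [yr]
  · rw [Complex.ofReal_im]
    exact Y_im k c s n t

theorem D_ofReal (k c : ℝ) (s : Bool) (n : ℕ) (t : ℝ) :
    D k c s n (t : ℂ) = ((dr k c s n t : ℝ) : ℂ) := by
  apply Complex.ext
  · simp [dr]
  · rw [Complex.ofReal_im]
    exact D_im k c s n t

theorem dg_ofReal (k c : ℝ) (s : Bool) (n : ℕ) (t : ℝ) :
    Loc.dg k c s (t : ℂ) n =
      ((2 + 2 * Real.pi * k * Real.cos (2 * Real.pi * yr k c s n t) : ℝ) : ℂ) := by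
  unfold Loc.dg
  rw [Y_ofReal]
  unfold cV
  push_cast
  rfl

theorem D_add_two (k c : ℝ) (s : Bool) (n : ℕ) (z : ℂ) :
    D k c s (n + 2) z = Loc.dg k c s z (n + 1) * D k c s (n + 1) z - D k c s n z := by
  rw [← Q_dg, Align.Q_add_two, Q_dg, Q_dg]

theorem dr_add_two (k c : ℝ) (s : Bool) (n : ℕ) (t : ℝ) :
    dr k c s (n + 2) t =
      (2 + 2 * Real.pi * k * Real.cos (2 * Real.pi * yr k c s (n + 1) t)) * dr k c s (n + 1) t
        - dr k c s n t := by
  have h1 := D_add_two k c s n (t : ℂ)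
  rw [D_ofReal, D_ofReal, D_ofReal, dg_ofReal] at h1
  exact_mod_cast h1

theorem Y_add_two (k c : ℝ) (s : Bool) (n : ℕ) (z : ℂ) :
    Y k c s (n + 2) z = 2 * Y k c s (n + 1) z
      + k * Complex.sin (2 * Real.pi * Y k c s (n + 1) z) - Y k c s n z := by
  unfold Y; rw [y_add_two]

theorem yr_add_two (k c : ℝ) (s : Bool) (n : ℕ) (t : ℝ) :
    yr k c s (n + 2) t = 2 * yr k c s (n + 1) t
      + k * Real.sin (2 * Real.pi * yr k c s (n + 1) t) - yr k c s n t := by
  have h1 := Y_add_two k c s n (t : ℂ)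
  rw [Y_ofReal, Y_ofReal, Y_ofReal] at h1
  exact_mod_cast h1

theorem hasDerivAt_Y (k c : ℝ) (s : Bool) (n : ℕ) (z : ℂ) :
    HasDerivAt (Y k c s n) ((sg s : ℂ) * D k c s n z) z := by
  cases s
  · simpa [sg] using hasDerivAt_Y_false k c n z
  · simpa [sg] using hasDerivAt_Y_true k c n z

theorem hasDerivAt_yr (k c : ℝ) (s : Bool) (n : ℕ) (t : ℝ) :
    HasDerivAt (yr k c s n) (sg s * dr k c s n t) t := by
  have h := (hasDerivAt_Y k c s n (t : ℂ)).real_of_complex
  have e : ((sg s : ℂ) * D k c s n (t : ℂ)).re = sg s * dr k c s n t := by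
    simp [dr]
  rw [e] at h
  exact h

theorem differentiable_Y (k c : ℝ) (s : Bool) (n : ℕ) : Differentiable ℂ (Y k c s n) :=
  fun z => (hasDerivAt_Y k c s n z).differentiableAt

/-! ### the real `P`, `Q`, `mu` -/

theorem map_sol (a : ℕ → ℝ) (u v : ℝ) (n : ℕ) :
    Align.sol (fun i => ((a i : ℝ) : ℂ)) (u : ℂ) (v : ℂ) n = ((Align.sol a u v n : ℝ) : ℂ) := by
  induction n using Nat.strong_induction_on with
  | _ n ih =>
    match n with
    | 0 => rfl
    | 1 => rfl
    | n + 2 =>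
      rw [Align.sol_add_two, Align.sol_add_two, ih (n + 1) (by omega), ih n (by omega)]
      push_cast
      rfl

/-- real digits -/
noncomputable def ar (k c : ℝ) (s : Bool) (t : ℝ) (n : ℕ) : ℝ :=
  2 + 2 * Real.pi * k * Real.cos (2 * Real.pi * yr k c s n t)

theorem dg_eq_ar (k c : ℝ) (s : Bool) (t : ℝ) :
    Loc.dg k c s (t : ℂ) = fun i => ((ar k c s t i : ℝ) : ℂ) := by
  funext i
  exact dg_ofReal k c s i t

theorem mu_ofReal (k c : ℝ) (s : Bool) (n : ℕ) (t : ℝ) :
    Loc.mu k c s n (t : ℂ) = ((Align.mu (ar k c s t) n : ℝ) : ℂ) := by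
  unfold Loc.mu
  rw [dg_eq_ar]
  unfold Align.mu Align.P Align.Q
  have h1 := map_sol (ar k c s t) 1 0 n
  have h2 := map_sol (ar k c s t) 0 1 n
  rw [Complex.ofReal_one, Complex.ofReal_zero] at h1 h2
  rw [h1, h2]
  push_cast
  rfl

theorem mu_im (k c : ℝ) (s : Bool) (n : ℕ) (t : ℝ) : (Loc.mu k c s n (t : ℂ)).im = 0 := by
  rw [mu_ofReal]
  exact Complex.ofReal_im _

theorem cont_im (k c : ℝ) (s : Bool) (n n' : ℕ) (t : ℝ) : (cont k c s n n' (t : ℂ)).im = 0 := by
  unfold cont
  rw [mu_ofReal, mu_ofReal, cV_ofReal]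
  simp

theorem cont_ofReal (k c : ℝ) (s : Bool) (n n' : ℕ) (t : ℝ) :
    cont k c s n n' (t : ℂ) = (((cont k c s n n' (t : ℂ)).re : ℝ) : ℂ) := by
  apply Complex.ext
  · simp
  · rw [Complex.ofReal_im]
    exact cont_im k c s n n' t

theorem norm_cont (k c : ℝ) (s : Bool) (n n' : ℕ) (t : ℝ) :
    ‖cont k c s n n' (t : ℂ)‖ = |(cont k c s n n' (t : ℂ)).re| := by
  rw [cont_ofReal, Complex.norm_real, Real.norm_eq_abs]
  simp

theorem mu_succ (k c : ℝ) (s : Bool) (n : ℕ) (z : ℂ) (h0 : D k c s n z ≠ 0)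
    (h1 : D k c s (n + 1) z ≠ 0) :
    Loc.mu k c s (n + 1) z = Loc.mu k c s n z + 1 / (D k c s n z * D k c s (n + 1) z) := by
  have h := Align.mu_succ_sub (a := Loc.dg k c s z) (n := n) (by rw [Q_dg]; exact h0)
    (by rw [Q_dg]; exact h1)
  rw [Q_dg, Q_dg] at h
  unfold Loc.mu
  rw [← h]
  ring

/-- **the content cut one step later** -/
theorem cont_succ_succ (k c : ℝ) (s : Bool) (n n' : ℕ) (z : ℂ) (h0 : D k c s n z ≠ 0)
    (h1 : D k c s (n + 1) z ≠ 0) (h0' : D k c (!s) n' z ≠ 0) (h1' : D k c (!s) (n' + 1) z ≠ 0) :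
    cont k c s (n + 1) (n' + 1) z = cont k c s n n' z - 1 / (D k c s n z * D k c s (n + 1) z)
      - 1 / (D k c (!s) n' z * D k c (!s) (n' + 1) z) := by
  unfold cont
  rw [mu_succ k c s n z h0 h1, mu_succ k c (!s) n' z h0' h1']
  ring

/-- exchanging the two sides -/
theorem cont_swap (k c : ℝ) (s : Bool) (n n' : ℕ) (z : ℂ) :
    cont k c (!s) n' n z = cont k c s n n' z := by
  unfold cont
  rw [Bool.not_not]
  ring

/-! ### measurability -/

theorem continuous_yr (k c : ℝ) (s : Bool) (n : ℕ) : Continuous (yr k c s n) :=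
  continuous_iff_continuousAt.2 fun t => (hasDerivAt_yr k c s n t).continuousAt

theorem continuous_ar (k c : ℝ) (s : Bool) (n : ℕ) : Continuous fun t => ar k c s t n := by
  unfold ar
  have := continuous_yr k c s n
  fun_prop

theorem continuous_sol (k c : ℝ) (s : Bool) (u v : ℝ) (n : ℕ) :
    Continuous fun t => Align.sol (ar k c s t) u v n := by
  induction n using Nat.strong_induction_on with
  | _ n ih =>
    match n with
    | 0 => exact continuous_const
    | 1 => exact continuous_const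
    | n + 2 =>
      have e : (fun t => Align.sol (ar k c s t) u v (n + 2)) = fun t =>
          ar k c s t (n + 1) * Align.sol (ar k c s t) u v (n + 1)
            - Align.sol (ar k c s t) u v n := by
        funext t
        rw [Align.sol_add_two]
      rw [e]
      exact ((continuous_ar k c s (n + 1)).mul (ih (n + 1) (by omega))).sub (ih n (by omega))

theorem measurable_mu (k c : ℝ) (s : Bool) (n : ℕ) :
    Measurable fun t : ℝ => Align.mu (ar k c s t) n := by
  unfold Align.mu Align.P Align.Q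
  exact ((continuous_sol k c s 1 0 n).measurable.neg).div (continuous_sol k c s 0 1 n).measurable

theorem measurable_cont (k c : ℝ) (s : Bool) (n n' : ℕ) :
    Measurable fun t : ℝ => (cont k c s n n' (t : ℂ)).re := by
  have e : (fun t : ℝ => (cont k c s n n' (t : ℂ)).re) = fun t : ℝ =>
      (cV k c).re - Align.mu (ar k c s t) n - Align.mu (ar k c (!s) t) n' := by
    funext t
    unfold cont
    rw [mu_ofReal, mu_ofReal]
    simp
  rw [e]
  exact (measurable_const.sub (measurable_mu k c s n)).sub (measurable_mu k c (!s) n')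

theorem measurable_norm_cont (k c : ℝ) (s : Bool) (n n' : ℕ) :
    Measurable fun t : ℝ => ‖cont k c s n n' (t : ℂ)‖ := by
  have e : (fun t : ℝ => ‖cont k c s n n' (t : ℂ)‖) = fun t : ℝ =>
      |(cont k c s n n' (t : ℂ)).re| := by
    funext t
    exact norm_cont k c s n n' t
  rw [e]
  exact measurable_abs.comp (measurable_cont k c s n n')

end Crest.Agent.R128.LocRealX
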