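import Mathlib
import Crest.Agent.R128.Align
import Crest.Agent.R128.LocA0

/-! Row 128 (helper284): the exit index of a run of regular digits and the size reached at the end
of the run (Wronskian). Sorry free. -/

set_option autoImplicit false

namespace Crest.Agent.R128.LocRun

/-- `(k^(2/3) - 1)^91 ≥ k^60` -/
theorem pow91 {k : ℝ} (hk : 10 ^ 20 ≤ k) : k ^ 60 ≤ (k ^ (2 / 3 : ℝ) - 1) ^ 91 := by
  have hk0 : 0 < k := by linarith
  have hk1 : 1 ≤ k := by linarith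
  obtain ⟨u, hu⟩ : ∃ u : ℝ, u = k ^ (1 / 3 : ℝ) := ⟨_, rfl⟩
  have hu0 : 0 < u := by rw [hu]; positivity
  have hu3 : u ^ 3 = k := by
    rw [hu, ← Real.rpow_natCast, ← Real.rpow_mul hk0.le]
    norm_num
  have hu2 : k ^ (2 / 3 : ℝ) = u ^ 2 := by
    rw [hu, ← Real.rpow_natCast, ← Real.rpow_mul hk0.le]
    norm_num
  have hub : 182 ≤ u := by
    by_contra hcon
    have h1 : u < 182 := not_le.1 hcon
    have h2 : u ^ 3 < 182 ^ 3 := by gcongr
    rw [hu3] at h2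
    norm_num at h2
    linarith
  rw [hu2, ← hu3]
  have hb : (1 : ℝ) + (91 : ℕ) * (-(1 / u ^ 2)) ≤ (1 + -(1 / u ^ 2)) ^ 91 := by
    apply one_add_mul_le_pow
    have : 1 / u ^ 2 ≤ 1 := by
      rw [div_le_one (by positivity)]
      nlinarith
    linarith
  have hfac : u ^ 2 - 1 = u ^ 2 * (1 + -(1 / u ^ 2)) := by
    field_simp
    ring
  rw [hfac, mul_pow]
  have h91 : (1 : ℝ) / 2 ≤ (1 + -(1 / u ^ 2)) ^ 91 := by
    refine le_trans ?_ hb
    have : 91 * (1 / u ^ 2) ≤ 1 / 2 := by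
      rw [mul_one_div, div_le_div_iff₀ (by positivity) (by norm_num)]
      nlinarith
    push_cast
    linarith
  calc (u ^ 3) ^ 60 = u ^ 180 := by ring
    _ ≤ u ^ 180 * (u ^ 2 * (1 / 2)) := by
        have : 1 ≤ u ^ 2 * (1 / 2) := by nlinarith
        exact le_mul_of_one_le_right (by positivity) this
    _ = (u ^ 2) ^ 91 * (1 / 2) := by ring
    _ ≤ (u ^ 2) ^ 91 * (1 + -(1 / u ^ 2)) ^ 91 := by gcongr

/-- **exit index.** `d j` = slope at the index `n0 + 1 + j`, `v j` = size of the digit. -/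
theorem exists_exit {k δ ρ : ℝ} {d v : ℕ → ℝ} {M : ℕ} (hk : 10 ^ 20 ≤ k)
    (hd : ∀ j, 0 ≤ d j) (hρ : 0 < ρ) (hδ : 0 < δ) (hδ1 : δ ≤ 1)
    (hv : ∀ j < M, k ^ (2 / 3 : ℝ) ≤ v j) (hv2 : ∀ j < M, v j ≤ 8 * k)
    (hg : ∀ j < M, (v j - 1) * d j ≤ d (j + 1)) (hg2 : ∀ j < M, d (j + 1) ≤ (v j + 1) * d j)
    (h0 : 1 / k ^ 60 ≤ d 0 * ρ) (h0' : d 0 * ρ ≤ δ) (hM : k ^ 10 ≤ d M * ρ) :
    ∃ jS : ℕ, jS ≤ 91 ∧ jS + 8 ≤ M ∧ (∀ j < jS, d j * ρ < δ) ∧ δ ≤ d jS * ρ ∧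
      (∀ j ≤ jS, d j * ρ ≤ 9 * k * δ) := by
  classical
  have hk0 : 0 < k := by linarith
  have hk1 : 1 ≤ k := by linarith
  have hpow : ∀ i ≤ M, (k ^ (2 / 3 : ℝ) - 1) ^ i * d 0 ≤ d i := by
    intro i
    induction i with
    | zero => intro _; simp
    | succ i ih =>
      intro hi
      have h1 := ih (by omega)
      have h2 := hg i (by omega)
      have h3 := hv i (by omega)
      have hb0 : 0 ≤ k ^ (2 / 3 : ℝ) - 1 := by
        have : 1 ≤ k ^ (2 / 3 : ℝ) := Real.one_le_rpow hk1 (by norm_num)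
        linarith
      calc (k ^ (2 / 3 : ℝ) - 1) ^ (i + 1) * d 0
          = (k ^ (2 / 3 : ℝ) - 1) * ((k ^ (2 / 3 : ℝ) - 1) ^ i * d 0) := by ring
        _ ≤ (k ^ (2 / 3 : ℝ) - 1) * d i := by gcongr
        _ ≤ (v i - 1) * d i := by
            have := hd i
            gcongr
        _ ≤ d (i + 1) := h2
  have hex : ∃ j, δ ≤ d j * ρ := ⟨M, by
    have : 1 ≤ k ^ 10 := one_le_pow₀ hk1
    linarith⟩
  have hS := Nat.find_spec hex
  have hmin : ∀ j < Nat.find hex, d j * ρ < δ := fun j hj => not_le.1 (Nat.find_min hex hj)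
  set jS := Nat.find hex with hjS
  have hjM : jS ≤ M := Nat.find_min' hex (by
    have : 1 ≤ k ^ 10 := one_le_pow₀ hk1
    linarith)
  have hup : d jS * ρ ≤ 9 * k * δ := by
    rcases Nat.eq_zero_or_pos jS with h | h
    · rw [h]; nlinarith
    · obtain ⟨i, hi⟩ : ∃ i, jS = i + 1 := ⟨jS - 1, by omega⟩
      have h1 := hmin i (by omega)
      have h2 := hg2 i (by omega)
      have h3 := hv2 i (by omega)
      have h4 := hd i
      rw [hi]
      calc d (i + 1) * ρ ≤ ((v i + 1) * d i) * ρ := by gcongr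
        _ = (v i + 1) * (d i * ρ) := by ring
        _ ≤ (8 * k + 1) * δ := by
            have : 0 ≤ d i * ρ := by positivity
            gcongr
        _ ≤ 9 * k * δ := by
            have : 8 * k + 1 ≤ 9 * k := by linarith
            gcongr
  refine ⟨jS, ?_, ?_, hmin, hS, ?_⟩
  · -- `jS ≤ 91`
    by_contra hcon
    have h92 : 92 ≤ jS := by omega
    have h1 := hmin 91 (by omega)
    have h2 := hpow 91 (by omega)
    have h3 := pow91 hk
    have hd0 := hd 0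
    have h4 : k ^ 60 * (d 0 * ρ) ≤ d 91 * ρ := by
      calc k ^ 60 * (d 0 * ρ) ≤ (k ^ (2 / 3 : ℝ) - 1) ^ 91 * (d 0 * ρ) := by gcongr
        _ = ((k ^ (2 / 3 : ℝ) - 1) ^ 91 * d 0) * ρ := by ring
        _ ≤ d 91 * ρ := by gcongr
    have h5 : 1 ≤ k ^ 60 * (d 0 * ρ) := by
      rw [div_le_iff₀ (by positivity)] at h0
      linarith
    linarith
  · -- `jS + 8 ≤ M`
    by_contra hcon
    obtain ⟨e, he⟩ : ∃ e, M = jS + e := ⟨M - jS, by omega⟩
    have he7 : e ≤ 7 := by omega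
    have hgrow : ∀ i ≤ e, d (jS + i) * ρ ≤ (9 * k) ^ (i + 1) := by
      intro i
      induction i with
      | zero =>
        intro _
        have : 9 * k * δ ≤ 9 * k := by nlinarith
        simpa using hup.trans this
      | succ i ih =>
        intro hi
        have h1 := ih (by omega)
        have h2 := hg2 (jS + i) (by omega)
        have h3 := hv2 (jS + i) (by omega)
        have h4 := hd (jS + i)
        have e1 : jS + (i + 1) = jS + i + 1 := by omega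
        rw [e1]
        calc d (jS + i + 1) * ρ ≤ ((v (jS + i) + 1) * d (jS + i)) * ρ := by gcongr
          _ = (v (jS + i) + 1) * (d (jS + i) * ρ) := by ring
          _ ≤ (9 * k) * (9 * k) ^ (i + 1) := by
              have : 0 ≤ d (jS + i) * ρ := by positivity
              gcongr
              linarith
          _ = (9 * k) ^ (i + 1 + 1) := by ring
    have h6 := hgrow e le_rfl
    rw [← he] at h6
    have h7 : (9 * k) ^ (e + 1) ≤ (9 * k) ^ 8 :=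
      pow_le_pow_right₀ (by linarith) (by omega)
    have h8 : (9 * k) ^ 8 < k ^ 10 := by
      have : (9:ℝ) ^ 8 < k ^ 2 := by
        calc (9:ℝ) ^ 8 < (10 ^ 20) ^ 2 := by norm_num
          _ ≤ k ^ 2 := by gcongr
      calc (9 * k) ^ 8 = 9 ^ 8 * k ^ 8 := by ring
        _ < k ^ 2 * k ^ 8 := by gcongr
        _ = k ^ 10 := by ring
    linarith
  · intro j hj
    rcases Nat.lt_or_ge j jS with h | h
    · have := hmin j h
      nlinarith
    · obtain rfl : j = jS := by omega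
      exact hup

open Crest.Agent.R128 Crest.Agent.R128.Cell Crest.Agent.R128.CellB Crest.Agent.R128.LocA

/-- real digits are at most `8 k` -/
theorem vv_le8 {k : ℝ} (hk : 2 ≤ k) {Y : ℕ → ℂ → ℂ} {m : ℕ} {x : ℂ} (h : (Y m x).im = 0) :
    vv k Y m x ≤ 8 * k := by
  unfold vv
  have e : Y m x = ((Y m x).re : ℂ) := by
    apply Complex.ext <;> simp [h]
  rw [e, cV_ofReal, Complex.norm_real, Real.norm_eq_abs]
  rw [V_coe]
  have h1 : |2 + 2 * Real.pi * k * Real.cos (2 * Real.pi * (Y m x).re)| ≤ 2 + 2 * Real.pi * k := by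
    calc |2 + 2 * Real.pi * k * Real.cos (2 * Real.pi * (Y m x).re)|
        ≤ |(2:ℝ)| + |2 * Real.pi * k * Real.cos (2 * Real.pi * (Y m x).re)| := abs_add_le _ _
      _ ≤ 2 + 2 * Real.pi * k := by
          rw [abs_mul, abs_of_pos (by positivity : (0:ℝ) < 2 * Real.pi * k),
            abs_of_pos (by norm_num : (0:ℝ) < 2)]
          have := Real.abs_cos_le_one (2 * Real.pi * (Y m x).re)
          have h2 : 0 < 2 * Real.pi * k := by positivity
          nlinarith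
  have h3 := Real.pi_lt_d2
  nlinarith

/-- growth of the slopes along a run of regular digits at one point -/
theorem growth {k : ℝ} {S : Set ℂ} {Y D : ℕ → ℂ → ℂ} (co : CO k S Y D) {t₀ : ℂ} (ht : t₀ ∈ S)
    {n0 M : ℕ} (cone : ‖D n0 t₀‖ ≤ ‖D (n0 + 1) t₀‖)
    (hrun : ∀ j < M, 2 ≤ vv k Y (n0 + 1 + j) t₀) :
    ∀ j ≤ M, ‖D (n0 + j) t₀‖ ≤ ‖D (n0 + 1 + j) t₀‖ ∧
      (j < M → (vv k Y (n0 + 1 + j) t₀ - 1) * ‖D (n0 + 1 + j) t₀‖ ≤ ‖D (n0 + 1 + (j + 1)) t₀‖ ∧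
        ‖D (n0 + 1 + (j + 1)) t₀‖ ≤ (vv k Y (n0 + 1 + j) t₀ + 1) * ‖D (n0 + 1 + j) t₀‖) := by
  have hst : ∀ j < M, ‖D (n0 + j) t₀‖ ≤ ‖D (n0 + 1 + j) t₀‖ →
      (vv k Y (n0 + 1 + j) t₀ - 1) * ‖D (n0 + 1 + j) t₀‖ ≤ ‖D (n0 + 1 + (j + 1)) t₀‖ ∧
        ‖D (n0 + 1 + (j + 1)) t₀‖ ≤ (vv k Y (n0 + 1 + j) t₀ + 1) * ‖D (n0 + 1 + j) t₀‖ := by
    intro j hj h
    have e1 : n0 + 1 + (j + 1) = n0 + j + 2 := by omega
    have e2 : n0 + 1 + j = n0 + j + 1 := by omega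
    have hs := co.step (n0 + j) t₀ ht
    rw [e2] at h ⊢
    rw [e1, hs]
    have hn : ‖cV k (Y (n0 + j + 1) t₀) * D (n0 + j + 1) t₀‖ =
        vv k Y (n0 + j + 1) t₀ * ‖D (n0 + j + 1) t₀‖ := norm_mul _ _
    constructor
    · have := norm_sub_norm_le (cV k (Y (n0 + j + 1) t₀) * D (n0 + j + 1) t₀) (D (n0 + j) t₀)
      rw [hn] at this
      linarith
    · have := norm_sub_le (cV k (Y (n0 + j + 1) t₀) * D (n0 + j + 1) t₀) (D (n0 + j) t₀)
      rw [hn] at this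
      linarith
  intro j
  induction j with
  | zero =>
    intro _
    refine ⟨by simpa using cone, fun h => hst 0 h (by simpa using cone)⟩
  | succ j ih =>
    intro hj
    obtain ⟨h1, h2⟩ := ih (by omega)
    obtain ⟨h3, h4⟩ := h2 (by omega)
    have hr := hrun j (by omega)
    have hc : ‖D (n0 + (j + 1)) t₀‖ ≤ ‖D (n0 + 1 + (j + 1)) t₀‖ := by
      have e : n0 + (j + 1) = n0 + 1 + j := by omega
      rw [e]
      refine le_trans ?_ h3
      have := norm_nonneg (D (n0 + 1 + j) t₀)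
      nlinarith
    exact ⟨hc, fun h => hst (j + 1) h hc⟩

/-- **the exit index of one side at `t₀`** -/
theorem exit_of_run {k : ℝ} {S : Set ℂ} {Y D : ℕ → ℂ → ℂ} (co : CO k S Y D) {t₀ : ℝ}
    (ht : (t₀ : ℂ) ∈ S) {n0 M : ℕ} {δ ρ : ℝ} (hk : 10 ^ 20 ≤ k) (hρ : 0 < ρ) (hδ : 0 < δ)
    (hδ1 : δ ≤ 1) (cone : ‖D n0 t₀‖ ≤ ‖D (n0 + 1) t₀‖)
    (hrun : ∀ j < M, k ^ (2 / 3 : ℝ) ≤ vv k Y (n0 + 1 + j) t₀)
    (h0 : 1 / k ^ 60 ≤ ‖D (n0 + 1) t₀‖ * ρ) (h0' : ‖D (n0 + 1) t₀‖ * ρ ≤ δ)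
    (hM : k ^ 10 ≤ ‖D (n0 + 1 + M) t₀‖ * ρ) :
    ∃ jS : ℕ, jS ≤ 91 ∧ jS + 8 ≤ M ∧ Exit D n0 jS t₀ ρ δ ∧
      (∀ j < jS, ‖D (n0 + 1 + j) t₀‖ * ρ < δ) ∧
      (∀ j ≤ jS, ‖D (n0 + 1 + j) t₀‖ * ρ ≤ 9 * k * δ) := by
  have hk1 : 1 ≤ k := by linarith
  have h23 : 2 ≤ k ^ (2 / 3 : ℝ) := by
    have h1 : (10 ^ 20 : ℝ) ^ (2 / 3 : ℝ) ≤ k ^ (2 / 3 : ℝ) :=
      Real.rpow_le_rpow (by norm_num) hk (by norm_num)
    have h2 : (2:ℝ) ≤ (10 ^ 20 : ℝ) ^ (2 / 3 : ℝ) := by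
      have h3 : ((8:ℝ)) ^ (2 / 3 : ℝ) ≤ (10 ^ 20 : ℝ) ^ (2 / 3 : ℝ) :=
        Real.rpow_le_rpow (by norm_num) (by norm_num) (by norm_num)
      have h4 : (8:ℝ) ^ (2 / 3 : ℝ) = 4 := by
        rw [show (8:ℝ) = 2 ^ (3:ℝ) by norm_num, ← Real.rpow_mul (by norm_num)]
        norm_num
      linarith
    linarith
  have hgr := growth co ht cone (fun j hj => h23.trans (hrun j hj))
  obtain ⟨jS, h1, h2, h3, h4, h5⟩ := exists_exit (d := fun j => ‖D (n0 + 1 + j) t₀‖)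
    (v := fun j => vv k Y (n0 + 1 + j) t₀) (M := M) hk (fun _ => norm_nonneg _) hρ hδ hδ1 hrun
    (fun j _ => vv_le8 (by linarith) (co.real _ _)) (fun j hj => ((hgr j hj.le).2 hj).1)
    (fun j hj => ((hgr j hj.le).2 hj).2) (by simpa using h0) (by simpa using h0') hM
  exact ⟨jS, h1, h2, ⟨fun j hj => (h3 j hj).le, h4⟩, h3, h5⟩

/-- Wronskian of a solution and of the fundamental solution `Q` -/
theorem wronskian {a : ℕ → ℝ} {x : ℕ → ℝ} (hx : ∀ n, x (n + 2) = a (n + 1) * x (n + 1) - x n)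
    (n : ℕ) : x n * Align.Q a (n + 1) - x (n + 1) * Align.Q a n = x 0 := by
  induction n with
  | zero => simp
  | succ n ih =>
    rw [Align.Q_add_two, hx]
    linear_combination ih

/-- size of `Q` where the solution `x` is small -/
theorem Q_ge {a : ℕ → ℝ} {x : ℕ → ℝ} (hx : ∀ n, x (n + 2) = a (n + 1) * x (n + 1) - x n)
    (hx0 : |x 0| = 1) {n : ℕ} {e : ℝ} (he : 0 < e) (h1 : |x n| ≤ e) (h2 : |x (n + 1)| ≤ e)
    (hQ : |Align.Q a n| ≤ |Align.Q a (n + 1)|) : 1 / (2 * e) ≤ |Align.Q a (n + 1)| := by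
  have hw := wronskian hx n
  have h3 : 1 ≤ 2 * e * |Align.Q a (n + 1)| := by
    calc 1 = |x 0| := hx0.symm
      _ = |x n * Align.Q a (n + 1) - x (n + 1) * Align.Q a n| := by rw [hw]
      _ ≤ |x n * Align.Q a (n + 1)| + |x (n + 1) * Align.Q a n| := abs_sub _ _
      _ = |x n| * |Align.Q a (n + 1)| + |x (n + 1)| * |Align.Q a n| := by rw [abs_mul, abs_mul]
      _ ≤ e * |Align.Q a (n + 1)| + e * |Align.Q a (n + 1)| := by gcongr
      _ = 2 * e * |Align.Q a (n + 1)| := by ring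
  rw [div_le_iff₀ (by positivity)]
  linarith

end Crest.Agent.R128.LocRun
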