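import Mathlib

/-!
Row 128, node V5-LOC-A (helper791, for helper595): choice of the two exits with comparable slopes.
-/

set_option autoImplicit false

namespace Crest.Agent.R128.LocSelY

theorem one {k A δ : ℝ} {u : ℕ → ℝ} (hk : 10 ^ 100 ≤ k) (hA0 : 10 ^ 40 ≤ A) (hδ : 0 < δ)
    (h0 : δ / 2 ≤ u 0) (h0' : u 0 ≤ 20 * k * δ) (h1 : A / 2 * u 0 ≤ u 1)
    (h : ∀ j, 1 ≤ j → j ≤ 5 → k / 10 ^ 5 * u j ≤ u (j + 1))
    (h' : ∀ j ≤ 5, u (j + 1) ≤ 11 * k * u j) :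
    (∀ j ≤ 5, (k / 10 ^ 5) ^ j * (A * δ / 4) ≤ u (j + 1)) ∧
      (∀ j ≤ 6, u j ≤ (11 * k) ^ j * (20 * k * δ)) := by
  have hk0 : 0 < k := by
    have : (0 : ℝ) < 10 ^ 100 := by positivity
    linarith
  have hA1 : 0 < A := by
    have : (0 : ℝ) < 10 ^ 40 := by positivity
    linarith
  constructor
  · intro j
    induction j with
    | zero =>
      intro _
      have : A / 2 * (δ / 2) ≤ A / 2 * u 0 := by gcongr
      calc (k / 10 ^ 5) ^ 0 * (A * δ / 4) = A / 2 * (δ / 2) := by ring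
        _ ≤ _ := this.trans h1
    | succ n ih =>
      intro hn
      have h2 := ih (by omega)
      have h3 := h (n + 1) (by omega) (by omega)
      calc (k / 10 ^ 5) ^ (n + 1) * (A * δ / 4) = k / 10 ^ 5 * ((k / 10 ^ 5) ^ n * (A * δ / 4)) := by
            ring
        _ ≤ k / 10 ^ 5 * u (n + 1) := by gcongr
        _ ≤ _ := h3
  · intro j
    induction j with
    | zero => intro _; simpa using h0'
    | succ n ih =>
      intro hn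
      have h2 := ih (by omega)
      have h3 := h' n (by omega)
      calc u (n + 1) ≤ 11 * k * u n := h3
        _ ≤ 11 * k * ((11 * k) ^ n * (20 * k * δ)) := by gcongr
        _ = _ := by ring

theorem core {k A δ : ℝ} {a b : ℕ → ℝ} (hk : 10 ^ 100 ≤ k) (hA : 10 ^ 40 * k ≤ A ^ 2)
    (hA0 : 10 ^ 40 ≤ A) (hδ : 0 < δ) (hδ1 : δ ≤ 1) (hAδ : 1 ≤ A * δ)
    (ha0 : δ / 2 ≤ a 0) (ha0' : a 0 ≤ 20 * k * δ)
    (hb0 : δ / 2 ≤ b 0) (hb0' : b 0 ≤ 20 * k * δ)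
    (ha1 : A / 2 * a 0 ≤ a 1) (hb1 : A / 2 * b 0 ≤ b 1)
    (ha : ∀ j, 1 ≤ j → j ≤ 5 → k / 10 ^ 5 * a j ≤ a (j + 1))
    (hb : ∀ j, 1 ≤ j → j ≤ 5 → k / 10 ^ 5 * b j ≤ b (j + 1))
    (ha' : ∀ j ≤ 5, a (j + 1) ≤ 11 * k * a j) (hb' : ∀ j ≤ 5, b (j + 1) ≤ 11 * k * b j) :
    ∃ i j, 3 ≤ i ∧ i ≤ 6 ∧ 3 ≤ j ∧ j ≤ 6 ∧
      ((a i ≤ b j ∧ b j ≤ 4 * Real.sqrt k * a i) ∨ (b j ≤ a i ∧ a i ≤ 4 * Real.sqrt k * b j)) ∧
      1 ≤ a i ∧ 1 ≤ b j ∧ a i ≤ k ^ 8 ∧ b j ≤ k ^ 8 := by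
  have hk0 : 0 < k := by
    have : (0 : ℝ) < 10 ^ 100 := by positivity
    linarith
  have hA1 : 0 < A := by
    have : (0 : ℝ) < 10 ^ 40 := by positivity
    linarith
  obtain ⟨La, Ua⟩ := one hk hA0 hδ ha0 ha0' ha1 ha ha'
  obtain ⟨Lb, Ub⟩ := one hk hA0 hδ hb0 hb0' hb1 hb hb'
  obtain ⟨s, hs⟩ : ∃ s, s = Real.sqrt k := ⟨_, rfl⟩
  have hs0 : 0 < s := by rw [hs]; exact Real.sqrt_pos.mpr hk0
  have hss : s * s = k := by rw [hs]; exact Real.mul_self_sqrt hk0.le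
  have hAs : 10 ^ 20 * s ≤ A := by
    have : (10 ^ 20 * s) ^ 2 ≤ A ^ 2 := by
      calc (10 ^ 20 * s) ^ 2 = 10 ^ 40 * (s * s) := by ring
        _ = 10 ^ 40 * k := by rw [hss]
        _ ≤ _ := hA
    exact (pow_le_pow_iff_left₀ (by positivity) hA1.le two_ne_zero).mp this
  -- size of the exits
  have hlow : ∀ u : ℕ → ℝ, (∀ j ≤ 5, (k / 10 ^ 5) ^ j * (A * δ / 4) ≤ u (j + 1)) →
      ∀ j, 3 ≤ j → j ≤ 6 → 1 ≤ u j := by
    intro u hu j h3 h6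
    obtain ⟨i, rfl⟩ : ∃ i, j = i + 1 := ⟨j - 1, by omega⟩
    refine le_trans ?_ (hu i (by omega))
    have hc : (10 : ℝ) ^ 95 ≤ k / 10 ^ 5 := by
      rw [le_div_iff₀ (by positivity)]
      calc (10 : ℝ) ^ 95 * 10 ^ 5 = 10 ^ 100 := by norm_num
        _ ≤ k := hk
    have hc2 : (10 : ℝ) ^ 95 ≤ (k / 10 ^ 5) ^ i := by
      calc (10 : ℝ) ^ 95 ≤ k / 10 ^ 5 := hc
        _ = (k / 10 ^ 5) ^ 1 := by ring
        _ ≤ (k / 10 ^ 5) ^ i := by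
          apply pow_le_pow_right₀ _ (by omega)
          exact le_trans (by norm_num) hc
    calc (1 : ℝ) ≤ 10 ^ 95 * (1 / 4) := by norm_num
      _ ≤ (k / 10 ^ 5) ^ i * (A * δ / 4) := by
        apply mul_le_mul hc2 (by linarith) (by norm_num) (by positivity)
  have hupp : ∀ u : ℕ → ℝ, (∀ j ≤ 6, u j ≤ (11 * k) ^ j * (20 * k * δ)) →
      ∀ j, 3 ≤ j → j ≤ 6 → u j ≤ k ^ 8 := by
    intro u hu j h3 h6
    refine (hu j h6).trans ?_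
    have h11 : 1 ≤ 11 * k := by
      have : (1 : ℝ) ≤ 10 ^ 100 := by norm_num
      linarith
    calc (11 * k) ^ j * (20 * k * δ) ≤ (11 * k) ^ 6 * (20 * k * 1) := by
          gcongr
      _ = (11 ^ 6 * 20) * k ^ 7 := by ring
      _ ≤ k * k ^ 7 := by
        gcongr
        exact le_trans (by norm_num) hk
      _ = k ^ 8 := by ring
  -- comparison of `b 6` and `a 4`
  have h64 : a 4 ≤ b 6 := by
    refine (Ua 4 (by norm_num)).trans (le_trans ?_ (Lb 5 (by norm_num)))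
    calc (11 * k) ^ 4 * (20 * k * δ) = (11 ^ 4 * 20) * (k ^ 5 * δ) := by ring
      _ ≤ (10 ^ 40 / (10 ^ 25 * 4)) * (k ^ 5 * δ) := by
        gcongr
        norm_num
      _ ≤ (A / (10 ^ 25 * 4)) * (k ^ 5 * δ) := by gcongr
      _ = _ := by ring
  have h24 : 4 * s * b 2 ≤ a 4 := by
    refine le_trans ?_ (La 3 (by norm_num))
    calc 4 * s * b 2 ≤ 4 * s * ((11 * k) ^ 2 * (20 * k * δ)) := by
          gcongr
          exact Ub 2 (by norm_num)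
      _ = (4 * 11 ^ 2 * 20) * s * (k ^ 3 * δ) := by ring
      _ ≤ (10 ^ 20 / (10 ^ 15 * 4)) * s * (k ^ 3 * δ) := by
        gcongr
        norm_num
      _ = (10 ^ 20 * s) * ((k ^ 3 * δ) / (10 ^ 15 * 4)) := by ring
      _ ≤ A * ((k ^ 3 * δ) / (10 ^ 15 * 4)) := by gcongr
      _ = _ := by ring
  have ha4 : 1 ≤ a 4 := hlow a La 4 (by norm_num) (by norm_num)
  -- one step of the search
  have hstep : ∀ j, 3 ≤ j → j ≤ 5 → b j ≤ a 4 → a 4 ≤ b (j + 1) →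
      (b (j + 1) ≤ 4 * s * a 4) ∨ (a 4 ≤ 4 * s * b j) := by
    intro j h3 h5 h6 h7
    by_cases h8 : b (j + 1) ≤ 4 * s * a 4
    · exact Or.inl h8
    · right
      push Not at h8
      have h9 := hb' j h5
      have h10 : 4 * s * a 4 < 11 * k * b j := lt_of_lt_of_le h8 h9
      have h11 : s * (4 * a 4) < s * (11 * s * b j) := by
        calc s * (4 * a 4) = 4 * s * a 4 := by ring
          _ < 11 * k * b j := h10
          _ = s * (11 * s * b j) := by rw [← hss]; ring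
      have h12 : 4 * a 4 < 11 * s * b j := lt_of_mul_lt_mul_left h11 hs0.le
      have h13 : 0 < b j := lt_of_lt_of_le one_pos (hlow b Lb j h3 (by omega))
      nlinarith [mul_pos hs0 h13]
  have fin1 : ∀ j, 3 ≤ j → j ≤ 6 → a 4 ≤ b j → b j ≤ 4 * s * a 4 →
      ∃ i j, 3 ≤ i ∧ i ≤ 6 ∧ 3 ≤ j ∧ j ≤ 6 ∧
      ((a i ≤ b j ∧ b j ≤ 4 * Real.sqrt k * a i) ∨ (b j ≤ a i ∧ a i ≤ 4 * Real.sqrt k * b j)) ∧
      1 ≤ a i ∧ 1 ≤ b j ∧ a i ≤ k ^ 8 ∧ b j ≤ k ^ 8 := by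
    intro j h3 h6 h7 h8
    refine ⟨4, j, by norm_num, by norm_num, h3, h6, Or.inl ⟨h7, ?_⟩, ha4, hlow b Lb j h3 h6,
      hupp a Ua 4 (by norm_num) (by norm_num), hupp b Ub j h3 h6⟩
    rw [← hs]; exact h8
  have fin2 : ∀ j, 3 ≤ j → j ≤ 6 → b j ≤ a 4 → a 4 ≤ 4 * s * b j →
      ∃ i j, 3 ≤ i ∧ i ≤ 6 ∧ 3 ≤ j ∧ j ≤ 6 ∧
      ((a i ≤ b j ∧ b j ≤ 4 * Real.sqrt k * a i) ∨ (b j ≤ a i ∧ a i ≤ 4 * Real.sqrt k * b j)) ∧
      1 ≤ a i ∧ 1 ≤ b j ∧ a i ≤ k ^ 8 ∧ b j ≤ k ^ 8 := by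
    intro j h3 h6 h7 h8
    refine ⟨4, j, by norm_num, by norm_num, h3, h6, Or.inr ⟨h7, ?_⟩, ha4, hlow b Lb j h3 h6,
      hupp a Ua 4 (by norm_num) (by norm_num), hupp b Ub j h3 h6⟩
    rw [← hs]; exact h8
  by_cases c3 : a 4 ≤ b 3
  · refine fin1 3 le_rfl (by norm_num) c3 ?_
    have h9 := hb' 2 (by norm_num)
    norm_num at h9
    have h10 : 11 * k * b 2 = (11 / 4 * s) * (4 * s * b 2) := by rw [← hss]; ring
    calc b 3 ≤ 11 * k * b 2 := h9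
      _ = (11 / 4 * s) * (4 * s * b 2) := h10
      _ ≤ (11 / 4 * s) * a 4 := by gcongr
      _ ≤ 4 * s * a 4 := by gcongr; norm_num
  push Not at c3
  by_cases c4 : a 4 ≤ b 4
  · rcases hstep 3 le_rfl (by norm_num) c3.le c4 with h | h
    · exact fin1 4 (by norm_num) (by norm_num) c4 h
    · exact fin2 3 le_rfl (by norm_num) c3.le h
  push Not at c4
  by_cases c5 : a 4 ≤ b 5
  · rcases hstep 4 (by norm_num) (by norm_num) c4.le c5 with h | h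
    · exact fin1 5 (by norm_num) (by norm_num) c5 h
    · exact fin2 4 (by norm_num) (by norm_num) c4.le h
  push Not at c5
  rcases hstep 5 (by norm_num) (by norm_num) c5.le h64 with h | h
  · exact fin1 6 (by norm_num) (by norm_num) h64 h
  · exact fin2 5 (by norm_num) (by norm_num) c5.le h

/-- choice of the two exits with comparable slopes -/
theorem select {k A δ ρ : ℝ} {a b : ℕ → ℝ} (hk : 10 ^ 100 ≤ k) (hA : 10 ^ 40 * k ≤ A ^ 2)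
    (hA0 : 10 ^ 40 ≤ A) (hδ : 0 < δ) (hδ1 : δ ≤ 1) (hAδ : 1 ≤ A * δ) (hρ : 0 < ρ)
    (ha0 : δ / 2 ≤ a 0 * ρ) (ha0' : a 0 * ρ ≤ 20 * k * δ)
    (hb0 : δ / 2 ≤ b 0 * ρ) (hb0' : b 0 * ρ ≤ 20 * k * δ)
    (ha1 : A / 2 * a 0 ≤ a 1) (hb1 : A / 2 * b 0 ≤ b 1)
    (ha : ∀ j, 1 ≤ j → j ≤ 5 → k / 10 ^ 5 * a j ≤ a (j + 1))
    (hb : ∀ j, 1 ≤ j → j ≤ 5 → k / 10 ^ 5 * b j ≤ b (j + 1))
    (ha' : ∀ j ≤ 5, a (j + 1) ≤ 11 * k * a j) (hb' : ∀ j ≤ 5, b (j + 1) ≤ 11 * k * b j) :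
    ∃ i j, 3 ≤ i ∧ i ≤ 6 ∧ 3 ≤ j ∧ j ≤ 6 ∧
      ((a i ≤ b j ∧ b j ≤ 4 * Real.sqrt k * a i) ∨ (b j ≤ a i ∧ a i ≤ 4 * Real.sqrt k * b j)) ∧
      1 / ρ ≤ a i ∧ 1 / ρ ≤ b j ∧ a i * ρ ≤ k ^ 8 ∧ b j * ρ ≤ k ^ 8 := by
  have key := core (a := fun n => a n * ρ) (b := fun n => b n * ρ) hk hA hA0 hδ hδ1 hAδ ha0 ha0'
    hb0 hb0'
    (by have := mul_le_mul_of_nonneg_right ha1 hρ.le; simpa [mul_assoc] using this)
    (by have := mul_le_mul_of_nonneg_right hb1 hρ.le; simpa [mul_assoc] using this)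
    (fun j h1 h2 => by
      have := mul_le_mul_of_nonneg_right (ha j h1 h2) hρ.le; simpa [mul_assoc] using this)
    (fun j h1 h2 => by
      have := mul_le_mul_of_nonneg_right (hb j h1 h2) hρ.le; simpa [mul_assoc] using this)
    (fun j h1 => by
      have := mul_le_mul_of_nonneg_right (ha' j h1) hρ.le; simpa [mul_assoc] using this)
    (fun j h1 => by
      have := mul_le_mul_of_nonneg_right (hb' j h1) hρ.le; simpa [mul_assoc] using this)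
  obtain ⟨i, j, h1, h2, h3, h4, h5, h6, h7, h8, h9⟩ := key
  refine ⟨i, j, h1, h2, h3, h4, ?_, ?_, ?_, h8, h9⟩
  · rcases h5 with ⟨h5, h5'⟩ | ⟨h5, h5'⟩
    · refine Or.inl ⟨le_of_mul_le_mul_right h5 hρ, le_of_mul_le_mul_right ?_ hρ⟩
      simpa [mul_assoc] using h5'
    · refine Or.inr ⟨le_of_mul_le_mul_right h5 hρ, le_of_mul_le_mul_right ?_ hρ⟩
      simpa [mul_assoc] using h5'
  · rw [div_le_iff₀ hρ]; exact h6
  · rw [div_le_iff₀ hρ]; exact h7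

end Crest.Agent.R128.LocSelY
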