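import Mathlib

/-!
# Row 128, V3 and V4 from one pointwise matching lemma (helper587)

`Mat K r B G Y`: every `z = (a,b) ∈ B` has a matched curve `l ↦ Y z l` (`|l - a| ≤ 1`), `1/8`-Lipschitz,
through `z`, whose vertical `r`-neighbourhood lies in `G`; two matched curves which are `2r`-close somewhere
are `K r`-close at the base points.

* `curve`: a `1/8`-Lipschitz curve `{(g x, x)}` meets `B` in measure `≤ 2 K vol (G ∩ {a = l})`;
* `double`: if every `1/8`-Lipschitz graph `{(x, σ x)}` meets `R` in measure `≤ lam` then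
  `vol (B ∩ R) ≤ K lam vol (G ∩ {a = l})`.
No measurability of `B`.
-/

set_option autoImplicit false

open MeasureTheory Set
open scoped ENNReal NNReal

namespace Crest.Agent.R128.Match

/-- `1/8`-Lipschitz functions -/
def Lip8 (g : ℝ → ℝ) : Prop := ∀ x y, |g x - g y| ≤ 1 / 8 * |x - y|

/-- The pointwise matching data. -/
structure Mat (K r : ℝ) (B G : Set (ℝ × ℝ)) (Y : ℝ × ℝ → ℝ → ℝ) : Prop where
  refl : ∀ z ∈ B, Y z z.1 = z.2
  lip : ∀ z ∈ B, ∀ l l' : ℝ, |l - z.1| ≤ 1 → |l' - z.1| ≤ 1 → |Y z l - Y z l'| ≤ 1 / 8 * |l - l'|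
  good : ∀ z ∈ B, ∀ l : ℝ, |l - z.1| ≤ 1 → ∀ s : ℝ, |s - Y z l| ≤ r → (l, s) ∈ G
  coh : ∀ z ∈ B, ∀ z' ∈ B, ∀ l : ℝ, |l - z.1| ≤ 1 → |l - z'.1| ≤ 1 → |z.1 - z'.1| ≤ 1 →
    |Y z l - Y z' l| ≤ 2 * r → |Y z z'.1 - z'.2| ≤ K * r

/-! ### Separated families -/

section sep

variable {ι : Type*}

/-- `F` is `2r`-separated -/
def Sep (v : ι → ℝ) (r : ℝ) (F : Finset ι) : Prop :=
  ∀ i ∈ F, ∀ j ∈ F, i ≠ j → 2 * r < |v i - v j|

theorem card_le_of_sep {v : ι → ℝ} {r p q : ℝ} (hr : 0 < r) {F : Finset ι} (hF : Sep v r F)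
    (hb : ∀ i ∈ F, v i ∈ Icc p q) : F.card ≤ (Finset.Icc (0 : ℤ) ⌊(q - p) / (2 * r)⌋).card := by
  refine Finset.card_le_card_of_injOn (fun i => ⌊(v i - p) / (2 * r)⌋) ?_ ?_
  · intro i hi
    have h := hb i hi
    simp only [Finset.coe_Icc, mem_Icc]
    constructor
    · apply Int.floor_nonneg.2
      exact div_nonneg (by linarith [h.1]) (by linarith)
    · apply Int.floor_le_floor
      exact div_le_div_of_nonneg_right (by linarith [h.2]) (by linarith)
  · intro i hi j hj hij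
    by_contra hne
    have h := hF i hi j hj hne
    simp only at hij
    have h1 : |(v i - p) / (2 * r) - (v j - p) / (2 * r)| < 1 := Int.abs_sub_lt_one_of_floor_eq_floor hij
    rw [← sub_div, abs_div, abs_of_pos (by linarith : (0 : ℝ) < 2 * r), div_lt_one (by linarith)] at h1
    have e : v i - p - (v j - p) = v i - v j := by ring
    rw [e] at h1
    linarith

/-- a maximal separated family -/
theorem exists_sep (T : Set ι) (v : ι → ℝ) {r p q : ℝ} (hr : 0 < r) (hb : ∀ i ∈ T, v i ∈ Icc p q) :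
    ∃ F : Finset ι, (∀ i ∈ F, i ∈ T) ∧ Sep v r F ∧ ∀ i ∈ T, ∃ j ∈ F, |v j - v i| ≤ 2 * r := by
  classical
  set S : Set ℕ := {n | ∃ F : Finset ι, (∀ i ∈ F, i ∈ T) ∧ Sep v r F ∧ F.card = n} with hS
  have hne : S.Nonempty := ⟨0, ∅, by simp, by intro i hi; simp at hi, by simp⟩
  have hbd : BddAbove S := by
    refine ⟨(Finset.Icc (0 : ℤ) ⌊(q - p) / (2 * r)⌋).card, ?_⟩
    rintro n ⟨F, h1, h2, rfl⟩
    exact card_le_of_sep hr h2 fun i hi => hb i (h1 i hi)
  obtain ⟨F, h1, h2, h3⟩ := Nat.sSup_mem hne hbd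
  refine ⟨F, h1, h2, ?_⟩
  intro i hi
  by_contra hcon
  push Not at hcon
  have hiF : i ∉ F := by
    intro hiF
    have := hcon i hiF
    simp at this
    linarith
  have hmem : (insert i F).card ∈ S := by
    refine ⟨insert i F, ?_, ?_, rfl⟩
    · intro j hj
      rcases Finset.mem_insert.1 hj with rfl | hj
      · exact hi
      · exact h1 j hj
    · intro a ha b hb' hab
      rcases Finset.mem_insert.1 ha with ha | ha
      · rcases Finset.mem_insert.1 hb' with hb' | hb'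
        · exact absurd (ha.trans hb'.symm) hab
        · rw [ha, abs_sub_comm]; exact hcon b hb'
      · rcases Finset.mem_insert.1 hb' with hb' | hb'
        · rw [hb']; exact hcon a ha
        · exact h2 a ha b hb' hab
  have h4 := le_csSup hbd hmem
  rw [Finset.card_insert_of_notMem hiF, h3] at h4
  omega

/-- the disjoint neighbourhoods of a separated family -/
theorem sep_volume {v : ι → ℝ} {r : ℝ} (hr : 0 < r) {F : Finset ι} (hF : Sep v r F) {E : Set ℝ}
    (hE : ∀ i ∈ F, ∀ s, |s - v i| ≤ r → s ∈ E) :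
    (F.card : ℝ≥0∞) * ENNReal.ofReal (2 * r) ≤ volume E := by
  classical
  have hd : (F : Set ι).PairwiseDisjoint fun i => Ioo (v i - r) (v i + r) := by
    intro i hi j hj hij
    have h := hF i hi j hj hij
    rw [Function.onFun, Set.disjoint_left]
    intro s hs hs'
    have h1 : |v i - v j| < 2 * r := by
      rw [abs_lt]
      constructor <;> linarith [hs.1, hs.2, hs'.1, hs'.2]
    linarith
  have h2 : volume (⋃ i ∈ F, Ioo (v i - r) (v i + r)) = (F.card : ℝ≥0∞) * ENNReal.ofReal (2 * r) := by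
    rw [measure_biUnion_finset hd fun i _ => measurableSet_Ioo]
    have : ∀ i ∈ F, volume (Ioo (v i - r) (v i + r)) = ENNReal.ofReal (2 * r) := by
      intro i _
      rw [Real.volume_Ioo]
      congr 1
      ring
    rw [Finset.sum_congr rfl this, Finset.sum_const, nsmul_eq_mul]
  rw [← h2]
  apply measure_mono
  intro s hs
  simp only [mem_iUnion, exists_prop] at hs
  obtain ⟨i, hi, hs⟩ := hs
  exact hE i hi s (by rw [abs_le]; constructor <;> linarith [hs.1, hs.2])

end sep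

variable {K r : ℝ} {B G : Set (ℝ × ℝ)} {Y : ℝ × ℝ → ℝ → ℝ}

/-- **V3.** A `1/8`-Lipschitz curve meets `B` in measure `≤ 2 K vol (G ∩ line)`. -/
theorem Mat.curve (hM : Mat K r B G Y) (hr : 0 < r) (hr1 : r ≤ 1) (hK : 0 ≤ K) {g : ℝ → ℝ}
    (hg : Lip8 g) (l c : ℝ) :
    volume {x : ℝ | x ∈ Icc c (c + 1) ∧ |g x - l| ≤ 1 / 2 ∧ (g x, x) ∈ B} ≤
      ENNReal.ofReal (2 * K) * volume {s : ℝ | s ∈ Icc (c - 2) (c + 3) ∧ (l, s) ∈ G} := by
  classical
  set T : Set ℝ := {x : ℝ | x ∈ Icc c (c + 1) ∧ |g x - l| ≤ 1 / 2 ∧ (g x, x) ∈ B} with hT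
  set v : ℝ → ℝ := fun x => Y (g x, x) l with hv
  have hl : ∀ x ∈ T, |l - (g x, x).1| ≤ 1 := by
    intro x hx
    rw [abs_sub_comm]
    exact hx.2.1.trans (by norm_num)
  have hclose : ∀ x ∈ T, |v x - x| ≤ 1 / 8 := by
    intro x hx
    have h1 := hM.lip (g x, x) hx.2.2 l (g x) (hl x hx) (by simp)
    have h2 := hM.refl (g x, x) hx.2.2
    simp only at h2
    rw [h2] at h1
    refine h1.trans ?_
    have h3 : |l - g x| ≤ 1 := hl x hx
    linarith
  have hb : ∀ x ∈ T, v x ∈ Icc (c - 1 / 8) (c + 1 + 1 / 8) := by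
    intro x hx
    have h1 := abs_le.1 (hclose x hx)
    exact ⟨by linarith [hx.1.1], by linarith [hx.1.2]⟩
  obtain ⟨F, hFT, hsep, hcov⟩ := exists_sep T v hr hb
  have hsub : T ⊆ ⋃ i ∈ F, Icc (i - 2 * K * r) (i + 2 * K * r) := by
    intro x hx
    obtain ⟨i, hi, hxi⟩ := hcov x hx
    have hiT := hFT i hi
    have hgg : |g i - g x| ≤ 1 := by
      have e : g i - g x = (g i - l) - (g x - l) := by ring
      rw [e]
      refine (abs_sub _ _).trans ?_
      linarith [hiT.2.1, hx.2.1]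
    have h1 := hM.coh (g i, i) hiT.2.2 (g x, x) hx.2.2 l (hl i hiT) (hl x hx) hgg hxi
    simp only at h1
    have h2 := hM.lip (g i, i) hiT.2.2 (g x) (g i) (by simpa [abs_sub_comm] using hgg) (by simp)
    have h3 := hM.refl (g i, i) hiT.2.2
    simp only at h3
    rw [h3] at h2
    have h4 := hg x i
    have h5 : |x - i| ≤ K * r + 1 / 64 * |x - i| := by
      have e : x - i = (Y (g i, i) (g x) - i) - (Y (g i, i) (g x) - x) := by ring
      calc |x - i| = |(Y (g i, i) (g x) - i) - (Y (g i, i) (g x) - x)| := by rw [← e]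
        _ ≤ |Y (g i, i) (g x) - i| + |Y (g i, i) (g x) - x| := abs_sub _ _
        _ ≤ 1 / 8 * |g x - g i| + K * r := add_le_add h2 h1
        _ ≤ 1 / 8 * (1 / 8 * |x - i|) + K * r := by gcongr
        _ = _ := by ring
    have h6 : |x - i| ≤ 2 * K * r := by
      have : 0 ≤ K * r := by positivity
      nlinarith
    simp only [mem_iUnion, exists_prop]
    refine ⟨i, hi, ?_⟩
    have h7 := abs_le.1 h6
    exact ⟨by linarith, by linarith⟩
  have hvolT : volume T ≤ (F.card : ℝ≥0∞) * ENNReal.ofReal (4 * K * r) := by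
    refine (measure_mono hsub).trans ?_
    refine (measure_biUnion_finset_le _ _).trans ?_
    have : ∀ i ∈ F, volume (Icc (i - 2 * K * r) (i + 2 * K * r)) = ENNReal.ofReal (4 * K * r) := by
      intro i _
      rw [Real.volume_Icc]
      congr 1
      ring
    rw [Finset.sum_congr rfl this, Finset.sum_const, nsmul_eq_mul]
  have hG := sep_volume (E := {s : ℝ | s ∈ Icc (c - 2) (c + 3) ∧ (l, s) ∈ G}) hr hsep (by
    intro i hi s hs
    have hiT := hFT i hi
    have h1 := hb i hiT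
    have h2 := abs_le.1 hs
    exact ⟨⟨by linarith [h1.1], by linarith [h1.2]⟩, hM.good (g i, i) hiT.2.2 l (hl i hiT) s hs⟩)
  refine hvolT.trans ?_
  have e : ENNReal.ofReal (4 * K * r) = ENNReal.ofReal (2 * K) * ENNReal.ofReal (2 * r) := by
    rw [← ENNReal.ofReal_mul (by linarith)]
    congr 1
    ring
  rw [e]
  calc (F.card : ℝ≥0∞) * (ENNReal.ofReal (2 * K) * ENNReal.ofReal (2 * r))
      = ENNReal.ofReal (2 * K) * ((F.card : ℝ≥0∞) * ENNReal.ofReal (2 * r)) := by ring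
    _ ≤ _ := by gcongr

/-- a strip along a `1/8`-Lipschitz graph -/
theorem strip {R : Set (ℝ × ℝ)} (hR : MeasurableSet R) {lam : ℝ≥0∞}
    (hS : ∀ σ : ℝ → ℝ, Lip8 σ → ∀ a : ℝ, volume {x : ℝ | x ∈ Icc a (a + 1) ∧ (x, σ x) ∈ R} ≤ lam)
    {σ : ℝ → ℝ} (hσ : Lip8 σ) (l : ℝ) {ρ : ℝ} (hρ : 0 ≤ ρ) :
    volume {z : ℝ × ℝ | |z.1 - l| ≤ 1 / 2 ∧ |z.2 - σ z.1| ≤ ρ ∧ z ∈ R} ≤ ENNReal.ofReal (2 * ρ) * lam := by
  have hσc : Continuous σ := by
    have : LipschitzWith (1 / 8) σ := by
      refine LipschitzWith.of_dist_le_mul fun x y => ?_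
      have := hσ x y
      rw [Real.dist_eq, Real.dist_eq]
      simpa using this
    exact this.continuous
  set D : Set (ℝ × ℝ) := {z : ℝ × ℝ | |z.1 - l| ≤ 1 / 2 ∧ |z.2 - σ z.1| ≤ ρ ∧ z ∈ R} with hD
  have hDm : MeasurableSet D := by
    have m1 : MeasurableSet {z : ℝ × ℝ | |z.1 - l| ≤ 1 / 2} :=
      (isClosed_le (by fun_prop) continuous_const).measurableSet
    have m2 : MeasurableSet {z : ℝ × ℝ | |z.2 - σ z.1| ≤ ρ} :=
      (isClosed_le (by fun_prop) continuous_const).measurableSet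
    exact m1.inter (m2.inter hR)
  set D' : Set (ℝ × ℝ) := {z : ℝ × ℝ | (z.1, z.2 + σ z.1) ∈ D} with hD'
  have hD'm : MeasurableSet D' := by
    have hm : Measurable fun z : ℝ × ℝ => (z.1, z.2 + σ z.1) := by
      have : Continuous fun z : ℝ × ℝ => (z.1, z.2 + σ z.1) := by fun_prop
      exact this.measurable
    exact hm hDm
  have h1 : volume D = volume D' := by
    rw [Measure.volume_eq_prod, Measure.prod_apply hDm, Measure.prod_apply hD'm]
    refine lintegral_congr fun x => ?_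
    have e : Prod.mk x ⁻¹' D' = (fun s => s + σ x) ⁻¹' (Prod.mk x ⁻¹' D) := by
      ext s
      simp [hD']
    rw [e, measure_preimage_add_right]
  rw [h1, Measure.volume_eq_prod, Measure.prod_apply_symm hD'm]
  calc ∫⁻ s, volume ((fun x => (x, s)) ⁻¹' D')
      ≤ ∫⁻ s, (Icc (-ρ) ρ).indicator (fun _ => lam) s := by
        refine lintegral_mono fun s => ?_
        by_cases hs : s ∈ Icc (-ρ) ρ
        · rw [indicator_of_mem hs]
          have hσ' : Lip8 fun x => s + σ x := by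
            intro x y
            have e : s + σ x - (s + σ y) = σ x - σ y := by ring
            rw [e]
            exact hσ x y
          refine le_trans (measure_mono ?_) (hS (fun x => s + σ x) hσ' (l - 1 / 2))
          intro x hx
          simp only [hD', hD, mem_preimage, mem_ofPred_eq] at hx
          have h2 := abs_le.1 hx.1
          exact ⟨⟨by linarith, by linarith⟩, hx.2.2⟩
        · rw [indicator_of_notMem hs]
          have : (fun x => (x, s)) ⁻¹' D' = ∅ := by
            ext x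
            simp only [hD', hD, mem_preimage, mem_ofPred_eq, mem_empty_iff_false, iff_false, not_and]
            intro _ h3
            exfalso
            apply hs
            have e : s + σ x - σ x = s := by ring
            rw [e] at h3
            exact abs_le.1 h3
          rw [this]
          simp
    _ = ENNReal.ofReal (2 * ρ) * lam := by
        rw [lintegral_indicator measurableSet_Icc, setLIntegral_const, Real.volume_Icc, mul_comm]
        congr 2
        ring

/-- clamping -/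
noncomputable def cl (l x : ℝ) : ℝ := max (l - 1 / 2) (min (l + 1 / 2) x)

theorem cl_mem (l x : ℝ) : |cl l x - l| ≤ 1 / 2 := by
  unfold cl
  rw [abs_le]
  constructor
  · have := le_max_left (l - 1 / 2) (min (l + 1 / 2) x)
    linarith
  · have : max (l - 1 / 2) (min (l + 1 / 2) x) ≤ l + 1 / 2 :=
      max_le (by linarith) (min_le_left _ _)
    linarith

theorem cl_eq {l x : ℝ} (h : |x - l| ≤ 1 / 2) : cl l x = x := by
  have h1 := abs_le.1 h
  unfold cl
  rw [min_eq_right (by linarith), max_eq_right (by linarith)]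

theorem cl_lip (l x y : ℝ) : |cl l x - cl l y| ≤ |x - y| := by
  unfold cl
  refine (abs_max_sub_max_le_max _ _ _ _).trans ?_
  rw [sub_self, abs_zero]
  apply max_le (abs_nonneg _)
  refine (abs_min_sub_min_le_max _ _ _ _).trans ?_
  rw [sub_self, abs_zero]
  exact max_le (abs_nonneg _) le_rfl

/-- **V4.** If every `1/8`-Lipschitz graph meets `R` in measure `≤ lam` then
`vol (B ∩ R) ≤ K lam vol (G ∩ line)`. -/
theorem Mat.double (hM : Mat K r B G Y) (hr : 0 < r) (hr1 : r ≤ 1) (hK : 0 ≤ K)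
    {R : Set (ℝ × ℝ)} (hR : MeasurableSet R) {lam : ℝ≥0∞}
    (hS : ∀ σ : ℝ → ℝ, Lip8 σ → ∀ a : ℝ, volume {x : ℝ | x ∈ Icc a (a + 1) ∧ (x, σ x) ∈ R} ≤ lam)
    (l c : ℝ) :
    volume {z : ℝ × ℝ | |z.1 - l| ≤ 1 / 2 ∧ z.2 ∈ Icc c (c + 1) ∧ z ∈ B ∧ z ∈ R} ≤
      ENNReal.ofReal K * lam * volume {s : ℝ | s ∈ Icc (c - 2) (c + 3) ∧ (l, s) ∈ G} := by
  classical
  set T : Set (ℝ × ℝ) := {z : ℝ × ℝ | |z.1 - l| ≤ 1 / 2 ∧ z.2 ∈ Icc c (c + 1) ∧ z ∈ B ∧ z ∈ R} with hT
  set v : ℝ × ℝ → ℝ := fun z => Y z l with hv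
  have hl : ∀ z ∈ T, |l - z.1| ≤ 1 := by
    intro z hz
    rw [abs_sub_comm]
    exact hz.1.trans (by norm_num)
  have hclose : ∀ z ∈ T, |v z - z.2| ≤ 1 / 8 := by
    intro z hz
    have h1 := hM.lip z hz.2.2.1 l z.1 (hl z hz) (by simp)
    rw [hM.refl z hz.2.2.1] at h1
    refine h1.trans ?_
    have h3 : |l - z.1| ≤ 1 := hl z hz
    linarith
  have hb : ∀ z ∈ T, v z ∈ Icc (c - 1 / 8) (c + 1 + 1 / 8) := by
    intro z hz
    have h1 := abs_le.1 (hclose z hz)
    exact ⟨by linarith [hz.2.1.1], by linarith [hz.2.1.2]⟩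
  obtain ⟨F, hFT, hsep, hcov⟩ := exists_sep T v hr hb
  have hsub : T ⊆ ⋃ i ∈ F, {z : ℝ × ℝ | |z.1 - l| ≤ 1 / 2 ∧ |z.2 - Y i (cl l z.1)| ≤ K * r ∧ z ∈ R} := by
    intro z hz
    obtain ⟨i, hi, hzi⟩ := hcov z hz
    have hiT := hFT i hi
    have hgg : |i.1 - z.1| ≤ 1 := by
      have e : i.1 - z.1 = (i.1 - l) - (z.1 - l) := by ring
      rw [e]
      refine (abs_sub _ _).trans ?_
      linarith [hiT.1, hz.1]
    have h1 := hM.coh i hiT.2.2.1 z hz.2.2.1 l (hl i hiT) (hl z hz) hgg hzi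
    simp only [mem_iUnion, exists_prop]
    refine ⟨i, hi, hz.1, ?_, hz.2.2.2⟩
    rw [cl_eq hz.1, abs_sub_comm]
    exact h1
  have hvolT : volume T ≤ (F.card : ℝ≥0∞) * (ENNReal.ofReal (2 * (K * r)) * lam) := by
    refine (measure_mono hsub).trans ?_
    refine (measure_biUnion_finset_le _ _).trans ?_
    rw [← nsmul_eq_mul, ← Finset.sum_const]
    refine Finset.sum_le_sum fun i hi => ?_
    have hiT := hFT i hi
    have hσ : Lip8 fun x => Y i (cl l x) := by
      intro x y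
      have hx : |cl l x - i.1| ≤ 1 := by
        have e : cl l x - i.1 = (cl l x - l) - (i.1 - l) := by ring
        rw [e]
        refine (abs_sub _ _).trans ?_
        linarith [cl_mem l x, hiT.1]
      have hy : |cl l y - i.1| ≤ 1 := by
        have e : cl l y - i.1 = (cl l y - l) - (i.1 - l) := by ring
        rw [e]
        refine (abs_sub _ _).trans ?_
        linarith [cl_mem l y, hiT.1]
      refine (hM.lip i hiT.2.2.1 _ _ hx hy).trans ?_
      have := cl_lip l x y
      linarith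
    exact strip hR hS hσ l (by positivity)
  have hG := sep_volume (E := {s : ℝ | s ∈ Icc (c - 2) (c + 3) ∧ (l, s) ∈ G}) hr hsep (by
    intro i hi s hs
    have hiT := hFT i hi
    have h1 := hb i hiT
    have h2 := abs_le.1 hs
    exact ⟨⟨by linarith [h1.1], by linarith [h1.2]⟩, hM.good i hiT.2.2.1 l (hl i hiT) s hs⟩)
  refine hvolT.trans ?_
  have e : ENNReal.ofReal (2 * (K * r)) = ENNReal.ofReal K * ENNReal.ofReal (2 * r) := by
    rw [← ENNReal.ofReal_mul hK]
    congr 1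
    ring
  rw [e]
  calc (F.card : ℝ≥0∞) * (ENNReal.ofReal K * ENNReal.ofReal (2 * r) * lam)
      = ENNReal.ofReal K * lam * ((F.card : ℝ≥0∞) * ENNReal.ofReal (2 * r)) := by ring
    _ ≤ _ := by gcongr

end Crest.Agent.R128.Match
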