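import Mathlib

set_option autoImplicit false

open Finset

namespace Crest.Agent.R128.PV

/-- `a` is (the first maximum of) a peak of persistence `≥ p` of `f` on `[0,N]` -/
def Pk (f : ℕ → ℝ) (N : ℕ) (p : ℝ) (a : ℕ) : Prop :=
  (∃ i, i < a ∧ f i ≤ f a - p ∧ ∀ m, i < m → m < a → f m < f a) ∧
  (∃ j, a < j ∧ j ≤ N ∧ f j ≤ f a - p ∧ ∀ m, a < m → m < j → f m ≤ f a)

/-- `a` is (the first minimum of) a valley of persistence `≥ p` of `f` on `[0,N]` -/
def Vl (f : ℕ → ℝ) (N : ℕ) (p : ℝ) (a : ℕ) : Prop :=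
  (∃ i, i < a ∧ f a + p ≤ f i ∧ ∀ m, i < m → m < a → f a < f m) ∧
  (∃ j, a < j ∧ j ≤ N ∧ f a + p ≤ f j ∧ ∀ m, a < m → m < j → f a ≤ f m)

theorem Pk.lt {f : ℕ → ℝ} {N : ℕ} {p : ℝ} {a : ℕ} (h : Pk f N p a) : a < N := by
  obtain ⟨-, j, h1, h2, -⟩ := h
  omega

theorem Vl.lt {f : ℕ → ℝ} {N : ℕ} {p : ℝ} {a : ℕ} (h : Vl f N p a) : a < N := by
  obtain ⟨-, j, h1, h2, -⟩ := h
  omega

theorem Pk.anti {f : ℕ → ℝ} {N : ℕ} {p q : ℝ} {a : ℕ} (h : Pk f N p a) (hq : q ≤ p) : Pk f N q a := by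
  obtain ⟨⟨i, h1, h2, h3⟩, j, h4, h5, h6, h7⟩ := h
  exact ⟨⟨i, h1, by linarith, h3⟩, j, h4, h5, by linarith, h7⟩

theorem Vl.anti {f : ℕ → ℝ} {N : ℕ} {p q : ℝ} {a : ℕ} (h : Vl f N p a) (hq : q ≤ p) : Vl f N q a := by
  obtain ⟨⟨i, h1, h2, h3⟩, j, h4, h5, h6, h7⟩ := h
  exact ⟨⟨i, h1, by linarith, h3⟩, j, h4, h5, by linarith, h7⟩

theorem vl_iff (f : ℕ → ℝ) (N : ℕ) (p : ℝ) (a : ℕ) : Vl f N p a ↔ Pk (fun m => - f m) N p a := by
  unfold Vl Pk
  constructor
  · rintro ⟨⟨i, h1, h2, h3⟩, j, h4, h5, h6, h7⟩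
    exact ⟨⟨i, h1, by linarith, fun m a b => by have := h3 m a b; linarith⟩, j, h4, h5, by linarith,
      fun m a b => by have := h7 m a b; linarith⟩
  · rintro ⟨⟨i, h1, h2, h3⟩, j, h4, h5, h6, h7⟩
    exact ⟨⟨i, h1, by linarith, fun m a b => by have := h3 m a b; linarith⟩, j, h4, h5, by linarith,
      fun m a b => by have := h7 m a b; linarith⟩

/-- first maximum on an integer interval -/
theorem exists_first_max (f : ℕ → ℝ) (a b : ℕ) (hab : a ≤ b) :
    ∃ x, a ≤ x ∧ x ≤ b ∧ (∀ m, a ≤ m → m < x → f m < f x) ∧ (∀ m, a ≤ m → m ≤ b → f m ≤ f x) := by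
  classical
  obtain ⟨y, hy, hmax⟩ := Finset.exists_max_image (Finset.Icc a b) f ⟨a, by simp [hab]⟩
  have hex : ∃ x, a ≤ x ∧ x ≤ b ∧ f y ≤ f x := ⟨y, (mem_Icc.mp hy).1, (mem_Icc.mp hy).2, le_rfl⟩
  refine ⟨Nat.find hex, (Nat.find_spec hex).1, (Nat.find_spec hex).2.1, ?_, ?_⟩
  · intro m h1 h2
    have h3 := Nat.find_min hex h2
    push Not at h3
    have h4 := h3 h1 (by have := (Nat.find_spec hex).2.1; omega)
    exact lt_of_lt_of_le h4 (Nat.find_spec hex).2.2
  · intro m h1 h2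
    exact (hmax m (mem_Icc.mpr ⟨h1, h2⟩)).trans (Nat.find_spec hex).2.2

/-- a top which exceeds both ends of a window by `p` produces a peak of persistence `≥ p` inside -/
theorem Pk.of_window {f : ℕ → ℝ} {N : ℕ} {p : ℝ} (hp : 0 < p) {i t j : ℕ} (hit : i < t) (htj : t < j) (hj : j ≤ N)
    (h1 : f i ≤ f t - p) (h2 : f j ≤ f t - p) : ∃ x, i < x ∧ x < j ∧ Pk f N p x := by
  obtain ⟨x, hx1, hx2, hx3, hx4⟩ := exists_first_max f i j (by omega)
  have ht := hx4 t (by omega) (by omega)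
  have hxi : x ≠ i := by rintro rfl; linarith
  have hxj : x ≠ j := by rintro rfl; linarith
  refine ⟨x, by omega, by omega, ⟨i, by omega, by linarith, fun m a b => hx3 m (by omega) b⟩, j, by omega, hj,
    by linarith, fun m a b => hx4 m (by omega) (by omega)⟩

theorem Vl.of_window {f : ℕ → ℝ} {N : ℕ} {p : ℝ} (hp : 0 < p) {i t j : ℕ} (hit : i < t) (htj : t < j) (hj : j ≤ N)
    (h1 : f t + p ≤ f i) (h2 : f t + p ≤ f j) : ∃ x, i < x ∧ x < j ∧ Vl f N p x := by
  obtain ⟨x, h3, h4, h5⟩ := Pk.of_window (f := fun m => - f m) hp hit htj hj (by linarith) (by linarith)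
  exact ⟨x, h3, h4, (vl_iff _ _ _ _).mpr h5⟩

/-- between two valleys there is a peak -/
theorem Vl.peak_between {f : ℕ → ℝ} {N : ℕ} {p : ℝ} (hp : 0 < p) {a a' : ℕ} (haa : a < a') (ha : Vl f N p a)
    (ha' : Vl f N p a') : ∃ x, a < x ∧ x < a' ∧ Pk f N p x := by
  have hN := ha'.lt
  obtain ⟨-, j, h4, h5, h6, h7⟩ := ha
  obtain ⟨⟨i', g1, g2, g3⟩, -⟩ := ha'
  rcases le_or_gt (f a) (f a') with hle | hlt
  · have hi' : a ≤ i' := by
      by_contra hcon
      have := g3 a (by omega) haa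
      linarith
    have hne : a ≠ i' := by rintro rfl; linarith
    exact Pk.of_window hp (i := a) (t := i') (j := a') (by omega) g1 (by omega) (by linarith) (by linarith)
  · have hj : j ≤ a' := by
      by_contra hcon
      have := h7 a' haa (by omega)
      linarith
    have hne : j ≠ a' := by rintro rfl; linarith
    exact Pk.of_window hp (i := a) (t := j) (j := a') h4 (by omega) (by omega) (by linarith) (by linarith)

open Classical in
/-- the set of peaks of persistence `≥ p` -/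
noncomputable def PkS (f : ℕ → ℝ) (N : ℕ) (p : ℝ) : Finset ℕ := (range (N + 1)).filter (Pk f N p)

open Classical in
/-- the set of valleys of persistence `≥ p` -/
noncomputable def VlS (f : ℕ → ℝ) (N : ℕ) (p : ℝ) : Finset ℕ := (range (N + 1)).filter (Vl f N p)

theorem mem_PkS {f : ℕ → ℝ} {N : ℕ} {p : ℝ} {a : ℕ} : a ∈ PkS f N p ↔ Pk f N p a := by
  simp only [PkS, mem_filter, mem_range]
  exact ⟨fun h => h.2, fun h => ⟨by have := h.lt; omega, h⟩⟩

theorem mem_VlS {f : ℕ → ℝ} {N : ℕ} {p : ℝ} {a : ℕ} : a ∈ VlS f N p ↔ Vl f N p a := by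
  simp only [VlS, mem_filter, mem_range]
  exact ⟨fun h => h.2, fun h => ⟨by have := h.lt; omega, h⟩⟩

/-- **alternation**: peaks and valleys of persistence `≥ p` alternate -/
theorem card_VlS_le (f : ℕ → ℝ) (N : ℕ) {p : ℝ} (hp : 0 < p) : (VlS f N p).card ≤ (PkS f N p).card + 1 := by
  apply Finset.card_le_of_interleaved
  intro x hx y hy hxy _
  obtain ⟨z, h1, h2, h3⟩ := Vl.peak_between hp hxy (mem_VlS.mp hx) (mem_VlS.mp hy)
  exact ⟨z, mem_PkS.mpr h3, h1, h2⟩

theorem card_PkS_le (f : ℕ → ℝ) (N : ℕ) {p : ℝ} (hp : 0 < p) : (PkS f N p).card ≤ (VlS f N p).card + 1 := by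
  have h := card_VlS_le (fun m => - f m) N hp
  have e1 : VlS (fun m => - f m) N p = PkS f N p := by
    ext a
    rw [mem_VlS, mem_PkS, vl_iff]
    simp
  have e2 : PkS (fun m => - f m) N p = VlS f N p := by
    ext a
    rw [mem_VlS, mem_PkS, vl_iff]
  rwa [e1, e2] at h

/-- **charging lemma**: every item is charged to a peak `x u` of persistence `≥ q u`, at most `K * q₀` items with
`q ≤ q₀` are charged to one position: then the number of items is at most `K` times the truncated total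
persistence. -/
theorem card_le_of_charge {ι : Type*} (P : ℕ → ℕ → Prop) (U : Finset ι) (x q : ι → ℕ) (H K : ℕ) (S : ℕ → Finset ℕ)
    (hS : ∀ p a, a ∈ S p ↔ P p a) (hanti : ∀ p p' a, p' ≤ p → P p a → P p' a)
    (hqH : ∀ u ∈ U, q u ≤ H) (hP : ∀ u ∈ U, P (q u) (x u))
    (hK : ∀ a q₀, (U.filter (fun u => x u = a ∧ q u ≤ q₀)).card ≤ K * q₀) :
    U.card ≤ K * ∑ p ∈ Icc 1 H, (S p).card := by
  classical
  -- positions
  set A : Finset ℕ := U.image x with hA
  have h1 : U.card = ∑ a ∈ A, (U.filter (fun u => x u = a)).card :=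
    Finset.card_eq_sum_card_image x U
  have h2 : ∀ a ∈ A, (U.filter (fun u => x u = a)).card ≤ K * ((Icc 1 H).filter (fun p => P p a)).card := by
    intro a ha
    obtain ⟨u0, hu0, hu0a⟩ := mem_image.mp ha
    set V := U.filter (fun u => x u = a) with hV
    have hVne : V.Nonempty := ⟨u0, mem_filter.mpr ⟨hu0, hu0a⟩⟩
    obtain ⟨u1, hu1, hmax⟩ := Finset.exists_max_image V q hVne
    have hu1' := mem_filter.mp hu1
    have e : V = U.filter (fun u => x u = a ∧ q u ≤ q u1) := by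
      ext u
      rw [hV, mem_filter, mem_filter]
      constructor
      · rintro ⟨h3, h4⟩
        exact ⟨h3, h4, hmax u (mem_filter.mpr ⟨h3, h4⟩)⟩
      · rintro ⟨h3, h4, -⟩
        exact ⟨h3, h4⟩
    have h5 : V.card ≤ K * q u1 := by
      rw [e]
      exact hK a (q u1)
    have h6 : q u1 ≤ ((Icc 1 H).filter (fun p => P p a)).card := by
      have h7 : Icc 1 (q u1) ⊆ (Icc 1 H).filter (fun p => P p a) := by
        intro p hp
        rw [mem_Icc] at hp
        refine mem_filter.mpr ⟨mem_Icc.mpr ⟨hp.1, hp.2.trans (hqH u1 hu1'.1)⟩, ?_⟩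
        have h8 := hP u1 hu1'.1
        rw [hu1'.2] at h8
        exact hanti _ _ _ hp.2 h8
      calc q u1 = (Icc 1 (q u1)).card := by simp
        _ ≤ _ := card_le_card h7
    exact h5.trans (Nat.mul_le_mul_left K h6)
  have h3 : ∑ a ∈ A, ((Icc 1 H).filter (fun p => P p a)).card ≤ ∑ p ∈ Icc 1 H, (S p).card := by
    have h4 : ∑ a ∈ A, ((Icc 1 H).filter (fun p => P p a)).card
        = ∑ p ∈ Icc 1 H, (A.filter (fun a => P p a)).card := by
      simp only [card_eq_sum_ones, sum_filter]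
      rw [sum_comm]
    rw [h4]
    refine sum_le_sum fun p _ => card_le_card ?_
    intro a ha
    exact (hS p a).mpr (mem_filter.mp ha).2
  calc U.card = ∑ a ∈ A, (U.filter (fun u => x u = a)).card := h1
    _ ≤ ∑ a ∈ A, K * ((Icc 1 H).filter (fun p => P p a)).card := sum_le_sum h2
    _ = K * ∑ a ∈ A, ((Icc 1 H).filter (fun p => P p a)).card := by rw [mul_sum]
    _ ≤ _ := Nat.mul_le_mul_left K h3

/-- items charged to a peak or to a valley -/
theorem card_le_of_charge_both {ι : Type*} (f : ℕ → ℝ) (N : ℕ) (U : Finset ι) (x q : ι → ℕ) (H K : ℕ)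
    (hqH : ∀ u ∈ U, q u ≤ H)
    (hP : ∀ u ∈ U, Pk f N (q u) (x u) ∨ Vl f N (q u) (x u))
    (hK : ∀ a q₀, (U.filter (fun u => x u = a ∧ q u ≤ q₀)).card ≤ K * q₀) :
    U.card ≤ K * (2 * ∑ p ∈ Icc 1 H, (PkS f N p).card + H) := by
  classical
  set U1 := U.filter (fun u => Pk f N (q u) (x u)) with hU1
  set U2 := U.filter (fun u => ¬ Pk f N (q u) (x u)) with hU2
  have hsum : U1.card + U2.card = U.card := Finset.card_filter_add_card_filter_not (s := U) _
  have hsub : ∀ (W : Finset ι), W ⊆ U → ∀ a q₀, (W.filter (fun u => x u = a ∧ q u ≤ q₀)).card ≤ K * q₀ :=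
    fun W hW a q₀ => (card_le_card (filter_subset_filter _ hW)).trans (hK a q₀)
  have b1 : U1.card ≤ K * ∑ p ∈ Icc 1 H, (PkS f N p).card :=
    card_le_of_charge (fun p a => Pk f N p a) U1 x q H K (fun p => PkS f N p) (fun p a => mem_PkS)
      (fun p p' a h h' => h'.anti (by exact_mod_cast h))
      (fun u hu => hqH u (mem_filter.mp hu).1)
      (fun u hu => (mem_filter.mp hu).2) (hsub U1 (filter_subset _ _))
  have b2 : U2.card ≤ K * ∑ p ∈ Icc 1 H, (VlS f N p).card :=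
    card_le_of_charge (fun p a => Vl f N p a) U2 x q H K (fun p => VlS f N p) (fun p a => mem_VlS)
      (fun p p' a h h' => h'.anti (by exact_mod_cast h))
      (fun u hu => hqH u (mem_filter.mp hu).1)
      (fun u hu => (hP u (mem_filter.mp hu).1).resolve_left (mem_filter.mp hu).2) (hsub U2 (filter_subset _ _))
  have b3 : ∑ p ∈ Icc 1 H, (VlS f N p).card ≤ ∑ p ∈ Icc 1 H, (PkS f N p).card + H := by
    calc ∑ p ∈ Icc 1 H, (VlS f N p).card ≤ ∑ p ∈ Icc 1 H, ((PkS f N p).card + 1) := by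
          refine sum_le_sum fun p hp => card_VlS_le f N ?_
          have := (mem_Icc.mp hp).1
          exact_mod_cast this
      _ = _ := by rw [sum_add_distrib]; simp
  calc U.card = U1.card + U2.card := hsum.symm
    _ ≤ K * ∑ p ∈ Icc 1 H, (PkS f N p).card + K * ∑ p ∈ Icc 1 H, (VlS f N p).card := Nat.add_le_add b1 b2
    _ ≤ K * ∑ p ∈ Icc 1 H, (PkS f N p).card + K * (∑ p ∈ Icc 1 H, (PkS f N p).card + H) := by gcongr
    _ = _ := by ring

end Crest.Agent.R128.PV
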