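import Crest.Agent.R128.Tips
import Crest.Agent.R128.AccSeq

/-!
# Row 128: a violation of cleanness produces a root top or a root valley (helper89)

`d` is a `δ`-hyperbolic pseudo-metric on the times, `r` the root, `f m = d r m` the root contour.
If the path goes from `z` to distance `D = d z T` and comes back to `d z v ≤ (1-b) D`, then the
contour has in between either a top or a valley of depth about `b D / 4`, whatever the position of
the root.  The number of valleys of depth `≥ h` is at most the number of tops of depth `≥ h`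
plus one.
-/

set_option autoImplicit false

namespace Crest.Agent.R128.TopValley

open Crest.Agent.R128.Tips Finset

variable {d : ℕ → ℕ → ℝ} {δ B : ℝ}

/-! ## The tree inequality -/

/-- **[E1]** between `p` and `q` the contour goes down to the Gromov product. -/
theorem exists_low (h : IsHyp d δ B) (r : ℕ) {p q n : ℕ} (hpq : p ≤ q) (hn : q - p ≤ 2 ^ n) :
    ∃ m, p ≤ m ∧ m ≤ q ∧ d r m ≤ gp d p q r + B / 2 + n * δ := by
  rcases hpq.eq_or_lt with he | hlt
  · subst he
    refine ⟨p, le_rfl, le_rfl, ?_⟩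
    have h1 := gp_self_left h p r
    have h2 := h.symm r p
    have hB : 0 ≤ B := (h.nonneg 0 1).trans (h.step 0)
    have hδ := h.δ_nonneg
    have : (0 : ℝ) ≤ n * δ := by positivity
    linarith
  · by_contra hc
    push Not at hc
    have key := chain h r (gp d p q r + n * δ) n (q - p) (fun i => p + i) hn (by omega) (by
      intro i hi
      have h1 := hc (p + i) (by omega) (by omega)
      have h2 := hc (p + (i + 1)) (by omega) (by omega)
      have h3 := h.step (p + i)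
      have h4 := h.symm r (p + i)
      have h5 := h.symm r (p + (i + 1))
      have e : gp d (p + i) (p + (i + 1)) r =
          (d (p + i) r + d (p + (i + 1)) r - d (p + i) (p + i + 1)) / 2 := rfl
      simp only [e]
      linarith)
    simp only [add_zero, Nat.add_sub_cancel' hpq] at key
    linarith

/-- the same, without order -/
theorem exists_low' (h : IsHyp d δ B) (r : ℕ) {p q n : ℕ} (hpq : q ≤ p) (hn : p - q ≤ 2 ^ n) :
    ∃ m, q ≤ m ∧ m ≤ p ∧ d r m ≤ gp d p q r + B / 2 + n * δ := by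
  obtain ⟨m, h1, h2, h3⟩ := exists_low h r hpq hn
  exact ⟨m, h1, h2, by rwa [gp_comm h p q r]⟩

/-! ## Top or valley -/

/-- the metric core -/
theorem core (h : IsHyp d δ B) {r z T v : ℕ} {b D : ℝ} (hb : 0 ≤ b) (hb1 : b ≤ 1)
    (hD : d z T = D) (hv : d z v ≤ (1 - b) * D) :
    (d r T + D / 2 ≤ d r z ∧ d r T + b * D / 2 ≤ d r v) ∨
      (gp d z T r ≤ d r T - b * D / 4 ∧ gp d T v r ≤ d r T - b * D / 4 + δ) := by
  have hD0 : 0 ≤ D := hD ▸ h.nonneg z T
  have hbD : 0 ≤ b * D := mul_nonneg hb hD0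
  have hbD1 : b * D ≤ D := by nlinarith
  have s1 := h.symm r T
  have s2 := h.symm r z
  have s3 := h.symm r v
  have s4 := h.symm z T
  have s5 := h.symm T v
  have s6 := h.symm z v
  have hδ := h.δ_nonneg
  by_cases hs : gp d r z T ≤ b * D / 4
  · left
    have t1 := h.tri r v z
    have e1 : gp d r z T = (d r T + d z T - d r z) / 2 := rfl
    constructor
    · linarith
    · linarith
  · right
    push Not at hs
    have e1 : gp d r z T = (d r T + d z T - d r z) / 2 := rfl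
    have e2 : gp d z T r = (d z r + d T r - d z T) / 2 := rfl
    constructor
    · linarith
    · have e3 : gp d z v T = (d z T + d v T - d z v) / 2 := rfl
      have t1 := h.tri z v T
      have h3 : b * D ≤ gp d z v T := by
        rw [e3]
        linarith
      have h4 := h.hyp r z v T
      have h5 : b * D / 4 ≤ min (gp d r z T) (gp d z v T) := le_min hs.le (by linarith)
      have e4 : gp d r v T = (d r T + d v T - d r v) / 2 := rfl
      have e5 : gp d T v r = (d T r + d v r - d T v) / 2 := rfl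
      linarith

/-- a top with both ends at least `h` lower -/
def TopH (f : ℕ → ℝ) (h : ℝ) (N t : ℕ) : Prop :=
  ∃ a b, a < t ∧ t < b ∧ b ≤ N ∧ f a ≤ f t - h ∧ f b ≤ f t - h ∧
    (∀ m, a ≤ m → m ≤ b → f m ≤ f t) ∧ f (t - 1) < f t

/-- a valley with both ends at least `h` higher (first minimum of its window) -/
def ValH (f : ℕ → ℝ) (h : ℝ) (N t : ℕ) : Prop :=
  ∃ a b, a < t ∧ t < b ∧ b ≤ N ∧ f t + h ≤ f a ∧ f t + h ≤ f b ∧
    (∀ m, a ≤ m → m ≤ b → f t ≤ f m) ∧ (∀ m, a ≤ m → m < t → f t < f m)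

theorem top_iff (β : ℕ → ℝ) (κ : ℝ) (N t r : ℕ) :
    Acc.Top β κ N t r ↔ TopH β (r * κ) N t := Iff.rfl

theorem TopH.mono {f : ℕ → ℝ} {h h' : ℝ} {N t : ℕ} (hh : h' ≤ h) (H : TopH f h N t) :
    TopH f h' N t := by
  obtain ⟨a, b, h1, h2, h3, h4, h5, h6, h7⟩ := H
  exact ⟨a, b, h1, h2, h3, by linarith, by linarith, h6, h7⟩

theorem ValH.mono {f : ℕ → ℝ} {h h' : ℝ} {N t : ℕ} (hh : h' ≤ h) (H : ValH f h N t) :
    ValH f h' N t := by
  obtain ⟨a, b, h1, h2, h3, h4, h5, h6, h7⟩ := H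
  exact ⟨a, b, h1, h2, h3, by linarith, by linarith, h6, h7⟩

/-- first argmax on an interval with low ends -/
theorem exists_topH {f : ℕ → ℝ} {h : ℝ} {N p q T : ℕ} (hh : 0 < h) (hpT : p ≤ T) (hTq : T ≤ q)
    (hqN : q ≤ N) (hp : f p ≤ f T - h) (hq : f q ≤ f T - h) :
    ∃ t, p < t ∧ t < q ∧ f T ≤ f t ∧ TopH f h N t := by
  classical
  obtain ⟨t0, ht0, hmax⟩ := (Finset.Icc p q).exists_max_image f
    ⟨T, Finset.mem_Icc.mpr ⟨hpT, hTq⟩⟩
  have hex : ∃ t, p ≤ t ∧ t ≤ q ∧ ∀ m, p ≤ m → m ≤ q → f m ≤ f t := by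
    rw [Finset.mem_Icc] at ht0
    exact ⟨t0, ht0.1, ht0.2, fun m h3 h4 => hmax m (Finset.mem_Icc.mpr ⟨h3, h4⟩)⟩
  set t := Nat.find hex with ht
  obtain ⟨hpt, htq, htmax⟩ := Nat.find_spec hex
  have hTt : f T ≤ f t := htmax T hpT hTq
  have h1 : p < t := by
    rcases hpt.eq_or_lt with he | hl
    · rw [← ht] at he
      rw [← he] at hTt
      linarith
    · exact hl
  have h2 : t < q := by
    rcases htq.eq_or_lt with he | hl
    · rw [← ht] at he
      rw [he] at hTt
      linarith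
    · exact hl
  refine ⟨t, h1, h2, hTt, p, q, h1, h2, hqN, by linarith, by linarith, htmax, ?_⟩
  by_contra hc
  push Not at hc
  have : p ≤ t - 1 ∧ t - 1 ≤ q ∧ ∀ m, p ≤ m → m ≤ q → f m ≤ f (t - 1) :=
    ⟨by omega, by omega, fun m h5 h6 => (htmax m h5 h6).trans hc⟩
  have h7 := Nat.find_min' hex this
  omega

/-- first argmin on an interval with high ends -/
theorem exists_valH {f : ℕ → ℝ} {h : ℝ} {N p q T : ℕ} (hh : 0 < h) (hpT : p ≤ T) (hTq : T ≤ q)
    (hqN : q ≤ N) (hp : f T + h ≤ f p) (hq : f T + h ≤ f q) :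
    ∃ t, p < t ∧ t < q ∧ f t ≤ f T ∧ ValH f h N t := by
  classical
  obtain ⟨t0, ht0, hmin⟩ := (Finset.Icc p q).exists_min_image f
    ⟨T, Finset.mem_Icc.mpr ⟨hpT, hTq⟩⟩
  have hex : ∃ t, p ≤ t ∧ t ≤ q ∧ ∀ m, p ≤ m → m ≤ q → f t ≤ f m := by
    rw [Finset.mem_Icc] at ht0
    exact ⟨t0, ht0.1, ht0.2, fun m h3 h4 => hmin m (Finset.mem_Icc.mpr ⟨h3, h4⟩)⟩
  set t := Nat.find hex with ht
  obtain ⟨hpt, htq, htmin⟩ := Nat.find_spec hex
  have hTt : f t ≤ f T := htmin T hpT hTq
  have h1 : p < t := by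
    rcases hpt.eq_or_lt with he | hl
    · rw [← ht] at he
      rw [← he] at hTt
      linarith
    · exact hl
  have h2 : t < q := by
    rcases htq.eq_or_lt with he | hl
    · rw [← ht] at he
      rw [he] at hTt
      linarith
    · exact hl
  refine ⟨t, h1, h2, hTt, p, q, h1, h2, hqN, by linarith, by linarith, htmin, ?_⟩
  intro m hm1 hm2
  by_contra hc
  push Not at hc
  have : p ≤ m ∧ m ≤ q ∧ ∀ m', p ≤ m' → m' ≤ q → f m ≤ f m' :=
    ⟨hm1, by omega, fun m' h5 h6 => hc.trans (htmin m' h5 h6)⟩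
  have h7 := Nat.find_min' hex this
  omega

/-- **Forward violation ⟹ root top or root valley.** -/
theorem top_or_valley (h : IsHyp d δ B) {r z T v n N : ℕ} {b D E : ℝ} (hb : 0 < b) (hb1 : b ≤ 1)
    (hzT : z ≤ T) (hTv : T ≤ v) (hvN : v ≤ N) (h1n : T - z ≤ 2 ^ n) (h2n : v - T ≤ 2 ^ n)
    (hD : d z T = D) (hv : d z v ≤ (1 - b) * D) (hE : E = B / 2 + (n + 1) * δ)
    (hbig : E < b * D / 4) :
    ∃ t, z < t ∧ t < v ∧
      ((TopH (d r) (b * D / 4 - E) N t) ∨ (ValH (d r) (b * D / 4 - E) N t)) := by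
  have hD0 : 0 ≤ D := hD ▸ h.nonneg z T
  have hδ := h.δ_nonneg
  have hB : 0 ≤ B := (h.nonneg 0 1).trans (h.step 0)
  have hE0 : 0 ≤ E := by rw [hE]; positivity
  have hbD : 0 ≤ b * D := mul_nonneg hb.le hD0
  have hbD1 : b * D ≤ D := by nlinarith
  rcases core h (r := r) hb.le hb1 hD hv with ⟨h1, h2⟩ | ⟨h1, h2⟩
  · obtain ⟨t, ht1, ht2, _, ht4⟩ := exists_valH (f := d r) (h := b * D / 4 - E) (N := N)
      (p := z) (q := v) (T := T) (by linarith) hzT hTv hvN (by linarith) (by linarith)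
    exact ⟨t, ht1, ht2, Or.inr ht4⟩
  · obtain ⟨p, hp1, hp2, hp3⟩ := exists_low h r hzT h1n
    obtain ⟨q, hq1, hq2, hq3⟩ := exists_low h r hTv h2n
    have e : ((n : ℝ) + 1) * δ = n * δ + δ := by ring
    obtain ⟨t, ht1, ht2, _, ht4⟩ := exists_topH (f := d r) (h := b * D / 4 - E) (N := N)
      (p := p) (q := q) (T := T) (by linarith) hp2 hq1 (hq2.trans hvN)
      (by rw [hE, e]; linarith) (by rw [hE, e]; linarith)
    exact ⟨t, by omega, by omega, Or.inl ht4⟩

/-- **Backward violation ⟹ root top or root valley** (`v ≤ T ≤ z`, root anywhere). -/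
theorem top_or_valley_back (h : IsHyp d δ B) {r z T v n N : ℕ} {b D E : ℝ} (hb : 0 < b)
    (hb1 : b ≤ 1) (hzT : T ≤ z) (hTv : v ≤ T) (hzN : z ≤ N) (h1n : z - T ≤ 2 ^ n)
    (h2n : T - v ≤ 2 ^ n) (hD : d z T = D) (hv : d z v ≤ (1 - b) * D)
    (hE : E = B / 2 + (n + 1) * δ) (hbig : E < b * D / 4) :
    ∃ t, v < t ∧ t < z ∧
      ((TopH (d r) (b * D / 4 - E) N t) ∨ (ValH (d r) (b * D / 4 - E) N t)) := by
  have hD0 : 0 ≤ D := hD ▸ h.nonneg z T
  have hδ := h.δ_nonneg
  have hB : 0 ≤ B := (h.nonneg 0 1).trans (h.step 0)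
  have hE0 : 0 ≤ E := by rw [hE]; positivity
  have hbD : 0 ≤ b * D := mul_nonneg hb.le hD0
  have hbD1 : b * D ≤ D := by nlinarith
  rcases core h (r := r) hb.le hb1 hD hv with ⟨h1, h2⟩ | ⟨h1, h2⟩
  · obtain ⟨t, ht1, ht2, _, ht4⟩ := exists_valH (f := d r) (h := b * D / 4 - E) (N := N)
      (p := v) (q := z) (T := T) (by linarith) hTv hzT hzN (by linarith) (by linarith)
    exact ⟨t, ht1, ht2, Or.inr ht4⟩
  · obtain ⟨p, hp1, hp2, hp3⟩ := exists_low' h r hzT h1n
    obtain ⟨q, hq1, hq2, hq3⟩ := exists_low' h r hTv h2n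
    have e : ((n : ℝ) + 1) * δ = n * δ + δ := by ring
    obtain ⟨t, ht1, ht2, _, ht4⟩ := exists_topH (f := d r) (h := b * D / 4 - E) (N := N)
      (p := q) (q := p) (T := T) (by linarith) hq2 hp1 (hp2.trans hzN)
      (by rw [hE, e]; linarith) (by rw [hE, e]; linarith)
    exact ⟨t, by omega, by omega, Or.inl ht4⟩

/-! ## Counting -/

/-- between two valleys there is a top -/
theorem top_between {f : ℕ → ℝ} {h : ℝ} {N s t : ℕ} (hh : 0 < h) (hst : s < t)
    (hs : ValH f h N s) (ht : ValH f h N t) : ∃ p, s < p ∧ p < t ∧ TopH f h N p := by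
  obtain ⟨a1, b1, ha1, hb1, hN1, hfa1, hfb1, hm1, hl1⟩ := hs
  obtain ⟨a2, b2, ha2, hb2, hN2, hfa2, hfb2, hm2, hl2⟩ := ht
  have key : ∃ T, s ≤ T ∧ T ≤ t ∧ f s ≤ f T - h ∧ f t ≤ f T - h := by
    rcases le_or_gt b1 t with h1 | h1
    · rcases le_or_gt s a2 with h2 | h2
      · rcases le_total (f b1) (f a2) with h3 | h3
        · exact ⟨a2, h2, ha2.le, by linarith, by linarith⟩
        · exact ⟨b1, hb1.le, h1, by linarith, by linarith⟩
      · have := hl2 s h2.le hst
        exact ⟨b1, hb1.le, h1, by linarith, by linarith⟩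
    · have h3 := hm1 t (by omega) h1.le
      rcases le_or_gt s a2 with h2 | h2
      · exact ⟨a2, h2, ha2.le, by linarith, by linarith⟩
      · have := hl2 s h2.le hst
        linarith
  obtain ⟨T, h1, h2, h3, h4⟩ := key
  obtain ⟨p, hp1, hp2, _, hp4⟩ := exists_topH (N := N) hh h1 h2 (by omega) h3 h4
  exact ⟨p, hp1, hp2, hp4⟩

open Classical in
/-- **#valleys ≤ #tops + 1** -/
theorem card_val_le {f : ℕ → ℝ} {h : ℝ} {N : ℕ} (hh : 0 < h) :
    #{t ∈ range N | ValH f h N t} ≤ #{t ∈ range N | TopH f h N t} + 1 := by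
  set S := {t ∈ range N | ValH f h N t} with hS
  set P := {t ∈ range N | TopH f h N t} with hP
  rcases S.eq_empty_or_nonempty with he | hne
  · rw [he]; simp
  · have hmem := S.max'_mem hne
    rw [← Finset.card_erase_add_one hmem]
    refine Nat.add_le_add_right ?_ 1
    have hbet : ∀ s ∈ S, ∀ t ∈ S, s < t → ∃ p ∈ P, s < p ∧ p < t := by
      intro s hs t ht hst
      rw [hS, Finset.mem_filter, Finset.mem_range] at hs ht
      obtain ⟨p, h1, h2, h3⟩ := top_between hh hst hs.2 ht.2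
      exact ⟨p, by rw [hP, Finset.mem_filter, Finset.mem_range]; exact ⟨by omega, h3⟩, h1, h2⟩
    have hex : ∀ s ∈ S.erase (S.max' hne), ∃ p, p ∈ P ∧ s < p := by
      intro s hs
      rw [Finset.mem_erase] at hs
      obtain ⟨p, h1, h2, _⟩ := hbet s hs.2 _ hmem (lt_of_le_of_ne (S.le_max' s hs.2) hs.1)
      exact ⟨p, h1, h2⟩
    let g : ℕ → ℕ := fun s => if hx : ∃ p, p ∈ P ∧ s < p then Nat.find hx else 0
    have hg : ∀ s (hs : s ∈ S.erase (S.max' hne)), g s ∈ P ∧ s < g s := by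
      intro s hs
      have : g s = Nat.find (hex s hs) := dif_pos (hex s hs)
      rw [this]
      exact Nat.find_spec (hex s hs)
    have hg' : ∀ s (_ : s ∈ S.erase (S.max' hne)), ∀ t ∈ S, s < t → g s < t := by
      intro s hs t ht hst
      obtain ⟨p, h1, h2, h3⟩ := hbet s (Finset.mem_of_mem_erase hs) t ht hst
      have : g s = Nat.find (hex s hs) := dif_pos (hex s hs)
      rw [this]
      exact (Nat.find_min' (hex s hs) ⟨h1, h2⟩).trans_lt h3
    apply Finset.card_le_card_of_injOn g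
    · intro s hs
      exact (hg s (Finset.mem_coe.mp hs)).1
    · intro s hs t ht hst
      have hs := Finset.mem_coe.mp hs
      have ht := Finset.mem_coe.mp ht
      rcases lt_trichotomy s t with h1 | h1 | h1
      · have h2 := hg' s hs t (Finset.mem_of_mem_erase ht) h1
        have h3 := (hg t ht).2
        omega
      · exact h1
      · have h2 := hg' t ht s (Finset.mem_of_mem_erase hs) h1
        have h3 := (hg s hs).2
        omega

open Classical in
/-- **Counting of the starts by their targets.**  Every `z ∈ S` has a target `τ z < N` which is a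
top or a valley of depth `j z * κ`, `j z < J`, and at most `K * (j + 1)` starts have a given
target, if all of them have `j z ≤ j`.  Then `#S ≤ K (2 ∑_{j < J} #tops_j + J)`, where the sum
contains `j = 0`, with tops of depth `h₀ + j κ`. -/
theorem card_starts_le {f : ℕ → ℝ} {h₀ κ : ℝ} {N J K : ℕ} (h₀pos : 0 < h₀) (hκ : 0 ≤ κ)
    (S : Finset ℕ) (τ : ℕ → ℕ) (j : ℕ → ℕ) (hτ : ∀ z ∈ S, τ z < N) (hj : ∀ z ∈ S, j z < J)
    (htv : ∀ z ∈ S, TopH f (h₀ + j z * κ) N (τ z) ∨ ValH f (h₀ + j z * κ) N (τ z))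
    (hK : ∀ t i, (∀ z ∈ S, τ z = t → j z ≤ i) → #{z ∈ S | τ z = t} ≤ K * (i + 1)) :
    #S ≤ K * (2 * ∑ i ∈ range J, #{t ∈ range N | TopH f (h₀ + i * κ) N t} + J) := by
  -- the best level of a target
  let M : ℕ → ℕ := fun t => Finset.sup {z ∈ S | τ z = t} j
  have hM : ∀ t, ∀ z ∈ S, τ z = t → j z ≤ M t := fun t z hz ht =>
    Finset.le_sup (f := j) (Finset.mem_filter.mpr ⟨hz, ht⟩)
  have h1 : #S ≤ ∑ t ∈ S.image τ, #{z ∈ S | τ z = t} :=
    (Finset.card_eq_sum_card_image τ S).le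
  have h2 : ∀ t ∈ S.image τ, #{z ∈ S | τ z = t} ≤
      K * #((range J).filter fun i : ℕ => TopH f (h₀ + i * κ) N t ∨ ValH f (h₀ + i * κ) N t) := by
    intro t ht
    obtain ⟨z0, hz0, hz0t⟩ := Finset.mem_image.mp ht
    obtain ⟨z, hz, hzM⟩ : ∃ z ∈ {z ∈ S | τ z = t}, j z = M t := by
      obtain ⟨z, hz, hz'⟩ := Finset.exists_mem_eq_sup {z ∈ S | τ z = t}
        ⟨z0, Finset.mem_filter.mpr ⟨hz0, hz0t⟩⟩ j
      exact ⟨z, hz, hz'.symm⟩
    rw [Finset.mem_filter] at hz
    refine (hK t (M t) (hM t)).trans (Nat.mul_le_mul_left K ?_)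
    have h3 : range (M t + 1) ⊆
        (range J).filter fun i : ℕ => TopH f (h₀ + i * κ) N t ∨ ValH f (h₀ + i * κ) N t := by
      intro i hi
      rw [Finset.mem_range] at hi
      rw [Finset.mem_filter, Finset.mem_range]
      have hij : i ≤ j z := by omega
      have hle : h₀ + i * κ ≤ h₀ + j z * κ := by
        have : (i : ℝ) ≤ j z := by exact_mod_cast hij
        have := mul_le_mul_of_nonneg_right this hκ
        linarith
      have h4 := htv z hz.1
      rw [hz.2] at h4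
      exact ⟨by have := hj z hz.1; omega, h4.imp (TopH.mono hle) (ValH.mono hle)⟩
    calc M t + 1 = #(range (M t + 1)) := (Finset.card_range _).symm
      _ ≤ _ := Finset.card_le_card h3
  have h3 : S.image τ ⊆ range N := by
    intro t ht
    obtain ⟨z, hz, rfl⟩ := Finset.mem_image.mp ht
    exact Finset.mem_range.mpr (hτ z hz)
  calc #S ≤ ∑ t ∈ S.image τ, #{z ∈ S | τ z = t} := h1
    _ ≤ ∑ t ∈ S.image τ, K * #((range J).filter fun i : ℕ => TopH f (h₀ + i * κ) N t ∨
          ValH f (h₀ + i * κ) N t) := Finset.sum_le_sum h2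
    _ ≤ ∑ t ∈ range N, K * #((range J).filter fun i : ℕ => TopH f (h₀ + i * κ) N t ∨
          ValH f (h₀ + i * κ) N t) := Finset.sum_le_sum_of_subset h3
    _ = K * ∑ i ∈ range J, #{t ∈ range N | TopH f (h₀ + i * κ) N t ∨
          ValH f (h₀ + i * κ) N t} := by
      rw [← Finset.mul_sum]
      congr 1
      simp only [Finset.card_filter]
      exact Finset.sum_comm
    _ ≤ K * ∑ i ∈ range J, (2 * #{t ∈ range N | TopH f (h₀ + i * κ) N t} + 1) := by
      refine Nat.mul_le_mul_left K (Finset.sum_le_sum fun i _ => ?_)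
      have hpos : 0 < h₀ + i * κ := by
        have : (0 : ℝ) ≤ i * κ := by positivity
        linarith
      have h5 : #{t ∈ range N | TopH f (h₀ + i * κ) N t ∨ ValH f (h₀ + i * κ) N t} ≤
          #{t ∈ range N | TopH f (h₀ + i * κ) N t} + #{t ∈ range N | ValH f (h₀ + i * κ) N t} := by
        rw [Finset.filter_or]
        exact Finset.card_union_le _ _
      have := card_val_le (f := f) (N := N) hpos
      omega
    _ = _ := by
      rw [Finset.sum_add_distrib, ← Finset.mul_sum]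
      simp

end Crest.Agent.R128.TopValley
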