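import Mathlib
import Crest.Agent.R128.Meas
import Crest.Agent.R128.Charge
import Crest.Agent.R128.PeakValley
import Crest.Agent.R128.TopValley
import Crest.Agent.R128.Cover
import Crest.Agent.R128.AccRoot

/-!
Row 128, node V-MEASC (helper8): measurability of the component/top/valley predicates of a measurable
family of contours `F : α → ℕ → ℝ`, and of their counting functions (companion of helper862's `Meas`).
-/

set_option autoImplicit false

open MeasureTheory Filter Topology Finset
open scoped ENNReal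

namespace Crest.Agent.R128.MeasC

open Crest.Agent.R128 Crest.Agent.R128.Meas

variable {α : Type*} [MeasurableSpace α] {F : α → ℕ → ℝ}

/-! ### predicates -/

theorem ms_Cmp (hF : ∀ n, Measurable fun z => F z n) (κ : ℝ) (N i j : ℕ) (l : ℤ) :
    MeasurableSet {z | Charge.Cmp (F z) κ N i j l} := by
  have e : {z | Charge.Cmp (F z) κ N i j l} = {z | i + 1 < j ∧ j ≤ N ∧ F z i ≤ l * κ ∧
      (∀ m, i < m → m < j → (l : ℝ) * κ < F z m) ∧ F z j ≤ l * κ} := by
    ext z
    exact ⟨fun h => ⟨h.lt, h.le, h.fi, h.mid, h.fj⟩, fun h => ⟨h.1, h.2.1, h.2.2.1, h.2.2.2.1, h.2.2.2.2⟩⟩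
  rw [e]
  exact ms_const_and fun _ => ms_const_and fun _ => ms_and (ms_le (hF i) measurable_const)
    (ms_and (ms_forall fun m => ms_const_imp fun _ => ms_const_imp fun _ =>
      ms_lt measurable_const (hF m)) (ms_le (hF j) measurable_const))

/-- `T` is a maximum of the component `(i,j)` -/
theorem ms_max (hF : ∀ n, Measurable fun z => F z n) (i j T : ℕ) :
    MeasurableSet {z | ∀ m, i < m → m < j → F z m ≤ F z T} :=
  ms_forall fun m => ms_const_imp fun _ => ms_const_imp fun _ => ms_le (hF m) (hF T)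

theorem ms_low (hF : ∀ n, Measurable fun z => F z n) (T : ℕ) (c H : ℝ) :
    MeasurableSet {z | F z T - c ≤ H} := ms_le ((hF T).sub measurable_const) measurable_const

theorem ms_NestL (hF : ∀ n, Measurable fun z => F z n) (κ : ℝ) (N : ℕ) (H : ℝ) (i j : ℕ) (l : ℤ) :
    MeasurableSet {z | Charge.NestL (F z) κ N H i j l} := by
  unfold Charge.NestL
  refine ms_and (ms_Cmp hF κ N i j l) (ms_exists fun i' => ms_exists fun j' => ms_exists fun l' =>
    ms_exists fun T => ms_and (ms_Cmp hF κ N i' j' l') (ms_const_and fun _ => ms_const_and fun _ =>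
      ms_const_and fun _ => ms_and (ms_max hF i' j' T) (ms_low hF T _ H)))

theorem ms_NestR (hF : ∀ n, Measurable fun z => F z n) (κ : ℝ) (N : ℕ) (H : ℝ) (i j : ℕ) (l : ℤ) :
    MeasurableSet {z | Charge.NestR (F z) κ N H i j l} := by
  unfold Charge.NestR
  refine ms_and (ms_Cmp hF κ N i j l) (ms_exists fun i' => ms_exists fun j' => ms_exists fun l' =>
    ms_exists fun T => ms_and (ms_Cmp hF κ N i' j' l') (ms_const_and fun _ => ms_const_and fun _ =>
      ms_const_and fun _ => ms_and (ms_max hF i' j' T) (ms_low hF T _ H)))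

theorem ms_ValR (hF : ∀ n, Measurable fun z => F z n) (κ b D : ℝ) (T j : ℕ) (l : ℤ) :
    MeasurableSet {z | Charge.ValR (F z) κ b D T j l} := by
  unfold Charge.ValR
  refine ms_exists fun v => ms_exists fun a => ms_const_and fun _ => ms_const_and fun _ =>
    ms_const_and fun _ => ms_and (ms_forall fun m => ms_const_imp fun _ => ms_const_imp fun _ =>
      ms_le (hF m) (hF a)) (ms_and (ms_le measurable_const ((hF a).sub measurable_const))
        (ms_le (hF v) ((hF a).sub (((hF a).sub measurable_const).const_mul b))))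

theorem ms_ValL (hF : ∀ n, Measurable fun z => F z n) (κ b D : ℝ) (T i : ℕ) (l : ℤ) :
    MeasurableSet {z | Charge.ValL (F z) κ b D T i l} := by
  unfold Charge.ValL
  refine ms_exists fun v => ms_exists fun a => ms_const_and fun _ => ms_const_and fun _ =>
    ms_const_and fun _ => ms_and (ms_forall fun m => ms_const_imp fun _ => ms_const_imp fun _ =>
      ms_le (hF m) (hF a)) (ms_and (ms_le measurable_const ((hF a).sub measurable_const))
        (ms_le (hF v) ((hF a).sub (((hF a).sub measurable_const).const_mul b))))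

theorem ms_TopH (hF : ∀ n, Measurable fun z => F z n) (h : ℝ) (N t : ℕ) :
    MeasurableSet {z | TopValley.TopH (F z) h N t} := by
  unfold TopValley.TopH
  exact ms_exists fun a => ms_exists fun b => ms_const_and fun _ => ms_const_and fun _ =>
    ms_const_and fun _ => ms_and (ms_le (hF a) ((hF t).sub measurable_const))
      (ms_and (ms_le (hF b) ((hF t).sub measurable_const))
        (ms_and (ms_forall fun m => ms_const_imp fun _ => ms_const_imp fun _ => ms_le (hF m) (hF t))
          (ms_lt (hF (t - 1)) (hF t))))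

theorem ms_Top (hF : ∀ n, Measurable fun z => F z n) (κ : ℝ) (N t r : ℕ) :
    MeasurableSet {z | Acc.Top (F z) κ N t r} := by
  have e : {z | Acc.Top (F z) κ N t r} = {z | TopValley.TopH (F z) (r * κ) N t} := by
    ext z
    exact TopValley.top_iff (F z) κ N t r
  rw [e]
  exact ms_TopH hF _ N t

theorem ms_ValH (hF : ∀ n, Measurable fun z => F z n) (h : ℝ) (N t : ℕ) :
    MeasurableSet {z | TopValley.ValH (F z) h N t} := by
  unfold TopValley.ValH
  exact ms_exists fun a => ms_exists fun b => ms_const_and fun _ => ms_const_and fun _ =>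
    ms_const_and fun _ => ms_and (ms_le ((hF t).add measurable_const) (hF a))
      (ms_and (ms_le ((hF t).add measurable_const) (hF b))
        (ms_and (ms_forall fun m => ms_const_imp fun _ => ms_const_imp fun _ => ms_le (hF t) (hF m))
          (ms_forall fun m => ms_const_imp fun _ => ms_const_imp fun _ => ms_lt (hF t) (hF m))))

theorem ms_Pk (hF : ∀ n, Measurable fun z => F z n) (N : ℕ) (p : ℝ) (a : ℕ) :
    MeasurableSet {z | PV.Pk (F z) N p a} := by
  unfold PV.Pk
  exact ms_and
    (ms_exists fun i => ms_const_and fun _ => ms_and (ms_le (hF i) ((hF a).sub measurable_const))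
      (ms_forall fun m => ms_const_imp fun _ => ms_const_imp fun _ => ms_lt (hF m) (hF a)))
    (ms_exists fun j => ms_const_and fun _ => ms_const_and fun _ =>
      ms_and (ms_le (hF j) ((hF a).sub measurable_const))
      (ms_forall fun m => ms_const_imp fun _ => ms_const_imp fun _ => ms_le (hF m) (hF a)))

theorem ms_Vl (hF : ∀ n, Measurable fun z => F z n) (N : ℕ) (p : ℝ) (a : ℕ) :
    MeasurableSet {z | PV.Vl (F z) N p a} := by
  unfold PV.Vl
  exact ms_and
    (ms_exists fun i => ms_const_and fun _ => ms_and (ms_le ((hF a).add measurable_const) (hF i))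
      (ms_forall fun m => ms_const_imp fun _ => ms_const_imp fun _ => ms_lt (hF a) (hF m)))
    (ms_exists fun j => ms_const_and fun _ => ms_const_and fun _ =>
      ms_and (ms_le ((hF a).add measurable_const) (hF j))
      (ms_forall fun m => ms_const_imp fun _ => ms_const_imp fun _ => ms_le (hF a) (hF m)))

theorem ms_IsVal (hF : ∀ n, Measurable fun z => F z n) (r : ℝ) (lo hi u : ℕ) :
    MeasurableSet {z | Cover.IsVal (F z) r lo hi u} := by
  unfold Cover.IsVal
  exact ms_exists fun s => ms_exists fun e => ms_const_and fun _ => ms_const_and fun _ =>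
    ms_const_and fun _ => ms_const_and fun _ => ms_and (ms_le ((hF u).add measurable_const) (hF s))
      (ms_and (ms_le ((hF u).add measurable_const) (hF e))
        (ms_and (ms_forall fun m => ms_const_imp fun _ => ms_const_imp fun _ => ms_lt (hF u) (hF m))
          (ms_forall fun m => ms_const_imp fun _ => ms_const_imp fun _ => ms_le (hF u) (hF m))))

theorem ms_IsTip (hF : ∀ n, Measurable fun z => F z n) (r : ℝ) (lo hi t : ℕ) :
    MeasurableSet {z | Cover.IsTip (F z) r lo hi t} := by
  unfold Cover.IsTip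
  exact ms_exists fun s => ms_exists fun e => ms_const_and fun _ => ms_const_and fun _ =>
    ms_const_and fun _ => ms_const_and fun _ => ms_and (ms_le (hF s) ((hF t).sub measurable_const))
      (ms_and (ms_le (hF e) ((hF t).sub measurable_const))
        (ms_and (ms_forall fun m => ms_const_imp fun _ => ms_const_imp fun _ => ms_lt (hF m) (hF t))
          (ms_forall fun m => ms_const_imp fun _ => ms_const_imp fun _ => ms_le (hF m) (hF t))))

/-! ### counting functions -/

open Classical in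
/-- number of elements of a countable family of measurable predicates, in `[0,∞]` -/
theorem measurable_tsum_ind {ι : Type*} [Countable ι] {P : ι → α → Prop}
    (hP : ∀ c, MeasurableSet {z | P c z}) :
    Measurable fun z => ∑' c, if P c z then (1 : ℝ≥0∞) else 0 :=
  Measurable.tsum fun c => Measurable.ite (hP c) measurable_const measurable_const

/-- `ncard` of a `z`-dependent finite set with measurable membership -/
theorem measurable_ncard {ι : Type*} [Countable ι] {S : α → Set ι}
    (hS : ∀ c, MeasurableSet {z | c ∈ S z}) (hfin : ∀ z, (S z).Finite) :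
    Measurable fun z => (S z).ncard := by
  classical
  have e : (fun z => (S z).ncard) = fun z => #((hfin z).toFinset) := by
    funext z
    exact Set.ncard_eq_toFinset_card (S z) (hfin z)
  rw [e]
  apply measurable_card
  intro c
  have : {z | c ∈ (hfin z).toFinset} = {z | c ∈ S z} := by
    ext z
    simp
  rw [this]
  exact hS c

theorem measurable_ncard_real {ι : Type*} [Countable ι] {S : α → Set ι}
    (hS : ∀ c, MeasurableSet {z | c ∈ S z}) (hfin : ∀ z, (S z).Finite) :
    Measurable fun z => ((S z).ncard : ℝ) :=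
  measurable_from_top.comp (measurable_ncard hS hfin)

theorem measurable_ncard_ennreal {ι : Type*} [Countable ι] {S : α → Set ι}
    (hS : ∀ c, MeasurableSet {z | c ∈ S z}) (hfin : ∀ z, (S z).Finite) :
    Measurable fun z => ((S z).ncard : ℝ≥0∞) :=
  measurable_from_top.comp (measurable_ncard hS hfin)

/-- the set of the components, with a side condition -/
def cmps (f : ℕ → ℝ) (κ : ℝ) (N : ℕ) : Set (ℕ × ℕ × ℤ) := {c | Charge.Cmp f κ N c.1 c.2.1 c.2.2}

theorem cmps_finite {f : ℕ → ℝ} {κ : ℝ} (hκ : 0 < κ) (N : ℕ) : (cmps f κ N).Finite := by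
  classical
  refine Set.Finite.subset (Finset.finite_toSet ((range (N + 1)) ×ˢ ((range (N + 1)) ×ˢ
    ((range (N + 1)).biUnion fun i => Finset.Icc ⌈f i / κ⌉ ⌈f (i + 1) / κ⌉)))) ?_
  rintro ⟨i, j, l⟩ h
  have h : Charge.Cmp f κ N i j l := h
  have h1 := h.lt
  have h2 := h.le
  simp only [Finset.coe_product, Set.mem_prod, Finset.mem_coe, Finset.mem_range, Finset.mem_biUnion,
    Finset.mem_Icc]
  refine ⟨by omega, by omega, i, by omega, ?_, ?_⟩
  · rw [Int.ceil_le, div_le_iff₀ hκ]
    exact h.fi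
  · have h3 := h.mid (i + 1) (by omega) (by omega)
    have h4 : (l : ℝ) < f (i + 1) / κ := by rwa [lt_div_iff₀ hκ]
    exact (Int.lt_ceil.mpr h4).le

/-- a component is determined by its left foot and its level: at most `J/κ + 1` per time -/
theorem ncard_cmps_le {f : ℕ → ℝ} {κ J : ℝ} (hκ : 0 < κ) (hJ : ∀ n, |f (n + 1) - f n| ≤ J) (N : ℕ) :
    ((cmps f κ N).ncard : ℝ) ≤ N * (J / κ + 1) := by
  classical
  have hfin := cmps_finite (f := f) hκ N
  set S : Finset (ℕ × ℕ × ℤ) := hfin.toFinset with hSdef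
  have hmem : ∀ c ∈ S, Charge.Cmp f κ N c.1 c.2.1 c.2.2 := fun c hc => by
    rw [hSdef, Set.Finite.mem_toFinset] at hc
    exact hc
  rw [Set.ncard_eq_toFinset_card _ hfin]
  have hinj : Set.InjOn (fun c : ℕ × ℕ × ℤ => (⟨c.1, c.2.2⟩ : ℕ × ℤ)) S := by
    rintro ⟨i, j, l⟩ hc ⟨i', j', l'⟩ hc' he
    simp only [Prod.mk.injEq] at he
    obtain ⟨rfl, rfl⟩ := he
    have a1 : Charge.Cmp f κ N i j l := hmem (i, j, l) hc
    have a2 : Charge.Cmp f κ N i j' l := hmem (i, j', l) hc'
    rw [a1.det_right a2]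
  have hcard : S.card = (S.image fun c : ℕ × ℕ × ℤ => (⟨c.1, c.2.2⟩ : ℕ × ℤ)).card :=
    (Finset.card_image_of_injOn hinj).symm
  have hsub : (S.image fun c : ℕ × ℕ × ℤ => (⟨c.1, c.2.2⟩ : ℕ × ℤ)) ⊆
      (range N).biUnion fun i => (Finset.Ico ⌈f i / κ⌉ ⌈f (i + 1) / κ⌉).image fun l => (i, l) := by
    intro p hp
    rw [Finset.mem_image] at hp
    obtain ⟨c, hc, rfl⟩ := hp
    have h := hmem c hc
    have h1 := h.lt
    have h2 := h.le
    rw [Finset.mem_biUnion]
    refine ⟨c.1, by rw [Finset.mem_range]; omega, ?_⟩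
    rw [Finset.mem_image]
    refine ⟨c.2.2, ?_, rfl⟩
    rw [Finset.mem_Ico]
    constructor
    · rw [Int.ceil_le, div_le_iff₀ hκ]
      exact h.fi
    · rw [Int.lt_ceil, lt_div_iff₀ hκ]
      exact h.mid (c.1 + 1) (by omega) (by omega)
  have h1 : (S.card : ℝ) ≤ ∑ i ∈ range N,
      (((Finset.Ico ⌈f i / κ⌉ ⌈f (i + 1) / κ⌉).image fun l => (i, l)).card : ℝ) := by
    rw [hcard]
    exact_mod_cast (Finset.card_le_card hsub).trans Finset.card_biUnion_le
  refine h1.trans ?_
  have h2 : ∀ i ∈ range N, (((Finset.Ico ⌈f i / κ⌉ ⌈f (i + 1) / κ⌉).image fun l => (i, l)).card : ℝ) ≤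
      J / κ + 1 := by
    intro i _
    refine (Nat.cast_le.mpr Finset.card_image_le).trans ?_
    rw [Int.card_Ico]
    have hJi := abs_le.mp (hJ i)
    have hJ0 : 0 ≤ J := (abs_nonneg _).trans (hJ i)
    rcases le_total ⌈f (i + 1) / κ⌉ ⌈f i / κ⌉ with h | h
    · rw [Int.toNat_of_nonpos (by omega)]
      simp only [Nat.cast_zero]
      positivity
    · have h3 : (((⌈f (i + 1) / κ⌉ - ⌈f i / κ⌉).toNat : ℕ) : ℝ) = (⌈f (i + 1) / κ⌉ : ℝ) - ⌈f i / κ⌉ := by
        have : (((⌈f (i + 1) / κ⌉ - ⌈f i / κ⌉).toNat : ℕ) : ℤ) = ⌈f (i + 1) / κ⌉ - ⌈f i / κ⌉ :=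
          Int.toNat_of_nonneg (by omega)
        exact_mod_cast congrArg (fun x : ℤ => (x : ℝ)) this
      rw [h3]
      have h4 := Int.ceil_lt_add_one (f (i + 1) / κ)
      have h5 := Int.le_ceil (f i / κ)
      have h6 : f (i + 1) / κ - f i / κ ≤ J / κ := by
        rw [← sub_div]
        exact div_le_div_of_nonneg_right hJi.2 hκ.le
      linarith
  refine (Finset.sum_le_sum h2).trans ?_
  rw [Finset.sum_const, Finset.card_range, nsmul_eq_mul]

/-- measurability of the number of components with a measurable side condition -/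
theorem measurable_cmps (hF : ∀ n, Measurable fun z => F z n) {κ : ℝ} (hκ : 0 < κ) (N : ℕ)
    {P : ℕ × ℕ × ℤ → α → Prop} (hP : ∀ c, MeasurableSet {z | P c z}) :
    Measurable fun z => ({c | c ∈ cmps (F z) κ N ∧ P c z} : Set (ℕ × ℕ × ℤ)).ncard :=
  measurable_ncard (fun c => ms_and (ms_Cmp hF κ N c.1 c.2.1 c.2.2) (hP c))
    fun _ => (cmps_finite hκ N).subset fun _ h => h.1

/-- the low components: some maximum `T` has `F T - l κ ≤ H` -/
def low (f : ℕ → ℝ) (κ : ℝ) (N : ℕ) (H : ℝ) : Set (ℕ × ℕ × ℤ) :=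
  {c | Charge.Cmp f κ N c.1 c.2.1 c.2.2 ∧ ∃ T, c.1 < T ∧ T < c.2.1 ∧
    (∀ m, c.1 < m → m < c.2.1 → f m ≤ f T) ∧ f T - c.2.2 * κ ≤ H}

theorem low_finite {f : ℕ → ℝ} {κ : ℝ} (hκ : 0 < κ) (N : ℕ) (H : ℝ) : (low f κ N H).Finite :=
  (cmps_finite hκ N).subset fun _ h => h.1

theorem low_mono {f : ℕ → ℝ} {κ : ℝ} {N : ℕ} {H H' : ℝ} (h : H ≤ H') :
    low f κ N H ⊆ low f κ N H' := by
  rintro c ⟨h1, T, h2, h3, h4, h5⟩
  exact ⟨h1, T, h2, h3, h4, h5.trans h⟩

theorem low_mono_N {f : ℕ → ℝ} {κ : ℝ} {N N' : ℕ} {H : ℝ} (h : N ≤ N') :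
    low f κ N H ⊆ low f κ N' H := by
  rintro c ⟨h1, T, h2, h3, h4, h5⟩
  exact ⟨⟨h1.lt, h1.le.trans h, h1.fi, h1.mid, h1.fj⟩, T, h2, h3, h4, h5⟩

theorem measurable_low (hF : ∀ n, Measurable fun z => F z n) {κ : ℝ} (hκ : 0 < κ) (N : ℕ) (H : ℝ) :
    Measurable fun z => (low (F z) κ N H).ncard :=
  measurable_ncard (fun c => ms_and (ms_Cmp hF κ N c.1 c.2.1 c.2.2)
    (ms_exists fun T => ms_const_and fun _ => ms_const_and fun _ =>
      ms_and (ms_max hF c.1 c.2.1 T) (ms_low hF T _ H)))
    fun _ => low_finite hκ N H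

theorem ncard_low_le {f : ℕ → ℝ} {κ J : ℝ} (hκ : 0 < κ) (hJ : ∀ n, |f (n + 1) - f n| ≤ J) (N : ℕ)
    (H : ℝ) : ((low f κ N H).ncard : ℝ) ≤ N * (J / κ + 1) := by
  refine le_trans ?_ (ncard_cmps_le hκ hJ N)
  have hs : low f κ N H ⊆ cmps f κ N := fun c h => h.1
  exact_mod_cast Set.ncard_le_ncard hs (cmps_finite hκ N)

/-- the nested components -/
theorem measurable_nest (hF : ∀ n, Measurable fun z => F z n) {κ : ℝ} (hκ : 0 < κ) (N : ℕ) (H : ℝ) :
    Measurable fun z => ({c | Charge.NestL (F z) κ N H c.1 c.2.1 c.2.2 ∨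
      Charge.NestR (F z) κ N H c.1 c.2.1 c.2.2} : Set (ℕ × ℕ × ℤ)).ncard :=
  measurable_ncard (fun c => ms_or (ms_NestL hF κ N H c.1 c.2.1 c.2.2)
    (ms_NestR hF κ N H c.1 c.2.1 c.2.2))
    fun _ => (cmps_finite hκ N).subset fun _ h => h.elim (fun h => h.1) fun h => h.1

open Classical in
/-- pairs (top, level) -/
theorem measurable_tops (hF : ∀ n, Measurable fun z => F z n) (κ : ℝ) (N : ℕ) (s t : Finset ℕ) :
    Measurable fun z => #{p ∈ s ×ˢ t | Acc.Top (F z) κ N p.1 p.2} :=
  measurable_card_filter' _ fun p _ => ms_Top hF κ N p.1 p.2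

/-- number of integer down-crossings, natural ceiling -/
theorem measurable_down (hF : ∀ n, Measurable fun z => F z n) (N : ℕ) :
    Measurable fun z => ∑ n ∈ range N, (⌈F z n⌉₊ - ⌈F z (n + 1)⌉₊) := by
  refine Finset.measurable_sum _ fun n _ => ?_
  exact (Nat.measurable_ceil.comp (hF n)).sub (Nat.measurable_ceil.comp (hF (n + 1)))

theorem measurable_DN (hF : ∀ n, Measurable fun z => F z n) (N : ℕ) :
    Measurable fun z => Cover.DN (F z) N := by
  unfold Cover.DN
  refine Finset.measurable_sum _ fun n _ => ?_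
  exact (measurable_of_countable fun x : ℤ => x.toNat).comp
    ((Int.measurable_ceil.comp (hF n)).sub (Int.measurable_ceil.comp (hF (n + 1))))

/-! ### the root contour -/

/-- root contour `bt (rr k z)` -/
theorem mf_bt (k : ℝ) : ∀ n, Measurable fun z : Tor => Acc.bt (Acc.rr k z) n :=
  fun n => (Meas.continuous_bt k n).measurable

/-- root contour in levels -/
theorem mf_bt_div (k : ℝ) : ∀ n, Measurable fun z : Tor => Acc.bt (Acc.rr k z) n / Real.log k :=
  fun n => (mf_bt k n).div_const _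

theorem measurable_low_bt {k κ : ℝ} (hκ : 0 < κ) (N : ℕ) (H : ℝ) :
    Measurable fun z : Tor => (low (Acc.bt (Acc.rr k z)) κ N H).ncard :=
  measurable_low (mf_bt k) hκ N H

/-- a bounded `ℕ`-valued measurable function is integrable on a finite measure space -/
theorem integrable_nat {μ : Measure α} [IsFiniteMeasure μ] {f : α → ℕ} (hf : Measurable f) {C : ℝ}
    (hC : ∀ z, (f z : ℝ) ≤ C) : Integrable (fun z => (f z : ℝ)) μ := by
  refine Integrable.of_bound (C := C) (measurable_from_top.comp hf).aestronglyMeasurable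
    (Eventually.of_forall fun z => ?_)
  rw [Real.norm_of_nonneg (Nat.cast_nonneg _)]
  exact hC z

theorem lintegral_nat {μ : Measure α} [IsFiniteMeasure μ] {f : α → ℕ} (hf : Measurable f) {C : ℝ}
    (hC : ∀ z, (f z : ℝ) ≤ C) : ∫⁻ z, (f z : ℝ≥0∞) ∂μ = ENNReal.ofReal (∫ z, (f z : ℝ) ∂μ) := by
  rw [ofReal_integral_eq_lintegral_ofReal (integrable_nat hf hC)
    (Eventually.of_forall fun z => Nat.cast_nonneg _)]
  refine lintegral_congr fun z => ?_
  rw [ENNReal.ofReal_natCast]

end Crest.Agent.R128.MeasC
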