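import Mathlib
import Crest.Agent.R128.Skel
import Crest.Agent.R128.Meas

/-!
Row 128, node VM (helper862): measurability of the sets of `Skel.lean`, and `∫ vs = ∑ volume`.
-/

set_option autoImplicit false
open MeasureTheory Filter Topology Finset
open scoped ENNReal NNReal
open Crest.Agent.R128 Crest.Agent.R128.Acc Crest.Agent.R128.AccRoot
open Crest.Agent.R128.Meas Crest.Agent.R128.Skel Crest.Agent.R128.Lam0
open Crest.Agent.R128.Close

namespace Crest.Agent.R128.MeasS

theorem measurable_nfld (k : ℝ) (m : ℕ) : Measurable fun z : Tor => ‖fld k z m‖ :=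
  (continuous_fld k m).norm.measurable

theorem ms_Val (k : ℝ) (P L0 n : ℕ) : MeasurableSet {z | Val k P L0 z n} := by
  have e : {z | Val k P L0 z n} =
      {z | (∀ m, m < L0 → m < n → k ^ ((2 : ℝ) / 3) ≤ |V k ((T k)^[m] z).2|) ∧
      (∀ i j, 1000 ≤ i → i ≤ j → j ≤ n → ‖fld k z i‖ ^ (P - 1) ≤ ‖fld k z j‖ ^ P) ∧
      (∀ j, 1000 ≤ j → j ≤ n → ∃ i, 1000 ≤ i ∧ i ≤ j ∧ (j : ℝ) ^ (4 * P) ≤ ‖fld k z i‖)} := by
    ext z
    exact ⟨fun h => ⟨h.cl, h.v2, h.v3⟩, fun h => ⟨h.1, h.2.1, h.2.2⟩⟩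
  rw [e]
  refine ms_and ?_ (ms_and ?_ ?_)
  · exact ms_forall fun m => ms_const_imp fun _ => ms_const_imp fun _ => ms_digit_ge k m _
  · exact ms_forall fun i => ms_forall fun j => ms_const_imp fun _ => ms_const_imp fun _ =>
      ms_const_imp fun _ => ms_le ((measurable_nfld k i).pow_const (P - 1))
        ((measurable_nfld k j).pow_const P)
  · exact ms_forall fun j => ms_const_imp fun _ => ms_const_imp fun _ => ms_exists fun i =>
      ms_const_and fun _ => ms_const_and fun _ => ms_le measurable_const (measurable_nfld k i)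

theorem measurableSet_C1 (k : ℝ) (L0 : ℕ) : MeasurableSet (C1 k L0) :=
  ms_exists fun m => ms_const_and fun _ => ms_digit_lt k m _

theorem ms_RV (k : ℝ) (L n : ℕ) : MeasurableSet {z | RV k L z n} := measurable_RV k L n

theorem measurableSet_LG (k : ℝ) (L0 : ℕ) : MeasurableSet (LG k L0) :=
  ms_and (measurableSet_C1 k L0).compl <| ms_exists fun m => ms_const_and fun _ =>
    ms_and (ms_RV k 1000 (m - 1)) <| ms_forall fun i => ms_const_imp fun _ =>
      ms_const_imp fun _ => ms_le (measurable_nfld k i) measurable_const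

theorem measurableSet_Rc (k : ℝ) (L0 M : ℕ) : MeasurableSet (Rc k L0 M) :=
  ms_and (measurableSet_C1 k L0).compl <| ms_and (measurableSet_LG k L0).compl
    (ms_not (ms_Val k 100 L0 M))

theorem ms_DDn (k : ℝ) (L N : ℕ) (X : ℝ) (n n' : ℕ) : MeasurableSet {z | DDn k L N X z n n'} := by
  have e : {z | DDn k L N X z n n'} = {z | L ≤ n ∧ n < n' ∧ n' ≤ N ∧
      (∀ j, j < n → ‖fld k z j‖ < ‖fld k z n‖) ∧ (∀ j, j ≤ n' → ‖fld k z j‖ ≤ ‖fld k z n‖) ∧
      ‖fld k z n'‖ ^ 102 ≤ ‖fld k z n‖ ^ 101 ∧ X ≤ ‖fld k z n‖ ∧ ‖fld k z n‖ ≤ k ^ 2 * X ∧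
      RV k L z n} := by
    ext z
    exact ⟨fun h => ⟨h.hLn, h.lt, h.le, h.first, h.max, h.drop, h.lo, h.hi, h.val⟩,
      fun h => ⟨h.1, h.2.1, h.2.2.1, h.2.2.2.1, h.2.2.2.2.1, h.2.2.2.2.2.1, h.2.2.2.2.2.2.1,
        h.2.2.2.2.2.2.2.1, h.2.2.2.2.2.2.2.2⟩⟩
  rw [e]
  have hf := measurable_nfld k
  exact ms_const_and fun _ => ms_const_and fun _ => ms_const_and fun _ => ms_and
    (ms_forall fun j => ms_const_imp fun _ => ms_lt (hf j) (hf n)) <| ms_and
    (ms_forall fun j => ms_const_imp fun _ => ms_le (hf j) (hf n)) <| ms_and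
    (ms_le ((hf n').pow_const 102) ((hf n).pow_const 101)) <| ms_and
    (ms_le measurable_const (hf n)) <| ms_and (ms_le (hf n) measurable_const) (ms_RV k L n)

theorem measurableSet_RD (k : ℝ) (D M : ℕ) : MeasurableSet (RD k D M) :=
  ms_exists fun n => ms_exists fun n' => ms_and (ms_DDn k 1000 M _ n n') (ms_RV k 1000 (n' - 1))

/-- **VM** -/
theorem vm : VM := fun k L0 M =>
  ⟨measurableSet_C1 k L0, measurableSet_LG k L0, measurableSet_Rc k L0 M, measurableSet_RD k L0 M⟩

/-! ### backward sets -/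

theorem measurableSet_bw {S : Set Tor} (hS : MeasurableSet S) : MeasurableSet (bw S) :=
  measurableSet_swap hS

theorem volume_bw {S : Set Tor} (hS : MeasurableSet S) : volume (bw S) = volume S :=
  volume_swap hS

theorem measurableSet_Ng (k : ℝ) (L0 : ℕ) : MeasurableSet (Ng k L0) :=
  ((measurableSet_C1 k L0).union (measurableSet_bw (measurableSet_C1 k L0))).union
    ((measurableSet_LG k L0).union (measurableSet_bw (measurableSet_LG k L0)))

theorem volume_Ng_le (k : ℝ) (L0 : ℕ) :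
    volume (Ng k L0) ≤ 2 * (volume (C1 k L0) + volume (LG k L0)) := by
  have h1 := measure_union_le (μ := (volume : Measure Tor)) (C1 k L0 ∪ bw (C1 k L0))
    (LG k L0 ∪ bw (LG k L0))
  have h2 := measure_union_le (μ := (volume : Measure Tor)) (C1 k L0) (bw (C1 k L0))
  have h3 := measure_union_le (μ := (volume : Measure Tor)) (LG k L0) (bw (LG k L0))
  rw [volume_bw (measurableSet_C1 k L0)] at h2
  rw [volume_bw (measurableSet_LG k L0)] at h3
  refine h1.trans ((add_le_add h2 h3).trans (le_of_eq ?_))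
  ring

/-! ### visits -/

theorem measurable_vs_nat (k : ℝ) (N : ℕ) {S : ℕ → Set Tor} (hS : ∀ v, MeasurableSet (S v)) :
    Measurable fun z => vs k N z S := by
  classical
  unfold vs
  exact measurable_card_filter (range (N + 1))
    (fun v _ => (hS v).preimage (continuous_T_iter k v).measurable)

theorem measurable_vs (k : ℝ) (N : ℕ) {S : ℕ → Set Tor} (hS : ∀ v, MeasurableSet (S v)) :
    Measurable fun z => (vs k N z S : ℝ≥0∞) :=
  measurable_from_top.comp (measurable_vs_nat k N hS)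

theorem measurable_vs_real (k : ℝ) (N : ℕ) {S : ℕ → Set Tor} (hS : ∀ v, MeasurableSet (S v)) :
    Measurable fun z => (vs k N z S : ℝ) :=
  measurable_from_top.comp (measurable_vs_nat k N hS)

theorem vs_eq_sum (k : ℝ) (N : ℕ) (S : ℕ → Set Tor) (z : Tor) : (vs k N z S : ℝ≥0∞) =
      ∑ v ∈ range (N + 1), Set.indicator ((T k)^[v] ⁻¹' S v) (fun _ => (1 : ℝ≥0∞)) z := by
  classical
  unfold vs
  rw [Finset.card_filter]
  push_cast
  apply Finset.sum_congr rfl
  intro v _
  by_cases h : (T k)^[v] z ∈ S v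
  · simp [h]
  · simp [h]

theorem lintegral_vs (k : ℝ) (N : ℕ) {S : ℕ → Set Tor} (hS : ∀ v, MeasurableSet (S v)) :
    ∫⁻ z, (vs k N z S : ℝ≥0∞) = ∑ v ∈ range (N + 1), volume (S v) := by
  simp_rw [vs_eq_sum]
  rw [lintegral_finsetSum _ fun v _ => measurable_const.indicator
    ((hS v).preimage (continuous_T_iter k v).measurable)]
  apply Finset.sum_congr rfl
  intro v _
  rw [lintegral_indicator ((hS v).preimage (continuous_T_iter k v).measurable), setLIntegral_const,
    one_mul]
  exact volume_T_iter k v (hS v)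

/-! ### objects of the root contour -/

theorem measurable_bz (k : ℝ) (n : ℕ) : Measurable fun z => bz k z n :=
  (Meas.continuous_bt k n).measurable

theorem ms_Fresh (k : ℝ) (L0 i j t : ℕ) : MeasurableSet {z | Fresh k L0 z i j t} := by
  unfold Fresh
  refine ms_and ((ms_Val k 1000 L0 (t - i)).preimage (continuous_T_iter k i).measurable) ?_
  exact (ms_Val k 1000 L0 (j - t)).preimage (measurable_swap.comp (continuous_T_iter k j).measurable)

end Crest.Agent.R128.MeasS
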