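import Mathlib

/-!
Row 128 (S0172), node MULT (helper74): Lemma M of helper174 (note 15264), "multiplicity one per
side".  Pure combinatorics on a linearly ordered set of times with a pseudo-distance `d` that
satisfies the four point inequality with constant `D0`; `f m = d b m` is the contour from a base
time `b`.
-/

set_option autoImplicit false

open Finset

namespace Crest.Agent.R128.Mult

variable {ι : Type*}

/-- pseudo-distance with the four point inequality, constant `D0` -/
structure Four (d : ι → ι → ℝ) (D0 : ℝ) : Prop where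
  symm : ∀ x y, d x y = d y x
  self : ∀ x, d x x = 0
  nonneg : ∀ x y, 0 ≤ d x y
  tri : ∀ x y z, d x z ≤ d x y + d y z
  four : ∀ x y z w, d x y + d z w ≤ max (d x z + d y w) (d x w + d y z) + D0
  D0_nonneg : 0 ≤ D0

variable {d : ι → ι → ℝ} {D0 : ℝ}

/-- the core of Lemma M, with no order: `T'` cannot be a record both of `T1` and of `T2`. -/
theorem core (hd : Four d D0) {b T1 T2 T' V : ι} {h2 : ℝ}
    (hr2 : d T1 T2 + 2 * D0 < d T1 T') (hrV : V = T1 ∨ d T1 V + 2 * D0 < d T1 T')
    (hV : d b V ≤ d b T2 - h2) (hh : d T2 T' ≤ h2) (hf : d b T' ≤ d b T2) : False := by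
  have hD := hd.D0_nonneg
  -- `d T2 V ≥ h2`
  have h1 : h2 ≤ d T2 V := by
    have := hd.tri b V T2
    rw [hd.symm V T2] at this
    linarith
  have n1 := hd.nonneg T2 V
  have n2 := hd.nonneg T1 T2
  have n3 := hd.nonneg T1 V
  have q := hd.four T1 T' T2 V
  rcases le_max_iff.1 (le_of_eq (rfl : max (d T1 T2 + d T' V) (d T1 V + d T' T2) = _)) with hc | hc
  · -- the maximum is attained by the first term
    have q' : d T1 T' + d T2 V ≤ d T1 T2 + d T' V + D0 := by linarith
    have r := hd.four T' V T2 b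
    rw [hd.symm T2 b, hd.symm V b, hd.symm T' b] at r
    rcases le_total (d T' T2 + d b V) (d b T' + d V T2) with h3 | h3
    · rw [max_eq_right h3, hd.symm V T2] at r
      linarith
    · rw [max_eq_left h3, hd.symm T' T2] at r
      linarith
  · have q' : d T1 T' + d T2 V ≤ d T1 V + d T' T2 + D0 := by linarith
    rw [hd.symm T' T2] at q'
    rcases hrV with rfl | hrV
    · rw [hd.self V] at q'
      linarith
    · linarith

variable [LinearOrder ι]

/-- `T` is the (first) maximum of the contour `f` on the window `(i, j)`, and `f` drops by at least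
`h` at both ends. -/
structure Bar (f : ι → ℝ) (T i j : ι) (h : ℝ) : Prop where
  left : i < T
  right : T < j
  max_left : ∀ m, i < m → m < T → f m < f T
  max_right : ∀ m, T < m → m < j → f m ≤ f T
  drop_left : f i ≤ f T - h
  drop_right : f j ≤ f T - h

/-- `T'` is charged by `T` on the right: `T'` is a distance record of `T` in the window, at distance
at most `h`. -/
structure ChR (d : ι → ι → ℝ) (D0 : ℝ) (T j : ι) (h : ℝ) (T' : ι) : Prop where
  lt : T < T'
  mem : T' < j
  rec' : ∀ m, T < m → m < T' → d T m + 2 * D0 < d T T'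
  dist : d T T' ≤ h

/-- `T'` is charged by `T` on the left. -/
structure ChL (d : ι → ι → ℝ) (D0 : ℝ) (T i : ι) (h : ℝ) (T' : ι) : Prop where
  lt : T' < T
  mem : i < T'
  rec' : ∀ m, T' < m → m < T → d T m + 2 * D0 < d T T'
  dist : d T T' ≤ h

/-- **Lemma M, right side.** -/
theorem right_aux (hd : Four d D0) {b T1 T2 T' i1 j1 i2 j2 : ι} {h1 h2 : ℝ} (hlt : T1 < T2)
    (B1 : Bar (d b) T1 i1 j1 h1) (B2 : Bar (d b) T2 i2 j2 h2)
    (c1 : ChR d D0 T1 j1 h1 T') (c2 : ChR d D0 T2 j2 h2 T') : False := by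
  have hT2 : d b T2 ≤ d b T1 := B1.max_right T2 hlt (c2.lt.trans c1.mem)
  have hV : T1 ≤ i2 := by
    by_contra hcon
    push Not at hcon
    exact absurd (B2.max_left T1 hcon hlt) (not_lt.2 hT2)
  refine core hd (V := i2) (c1.rec' T2 hlt c2.lt) ?_ B2.drop_left c2.dist
    (B2.max_right T' c2.lt c2.mem)
  rcases hV.eq_or_lt with h | h
  · exact Or.inl h.symm
  · exact Or.inr (c1.rec' i2 h (B2.left.trans c2.lt))

/-- **Lemma M, left side.** -/
theorem left_aux (hd : Four d D0) {b T1 T2 T' i1 j1 i2 j2 : ι} {h1 h2 : ℝ} (hlt : T2 < T1)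
    (B1 : Bar (d b) T1 i1 j1 h1) (B2 : Bar (d b) T2 i2 j2 h2)
    (c1 : ChL d D0 T1 i1 h1 T') (c2 : ChL d D0 T2 i2 h2 T') : False := by
  have hT2 : d b T2 < d b T1 := B1.max_left T2 (c1.mem.trans c2.lt) hlt
  have hV : j2 ≤ T1 := by
    by_contra hcon
    push Not at hcon
    exact absurd (B2.max_right T1 hlt hcon) (not_le.2 hT2)
  refine core hd (V := j2) (c1.rec' T2 c2.lt hlt) ?_ B2.drop_right c2.dist
    (B2.max_left T' c2.mem c2.lt).le
  rcases hV.eq_or_lt with h | h
  · exact Or.inl h
  · exact Or.inr (c1.rec' j2 (c2.lt.trans B2.right) h)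

/-- **Lemma M (multiplicity one per side)**: every `T'` is charged by at most one bar on its left. -/
theorem right_unique (hd : Four d D0) {b T1 T2 T' i1 j1 i2 j2 : ι} {h1 h2 : ℝ}
    (B1 : Bar (d b) T1 i1 j1 h1) (B2 : Bar (d b) T2 i2 j2 h2)
    (c1 : ChR d D0 T1 j1 h1 T') (c2 : ChR d D0 T2 j2 h2 T') : T1 = T2 := by
  rcases lt_trichotomy T1 T2 with h | h | h
  · exact (right_aux hd h B1 B2 c1 c2).elim
  · exact h
  · exact (right_aux hd h B2 B1 c2 c1).elim

/-- **Lemma M (multiplicity one per side)**: every `T'` is charged by at most one bar on its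
right. -/
theorem left_unique (hd : Four d D0) {b T1 T2 T' i1 j1 i2 j2 : ι} {h1 h2 : ℝ}
    (B1 : Bar (d b) T1 i1 j1 h1) (B2 : Bar (d b) T2 i2 j2 h2)
    (c1 : ChL d D0 T1 i1 h1 T') (c2 : ChL d D0 T2 i2 h2 T') : T1 = T2 := by
  rcases lt_trichotomy T1 T2 with h | h | h
  · exact (left_aux hd h B2 B1 c2 c1).elim
  · exact h
  · exact (left_aux hd h B1 B2 c1 c2).elim

/-! ### the summed form -/

section sum

/-- a relation with at most one source for every target: the charges sum to at most the total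
weight. -/
theorem sum_le_of_unique {α β M : Type*} [AddCommMonoid M] [PartialOrder M]
    [IsOrderedAddMonoid M] (R : α → β → Prop) [DecidableRel R] (hR : ∀ a a' c, R a c → R a' c → a = a')
    (S : Finset α) (S' : Finset β) (w : β → M) (hw : ∀ c ∈ S', 0 ≤ w c) :
    ∑ a ∈ S, ∑ c ∈ S' with R a c, w c ≤ ∑ c ∈ S', w c := by
  classical
  have h1 : ∑ a ∈ S, ∑ c ∈ S' with R a c, w c = ∑ c ∈ S', ∑ a ∈ S with R a c, w c := by
    simp only [Finset.sum_filter]
    exact Finset.sum_comm
  rw [h1]
  refine Finset.sum_le_sum fun c hc => ?_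
  rw [Finset.sum_const]
  have h2 : (S.filter fun a => R a c).card ≤ 1 := by
    refine Finset.card_le_one.2 ?_
    intro a ha a' ha'
    exact hR a a' c (Finset.mem_filter.1 ha).2 (Finset.mem_filter.1 ha').2
  interval_cases h : (S.filter fun a => R a c).card
  · rw [zero_smul]; exact hw c hc
  · rw [one_smul]

variable {M : Type*} [AddCommMonoid M] [PartialOrder M] [IsOrderedAddMonoid M]

open Classical in
/-- **the charges of all bars**: `S` a finite set of tips with windows `(i T, j T)` and heights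
`h T`, `w` a nonnegative weight of the charged tips. -/
theorem sum_charges (hd : Four d D0) {b : ι} {S : Finset ι} {i j : ι → ι} {h : ι → ℝ}
    (hB : ∀ T ∈ S, Bar (d b) T (i T) (j T) (h T)) (S' : Finset ι) (w : ι → M)
    (hw : ∀ c ∈ S', 0 ≤ w c) :
    ∑ T ∈ S, (∑ c ∈ S' with ChR d D0 T (j T) (h T) c, w c
        + ∑ c ∈ S' with ChL d D0 T (i T) (h T) c, w c)
      ≤ ∑ c ∈ S', w c + ∑ c ∈ S', w c := by
  rw [Finset.sum_add_distrib]
  refine add_le_add ?_ ?_
  · have := sum_le_of_unique (fun T c => T ∈ S ∧ ChR d D0 T (j T) (h T) c)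
      (fun a a' c h1 h2 => right_unique hd (hB a h1.1) (hB a' h2.1) h1.2 h2.2) S S' w hw
    refine le_trans (le_of_eq ?_) this
    refine Finset.sum_congr rfl fun T hT => ?_
    refine Finset.sum_congr ?_ fun _ _ => rfl
    ext c
    simp [hT]
  · have := sum_le_of_unique (fun T c => T ∈ S ∧ ChL d D0 T (i T) (h T) c)
      (fun a a' c h1 h2 => left_unique hd (hB a h1.1) (hB a' h2.1) h1.2 h2.2) S S' w hw
    refine le_trans (le_of_eq ?_) this
    refine Finset.sum_congr rfl fun T hT => ?_
    refine Finset.sum_congr ?_ fun _ _ => rfl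
    ext c
    simp [hT]

end sum

end Crest.Agent.R128.Mult
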