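import Mathlib
import Crest.Agent.R128.Mult
import Crest.Agent.R128.Hyp
import Crest.Agent.R128.Two

/-!
Row 128 (S0172), node MULT, part 2 (helper74): the four point structure of `Mult.lean` for
families of determinant one matrices (over any index set) and for the two-sided cocycle `Aij`.
-/

set_option autoImplicit false

open scoped Matrix.Norms.L2Operator
open Matrix

namespace Crest.Agent.R128.Mult

open Crest.Agent.R128 Crest.Agent.R128.Hyp

/-- the distance of two indices of a family of matrices -/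
noncomputable def dm {ι : Type*} (g : ι → M2) (i j : ι) : ℝ := Real.log ‖g j * (g i)⁻¹‖

/-- the four point structure, `D0 = log 2`. -/
theorem four_dm {ι : Type*} {g : ι → M2} (hg : ∀ i, (g i).det = 1) :
    Four (dm g) (Real.log 2) := by
  have hu : ∀ i, IsUnit (g i).det := fun i => by rw [hg i]; exact isUnit_one
  have hpos : ∀ i j, 0 < ‖g j * (g i)⁻¹‖ := fun i j =>
    lt_of_lt_of_le one_pos (one_le_norm (det_mul_inv (hg j) (hg i)))
  have hinv : ∀ i j, (g j * (g i)⁻¹)⁻¹ = g i * (g j)⁻¹ := by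
    intro i j
    rw [Matrix.mul_inv_rev, Matrix.nonsing_inv_nonsing_inv _ (hu i)]
  have hmul : ∀ i j l, (g l * (g j)⁻¹) * (g j * (g i)⁻¹) = g l * (g i)⁻¹ := by
    intro i j l
    rw [Matrix.mul_assoc, ← Matrix.mul_assoc (g j)⁻¹, Matrix.nonsing_inv_mul _ (hu j),
      Matrix.one_mul]
  have hsymm : ∀ i j, dm g i j = dm g j i := by
    intro i j
    unfold dm
    rw [← hinv i j, ninv (det_mul_inv (hg j) (hg i))]
  have hself : ∀ i, dm g i i = 0 := by
    intro i
    unfold dm
    rw [Matrix.mul_nonsing_inv _ (hu i)]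
    have : ‖(1 : M2)‖ = 1 := le_antisymm norm_one_le (one_le_norm Matrix.det_one)
    rw [this, Real.log_one]
  refine ⟨hsymm, hself, ?_, ?_, ?_, Real.log_nonneg (by norm_num)⟩
  · intro i j
    exact Real.log_nonneg (one_le_norm (det_mul_inv (hg j) (hg i)))
  · intro i j l
    unfold dm
    rw [← Real.log_mul (hpos i j).ne' (hpos j l).ne']
    apply Real.log_le_log (hpos i l)
    rw [← hmul i j l, mul_comm]
    exact Matrix.l2_opNorm_mul _ _
  · intro x y z w
    have hp := ptolemy (x := g x * (g w)⁻¹) (y := g z * (g w)⁻¹) (z := g y * (g w)⁻¹)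
      (det_mul_inv (hg x) (hg w)) (det_mul_inv (hg z) (hg w))
    rw [hinv w x, hinv w z, hmul x w y, hmul z w y, hmul z w x] at hp
    rw [hsymm z w, hsymm x z, hsymm y w, hsymm x w, hsymm y z]
    unfold dm
    rw [← Real.log_mul (hpos x y).ne' (hpos w z).ne', ← Real.log_mul (hpos z x).ne' (hpos w y).ne',
      ← Real.log_mul (hpos w x).ne' (hpos z y).ne']
    rcases le_total (‖g y * (g z)⁻¹‖ * ‖g x * (g w)⁻¹‖) (‖g y * (g w)⁻¹‖ * ‖g x * (g z)⁻¹‖) with
      h | h
    · have h2 : ‖g y * (g x)⁻¹‖ * ‖g z * (g w)⁻¹‖ ≤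
          (‖g x * (g z)⁻¹‖ * ‖g y * (g w)⁻¹‖) * 2 := by
        rw [mul_comm (‖g x * (g z)⁻¹‖)]; linarith
      have h3 := Real.log_le_log (mul_pos (hpos x y) (hpos w z)) h2
      rw [Real.log_mul (mul_pos (hpos z x) (hpos w y)).ne' two_ne_zero] at h3
      refine h3.trans ?_
      gcongr
      exact le_max_left _ _
    · have h2 : ‖g y * (g x)⁻¹‖ * ‖g z * (g w)⁻¹‖ ≤
          (‖g x * (g w)⁻¹‖ * ‖g y * (g z)⁻¹‖) * 2 := by
        rw [mul_comm (‖g x * (g w)⁻¹‖)]; linarith
      have h3 := Real.log_le_log (mul_pos (hpos x y) (hpos w z)) h2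
      rw [Real.log_mul (mul_pos (hpos w x) (hpos z y)).ne' two_ne_zero] at h3
      refine h3.trans ?_
      gcongr
      exact le_max_right _ _

/-- the two-sided cocycle: `d i j = log ‖A_{i → j}‖` (operator norm), `D0 = log 2`. -/
theorem four_Aij (k : ℝ) (z : Tor) :
    Four (fun i j : ℤ => Real.log ‖Two.Aij k i j z‖) (Real.log 2) := by
  have h := four_dm (g := fun i : ℤ => Two.Az k i z) (fun i => Two.det_Az k i z)
  have e : dm (fun i : ℤ => Two.Az k i z) = fun i j : ℤ => Real.log ‖Two.Aij k i j z‖ := by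
    funext i j
    unfold dm
    rw [Two.Aij_eq]
  rwa [e] at h

end Crest.Agent.R128.Mult
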