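import Mathlib
import Crest.Agent.R128.Hyp

/-!
# Numeric part of [NF] (row 128, node P7-NF; helper425)

* `numeric`: for a sequence `b` with `b 0 = 0 ≤ b i`: if no legit tip `(i1, m, i2, h)` reaches the
  level `l` and the times are few (`∑ exp(-λ e0 (l - b j)) ≤ Z`), then
  `∑_{j<i≤n} exp(λ(3 b_j - 2 b_i)) ≤ exp(λ(l - C)) Z²`.
* `chain`: Ptolemy telescoping: `‖g_n g_m⁻¹‖ ≤ ‖g_m‖ ‖g_n‖ (L² ∑_{m≤i≤n} 1/‖g_i‖²)`.
-/

set_option autoImplicit false

open scoped Matrix.Norms.L2Operator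
open Matrix

namespace Crest.Agent.R128.NF

/-- A legit tip `(i1, m, i2)` of depth `h` before time `n`: `m` is a maximum of `b` on `[i1, i2]`
and both ends are lower by at least `h`. -/
def Legit (b : ℕ → ℝ) (n i1 m i2 : ℕ) (h : ℝ) : Prop :=
  i1 < m ∧ m < i2 ∧ i2 ≤ n ∧ (∀ r, i1 ≤ r → r ≤ i2 → b r ≤ b m) ∧ 0 ≤ h ∧
    b i1 ≤ b m - h ∧ b i2 ≤ b m - h

/-- existence of the excursion above level `b i` containing `j` -/
theorem exists_legit {b : ℕ → ℝ} {n j i : ℕ} (hb0 : b 0 ≤ b i) (hji : j < i) (hi : i ≤ n)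
    (hlt : b i < b j) : ∃ i1 m i2, Legit b n i1 m i2 (b m - b i) ∧ b j ≤ b m := by
  classical
  -- last time `≤ j` with `b ≤ b i`
  have hex1 : ∃ r, r ≤ j ∧ b r ≤ b i := ⟨0, Nat.zero_le _, hb0⟩
  set i1 := Nat.findGreatest (fun r => b r ≤ b i) j with hi1
  have h1 : b i1 ≤ b i := Nat.findGreatest_spec (P := fun r => b r ≤ b i) (Nat.zero_le j) hb0
  have h1j : i1 ≤ j := Nat.findGreatest_le j
  have h1lt : i1 < j := by
    rcases lt_or_eq_of_le h1j with h | h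
    · exact h
    · rw [h] at h1; linarith
  -- the maximum on `[i1, i]`
  obtain ⟨m0, hm0, hmax0⟩ := Finset.exists_max_image (Finset.Icc i1 i) b
    ⟨i1, Finset.mem_Icc.2 ⟨le_rfl, by omega⟩⟩
  rw [Finset.mem_Icc] at hm0
  have hj : b j ≤ b m0 := hmax0 j (Finset.mem_Icc.2 ⟨h1j, hji.le⟩)
  refine ⟨i1, m0, i, ⟨?_, ?_, hi, ?_, ?_, ?_, ?_⟩, hj⟩
  · rcases lt_or_eq_of_le hm0.1 with h | h
    · exact h
    · rw [← h] at hj; linarith
  · rcases lt_or_eq_of_le hm0.2 with h | h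
    · exact h
    · rw [h] at hj; linarith
  · intro r hr1 hr2
    exact hmax0 r (Finset.mem_Icc.2 ⟨hr1, hr2⟩)
  · linarith
  · linarith
  · linarith

/-- termwise bound -/
theorem termwise {b : ℕ → ℝ} {n : ℕ} {l C e0 e1 : ℝ} (hb : ∀ i, b 0 ≤ b i)
    (hC : 0 ≤ C) (he0 : 0 ≤ e0) (he01 : 5 / 2 * e0 ≤ e1) (he1 : e1 ≤ 1) (he04 : e0 ≤ 1 / 4)
    (hn : b n ≤ l - 3 * C)
    (H1 : ∀ i1 m i2 h, Legit b n i1 m i2 h → b m + 2 * h + e1 * (l - b m) < l - C)
    {j i : ℕ} (hji : j < i) (hi : i ≤ n) :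
    3 * b j - 2 * b i ≤ l - C - e0 * (l - b j) - e0 * (l - b i) := by
  -- every time is below `l - 2C`
  have hlow : ∀ j, j ≤ n → b j ≤ l - 2 * C := by
    intro j hj
    by_contra hcon
    push Not at hcon
    have hjn : j < n := by
      rcases lt_or_eq_of_le hj with h | h
      · exact h
      · rw [h] at hcon; linarith
    obtain ⟨i1, m, i2, hL, hjm⟩ := exists_legit (hb n) hjn le_rfl (by linarith)
    have h1 := H1 _ _ _ _ hL
    rcases le_total (b m) l with h2 | h2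
    · nlinarith [mul_nonneg (le_trans (by linarith : 0 ≤ 5 / 2 * e0) he01) (sub_nonneg.2 h2)]
    · nlinarith [mul_nonneg (sub_nonneg.2 he1) (sub_nonneg.2 h2)]
  have hj := hlow j (by omega)
  have hii := hlow i hi
  have he1' : 0 ≤ e1 := le_trans (by linarith) he01
  rcases lt_or_ge (b i) (b j) with hlt | hge
  · obtain ⟨i1, m, i2, hL, hjm⟩ := exists_legit (hb i) hji hi hlt
    have h1 := H1 _ _ _ _ hL
    -- `3 b j - 2 b i ≤ l - C - e1 (l - b j)`
    have h2 : 3 * b j - 2 * b i ≤ l - C - e1 * (l - b j) := by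
      nlinarith [mul_nonneg he1' (sub_nonneg.2 hjm), mul_nonneg (sub_nonneg.2 he1) (sub_nonneg.2 hjm)]
    have h3 : l - b i ≤ 3 / 2 * (l - b j) := by
      nlinarith [mul_nonneg he1' (by linarith : 0 ≤ l - b j)]
    have h4 : e0 * (l - b i) ≤ e0 * (3 / 2 * (l - b j)) := mul_le_mul_of_nonneg_left h3 he0
    have h5 : 5 / 2 * e0 * (l - b j) ≤ e1 * (l - b j) :=
      mul_le_mul_of_nonneg_right he01 (by linarith)
    linarith
  · have h4 : e0 * (l - b i) ≤ e0 * (l - b j) := mul_le_mul_of_nonneg_left (by linarith) he0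
    have h5 : e0 * (l - b j) ≤ 1 / 4 * (l - b j) := mul_le_mul_of_nonneg_right he04 (by linarith)
    linarith

/-- **NUMERIC LEMMA.** -/
theorem numeric {b : ℕ → ℝ} {n : ℕ} {l C e0 e1 lam Z : ℝ} (hlam : 0 ≤ lam) (hb : ∀ i, b 0 ≤ b i)
    (hC : 0 ≤ C) (he0 : 0 ≤ e0) (he01 : 5 / 2 * e0 ≤ e1) (he1 : e1 ≤ 1) (he04 : e0 ≤ 1 / 4)
    (hn : b n ≤ l - 3 * C)
    (H1 : ∀ i1 m i2 h, Legit b n i1 m i2 h → b m + 2 * h + e1 * (l - b m) < l - C)
    (H2 : ∑ j ∈ Finset.range (n + 1), Real.exp (-(lam * (e0 * (l - b j)))) ≤ Z) :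
    ∑ i ∈ Finset.range (n + 1), ∑ j ∈ Finset.range i, Real.exp (lam * (3 * b j - 2 * b i)) ≤
      Real.exp (lam * (l - C)) * Z ^ 2 := by
  have hterm : ∀ i ∈ Finset.range (n + 1), ∀ j ∈ Finset.range i,
      Real.exp (lam * (3 * b j - 2 * b i)) ≤ Real.exp (lam * (l - C)) *
        (Real.exp (-(lam * (e0 * (l - b i)))) * Real.exp (-(lam * (e0 * (l - b j))))) := by
    intro i hi j hj
    rw [Finset.mem_range] at hi hj
    have h := termwise hb hC he0 he01 he1 he04 hn H1 hj (Nat.lt_succ_iff.1 hi)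
    rw [← Real.exp_add, ← Real.exp_add, Real.exp_le_exp]
    nlinarith [mul_le_mul_of_nonneg_left h hlam]
  have hZ : 0 ≤ ∑ j ∈ Finset.range (n + 1), Real.exp (-(lam * (e0 * (l - b j)))) :=
    Finset.sum_nonneg fun _ _ => (Real.exp_pos _).le
  calc _ ≤ ∑ i ∈ Finset.range (n + 1), ∑ j ∈ Finset.range i, Real.exp (lam * (l - C)) *
        (Real.exp (-(lam * (e0 * (l - b i)))) * Real.exp (-(lam * (e0 * (l - b j))))) :=
      Finset.sum_le_sum fun i hi => Finset.sum_le_sum fun j hj => hterm i hi j hj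
    _ ≤ ∑ i ∈ Finset.range (n + 1), ∑ j ∈ Finset.range (n + 1), Real.exp (lam * (l - C)) *
        (Real.exp (-(lam * (e0 * (l - b i)))) * Real.exp (-(lam * (e0 * (l - b j))))) := by
      refine Finset.sum_le_sum fun i hi => ?_
      refine Finset.sum_le_sum_of_subset_of_nonneg ?_ fun _ _ _ => by positivity
      intro j hj
      rw [Finset.mem_range] at hi hj ⊢
      omega
    _ = Real.exp (lam * (l - C)) *
        (∑ j ∈ Finset.range (n + 1), Real.exp (-(lam * (e0 * (l - b j))))) ^ 2 := by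
      rw [sq, Finset.sum_mul_sum, Finset.mul_sum]
      refine Finset.sum_congr rfl fun i _ => ?_
      rw [Finset.mul_sum]
    _ ≤ _ := by
      gcongr

/-! ### Ptolemy telescoping -/

open Hyp

/-- Ptolemy telescoping. -/
theorem chain {g : ℕ → M2} (hg : ∀ i, (g i).det = 1) {L : ℝ}
    (hL : ∀ i, ‖g (i + 1) * (g i)⁻¹‖ ≤ L) (m n : ℕ) (hmn : m ≤ n) :
    ‖g n * (g m)⁻¹‖ ≤ ‖g m‖ * ‖g n‖ *
      (1 / ‖g n‖ ^ 2 + ∑ i ∈ Finset.Ico m n, L / (‖g i‖ * ‖g (i + 1)‖)) := by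
  have hu : ∀ i, IsUnit (g i).det := fun i => by rw [hg i]; exact isUnit_one
  have hpos : ∀ i, 0 < ‖g i‖ := fun i => lt_of_lt_of_le one_pos (one_le_norm (hg i))
  obtain ⟨d, rfl⟩ := Nat.exists_eq_add_of_le hmn
  clear hmn
  induction d generalizing m with
  | zero =>
    rw [add_zero, Matrix.mul_nonsing_inv _ (hu m)]
    refine norm_one_le.trans (le_of_eq ?_)
    have := hpos m
    simp only [Finset.Ico_self, Finset.sum_empty, add_zero]
    field_simp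
  | succ d ih =>
    have ih' := ih (m + 1)
    rw [show m + 1 + d = m + (d + 1) by ring] at ih'
    have hp := ptolemy (z := g (m + (d + 1))) (hg m) (hg (m + 1))
    have h1 : ‖g m * (g (m + 1))⁻¹‖ ≤ L := by
      have h2 : (g (m + 1) * (g m)⁻¹)⁻¹ = g m * (g (m + 1))⁻¹ := by
        rw [Matrix.mul_inv_rev, Matrix.nonsing_inv_nonsing_inv _ (hu m)]
      rw [← h2, ninv (det_mul_inv (hg (m + 1)) (hg m))]
      exact hL m
    have h3 := hpos m
    have h4 := hpos (m + 1)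
    have h5 := hpos (m + (d + 1))
    rw [Finset.sum_eq_sum_Ico_succ_bot (by omega : m < m + (d + 1))]
    set S := ∑ i ∈ Finset.Ico (m + 1) (m + (d + 1)), L / (‖g i‖ * ‖g (i + 1)‖) with hS
    set A := ‖g m‖ with hA
    set B := ‖g (m + 1)‖ with hB
    set N := ‖g (m + (d + 1))‖ with hN
    have h6 : ‖g (m + (d + 1)) * (g m)⁻¹‖ * B ≤
        (B * N * (1 / N ^ 2 + S)) * A + N * L := by
      refine hp.trans (add_le_add ?_ ?_)
      · exact mul_le_mul_of_nonneg_right ih' h3.le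
      · exact mul_le_mul_of_nonneg_left h1 h5.le
    have h7 : (B * N * (1 / N ^ 2 + S)) * A + N * L =
        (A * N * (1 / N ^ 2 + (L / (A * B) + S))) * B := by
      field_simp
      ring
    rw [h7] at h6
    exact le_of_mul_le_mul_right h6 h4

/-- consequence: everything in terms of `1/‖g i‖²` -/
theorem chain' {g : ℕ → M2} (hg : ∀ i, (g i).det = 1) {L : ℝ} (hL1 : 1 ≤ L)
    (hL : ∀ i, ‖g (i + 1) * (g i)⁻¹‖ ≤ L) (m n : ℕ) (hmn : m ≤ n) :
    ‖g n * (g m)⁻¹‖ ≤ ‖g m‖ * ‖g n‖ * (L ^ 2 * ∑ i ∈ Finset.Icc m n, 1 / ‖g i‖ ^ 2) := by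
  have hu : ∀ i, IsUnit (g i).det := fun i => by rw [hg i]; exact isUnit_one
  have hpos : ∀ i, 0 < ‖g i‖ := fun i => lt_of_lt_of_le one_pos (one_le_norm (hg i))
  refine (chain hg hL m n hmn).trans ?_
  have hm := hpos m
  have hn := hpos n
  refine mul_le_mul_of_nonneg_left ?_ (by positivity)
  have hL2 : (1 : ℝ) ≤ L ^ 2 := one_le_pow₀ hL1
  have hstep : ∀ i, ‖g i‖ ≤ L * ‖g (i + 1)‖ := by
    intro i
    have h1 : g i = (g i * (g (i + 1))⁻¹) * g (i + 1) := by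
      rw [Matrix.mul_assoc, Matrix.nonsing_inv_mul _ (hu (i + 1)), Matrix.mul_one]
    have h2 : ‖g i * (g (i + 1))⁻¹‖ ≤ L := by
      have h2 : (g (i + 1) * (g i)⁻¹)⁻¹ = g i * (g (i + 1))⁻¹ := by
        rw [Matrix.mul_inv_rev, Matrix.nonsing_inv_nonsing_inv _ (hu i)]
      rw [← h2, ninv (det_mul_inv (hg (i + 1)) (hg i))]
      exact hL i
    calc ‖g i‖ = ‖(g i * (g (i + 1))⁻¹) * g (i + 1)‖ := by rw [← h1]
      _ ≤ ‖g i * (g (i + 1))⁻¹‖ * ‖g (i + 1)‖ := Matrix.l2_opNorm_mul _ _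
      _ ≤ L * ‖g (i + 1)‖ := mul_le_mul_of_nonneg_right h2 (norm_nonneg _)
  have h1 : ∑ i ∈ Finset.Ico m n, L / (‖g i‖ * ‖g (i + 1)‖) ≤
      ∑ i ∈ Finset.Ico m n, L ^ 2 * (1 / ‖g i‖ ^ 2) := by
    refine Finset.sum_le_sum fun i _ => ?_
    have h2 := hpos i
    have h3 := hpos (i + 1)
    rw [div_le_iff₀ (by positivity)]
    have h4 := hstep i
    have e : L ^ 2 * (1 / ‖g i‖ ^ 2) * (‖g i‖ * ‖g (i + 1)‖) = L * (L * ‖g (i + 1)‖) / ‖g i‖ := by
      field_simp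
    rw [e, le_div_iff₀ h2]
    exact mul_le_mul_of_nonneg_left h4 (by linarith)
  have h2 : Finset.Icc m n = insert n (Finset.Ico m n) := by
    ext x
    simp only [Finset.mem_Icc, Finset.mem_insert, Finset.mem_Ico]
    omega
  rw [h2, Finset.sum_insert (by simp), mul_add, Finset.mul_sum]
  have h3 : 1 / ‖g n‖ ^ 2 ≤ L ^ 2 * (1 / ‖g n‖ ^ 2) := by
    have : 0 < 1 / ‖g n‖ ^ 2 := by positivity
    nlinarith
  linarith

end Crest.Agent.R128.NF
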