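import Crest.Agent.R128.LocDef
import Crest.Agent.R128.Nice
import Crest.Agent.R128.NiceUD

/-!
# Row 128, V5-LOC, piece (P): choice of the pair of exits (helper859)

From un-stretched discs with nice digits on both sides at a real point `m`, a pair of exit digits
whose slopes differ by a factor in `[1, C sqrt k]`, with the fields `slow, slow0, fast, fast0` of
`Loc.Cell3`.
-/

set_option autoImplicit false

open Metric
open Crest.Agent.R128 Crest.Agent.R128.Cell Crest.Agent.R128.CellB Crest.Agent.R128.CellDy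
open Crest.Agent.R128.Loc

namespace Crest.Agent.R128.NiceP

open Crest.Agent.R128.NicePts (UD UD.step UD.slopes UD.mono UD.pos)

/-- real selection lemma -/
theorem select {g G q : ℝ} {s r : ℕ → ℝ} (hq : 1 ≤ q) (hg : 0 < g) (hG : 0 < G)
    (hs : ∀ i, i ≤ 3 → 0 < s i) (hr : ∀ i, i ≤ 3 → 0 < r i)
    (hs1 : ∀ i, i < 3 → g * q ^ 2 * s i ≤ s (i + 1)) (hs2 : ∀ i, i < 3 → s (i + 1) ≤ G * q ^ 2 * s i)
    (hr1 : ∀ i, i < 3 → g * q ^ 2 * r i ≤ r (i + 1)) (hr2 : ∀ i, i < 3 → r (i + 1) ≤ G * q ^ 2 * r i)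
    (h1 : s 0 ≤ q ^ 4 * r 0) (h2 : r 0 ≤ q ^ 4 * s 0) (hbig : G ≤ g ^ 3 * q) (hG1 : 1 ≤ G) :
    ∃ i j, 1 ≤ i ∧ i ≤ 3 ∧ 1 ≤ j ∧ j ≤ 3 ∧
      ((r j ≤ s i ∧ s i ≤ G * q * r j) ∨ (s i ≤ r j ∧ r j ≤ G * q * s i)) := by
  -- one sided version
  have key : ∀ s r : ℕ → ℝ, (∀ i, i ≤ 3 → 0 < s i) → (∀ i, i ≤ 3 → 0 < r i) →
      (∀ i, i < 3 → s (i + 1) ≤ G * q ^ 2 * s i) →
      (∀ i, i < 3 → g * q ^ 2 * r i ≤ r (i + 1)) → (∀ i, i < 3 → r (i + 1) ≤ G * q ^ 2 * r i) →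
      s 0 ≤ q ^ 4 * r 0 → r 1 ≤ s 1 →
      ∃ j, 1 ≤ j ∧ j ≤ 3 ∧ ((r j ≤ s 1 ∧ s 1 ≤ G * q * r j) ∨ (s 1 ≤ r j ∧ r j ≤ G * q * s 1)) := by
    intro s r hs hr hs2 hr1 hr2 h1 h
    have q0 : 0 < q := by linarith
    by_cases a1 : s 1 ≤ q * r 1
    · refine ⟨1, le_rfl, by norm_num, Or.inl ⟨h, a1.trans ?_⟩⟩
      have := hr 1 (by norm_num)
      nlinarith [mul_pos q0 this]
    push Not at a1
    -- `r 2 < G q s 1`
    have b2 : r 2 ≤ G * q * s 1 := by
      have h3 := hr2 1 (by norm_num)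
      have h4 : G * q ^ 2 * r 1 = G * q * (q * r 1) := by ring
      have h5 : G * q * (q * r 1) ≤ G * q * s 1 :=
        mul_le_mul_of_nonneg_left a1.le (by positivity)
      linarith
    by_cases a2 : s 1 ≤ q * r 2
    · by_cases c2 : r 2 ≤ s 1
      · refine ⟨2, by norm_num, by norm_num, Or.inl ⟨c2, a2.trans ?_⟩⟩
        have := hr 2 (by norm_num)
        nlinarith [mul_pos q0 this]
      · exact ⟨2, by norm_num, by norm_num, Or.inr ⟨le_of_not_ge c2, b2⟩⟩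
    push Not at a2
    have b3 : r 3 ≤ G * q * s 1 := by
      have h3 := hr2 2 (by norm_num)
      have h4 : G * q ^ 2 * r 2 = G * q * (q * r 2) := by ring
      have h5 : G * q * (q * r 2) ≤ G * q * s 1 :=
        mul_le_mul_of_nonneg_left a2.le (by positivity)
      linarith
    have a3 : s 1 ≤ q * r 3 := by
      have e1 := hs2 0 (by norm_num)
      have e2 := hr1 0 (by norm_num)
      have e3 := hr1 1 (by norm_num)
      have e4 := hr1 2 (by norm_num)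
      have hr0 := hr 0 (by norm_num)
      have gq : 0 < g * q ^ 2 := by positivity
      have f1 : (g * q ^ 2) * (g * q ^ 2 * r 0) ≤ r 2 :=
        (mul_le_mul_of_nonneg_left e2 gq.le).trans e3
      have f2 : (g * q ^ 2) * ((g * q ^ 2) * (g * q ^ 2 * r 0)) ≤ r 3 :=
        (mul_le_mul_of_nonneg_left f1 gq.le).trans e4
      have f3 : s 1 ≤ G * q ^ 2 * (q ^ 4 * r 0) :=
        e1.trans (mul_le_mul_of_nonneg_left h1 (by positivity))
      have f4 : G * q ^ 2 * (q ^ 4 * r 0) ≤ g ^ 3 * q * q ^ 2 * (q ^ 4 * r 0) := by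
        have : 0 ≤ q ^ 2 * (q ^ 4 * r 0) := by positivity
        nlinarith [mul_le_mul_of_nonneg_right hbig this]
      have f5 : g ^ 3 * q * q ^ 2 * (q ^ 4 * r 0) =
          q * ((g * q ^ 2) * ((g * q ^ 2) * (g * q ^ 2 * r 0))) := by ring
      rw [f5] at f4
      exact f3.trans (f4.trans (mul_le_mul_of_nonneg_left f2 q0.le))
    by_cases c3 : r 3 ≤ s 1
    · refine ⟨3, by norm_num, le_rfl, Or.inl ⟨c3, a3.trans ?_⟩⟩
      have := hr 3 (by norm_num)
      nlinarith [mul_pos q0 this]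
    · exact ⟨3, by norm_num, le_rfl, Or.inr ⟨le_of_not_ge c3, b3⟩⟩
  rcases le_total (r 1) (s 1) with h | h
  · obtain ⟨j, j1, j3, hj⟩ := key s r hs hr hs2 hr1 hr2 h1 h
    exact ⟨1, j, le_rfl, by norm_num, j1, j3, hj⟩
  · obtain ⟨i, i1, i3, hi⟩ := key r s hr hs hr2 hs1 hs2 h2 h
    exact ⟨i, 1, i1, i3, le_rfl, by norm_num, hi.symm⟩

/-- the derivative is real at real points -/
theorem D_real (k c : ℝ) (s : Bool) (n : ℕ) (t : ℝ) : ∃ x : ℝ, D k c s n (t : ℂ) = (x : ℂ) := by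
  unfold D sdC
  cases s with
  | true => exact ⟨_, yd_ofReal k c n t⟩
  | false =>
    have e : ((kap k c : ℝ) : ℂ) - (t : ℂ) = ((kap k c - t : ℝ) : ℂ) := by push_cast; rfl
    simp only [Bool.false_eq_true, if_false]
    rw [e]
    exact ⟨_, yd_ofReal k c n _⟩

theorem Y_real (k c : ℝ) (s : Bool) (n : ℕ) (t : ℝ) : (Y k c s n (t : ℂ)).im = 0 := by
  unfold Y sdC
  cases s with
  | true => simpa using im_y_ofReal k c n t
  | false =>
    have e : ((kap k c : ℝ) : ℂ) - (t : ℂ) = ((kap k c - t : ℝ) : ℂ) := by push_cast; rfl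
    simp only [Bool.false_eq_true, if_false]
    rw [e]
    exact im_y_ofReal k c n _

theorem norm_dg_le {k : ℝ} (hk : 1 ≤ k) (c : ℝ) (s : Bool) (n : ℕ) (t : ℝ) :
    ‖dg k c s (t : ℂ) n‖ ≤ 62500 * k := by
  have h1 : ‖dg k c s (t : ℂ) n‖ ≤ CV k := by
    unfold dg
    apply norm_cV_le
    rw [Y_real]
    simp
  have h2 := Nice.CK_le hk
  unfold Nice.CK at h2
  have h3 := CL_nonneg k
  linarith

theorem weaken {k c : ℝ} {s : Bool} {n : ℕ} {t R a η η' : ℝ} (h : UD k c s n t R a η)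
    (hη : η ≤ η') : UD k c s n t R a η' := h.mono h.hR le_rfl h.ha h.big hη

/-- one step through a nice digit, numerical form -/
theorem nice_step {k c : ℝ} (hk : 10 ^ 40 ≤ k) {s : Bool} {n : ℕ} {m ρ : ℝ}
    (h : UD k c s n m ρ 1 (1 / 80)) (hd : k / 1000 ≤ ‖dg k c s m (n + 1)‖) :
    (∀ M, 0 < M → 2 * M ≤ k / 1000 → 5 * M ≤ 2 * (k / 1000) →
      UD k c s (n + 1) m (M / ‖D k c s (n + 2) m‖) M ((2 * 10 ^ 11 * M + 3000) / k)) ∧
    k / 2000 * ‖D k c s (n + 1) m‖ ≤ ‖D k c s (n + 2) m‖ ∧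
    ‖D k c s (n + 2) m‖ ≤ 125000 * k * ‖D k c s (n + 1) m‖ := by
  have hk0 : 0 < k := by linarith [show (0:ℝ) < 10 ^ 40 by norm_num]
  have hk1 : 1 ≤ k := by linarith [show (1:ℝ) ≤ 10 ^ 40 by norm_num]
  have hk2 : (8000:ℝ) ≤ k := by linarith [show (8000:ℝ) ≤ 10 ^ 40 by norm_num]
  have hD := h.pos
  set V := ‖dg k c s m (n + 1)‖ with hV
  have hV8 : 8 ≤ V := by linarith
  have hV0 : 0 < V := by linarith
  have hVle : V ≤ 62500 * k := norm_dg_le hk1 c s (n + 1) m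
  refine ⟨fun M hM h2 h5 => ?_, ?_⟩
  · have := h.step hk1 (by norm_num) hV hV8 hM (by linarith) (by linarith)
    refine weaken this ?_
    have e1 : 140000 * k * M / V ^ 2 ≤ 14 * 10 ^ 10 * M / k := by
      rw [div_le_div_iff₀ (by positivity) hk0]
      have : k ^ 2 ≤ 10 ^ 6 * V ^ 2 := by
        have := pow_le_pow_left₀ (by positivity) hd 2
        rw [div_pow] at this
        rw [div_le_iff₀ (by norm_num)] at this
        linarith
      nlinarith [mul_pos hM hk0, mul_pos hM hV0]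
    have e2 : 10 * (1 / 80) * M / (V * 1) ≤ 125 * M / k := by
      rw [div_le_div_iff₀ (by positivity) hk0]
      nlinarith [mul_pos hM hk0, mul_pos hM hV0]
    have e3 : 3 / V ≤ 3000 / k := by
      rw [div_le_div_iff₀ (by positivity) hk0]
      nlinarith
    have e4 : (2 * 10 ^ 11 * M + 3000) / k = 2 * 10 ^ 11 * M / k + 3000 / k := by ring
    have e5 : 14 * 10 ^ 10 * M / k + 125 * M / k ≤ 2 * 10 ^ 11 * M / k := by
      rw [← add_div]
      exact div_le_div_of_nonneg_right (by nlinarith) hk0.le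
    rw [e4]
    linarith
  · have := h.slopes (by norm_num) hV hV8
    refine ⟨?_, ?_⟩
    · refine le_trans ?_ this.1
      exact mul_le_mul_of_nonneg_right (by linarith) hD.le
    · refine this.2.1.trans ?_
      exact mul_le_mul_of_nonneg_right (by linarith) hD.le

/-- the discs along nice digits -/
theorem chain {k c : ℝ} (hk : 10 ^ 40 ≤ k) {s : Bool} {N : ℕ} {m ρ : ℝ}
    (h : UD k c s N m ρ 1 (1 / 80)) (hd : ∀ i < 3, k / 1000 ≤ ‖dg k c s m (N + 1 + i)‖) :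
    ∀ i, i ≤ 3 → ∃ ρ', UD k c s (N + i) m ρ' 1 (1 / 80) := by
  have hk0 : 0 < k := by linarith [show (0:ℝ) < 10 ^ 40 by norm_num]
  intro i
  induction i with
  | zero => exact fun _ => ⟨ρ, h⟩
  | succ i ih =>
    intro hi
    obtain ⟨ρ', h'⟩ := ih (by omega)
    have hdi := hd i (by omega)
    rw [show N + 1 + i = N + i + 1 by ring] at hdi
    have h2 := (nice_step hk h' hdi).1 1 one_pos
      (by linarith [show (10:ℝ) ^ 4 ≤ 10 ^ 40 by norm_num])
      (by linarith [show (10:ℝ) ^ 4 ≤ 10 ^ 40 by norm_num])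
    refine ⟨_, weaken h2 ?_⟩
    rw [div_le_div_iff₀ hk0 (by norm_num)]
    linarith [show (2 * 10 ^ 11 * 1 + 3000) * 80 ≤ (1:ℝ) * 10 ^ 40 by norm_num]

/-- **(P)**: the pair of exits -/
theorem pair {k c m : ℝ} (hk : 10 ^ 40 ≤ k) (N : Bool → ℕ) (ρ : Bool → ℝ)
    (hU : ∀ b, UD k c b (N b) m (ρ b) 1 (1 / 80))
    (hd : ∀ b, ∀ i < 3, k / 1000 ≤ ‖dg k c b m (N b + 1 + i)‖)
    (hr : ∀ b, ‖D k c b (N b + 1) m‖ ≤ k ^ 2 * ‖D k c (!b) (N (!b) + 1) m‖) :
    ∃ (s : Bool) (i j : ℕ) (R lam : ℝ), 1 ≤ i ∧ i ≤ 3 ∧ 1 ≤ j ∧ j ≤ 3 ∧ 0 < R ∧ 1 ≤ |lam| ∧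
      |lam| ≤ 10 ^ 12 * Real.sqrt k ∧
      R = ‖D k c s (N s + i + 1) m‖ ∧ |lam| * R = ‖D k c (!s) (N (!s) + j + 1) m‖ ∧
      (∃ σ : ℝ, (σ = 1 ∨ σ = -1) ∧ ∀ z ∈ ball (m : ℂ) (4 / R),
        ‖D k c s (N s + i + 1) z - (σ * R : ℝ)‖ ≤ 10 ^ 12 * R / k) ∧
      (∀ z ∈ ball (m : ℂ) (4 / R), ‖D k c s (N s + i) z‖ ≤ 10 ^ 12 * R / k) ∧
      (∀ z ∈ ball (m : ℂ) (4 / R),
        ‖D k c (!s) (N (!s) + j + 1) z - (lam * R : ℝ)‖ ≤ 10 ^ 12 * |lam| ^ 2 * R / k) ∧
      (∀ z ∈ ball (m : ℂ) (4 / R), ‖D k c (!s) (N (!s) + j) z‖ ≤ 10 ^ 12 * |lam| * R / k) := by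
  have hk0 : 0 < k := by linarith [show (0:ℝ) < 10 ^ 40 by norm_num]
  have hk1 : 1 ≤ k := by linarith [show (1:ℝ) ≤ 10 ^ 40 by norm_num]
  set q := Real.sqrt k with hq
  have hqq : q ^ 2 = k := Real.sq_sqrt hk0.le
  have hq20 : (10:ℝ) ^ 20 ≤ q := by
    rw [hq]
    apply Real.le_sqrt_of_sq_le
    norm_num at hk ⊢
    linarith
  have hq1 : 1 ≤ q := by linarith [show (1:ℝ) ≤ 10 ^ 20 by norm_num]
  have hq4 : q ^ 4 = k ^ 2 := by rw [← hqq]; ring
  have hch : ∀ b i, i ≤ 3 → ∃ ρ', UD k c b (N b + i) m ρ' 1 (1 / 80) := fun b i hi =>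
    chain hk (hU b) (hd b) i hi
  have hpos : ∀ b i, i ≤ 3 → 0 < ‖D k c b (N b + i + 1) m‖ := fun b i hi => by
    obtain ⟨ρ', h'⟩ := hch b i hi
    exact h'.pos
  have hns : ∀ b i, i < 3 → ∃ ρ', UD k c b (N b + i) m ρ' 1 (1 / 80) ∧
      (∀ M, 0 < M → 2 * M ≤ k / 1000 → 5 * M ≤ 2 * (k / 1000) →
      UD k c b (N b + i + 1) m (M / ‖D k c b (N b + i + 2) m‖) M ((2 * 10 ^ 11 * M + 3000) / k)) ∧
      k / 2000 * ‖D k c b (N b + i + 1) m‖ ≤ ‖D k c b (N b + i + 2) m‖ ∧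
      ‖D k c b (N b + i + 2) m‖ ≤ 125000 * k * ‖D k c b (N b + i + 1) m‖ := fun b i hi => by
    obtain ⟨ρ', h'⟩ := hch b i hi.le
    have hdi := hd b i hi
    rw [show N b + 1 + i = N b + i + 1 by ring] at hdi
    exact ⟨ρ', h', nice_step hk h' hdi⟩
  -- common final part
  have fin : ∀ (s : Bool) (i j : ℕ), 1 ≤ i → i ≤ 3 → 1 ≤ j → j ≤ 3 →
      ‖D k c s (N s + i + 1) m‖ ≤ ‖D k c (!s) (N (!s) + j + 1) m‖ →
      ‖D k c (!s) (N (!s) + j + 1) m‖ ≤ 125000 * q * ‖D k c s (N s + i + 1) m‖ →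
      ∃ (R lam : ℝ), 0 < R ∧ 1 ≤ |lam| ∧
      |lam| ≤ 10 ^ 12 * q ∧
      R = ‖D k c s (N s + i + 1) m‖ ∧ |lam| * R = ‖D k c (!s) (N (!s) + j + 1) m‖ ∧
      (∃ σ : ℝ, (σ = 1 ∨ σ = -1) ∧ ∀ z ∈ ball (m : ℂ) (4 / R),
        ‖D k c s (N s + i + 1) z - (σ * R : ℝ)‖ ≤ 10 ^ 12 * R / k) ∧
      (∀ z ∈ ball (m : ℂ) (4 / R), ‖D k c s (N s + i) z‖ ≤ 10 ^ 12 * R / k) ∧
      (∀ z ∈ ball (m : ℂ) (4 / R),
        ‖D k c (!s) (N (!s) + j + 1) z - (lam * R : ℝ)‖ ≤ 10 ^ 12 * |lam| ^ 2 * R / k) ∧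
      (∀ z ∈ ball (m : ℂ) (4 / R), ‖D k c (!s) (N (!s) + j) z‖ ≤ 10 ^ 12 * |lam| * R / k) := by
    intro s i j hi1 hi3 hj1 hj3 hle hge
    obtain ⟨i, rfl⟩ : ∃ i', i = i' + 1 := ⟨i - 1, by omega⟩
    obtain ⟨j, rfl⟩ : ∃ j', j = j' + 1 := ⟨j - 1, by omega⟩
    set R := ‖D k c s (N s + (i + 1) + 1) m‖ with hR
    set R' := ‖D k c (!s) (N (!s) + (j + 1) + 1) m‖ with hR'
    have hR0 : 0 < R := hpos s (i + 1) hi3
    have hR'0 : 0 < R' := hpos (!s) (j + 1) hj3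
    obtain ⟨x, hx⟩ := D_real k c s (N s + (i + 1) + 1) m
    obtain ⟨x', hx'⟩ := D_real k c (!s) (N (!s) + (j + 1) + 1) m
    have hRx : R = |x| := by rw [hR, hx, Complex.norm_real, Real.norm_eq_abs]
    have hRx' : R' = |x'| := by rw [hR', hx', Complex.norm_real, Real.norm_eq_abs]
    have hlam : |x' / R| = R' / R := by rw [abs_div, ← hRx', abs_of_pos hR0]
    have hlam1 : 1 ≤ |x' / R| := by rw [hlam, le_div_iff₀ hR0]; linarith
    have hlam2 : |x' / R| ≤ 125000 * q := by rw [hlam, div_le_iff₀ hR0]; exact hge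
    obtain ⟨ρ1, -, hs2, -⟩ := hns s i (by omega)
    obtain ⟨ρ2, hf1, hf2, hf3, -⟩ := hns (!s) j (by omega)
    have hkk : (8 * 10 ^ 10 : ℝ) ≤ k := by
      linarith [show (8 * 10 ^ 10 : ℝ) ≤ 10 ^ 40 by norm_num]
    have hU4 := hs2 4 (by norm_num) (by linarith) (by linarith)
    have hqk : 10 ^ 20 * q ≤ k := by
      rw [← hqq]; nlinarith
    have hUf := hf2 (4 * |x' / R|) (by linarith) (by linarith) (by linarith)
    refine ⟨R, x' / R, hR0, hlam1, ?_, rfl, ?_, ?_, ?_, ?_, ?_⟩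
    · exact hlam2.trans (by nlinarith)
    · rw [hlam]; field_simp
    · refine ⟨if 0 ≤ x then 1 else -1, ?_, fun z hz => ?_⟩
      · split_ifs
        · exact Or.inl rfl
        · exact Or.inr rfl
      · have e : ((if 0 ≤ x then (1:ℝ) else -1) * R : ℝ) = x := by
          rw [hRx]
          split_ifs with h
          · rw [abs_of_nonneg h]; ring
          · rw [abs_of_neg (not_le.1 h)]; ring
        rw [e, ← hx]
        refine (hU4.near z hz).trans ?_
        rw [div_mul_eq_mul_div]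
        apply div_le_div_of_nonneg_right _ hk0.le
        have : ‖D k c s (N s + i + 1 + 1) m‖ = R := rfl
        rw [this]
        exact mul_le_mul_of_nonneg_right (by norm_num) hR0.le
    · intro z hz
      refine (hU4.prev z hz).trans ?_
      rw [div_mul_eq_mul_div]
      apply div_le_div_of_nonneg_right _ hk0.le
      have : ‖D k c s (N s + i + 1 + 1) m‖ = R := rfl
      rw [this]
      exact mul_le_mul_of_nonneg_right (by norm_num) hR0.le
    · intro z hz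
      have e : (x' / R * R : ℝ) = x' := by field_simp
      rw [e, ← hx']
      have hz' : z ∈ ball (m : ℂ) (4 * |x' / R| / ‖D k c (!s) (N (!s) + j + 2) m‖) := by
        have e2 : 4 * |x' / R| / ‖D k c (!s) (N (!s) + j + 2) m‖ = 4 / R := by
          have : ‖D k c (!s) (N (!s) + j + 2) m‖ = R' := rfl
          rw [this, hlam]
          field_simp
        rw [e2]; exact hz
      refine (hUf.near z hz').trans ?_
      have e3 : ‖D k c (!s) (N (!s) + j + 1 + 1) m‖ = |x' / R| * R := by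
        have : ‖D k c (!s) (N (!s) + j + 1 + 1) m‖ = R' := rfl
        rw [this, hlam]; field_simp
      rw [e3, div_mul_eq_mul_div]
      apply div_le_div_of_nonneg_right _ hk0.le
      have h5 : 2 * 10 ^ 11 * (4 * |x' / R|) + 3000 ≤ 10 ^ 12 * |x' / R| := by nlinarith
      have h6 : 0 ≤ |x' / R| * R := by positivity
      calc (2 * 10 ^ 11 * (4 * |x' / R|) + 3000) * (|x' / R| * R)
          ≤ 10 ^ 12 * |x' / R| * (|x' / R| * R) := mul_le_mul_of_nonneg_right h5 h6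
        _ = 10 ^ 12 * |x' / R| ^ 2 * R := by ring
    · intro z hz
      have hD1 := hf1.pos
      have hρ : 1 / ‖D k c (!s) (N (!s) + j + 1) m‖ ≤ ρ2 := by
        rw [div_le_iff₀ hD1]
        linarith [hf1.big]
      have hR'lam : R' = |x' / R| * R := by rw [hlam]; field_simp
      have hf3' : k / 2000 * ‖D k c (!s) (N (!s) + j + 1) m‖ ≤ R' := hf3
      have hz2 : z ∈ ball (m : ℂ) ρ2 := by
        refine ball_subset_ball ?_ hz
        refine le_trans ?_ hρ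
        rw [div_le_div_iff₀ hR0 hD1]
        -- `4 D ≤ R`
        have h7 : 8000 * |x' / R| ≤ k := by
          nlinarith
        have h8 : k / 2000 * ‖D k c (!s) (N (!s) + j + 1) m‖ ≤ |x' / R| * R := hR'lam ▸ hf3'
        have h9 : 8000 * |x' / R| * ‖D k c (!s) (N (!s) + j + 1) m‖ ≤
            k * ‖D k c (!s) (N (!s) + j + 1) m‖ := mul_le_mul_of_nonneg_right h7 hD1.le
        have h10 : 4 * (|x' / R| * ‖D k c (!s) (N (!s) + j + 1) m‖) ≤ |x' / R| * R := by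
          linarith
        have h11 : |x' / R| * (4 * ‖D k c (!s) (N (!s) + j + 1) m‖) ≤ |x' / R| * R := by
          linarith
        have h12 := le_of_mul_le_mul_left h11 (by linarith)
        linarith
      have h13 := hf1.near z hz2
      have h14 : ‖D k c (!s) (N (!s) + (j + 1)) z‖ ≤
          (1 + 1 / 80) * ‖D k c (!s) (N (!s) + j + 1) m‖ := by
        have h15 := norm_sub_norm_le (D k c (!s) (N (!s) + j + 1) z) (D k c (!s) (N (!s) + j + 1) m)
        have h16 : ‖D k c (!s) (N (!s) + (j + 1)) z‖ = ‖D k c (!s) (N (!s) + j + 1) z‖ := rfl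
        rw [h16]
        linarith
      refine h14.trans ?_
      rw [le_div_iff₀ hk0]
      have h17 : k * ‖D k c (!s) (N (!s) + j + 1) m‖ ≤ 2000 * (|x' / R| * R) := by
        rw [← hR'lam]; linarith
      have h18 : 0 ≤ |x' / R| * R := by positivity
      nlinarith
  -- selection
  obtain ⟨i, j, hi1, hi3, hj1, hj3, hij⟩ := select (g := 1 / 2000) (G := 125000) (q := q)
    (s := fun i => ‖D k c true (N true + i + 1) m‖) (r := fun i => ‖D k c false (N false + i + 1) m‖)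
    hq1 (by norm_num) (by norm_num) (fun i hi => hpos true i hi) (fun i hi => hpos false i hi)
    (fun i hi => by
      have := (hns true i hi).choose_spec.2.2.1
      rw [hqq]
      have e : (N true + (i + 1) + 1) = N true + i + 2 := by ring
      simp only [e]
      linarith)
    (fun i hi => by
      have := (hns true i hi).choose_spec.2.2.2
      rw [hqq]
      have e : (N true + (i + 1) + 1) = N true + i + 2 := by ring
      simp only [e]
      linarith)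
    (fun i hi => by
      have := (hns false i hi).choose_spec.2.2.1
      rw [hqq]
      have e : (N false + (i + 1) + 1) = N false + i + 2 := by ring
      simp only [e]
      linarith)
    (fun i hi => by
      have := (hns false i hi).choose_spec.2.2.2
      rw [hqq]
      have e : (N false + (i + 1) + 1) = N false + i + 2 := by ring
      simp only [e]
      linarith)
    (by rw [hq4]; exact hr true) (by rw [hq4]; exact hr false)
    (by linarith [show (125000:ℝ) ≤ (1 / 2000) ^ 3 * 10 ^ 20 by norm_num,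
          mul_le_mul_of_nonneg_left hq20 (show (0:ℝ) ≤ (1 / 2000) ^ 3 by norm_num)])
    (by norm_num)
  rcases hij with ⟨h1, h2⟩ | ⟨h1, h2⟩
  · obtain ⟨R, lam, h⟩ := fin false j i hj1 hj3 hi1 hi3 h1 h2
    exact ⟨false, j, i, R, lam, hj1, hj3, hi1, hi3, h⟩
  · obtain ⟨R, lam, h⟩ := fin true i j hi1 hi3 hj1 hj3 h1 h2
    exact ⟨true, i, j, R, lam, hi1, hi3, hj1, hj3, h⟩

end Crest.Agent.R128.NiceP
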