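import Mathlib
import Crest.Agent.R128.Iter
import Crest.Agent.R128.CellA2
import Crest.Agent.R128.FreshStep

set_option autoImplicit false

open MeasureTheory Set
open scoped ENNReal

/-!
Row 128 (helper223): one-dimensional coverings of multiplicity two, and the proportion of the cells
which meet the set of points with a digit that is not nice (`|V| ≤ r`).
-/

namespace Crest.Agent.R128.NiceCount

open Crest.Agent.R128.Iter Crest.Agent.R128.CellA Crest.Agent.R128.Fresh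

variable {ι : Type*}

/-- a finite family of intervals has a subfamily with the same union and multiplicity at most `2` -/
theorem exists_mult_two (S : Finset ι) (a b : ι → ℝ) :
    ∃ S' ⊆ S, (⋃ i ∈ S', Icc (a i) (b i)) = ⋃ i ∈ S, Icc (a i) (b i) ∧
      ∀ x : ℝ, (S'.filter fun i => x ∈ Icc (a i) (b i)).card ≤ 2 := by
  classical
  have hne : (S.powerset.filter fun T => (⋃ i ∈ T, Icc (a i) (b i)) =
      ⋃ i ∈ S, Icc (a i) (b i)).Nonempty := ⟨S, by simp⟩
  obtain ⟨S', hS', hmin⟩ := Finset.exists_min_image _ Finset.card hne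
  rw [Finset.mem_filter, Finset.mem_powerset] at hS'
  refine ⟨S', hS'.1, hS'.2, fun x => ?_⟩
  by_contra hcon
  push Not at hcon
  set F := S'.filter fun i => x ∈ Icc (a i) (b i) with hF
  have hFne : F.Nonempty := Finset.card_pos.1 (by omega)
  obtain ⟨i, hiF, hi⟩ := Finset.exists_min_image F a hFne
  obtain ⟨j, hjF, hj⟩ := Finset.exists_max_image F b hFne
  have : ∃ l ∈ F, l ≠ i ∧ l ≠ j := by
    have h1 : (F \ {i, j}).Nonempty := by
      rw [← Finset.card_pos]
      have h2 := Finset.le_card_sdiff {i, j} F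
      have h3 : ({i, j} : Finset ι).card ≤ 2 := Finset.card_le_two
      omega
    obtain ⟨l, hl⟩ := h1
    rw [Finset.mem_sdiff, Finset.mem_insert, Finset.mem_singleton, not_or] at hl
    exact ⟨l, hl.1, hl.2.1, hl.2.2⟩
  obtain ⟨l, hlF, hli, hlj⟩ := this
  have hcov : (⋃ i ∈ S'.erase l, Icc (a i) (b i)) = ⋃ i ∈ S, Icc (a i) (b i) := by
    rw [← hS'.2]
    apply Subset.antisymm
    · intro u hu
      obtain ⟨t, ht, hut⟩ := mem_iUnion₂.1 hu
      exact mem_iUnion₂.2 ⟨t, Finset.mem_of_mem_erase ht, hut⟩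
    · intro u hu
      obtain ⟨t, ht, hut⟩ := mem_iUnion₂.1 hu
      rw [mem_iUnion₂]
      by_cases htl : t = l
      · subst htl
        rcases le_total u x with hux | hux
        · exact ⟨i, Finset.mem_erase.2 ⟨hli.symm, (Finset.mem_filter.1 hiF).1⟩,
            (hi _ hlF).trans hut.1, hux.trans (Finset.mem_filter.1 hiF).2.2⟩
        · exact ⟨j, Finset.mem_erase.2 ⟨hlj.symm, (Finset.mem_filter.1 hjF).1⟩,
            (Finset.mem_filter.1 hjF).2.1.trans hux, hut.2.trans (hj _ hlF)⟩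
      · exact ⟨t, Finset.mem_erase.2 ⟨htl, ht⟩, hut⟩
  have h4 := hmin (S'.erase l) (by
    rw [Finset.mem_filter, Finset.mem_powerset]
    exact ⟨(Finset.erase_subset _ _).trans hS'.1, hcov⟩)
  have h5 := Finset.card_erase_lt_of_mem (Finset.mem_filter.1 hlF).1
  omega

/-- local proportions `≤ p` on a finite family of intervals give the proportion `2 p` on the union -/
theorem volume_le_of_local (S : Finset ι) (a b : ι → ℝ) {H : Set ℝ} {p : ℝ≥0∞}
    (hloc : ∀ i ∈ S, volume (H ∩ Icc (a i) (b i)) ≤ p * volume (Icc (a i) (b i))) :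
    volume (H ∩ ⋃ i ∈ S, Icc (a i) (b i)) ≤ p * (2 * volume (⋃ i ∈ S, Icc (a i) (b i))) := by
  classical
  obtain ⟨S', hS', hU, hm⟩ := exists_mult_two S a b
  rw [← hU]
  have h1 : volume (H ∩ ⋃ i ∈ S', Icc (a i) (b i)) ≤
      ∑ i ∈ S', volume (H ∩ Icc (a i) (b i)) := by
    rw [inter_iUnion₂]
    exact measure_biUnion_finset_le _ _
  have h2 : ∑ i ∈ S', volume (H ∩ Icc (a i) (b i)) ≤ p * ∑ i ∈ S', volume (Icc (a i) (b i)) := by
    rw [Finset.mul_sum]
    exact Finset.sum_le_sum fun i hi => hloc i (hS' hi)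
  have h3 : ∑ i ∈ S', volume (Icc (a i) (b i)) ≤ 2 * volume (⋃ i ∈ S', Icc (a i) (b i)) := by
    have e1 : ∑ i ∈ S', volume (Icc (a i) (b i)) =
        ∫⁻ x, ∑ i ∈ S', (Icc (a i) (b i)).indicator (fun _ => (1 : ℝ≥0∞)) x := by
      rw [lintegral_finsetSum _ fun i _ => measurable_const.indicator measurableSet_Icc]
      refine Finset.sum_congr rfl fun i _ => ?_
      rw [lintegral_indicator_const measurableSet_Icc, one_mul]
    have hmU : MeasurableSet (⋃ i ∈ S', Icc (a i) (b i)) :=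
      S'.measurableSet_biUnion fun i _ => measurableSet_Icc
    have e2 : 2 * volume (⋃ i ∈ S', Icc (a i) (b i)) =
        ∫⁻ x, (⋃ i ∈ S', Icc (a i) (b i)).indicator (fun _ => (2 : ℝ≥0∞)) x := by
      rw [lintegral_indicator_const hmU]
    rw [e1, e2]
    refine lintegral_mono fun x => ?_
    by_cases hx : x ∈ ⋃ i ∈ S', Icc (a i) (b i)
    · rw [indicator_of_mem hx]
      have e3 : ∑ i ∈ S', (Icc (a i) (b i)).indicator (fun _ => (1 : ℝ≥0∞)) x =
          ((S'.filter fun i => x ∈ Icc (a i) (b i)).card : ℝ≥0∞) := by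
        rw [Finset.card_filter]
        push_cast
        refine Finset.sum_congr rfl fun i _ => ?_
        by_cases h : x ∈ Icc (a i) (b i)
        · rw [indicator_of_mem h, if_pos h]
        · rw [indicator_of_notMem h, if_neg h]
      rw [e3]
      calc ((S'.filter fun i => x ∈ Icc (a i) (b i)).card : ℝ≥0∞) ≤ ((2 : ℕ) : ℝ≥0∞) := by
            refine Nat.cast_le.2 ?_
            convert hm x
        _ = 2 := by norm_num
    · rw [indicator_of_notMem hx]
      have : ∑ i ∈ S', (Icc (a i) (b i)).indicator (fun _ => (1 : ℝ≥0∞)) x = 0 := by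
        refine Finset.sum_eq_zero fun i hi => ?_
        rw [indicator_of_notMem]
        intro h
        exact hx (mem_iUnion₂.2 ⟨i, hi, h⟩)
      simp only
      rw [this]
  calc _ ≤ _ := h1
    _ ≤ _ := h2
    _ ≤ _ := by gcongr

/-- **(N1)** every point `t` of `F` in the cell has an interval around it on which `H ⊇ hull F` has
proportion at most `p`: then the hull has proportion at most `2 p (1 + 2 ε)` in the cell. -/
theorem hull_le {F H : Set ℝ} {n g : ℕ} {m : ℤ} {p : ℝ≥0∞} {ε : ℝ} (hε : 0 ≤ ε)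
    (hH : hull (n + g) F ∩ cell n m ⊆ H)
    (hJ : ∀ t ∈ F, t ∈ cell n m → ∃ a b : ℝ, a ≤ t - 1 / 2 ^ (n + g) ∧ t + 1 / 2 ^ (n + g) ≤ b ∧
      ((m : ℝ) - ε) / 2 ^ n ≤ a ∧ b ≤ ((m : ℝ) + 1 + ε) / 2 ^ n ∧
      volume (H ∩ Icc a b) ≤ p * volume (Icc a b)) :
    volume (hull (n + g) F ∩ cell n m) ≤
      p * (2 * (ENNReal.ofReal (1 + 2 * ε) * volume (cell n m))) := by
  classical
  have hn : (0:ℝ) < 2 ^ n := by positivity
  have hng : (0:ℝ) < 2 ^ (n + g) := by positivity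
  -- choose for each kid a point and its interval
  have hch : ∀ m' : ℤ, ∃ a b : ℝ, m' ∈ kids F n g m → (cell (n + g) m' ⊆ Icc a b ∧
      ((m : ℝ) - ε) / 2 ^ n ≤ a ∧ b ≤ ((m : ℝ) + 1 + ε) / 2 ^ n ∧
      volume (H ∩ Icc a b) ≤ p * volume (Icc a b)) := by
    intro m'
    by_cases hm' : m' ∈ kids F n g m
    · obtain ⟨⟨h1, h2⟩, t, ht1, ht2⟩ := mem_kids.1 hm'
      obtain ⟨a, b, ha, hb, ha2, hb2, hv⟩ := hJ t ht2 (cell_subset h1 h2 ht1)
      refine ⟨a, b, fun _ => ⟨?_, ha2, hb2, hv⟩⟩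
      intro u hu
      unfold cell at ht1 hu
      have e : ((m' : ℝ) + 1) / 2 ^ (n + g) = (m' : ℝ) / 2 ^ (n + g) + 1 / 2 ^ (n + g) := by ring
      rw [mem_Ico, e] at ht1 hu
      exact ⟨by linarith [hu.1, ht1.2], by linarith [hu.2, ht1.1]⟩
    · exact ⟨0, 0, fun h => absurd h hm'⟩
  choose a b hab using hch
  have hcov : hull (n + g) F ∩ cell n m ⊆ H ∩ ⋃ m' ∈ kids F n g m, Icc (a m') (b m') := by
    intro u hu
    refine ⟨hH hu, ?_⟩
    have h1 := hu
    rw [hull_inter_cell] at h1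
    obtain ⟨m', hm', hum⟩ := mem_iUnion₂.1 h1
    exact mem_iUnion₂.2 ⟨m', hm', (hab m' hm').1 hum⟩
  have h2 := volume_le_of_local (kids F n g m) a b (H := H) (p := p) fun i hi => (hab i hi).2.2.2
  have h3 : (⋃ m' ∈ kids F n g m, Icc (a m') (b m')) ⊆
      Icc (((m : ℝ) - ε) / 2 ^ n) (((m : ℝ) + 1 + ε) / 2 ^ n) := by
    intro u hu
    obtain ⟨m', hm', hum⟩ := mem_iUnion₂.1 hu
    exact ⟨(hab m' hm').2.1.trans hum.1, hum.2.trans (hab m' hm').2.2.1⟩
  have h4 : volume (Icc (((m : ℝ) - ε) / 2 ^ n) (((m : ℝ) + 1 + ε) / 2 ^ n)) =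
      ENNReal.ofReal (1 + 2 * ε) * volume (cell n m) := by
    rw [volume_cell, Real.volume_Icc, ← ENNReal.ofReal_mul (by linarith)]
    congr 1
    field_simp
    ring
  calc _ ≤ _ := measure_mono hcov
    _ ≤ _ := h2
    _ ≤ p * (2 * volume (Icc (((m : ℝ) - ε) / 2 ^ n) (((m : ℝ) + 1 + ε) / 2 ^ n))) := by
        gcongr
    _ = _ := by rw [h4]

/-- **(N2)** a nearly affine digit with at least one lap: the proportion of `|V| ≤ r`. -/
theorem volume_digit_le {k r a b lam η : ℝ} {Y D : ℝ → ℝ} (hk : 1 ≤ k) (hr : 0 ≤ r) (hab : a < b)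
    (h : NearAff Y D (Icc a b) lam η) (hη : η ≤ 1 / 10) (hlap : 1 ≤ |lam| * (b - a)) :
    volume (Icc a b ∩ {t | |Vr k (Y t)| ≤ r}) ≤ ENNReal.ofReal (3 * r / k) * volume (Icc a b) := by
  have hl : lam ≠ 0 := by
    rintro rfl
    rw [abs_zero, zero_mul] at hlap
    linarith
  have hms : MeasurableSet {x : ℝ | |Vr k x| ≤ r} := by
    refine measurableSet_le ?_ measurable_const
    unfold Vr
    fun_prop
  have h1 := h.equidistribution hab hl (by linarith) hms (fun x => by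
    rw [mem_ofPred_eq, mem_ofPred_eq, Vr_add_one])
  have h2 := volume_Vr_small hk hr
  have e : Icc a b ∩ Y ⁻¹' {x : ℝ | |Vr k x| ≤ r} = Icc a b ∩ {t | |Vr k (Y t)| ≤ r} := rfl
  rw [← e]
  refine h1.trans ((mul_le_mul_right h2 _).trans ?_)
  have hlp : 0 < |lam| := abs_pos.2 hl
  have hη0 : 0 ≤ η := by
    have := h.close a (left_mem_Icc.2 hab.le)
    by_contra hc
    push Not at hc
    have h5 := abs_nonneg (D a - lam)
    nlinarith
  have hq : ((1 + η) * |lam| * (b - a) + 1) / ((1 - η) * |lam|) ≤ 3 * (b - a) := by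
    rw [div_le_iff₀ (by nlinarith)]
    have hba : 0 < b - a := sub_pos.2 hab
    nlinarith [mul_pos hlp hba]
  rw [Real.volume_Icc, ← ENNReal.ofReal_mul (by
      have hba : 0 < b - a := sub_pos.2 hab
      have : 0 < (1 - η) * |lam| := by nlinarith
      positivity), ← ENNReal.ofReal_mul (by positivity)]
  apply ENNReal.ofReal_le_ofReal
  have hrk : 0 ≤ r / k := by positivity
  calc _ ≤ 3 * (b - a) * (r / k) := mul_le_mul_of_nonneg_right hq hrk
    _ = 3 * r / k * (b - a) := by ring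

/-- hull form of (N2) -/
theorem volume_hull_digit_le {k r a b lam η : ℝ} {Y D : ℝ → ℝ} {N : ℕ} {F : Set ℝ}
    (hk : 1 ≤ k) (hr : 0 ≤ r) (hab : a < b)
    (h : NearAff Y D (Icc (a - 1 / 2 ^ N) (b + 1 / 2 ^ N)) lam η) (hη : η ≤ 1 / 10)
    (hlap : 1 ≤ |lam| * (b - a)) (hN : 44 * k * |lam| / 2 ^ N ≤ r)
    (hF : ∀ t ∈ F, t ∈ Icc (a - 1 / 2 ^ N) (b + 1 / 2 ^ N) → |Vr k (Y t)| ≤ r) :
    volume (hull N F ∩ Icc a b) ≤ ENNReal.ofReal (6 * r / k) * volume (Icc a b) := by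
  have h2N : (0:ℝ) < 1 / 2 ^ N := by positivity
  have hsub : Icc a b ⊆ Icc (a - 1 / 2 ^ N) (b + 1 / 2 ^ N) := Icc_subset_Icc (by linarith) (by linarith)
  have h' : NearAff Y D (Icc a b) lam η :=
    ⟨fun x hx => (h.deriv x (hsub hx)).mono hsub, fun x hx => h.close x (hsub hx)⟩
  have h1 := volume_digit_le hk (r := 2 * r) (by linarith) hab h' hη hlap
  have e : 3 * (2 * r) / k = 6 * r / k := by ring
  rw [e] at h1
  refine (measure_mono ?_).trans h1
  rintro t ⟨⟨u, hu1, hu2⟩, ht⟩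
  refine ⟨ht, ?_⟩
  -- `u` is in the same cell as `t`
  have ht' := mem_cell_idx N t
  unfold cell at hu1 ht'
  have e2 : ((idx N t : ℝ) + 1) / 2 ^ N = (idx N t : ℝ) / 2 ^ N + 1 / 2 ^ N := by ring
  rw [mem_Ico, e2] at hu1 ht'
  have hd : |t - u| ≤ 1 / 2 ^ N := by
    rw [abs_le]
    constructor <;> linarith [hu1.1, hu1.2, ht'.1, ht'.2]
  have hd' := abs_le.1 hd
  have huI : u ∈ Icc (a - 1 / 2 ^ N) (b + 1 / 2 ^ N) := ⟨by linarith [ht.1], by linarith [ht.2]⟩
  have h3 := hF u hu2 huI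
  have h4 := h.dist_le (convex_Icc _ _) huI (hsub ht)
  have h5 := abs_Vr_sub_le (by linarith : (0:ℝ) ≤ k) (Y t) (Y u)
  have h6 : |Vr k (Y t)| ≤ |Vr k (Y u)| + |Vr k (Y t) - Vr k (Y u)| := by
    have := abs_sub_abs_le_abs_sub (Vr k (Y t)) (Vr k (Y u))
    linarith
  have h7 : |Y t - Y u| ≤ 11 / 10 * |lam| * (1 / 2 ^ N) := by
    refine h4.trans ?_
    have hl := abs_nonneg lam
    have h8 : (1 + η) * |lam| ≤ 11 / 10 * |lam| := by nlinarith
    exact mul_le_mul h8 hd (abs_nonneg _) (by positivity)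
  have h8 : 40 * k * |Y t - Y u| ≤ r := by
    refine le_trans ?_ hN
    have : 40 * k * |Y t - Y u| ≤ 40 * k * (11 / 10 * |lam| * (1 / 2 ^ N)) :=
      mul_le_mul_of_nonneg_left h7 (by positivity)
    refine this.trans (le_of_eq ?_)
    ring
  show |Vr k (Y t)| ≤ 2 * r
  linarith

end Crest.Agent.R128.NiceCount
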