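import Mathlib
import Crest.Agent.R128.NiceUD
import Crest.Agent.R128.NiceCount

set_option autoImplicit false

open Metric Set MeasureTheory Filter
open scoped ENNReal
open Crest.Agent.R128 Crest.Agent.R128.Cell Crest.Agent.R128.CellB Crest.Agent.R128.CellDy
open Crest.Agent.R128.Loc

/-!
Row 128, node NICE POINTS (helper223), part 2: on an interval `J = [t0 - r, t0 + r]` which carries an
unstretched disc of one side, the points with a regular entrance digit and `g` nice digits have the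
proportion at least `7/8`.
-/

namespace Crest.Agent.R128.NicePts

/-- real digit coordinate -/
noncomputable def yR (k c : ℝ) (s : Bool) (n : ℕ) (t : ℝ) : ℝ := (Y k c s n (t : ℂ)).re

/-- its derivative -/
noncomputable def dR (k c : ℝ) (s : Bool) (n : ℕ) (t : ℝ) : ℝ := (sg s * D k c s n (t : ℂ)).re

theorem hasDerivAt_yR (k c : ℝ) (s : Bool) (n : ℕ) (t : ℝ) :
    HasDerivAt (yR k c s n) (dR k c s n t) t :=
  (hasDerivAt_Y k c s n (t : ℂ)).real_of_complex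

theorem Y_ofReal (k c : ℝ) (s : Bool) (n : ℕ) (t : ℝ) :
    Y k c s n (t : ℂ) = ((yR k c s n t : ℝ) : ℂ) := by
  apply Complex.ext
  · simp [yR]
  · rw [im_Y_ofReal]; simp

theorem norm_dg (k c : ℝ) (s : Bool) (n : ℕ) (t : ℝ) :
    ‖dg k c s (t : ℂ) n‖ = |Fresh.Vr k (yR k c s n t)| := by
  unfold dg
  rw [Y_ofReal]
  have : cV k ((yR k c s n t : ℝ) : ℂ) = ((Fresh.Vr k (yR k c s n t) : ℝ) : ℂ) := by
    unfold cV Fresh.Vr
    push_cast
    ring
  rw [this, Complex.norm_real, Real.norm_eq_abs]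

theorem D_real (k c : ℝ) (s : Bool) (n : ℕ) (m : ℝ) : ∃ d : ℝ, D k c s n (m : ℂ) = (d : ℂ) := by
  unfold D
  rw [sdC_ofReal, yd_ofReal]
  exact ⟨_, rfl⟩

theorem abs_dR (k c : ℝ) (s : Bool) (n : ℕ) (t : ℝ) : |dR k c s n t| = ‖D k c s n (t : ℂ)‖ := by
  unfold dR
  obtain ⟨d, hd⟩ := D_real k c s n t
  rw [hd]
  cases s
  · simp [sg]
  · simp [sg]

theorem abs_dR_sub (k c : ℝ) (s : Bool) (n : ℕ) (x t : ℝ) :
    |dR k c s n x - dR k c s n t| ≤ ‖D k c s n (x : ℂ) - D k c s n (t : ℂ)‖ := by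
  unfold dR
  rw [← Complex.sub_re, ← mul_sub]
  refine (Complex.abs_re_le_norm _).trans ?_
  rw [norm_mul, norm_sg, one_mul]

theorem continuous_norm_dg (k c : ℝ) (s : Bool) (n : ℕ) :
    Continuous fun t : ℝ => ‖dg k c s (t : ℂ) n‖ := by
  have h1 : Continuous (yR k c s n) :=
    continuous_iff_continuousAt.2 fun t => (hasDerivAt_yR k c s n t).continuousAt
  have h2 : Continuous (Fresh.Vr k) := by
    unfold Fresh.Vr
    fun_prop
  have : (fun t : ℝ => ‖dg k c s (t : ℂ) n‖) = fun t => |Fresh.Vr k (yR k c s n t)| := by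
    funext t
    exact norm_dg k c s n t
  rw [this]
  exact (h2.comp h1).abs

variable {k c t R a η : ℝ} {s : Bool} {n : ℕ}

theorem mem_ball_real {x t R : ℝ} (h : |x - t| < R) : ((x : ℝ) : ℂ) ∈ ball (t : ℂ) R := by
  rw [mem_ball, dist_eq_norm, ← Complex.ofReal_sub, Complex.norm_real, Real.norm_eq_abs]
  exact h

theorem UD.nearAff (h : UD k c s n t R a η) {ρ : ℝ} (hρ : ρ < R) :
    CellA.NearAff (yR k c s (n + 1)) (dR k c s (n + 1)) (Icc (t - ρ) (t + ρ))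
      (dR k c s (n + 1) t) η where
  deriv := fun x _ => (hasDerivAt_yR k c s (n + 1) x).hasDerivWithinAt
  close := fun x hx => by
    have hb : ((x : ℝ) : ℂ) ∈ ball (t : ℂ) R := by
      apply mem_ball_real
      have : |x - t| ≤ ρ := abs_le.2 ⟨by linarith [hx.1], by linarith [hx.2]⟩
      linarith
    rw [abs_dR]
    exact (abs_dR_sub k c s (n + 1) x t).trans (h.near x hb)

/-- the local proportion of the points whose digit number `n + 1` is not nice -/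
theorem UD.bad_local (hk : 1 ≤ k) (h : UD k c s n t (8 / ‖D k c s (n + 1) t‖) 8 (1 / 80)) {κ : ℝ}
    (hκ : 0 ≤ κ) :
    volume ({x : ℝ | ‖dg k c s (x : ℂ) (n + 1)‖ ≤ κ * k} ∩
        Icc (t - 4 / ‖D k c s (n + 1) t‖) (t + 4 / ‖D k c s (n + 1) t‖)) ≤
      ENNReal.ofReal (3 * κ) *
        volume (Icc (t - 4 / ‖D k c s (n + 1) t‖) (t + 4 / ‖D k c s (n + 1) t‖)) := by
  have hA := h.pos
  set A := ‖D k c s (n + 1) (t : ℂ)‖ with hAdef
  have hρ : 4 / A < 8 / A := div_lt_div_of_pos_right (by norm_num) hA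
  have hρ0 : 0 < 4 / A := by positivity
  have h1 := NiceCount.volume_digit_le (r := κ * k) hk (by positivity)
    (by linarith : t - 4 / A < t + 4 / A) (h.nearAff hρ) (by norm_num) (by
      rw [abs_dR, ← hAdef]
      have : A * (t + 4 / A - (t - 4 / A)) = 8 := by field_simp; ring
      rw [this]; norm_num)
  have e : 3 * (κ * k) / k = 3 * κ := by
    field_simp
  rw [e] at h1
  refine le_trans (measure_mono ?_) h1
  rintro x ⟨hx1, hx2⟩
  refine ⟨hx2, ?_⟩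
  have hx1' : ‖dg k c s (x : ℂ) (n + 1)‖ ≤ κ * k := hx1
  rw [norm_dg] at hx1'
  exact hx1'

/-- covering -/
theorem bad_level {K H I : Set ℝ} (hK : IsCompact K) (ρ : ℝ → ℝ) {p : ℝ≥0∞}
    (hρ : ∀ t ∈ K, 0 < ρ t) (hKH : K ⊆ H) (hI : ∀ t ∈ K, Icc (t - ρ t) (t + ρ t) ⊆ I)
    (hloc : ∀ t ∈ K, volume (H ∩ Icc (t - ρ t) (t + ρ t)) ≤
      p * volume (Icc (t - ρ t) (t + ρ t))) : volume K ≤ p * (2 * volume I) := by
  obtain ⟨S, hS, hcov⟩ := hK.elim_nhds_subcover (fun t => Ioo (t - ρ t) (t + ρ t)) fun t ht =>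
    Ioo_mem_nhds (by linarith [hρ t ht]) (by linarith [hρ t ht])
  have h1 := NiceCount.volume_le_of_local S (fun t => t - ρ t) (fun t => t + ρ t) (H := H) (p := p)
    fun t ht => hloc t (hS t ht)
  have h2 : K ⊆ H ∩ ⋃ t ∈ S, Icc (t - ρ t) (t + ρ t) := by
    intro x hx
    refine ⟨hKH hx, ?_⟩
    obtain ⟨t, ht, hxt⟩ := mem_iUnion₂.1 (hcov hx)
    exact mem_iUnion₂.2 ⟨t, ht, Ioo_subset_Icc_self hxt⟩
  have h3 : (⋃ t ∈ S, Icc (t - ρ t) (t + ρ t)) ⊆ I := by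
    intro x hx
    obtain ⟨t, ht, hxt⟩ := mem_iUnion₂.1 hx
    exact hI t (hS t ht) hxt
  calc _ ≤ _ := measure_mono h2
    _ ≤ _ := h1
    _ ≤ _ := by gcongr

/-- the entrance digit is regular and the next `j` digits are nice -/
def DigOK (k c : ℝ) (s : Bool) (M : ℕ) (κ : ℝ) (j : ℕ) (t : ℝ) : Prop :=
  k ^ (3 / 5 : ℝ) ≤ ‖dg k c s (t : ℂ) (M + 1)‖ ∧
    ∀ i < j, κ * k ≤ ‖dg k c s (t : ℂ) (M + 1 + 1 + i)‖

/-- the set where the digit number `j` is the first one which is not nice -/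
def Kset (k c : ℝ) (s : Bool) (M : ℕ) (κ : ℝ) (j : ℕ) (t0 r : ℝ) : Set ℝ :=
  Icc (t0 - r) (t0 + r) ∩ ({t : ℝ | k ^ (3 / 5 : ℝ) ≤ ‖dg k c s (t : ℂ) (M + 1)‖} ∩
    ((⋂ i ∈ {i : ℕ | i < j}, {t : ℝ | κ * k ≤ ‖dg k c s (t : ℂ) (M + 1 + 1 + i)‖}) ∩
      {t : ℝ | ‖dg k c s (t : ℂ) (M + 1 + 1 + j)‖ ≤ κ * k}))

theorem isCompact_Kset (k c : ℝ) (s : Bool) (M : ℕ) (κ : ℝ) (j : ℕ) (t0 r : ℝ) :
    IsCompact (Kset k c s M κ j t0 r) := by
  unfold Kset
  refine isCompact_Icc.inter_right ?_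
  refine (isClosed_le continuous_const (continuous_norm_dg k c s (M + 1))).inter
    ((isClosed_biInter fun i _ => isClosed_le continuous_const
      (continuous_norm_dg k c s (M + 1 + 1 + i))).inter
      (isClosed_le (continuous_norm_dg k c s (M + 1 + 1 + j)) continuous_const))

theorem mem_Kset {M j : ℕ} {κ t0 r : ℝ} (h : t ∈ Kset k c s M κ j t0 r) :
    t ∈ Icc (t0 - r) (t0 + r) ∧ DigOK k c s M κ j t ∧
      ‖dg k c s (t : ℂ) (M + 1 + 1 + j)‖ ≤ κ * k := by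
  obtain ⟨h1, h2, h3, h4⟩ := h
  refine ⟨h1, ⟨h2, fun i hi => ?_⟩, h4⟩
  rw [mem_iInter₂] at h3
  exact h3 i hi

theorem not_DigOK_subset {M g : ℕ} {κ t0 r : ℝ} :
    Icc (t0 - r) (t0 + r) ∩ {t | ¬ DigOK k c s M κ g t} ⊆
      (Icc (t0 - r) (t0 + r) ∩ {t : ℝ | ‖dg k c s (t : ℂ) (M + 1)‖ ≤ k ^ (3 / 5 : ℝ)}) ∪
        ⋃ j ∈ Finset.range g, Kset k c s M κ j t0 r := by
  classical
  rintro t ⟨ht, hnot⟩
  by_cases h1 : k ^ (3 / 5 : ℝ) ≤ ‖dg k c s (t : ℂ) (M + 1)‖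
  · right
    have h2 : ∃ j, j < g ∧ ¬ κ * k ≤ ‖dg k c s (t : ℂ) (M + 1 + 1 + j)‖ := by
      by_contra hcon
      push Not at hcon
      exact hnot ⟨h1, fun i hi => hcon i hi⟩
    have h3 := Nat.find_spec h2
    have h4 := fun i (hi : i < Nat.find h2) => Nat.find_min h2 hi
    refine mem_iUnion₂.2 ⟨Nat.find h2, Finset.mem_range.2 h3.1, ht, h1, ?_, (not_le.1 h3.2).le⟩
    rw [mem_iInter₂]
    intro i hi
    have h5 := h4 i hi
    have hi' : i < Nat.find h2 := hi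
    by_contra h6
    exact h5 ⟨hi'.trans h3.1, h6⟩
  · left
    exact ⟨ht, (not_le.1 h1).le⟩

/-- recentring -/
theorem UD.recenter {t0 r η0 a0 : ℝ} (h : UD k c s n t0 (4 * r) a η0) (hη : η0 ≤ 1 / 80)
    (ht : |t - t0| ≤ r) (ha0 : 0 < a0) (hb : a0 ≤ ‖D k c s (n + 1) t0‖ * r) :
    UD k c s n t (3 * r) (2 * a0) (1 / 16) ∧
      79 / 80 * ‖D k c s (n + 1) t0‖ ≤ ‖D k c s (n + 1) t‖ ∧
      ‖D k c s (n + 1) t‖ ≤ 81 / 80 * ‖D k c s (n + 1) t0‖ := by
  have hR := h.hR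
  have hr : 0 < r := by linarith
  have hA := h.pos
  have hη0 := h.hη
  have htb : ((t : ℝ) : ℂ) ∈ ball (t0 : ℂ) (4 * r) := mem_ball_real (by linarith)
  have h1 := h.near t htb
  have hsub : ball (t : ℂ) (3 * r) ⊆ ball (t0 : ℂ) (4 * r) := by
    apply ball_subset_ball'
    rw [dist_eq_norm, ← Complex.ofReal_sub, Complex.norm_real, Real.norm_eq_abs]
    linarith
  set A := ‖D k c s (n + 1) (t0 : ℂ)‖ with hAdef
  have h2 := norm_sub_norm_le (D k c s (n + 1) (t : ℂ)) (D k c s (n + 1) (t0 : ℂ))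
  have h3 := norm_sub_norm_le (D k c s (n + 1) (t0 : ℂ)) (D k c s (n + 1) (t : ℂ))
  rw [norm_sub_rev] at h3
  rw [← hAdef] at h2 h3
  have h4 : η0 * A ≤ 1 / 80 * A := by nlinarith
  have hlow : 79 / 80 * A ≤ ‖D k c s (n + 1) (t : ℂ)‖ := by linarith
  have hup : ‖D k c s (n + 1) (t : ℂ)‖ ≤ 81 / 80 * A := by linarith
  refine ⟨⟨by linarith, by linarith, by norm_num, fun z hz => ?_, fun z hz => ?_, ?_⟩, hlow, hup⟩
  · have h5 := h.near z (hsub hz)
    have h6 := norm_sub_le_norm_sub_add_norm_sub (D k c s (n + 1) z) (D k c s (n + 1) (t0 : ℂ))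
      (D k c s (n + 1) (t : ℂ))
    rw [norm_sub_rev (D k c s (n + 1) (t0 : ℂ))] at h6
    linarith
  · have h5 := h.prev z (hsub hz)
    linarith
  · have h5 : 79 / 80 * A * r ≤ ‖D k c s (n + 1) (t : ℂ)‖ * r :=
      mul_le_mul_of_nonneg_right hlow hr.le
    nlinarith

/-- numerical form of `k ≥ k1` -/
structure Big (k κ : ℝ) : Prop where
  hu : (32 : ℝ) ≤ k ^ (1 / 40 : ℝ)
  hκ0 : 0 < κ
  h1 : 20 ≤ κ * k
  h2 : 10 ^ 9 ≤ κ ^ 2 * k

theorem Big.hk {κ : ℝ} (h : Big k κ) (hk0 : 0 ≤ k) : 1 ≤ k := by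
  by_contra hc
  push Not at hc
  have h1 : k ^ (1 / 40 : ℝ) ≤ 1 := Real.rpow_le_one hk0 hc.le (by norm_num)
  linarith [h.hu]

theorem exists_Big {κ : ℝ} (hκ0 : 0 < κ) : ∃ k1 : ℝ, 1 ≤ k1 ∧ ∀ k : ℝ, k1 ≤ k → Big k κ := by
  refine ⟨max (32 ^ (40 : ℕ)) (max (20 / κ) (10 ^ 9 / κ ^ 2)), ?_, fun k hk => ⟨?_, hκ0, ?_, ?_⟩⟩
  · exact le_trans (by norm_num) (le_max_left _ _)
  · have h1 : (32 : ℝ) ^ (40 : ℕ) ≤ k := (le_max_left _ _).trans hk
    have h2 : ((32 : ℝ) ^ (40 : ℕ)) ^ (1 / 40 : ℝ) ≤ k ^ (1 / 40 : ℝ) :=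
      Real.rpow_le_rpow (by positivity) h1 (by norm_num)
    have h3 : ((32 : ℝ) ^ (40 : ℕ)) ^ (1 / 40 : ℝ) = 32 := by
      rw [← Real.rpow_natCast, ← Real.rpow_mul (by norm_num)]
      norm_num
    rwa [h3] at h2
  · have h1 : 20 / κ ≤ k := ((le_max_left _ _).trans (le_max_right _ _)).trans hk
    rw [div_le_iff₀ hκ0] at h1
    linarith
  · have h1 : 10 ^ 9 / κ ^ 2 ≤ k := ((le_max_right _ _).trans (le_max_right _ _)).trans hk
    rw [div_le_iff₀ (by positivity)] at h1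
    linarith

/-- the disc after the entrance digit and `j` nice digits -/
theorem UD.chain {t0 r η0 κ : ℝ} {M : ℕ} (hB : Big k κ) (hk : 1 ≤ k)
    (h : UD k c s M t0 (4 * r) a η0) (hη : η0 ≤ 1 / 80)
    (hb : k ^ (-(3 / 8) : ℝ) ≤ ‖D k c s (M + 1) t0‖ * r) (ht : |t - t0| ≤ r) :
    ∀ j : ℕ, DigOK k c s M κ j t →
      UD k c s (M + 1 + j) t (8 / ‖D k c s (M + 1 + j + 1) t‖) 8 (1 / 80) ∧
        4 ≤ r * ‖D k c s (M + 1 + j + 1) t‖ := by
  have hR := h.hR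
  have hr : 0 < r := by linarith
  have hk0 : 0 < k := by linarith
  set u := k ^ (1 / 40 : ℝ) with hu
  have hu32 : 32 ≤ u := hB.hu
  have hu0 : 0 < u := by linarith
  have e40 : u ^ 40 = k := by
    rw [hu, ← Real.rpow_natCast, ← Real.rpow_mul hk0.le]; norm_num
  have e24 : k ^ (3 / 5 : ℝ) = u ^ 24 := by
    rw [hu, ← Real.rpow_natCast, ← Real.rpow_mul hk0.le]; norm_num
  have e15 : k ^ (-(3 / 8) : ℝ) = (u ^ 15)⁻¹ := by
    rw [hu, ← Real.rpow_natCast, ← Real.rpow_mul hk0.le, ← Real.rpow_neg hk0.le]; norm_num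
  rw [e15] at hb
  obtain ⟨h0, hlow, hup⟩ := h.recenter (t := t) hη ht (a0 := (u ^ 15)⁻¹) (by positivity) hb
  intro j
  induction j with
  | zero =>
    intro hd
    have hV := hd.1
    rw [e24] at hV
    set V := ‖dg k c s (t : ℂ) (M + 1)‖ with hVdef
    have hu9 : (32 : ℝ) ^ 9 ≤ u ^ 9 := pow_le_pow_left₀ (by norm_num) hu32 9
    have hu8 : (32 : ℝ) ^ 8 ≤ u ^ 8 := pow_le_pow_left₀ (by norm_num) hu32 8
    have hu24 : (32 : ℝ) ^ 24 ≤ u ^ 24 := pow_le_pow_left₀ (by norm_num) hu32 24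
    have hV0 : 0 < V := lt_of_lt_of_le (by positivity) hV
    have hV8 : 8 ≤ V := le_trans (by norm_num) (hu24.trans hV)
    have haV : 2 * u ^ 9 ≤ 2 * (u ^ 15)⁻¹ * V := by
      have : u ^ 9 = (u ^ 15)⁻¹ * u ^ 24 := by field_simp
      rw [this]
      have : (u ^ 15)⁻¹ * u ^ 24 ≤ (u ^ 15)⁻¹ * V := mul_le_mul_of_nonneg_left hV (by positivity)
      linarith
    have hs := h0.step (V := V) hk (by norm_num) hVdef hV8 (M := 8) (by norm_num)
      (by linarith [show (32:ℝ)^9 ≥ 16 by norm_num]) (by linarith [show (32:ℝ)^24 ≥ 40 by norm_num])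
    have hg := (h0.slopes (by norm_num) hVdef hV8).1
    have hη' : 140000 * k * 8 / V ^ 2 + 10 * (1 / 16) * 8 / (V * (2 * (u ^ 15)⁻¹)) + 3 / V ≤
        1 / 80 := by
      have q1 : 140000 * k * 8 / V ^ 2 ≤ 1 / 240 := by
        rw [div_le_div_iff₀ (by positivity) (by norm_num)]
        have : u ^ 24 * u ^ 24 ≤ V * V := mul_self_le_mul_self (by positivity) hV
        have e48 : u ^ 24 * u ^ 24 = u ^ 8 * k := by rw [← e40]; ring
        rw [e48] at this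
        have : (32 : ℝ) ^ 8 * k ≤ u ^ 8 * k := mul_le_mul_of_nonneg_right hu8 hk0.le
        nlinarith
      have q2 : 10 * (1 / 16) * 8 / (V * (2 * (u ^ 15)⁻¹)) ≤ 1 / 240 := by
        rw [div_le_div_iff₀ (by positivity) (by norm_num)]
        have : V * (2 * (u ^ 15)⁻¹) = 2 * (u ^ 15)⁻¹ * V := by ring
        rw [this]
        linarith [show (32:ℝ)^9 ≥ 10000 by norm_num]
      have q3 : 3 / V ≤ 1 / 240 := by
        rw [div_le_div_iff₀ hV0 (by norm_num)]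
        linarith [show (32:ℝ)^24 ≥ 10000 by norm_num]
      linarith
    have hpos := hs.pos
    refine ⟨hs.mono (by positivity) le_rfl (by norm_num) ?_ hη', ?_⟩
    · have : ‖D k c s (M + 1 + 1) (t : ℂ)‖ * (8 / ‖D k c s (M + 1 + 1) (t : ℂ)‖) = 8 := by
        field_simp
      exact this.ge
    · show 4 ≤ r * ‖D k c s (M + 1 + 1) (t : ℂ)‖
      have q1 : V / 2 * (79 / 80 * ‖D k c s (M + 1) (t0 : ℂ)‖) ≤ ‖D k c s (M + 2) (t : ℂ)‖ :=
        (mul_le_mul_of_nonneg_left hlow (by positivity)).trans hg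
      have q2 : r * (V / 2 * (79 / 80 * ‖D k c s (M + 1) (t0 : ℂ)‖)) ≤
          r * ‖D k c s (M + 2) (t : ℂ)‖ := mul_le_mul_of_nonneg_left q1 hr.le
      have q3 : V * (u ^ 15)⁻¹ ≤ V * (‖D k c s (M + 1) (t0 : ℂ)‖ * r) :=
        mul_le_mul_of_nonneg_left hb hV0.le
      have q4 : (32 : ℝ) ^ 9 ≤ V * (u ^ 15)⁻¹ := by linarith
      have q5 : (32:ℝ) ^ 9 ≥ 10000 := by norm_num
      show 4 ≤ r * ‖D k c s (M + 2) (t : ℂ)‖
      nlinarith
  | succ j ih =>
    intro hd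
    have hdj : DigOK k c s M κ j t := ⟨hd.1, fun i hi => hd.2 i (by omega)⟩
    obtain ⟨hj, hj4⟩ := ih hdj
    have hV := hd.2 j (by omega)
    have ej : M + 1 + 1 + j = M + 1 + j + 1 := by omega
    rw [ej] at hV
    set V := ‖dg k c s (t : ℂ) (M + 1 + j + 1)‖ with hVdef
    have hκ0 := hB.hκ0
    have hV0 : 0 < V := lt_of_lt_of_le (by positivity) hV
    have h20 := hB.h1
    have hV8 : 8 ≤ V := by linarith
    have hs := hj.step (V := V) hk (by norm_num) hVdef hV8 (M := 8) (by norm_num)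
      (by linarith) (by linarith)
    have hg := (hj.slopes (by norm_num) hVdef hV8).1
    have hkk : 10 ^ 9 ≤ κ ^ 2 * k := hB.h2
    have hVbig : 10 ^ 9 * k ≤ V ^ 2 := by
      have : (κ * k) ^ 2 ≤ V ^ 2 := pow_le_pow_left₀ (by positivity) hV 2
      nlinarith
    have hV4 : 10000 ≤ V := by
      have h1 : (10000 : ℝ) ^ 2 ≤ V ^ 2 := by nlinarith
      exact le_of_sq_le_sq h1 hV0.le
    have hη' : 140000 * k * 8 / V ^ 2 + 10 * (1 / 80) * 8 / (V * 8) + 3 / V ≤ 1 / 80 := by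
      have q1 : 140000 * k * 8 / V ^ 2 ≤ 1 / 240 := by
        rw [div_le_div_iff₀ (by positivity) (by norm_num)]
        nlinarith
      have q2 : 10 * (1 / 80) * 8 / (V * 8) ≤ 1 / 240 := by
        rw [div_le_div_iff₀ (by positivity) (by norm_num)]
        linarith
      have q3 : 3 / V ≤ 1 / 240 := by
        rw [div_le_div_iff₀ hV0 (by norm_num)]
        linarith
      linarith
    have hpos := hs.pos
    have hposj := hj.pos
    refine ⟨hs.mono (by positivity) le_rfl (by norm_num) ?_ hη', ?_⟩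
    · have : ‖D k c s (M + 1 + j + 1 + 1) (t : ℂ)‖ * (8 / ‖D k c s (M + 1 + j + 1 + 1) (t : ℂ)‖) =
          8 := by
        field_simp
      exact this.ge
    · have q0 : V / 2 * ‖D k c s (M + 1 + j + 1) (t : ℂ)‖ ≤
          ‖D k c s (M + 1 + j + 1 + 1) (t : ℂ)‖ := hg
      have q1 : ‖D k c s (M + 1 + j + 1) (t : ℂ)‖ ≤ ‖D k c s (M + 1 + j + 1 + 1) (t : ℂ)‖ := by
        nlinarith
      have q2 := mul_le_mul_of_nonneg_left q1 hr.le
      exact hj4.trans q2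

/-- the entrance digit -/
theorem UD.bad_entrance {t0 r η0 κ : ℝ} {M : ℕ} (hB : Big k κ) (hk : 1 ≤ k)
    (h : UD k c s M t0 (4 * r) a η0) (hη : η0 ≤ 1 / 80)
    (hb : k ^ (-(3 / 8) : ℝ) ≤ ‖D k c s (M + 1) t0‖ * r) :
    volume (Icc (t0 - r) (t0 + r) ∩ {t : ℝ | ‖dg k c s (t : ℂ) (M + 1)‖ ≤ k ^ (3 / 5 : ℝ)}) ≤
      ENNReal.ofReal (r / 8) := by
  have hR := h.hR
  have hr : 0 < r := by linarith
  have hk0 : 0 < k := by linarith
  set u := k ^ (1 / 40 : ℝ) with hu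
  have hu32 : 32 ≤ u := hB.hu
  have hu0 : 0 < u := by linarith
  have e40 : u ^ 40 = k := by
    rw [hu, ← Real.rpow_natCast, ← Real.rpow_mul hk0.le]; norm_num
  have e24 : k ^ (3 / 5 : ℝ) = u ^ 24 := by
    rw [hu, ← Real.rpow_natCast, ← Real.rpow_mul hk0.le]; norm_num
  have e15 : k ^ (-(3 / 8) : ℝ) = (u ^ 15)⁻¹ := by
    rw [hu, ← Real.rpow_natCast, ← Real.rpow_mul hk0.le, ← Real.rpow_neg hk0.le]; norm_num
  rw [e15] at hb
  rw [e24]
  have hN := h.nearAff (ρ := r) (by linarith)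
  have hA := h.pos
  set A := ‖D k c s (M + 1) (t0 : ℂ)‖ with hAdef
  have hη0 := h.hη
  have hl : dR k c s (M + 1) t0 ≠ 0 := by
    intro h0
    have := abs_dR k c s (M + 1) t0
    rw [h0, abs_zero] at this
    linarith
  have hms : MeasurableSet {x : ℝ | |Fresh.Vr k x| ≤ u ^ 24} := by
    refine measurableSet_le ?_ measurable_const
    unfold Fresh.Vr
    fun_prop
  have h1 := hN.equidistribution (by linarith) hl (by linarith) hms (fun x => by
    rw [mem_ofPred_eq, mem_ofPred_eq, Fresh.Vr_add_one])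
  have h2 := Fresh.volume_Vr_small (r := u ^ 24) hk (by positivity)
  have hsub : Icc (t0 - r) (t0 + r) ∩ {t : ℝ | ‖dg k c s (t : ℂ) (M + 1)‖ ≤ u ^ 24} ⊆
      Icc (t0 - r) (t0 + r) ∩ yR k c s (M + 1) ⁻¹' {x : ℝ | |Fresh.Vr k x| ≤ u ^ 24} := by
    rintro x ⟨hx1, hx2⟩
    refine ⟨hx1, ?_⟩
    have hx2' : ‖dg k c s (x : ℂ) (M + 1)‖ ≤ u ^ 24 := hx2
    rw [norm_dg] at hx2'
    exact hx2'
  refine (measure_mono hsub).trans (h1.trans ((mul_le_mul_right h2 _).trans ?_))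
  rw [abs_dR, ← hAdef]
  have hden : 0 < (1 - η0) * A := mul_pos (by linarith) hA
  have hq0 : 0 ≤ ((1 + η0) * A * (t0 + r - (t0 - r)) + 1) / ((1 - η0) * A) := by
    have : 0 ≤ (1 + η0) * A * (t0 + r - (t0 - r)) + 1 := by
      have : t0 + r - (t0 - r) = 2 * r := by ring
      rw [this]; positivity
    positivity
  rw [← ENNReal.ofReal_mul hq0]
  apply ENNReal.ofReal_le_ofReal
  have hAr : 1 ≤ A * r * u ^ 15 := by
    have : (u ^ 15)⁻¹ * u ^ 15 ≤ A * r * u ^ 15 := mul_le_mul_of_nonneg_right hb (by positivity)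
    rwa [inv_mul_cancel₀ (by positivity)] at this
  have hu15 : (32 : ℝ) ^ 15 ≤ u ^ 15 := pow_le_pow_left₀ (by norm_num) hu32 15
  have hq : ((1 + η0) * A * (t0 + r - (t0 - r)) + 1) / ((1 - η0) * A) ≤ 4 * r * u ^ 15 := by
    rw [div_le_iff₀ hden]
    have e1 : t0 + r - (t0 - r) = 2 * r := by ring
    rw [e1]
    have e2 : 4 * r * u ^ 15 * ((1 - η0) * A) = 4 * (1 - η0) * (A * r * u ^ 15) := by ring
    have e3 : (1 + η0) * A * (2 * r) = 2 * (1 + η0) * (A * r) := by ring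
    rw [e2, e3]
    have hAr0 : 0 < A * r := mul_pos hA hr
    have e4 : A * r * (32 : ℝ) ^ 15 ≤ A * r * u ^ 15 := mul_le_mul_of_nonneg_left hu15 hAr0.le
    have e5 : (32 : ℝ) ^ 15 ≥ 100 := by norm_num
    have e6 : A * r * 100 ≤ A * r * u ^ 15 := by nlinarith
    nlinarith
  have hfin : 4 * r * u ^ 15 * (u ^ 24 / k) ≤ r / 8 := by
    rw [← e40]
    have : 4 * r * u ^ 15 * (u ^ 24 / u ^ 40) = 4 * r / u := by
      field_simp
    rw [this, div_le_div_iff₀ hu0 (by norm_num)]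
    nlinarith
  refine le_trans ?_ hfin
  exact mul_le_mul_of_nonneg_right hq (by positivity)

/-- **(N)** the proportion of the points whose entrance digit is not regular or which have a digit
that is not nice among the next `g` ones is at most `1 / 8`. -/
theorem nice_volume_of_big {t0 r η0 κ : ℝ} {M g : ℕ} (hB : Big k κ) (hk : 1 ≤ k)
    (hκg : 192 * κ * g ≤ 1)
    (h : UD k c s M t0 (4 * r) a η0) (hη : η0 ≤ 1 / 80)
    (hb : k ^ (-(3 / 8) : ℝ) ≤ ‖D k c s (M + 1) t0‖ * r) :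
    volume (Icc (t0 - r) (t0 + r) ∩ {t | ¬ DigOK k c s M κ g t}) ≤ ENNReal.ofReal (r / 4) := by
  have hR := h.hR
  have hr : 0 < r := by linarith
  have hκ0 := hB.hκ0
  have hent := h.bad_entrance hB hk hη hb
  have hlev : ∀ j ∈ Finset.range g, volume (Kset k c s M κ j t0 r) ≤
      ENNReal.ofReal (24 * κ * r) := by
    intro j _
    have hch : ∀ t ∈ Kset k c s M κ j t0 r,
        UD k c s (M + 1 + j) t (8 / ‖D k c s (M + 1 + j + 1) t‖) 8 (1 / 80) ∧
        4 ≤ r * ‖D k c s (M + 1 + j + 1) t‖ := by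
      intro t ht
      obtain ⟨h1, h2, _⟩ := mem_Kset ht
      exact h.chain hB hk hη hb (abs_le.2 ⟨by linarith [h1.1], by linarith [h1.2]⟩) j h2
    have hle : ∀ t ∈ Kset k c s M κ j t0 r, 4 / ‖D k c s (M + 1 + j + 1) t‖ ≤ r := by
      intro t ht
      obtain ⟨h1, h2⟩ := hch t ht
      rw [div_le_iff₀ h1.pos]
      exact h2
    have h1 := bad_level (isCompact_Kset k c s M κ j t0 r)
      (fun t => 4 / ‖D k c s (M + 1 + j + 1) (t : ℂ)‖)
      (H := {x : ℝ | ‖dg k c s (x : ℂ) (M + 1 + j + 1)‖ ≤ κ * k})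
      (I := Icc (t0 - 2 * r) (t0 + 2 * r)) (p := ENNReal.ofReal (3 * κ))
      (fun t ht => div_pos (by norm_num) (hch t ht).1.pos)
      (fun t ht => by
        have := (mem_Kset ht).2.2
        rwa [show M + 1 + 1 + j = M + 1 + j + 1 by omega] at this)
      (fun t ht => by
        have h2 := hle t ht
        have h3 := (mem_Kset ht).1
        exact Icc_subset_Icc (by linarith [h3.1]) (by linarith [h3.2]))
      (fun t ht => (hch t ht).1.bad_local hk hκ0.le)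
    refine h1.trans (le_of_eq ?_)
    rw [Real.volume_Icc]
    have e2 : (2 : ℝ≥0∞) = ENNReal.ofReal 2 := by norm_num
    rw [e2, ← ENNReal.ofReal_mul (by norm_num), ← ENNReal.ofReal_mul (by positivity)]
    congr 1
    ring
  have hsum : volume (⋃ j ∈ Finset.range g, Kset k c s M κ j t0 r) ≤
      ENNReal.ofReal (r / 8) := by
    refine (measure_biUnion_finset_le _ _).trans ?_
    refine (Finset.sum_le_sum hlev).trans ?_
    rw [Finset.sum_const, Finset.card_range, nsmul_eq_mul]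
    have e3 : (g : ℝ≥0∞) = ENNReal.ofReal (g : ℝ) := by
      rw [ENNReal.ofReal_natCast]
    rw [e3, ← ENNReal.ofReal_mul (by positivity)]
    apply ENNReal.ofReal_le_ofReal
    nlinarith
  have e4 : ENNReal.ofReal (r / 4) = ENNReal.ofReal (r / 8) + ENNReal.ofReal (r / 8) := by
    rw [← ENNReal.ofReal_add (by positivity) (by positivity)]
    congr 1
    ring
  rw [e4]
  exact (measure_mono not_DigOK_subset).trans ((measure_union_le _ _).trans (add_le_add hent hsum))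

end Crest.Agent.R128.NicePts
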