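import Mathlib
import Crest.Agent.R128.NicePts
import Crest.Agent.R128.NiceP

set_option autoImplicit false

open Metric Set MeasureTheory Filter
open scoped ENNReal
open Crest.Agent.R128 Crest.Agent.R128.Cell Crest.Agent.R128.CellB Crest.Agent.R128.CellDy
open Crest.Agent.R128.Loc

/-!
Row 128, node NICE POINTS (helper223), part 3: both sides together, and the choice of the pair
of exits (859's `NiceP.pair`).
-/

namespace Crest.Agent.R128.NicePts

variable {k c t0 r a η : ℝ} {s : Bool} {M : ℕ}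

theorem norm_dg_le (hk : 1 ≤ k) (c : ℝ) (s : Bool) (n : ℕ) (t : ℝ) :
    ‖dg k c s (t : ℂ) n‖ ≤ 10 * k := by
  rw [norm_dg]
  exact Fresh.abs_Vr_le hk _

/-- sizes of the slopes at a point with a regular entrance digit and nice digits -/
theorem UD.size {t κ : ℝ} (hB : Big k κ) (hk : 1 ≤ k)
    (h : UD k c s M t0 (4 * r) a η) (hη : η ≤ 1 / 80)
    (hb : k ^ (-(3 / 8) : ℝ) ≤ ‖D k c s (M + 1) t0‖ * r) (ht : |t - t0| ≤ r) :
    ∀ j : ℕ, DigOK k c s M κ j t →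
      ‖D k c s (M + 1 + j + 1) t‖ ≤ (20 * k) ^ (j + 1) * (81 / 80 * ‖D k c s (M + 1) t0‖) ∧
      (κ * k / 2) ^ j * (k ^ (3 / 5 : ℝ) / 2 * (79 / 80 * ‖D k c s (M + 1) t0‖)) ≤
        ‖D k c s (M + 1 + j + 1) t‖ := by
  have hR := h.hR
  have hr : 0 < r := by linarith
  have hk0 : 0 < k := by linarith
  have hA := h.pos
  have hκ0 := hB.hκ0
  have h35 : 8 ≤ k ^ (3 / 5 : ℝ) := by
    have hu32 := hB.hu
    have e24 : k ^ (3 / 5 : ℝ) = (k ^ (1 / 40 : ℝ)) ^ 24 := by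
      rw [← Real.rpow_natCast, ← Real.rpow_mul hk0.le]; norm_num
    rw [e24]
    have : (32 : ℝ) ^ 24 ≤ (k ^ (1 / 40 : ℝ)) ^ 24 := pow_le_pow_left₀ (by norm_num) hu32 24
    exact le_trans (by norm_num) this
  obtain ⟨h0, hlow, hup⟩ := h.recenter (t := t) hη ht (lt_of_lt_of_le (by positivity) hb) le_rfl
  intro j
  induction j with
  | zero =>
    intro hd
    have hV := hd.1
    have hV10 := norm_dg_le hk c s (M + 1) t
    set V := ‖dg k c s (t : ℂ) (M + 1)‖ with hVdef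
    obtain ⟨g1, g2, -⟩ := h0.slopes (by norm_num) hVdef (h35.trans hV)
    have hV0 : 0 < V := by linarith
    constructor
    · show ‖D k c s (M + 2) (t : ℂ)‖ ≤ _
      refine g2.trans ?_
      have : 2 * V ≤ 20 * k := by linarith
      calc 2 * V * ‖D k c s (M + 1) (t : ℂ)‖ ≤ 20 * k * (81 / 80 * ‖D k c s (M + 1) t0‖) :=
            mul_le_mul this hup (norm_nonneg _) (by positivity)
        _ = _ := by ring
    · show _ ≤ ‖D k c s (M + 2) (t : ℂ)‖
      refine le_trans ?_ g1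
      rw [pow_zero, one_mul]
      exact mul_le_mul (by linarith) hlow (by positivity) (by positivity)
  | succ j ih =>
    intro hd
    have hdj : DigOK k c s M κ j t := ⟨hd.1, fun i hi => hd.2 i (by omega)⟩
    obtain ⟨i1, i2⟩ := ih hdj
    obtain ⟨hj, -⟩ := h.chain hB hk hη hb ht j hdj
    have hV := hd.2 j (by omega)
    rw [show M + 1 + 1 + j = M + 1 + j + 1 by omega] at hV
    have hV10 := norm_dg_le hk c s (M + 1 + j + 1) t
    set V := ‖dg k c s (t : ℂ) (M + 1 + j + 1)‖ with hVdef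
    have h20 := hB.h1
    obtain ⟨g1, g2, -⟩ := hj.slopes (by norm_num) hVdef (by linarith)
    have hV0 : 0 < V := by linarith
    constructor
    · show ‖D k c s (M + 1 + j + 2) (t : ℂ)‖ ≤ _
      refine g2.trans ?_
      have : 2 * V ≤ 20 * k := by linarith
      calc 2 * V * ‖D k c s (M + 1 + j + 1) (t : ℂ)‖ ≤
            20 * k * ((20 * k) ^ (j + 1) * (81 / 80 * ‖D k c s (M + 1) t0‖)) :=
            mul_le_mul this i1 (norm_nonneg _) (by positivity)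
        _ = _ := by ring
    · show _ ≤ ‖D k c s (M + 1 + j + 2) (t : ℂ)‖
      refine le_trans ?_ g1
      rw [pow_succ]
      have : (κ * k / 2) ^ j * (κ * k / 2) * (k ^ (3 / 5 : ℝ) / 2 *
          (79 / 80 * ‖D k c s (M + 1) t0‖)) = κ * k / 2 * ((κ * k / 2) ^ j *
          (k ^ (3 / 5 : ℝ) / 2 * (79 / 80 * ‖D k c s (M + 1) t0‖))) := by ring
      rw [this]
      exact mul_le_mul (by linarith) i2 (by positivity) (by positivity)

/-- the set of nice points of both sides -/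
def NN (k c : ℝ) (M : Bool → ℕ) (κ : ℝ) (g : ℕ) (t0 r : ℝ) : Set ℝ :=
  {t | t ∈ Icc (t0 - r) (t0 + r) ∧ ∀ b, DigOK k c b (M b) κ g t}

/-- the set of nice points of both sides has at least half of the measure of `J` -/
theorem volume_NN {κ : ℝ} (hB : Big k κ) (hk : 1 ≤ k) (hr : 0 < r) {g : ℕ} (hκg : 192 * κ * g ≤ 1)
    (M : Bool → ℕ) (a η : Bool → ℝ) (hU : ∀ b, UD k c b (M b) t0 (4 * r) (a b) (η b))
    (hη : ∀ b, η b ≤ 1 / 80)
    (hlo : ∀ b, k ^ (-(3 / 8) : ℝ) ≤ ‖D k c b (M b + 1) t0‖ * r) :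
    ENNReal.ofReal r ≤ volume (NN k c M κ g t0 r) := by
  have h1 := nice_volume_of_big hB hk hκg (hU true) (hη true) (hlo true)
  have h2 := nice_volume_of_big hB hk hκg (hU false) (hη false) (hlo false)
  have hsub : Icc (t0 - r) (t0 + r) ⊆ NN k c M κ g t0 r ∪
      ((Icc (t0 - r) (t0 + r) ∩ {t | ¬ DigOK k c true (M true) κ g t}) ∪
        (Icc (t0 - r) (t0 + r) ∩ {t | ¬ DigOK k c false (M false) κ g t})) := by
    intro t ht
    by_cases hT : DigOK k c true (M true) κ g t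
    · by_cases hF : DigOK k c false (M false) κ g t
      · left
        refine ⟨ht, fun b => ?_⟩
        cases b
        · exact hF
        · exact hT
      · right; right; exact ⟨ht, hF⟩
    · right; left; exact ⟨ht, hT⟩
  have h3 := (measure_mono (μ := volume) hsub).trans (measure_union_le _ _)
  have h4 := h3.trans (add_le_add le_rfl ((measure_union_le _ _).trans (add_le_add h1 h2)))
  rw [Real.volume_Icc] at h4
  have e1 : ENNReal.ofReal (t0 + r - (t0 - r)) = ENNReal.ofReal (3 / 2 * r) +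
      (ENNReal.ofReal (r / 4) + ENNReal.ofReal (r / 4)) := by
    rw [← ENNReal.ofReal_add (by positivity) (by positivity),
      ← ENNReal.ofReal_add (by positivity) (by positivity)]
    congr 1
    ring
  rw [e1] at h4
  have h5 : ENNReal.ofReal (3 / 2 * r) ≤ volume (NN k c M κ g t0 r) := by
    refine (ENNReal.add_le_add_iff_right ?_).1 h4
    exact ENNReal.add_ne_top.2 ⟨ENNReal.ofReal_ne_top, ENNReal.ofReal_ne_top⟩
  refine le_trans (ENNReal.ofReal_le_ofReal ?_) h5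
  linarith

/-- **nice points of both sides and the pair of exits.** -/
theorem nice_all (hk : 10 ^ 40 ≤ k) (hB : Big k (1 / 1000)) (hr : 0 < r)
    (M : Bool → ℕ) (a η : Bool → ℝ) (hU : ∀ b, UD k c b (M b) t0 (4 * r) (a b) (η b))
    (hη : ∀ b, η b ≤ 1 / 80)
    (hlo : ∀ b, k ^ (-(3 / 8) : ℝ) ≤ ‖D k c b (M b + 1) t0‖ * r)
    (hhi : ∀ b, ‖D k c b (M b + 1) t0‖ * r ≤ k ^ (3 / 4 : ℝ)) :
    ENNReal.ofReal r ≤ volume (NN k c M (1 / 1000) 5 t0 r) ∧
    ∀ m ∈ NN k c M (1 / 1000) 5 t0 r,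
      ∃ (s : Bool) (i j : ℕ) (R lam : ℝ), 1 ≤ i ∧ i ≤ 3 ∧ 1 ≤ j ∧ j ≤ 3 ∧ 0 < R ∧ 1 ≤ |lam| ∧
      |lam| ≤ 10 ^ 12 * Real.sqrt k ∧ 4 ≤ r * R ∧ r * R ≤ k ^ 6 ∧
      R = ‖D k c s (M s + 2 + i + 1) m‖ ∧ |lam| * R = ‖D k c (!s) (M (!s) + 2 + j + 1) m‖ ∧
      (∃ σ : ℝ, (σ = 1 ∨ σ = -1) ∧ ∀ z ∈ ball (m : ℂ) (4 / R),
        ‖D k c s (M s + 2 + i + 1) z - (σ * R : ℝ)‖ ≤ 10 ^ 12 * R / k) ∧
      (∀ z ∈ ball (m : ℂ) (4 / R), ‖D k c s (M s + 2 + i) z‖ ≤ 10 ^ 12 * R / k) ∧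
      (∀ z ∈ ball (m : ℂ) (4 / R),
        ‖D k c (!s) (M (!s) + 2 + j + 1) z - (lam * R : ℝ)‖ ≤ 10 ^ 12 * |lam| ^ 2 * R / k) ∧
      (∀ z ∈ ball (m : ℂ) (4 / R), ‖D k c (!s) (M (!s) + 2 + j) z‖ ≤ 10 ^ 12 * |lam| * R / k) := by
  have hk1 : 1 ≤ k := le_trans (by norm_num) hk
  have hk0 : 0 < k := by linarith
  refine ⟨volume_NN hB hk1 hr (by norm_num) M a η hU hη hlo, fun m hm => ?_⟩
  obtain ⟨hmJ, hD⟩ := hm
  have hmt : |m - t0| ≤ r := abs_le.2 ⟨by linarith [hmJ.1], by linarith [hmJ.2]⟩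
  have hDj : ∀ b, ∀ j ≤ 5, DigOK k c b (M b) (1 / 1000) j m := fun b j hj =>
    ⟨(hD b).1, fun i hi => (hD b).2 i (by omega)⟩
  have hch : ∀ b, ∀ j ≤ 5,
      UD k c b (M b + 1 + j) m (8 / ‖D k c b (M b + 1 + j + 1) m‖) 8 (1 / 80) ∧
        4 ≤ r * ‖D k c b (M b + 1 + j + 1) m‖ := fun b j hj =>
    (hU b).chain hB hk1 (hη b) (hlo b) hmt j (hDj b j hj)
  have hsz := fun b (j : ℕ) (hj : j ≤ 5) =>
    (hU b).size hB hk1 (hη b) (hlo b) hmt j (hDj b j hj)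
  set u := k ^ (1 / 40 : ℝ) with hu
  have hu32 : 32 ≤ u := hB.hu
  have hu0 : 0 < u := by linarith
  have e40 : u ^ 40 = k := by
    rw [hu, ← Real.rpow_natCast, ← Real.rpow_mul hk0.le]; norm_num
  have e24 : k ^ (3 / 5 : ℝ) = u ^ 24 := by
    rw [hu, ← Real.rpow_natCast, ← Real.rpow_mul hk0.le]; norm_num
  have e30 : k ^ (3 / 4 : ℝ) = u ^ 30 := by
    rw [hu, ← Real.rpow_natCast, ← Real.rpow_mul hk0.le]; norm_num
  have e15 : k ^ (-(3 / 8) : ℝ) = (u ^ 15)⁻¹ := by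
    rw [hu, ← Real.rpow_natCast, ← Real.rpow_mul hk0.le, ← Real.rpow_neg hk0.le]; norm_num
  have hratio : ∀ b, ‖D k c b (M b + 2 + 1) m‖ ≤ k ^ 2 * ‖D k c (!b) (M (!b) + 2 + 1) m‖ := by
    intro b
    have h1 := (hsz b 1 (by norm_num)).1
    have h2 := (hsz (!b) 1 (by norm_num)).2
    have h3 := hhi b
    have h4 := hlo (!b)
    rw [e30] at h3
    rw [e15] at h4
    rw [e24] at h2
    set X := ‖D k c b (M b + 1) (t0 : ℂ)‖
    set X' := ‖D k c (!b) (M (!b) + 1) (t0 : ℂ)‖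
    have h5 : ‖D k c b (M b + 2 + 1) m‖ ≤ (20 * k) ^ 2 * (81 / 80 * X) := h1
    have h6 : (1 / 1000 * k / 2) ^ 1 * (u ^ 24 / 2 * (79 / 80 * X')) ≤
      ‖D k c (!b) (M (!b) + 2 + 1) m‖ := h2
    refine h5.trans (le_trans ?_ (mul_le_mul_of_nonneg_left h6 (by positivity)))
    have h7 : X ≤ u ^ 30 / r := by rw [le_div_iff₀ hr]; exact h3
    have h8 : (u ^ 15)⁻¹ / r ≤ X' := by rw [div_le_iff₀ hr]; exact h4
    have h9 : (20 * k) ^ 2 * (81 / 80 * X) ≤ (20 * k) ^ 2 * (81 / 80 * (u ^ 30 / r)) := by gcongr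
    have h10 : k ^ 2 * ((1 / 1000 * k / 2) ^ 1 * (u ^ 24 / 2 * (79 / 80 * ((u ^ 15)⁻¹ / r)))) ≤
      k ^ 2 * ((1 / 1000 * k / 2) ^ 1 * (u ^ 24 / 2 * (79 / 80 * X'))) := by gcongr
    refine h9.trans (le_trans ?_ h10)
    have e1 : (20 * k) ^ 2 * (81 / 80 * (u ^ 30 / r)) = 405 * (k ^ 2 * u ^ 30 / r) := by ring
    have e2 : k ^ 2 * ((1 / 1000 * k / 2) ^ 1 * (u ^ 24 / 2 * (79 / 80 * ((u ^ 15)⁻¹ / r)))) =
        79 / 320000 * (k * u ^ 24 * (u ^ 15)⁻¹) * (k ^ 2 / r) := by ring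
    have e3 : k * u ^ 24 * (u ^ 15)⁻¹ = u ^ 49 := by
      rw [← e40]
      field_simp
    rw [e1, e2, e3]
    have e4 : 405 * (k ^ 2 * u ^ 30 / r) = 405 * u ^ 30 * (k ^ 2 / r) := by ring
    rw [e4]
    refine mul_le_mul_of_nonneg_right ?_ (by positivity)
    have hu19 : (32 : ℝ) ^ 19 ≤ u ^ 19 := pow_le_pow_left₀ (by norm_num) hu32 19
    have e5 : u ^ 49 = u ^ 19 * u ^ 30 := by ring
    rw [e5]
    have e6 : 405 ≤ 79 / 320000 * u ^ 19 := by
      have : (32 : ℝ) ^ 19 ≥ 10 ^ 10 := by norm_num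
      linarith
    have hu30 : 0 < u ^ 30 := by positivity
    nlinarith
  obtain ⟨s, i, j, R, lam, hi1, hi3, hj1, hj3, hR0, hl1, hl2, hRe, hlR, f1, f2, f3, f4⟩ :=
    NiceP.pair (k := k) (c := c) (m := m) hk (fun b => M b + 2)
      (fun b => 1 / ‖D k c b (M b + 2 + 1) m‖)
      (fun b => by
        have h1 := (hch b 1 (by norm_num)).1
        have hp := h1.pos
        refine UD.mono (R := 8 / ‖D k c b (M b + 1 + 1 + 1) m‖) (a := 8) h1 (by positivity) ?_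
          one_pos ?_ le_rfl
        · exact div_le_div_of_nonneg_right (by norm_num) hp.le
        · have hp' : 0 < ‖D k c b (M b + 2 + 1) m‖ := hp
          have : ‖D k c b (M b + 2 + 1) m‖ * (1 / ‖D k c b (M b + 2 + 1) m‖) = 1 := by
            field_simp
          exact this.ge)
      (fun b i hi => by
        have h1 := (hD b).2 (i + 1) (by omega)
        have e1 : M b + 2 + 1 + i = M b + 1 + 1 + (i + 1) := by omega
        show k / 1000 ≤ ‖dg k c b m (M b + 2 + 1 + i)‖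
        rw [e1]
        linarith)
      (fun b => hratio b)
  refine ⟨s, i, j, R, lam, hi1, hi3, hj1, hj3, hR0, hl1, hl2, ?_, ?_, hRe, hlR, f1, f2, f3, f4⟩
  · have h1 := (hch s (i + 1) (by omega)).2
    rw [hRe]
    have e1 : M s + 2 + i + 1 = M s + 1 + (i + 1) + 1 := by omega
    show 4 ≤ r * ‖D k c s (M s + 2 + i + 1) m‖
    rw [e1]
    exact h1
  · have h1 := (hsz s (i + 1) (by omega)).1
    have h3 := hhi s
    rw [e30] at h3
    rw [hRe]
    have e1 : M s + 2 + i + 1 = M s + 1 + (i + 1) + 1 := by omega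
    show r * ‖D k c s (M s + 2 + i + 1) m‖ ≤ k ^ 6
    rw [e1]
    have h20 : 1 ≤ 20 * k := by linarith
    have h5 : (20 * k) ^ (i + 1 + 1) ≤ (20 * k) ^ 5 := pow_le_pow_right₀ h20 (by omega)
    have hX0 : 0 ≤ ‖D k c s (M s + 1) (t0 : ℂ)‖ := norm_nonneg _
    calc r * ‖D k c s (M s + 1 + (i + 1) + 1) m‖ ≤
          r * ((20 * k) ^ 5 * (81 / 80 * ‖D k c s (M s + 1) (t0 : ℂ)‖)) := by
            refine mul_le_mul_of_nonneg_left (h1.trans ?_) hr.le
            exact mul_le_mul_of_nonneg_right h5 (by positivity)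
      _ = 3240000 * k ^ 5 * (‖D k c s (M s + 1) (t0 : ℂ)‖ * r) := by ring
      _ ≤ 3240000 * k ^ 5 * u ^ 30 := mul_le_mul_of_nonneg_left h3 (by positivity)
      _ ≤ k ^ 6 := by
          have hu10 : (32 : ℝ) ^ 10 ≤ u ^ 10 := pow_le_pow_left₀ (by norm_num) hu32 10
          have e7 : k ^ 6 = k ^ 5 * (u ^ 10 * u ^ 30) := by
            have : u ^ 10 * u ^ 30 = k := by rw [← e40]; ring
            rw [this]; ring
          rw [e7]
          have h6 : 3240000 ≤ u ^ 10 := le_trans (by norm_num) hu10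
          have hp : 0 < k ^ 5 * u ^ 30 := by positivity
          nlinarith

end Crest.Agent.R128.NicePts
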