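import Crest.Agent.R128.LocSize
import Crest.Agent.R128.SideSize
import Crest.Agent.R128.StartNum

/-!
# Row 128, V5: the clause OLD SIZES of `LocGlue365.VFBase` (helper556)
-/

set_option autoImplicit false
open Crest.Agent.R128 Crest.Agent.R128.TreeSum Crest.Agent.R128.AlignMn Crest.Agent.R128.DictY
open Crest.Agent.R128.Cell Crest.Agent.R128.CellB Crest.Agent.R128.CleanNum
open Crest.Agent.R128.CleanDisc Crest.Agent.R128.CleanCont

namespace Crest.Agent.R128.OldSize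

theorem exp_le {k ρ : ℝ} {n : ℕ} (hk : 0 < k) (hρn : ρ ≤ n * Real.log 2 + 2 * Real.log k) :
    Real.exp ρ ≤ 2 ^ n * k ^ 2 := by
  refine (Real.exp_le_exp.mpr hρn).trans (le_of_eq ?_)
  rw [Real.exp_add, mul_comm (n : ℝ), mul_comm (2 : ℝ), Real.exp_mul, Real.exp_mul,
    Real.exp_log (by norm_num), Real.exp_log hk]
  norm_cast

/-- the size at the foot -/
theorem XX_le {k ρ c t : ℝ} {L w M n : ℕ} {x : ℕ → ℝ} (hk : (2 : ℝ) ^ 400 ≤ k) (hL : 20 ≤ L)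
    (hρ : 0 ≤ ρ) (hρn : ρ ≤ n * Real.log 2 + 2 * Real.log k)
    (h : Good.Side k L ρ (zt k c t) x w M) :
    XX (wf k c t) (SideSize.EF k c t w) ≤ 2 * k ^ 5 * 2 ^ n := by
  rw [(SideSize.XX_eq hk hL h).2]
  have h1 := (SideSize.sizes hk hL hρ h).2
  have hk0 : 0 < k := lt_of_lt_of_le (by norm_num) (SideSize.four_le hk)
  have h2 := exp_le hk0 hρn
  calc |(wf k c t (w - 1)).2| ≤ 2 * k ^ 3 * Real.exp ρ := h1
    _ ≤ 2 * k ^ 3 * (2 ^ n * k ^ 2) := mul_le_mul_of_nonneg_left h2 (by positivity)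
    _ = _ := by ring

/-- **old sizes**, one side -/
theorem side {k ρ c t0 : ℝ} {L w M n : ℕ} {x : ℕ → ℝ} (s : Bool) (hk : (2 : ℝ) ^ 400 ≤ k)
    (hL : 20 ≤ L) (hρ : 0 ≤ ρ) (hρn : ρ ≤ n * Real.log 2 + 2 * Real.log k)
    (h : Good.Side k L ρ (zt k c (LocSize.bp k c s t0)) x w M) :
    ∀ i ≤ w, ∀ u : ℂ, ‖u - t0‖ ≤ 2 * (1 / (k ^ 60 * 2 ^ n)) →
      ‖Loc.D k c s i u‖ ≤ k ^ 12 * 2 ^ n := by
  have hw := h.hw
  have hC := SideSize.clean hk hL hρ h
  have hX := XX_le hk hL hρ hρn h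
  have hX0 : 0 < XX (wf k c (LocSize.bp k c s t0)) (SideSize.EF k c (LocSize.bp k c s t0) w) :=
    hC.Xpos
  have hk4 := SideSize.four_le hk
  clear hk
  have hk0 : 0 < k := by linarith
  intro i hi u hu
  set X := XX (wf k c (LocSize.bp k c s t0)) (SideSize.EF k c (LocSize.bp k c s t0) w) with hXdef
  have h2n : (0 : ℝ) < 2 ^ n := by positivity
  have hk1 : (1 : ℝ) ≤ k := by linarith
  have hdisc : ‖u - t0‖ ≤ rho0 k (8 * k) 3 4 / X := by
    rw [le_div_iff₀ hX0]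
    refine le_trans ?_ (StartNum.rho0_ge hk4)
    calc ‖u - t0‖ * X ≤ (2 * (1 / (k ^ 60 * 2 ^ n))) * (2 * k ^ 5 * 2 ^ n) :=
          mul_le_mul hu hX hX0.le (by positivity)
      _ = 4 / k ^ 55 := by
          field_simp
          ring
      _ ≤ 1 / (2 ^ 58 * k ^ 9) := by
          rw [div_le_div_iff₀ (by positivity) (by positivity)]
          have h1 : (4 : ℝ) ^ 46 ≤ k ^ 46 := pow_le_pow_left₀ (by norm_num) hk4 46
          have h2 : (4 : ℝ) * 2 ^ 58 ≤ k ^ 46 := le_trans (by norm_num) h1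
          calc 4 * (2 ^ 58 * k ^ 9) = (4 * 2 ^ 58) * k ^ 9 := by ring
            _ ≤ k ^ 46 * k ^ 9 := mul_le_mul_of_nonneg_right h2 (by positivity)
            _ = 1 * k ^ 55 := by ring
  have hfin := LocSize.foot_loc s hC hk1 hdisc i (by omega)
  have hC1 := StartNum.C1_le hk4
  have hC10 : 0 ≤ C1 (8 * k) 3 4 := by
    unfold C1
    positivity
  calc ‖Loc.D k c s i u‖ ≤ 2 * (C1 (8 * k) 3 4 * X) := hfin
    _ ≤ 2 * ((2 ^ 8 * k ^ 2) * (2 * k ^ 5 * 2 ^ n)) := by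
        apply mul_le_mul_of_nonneg_left _ (by norm_num)
        exact mul_le_mul hC1 hX hX0.le (by positivity)
    _ = 2 ^ 10 * (k ^ 7 * 2 ^ n) := by ring
    _ ≤ k ^ 5 * (k ^ 7 * 2 ^ n) := by
        apply mul_le_mul_of_nonneg_right _ (by positivity)
        have h1 : (4 : ℝ) ^ 5 ≤ k ^ 5 := pow_le_pow_left₀ (by norm_num) hk4 5
        calc (2 : ℝ) ^ 10 = 4 ^ 5 := by norm_num
          _ ≤ _ := h1
    _ = _ := by ring

theorem bp_true (k c t0 : ℝ) : LocSize.bp k c true t0 = t0 := rfl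

theorem bp_false (k c t0 : ℝ) : LocSize.bp k c false t0 = tb k c t0 := rfl

/-- **old sizes**, literally as in `LocGlue365.VFBase`, from the two sides of `Good.VF`;
`W true`, `W false` are the two feet -/
theorem old_sizes {k c t0 ρ : ℝ} {L n : ℕ} (hk : (2 : ℝ) ^ 400 ≤ k) (hL : 20 ≤ L) (hρ : 0 ≤ ρ)
    (hρn : ρ ≤ n * Real.log 2 + 2 * Real.log k) {xp xm : ℕ → ℝ} {w M w' M' : ℕ}
    (hp : Good.Side k L ρ (zt k c t0) xp w M) (hm : Good.Side k L ρ (Rev k (zt k c t0)) xm w' M') :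
    ∀ s, ∀ i ≤ (if s then w else w'), ∀ u : ℝ, |u - t0| ≤ 2 * (1 / (k ^ 60 * 2 ^ n)) →
      ‖Loc.D k c s i u‖ ≤ k ^ 12 * 2 ^ n := by
  intro s i hi u hu
  have hu' : ‖(u : ℂ) - (t0 : ℂ)‖ ≤ 2 * (1 / (k ^ 60 * 2 ^ n)) := by
    rw [← Complex.ofReal_sub, Complex.norm_real, Real.norm_eq_abs]
    exact hu
  cases s
  · rw [Rev_zt] at hm
    rw [← bp_false] at hm
    exact side false hk hL hρ hρn hm i (by simpa using hi) u hu'
  · exact side true hk hL hρ hρn (by rw [bp_true]; exact hp) i (by simpa using hi) u hu'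

end Crest.Agent.R128.OldSize
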