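import Mathlib
import Crest.Agent.R128.Lam0U

/-!
Row 128, node V2-ONEPERLEVEL: the number of VALID starts `n ≤ t` whose vertical field at time `t` has norm
at most `X` is at most `1000 (1 + log X / (400 log k))`.
-/

set_option autoImplicit false

open MeasureTheory Filter Topology Finset

namespace Crest.Agent.R128.OnePer

open Crest.Agent.R128.TreeSum Crest.Agent.R128.Acc Crest.Agent.R128.Lam0

/-- `W_m(z)`: Euclidean norm of the vertical field -/
noncomputable def W (k : ℝ) (z : Tor) (m : ℕ) : ℝ := nn (fld k z m)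

/-- VALID up to time `n` (279's `Val d n z`) -/
structure Val (k d : ℝ) (n : ℕ) (z : Tor) : Prop where
  c1 : ∀ m < 1000, k ^ (2 / 3 : ℝ) ≤ |V k ((T k)^[m] z).2|
  c2 : ∀ i j, 1000 ≤ i → i ≤ j → j ≤ n → (W k z i) ^ (1 - d) ≤ W k z j
  c3 : ∀ j, 1000 ≤ j → j ≤ n → ∃ i ≤ j, (j : ℝ) ≤ (W k z i) ^ (d / 4)

variable {k d : ℝ} {z : Tor}

theorem W_zero (k : ℝ) (z : Tor) : W k z 0 = 1 := by
  unfold W
  rw [fld_zero]
  unfold nn
  simp

theorem W_nonneg (k : ℝ) (z : Tor) (m : ℕ) : 0 ≤ W k z m := nn_nonneg _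

theorem W_pos (k : ℝ) (z : Tor) (m : ℕ) : 0 < W k z m :=
  (isField_fld k z).pos (Nat.zero_le m) (by
    have := W_zero k z
    unfold W at this
    rw [this]; exact one_pos)

/-- one clean step: growth by `k^(2/3)/2`, with the ratio invariant -/
theorem clean_ratio (hk : (100 : ℝ) ≤ k) (h : ∀ m < 1000, k ^ (2 / 3 : ℝ) ≤ |V k ((T k)^[m] z).2|) :
    ∀ m ≤ 1000, (fld k z m).1 ^ 2 ≤ (fld k z m).2 ^ 2 ∧
      ((k ^ (2 / 3 : ℝ) / 2) ^ 2) ^ m ≤ (fld k z m).2 ^ 2 := by
  have hk0 : 0 < k := by linarith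
  have hκ : (20 : ℝ) ≤ k ^ (2 / 3 : ℝ) := by
    have h1 : (100 : ℝ) ^ (2 / 3 : ℝ) ≤ k ^ (2 / 3 : ℝ) :=
      Real.rpow_le_rpow (by norm_num) hk (by norm_num)
    refine le_trans ?_ h1
    have h2 : (20 : ℝ) = (20 ^ 3 : ℝ) ^ (1 / 3 : ℝ) := by
      rw [← Real.rpow_natCast, ← Real.rpow_mul (by norm_num)]
      norm_num
    have h3 : (100 : ℝ) ^ (2 / 3 : ℝ) = (100 ^ 2 : ℝ) ^ (1 / 3 : ℝ) := by
      rw [← Real.rpow_natCast, ← Real.rpow_mul (by norm_num)]
      norm_num
    rw [h2, h3]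
    exact Real.rpow_le_rpow (by norm_num) (by norm_num) (by norm_num)
  intro m
  induction m with
  | zero =>
    intro _
    rw [fld_zero]
    norm_num
  | succ m ih =>
    intro hm
    obtain ⟨i1, i2⟩ := ih (by omega)
    have h1 := h m (by omega)
    rw [fld_succ]
    set a := V k ((T k)^[m] z).2 with ha
    set w := fld k z m with hw
    set κ := k ^ (2 / 3 : ℝ) with hκd
    unfold stp
    simp only
    have hw12 : |w.1| ≤ |w.2| := sq_le_sq.mp i1
    have h3 : |a| * |w.2| - |w.1| ≤ |a * w.2 - w.1| := by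
      rw [← abs_mul]
      exact abs_sub_abs_le_abs_sub _ _
    have h4 := abs_nonneg w.2
    have h5 : κ / 2 * |w.2| ≤ |a * w.2 - w.1| := by nlinarith
    have h6 : |w.2| ≤ |a * w.2 - w.1| := by nlinarith
    refine ⟨sq_le_sq.mpr h6, ?_⟩
    have h7 : (κ / 2 * |w.2|) ^ 2 ≤ |a * w.2 - w.1| ^ 2 := pow_le_pow_left₀ (by positivity) h5 2
    rw [sq_abs, mul_pow, sq_abs] at h7
    rw [pow_succ']
    calc (κ / 2) ^ 2 * ((κ / 2) ^ 2) ^ m ≤ (κ / 2) ^ 2 * w.2 ^ 2 := by gcongr
      _ ≤ _ := h7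

theorem clean_growth (hk : (100 : ℝ) ≤ k) (h : ∀ m < 1000, k ^ (2 / 3 : ℝ) ≤ |V k ((T k)^[m] z).2|)
    {m : ℕ} (hm : m ≤ 1000) : (k ^ (2 / 3 : ℝ) / 2) ^ m ≤ W k z m := by
  have h1 := (clean_ratio hk h m hm).2
  have h2 : ((k ^ (2 / 3 : ℝ) / 2) ^ m) ^ 2 ≤ W k z m ^ 2 := by
    unfold W
    rw [nn_sq, ← pow_mul, mul_comm m 2, pow_mul]
    nlinarith [sq_nonneg (fld k z m).1]
  exact le_of_sq_le_sq h2 (W_nonneg _ _ _)

theorem one_le_half (hk : (100 : ℝ) ≤ k) : (1 : ℝ) ≤ k ^ (2 / 3 : ℝ) / 2 := by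
  have h1 : (100 : ℝ) ^ (2 / 3 : ℝ) ≤ k ^ (2 / 3 : ℝ) :=
    Real.rpow_le_rpow (by norm_num) hk (by norm_num)
  have h2 : (100 : ℝ) ^ (1 / 2 : ℝ) ≤ (100 : ℝ) ^ (2 / 3 : ℝ) :=
    Real.rpow_le_rpow_of_exponent_le (by norm_num) (by norm_num)
  have h3 : (100 : ℝ) ^ (1 / 2 : ℝ) = 10 := by
    rw [show (100 : ℝ) = 10 ^ (2 : ℕ) by norm_num, ← Real.rpow_natCast, ← Real.rpow_mul (by norm_num)]
    norm_num
  linarith

/-- `k ^ 500 ≤ W_1000` -/
theorem Val.big (hk : (2 : ℝ) ^ 20 ≤ k) {n : ℕ} (h : Val k d n z) : k ^ 600 ≤ W k z 1000 := by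
  have hk100 : (100 : ℝ) ≤ k := by
    have : (100 : ℝ) ≤ 2 ^ 20 := by norm_num
    linarith
  have hk0 : 0 < k := by linarith
  refine le_trans ?_ (clean_growth hk100 h.c1 le_rfl)
  have h1 : k ^ (1 / 20 : ℝ) * k ^ (61 / 100 : ℝ) ≤ k ^ (2 / 3 : ℝ) := by
    rw [← Real.rpow_add hk0]
    apply Real.rpow_le_rpow_of_exponent_le (by linarith)
    norm_num
  have h2 : (2 : ℝ) ≤ k ^ (1 / 20 : ℝ) := by
    have h3 : ((2 : ℝ) ^ 20) ^ (1 / 20 : ℝ) ≤ k ^ (1 / 20 : ℝ) :=
      Real.rpow_le_rpow (by positivity) hk (by norm_num)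
    have h4 : ((2 : ℝ) ^ 20) ^ (1 / 20 : ℝ) = 2 := by
      rw [← Real.rpow_natCast, ← Real.rpow_mul (by norm_num)]
      norm_num
    linarith
  have h5 : k ^ (61 / 100 : ℝ) ≤ k ^ (2 / 3 : ℝ) / 2 := by
    have h6 : 0 ≤ k ^ (61 / 100 : ℝ) := by positivity
    nlinarith
  calc k ^ 600 ≤ (k ^ (61 / 100 : ℝ)) ^ 1000 := by
        rw [← Real.rpow_natCast (k ^ (61 / 100 : ℝ)) 1000, ← Real.rpow_mul hk0.le,
          ← Real.rpow_natCast k 600]
        apply Real.rpow_le_rpow_of_exponent_le (by linarith)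
        norm_num
    _ ≤ _ := pow_le_pow_left₀ (by positivity) h5 1000

theorem Val.big' (hk : (2 : ℝ) ^ 20 ≤ k) (hd0 : 0 ≤ d) (hd : d ≤ 1 / 50) {n : ℕ} (h : Val k d n z)
    {j : ℕ} (hj : 1000 ≤ j) (hjn : j ≤ n) : k ^ 580 ≤ W k z j := by
  have hk1 : (1 : ℝ) ≤ k := by
    have : (1 : ℝ) ≤ 2 ^ 20 := by norm_num
    linarith
  have hk0 : 0 < k := by linarith
  have h1 := h.c2 1000 j le_rfl hj hjn
  have h2 := h.big hk
  calc k ^ 580 ≤ (k ^ 600) ^ (1 - d) := by
        rw [← Real.rpow_natCast k 600, ← Real.rpow_mul hk0.le, ← Real.rpow_natCast k 580]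
        apply Real.rpow_le_rpow_of_exponent_le hk1
        push_cast
        nlinarith
    _ ≤ W k z 1000 ^ (1 - d) := Real.rpow_le_rpow (by positivity) h2 (by linarith)
    _ ≤ _ := h1

theorem Val.one_le (hk : (2 : ℝ) ^ 20 ≤ k) (hd0 : 0 ≤ d) (hd : d ≤ 1 / 50) {n : ℕ}
    (h : Val k d n z) {j : ℕ} (hjn : j ≤ n) : 1 ≤ W k z j := by
  have hk1 : (1 : ℝ) ≤ k := by
    have : (1 : ℝ) ≤ 2 ^ 20 := by norm_num
    linarith
  have hk100 : (100 : ℝ) ≤ k := by
    have : (100 : ℝ) ≤ 2 ^ 20 := by norm_num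
    linarith
  rcases Nat.lt_or_ge j 1000 with hj | hj
  · exact (one_le_pow₀ (one_le_half hk100)).trans (clean_growth hk100 h.c1 hj.le)
  · exact (one_le_pow₀ hk1).trans (h.big' hk hd0 hd hj hjn)

/-- the terms of the duration sum -/
theorem Val.dur (hk : (2 : ℝ) ^ 20 ≤ k) (hd0 : 1 / 2000 ≤ d) (hd : d ≤ 1 / 50) {n : ℕ}
    (h : Val k d n z) {j : ℕ} (hj : 1000 ≤ j) (hjn : j ≤ n) :
    (W k z j) ^ (-d) ≤ 1 / (j : ℝ) ^ 2 := by
  obtain ⟨i, hij, hi⟩ := h.c3 j hj hjn
  have hWi := h.one_le hk (by linarith) hd (hij.trans hjn)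
  have hWj := h.one_le hk (by linarith) hd hjn
  have hj0 : (0 : ℝ) < j := by
    have : 0 < j := by omega
    exact_mod_cast this
  have hj1 : (1 : ℝ) ≤ j := by
    have : 1 ≤ j := by omega
    exact_mod_cast this
  have hk100 : (100 : ℝ) ≤ k := by
    have : (100 : ℝ) ≤ 2 ^ 20 := by norm_num
    linarith
  -- W_i ^ (1-d) ≤ W_j  (or i < 1000 and W_i ≤ ...)
  have key : (W k z i) ^ (1 / 2 : ℝ) ≤ W k z j := by
    rcases Nat.lt_or_ge i 1000 with hi' | hi'
    · -- W_i ≤ (8k)^1000 ... use W_i ≤ W_1000-type bound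
      have h1 : W k z i ≤ 2 * W k z 1000 := by
        have hmono : ∀ m, m < 1000 → |(fld k z m).2| ≤ |(fld k z (m + 1)).2| := by
          intro m hm
          have h2 := (clean_ratio hk100 h.c1 (m + 1) (by omega)).1
          rw [fld_succ] at h2 ⊢
          unfold stp at h2 ⊢
          simp only at h2 ⊢
          exact sq_le_sq.mp h2
        have h3 : |(fld k z i).2| ≤ |(fld k z 1000).2| := by
          have : ∀ m, i ≤ m → m ≤ 1000 → |(fld k z i).2| ≤ |(fld k z m).2| := by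
            intro m him
            induction m, him using Nat.le_induction with
            | base => intro _; exact le_rfl
            | succ m _ ih =>
              intro hm
              exact (ih (by omega)).trans (hmono m (by omega))
          exact this 1000 (by omega) le_rfl
        have h4 := (clean_ratio hk100 h.c1 i hi'.le).1
        have h5 : |(fld k z i).1| ≤ |(fld k z i).2| := sq_le_sq.mp h4
        have h6 := nn_le_add (fld k z i)
        have h7 := abs_snd_le (fld k z 1000)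
        unfold W
        linarith
      have h2 := h.c2 1000 j le_rfl hj hjn
      have hb := h.big hk
      have hW0 : 0 < W k z 1000 := W_pos k z 1000
      have h1k : (4 : ℝ) ≤ W k z 1000 := by
        refine le_trans ?_ hb
        calc (4 : ℝ) ≤ k := by linarith
          _ = k ^ 1 := (pow_one k).symm
          _ ≤ k ^ 600 := pow_le_pow_right₀ (by linarith) (by norm_num)
      refine le_trans ?_ h2
      calc (W k z i) ^ (1 / 2 : ℝ) ≤ (2 * W k z 1000) ^ (1 / 2 : ℝ) :=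
            Real.rpow_le_rpow (W_nonneg _ _ _) h1 (by norm_num)
        _ ≤ (W k z 1000 ^ (3 / 2 : ℝ)) ^ (1 / 2 : ℝ) := by
            apply Real.rpow_le_rpow (by positivity) _ (by norm_num)
            have e : W k z 1000 ^ (3 / 2 : ℝ) = W k z 1000 * W k z 1000 ^ (1 / 2 : ℝ) := by
              conv_rhs => rw [show W k z 1000 * W k z 1000 ^ (1 / 2 : ℝ) =
                W k z 1000 ^ (1 : ℝ) * W k z 1000 ^ (1 / 2 : ℝ) by rw [Real.rpow_one]]
              rw [← Real.rpow_add hW0]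
              norm_num
            rw [e]
            have h8 : (2 : ℝ) ≤ W k z 1000 ^ (1 / 2 : ℝ) := by
              have h9 : (4 : ℝ) ^ (1 / 2 : ℝ) ≤ W k z 1000 ^ (1 / 2 : ℝ) :=
                Real.rpow_le_rpow (by norm_num) h1k (by norm_num)
              have h10 : (4 : ℝ) ^ (1 / 2 : ℝ) = 2 := by
                rw [show (4 : ℝ) = 2 ^ (2 : ℕ) by norm_num, ← Real.rpow_natCast,
                  ← Real.rpow_mul (by norm_num)]
                norm_num
              linarith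
            nlinarith
        _ = W k z 1000 ^ (3 / 4 : ℝ) := by
            rw [← Real.rpow_mul hW0.le]
            norm_num
        _ ≤ W k z 1000 ^ (1 - d) := by
            apply Real.rpow_le_rpow_of_exponent_le (by linarith)
            linarith
    · refine le_trans ?_ (h.c2 i j hi' hij hjn)
      apply Real.rpow_le_rpow_of_exponent_le hWi
      linarith
  have h2 : (j : ℝ) ^ 2 ≤ (W k z j) ^ d := by
    calc (j : ℝ) ^ 2 ≤ ((W k z i) ^ (d / 4)) ^ 2 := pow_le_pow_left₀ hj0.le hi 2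
      _ = ((W k z i) ^ (1 / 2 : ℝ)) ^ d := by
          rw [← Real.rpow_natCast, ← Real.rpow_mul (W_nonneg _ _ _), ← Real.rpow_mul (W_nonneg _ _ _)]
          congr 1
          push_cast
          ring
      _ ≤ (W k z j) ^ d := Real.rpow_le_rpow (Real.rpow_nonneg (W_nonneg _ _ _) _) key (by linarith)
  rw [Real.rpow_neg (W_nonneg _ _ _), one_div]
  exact inv_anti₀ (by positivity) h2

/-- **Separation of starts**: the start `T^m z`, `m ≥ 1000`, sees a much smaller field. -/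
theorem Val.sep (hk : (2 : ℝ) ^ 20 ≤ k) (hd0 : 1 / 2000 ≤ d) (hd : d ≤ 1 / 50) {m n : ℕ}
    (hm : 1000 ≤ m) (h : Val k d (m + n) z) : k ^ 400 * W k ((T k)^[m] z) n ≤ W k z (m + n) := by
  have hk100 : (100 : ℝ) ≤ k := by
    have : (100 : ℝ) ≤ 2 ^ 20 := by norm_num
    linarith
  have hk0 : 0 < k := by linarith
  have hA : ∀ j, |V k ((T k)^[m + j] z).2| + 2 ≤ 8 * k := fun j => abs_V_le (by linarith) _
  have hbig := h.big' hk (by linarith) hd hm (by omega)
  have c := count_valid (isField_shift k z m) (isField_later k z m) (A := 8 * k) (δ := d)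
    (K := 1) (κ := k ^ 400) hA (by linarith) (by linarith) (m := 0) (n := n) (Nat.zero_le _)
    (by
      simp only [add_zero]
      exact (one_le_pow₀ (by linarith : (1 : ℝ) ≤ k)).trans hbig)
    (by
      intro j hj
      rw [Finset.mem_Icc] at hj
      simp only [add_zero]
      exact h.c2 m (m + j) hm (by omega) (by omega))
    (by
      calc ∑ j ∈ Ico 0 n, nn (fld k z (m + j)) ^ (-d)
          ≤ ∑ j ∈ Ico 0 n, 1 / ((m + j : ℕ) : ℝ) ^ 2 := by
            apply Finset.sum_le_sum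
            intro j hj
            rw [Finset.mem_Ico] at hj
            exact h.dur hk hd0 hd (by omega) (by omega)
        _ ≤ 1 / ((m : ℝ) - 1) := sum_inv_sq m n (by omega)
        _ ≤ 1 := by
            have h3 : (1000 : ℝ) ≤ m := by exact_mod_cast hm
            rw [div_le_one (by linarith)]
            linarith)
    (by positivity)
    (by
      simp only [add_zero]
      have e0 : nn (fld k ((T k)^[m] z) 0) = 1 := W_zero k _
      rw [e0, mul_one, mul_one]
      have h5 : (2 : ℝ) + (8 * k) ^ 2 ≤ k ^ 3 := by nlinarith [sq_nonneg k]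
      have h6 : k ^ 400 * (2 + (8 * k) ^ 2) ≤ k ^ 400 * k ^ 3 := by gcongr
      refine h6.trans ?_
      have h7 : (k ^ 580) ^ (1 - 3 * d) ≤ nn (fld k z m) ^ (1 - 3 * d) :=
        Real.rpow_le_rpow (by positivity) hbig (by linarith)
      refine le_trans ?_ h7
      rw [← pow_add, ← Real.rpow_natCast k 580, ← Real.rpow_mul hk0.le, ← Real.rpow_natCast]
      apply Real.rpow_le_rpow_of_exponent_le (by linarith)
      push_cast
      linarith)
  exact c

/-- abstract counting: `g` drops by the factor `κ` after every `L` steps -/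
theorem card_le_of_sep {S : Finset ℕ} {g : ℕ → ℝ} {κ X : ℝ} {L : ℕ} (hκ : 1 < κ) (hX1 : 1 ≤ X)
    (h1 : ∀ n ∈ S, 1 ≤ g n) (hX : ∀ n ∈ S, g n ≤ X)
    (hs : ∀ n₁ ∈ S, ∀ n₂ ∈ S, n₁ + L ≤ n₂ → κ * g n₂ ≤ g n₁) :
    (S.card : ℝ) ≤ L * (1 + Real.log X / Real.log κ) := by
  classical
  have hlogκ : 0 < Real.log κ := Real.log_pos hκ
  have hlogX : 0 ≤ Real.log X := Real.log_nonneg hX1
  set h : ℕ → ℕ := fun n => ⌊Real.log (g n) / Real.log κ⌋₊ with hh
  set M : ℕ := ⌊Real.log X / Real.log κ⌋₊ with hM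
  have hfib : ∀ a ∈ S.image h, (S.filter (fun x => h x = a)).card ≤ L := by
    intro a ha
    set Sa := S.filter (fun x => h x = a) with hSa
    have hne : Sa.Nonempty := by
      rw [Finset.mem_image] at ha
      obtain ⟨x, hx, hxa⟩ := ha
      exact ⟨x, Finset.mem_filter.mpr ⟨hx, hxa⟩⟩
    set m := Sa.min' hne with hm
    have hmS : m ∈ Sa := Finset.min'_mem _ _
    have hsub : Sa ⊆ Ico m (m + L) := by
      intro x hx
      rw [Finset.mem_Ico]
      refine ⟨Finset.min'_le _ _ hx, ?_⟩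
      by_contra hlt
      push Not at hlt
      have hx' := Finset.mem_filter.mp hx
      have hm' := Finset.mem_filter.mp hmS
      have k1 := hs m hm'.1 x hx'.1 hlt
      have g1 := h1 x hx'.1
      have g2 := h1 m hm'.1
      have k2 : Real.log κ + Real.log (g x) ≤ Real.log (g m) := by
        rw [← Real.log_mul (by linarith) (by linarith)]
        exact Real.log_le_log (by positivity) k1
      have k3 : Real.log (g x) / Real.log κ + 1 ≤ Real.log (g m) / Real.log κ := by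
        rw [div_add_one hlogκ.ne', div_le_div_iff_of_pos_right hlogκ]
        linarith
      have k4 : h x + 1 ≤ h m := by
        rw [hh]
        simp only
        rw [← Nat.floor_add_one (div_nonneg (Real.log_nonneg g1) hlogκ.le)]
        exact Nat.floor_le_floor k3
      rw [hx'.2, hm'.2] at k4
      omega
    calc Sa.card ≤ (Ico m (m + L)).card := Finset.card_le_card hsub
      _ = L := by rw [Nat.card_Ico]; omega
  have himg : S.image h ⊆ range (M + 1) := by
    intro a ha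
    rw [Finset.mem_image] at ha
    obtain ⟨x, hx, rfl⟩ := ha
    rw [Finset.mem_range, Nat.lt_succ_iff]
    apply Nat.floor_le_floor
    have g1 := h1 x hx
    gcongr
    exact hX x hx
  have hc := Finset.card_le_mul_card_image S L hfib
  have hc2 : (S.image h).card ≤ M + 1 := by
    calc (S.image h).card ≤ (range (M + 1)).card := Finset.card_le_card himg
      _ = M + 1 := Finset.card_range _
  have hc3 : S.card ≤ L * (M + 1) := hc.trans (Nat.mul_le_mul_left L hc2)
  have hM' : (M : ℝ) ≤ Real.log X / Real.log κ := Nat.floor_le (by positivity)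
  calc (S.card : ℝ) ≤ ((L * (M + 1) : ℕ) : ℝ) := by exact_mod_cast hc3
    _ = L * ((M : ℝ) + 1) := by push_cast; ring
    _ ≤ L * (1 + Real.log X / Real.log κ) := by
        apply mul_le_mul_of_nonneg_left _ (Nat.cast_nonneg _)
        linarith

open Classical in
/-- **V2-ONEPERLEVEL** -/
theorem card_starts (hk : (2 : ℝ) ^ 20 ≤ k) (hd0 : 1 / 2000 ≤ d) (hd : d ≤ 1 / 50) (z : Tor) (t : ℕ)
    {X : ℝ} (hX1 : 1 ≤ X) (S : Finset ℕ)
    (hS : ∀ n ∈ S, n ≤ t ∧ Val k d (t - n) ((T k)^[n] z) ∧ W k ((T k)^[n] z) (t - n) ≤ X) :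
    (S.card : ℝ) ≤ 1000 * (1 + Real.log X / (400 * Real.log k)) := by
  have hk1 : (1 : ℝ) < k := by
    have : (1 : ℝ) < 2 ^ 20 := by norm_num
    linarith
  have h := card_le_of_sep (S := S) (g := fun n => W k ((T k)^[n] z) (t - n)) (κ := k ^ 400) (X := X)
    (L := 1000) (one_lt_pow₀ hk1 (by norm_num)) hX1
    (fun n hn => (hS n hn).2.1.one_le hk (by linarith) hd le_rfl)
    (fun n hn => (hS n hn).2.2)
    (by
      intro n₁ hn₁ n₂ hn₂ h12
      obtain ⟨a1, b1, -⟩ := hS n₁ hn₁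
      obtain ⟨a2, -, -⟩ := hS n₂ hn₂
      have e1 : t - n₁ = (n₂ - n₁) + (t - n₂) := by omega
      have e2 : (T k)^[n₂ - n₁] ((T k)^[n₁] z) = (T k)^[n₂] z := by
        rw [← Function.iterate_add_apply]
        congr 1
        omega
      rw [e1] at b1
      have := b1.sep hk hd0 hd (by omega)
      rw [e2, ← e1] at this
      exact this)
  rw [Real.log_pow] at h
  exact_mod_cast h

end Crest.Agent.R128.OnePer
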