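import Mathlib

/-!
# Row 128, V5-LOC (nice points): choice of the pair of exit digits (helper606)

Two sequences of slopes `a`, `b` whose consecutive ratios are `≍ k`; then two of the indices
`2, 3, 4` have slopes with ratio at most `C √k`.
-/

set_option autoImplicit false

namespace Crest.Agent.R128.PairPick

private theorem half {k c d E : ℝ} (hk : 1 ≤ k) (hc : 0 < c) (hc1 : c ≤ 1) (hd : 1 ≤ d)
    (hE : 1 ≤ E) {a b : ℕ → ℝ} (ha : ∀ i, 0 < a i) (hb : ∀ i, 0 < b i)
    (ha1 : ∀ i, 2 ≤ i → i < 4 → c * k * a i ≤ a (i + 1))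
    (ha2 : ∀ i, 2 ≤ i → i < 4 → a (i + 1) ≤ d * k * a i)
    (hab : b 2 ≤ E * k ^ 2 * a 2) (h : a 2 ≤ b 2) :
    ∃ i, 2 ≤ i ∧ i ≤ 4 ∧ a i ≤ E * d ^ 2 / c ^ 2 * Real.sqrt k * b 2 ∧
      b 2 ≤ E * d ^ 2 / c ^ 2 * Real.sqrt k * a i := by
  have hk0 : 0 < k := by linarith
  set s := Real.sqrt k with hs
  have hs0 : 0 < s := Real.sqrt_pos.2 hk0
  have hs1 : 1 ≤ s := by rw [hs]; exact Real.one_le_sqrt.2 hk
  have hss : s * s = k := Real.mul_self_sqrt hk0.le
  set C := E * d ^ 2 / c ^ 2 with hC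
  have hc2 : 0 < c ^ 2 := by positivity
  have hc21 : c ^ 2 ≤ 1 := by nlinarith
  have hd2 : 1 ≤ d ^ 2 := by nlinarith
  have hdd : d ≤ d ^ 2 := by nlinarith
  have hC1 : E * d ^ 2 ≤ C := by
    rw [hC, le_div_iff₀ hc2]
    have : 0 ≤ E * d ^ 2 := by positivity
    nlinarith
  have hCd : d ^ 2 ≤ C := le_trans (by nlinarith) hC1
  have hCd1 : d ≤ C := le_trans hdd hCd
  have hC0 : 1 ≤ C := le_trans hd2 hCd
  have hCE : E ≤ C * c ^ 2 := by
    rw [hC, div_mul_cancel₀ _ hc2.ne']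
    nlinarith
  have hCc : 1 ≤ C * c := by
    have h1 : E ≤ C * c ^ 2 := hCE
    have h2 : C * c ^ 2 ≤ C * c := by
      have : c ^ 2 ≤ c := by nlinarith
      exact mul_le_mul_of_nonneg_left this (by linarith)
    linarith
  have a2 := ha 2
  have b2 := hb 2
  have e3 := ha1 2 le_rfl (by norm_num)
  have f3 := ha2 2 le_rfl (by norm_num)
  have e4 := ha1 3 (by norm_num) (by norm_num)
  have f4 := ha2 3 (by norm_num) (by norm_num)
  norm_num at e3 f3 e4 f4
  by_cases h1 : b 2 ≤ s * a 2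
  · refine ⟨2, le_rfl, by norm_num, ?_, ?_⟩
    · have : (1 : ℝ) ≤ C * s := by nlinarith
      nlinarith
    · calc b 2 ≤ s * a 2 := h1
        _ = 1 * (s * a 2) := by ring
        _ ≤ C * (s * a 2) := mul_le_mul_of_nonneg_right hC0 (by positivity)
        _ = C * s * a 2 := by ring
  push Not at h1
  by_cases h2 : b 2 ≤ k * s * a 2
  · refine ⟨3, by norm_num, by norm_num, ?_, ?_⟩
    · calc a 3 ≤ d * k * a 2 := f3
        _ = d * s * (s * a 2) := by rw [← hss]; ring
        _ ≤ d * s * b 2 := mul_le_mul_of_nonneg_left h1.le (by positivity)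
        _ ≤ C * s * b 2 := by
            have := mul_le_mul_of_nonneg_right hCd1 (by positivity : 0 ≤ s * b 2)
            calc d * s * b 2 = d * (s * b 2) := by ring
              _ ≤ C * (s * b 2) := this
              _ = C * s * b 2 := by ring
    · calc b 2 ≤ k * s * a 2 := h2
        _ ≤ (C * c) * (k * s * a 2) := by
            have : 0 ≤ k * s * a 2 := by positivity
            nlinarith
        _ = C * s * (c * k * a 2) := by ring
        _ ≤ C * s * a 3 := mul_le_mul_of_nonneg_left e3 (by positivity)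
  push Not at h2
  · refine ⟨4, by norm_num, by norm_num, ?_, ?_⟩
    · calc a 4 ≤ d * k * a 3 := f4
        _ ≤ d * k * (d * k * a 2) := mul_le_mul_of_nonneg_left f3 (by positivity)
        _ = d ^ 2 * s * (k * s * a 2) := by
            have : k = s * s := hss.symm
            rw [this]; ring
        _ ≤ d ^ 2 * s * b 2 := mul_le_mul_of_nonneg_left h2.le (by positivity)
        _ ≤ C * s * b 2 := by
            have := mul_le_mul_of_nonneg_right hCd (by positivity : 0 ≤ s * b 2)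
            calc d ^ 2 * s * b 2 = d ^ 2 * (s * b 2) := by ring
              _ ≤ C * (s * b 2) := this
              _ = C * s * b 2 := by ring
    · calc b 2 ≤ E * k ^ 2 * a 2 := hab
        _ ≤ (C * c ^ 2) * (k ^ 2 * a 2) := by
            have := mul_le_mul_of_nonneg_right hCE (by positivity : 0 ≤ k ^ 2 * a 2)
            calc E * k ^ 2 * a 2 = E * (k ^ 2 * a 2) := by ring
              _ ≤ _ := this
        _ = C * (c * k * (c * k * a 2)) := by ring
        _ ≤ C * (c * k * a 3) := by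
            refine mul_le_mul_of_nonneg_left ?_ (by linarith)
            exact mul_le_mul_of_nonneg_left e3 (by positivity)
        _ ≤ C * a 4 := mul_le_mul_of_nonneg_left e4 (by linarith)
        _ = C * 1 * a 4 := by ring
        _ ≤ C * s * a 4 := by
            refine mul_le_mul_of_nonneg_right ?_ (ha 4).le
            exact mul_le_mul_of_nonneg_left hs1 (by linarith)

/-- **Pairing.**  Consecutive ratios in `[c k, d k]` on the indices `1..5`, first slopes within a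
factor `E k ^ 2` of each other: there are indices `i, j ∈ {2, 3, 4}` whose slopes are within a
factor `C √k` of each other, `C = (d E / c) d ^ 2 / c ^ 2`. -/
theorem pair {k c d E : ℝ} (hk : 1 ≤ k) (hc : 0 < c) (hc1 : c ≤ 1) (hd : 1 ≤ d)
    (hE : 1 ≤ E) {a b : ℕ → ℝ} (ha : ∀ i, 0 < a i) (hb : ∀ i, 0 < b i)
    (ha1 : ∀ i, 1 ≤ i → i < 4 → c * k * a i ≤ a (i + 1))
    (ha2 : ∀ i, 1 ≤ i → i < 4 → a (i + 1) ≤ d * k * a i)
    (hb1 : ∀ i, 1 ≤ i → i < 4 → c * k * b i ≤ b (i + 1))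
    (hb2 : ∀ i, 1 ≤ i → i < 4 → b (i + 1) ≤ d * k * b i)
    (hab : b 1 ≤ E * k ^ 2 * a 1) (hba : a 1 ≤ E * k ^ 2 * b 1) :
    ∃ i j, 2 ≤ i ∧ i ≤ 4 ∧ 2 ≤ j ∧ j ≤ 4 ∧
      a i ≤ (d * E / c) * d ^ 2 / c ^ 2 * Real.sqrt k * b j ∧
      b j ≤ (d * E / c) * d ^ 2 / c ^ 2 * Real.sqrt k * a i := by
  have hk0 : 0 < k := by linarith
  have hE' : 1 ≤ d * E / c := by
    rw [le_div_iff₀ hc]; nlinarith
  have key : ∀ {x y : ℕ → ℝ}, (∀ i, 0 < x i) → (∀ i, 0 < y i) →
      (c * k * x 1 ≤ x 2) → (y 2 ≤ d * k * y 1) → y 1 ≤ E * k ^ 2 * x 1 →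
      y 2 ≤ (d * E / c) * k ^ 2 * x 2 := by
    intro x y hx hy h1 h2 h3
    calc y 2 ≤ d * k * y 1 := h2
      _ ≤ d * k * (E * k ^ 2 * x 1) := mul_le_mul_of_nonneg_left h3 (by positivity)
      _ = (d * E / c) * k ^ 2 * (c * k * x 1) := by field_simp
      _ ≤ (d * E / c) * k ^ 2 * x 2 := mul_le_mul_of_nonneg_left h1 (by positivity)
  have a12 := ha1 1 le_rfl (by norm_num)
  have a21 := ha2 1 le_rfl (by norm_num)
  have b12 := hb1 1 le_rfl (by norm_num)
  have b21 := hb2 1 le_rfl (by norm_num)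
  norm_num at a12 a21 b12 b21
  rcases le_total (a 2) (b 2) with h | h
  · obtain ⟨i, h2, h4, e1, e2⟩ := half hk hc hc1 hd hE' ha hb
      (fun i h2 h4 => ha1 i (by omega) h4) (fun i h2 h4 => ha2 i (by omega) h4)
      (key ha hb a12 b21 hab) h
    exact ⟨i, 2, h2, h4, le_rfl, by norm_num, e1, e2⟩
  · obtain ⟨j, h2, h4, e1, e2⟩ := half hk hc hc1 hd hE' hb ha
      (fun i h2 h4 => hb1 i (by omega) h4) (fun i h2 h4 => hb2 i (by omega) h4)
      (key hb ha b12 a21 hba) h
    exact ⟨2, j, le_rfl, by norm_num, h2, h4, e2, e1⟩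

end Crest.Agent.R128.PairPick
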