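import Mathlib
import Crest.Agent.R128.Acc

/-!
# Row 128, part A', descents version (helper114)

`DSC k κ`: the points `w` such that some root contour of the past descends by at least `κ` on the
last step before `w`.  **Theorem** `result_of_DSC`: if the area of `DSC k (log k / 2)` is at most
`1/5` for all large `k` then S0172 holds.  No tops, no sum over heights, no finite windows.
-/

set_option autoImplicit false
open MeasureTheory Filter Topology Finset
open Crest.AnalysisR.StandardFamily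
open Crest.Agent.R128.Acc

namespace Crest.Agent.R128.PartA2

section Det

variable {ρ V : ℕ → ℝ} {L κ : ℝ}

open Classical in
/-- deterministic accounting, descents version -/
theorem accounting' (hV : ∀ n, 0 ≤ V n) (hρ : ∀ n, 0 < ρ n)
    (h1 : ∀ n, V n * ρ (n + 1) ≤ ρ (n + 2) + ρ n)
    (h3 : ∀ n, ρ n ≤ V n * ρ (n + 1) + ρ (n + 2))
    (h00 : ρ 0 = 1) (h01 : ρ 1 = 1)
    (hL : ∀ n, Real.log (1 + V n) ≤ L) (hκ : 0 < κ) (N : ℕ) :
    (∑ n ∈ range N, gn (V n)) - 5 * L * #{n ∈ range N | V n < Real.exp κ + 1}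
      - 2 * L * #{n ∈ range N | bt ρ (n + 1) + κ ≤ bt ρ n} ≤ bt ρ N := by
  have hL0 : 0 ≤ L := (Real.log_nonneg (by linarith [hV 0])).trans (hL 0)
  have hb0 : bt ρ 0 = 0 := by
    unfold bt
    rw [zero_add, h00, h01]
    simp
  have he2 : (2 : ℝ) ≤ Real.exp κ + 1 := by linarith [Real.add_one_le_exp κ]
  set B : ℝ := (#{n ∈ range N | V n < Real.exp κ + 1} : ℝ) with hB
  set D : ℝ := (#{n ∈ range N | bt ρ (n + 1) + κ ≤ bt ρ n} : ℝ) with hD
  have hB2 : (#{n ∈ range N | V n < 2} : ℝ) ≤ B := by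
    rw [hB]
    have : #{n ∈ range N | V n < 2} ≤ #{n ∈ range N | V n < Real.exp κ + 1} := by
      apply Finset.card_le_card
      intro n hn
      rw [Finset.mem_filter] at hn ⊢
      exact ⟨hn.1, by linarith [hn.2]⟩
    exact_mod_cast this
  have hVal := (valleys_le hρ h1 (by rw [h00, h01]) N).trans hB2
  -- one step
  have hstep : ∀ n, max 0 (bt ρ n - bt ρ (n + 1)) ≤
      L * (if V n < Real.exp κ + 1 then 1 else 0) + L * (if Val ρ n then 1 else 0) +
        L * (if bt ρ (n + 1) + κ ≤ bt ρ n then 1 else 0) := by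
    intro n
    have a1 : 0 ≤ L * (if V n < Real.exp κ + 1 then (1 : ℝ) else 0) := by
      apply mul_nonneg hL0
      split_ifs <;> norm_num
    have a2 : 0 ≤ L * (if Val ρ n then (1 : ℝ) else 0) := by
      apply mul_nonneg hL0
      split_ifs <;> norm_num
    have a3 : 0 ≤ L * (if bt ρ (n + 1) + κ ≤ bt ρ n then (1 : ℝ) else 0) := by
      apply mul_nonneg hL0
      split_ifs <;> norm_num
    have a4 : bt ρ n - bt ρ (n + 1) ≤ L := by linarith [bt_le_succ hV hρ h3 hL n]
    refine max_le (by linarith) ?_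
    by_cases c1 : V n < Real.exp κ + 1
    · rw [if_pos c1] at a1 ⊢
      linarith
    by_cases c2 : Val ρ n
    · rw [if_pos c2] at a2 ⊢
      linarith
    by_cases c3 : bt ρ (n + 1) + κ ≤ bt ρ n
    · rw [if_pos c3] at a3 ⊢
      linarith
    rcases le_or_gt (bt ρ n) (bt ρ (n + 1)) with h | h
    · linarith
    · exfalso
      push Not at c1
      have h5 := step_abs hρ h1 (by linarith) c2
      have h6 : κ ≤ Real.log (V n - 1) := by
        rw [Real.le_log_iff_exp_le (by linarith [Real.exp_pos κ])]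
        linarith
      rw [abs_of_neg (by linarith)] at h5
      exact c3 (by linarith)
  have hdown := Finset.sum_le_sum fun n (_ : n ∈ range N) => hstep n
  rw [Finset.sum_add_distrib, Finset.sum_add_distrib, ← Finset.mul_sum, ← Finset.mul_sum,
    ← Finset.mul_sum, Finset.sum_boole, Finset.sum_boole, Finset.sum_boole, ← hB, ← hD] at hdown
  -- total variation
  have hvar : ∀ n, gn (V n) - L * (if Val ρ n then 1 else 0) ≤ |bt ρ (n + 1) - bt ρ n| := by
    intro n
    unfold gn
    by_cases h5 : V n < 2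
    · rw [if_pos h5]
      have : 0 ≤ L * (if Val ρ n then (1 : ℝ) else 0) := by
        apply mul_nonneg hL0
        split_ifs <;> norm_num
      linarith [abs_nonneg (bt ρ (n + 1) - bt ρ n)]
    · rw [if_neg h5]
      push Not at h5
      by_cases h6 : Val ρ n
      · rw [if_pos h6]
        have : Real.log (V n - 1) ≤ L :=
          (Real.log_le_log (by linarith) (by linarith)).trans (hL n)
        linarith [abs_nonneg (bt ρ (n + 1) - bt ρ n)]
      · rw [if_neg h6]
        linarith [step_abs hρ h1 h5 h6]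
  have hvar2 := Finset.sum_le_sum fun n (_ : n ∈ range N) => hvar n
  rw [Finset.sum_sub_distrib, ← Finset.mul_sum, Finset.sum_boole] at hvar2
  have hid : bt ρ N = ∑ n ∈ range N, |bt ρ (n + 1) - bt ρ n| -
      2 * ∑ n ∈ range N, max 0 (bt ρ n - bt ρ (n + 1)) := by
    have : bt ρ N = ∑ n ∈ range N, (bt ρ (n + 1) - bt ρ n) := by
      rw [Finset.sum_range_sub, hb0, sub_zero]
    rw [this, Finset.mul_sum, ← Finset.sum_sub_distrib]
    refine Finset.sum_congr rfl fun n _ => ?_
    rcases le_total (bt ρ n) (bt ρ (n + 1)) with h | h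
    · rw [abs_of_nonneg (by linarith), max_eq_left (by linarith)]
      ring
    · rw [abs_of_nonpos (by linarith), max_eq_right (by linarith)]
      ring
  have hmul3 := mul_le_mul_of_nonneg_left hVal hL0
  rw [hid]
  nlinarith

end Det

/-- some root contour of the past descends by `κ` on the last step before `w` -/
def DSC (k κ : ℝ) : Set Tor :=
  {w | ∃ (n : ℕ) (z : Tor), (T k)^[n + 1] z = w ∧ bt (rr k z) (n + 1) + κ ≤ bt (rr k z) n}

open Classical in
theorem pointwise' {k κ : ℝ} (hk : 0 ≤ k) (hκ : 0 < κ) (z : Tor) (N : ℕ) :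
    (∑ n ∈ range N, (lm k 1 ((T k)^[n] z) - Real.log 2)) -
      5 * Real.log (3 + 2 * Real.pi * k) * #{n ∈ range N | dg k z n < Real.exp κ + 1}
      - 2 * Real.log (3 + 2 * Real.pi * k) * #{n ∈ range N | (T k)^[n + 1] z ∈ DSC k κ}
      ≤ lm k N z + Real.log 2 := by
  have hL0 : 0 ≤ Real.log (3 + 2 * Real.pi * k) := Real.log_nonneg (by
    have : 0 ≤ 2 * Real.pi * k := by positivity
    linarith)
  have h := accounting' (ρ := rr k z) (V := dg k z) (L := Real.log (3 + 2 * Real.pi * k)) (κ := κ)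
    (fun n => abs_nonneg _) (rr_pos k z) (rr_h1 k z) (rr_h3 k z)
    (rr_zero k z) (rr_one k z)
    (fun n => Real.log_le_log (by have := abs_nonneg (V k ((T k)^[n] z).2); unfold dg; linarith)
      (by linarith [dg_le k hk z n])) hκ N
  have h1 := bt_le_lm k N z
  have h2 : (∑ n ∈ range N, (lm k 1 ((T k)^[n] z) - Real.log 2)) ≤
      ∑ n ∈ range N, gn (dg k z n) := Finset.sum_le_sum fun n _ => gn_ge k _
  have h3 : (#{n ∈ range N | bt (rr k z) (n + 1) + κ ≤ bt (rr k z) n} : ℝ) ≤
      (#{n ∈ range N | (T k)^[n + 1] z ∈ DSC k κ} : ℝ) := by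
    have : #{n ∈ range N | bt (rr k z) (n + 1) + κ ≤ bt (rr k z) n} ≤
        #{n ∈ range N | (T k)^[n + 1] z ∈ DSC k κ} := by
      apply Finset.card_le_card
      intro t ht
      rw [Finset.mem_filter] at ht ⊢
      exact ⟨ht.1, t, z, rfl, ht.2⟩
    exact_mod_cast this
  have h4 := mul_le_mul_of_nonneg_left h3
    (by positivity : 0 ≤ 2 * Real.log (3 + 2 * Real.pi * k))
  linarith

/-- **integrated accounting** -/
theorem integrated' {k κ : ℝ} (hk : 1 ≤ k) (hκ : 0 < κ) (N : ℕ) :
    N * (Real.log k - 3 - Real.log 2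
      - 5 * Real.log (3 + 2 * Real.pi * k) * ((Real.exp κ + 1) / k)
      - 2 * Real.log (3 + 2 * Real.pi * k) * (volume : Measure Tor).real (DSC k κ)) - Real.log 2
      ≤ ∫ z : Tor, lm k N z := by
  classical
  have hL0 : 0 ≤ Real.log (3 + 2 * Real.pi * k) := Real.log_nonneg (by
    have : 0 ≤ 2 * Real.pi * k := by positivity
    linarith)
  set c1 := 5 * Real.log (3 + 2 * Real.pi * k) with hc1
  set c2 := 2 * Real.log (3 + 2 * Real.pi * k) with hc2
  have hc1n : 0 ≤ c1 := by positivity
  have hc2n : 0 ≤ c2 := by positivity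
  set B : Set Tor := {z | |V k z.2| ≤ Real.exp κ + 1} with hB
  have hBm : MeasurableSet B :=
    (isClosed_le ((continuous_V k).comp continuous_snd).abs continuous_const).measurableSet
  set S : Set Tor := toMeasurable volume (DSC k κ) with hS
  have hSm : MeasurableSet S := measurableSet_toMeasurable _ _
  have hSv : (volume : Measure Tor).real S = (volume : Measure Tor).real (DSC k κ) := by
    simp only [hS, measureReal_def, measure_toMeasurable]
  have hBI : Integrable (B.indicator (fun _ => (1:ℝ))) (volume : Measure Tor) :=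
    (integrable_const (1:ℝ)).indicator hBm
  have hSI : Integrable (S.indicator (fun _ => (1:ℝ))) (volume : Measure Tor) :=
    (integrable_const (1:ℝ)).indicator hSm
  have hlI : Integrable (fun z => lm k 1 z - Real.log 2) (volume : Measure Tor) :=
    (integrable_lm k 1).sub (integrable_const _)
  have hpt : ∀ z : Tor, (∑ n ∈ range N, (lm k 1 ((T k)^[n] z) - Real.log 2)) -
      c1 * (∑ n ∈ range N, B.indicator (fun _ => (1:ℝ)) ((T k)^[n] z))
      - c2 * (∑ n ∈ range N, S.indicator (fun _ => (1:ℝ)) ((T k)^[n + 1] z))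
      ≤ lm k N z + Real.log 2 := by
    intro z
    refine le_trans ?_ (pointwise' (by linarith) hκ z N)
    have e1 : (#{n ∈ range N | dg k z n < Real.exp κ + 1} : ℝ) ≤
        ∑ n ∈ range N, B.indicator (fun _ => (1:ℝ)) ((T k)^[n] z) := by
      rw [Finset.card_filter]
      push_cast
      refine Finset.sum_le_sum fun n _ => ?_
      rw [Set.indicator_apply]
      split_ifs with h1 h2 h2
      · exact le_rfl
      · exact absurd h1.le h2
      · norm_num
      · exact le_rfl
    have e2 : (#{n ∈ range N | (T k)^[n + 1] z ∈ DSC k κ} : ℝ) ≤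
        ∑ n ∈ range N, S.indicator (fun _ => (1:ℝ)) ((T k)^[n + 1] z) := by
      rw [Finset.card_filter]
      push_cast
      refine Finset.sum_le_sum fun n _ => ?_
      rw [Set.indicator_apply]
      split_ifs with h1 h2 h2
      · exact le_rfl
      · exact absurd (subset_toMeasurable volume (DSC k κ) h1) h2
      · norm_num
      · exact le_rfl
    have e3 := mul_le_mul_of_nonneg_left e1 hc1n
    have e4 := mul_le_mul_of_nonneg_left e2 hc2n
    linarith
  have i1 : Integrable (fun z : Tor => ∑ n ∈ range N, (lm k 1 ((T k)^[n] z) - Real.log 2)) volume :=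
    integrable_finsetSum _ fun n _ => integrable_comp_iter n hlI
  have i2 : Integrable (fun z : Tor => c1 * ∑ n ∈ range N, B.indicator (fun _ => (1:ℝ))
      ((T k)^[n] z)) volume :=
    (integrable_finsetSum _ fun n _ => integrable_comp_iter n hBI).const_mul _
  have i3 : Integrable (fun z : Tor => c2 * ∑ n ∈ range N,
      S.indicator (fun _ => (1:ℝ)) ((T k)^[n + 1] z)) volume :=
    (integrable_finsetSum _ fun n _ => integrable_comp_iter (n + 1) hSI).const_mul _
  have hI : ∫ z : Tor, ((∑ n ∈ range N, (lm k 1 ((T k)^[n] z) - Real.log 2)) -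
      c1 * (∑ n ∈ range N, B.indicator (fun _ => (1:ℝ)) ((T k)^[n] z))
      - c2 * (∑ n ∈ range N, S.indicator (fun _ => (1:ℝ)) ((T k)^[n + 1] z)))
      ≤ ∫ z : Tor, (lm k N z + Real.log 2) :=
    integral_mono ((i1.sub i2).sub i3) ((integrable_lm k N).add (integrable_const _)) hpt
  have j1 : ∫ z : Tor, ∑ n ∈ range N, (lm k 1 ((T k)^[n] z) - Real.log 2) =
      N * ((∫ z : Tor, lm k 1 z) - Real.log 2) := by
    rw [integral_finsetSum _ fun n _ => integrable_comp_iter n hlI]
    have : ∀ n, ∫ z : Tor, (lm k 1 ((T k)^[n] z) - Real.log 2) =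
        (∫ z : Tor, lm k 1 z) - Real.log 2 := by
      intro n
      rw [integral_comp_iter (f := fun z => lm k 1 z - Real.log 2) n hlI.aestronglyMeasurable,
        integral_sub (integrable_lm k 1) (integrable_const _)]
      simp
    rw [Finset.sum_congr rfl fun n _ => this n]
    simp only [Finset.sum_const, Finset.card_range, nsmul_eq_mul]
  have j2 : ∫ z : Tor, c1 * ∑ n ∈ range N, B.indicator (fun _ => (1:ℝ)) ((T k)^[n] z) =
      c1 * (N * (volume : Measure Tor).real B) := by
    rw [integral_const_mul, integral_finsetSum _ fun n _ => integrable_comp_iter n hBI]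
    have : ∀ n, ∫ z : Tor, B.indicator (fun _ => (1:ℝ)) ((T k)^[n] z) =
        (volume : Measure Tor).real B := by
      intro n
      rw [integral_comp_iter (f := B.indicator (fun _ => (1:ℝ))) n hBI.aestronglyMeasurable,
        integral_indicator hBm]
      simp
    rw [Finset.sum_congr rfl fun n _ => this n]
    simp
  have j3 : ∫ z : Tor, c2 * ∑ n ∈ range N, S.indicator (fun _ => (1:ℝ)) ((T k)^[n + 1] z) =
      c2 * (N * (volume : Measure Tor).real (DSC k κ)) := by
    rw [integral_const_mul, integral_finsetSum _ fun n _ => integrable_comp_iter (n + 1) hSI]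
    have : ∀ n, ∫ z : Tor, S.indicator (fun _ => (1:ℝ)) ((T k)^[n + 1] z) =
        (volume : Measure Tor).real (DSC k κ) := by
      intro n
      rw [integral_comp_iter (f := S.indicator (fun _ => (1:ℝ))) (n + 1) hSI.aestronglyMeasurable,
        integral_indicator hSm]
      simp [hSv]
    rw [Finset.sum_congr rfl fun n _ => this n]
    simp
  have k1 := integral_sub (i1.sub i2) i3
  have k2 := integral_sub i1 i2
  simp only [Pi.sub_apply] at k1 k2
  rw [k1, k2, j1, j2, j3, integral_add (integrable_lm k N) (integrable_const _)] at hI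
  simp only [integral_const, probReal_univ, smul_eq_mul, one_mul] at hI
  have hl := log_sub_le_integral_lm_one hk
  have hBv : (volume : Measure Tor).real B ≤ (Real.exp κ + 1) / k :=
    volumeReal_V_le hk (by positivity)
  have hN : (0 : ℝ) ≤ N := Nat.cast_nonneg N
  have a1 := mul_le_mul_of_nonneg_left hl hN
  have a2 := mul_le_mul_of_nonneg_left (mul_le_mul_of_nonneg_left hBv hc1n) hN
  nlinarith

/-- it is enough to bound the area of the descent points by `1/5` -/
theorem torus_of_DSC
    (H : ∃ k₁ : ℝ, ∀ k : ℝ, k₁ ≤ k → (volume : Measure Tor).real (DSC k (Real.log k / 2)) ≤ 1 / 5) :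
    ∃ k₀ : ℝ, 0 < k₀ ∧ ∀ k : ℝ, k₀ ≤ k → ∃ c : ℝ, 0 < c ∧
      ∃ᶠ n : ℕ in atTop, c * n ≤ ∫ z : Tor, lm k n z := by
  obtain ⟨k₁, H⟩ := H
  refine ⟨max k₁ (Real.exp 100), lt_max_of_lt_right (Real.exp_pos _), fun k hk => ?_⟩
  have hk1 : k₁ ≤ k := (le_max_left _ _).trans hk
  have hk2 : Real.exp 100 ≤ k := (le_max_right _ _).trans hk
  have hk0 : 0 < k := (Real.exp_pos _).trans_le hk2
  have hD := H k hk1
  set x := Real.log k with hx
  have hx100 : 100 ≤ x := by
    rw [hx, Real.le_log_iff_exp_le hk0]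
    exact hk2
  have hk' : 1 ≤ k := by
    have := Real.add_one_le_exp 100
    linarith
  have hkx : k = Real.exp x := (Real.exp_log hk0).symm
  refine ⟨1, one_pos, (eventually_ge_atTop 1).frequently.mono ?_⟩
  intro N hN1
  set κ := x / 2 with hκ
  have hκ0 : 0 < κ := by linarith
  have h := integrated' hk' hκ0 N
  rw [← hx] at h
  have hNr : (1 : ℝ) ≤ N := by exact_mod_cast hN1
  have hlog2 : Real.log 2 ≤ 1 := by
    have := Real.log_le_sub_one_of_pos (by norm_num : (0:ℝ) < 2)
    linarith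
  have hpi := Real.pi_lt_d2
  have hpi0 := Real.pi_pos
  have hL : Real.log (3 + 2 * Real.pi * k) ≤ x + 9 := by
    have a : 3 + 2 * Real.pi * k ≤ 10 * k := by nlinarith
    have b := Real.log_le_log (by positivity) a
    rw [Real.log_mul (by norm_num) hk0.ne'] at b
    have c := Real.log_le_sub_one_of_pos (by norm_num : (0:ℝ) < 10)
    linarith
  have hL0 : 0 ≤ Real.log (3 + 2 * Real.pi * k) := Real.log_nonneg (by
    have : 0 ≤ 2 * Real.pi * k := by positivity
    linarith)
  have he : x ^ 2 / 8 ≤ Real.exp κ := by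
    have := Real.quadratic_le_exp_of_nonneg hκ0.le
    rw [hκ] at this ⊢
    nlinarith
  have hkk : k = Real.exp κ * Real.exp κ := by
    rw [← Real.exp_add, hκ, add_halves]
    exact hkx
  have heκ : 0 < Real.exp κ := Real.exp_pos κ
  have he1 : 1 ≤ Real.exp κ := by nlinarith
  have hB : (Real.exp κ + 1) / k ≤ 16 / x ^ 2 := by
    rw [div_le_div_iff₀ hk0 (by positivity)]
    nlinarith
  have hB2 : 5 * Real.log (3 + 2 * Real.pi * k) * ((Real.exp κ + 1) / k) ≤ 2 := by
    have a : 5 * Real.log (3 + 2 * Real.pi * k) ≤ 7 * x + 45 := by linarith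
    have b : 0 ≤ (Real.exp κ + 1) / k := by positivity
    have c : (7 * x + 45) * (16 / x ^ 2) ≤ 2 := by
      rw [mul_div_assoc', div_le_iff₀ (by positivity)]
      nlinarith
    calc _ ≤ (7 * x + 45) * ((Real.exp κ + 1) / k) := mul_le_mul_of_nonneg_right a b
      _ ≤ (7 * x + 45) * (16 / x ^ 2) := mul_le_mul_of_nonneg_left hB (by linarith)
      _ ≤ 2 := c
  have hC : 2 * Real.log (3 + 2 * Real.pi * k) * (volume : Measure Tor).real (DSC k κ) ≤
      2 * (x + 9) * (1 / 5) := by
    apply mul_le_mul (by linarith) hD measureReal_nonneg (by linarith)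
  have hfin : (1 : ℝ) + 1 ≤ x - 3 - Real.log 2
      - 5 * Real.log (3 + 2 * Real.pi * k) * ((Real.exp κ + 1) / k)
      - 2 * Real.log (3 + 2 * Real.pi * k) * (volume : Measure Tor).real (DSC k κ) := by
    linarith
  have := mul_le_mul_of_nonneg_left hfin (by linarith : (0:ℝ) ≤ N)
  linarith

/-- **S0172 from the descent points.** -/
theorem result_of_DSC
    (H : ∃ k₁ : ℝ, ∀ k : ℝ, k₁ ≤ k → (volume : Measure Tor).real (DSC k (Real.log k / 2)) ≤ 1 / 5) :
    ∃ k₀ : ℝ, 0 < k₀ ∧ ∀ k : ℝ, k₀ ≤ k →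
      0 < MeasureTheory.volume ({p : ℝ × ℝ | ∃ c : ℝ, 0 < c ∧
          ∃ᶠ n : ℕ in Filter.atTop, c * n ≤ Real.log ‖fderiv ℝ (standardMapLift k)^[n] p‖} ∩
        Set.Ico (0 : ℝ) 1 ×ˢ Set.Ico (0 : ℝ) 1) :=
  result_of_torus (torus_of_DSC H)

/-- exhaustion: `DSC` inside an increasing union of sets of area at most `1/5` -/
theorem DSC_le_of_exhaustion {k κ c : ℝ} (hc : 0 ≤ c) {R : ℕ → Set Tor} (hR : Monotone R)
    (hsub : DSC k κ ⊆ ⋃ H, R H) (hle : ∀ H, (volume : Measure Tor).real (R H) ≤ c) :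
    (volume : Measure Tor).real (DSC k κ) ≤ c := by
  rw [measureReal_def]
  apply ENNReal.toReal_le_of_le_ofReal hc
  refine (measure_mono hsub).trans ?_
  rw [hR.measure_iUnion]
  refine iSup_le fun H => ?_
  rw [← ENNReal.ofReal_toReal (measure_ne_top (volume : Measure Tor) (R H))]
  exact ENNReal.ofReal_le_ofReal (hle H)

/-- **bootstrap (C')**: `x (H+1) ≤ C x H`, `x H ≤ a + K (x H)²`, `x` small at the start -/
theorem bootstrap_mul {x : ℕ → ℝ} {a K C : ℝ} (hx : ∀ H, 0 ≤ x H) (hC : 1 ≤ C) (hK : 0 ≤ K)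
    (ha : 0 ≤ a) (H0 : ℕ) (h0 : x H0 ≤ 2 * a) (hmul : ∀ H, H0 ≤ H → x (H + 1) ≤ C * x H)
    (hsmall : 4 * K * C ^ 2 * a ≤ 1)
    (hstep : ∀ H, H0 < H → x H ≤ a + K * x H ^ 2) :
    ∀ H, H0 ≤ H → x H ≤ 2 * a := by
  intro H hH
  induction H, hH using Nat.le_induction with
  | base => exact h0
  | succ n hn ih =>
    have h1 : x (n + 1) ≤ C * (2 * a) :=
      (hmul n hn).trans (mul_le_mul_of_nonneg_left ih (by linarith))
    have h2 := hstep (n + 1) (by omega)
    have h3 : x (n + 1) ^ 2 ≤ (C * (2 * a)) ^ 2 := by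
      apply pow_le_pow_left₀ (hx _) h1
    have h4 : K * x (n + 1) ^ 2 ≤ K * (C * (2 * a)) ^ 2 := mul_le_mul_of_nonneg_left h3 hK
    have h5 : K * (C * (2 * a)) ^ 2 = (4 * K * C ^ 2 * a) * a := by ring
    have h6 : (4 * K * C ^ 2 * a) * a ≤ 1 * a := mul_le_mul_of_nonneg_right hsmall ha
    linarith

end Crest.Agent.R128.PartA2
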