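import Mathlib
import Crest.Agent.R128.AccRoot
import Crest.Agent.R128.Rev
import Crest.Agent.R128.Chain

/-!
# Row 128, Part A' (helper331)

Every closed component of the root contour ends at a point which is not clean backwards.
Hence `∫ cross k N ≤ 2 N * area (not clean)` for every `N`, and S0172 follows as soon as the area of
the points which are not clean (forever, in one direction) is at most `1/8`.
-/

set_option autoImplicit false
open MeasureTheory Filter Topology Finset
open Crest.AnalysisR.StandardFamily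

namespace Crest.Agent.R128.PartA331

open Crest.Agent.R128 Crest.Agent.R128.Acc Crest.Agent.R128.AccRoot

open scoped Matrix.Norms.L2Operator

section norms

open Hyp

theorem rn_le (M : M2) (i : Fin 2) : rn M i ≤ 2 * ‖M‖ := by
  have h : ∀ j, |M i j| ≤ ‖M‖ := by
    intro j
    have h1 := norm_ap_le M (EuclideanSpace.single j (1:ℝ))
    rw [PiLp.norm_single, norm_one, mul_one] at h1
    have h2 : M i j = ap M (EuclideanSpace.single j (1:ℝ)) i := by
      rw [ap_apply]
      fin_cases j <;> simp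
    rw [h2]
    refine le_trans ?_ h1
    rw [← Real.norm_eq_abs]
    exact PiLp.norm_apply_le (ap M (EuclideanSpace.single j (1:ℝ))) i
  have h0 := h 0
  have h1 := h 1
  unfold rn
  linarith

theorem norm_le_rn (M : M2) {c : ℝ} (hc : 0 ≤ c) (h0 : rn M 0 ≤ c) (h1 : rn M 1 ≤ c) :
    ‖M‖ ≤ 2 * c := by
  apply norm_le_of_ap (by positivity)
  intro v
  have hv : ∀ j, |v j| ≤ ‖v‖ := fun j => by
    rw [← Real.norm_eq_abs]
    exact PiLp.norm_apply_le v j
  have key : ∀ i, |ap M v i| ≤ rn M i * ‖v‖ := by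
    intro i
    rw [ap_apply]
    unfold rn
    calc |M i 0 * v 0 + M i 1 * v 1| ≤ |M i 0 * v 0| + |M i 1 * v 1| := abs_add_le _ _
      _ = |M i 0| * |v 0| + |M i 1| * |v 1| := by rw [abs_mul, abs_mul]
      _ ≤ |M i 0| * ‖v‖ + |M i 1| * ‖v‖ := by
        gcongr
        · exact hv 0
        · exact hv 1
      _ = (|M i 0| + |M i 1|) * ‖v‖ := by ring
  have k0 := (key 0).trans (mul_le_mul_of_nonneg_right h0 (norm_nonneg v))
  have k1 := (key 1).trans (mul_le_mul_of_nonneg_right h1 (norm_nonneg v))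
  have hcv : 0 ≤ c * ‖v‖ := by positivity
  have h2 : ‖ap M v‖ ^ 2 ≤ (2 * c * ‖v‖) ^ 2 := by
    rw [norm_sq, ← sq_abs (ap M v 0), ← sq_abs (ap M v 1)]
    have a0 := abs_nonneg (ap M v 0)
    have a1 := abs_nonneg (ap M v 1)
    nlinarith
  exact le_of_sq_le_sq h2 (by positivity)

end norms

theorem nm_le (k : ℝ) (n : ℕ) (z : Tor) : nm k n z ≤ 2 * ‖Mn k n z‖ := by
  unfold nm
  rw [rr_succ]
  exact max_le (rn_le _ 0) (rn_le _ 1)

theorem le_nm (k : ℝ) (n : ℕ) (z : Tor) : ‖Mn k n z‖ ≤ 2 * nm k n z := by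
  have h := nm_pos k n z
  apply norm_le_rn _ h.le
  · exact le_max_left _ _
  · unfold nm
    rw [← rr_succ]
    exact le_max_right _ _

theorem norm_Am_le {k : ℝ} (hk : 0 ≤ k) (z : Tor) : ‖Am k z‖ ≤ 6 + 4 * Real.pi * k := by
  have hV : |V k z.2| ≤ 2 + 2 * Real.pi * k := dg_le k hk z 0
  have h := norm_le_rn (Am k z) (c := 3 + 2 * Real.pi * k) (by positivity) (by
    unfold rn Am
    simp
    nlinarith [Real.pi_pos, mul_nonneg Real.pi_pos.le hk]) (by
    unfold rn Am
    simp
    linarith)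
  linarith

theorem step_eq (k : ℝ) (j : ℕ) (z : Tor) :
    Mn k (j + 1) z * (Mn k j z)⁻¹ = Am k ((T k)^[j] z) := by
  rw [Mn_succ', Matrix.mul_assoc, Matrix.mul_nonsing_inv _ (by rw [det_Mn]; exact isUnit_one),
    Matrix.mul_one]

theorem seg_eq (k : ℝ) (i b : ℕ) (z : Tor) :
    Mn k (i + b) z * (Mn k i z)⁻¹ = Mn k b ((T k)^[i] z) := by
  have h : Mn k (i + b) z = Mn k b ((T k)^[i] z) * Mn k i z := by
    rw [add_comm, Mn_add]
  rw [h, Matrix.mul_assoc, Matrix.mul_nonsing_inv _ (by rw [det_Mn]; exact isUnit_one),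
    Matrix.mul_one]

/-- **closed components are short in the transfer norm** -/
theorem comp_le {k : ℝ} (hk : 0 ≤ k) (z : Tor) {i v : ℕ} (hiv : i + 1 < v) {L : ℝ} (hL : 0 < L)
    (hi : nm k i z ≤ L) (hv : nm k v z ≤ L) (hin : ∀ m, i < m → m < v → L < nm k m z) :
    ‖Mn k (v - i) ((T k)^[i] z)‖ ≤ 16 * (6 + 4 * Real.pi * k) * ((v - i : ℕ) : ℝ) := by
  set g : ℕ → Hyp.M2 := fun m => Mn k m z with hg
  have hdet : ∀ m, (g m).det = 1 := fun m => det_Mn k m z
  set A := 6 + 4 * Real.pi * k with hA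
  have hA0 : 0 < A := by positivity
  have hch := Chain.chain hdet (show i < v by omega)
  have hseg : g v * (g i)⁻¹ = Mn k (v - i) ((T k)^[i] z) := by
    have := seg_eq k i (v - i) z
    rw [show i + (v - i) = v by omega] at this
    exact this
  rw [hseg] at hch
  refine hch.trans ?_
  have hgi : ‖g i‖ ≤ 2 * L := (le_nm k i z).trans (by linarith)
  have hgv : ‖g v‖ ≤ 2 * L := (le_nm k v z).trans (by linarith)
  have hlow : ∀ m, i < m → m < v → L / 2 ≤ ‖g m‖ := by
    intro m h1 h2
    have a := hin m h1 h2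
    have b := nm_le k m z
    simp only [hg]
    linarith
  have hpos : ∀ m, 0 < ‖g m‖ := fun m => Chain.norm_pos' (hdet m)
  have hterm : ∀ j ∈ Ico i v, ‖g i‖ * ‖g v‖ * Chain.wt g j ≤ 16 * A := by
    intro j hj
    rw [Finset.mem_Ico] at hj
    have hst : ‖g (j + 1) * (g j)⁻¹‖ ≤ A := by
      simp only [hg]
      rw [step_eq]
      exact norm_Am_le hk _
    have pi := hpos i
    have pv := hpos v
    have pj := hpos j
    have pj1 := hpos (j + 1)
    unfold Chain.wt Chain.ch
    rw [mul_div_assoc', div_le_iff₀ (by positivity)]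
    have key : ‖g i‖ * ‖g v‖ ≤ 16 * (‖g j‖ * ‖g (j + 1)‖) := by
      by_cases hji : j = i
      · subst hji
        have h1 := hlow (j + 1) (by omega) (by omega)
        have : ‖g v‖ ≤ 16 * ‖g (j + 1)‖ := by linarith
        nlinarith
      · have h1 := hlow j (by omega) (by omega)
        by_cases hjv : j + 1 = v
        · rw [hjv]
          have : ‖g i‖ ≤ 16 * ‖g j‖ := by linarith
          nlinarith
        · have h2 := hlow (j + 1) (by omega) (by omega)
          have h3 : ‖g i‖ * ‖g v‖ ≤ (2 * L) * (2 * L) := mul_le_mul hgi hgv pv.le (by linarith)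
          have h4 : (L / 2) * (L / 2) ≤ ‖g j‖ * ‖g (j + 1)‖ := mul_le_mul h1 h2 (by linarith) pj.le
          nlinarith
    calc ‖g i‖ * ‖g v‖ * ‖g (j + 1) * (g j)⁻¹‖ ≤ (16 * (‖g j‖ * ‖g (j + 1)‖)) * A :=
          mul_le_mul key hst (norm_nonneg _) (by positivity)
      _ = 16 * A * (‖g j‖ * ‖g (j + 1)‖) := by ring
  calc ‖g i‖ * ‖g v‖ * ∑ j ∈ Ico i v, Chain.wt g j = ∑ j ∈ Ico i v, ‖g i‖ * ‖g v‖ * Chain.wt g j := by
        rw [Finset.mul_sum]
    _ ≤ ∑ j ∈ Ico i v, 16 * A := Finset.sum_le_sum hterm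
    _ = 16 * A * ((v - i : ℕ) : ℝ) := by
        rw [Finset.sum_const, Nat.card_Ico, nsmul_eq_mul, mul_comm]

/-- along regular digits the contour cannot go up and then down -/
theorem no_short {k : ℝ} (z : Tor) {i v : ℕ} (hiv : i + 1 < v) {L : ℝ}
    (hi : nm k i z ≤ L) (hv : nm k v z ≤ L) (hi1 : L < nm k (i + 1) z)
    (hreg : ∀ m, i < m → m < v → 2 ≤ dg k z m) : False := by
  have h0 : rr k z (i + 1) < rr k z (i + 2) := by
    unfold nm at hi hi1
    rw [show i + 1 + 1 = i + 2 from rfl] at hi1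
    have a := (le_max_right (rr k z i) (rr k z (i + 1))).trans hi
    rcases lt_max_iff.mp hi1 with h | h
    · linarith
    · linarith
  have h1 : L < rr k z (i + 2) := by
    unfold nm at hi1
    rw [show i + 1 + 1 = i + 2 from rfl, max_eq_right h0.le] at hi1
    exact hi1
  have key : ∀ d, i + 1 + d ≤ v →
      rr k z (i + 1 + d) ≤ rr k z (i + 1 + d + 1) ∧ L < rr k z (i + 1 + d + 1) := by
    intro d
    induction d with
    | zero => intro _; exact ⟨h0.le, h1⟩
    | succ d ih =>
      intro hd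
      obtain ⟨a, b⟩ := ih (by omega)
      have hr := hreg (i + 1 + d) (by omega) (by omega)
      have h2 := rr_h1 k z (i + 1 + d)
      have p := rr_pos k z (i + 1 + d + 1)
      have h3 : 2 * rr k z (i + 1 + d + 1) ≤ dg k z (i + 1 + d) * rr k z (i + 1 + d + 1) :=
        mul_le_mul_of_nonneg_right hr p.le
      have e : i + 1 + (d + 1) = i + 1 + d + 1 := by ring
      rw [e]
      have e2 : i + 1 + d + 1 + 1 = i + 1 + d + 2 := by ring
      rw [e2]
      constructor
      · linarith
      · linarith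
  obtain ⟨a, b⟩ := key (v - (i + 1)) (by omega)
  rw [show i + 1 + (v - (i + 1)) = v by omega] at b
  unfold nm at hv
  have := (le_max_right (rr k z v) (rr k z (v + 1))).trans hv
  linarith

/-- what is needed of a clean point -/
structure Clean (k : ℝ) (L0 : ℕ) (y : Tor) : Prop where
  reg : ∀ m < L0, 2 ≤ |V k ((T k)^[m] y).2|
  grow : ∀ j, L0 ≤ j → 16 * (6 + 4 * Real.pi * k) * (j : ℝ) < ‖Mn k j y‖

/-- the digits seen backwards -/
theorem dg_rev (k : ℝ) (z : Tor) {m v : ℕ} (hmv : m < v) :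
    |V k ((T k)^[v - 1 - m] (((T k)^[v] z).swap)).2| = dg k z m := by
  rw [Rev.digit_rev k (by omega), show v - (v - 1 - m) = m + 1 by omega, Rev.fst_iter_succ]
  rfl

/-- **the right foot of a closed component is not clean backwards** -/
theorem foot_not_clean {k : ℝ} (hk : 0 ≤ k) (z : Tor) {i v L0 : ℕ} (hiv : i + 1 < v) {L : ℝ}
    (hL : 0 < L) (hi : nm k i z ≤ L) (hv : nm k v z ≤ L)
    (hin : ∀ m, i < m → m < v → L < nm k m z) :
    ¬ Clean k L0 (((T k)^[v] z).swap) := by
  intro hC
  by_cases hs : v - i < L0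
  · refine no_short z hiv hi hv (hin (i + 1) (by omega) hiv) ?_
    intro m h1 h2
    have := hC.reg (v - 1 - m) (by omega)
    rwa [dg_rev k z h2] at this
  · push Not at hs
    have h1 := hC.grow (v - i) hs
    have h2 := Rev.norm_Mn_rev' k i (v - i) z
    rw [show i + (v - i) = v by omega] at h2
    rw [h2] at h1
    exact absurd (comp_le hk z hiv hL hi hv hin) (not_le.mpr h1)

/-- a crossing closes a component -/
theorem exists_comp {k : ℝ} (hk : 1 < k) (z : Tor) (n : ℕ)
    (h : ⌈bt (rr k z) n / Real.log k⌉₊ - ⌈bt (rr k z) (n + 1) / Real.log k⌉₊ ≠ 0) :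
    ∃ i L, i + 1 < n + 1 ∧ 0 < L ∧ nm k i z ≤ L ∧ nm k (n + 1) z ≤ L ∧
      ∀ m, i < m → m < n + 1 → L < nm k m z := by
  classical
  have hl : 0 < Real.log k := Real.log_pos hk
  set l := ⌈bt (rr k z) (n + 1) / Real.log k⌉₊ with hldef
  have h1 : l < ⌈bt (rr k z) n / Real.log k⌉₊ := by omega
  have h2 : (l : ℝ) < bt (rr k z) n / Real.log k := Nat.lt_ceil.mp h1
  have h3 : bt (rr k z) (n + 1) / Real.log k ≤ l := Nat.le_ceil _
  rw [lt_div_iff₀ hl] at h2
  rw [div_le_iff₀ hl] at h3
  set L := Real.exp (l * Real.log k) with hL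
  have e1 : ∀ m, bt (rr k z) m ≤ l * Real.log k ↔ nm k m z ≤ L := by
    intro m
    rw [← exp_bt, hL, Real.exp_le_exp]
  have e2 : ∀ m, l * Real.log k < bt (rr k z) m ↔ L < nm k m z := by
    intro m
    rw [← exp_bt, hL, Real.exp_lt_exp]
  have h0 : nm k 0 z ≤ L := by
    rw [← e1]
    unfold bt
    rw [zero_add, rr_zero, rr_one]
    simp only [max_self, Real.log_one]
    positivity
  -- the last time before `n` below the level
  have hex : ∃ i, i ≤ n ∧ nm k i z ≤ L ∧ ∀ m, i < m → m ≤ n → L < nm k m z := by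
    refine ⟨Nat.findGreatest (fun i => nm k i z ≤ L) n, Nat.findGreatest_le n,
      Nat.findGreatest_spec (P := fun i => nm k i z ≤ L) (Nat.zero_le n) h0, ?_⟩
    intro m hm hmn
    by_contra hc
    push Not at hc
    exact absurd (Nat.le_findGreatest (P := fun i => nm k i z ≤ L) hmn hc) (not_le.mpr hm)
  obtain ⟨i, hin, hiL, hi⟩ := hex
  refine ⟨i, L, ?_, Real.exp_pos _, hiL, (e1 _).mp h3, fun m a b => hi m a (by omega)⟩
  rcases hin.eq_or_lt with h4 | h4
  · rw [h4] at hiL
    exact absurd hiL (not_le.mpr ((e2 n).mp h2))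
  · omega

/-- at most two levels are crossed in one step -/
theorem cross_step_le {k : ℝ} (hk : 10 ≤ k) (z : Tor) (n : ℕ) :
    ⌈bt (rr k z) n / Real.log k⌉₊ - ⌈bt (rr k z) (n + 1) / Real.log k⌉₊ ≤ 2 := by
  have hl : 0 < Real.log k := Real.log_pos (by linarith)
  have hk0 : 0 < k := by linarith
  have hlog : Real.log (3 + 2 * Real.pi * k) ≤ 2 * Real.log k := by
    rw [← Real.log_rpow hk0]
    apply Real.log_le_log (by positivity)
    have : k ^ (2:ℝ) = k * k := by
      rw [show (2:ℝ) = ((2:ℕ):ℝ) by norm_num, Real.rpow_natCast]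
      ring
    rw [this]
    nlinarith [Real.pi_lt_d2]
  have hb : bt (rr k z) n ≤ bt (rr k z) (n + 1) + 2 * Real.log k := by
    refine le_trans ?_ (add_le_add le_rfl hlog)
    have hd : dg k z n ≤ 2 + 2 * Real.pi * k := dg_le k hk0.le z n
    have hd0 : 0 ≤ dg k z n := abs_nonneg _
    have hm : 0 < max (rr k z (n + 1)) (rr k z (n + 2)) := lt_max_of_lt_left (rr_pos k z _)
    have key : max (rr k z n) (rr k z (n + 1)) ≤
        (3 + 2 * Real.pi * k) * max (rr k z (n + 1)) (rr k z (n + 2)) := by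
      have a := le_max_left (rr k z (n + 1)) (rr k z (n + 2))
      have b := le_max_right (rr k z (n + 1)) (rr k z (n + 2))
      have c := rr_h3 k z n
      have p1 := rr_pos k z (n + 1)
      have hpk : 0 ≤ Real.pi * k := by positivity
      apply max_le
      · calc rr k z n ≤ dg k z n * rr k z (n + 1) + rr k z (n + 2) := c
          _ ≤ (2 + 2 * Real.pi * k) * max (rr k z (n + 1)) (rr k z (n + 2)) +
              max (rr k z (n + 1)) (rr k z (n + 2)) := by
              gcongr
          _ = _ := by ring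
      · nlinarith
    have h2 := Real.log_le_log (lt_max_of_lt_left (rr_pos k z n)) key
    rw [Real.log_mul (by positivity) hm.ne'] at h2
    unfold bt
    rw [show n + 1 + 1 = n + 2 from rfl]
    linarith
  have h1 : bt (rr k z) n / Real.log k ≤ bt (rr k z) (n + 1) / Real.log k + 2 := by
    rw [div_add' _ _ _ hl.ne']
    exact div_le_div_of_nonneg_right hb hl.le
  have h2 := Nat.ceil_mono h1
  have h3 := Nat.ceil_add_le (bt (rr k z) (n + 1) / Real.log k) 2
  have h4 : ⌈(2:ℝ)⌉₊ = 2 := by norm_num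
  omega

open Classical in
/-- pointwise form -/
theorem cross_le_not_clean {k : ℝ} (hk : 10 ≤ k) (L0 N : ℕ) (z : Tor) :
    cross k N z ≤ 2 * #{n ∈ range N | ¬ Clean k L0 (((T k)^[n + 1] z).swap)} := by
  unfold cross
  rw [Finset.card_filter, Finset.mul_sum]
  apply Finset.sum_le_sum
  intro n _
  by_cases h : ⌈bt (rr k z) n / Real.log k⌉₊ - ⌈bt (rr k z) (n + 1) / Real.log k⌉₊ = 0
  · rw [h]
    exact Nat.zero_le _
  · obtain ⟨i, L, h1, h2, h3, h4, h5⟩ := exists_comp (by linarith) z n h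
    rw [if_pos (foot_not_clean (by linarith) z h1 h2 h3 h4 h5)]
    exact cross_step_le hk z n

open Classical in
/-- integrated form -/
theorem integral_cross_le {k : ℝ} (hk : 10 ≤ k) (L0 N : ℕ) :
    ∫ z : Tor, (cross k N z : ℝ) ≤
      2 * N * (volume : Measure Tor).real {y | ¬ Clean k L0 y} := by
  set B := toMeasurable (volume : Measure Tor) {y | ¬ Clean k L0 y} with hB
  have hBm : MeasurableSet B := measurableSet_toMeasurable _ _
  have hBv : (volume : Measure Tor).real B = (volume : Measure Tor).real {y | ¬ Clean k L0 y} := by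
    rw [Measure.real, Measure.real, hB, measure_toMeasurable]
  have hsub : {y | ¬ Clean k L0 y} ⊆ B := subset_toMeasurable _ _
  have hmp : ∀ n, MeasurePreserving (fun z : Tor => ((T k)^[n] z).swap) volume volume :=
    fun n => mp_swap.comp (mp_iter k n)
  have hpt : ∀ z : Tor, (cross k N z : ℝ) ≤
      ∑ n ∈ range N, 2 * B.indicator (fun _ => (1:ℝ)) (((T k)^[n + 1] z).swap) := by
    intro z
    have h := cross_le_not_clean hk L0 N z
    have h' : (cross k N z : ℝ) ≤
        2 * (#{n ∈ range N | ¬ Clean k L0 (((T k)^[n + 1] z).swap)} : ℝ) := by exact_mod_cast h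
    refine h'.trans ?_
    rw [Finset.card_filter]
    push_cast
    rw [Finset.mul_sum]
    apply Finset.sum_le_sum
    intro n _
    apply mul_le_mul_of_nonneg_left _ (by norm_num)
    by_cases hc : Clean k L0 (((T k)^[n + 1] z).swap)
    · rw [if_neg (not_not.mpr hc)]
      exact Set.indicator_nonneg (fun _ _ => zero_le_one) _
    · rw [if_pos hc, Set.indicator_of_mem (hsub hc)]
  have hI : ∀ n, Integrable (fun z : Tor => 2 * B.indicator (fun _ => (1:ℝ))
      (((T k)^[n + 1] z).swap)) volume := by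
    intro n
    have h1 : Integrable (B.indicator (fun _ => (1:ℝ))) (volume : Measure Tor) :=
      (integrable_const (1:ℝ)).indicator hBm
    exact ((hmp (n + 1)).integrable_comp_of_integrable h1).const_mul 2
  have hI2 : ∀ n, ∫ z : Tor, 2 * B.indicator (fun _ => (1:ℝ)) (((T k)^[n + 1] z).swap) =
      2 * (volume : Measure Tor).real B := by
    intro n
    rw [integral_const_mul]
    congr 1
    have h1 : ∫ z : Tor, B.indicator (fun _ => (1:ℝ)) (((T k)^[n + 1] z).swap) =
        ∫ z : Tor, B.indicator (fun _ => (1:ℝ)) z := by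
      have hm := (hmp (n + 1)).map_eq
      have := integral_map (μ := (volume : Measure Tor)) (hmp (n + 1)).measurable.aemeasurable
        (f := B.indicator (fun _ => (1:ℝ)))
        ((measurable_const.indicator hBm).aestronglyMeasurable)
      rw [hm] at this
      exact this.symm
    rw [h1, integral_indicator hBm]
    simp
  calc ∫ z : Tor, (cross k N z : ℝ)
      ≤ ∫ z : Tor, ∑ n ∈ range N, 2 * B.indicator (fun _ => (1:ℝ)) (((T k)^[n + 1] z).swap) :=
        integral_mono (integrable_cross (by linarith) N) (integrable_finsetSum _ fun n _ => hI n) hpt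
    _ = ∑ n ∈ range N, 2 * (volume : Measure Tor).real B := by
        rw [integral_finsetSum _ fun n _ => hI n]
        exact Finset.sum_congr rfl fun n _ => hI2 n
    _ = 2 * N * (volume : Measure Tor).real {y | ¬ Clean k L0 y} := by
        rw [Finset.sum_const, Finset.card_range, nsmul_eq_mul, hBv]
        ring

/-- **S0172 from the area of the points which are not clean.** -/
theorem result_of_clean (L0 : ℕ)
    (H : ∃ k₁ : ℝ, ∀ k : ℝ, k₁ ≤ k → (volume : Measure Tor).real {y | ¬ Clean k L0 y} ≤ 1 / 8) :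
    ∃ k₀ : ℝ, 0 < k₀ ∧ ∀ k : ℝ, k₀ ≤ k →
      0 < MeasureTheory.volume ({p : ℝ × ℝ | ∃ c : ℝ, 0 < c ∧
          ∃ᶠ n : ℕ in Filter.atTop, c * n ≤ Real.log ‖fderiv ℝ (standardMapLift k)^[n] p‖} ∩
        Set.Ico (0 : ℝ) 1 ×ˢ Set.Ico (0 : ℝ) 1) := by
  obtain ⟨k₁, H⟩ := H
  apply result_of_cross
  refine ⟨max k₁ 10, fun k hk => Eventually.frequently (Eventually.of_forall fun N => ?_)⟩
  have h1 := H k ((le_max_left _ _).trans hk)
  have h2 := integral_cross_le ((le_max_right _ _).trans hk) L0 N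
  have hN : (0:ℝ) ≤ N := Nat.cast_nonneg N
  nlinarith

end Crest.Agent.R128.PartA331
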