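import Mathlib
import Crest.Agent.R128.Iter

set_option autoImplicit false

/-!
Pattern union bound for dyadic cells (row 128, PAY without `lambda_0`).

`G t n` = "level `n` is a good attempt for the point `t`".  If, in every dyadic cell of level `n`, the
hull of level `n + g` of the points *for which `n` is good* has relative volume at most `q`, and every
point of `E` has at most `B` bad levels in `[n₀, n₁]`, then `E` is exponentially small.  (For points of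
`E` for which `n` is bad nothing is assumed: they may return later.)
-/

open MeasureTheory Set
open scoped ENNReal

namespace Crest.Agent.R128.Pattern

open Crest.Agent.R128.Iter

/-- the patterns: subsets of `[n₀, n₁]` with at most `B` elements -/
noncomputable def pats (n₀ n₁ B : ℕ) : Finset (Finset ℕ) :=
  (Finset.Icc n₀ n₁).powerset.filter (fun s => s.card ≤ B)

theorem hull_mono_cell {E F : Set ℝ} {n g : ℕ} {m : ℤ}
    (h : ∀ t ∈ E ∩ cell n m, t ∈ F) : hull (n + g) E ∩ cell n m ⊆ hull (n + g) F ∩ cell n m := by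
  rintro u ⟨⟨t, ht, htE⟩, hu⟩
  refine ⟨⟨t, ht, h t ⟨htE, ?_⟩⟩, hu⟩
  have hb := idx_bounds (g := g) hu
  exact cell_subset hb.1 hb.2 ht

theorem patterns {E : Set ℝ} {G : ℝ → ℕ → Prop} {g : ℕ} (hg : 1 ≤ g) {q : ℝ≥0∞} {n₀ n₁ : ℕ}
    (hatt : ∀ n m, n₀ ≤ n → n ≤ n₁ →
      volume (hull (n + g) {t | t ∈ E ∩ cell n m ∧ G t n} ∩ cell n m) ≤ q * volume (cell n m))
    (m : ℤ) (M B : ℕ)
    (hbad : ∀ t ∈ E ∩ cell n₀ m, ∃ s : Finset ℕ, s.card ≤ B ∧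
      ∀ n, n₀ ≤ n → n ≤ n₁ → n ∉ s → G t n)
    (hM : M * g + B ≤ n₁ + 1 - n₀) :
    volume (E ∩ cell n₀ m) ≤ ((pats n₀ n₁ B).card : ℝ≥0∞) * (q ^ M * volume (cell n₀ m)) := by
  classical
  set Es : Finset ℕ → Set ℝ := fun s =>
    {t | t ∈ E ∩ cell n₀ m ∧ ∀ n, n₀ ≤ n → n ≤ n₁ → n ∉ s → G t n} with hEs
  have hcov : E ∩ cell n₀ m ⊆ ⋃ s ∈ pats n₀ n₁ B, (Es s ∩ cell n₀ m) := by
    intro t ht
    obtain ⟨s, hs1, hs2⟩ := hbad t ht
    simp only [mem_iUnion]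
    refine ⟨s ∩ Finset.Icc n₀ n₁, ?_, ⟨ht, fun n h1 h2 h3 => ?_⟩, ht.2⟩
    · rw [pats, Finset.mem_filter, Finset.mem_powerset]
      exact ⟨Finset.inter_subset_right, (Finset.card_le_card Finset.inter_subset_left).trans hs1⟩
    · refine hs2 n h1 h2 fun h4 => h3 ?_
      rw [Finset.mem_inter, Finset.mem_Icc]
      exact ⟨h4, h1, h2⟩
  have hone : ∀ s ∈ pats n₀ n₁ B, volume (Es s ∩ cell n₀ m) ≤ q ^ M * volume (cell n₀ m) := by
    intro s hs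
    rw [pats, Finset.mem_filter, Finset.mem_powerset] at hs
    refine attempts (E := Es s) (G := fun _ n => n ∉ s) hg (n₁ := n₁) ?_ m M ?_
    · rintro n m' h1 h2 ⟨t, -, ht⟩
      refine le_trans (measure_mono (hull_mono_cell ?_)) (hatt n m' h1 h2)
      rintro u ⟨⟨hu1, hu2⟩, hu3⟩
      exact ⟨⟨hu1.1, hu3⟩, hu2 n h1 h2 ht⟩
    · intro t _
      refine ⟨Finset.Icc n₀ n₁ \ s, ?_, fun i hi => ?_⟩
      · rw [Finset.card_sdiff_of_subset hs.1, Nat.card_Icc]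
        omega
      · rw [Finset.mem_sdiff, Finset.mem_Icc] at hi
        exact ⟨hi.1.1, hi.1.2, hi.2⟩
  calc volume (E ∩ cell n₀ m) ≤ volume (⋃ s ∈ pats n₀ n₁ B, (Es s ∩ cell n₀ m)) :=
        measure_mono hcov
    _ ≤ ∑ s ∈ pats n₀ n₁ B, volume (Es s ∩ cell n₀ m) := measure_biUnion_finset_le _ _
    _ ≤ ∑ _s ∈ pats n₀ n₁ B, q ^ M * volume (cell n₀ m) := Finset.sum_le_sum hone
    _ = ((pats n₀ n₁ B).card : ℝ≥0∞) * (q ^ M * volume (cell n₀ m)) := by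
        rw [Finset.sum_const, nsmul_eq_mul]

/-- number of patterns: `x ^ B * #pats ≤ (1 + x) ^ (number of levels)` -/
theorem card_pats_le (n₀ n₁ B : ℕ) {x : ℝ} (hx : 0 ≤ x) (hx1 : x ≤ 1) :
    x ^ B * ((pats n₀ n₁ B).card : ℝ) ≤ (1 + x) ^ (n₁ + 1 - n₀) := by
  have h1 : ∑ s ∈ (Finset.Icc n₀ n₁).powerset, x ^ s.card * (1:ℝ) ^ ((Finset.Icc n₀ n₁).card - s.card)
      = (x + 1) ^ (Finset.Icc n₀ n₁).card := Finset.sum_pow_mul_eq_add_pow x 1 (Finset.Icc n₀ n₁)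
  rw [Nat.card_Icc] at h1
  have h2 : ∑ s ∈ pats n₀ n₁ B, x ^ s.card * (1:ℝ) ^ ((n₁ + 1 - n₀) - s.card) ≤
      (x + 1) ^ (n₁ + 1 - n₀) := by
    rw [← h1]
    refine Finset.sum_le_sum_of_subset_of_nonneg (Finset.filter_subset _ _) fun s _ _ => ?_
    positivity
  have h3 : x ^ B * ((pats n₀ n₁ B).card : ℝ) ≤
      ∑ s ∈ pats n₀ n₁ B, x ^ s.card * (1:ℝ) ^ ((n₁ + 1 - n₀) - s.card) := by
    rw [mul_comm, ← nsmul_eq_mul, ← Finset.sum_const]
    refine Finset.sum_le_sum fun s hs => ?_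
    rw [pats, Finset.mem_filter] at hs
    rw [one_pow, mul_one]
    exact pow_le_pow_of_le_one hx hx1 hs.2
  calc x ^ B * ((pats n₀ n₁ B).card : ℝ) ≤ _ := h3
    _ ≤ _ := h2
    _ = (1 + x) ^ (n₁ + 1 - n₀) := by rw [add_comm]

/-- Exponential form.  `L = n₁ + 1 - n₀` levels, at most `B` bad ones, `M * g + B ≤ L`, cost `exp (-δ)`
per attempt; if the entropy `B * log (1/x) + L * x` is at most `δ * M / 2` then
`volume (E ∩ cell) ≤ exp (-δ M / 2) * volume cell`. -/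
theorem patterns_exp {E : Set ℝ} {G : ℝ → ℕ → Prop} {g : ℕ} (hg : 1 ≤ g) {δ : ℝ} {n₀ n₁ : ℕ}
    (hatt : ∀ n m, n₀ ≤ n → n ≤ n₁ →
      volume (hull (n + g) {t | t ∈ E ∩ cell n m ∧ G t n} ∩ cell n m) ≤
        ENNReal.ofReal (Real.exp (-δ)) * volume (cell n m))
    (m : ℤ) (M B : ℕ)
    (hbad : ∀ t ∈ E ∩ cell n₀ m, ∃ s : Finset ℕ, s.card ≤ B ∧
      ∀ n, n₀ ≤ n → n ≤ n₁ → n ∉ s → G t n)
    (hM : M * g + B ≤ n₁ + 1 - n₀) {x : ℝ} (hx : 0 < x) (hx1 : x ≤ 1)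
    (hent : (B : ℝ) * Real.log (1 / x) + ((n₁ + 1 - n₀ : ℕ) : ℝ) * x ≤ δ * M / 2) :
    volume (E ∩ cell n₀ m) ≤ ENNReal.ofReal (Real.exp (-(δ * M / 2))) * volume (cell n₀ m) := by
  refine (patterns hg hatt m M B hbad hM).trans ?_
  rw [← mul_assoc]
  gcongr
  have hc := card_pats_le n₀ n₁ B hx.le hx1
  have hxB : 0 < x ^ B := pow_pos hx B
  have h1 : ((pats n₀ n₁ B).card : ℝ) ≤
      Real.exp ((B : ℝ) * Real.log (1 / x) + ((n₁ + 1 - n₀ : ℕ) : ℝ) * x) := by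
    have h2 : ((pats n₀ n₁ B).card : ℝ) ≤ (1 + x) ^ (n₁ + 1 - n₀) / x ^ B := by
      rw [le_div_iff₀ hxB, mul_comm]
      exact hc
    refine h2.trans ?_
    rw [Real.exp_add, Real.exp_mul, Real.exp_mul, div_eq_inv_mul]
    have h3 : (x ^ B)⁻¹ = Real.exp (B : ℝ) ^ Real.log (1 / x) := by
      rw [← Real.exp_mul, mul_comm, ← Real.rpow_def_of_pos (by positivity), one_div,
        Real.rpow_natCast, inv_pow]
    have h4 : (1 + x) ^ (n₁ + 1 - n₀) ≤ Real.exp (((n₁ + 1 - n₀ : ℕ) : ℝ)) ^ x := by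
      rw [← Real.exp_mul, mul_comm (((n₁ + 1 - n₀ : ℕ) : ℝ)) x, Real.exp_mul, Real.rpow_natCast]
      refine pow_le_pow_left₀ (by positivity) ?_ _
      rw [add_comm]
      exact Real.add_one_le_exp x
    rw [h3]
    gcongr
  have h5 : ((pats n₀ n₁ B).card : ℝ≥0∞) = ENNReal.ofReal ((pats n₀ n₁ B).card : ℝ) := by
    rw [ENNReal.ofReal_natCast]
  rw [h5, ← ENNReal.ofReal_pow (Real.exp_pos _).le, ← ENNReal.ofReal_mul (by positivity)]
  refine ENNReal.ofReal_le_ofReal ?_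
  calc ((pats n₀ n₁ B).card : ℝ) * Real.exp (-δ) ^ M
      ≤ Real.exp ((B : ℝ) * Real.log (1 / x) + ((n₁ + 1 - n₀ : ℕ) : ℝ) * x) *
          Real.exp (-δ) ^ M := by gcongr
    _ ≤ Real.exp (δ * M / 2) * Real.exp (-δ) ^ M := by gcongr
    _ = Real.exp (-(δ * M / 2)) := by
        rw [← Real.exp_nat_mul, ← Real.exp_add]
        congr 1
        ring

end Crest.Agent.R128.Pattern
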