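import Mathlib
import Crest.Agent.R128.Iter

/-! Row 128, PAY pattern by pattern (helper685). Sorry free.

`GOOD t i` = the `i`-th grid level is good for `t` (on both sides). For every grid level only the
points of `E` which are good AT THIS LEVEL have to lie in few sub-cells. Then the set of points of `E`
with at least `M` good grid levels out of `K` has volume `≤ (K choose M) * q ^ M * volume (cell)`. -/

set_option autoImplicit false
open MeasureTheory Set
open scoped ENNReal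

namespace Crest.Agent.R128.PatternG

open Crest.Agent.R128.Iter

/-- splitting a cell of level `n` into its cells of level `n + e` -/
theorem split {F : Set ℝ} {C : ℝ≥0∞} (n e : ℕ) (m : ℤ)
    (h : ∀ m', volume (F ∩ cell (n + e) m') ≤ C * volume (cell (n + e) m')) :
    volume (F ∩ cell n m) ≤ C * volume (cell n m) := by
  have hcov : F ∩ cell n m ⊆ ⋃ m' ∈ Finset.Ico (m * 2 ^ e) ((m + 1) * 2 ^ e),
      (F ∩ cell (n + e) m') := by
    intro u hu
    have hb := idx_bounds (g := e) hu.2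
    rw [mem_iUnion₂]
    exact ⟨idx (n + e) u, Finset.mem_Ico.2 hb, hu.1, mem_cell_idx _ _⟩
  calc volume (F ∩ cell n m)
      ≤ volume (⋃ m' ∈ Finset.Ico (m * 2 ^ e) ((m + 1) * 2 ^ e), (F ∩ cell (n + e) m')) :=
        measure_mono hcov
    _ ≤ ∑ m' ∈ Finset.Ico (m * 2 ^ e) ((m + 1) * 2 ^ e), volume (F ∩ cell (n + e) m') :=
        measure_biUnion_finset_le _ _
    _ ≤ ∑ _m' ∈ Finset.Ico (m * 2 ^ e) ((m + 1) * 2 ^ e), C * ENNReal.ofReal (1 / 2 ^ (n + e)) :=
        Finset.sum_le_sum fun m' _ => by rw [← volume_cell (n + e) m']; exact h m'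
    _ = C * volume (cell n m) := by
        rw [Finset.sum_const, Int.card_Ico, volume_cell, nsmul_eq_mul]
        have h1 : ((m + 1) * 2 ^ e - m * 2 ^ e).toNat = 2 ^ e := by
          have : (m + 1) * 2 ^ e - m * 2 ^ e = ((2 ^ e : ℕ) : ℤ) := by push_cast; ring
          rw [this]
          exact Int.toNat_natCast _
        rw [h1, mul_left_comm]
        congr 1
        have h2 : ((2 ^ e : ℕ) : ℝ≥0∞) = ENNReal.ofReal (2 ^ e) := by
          rw [Nat.cast_pow, ENNReal.ofReal_pow (by norm_num)]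
          norm_num
        rw [h2, ← ENNReal.ofReal_mul (by positivity)]
        congr 1
        rw [pow_add]
        field_simp

theorem vol_aux {E : Set ℝ} {GOOD : ℝ → ℕ → Prop} {n₀ g g' K : ℕ} (hg : g ≤ g') {q : ℝ≥0∞}
    (hatt : ∀ i < K, ∀ m, volume (hull (n₀ + g' * i + g) {t | t ∈ E ∧ GOOD t i} ∩
      cell (n₀ + g' * i) m) ≤ q * volume (cell (n₀ + g' * i) m))
    (σ : Finset ℕ) (hσ : ∀ i ∈ σ, i < K) :
    ∀ (d i : ℕ), i + d = K → ∀ m : ℤ,
      volume ({t | t ∈ E ∧ ∀ j ∈ σ, GOOD t j} ∩ cell (n₀ + g' * i) m) ≤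
        q ^ (σ.filter fun j => i ≤ j).card * volume (cell (n₀ + g' * i) m) := by
  intro d
  induction d with
  | zero =>
    intro i hi m
    have h0 : (σ.filter fun j => i ≤ j) = ∅ := by
      rw [Finset.filter_eq_empty_iff]
      intro j hj
      have := hσ j hj
      omega
    rw [h0, Finset.card_empty, pow_zero, one_mul]
    exact measure_mono inter_subset_right
  | succ d ih =>
    intro i hi m
    have ih' := ih (i + 1) (by omega)
    have hlev : n₀ + g' * (i + 1) = n₀ + g' * i + g' := by ring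
    rw [hlev] at ih'
    by_cases hiσ : i ∈ σ
    · have hc : (σ.filter fun j => i ≤ j).card = (σ.filter fun j => i + 1 ≤ j).card + 1 := by
        have : (σ.filter fun j => i ≤ j) = insert i (σ.filter fun j => i + 1 ≤ j) := by
          ext j
          simp only [Finset.mem_filter, Finset.mem_insert]
          constructor
          · rintro ⟨h1, h2⟩
            rcases Nat.eq_or_lt_of_le h2 with h | h
            · exact Or.inl h.symm
            · exact Or.inr ⟨h1, h⟩
          · rintro (h | ⟨h1, h2⟩)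
            · exact ⟨h ▸ hiσ, h.ge⟩
            · exact ⟨h1, by omega⟩
        rw [this, Finset.card_insert_of_notMem (by simp)]
      rw [hc]
      set c := (σ.filter fun j => i + 1 ≤ j).card
      set n := n₀ + g' * i with hn
      set F : Set ℝ := {t | t ∈ E ∧ ∀ j ∈ σ, GOOD t j} with hF
      set Ei : Set ℝ := {t | t ∈ E ∧ GOOD t i} with hEi
      have hFE : F ⊆ Ei := fun t ht => ⟨ht.1, ht.2 i hiσ⟩
      have hcov : F ∩ cell n m ⊆ ⋃ m' ∈ kids Ei n g m, (F ∩ cell (n + g) m') := by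
        intro u hu
        rw [mem_iUnion₂]
        exact ⟨idx (n + g) u, mem_kids.2 ⟨idx_bounds hu.2, ⟨u, mem_cell_idx _ _, hFE hu.1⟩⟩,
          hu.1, mem_cell_idx _ _⟩
      have hkid : ∀ m', volume (F ∩ cell (n + g) m') ≤ q ^ c * volume (cell (n + g) m') := by
        intro m'
        refine split (n + g) (g' - g) m' fun m'' => ?_
        have : n + g + (g' - g) = n + g' := by omega
        rw [this]
        exact ih' m''
      calc volume (F ∩ cell n m)
          ≤ volume (⋃ m' ∈ kids Ei n g m, (F ∩ cell (n + g) m')) := measure_mono hcov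
        _ ≤ ∑ m' ∈ kids Ei n g m, volume (F ∩ cell (n + g) m') := measure_biUnion_finset_le _ _
        _ ≤ ∑ _m' ∈ kids Ei n g m, q ^ c * ENNReal.ofReal (1 / 2 ^ (n + g)) :=
            Finset.sum_le_sum fun m' _ => by rw [← volume_cell (n + g) m']; exact hkid m'
        _ = q ^ c * volume (hull (n + g) Ei ∩ cell n m) := by
            rw [Finset.sum_const, nsmul_eq_mul, volume_hull_inter_cell]
            ring
        _ ≤ q ^ c * (q * volume (cell n m)) := by gcongr; exact hatt i (by omega) m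
        _ = q ^ (c + 1) * volume (cell n m) := by rw [pow_succ]; ring
    · have hc : (σ.filter fun j => i ≤ j) = (σ.filter fun j => i + 1 ≤ j) := by
        ext j
        simp only [Finset.mem_filter]
        constructor
        · rintro ⟨h1, h2⟩
          rcases Nat.eq_or_lt_of_le h2 with h | h
          · exact absurd (h ▸ h1) hiσ
          · exact ⟨h1, h⟩
        · rintro ⟨h1, h2⟩
          exact ⟨h1, by omega⟩
      rw [hc]
      exact split _ _ m ih'

/-- fixed pattern -/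
theorem vol_pattern {E : Set ℝ} {GOOD : ℝ → ℕ → Prop} {n₀ g g' K : ℕ} (hg : g ≤ g') {q : ℝ≥0∞}
    (hatt : ∀ i < K, ∀ m, volume (hull (n₀ + g' * i + g) {t | t ∈ E ∧ GOOD t i} ∩
      cell (n₀ + g' * i) m) ≤ q * volume (cell (n₀ + g' * i) m))
    (σ : Finset ℕ) (hσ : ∀ i ∈ σ, i < K) (m : ℤ) :
    volume ({t | t ∈ E ∧ ∀ j ∈ σ, GOOD t j} ∩ cell n₀ m) ≤ q ^ σ.card * volume (cell n₀ m) := by
  have h := vol_aux hg hatt σ hσ K 0 (by omega) m
  simpa using h

open Classical in
/-- the number of good grid levels of `t` among `0, …, K-1` -/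
noncomputable def cnt (GOOD : ℝ → ℕ → Prop) (K : ℕ) (t : ℝ) : ℕ :=
  ((Finset.range K).filter fun i => GOOD t i).card

/-- **at least `M` good grid levels** -/
theorem vol_many {E : Set ℝ} {GOOD : ℝ → ℕ → Prop} {n₀ g g' K : ℕ} (hg : g ≤ g') {q : ℝ≥0∞}
    (hatt : ∀ i < K, ∀ m, volume (hull (n₀ + g' * i + g) {t | t ∈ E ∧ GOOD t i} ∩
      cell (n₀ + g' * i) m) ≤ q * volume (cell (n₀ + g' * i) m)) (M : ℕ) (m : ℤ) :
    volume ({t | t ∈ E ∧ M ≤ cnt GOOD K t} ∩ cell n₀ m) ≤
      (K.choose M : ℝ≥0∞) * q ^ M * volume (cell n₀ m) := by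
  classical
  have hcov : {t | t ∈ E ∧ M ≤ cnt GOOD K t} ∩ cell n₀ m ⊆
      ⋃ σ ∈ (Finset.range K).powersetCard M, ({t | t ∈ E ∧ ∀ j ∈ σ, GOOD t j} ∩ cell n₀ m) := by
    rintro t ⟨⟨htE, htM⟩, htc⟩
    obtain ⟨σ, hσ, hcard⟩ := Finset.exists_subset_card_eq htM
    rw [mem_iUnion₂]
    refine ⟨σ, Finset.mem_powersetCard.2 ⟨fun i hi => (Finset.mem_filter.1 (hσ hi)).1, hcard⟩,
      ⟨htE, fun j hj => ?_⟩, htc⟩
    have h1 := hσ hj
    rw [Finset.mem_filter] at h1
    exact h1.2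
  calc volume ({t | t ∈ E ∧ M ≤ cnt GOOD K t} ∩ cell n₀ m)
      ≤ volume (⋃ σ ∈ (Finset.range K).powersetCard M,
          ({t | t ∈ E ∧ ∀ j ∈ σ, GOOD t j} ∩ cell n₀ m)) := measure_mono hcov
    _ ≤ ∑ σ ∈ (Finset.range K).powersetCard M,
          volume ({t | t ∈ E ∧ ∀ j ∈ σ, GOOD t j} ∩ cell n₀ m) := measure_biUnion_finset_le _ _
    _ ≤ ∑ _σ ∈ (Finset.range K).powersetCard M, q ^ M * volume (cell n₀ m) := by
        refine Finset.sum_le_sum fun σ hσ => ?_
        rw [Finset.mem_powersetCard] at hσ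
        have := vol_pattern hg hatt σ (fun i hi => Finset.mem_range.1 (hσ.1 hi)) m
        rwa [hσ.2] at this
    _ = (K.choose M : ℝ≥0∞) * q ^ M * volume (cell n₀ m) := by
        rw [Finset.sum_const, Finset.card_powersetCard, Finset.card_range, nsmul_eq_mul, mul_assoc]

/-- entropy: for `q < 1` there is `δ > 0` such that `(K choose M) q ^ M ≤ (q ^ (1/4)) ^ K` whenever
`(1 - δ) K ≤ M ≤ K`. -/
theorem exists_delta {q : ℝ} (hq0 : 0 < q) (hq1 : q < 1) :
    ∃ δ : ℝ, 0 < δ ∧ δ ≤ 1 / 4 ∧ ∀ K M : ℕ, M ≤ K → (1 - δ) * K ≤ M →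
      (K.choose M : ℝ) * q ^ M ≤ (q ^ (1 / 4 : ℝ)) ^ K := by
  -- `x` with `1 + x = q ^ (-1/4)` truncated at `1`
  set a : ℝ := q ^ (-(1 / 4) : ℝ) with ha
  have ha1 : 1 < a := by
    rw [ha]
    exact Real.one_lt_rpow_of_pos_of_lt_one_of_neg hq0 hq1 (by norm_num)
  set x : ℝ := min 1 (a - 1) with hx
  have hx0 : 0 < x := lt_min one_pos (by linarith)
  have hx1 : x ≤ 1 := min_le_left _ _
  have hxa : 1 + x ≤ a := by have := min_le_right (1:ℝ) (a - 1); linarith
  -- `δ` with `x ^ (-δ) ≤ a`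
  obtain ⟨δ, hδ0, hδ4, hδ⟩ : ∃ δ : ℝ, 0 < δ ∧ δ ≤ 1 / 4 ∧ x ^ (-δ) ≤ a := by
    have hla : 0 < Real.log a := Real.log_pos ha1
    have hlx : Real.log x ≤ 0 := Real.log_nonpos hx0.le hx1
    refine ⟨min (1 / 4) (Real.log a / (1 - Real.log x)), lt_min (by norm_num) (by
      apply div_pos hla; linarith), min_le_left _ _, ?_⟩
    set δ := min (1 / 4) (Real.log a / (1 - Real.log x)) with hδdef
    have h1 : δ ≤ Real.log a / (1 - Real.log x) := min_le_right _ _
    have h0 : 0 ≤ δ := (lt_min (by norm_num) (div_pos hla (by linarith))).le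
    rw [Real.rpow_def_of_pos hx0]
    rw [← Real.exp_log (lt_trans one_pos ha1)]
    apply Real.exp_le_exp.2
    rw [le_div_iff₀ (by linarith)] at h1
    nlinarith
  refine ⟨δ, hδ0, hδ4, fun K M hMK hM => ?_⟩
  -- binomial theorem
  have hbin : (K.choose M : ℝ) * x ^ (K - M) ≤ (1 + x) ^ K := by
    rw [add_pow]
    have hmem : M ∈ Finset.range (K + 1) := Finset.mem_range.2 (by omega)
    refine le_trans (le_of_eq ?_) (Finset.single_le_sum
      (f := fun m => (1:ℝ) ^ m * x ^ (K - m) * (K.choose m : ℝ)) (fun i _ => by positivity) hmem)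
    simp only [one_pow, one_mul]
    ring
  have hxp : 0 < x ^ (K - M) := by positivity
  have h1 : (K.choose M : ℝ) ≤ (1 + x) ^ K * (x ^ (K - M))⁻¹ := by
    rw [← div_eq_mul_inv, le_div_iff₀ hxp]
    exact hbin
  have hK0 : (0:ℝ) ≤ K := Nat.cast_nonneg K
  have h2 : (x ^ (K - M))⁻¹ ≤ a ^ K := by
    have e1 : (x ^ (K - M))⁻¹ = x ^ (-((K - M : ℕ) : ℝ)) := by
      rw [Real.rpow_neg hx0.le, Real.rpow_natCast]
    have e2 : a ^ K = a ^ (K : ℝ) := (Real.rpow_natCast a K).symm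
    rw [e1, e2]
    have h3 : ((K - M : ℕ) : ℝ) ≤ δ * K := by
      rw [Nat.cast_sub hMK]
      nlinarith
    calc x ^ (-((K - M : ℕ) : ℝ)) ≤ x ^ (-(δ * K)) :=
          Real.rpow_le_rpow_of_exponent_ge hx0 hx1 (by linarith)
      _ = (x ^ (-δ)) ^ (K : ℝ) := by rw [← Real.rpow_mul hx0.le]; ring_nf
      _ ≤ a ^ (K : ℝ) := Real.rpow_le_rpow (by positivity) hδ hK0
  have h3 : (1 + x) ^ K ≤ a ^ K := pow_le_pow_left₀ (by linarith) hxa K
  have h4 : q ^ M ≤ (q ^ (3 / 4 : ℝ)) ^ K := by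
    rw [← Real.rpow_natCast q M, ← Real.rpow_natCast (q ^ (3 / 4 : ℝ)) K, ← Real.rpow_mul hq0.le]
    apply Real.rpow_le_rpow_of_exponent_ge hq0 hq1.le
    nlinarith
  have ha0 : 0 < a := lt_trans one_pos ha1
  calc (K.choose M : ℝ) * q ^ M ≤ ((1 + x) ^ K * (x ^ (K - M))⁻¹) * (q ^ (3 / 4 : ℝ)) ^ K := by
        gcongr
    _ ≤ (a ^ K * a ^ K) * (q ^ (3 / 4 : ℝ)) ^ K := by gcongr
    _ = (q ^ (1 / 4 : ℝ)) ^ K := by
        rw [← mul_pow, ← mul_pow, ha, ← Real.rpow_add hq0, ← Real.rpow_add hq0]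
        norm_num

end Crest.Agent.R128.PatternG
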