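import Crest.Agent.R128.Iter

/-! Row 128, N6-PATTERN (helper344): union over patterns of good levels.

`E` is a set of points (the alive ones), `G t l` says that the `k`-adic level `l` is very fresh for
`t` itself, `lev l` is the dyadic level of `l`.  The hypothesis of roughness is only about the set
`{t ∈ E | G t l}`. -/

set_option autoImplicit false
open MeasureTheory Set
open scoped ENNReal

namespace Crest.Agent.R128.PatternU

open Iter

theorem hull_mono (n : ℕ) {E F : Set ℝ} (h : E ⊆ F) : hull n E ⊆ hull n F := by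
  rintro t ⟨u, hu1, hu2⟩
  exact ⟨u, hu1, h hu2⟩

/-- one step of the iteration on a union of cells -/
theorem step {E : Set ℝ} {q : ℝ≥0∞} {n g : ℕ}
    (h : ∀ m, volume (hull (n + g) E ∩ cell n m) ≤ q * volume (cell n m))
    {n₀ : ℕ} (hn : n₀ ≤ n) (m₀ : ℤ) :
    volume (hull (n + g) E ∩ cell n₀ m₀) ≤ q * volume (hull n E ∩ cell n₀ m₀) := by
  obtain ⟨d, rfl⟩ := Nat.exists_eq_add_of_le hn
  have h1 : hull (n₀ + d + g) E ∩ cell n₀ m₀ ⊆
      ⋃ m' ∈ kids E n₀ d m₀, (hull (n₀ + d + g) E ∩ cell (n₀ + d) m') := by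
    rintro t ⟨ht1, ht2⟩
    obtain ⟨u, hu1, hu2⟩ := ht1
    rw [mem_iUnion₂]
    refine ⟨idx (n₀ + d) t, mem_kids.2 ⟨idx_bounds ht2, ?_⟩, ⟨u, hu1, hu2⟩, mem_cell_idx _ _⟩
    have h3 := mem_cell_idx (n₀ + d) t
    have h4 := idx_bounds (g := g) h3
    exact ⟨u, cell_subset h4.1 h4.2 hu1, hu2⟩
  calc volume (hull (n₀ + d + g) E ∩ cell n₀ m₀)
      ≤ volume (⋃ m' ∈ kids E n₀ d m₀, (hull (n₀ + d + g) E ∩ cell (n₀ + d) m')) := measure_mono h1
    _ ≤ ∑ m' ∈ kids E n₀ d m₀, volume (hull (n₀ + d + g) E ∩ cell (n₀ + d) m') :=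
        measure_biUnion_finset_le _ _
    _ ≤ ∑ m' ∈ kids E n₀ d m₀, q * volume (cell (n₀ + d) m') := Finset.sum_le_sum fun m' _ => h m'
    _ = q * volume (hull (n₀ + d) E ∩ cell n₀ m₀) := by
        rw [← Finset.mul_sum, hull_inter_cell,
          measure_biUnion_finset (fun a _ b _ hab => cell_disjoint _ hab)
          (fun m' _ => measurableSet_cell _ _)]

theorem hull_anti (E : Set ℝ) {n n' : ℕ} (h : n ≤ n') : hull n' E ⊆ hull n E := by
  obtain ⟨g, rfl⟩ := Nat.exists_eq_add_of_le h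
  rintro t ⟨u, hu1, hu2⟩
  have h3 := mem_cell_idx n t
  have h4 := idx_bounds (g := g) h3
  exact ⟨u, cell_subset h4.1 h4.2 hu1, hu2⟩

/-- a fixed pattern `σ` of good levels -/
theorem fixed {E : Set ℝ} {lev g : ℕ → ℕ} {q : ℝ≥0∞} {r : ℕ} (hr : 1 ≤ r)
    (hmono : Monotone lev) (hlev : ∀ l, lev l + g l ≤ lev (l + r)) {n₀ : ℕ} (m₀ : ℤ) :
    ∀ (M : ℕ) (σ : Finset ℕ), M * r ≤ σ.card → (∀ l ∈ σ, n₀ ≤ lev l) →
      (∀ l ∈ σ, ∀ m, volume (hull (lev l + g l) E ∩ cell (lev l) m) ≤ q * volume (cell (lev l) m)) →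
      ∀ N, (∀ l ∈ σ, lev l + g l ≤ N) →
      volume (hull N E ∩ cell n₀ m₀) ≤ q ^ M * volume (cell n₀ m₀) := by
  intro M
  induction M with
  | zero =>
    intro σ _ _ _ N _
    rw [pow_zero, one_mul]
    exact measure_mono inter_subset_right
  | succ M ih =>
    intro σ hcard hn hσ N hN
    have hne : σ.Nonempty := by
      rw [← Finset.card_pos]
      exact lt_of_lt_of_le (Nat.mul_pos (Nat.succ_pos M) hr) hcard
    set L := σ.max' hne with hL
    have hLσ : L ∈ σ := σ.max'_mem hne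
    set σ' := σ.filter (fun l => l + r ≤ L) with hσ'
    have hc' : M * r ≤ σ'.card := by
      have hsub : (σ.filter fun l => ¬ (l + r ≤ L)) ⊆ Finset.Ico (L + 1 - r) (L + 1) := by
        intro i hi
        rw [Finset.mem_filter] at hi
        rw [Finset.mem_Ico]
        have : i ≤ L := σ.le_max' i hi.1
        omega
      have h1 := Finset.card_le_card hsub
      rw [Nat.card_Ico] at h1
      have h2 := Finset.card_filter_add_card_filter_not (s := σ) (fun l => l + r ≤ L)
      have h3 : (M + 1) * r = M * r + r := by ring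
      rw [h3] at hcard
      have h4 : σ'.card = (σ.filter (fun l => l + r ≤ L)).card := by rw [hσ']
      omega
    have hih := ih σ' hc' (fun l hl => hn l (Finset.mem_filter.1 hl).1)
      (fun l hl => hσ l (Finset.mem_filter.1 hl).1) (lev L)
      (fun l hl => (hlev l).trans (hmono (Finset.mem_filter.1 hl).2))
    calc volume (hull N E ∩ cell n₀ m₀)
        ≤ volume (hull (lev L + g L) E ∩ cell n₀ m₀) :=
          measure_mono (inter_subset_inter_left _ (hull_anti E (hN L hLσ)))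
      _ ≤ q * volume (hull (lev L) E ∩ cell n₀ m₀) := step (hσ L hLσ) (hn L hLσ) m₀
      _ ≤ q * (q ^ M * volume (cell n₀ m₀)) := by gcongr
      _ = q ^ (M + 1) * volume (cell n₀ m₀) := by rw [pow_succ]; ring

/-- union over all patterns with at most `e` bad levels in the block `L` -/
theorem union {E : Set ℝ} {G : ℝ → ℕ → Prop} {lev g : ℕ → ℕ} {q : ℝ≥0∞} {r : ℕ}
    (hr : 1 ≤ r) (hmono : Monotone lev) (hlev : ∀ l, lev l + g l ≤ lev (l + r)) {n₀ : ℕ} (m₀ : ℤ)
    (L : Finset ℕ) (hn : ∀ l ∈ L, n₀ ≤ lev l)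
    (hrough : ∀ l ∈ L, ∀ m,
      volume (hull (lev l + g l) {t ∈ E | G t l} ∩ cell (lev l) m) ≤ q * volume (cell (lev l) m))
    (e M : ℕ) (hM : M * r + e ≤ L.card) :
    volume {t ∈ E ∩ cell n₀ m₀ | ∃ σ ⊆ L, (L \ σ).card ≤ e ∧ ∀ l ∈ σ, G t l} ≤
      ((L.powerset.filter fun σ => σ.card ≤ e).card : ℝ≥0∞) * (q ^ M * volume (cell n₀ m₀)) := by
  classical
  have hcov : {t ∈ E ∩ cell n₀ m₀ | ∃ σ ⊆ L, (L \ σ).card ≤ e ∧ ∀ l ∈ σ, G t l} ⊆
      ⋃ τ ∈ L.powerset.filter (fun σ => σ.card ≤ e),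
        {t ∈ E ∩ cell n₀ m₀ | ∀ l ∈ L \ τ, G t l} := by
    rintro t ⟨ht, σ, hσ, hc, hG⟩
    rw [mem_iUnion₂]
    refine ⟨L \ σ, ?_, ht, ?_⟩
    · rw [Finset.mem_filter, Finset.mem_powerset]
      exact ⟨Finset.sdiff_subset, hc⟩
    · intro l hl
      apply hG
      rw [Finset.mem_sdiff, Finset.mem_sdiff] at hl
      by_contra hcon
      exact hl.2 ⟨hl.1, hcon⟩
  have hone : ∀ τ ∈ L.powerset.filter (fun σ => σ.card ≤ e),
      volume {t ∈ E ∩ cell n₀ m₀ | ∀ l ∈ L \ τ, G t l} ≤ q ^ M * volume (cell n₀ m₀) := by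
    intro τ hτ
    rw [Finset.mem_filter, Finset.mem_powerset] at hτ
    set F : Set ℝ := {t ∈ E | ∀ l ∈ L \ τ, G t l} with hF
    have hsub : {t ∈ E ∩ cell n₀ m₀ | ∀ l ∈ L \ τ, G t l} ⊆
        hull ((L \ τ).sup (fun l => lev l + g l)) F ∩ cell n₀ m₀ := by
      rintro t ⟨⟨ht1, ht2⟩, ht3⟩
      exact ⟨subset_hull _ _ ⟨ht1, ht3⟩, ht2⟩
    refine (measure_mono hsub).trans ?_
    refine fixed (E := F) hr hmono hlev m₀ M (L \ τ) ?_ ?_ ?_ _ ?_
    · rw [Finset.card_sdiff_of_subset hτ.1]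
      omega
    · intro l hl
      exact hn l (Finset.mem_sdiff.1 hl).1
    · intro l hl m
      refine (measure_mono (inter_subset_inter_left _ (hull_mono _ ?_))).trans
        (hrough l (Finset.mem_sdiff.1 hl).1 m)
      rintro t ⟨ht1, ht2⟩
      exact ⟨ht1, ht2 l hl⟩
    · intro l hl
      exact Finset.le_sup (f := fun l => lev l + g l) hl
  calc volume {t ∈ E ∩ cell n₀ m₀ | ∃ σ ⊆ L, (L \ σ).card ≤ e ∧ ∀ l ∈ σ, G t l}
      ≤ volume (⋃ τ ∈ L.powerset.filter (fun σ => σ.card ≤ e),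
        {t ∈ E ∩ cell n₀ m₀ | ∀ l ∈ L \ τ, G t l}) := measure_mono hcov
    _ ≤ ∑ τ ∈ L.powerset.filter (fun σ => σ.card ≤ e),
        volume {t ∈ E ∩ cell n₀ m₀ | ∀ l ∈ L \ τ, G t l} := measure_biUnion_finset_le _ _
    _ ≤ ∑ _τ ∈ L.powerset.filter (fun σ => σ.card ≤ e), q ^ M * volume (cell n₀ m₀) :=
        Finset.sum_le_sum hone
    _ = _ := by rw [Finset.sum_const, nsmul_eq_mul]

/-- number of patterns with at most `e` bad levels (Chernoff) -/
theorem card_patterns (L : Finset ℕ) (e : ℕ) {x : ℝ} (hx : 0 < x) (hx1 : x ≤ 1) :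
    ((L.powerset.filter fun σ => σ.card ≤ e).card : ℝ) * x ^ e ≤ (1 + x) ^ L.card := by
  have h1 : ∑ t ∈ L.powerset, x ^ t.card * 1 ^ (L.card - t.card) = (x + 1) ^ L.card :=
    Finset.sum_pow_mul_eq_add_pow x 1 L
  calc ((L.powerset.filter fun σ => σ.card ≤ e).card : ℝ) * x ^ e
      = ∑ _t ∈ L.powerset.filter (fun σ => σ.card ≤ e), x ^ e := by
        rw [Finset.sum_const, nsmul_eq_mul]
    _ ≤ ∑ t ∈ L.powerset.filter (fun σ => σ.card ≤ e), x ^ t.card := by
        apply Finset.sum_le_sum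
        intro t ht
        exact pow_le_pow_of_le_one hx.le hx1 (Finset.mem_filter.1 ht).2
    _ ≤ ∑ t ∈ L.powerset, x ^ t.card := by
        apply Finset.sum_le_sum_of_subset_of_nonneg (Finset.filter_subset _ _)
        intros
        positivity
    _ = (1 + x) ^ L.card := by
        rw [add_comm, ← h1]
        simp

theorem numeric {q0 : ℝ} (hq0 : 0 < q0) (hq1 : q0 < 1) {r : ℕ} (hr : 1 ≤ r) :
    ∃ ε ρ : ℝ, 0 < ε ∧ ε ≤ 1 / 2 ∧ 0 < ρ ∧ ρ < 1 ∧ ∀ (L : Finset ℕ) (e : ℕ),
      (e : ℝ) ≤ ε * L.card → ∃ M, M * r + e ≤ L.card ∧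
      ((L.powerset.filter fun σ => σ.card ≤ e).card : ℝ) * q0 ^ M ≤ q0⁻¹ * ρ ^ L.card := by
  set A : ℝ := Real.log (1 / q0) with hA
  have hApos : 0 < A := Real.log_pos (by rw [lt_div_iff₀ hq0]; linarith)
  have hrr : (1 : ℝ) ≤ r := by exact_mod_cast hr
  have hr0 : (0 : ℝ) < r := by linarith
  set x : ℝ := min 1 (A / (4 * r)) with hx
  have hxpos : 0 < x := lt_min one_pos (by positivity)
  have hx1 : x ≤ 1 := min_le_left _ _
  have hx2 : x ≤ A / (4 * r) := min_le_right _ _
  set B : ℝ := Real.log (1 / x) with hB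
  have hBnn : 0 ≤ B := Real.log_nonneg (by rw [le_div_iff₀ hxpos]; linarith)
  set ε : ℝ := min (1 / 2) (A / (8 * r * (1 + B))) with hε
  have hεpos : 0 < ε := lt_min (by norm_num) (by positivity)
  have hε1 : ε ≤ 1 / 2 := min_le_left _ _
  have hε2 : ε * B ≤ A / (8 * r) := by
    calc ε * B ≤ (A / (8 * r * (1 + B))) * (1 + B) := by
          apply mul_le_mul (min_le_right _ _) (by linarith) hBnn (by positivity)
      _ = A / (8 * r) := by field_simp
  refine ⟨ε, Real.exp (-(A / (8 * r))), hεpos, hε1, Real.exp_pos _, ?_, ?_⟩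
  · rw [Real.exp_lt_one_iff]
    have : 0 < A / (8 * r) := by positivity
    linarith
  · intro L e he
    set n := L.card with hn
    have hen : e ≤ n := by
      have : (e : ℝ) ≤ n := by
        calc (e : ℝ) ≤ ε * n := he
          _ ≤ 1 * n := by gcongr; linarith
          _ = n := one_mul _
      exact_mod_cast this
    refine ⟨(n - e) / r, ?_, ?_⟩
    · have := Nat.div_mul_le_self (n - e) r
      omega
    · set M := (n - e) / r with hM
      have hM1 : (n : ℝ) - e ≤ (M + 1) * r := by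
        have h1 : n - e < (M + 1) * r := by
          rw [hM]
          have := Nat.lt_div_mul_add (a := n - e) (b := r) (by omega)
          calc n - e < (n - e) / r * r + r := this
            _ = ((n - e) / r + 1) * r := by ring
        have h2 : ((n - e : ℕ) : ℝ) ≤ ((M + 1) * r : ℕ) := by exact_mod_cast h1.le
        rw [Nat.cast_sub hen] at h2
        push_cast at h2
        exact h2
      have hM2 : (n : ℝ) / (2 * r) - 1 ≤ M := by
        have h3 : (n : ℝ) / 2 ≤ n - e := by nlinarith [he, hε1, Nat.cast_nonneg (α := ℝ) n]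
        have h4 : (n : ℝ) / 2 ≤ (M + 1) * r := h3.trans hM1
        have h5 : (n : ℝ) / (2 * r) ≤ M + 1 := by
          rw [div_le_iff₀ (by positivity)]
          linarith
        linarith
      have hq : q0 = Real.exp (-A) := by
        rw [hA, one_div, Real.log_inv, neg_neg, Real.exp_log hq0]
      have hxe : x = Real.exp (-B) := by
        rw [hB, one_div, Real.log_inv, neg_neg, Real.exp_log hxpos]
      have hcard := card_patterns L e hxpos hx1
      have hxpow : x ^ e = Real.exp (-(e * B)) := by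
        rw [hxe, ← Real.exp_nat_mul]
        congr 1
        ring
      have h1x : (1 + x) ^ n ≤ Real.exp (n * (A / (4 * r))) := by
        rw [Real.exp_nat_mul]
        gcongr
        calc 1 + x ≤ Real.exp x := by linarith [Real.add_one_le_exp x]
          _ ≤ Real.exp (A / (4 * r)) := Real.exp_le_exp.2 hx2
      have hc2 : ((L.powerset.filter fun σ => σ.card ≤ e).card : ℝ) ≤
          Real.exp (e * B + n * (A / (4 * r))) := by
        have h6 : ((L.powerset.filter fun σ => σ.card ≤ e).card : ℝ) * Real.exp (-(e * B)) ≤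
            Real.exp (n * (A / (4 * r))) := by
          rw [← hxpow]
          exact hcard.trans h1x
        calc ((L.powerset.filter fun σ => σ.card ≤ e).card : ℝ)
            = ((L.powerset.filter fun σ => σ.card ≤ e).card : ℝ) * Real.exp (-(e * B)) *
                Real.exp (e * B) := by
              rw [mul_assoc, ← Real.exp_add]
              simp
          _ ≤ Real.exp (n * (A / (4 * r))) * Real.exp (e * B) := by gcongr
          _ = Real.exp (e * B + n * (A / (4 * r))) := by rw [← Real.exp_add]; congr 1; ring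
      have hqM : q0 ^ M = Real.exp (-(A * M)) := by
        rw [hq, ← Real.exp_nat_mul]
        congr 1
        ring
      calc ((L.powerset.filter fun σ => σ.card ≤ e).card : ℝ) * q0 ^ M
          ≤ Real.exp (e * B + n * (A / (4 * r))) * Real.exp (-(A * M)) := by
            rw [hqM]
            gcongr
        _ = Real.exp (e * B + n * (A / (4 * r)) - A * M) := by rw [← Real.exp_add]; congr 1
        _ ≤ Real.exp (A + n * (-(A / (8 * r)))) := by
            apply Real.exp_le_exp.2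
            have h7 : (e : ℝ) * B ≤ n * (A / (8 * r)) := by
              calc (e : ℝ) * B ≤ (ε * n) * B := by gcongr
                _ = n * (ε * B) := by ring
                _ ≤ n * (A / (8 * r)) := mul_le_mul_of_nonneg_left hε2 (Nat.cast_nonneg n)
            have h8 : A * ((n : ℝ) / (2 * r) - 1) ≤ A * M :=
              mul_le_mul_of_nonneg_left hM2 hApos.le
            have h9 : A * ((n : ℝ) / (2 * r) - 1) = 4 * (n * (A / (8 * r))) - A := by
              field_simp
              ring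
            have h10 : (n : ℝ) * (A / (4 * r)) = 2 * (n * (A / (8 * r))) := by
              field_simp
              ring
            linarith
        _ = q0⁻¹ * Real.exp (-(A / (8 * r))) ^ n := by
            rw [Real.exp_add, Real.exp_nat_mul, hq, ← Real.exp_neg, neg_neg]

/-- Final form: with `q = ofReal q0`, `q0 < 1`, there are `ε > 0` and `ρ < 1`, depending only on
`q0` and `r`, such that the points of `E` with at most `ε * L.card` bad levels have volume at most
`q0⁻¹ * ρ ^ L.card` times the cell. -/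
theorem pattern {q0 : ℝ} (hq0 : 0 < q0) (hq1 : q0 < 1) {r : ℕ} (hr : 1 ≤ r) :
    ∃ ε ρ : ℝ, 0 < ε ∧ ε ≤ 1 / 2 ∧ 0 < ρ ∧ ρ < 1 ∧
      ∀ (E : Set ℝ) (G : ℝ → ℕ → Prop) (lev g : ℕ → ℕ), Monotone lev →
      (∀ l, lev l + g l ≤ lev (l + r)) → ∀ (n₀ : ℕ) (m₀ : ℤ) (L : Finset ℕ),
      (∀ l ∈ L, n₀ ≤ lev l) →
      (∀ l ∈ L, ∀ m, volume (hull (lev l + g l) {t ∈ E | G t l} ∩ cell (lev l) m) ≤
        ENNReal.ofReal q0 * volume (cell (lev l) m)) →
      ∀ e : ℕ, (e : ℝ) ≤ ε * L.card →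
      volume {t ∈ E ∩ cell n₀ m₀ | ∃ σ ⊆ L, (L \ σ).card ≤ e ∧ ∀ l ∈ σ, G t l} ≤
        ENNReal.ofReal (q0⁻¹ * ρ ^ L.card) * volume (cell n₀ m₀) := by
  obtain ⟨ε, ρ, h1, h2, h3, h4, h5⟩ := numeric hq0 hq1 hr
  refine ⟨ε, ρ, h1, h2, h3, h4, ?_⟩
  intro E G lev g hmono hlev n₀ m₀ L hn hrough e he
  obtain ⟨M, hM1, hM2⟩ := h5 L e he
  refine (union hr hmono hlev m₀ L hn hrough e M hM1).trans ?_
  rw [← mul_assoc]
  gcongr
  rw [← ENNReal.ofReal_pow hq0.le, ← ENNReal.ofReal_natCast, ← ENNReal.ofReal_mul (by positivity)]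
  exact ENNReal.ofReal_le_ofReal hM2

end Crest.Agent.R128.PatternU
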