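import Crest.Agent.R128.TreeSum
import Crest.Agent.R128.DistVoc

/-!
# Row 128: deterministic perturbation of an orbit and of its Jacobi field (helper466)

One side of the tip: real orbit `X (n+2) = 2 X (n+1) + k sin (2π X (n+1)) - X n`, digits
`Vr k (X n) = 2 + 2πk cos (2π X n)`, field `ξ (n+2) = Vr k (X (n+1)) * ξ (n+1) - ξ n`.
If the pairs `(ξ n, ξ (n+1))`, `n ≤ N`, have norm in `[e, U]`, then all transfer entries are
`≤ BB = 2U/e + U² N (Ck) / e²`, and moving `X 1` by `d` with `4 c N BB² |d| ≤ 1` moves `X n` by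
at most `2 BB |d|` and the field by at most `ε` as soon as `4 c N BB² U |d| ≤ ε`, `c = 4π²k`.
-/

set_option autoImplicit false

open Finset
open Crest.Agent.R128.TreeSum Crest.Agent.R128.Dist

namespace Crest.Agent.R128.Pert

/-- consecutive pair of a sequence -/
def pair (ξ : ℕ → ℝ) (n : ℕ) : ℝ × ℝ := (ξ n, ξ (n + 1))

theorem isField_pair {V ξ : ℕ → ℝ} (h : ∀ n, ξ (n + 2) = V (n + 1) * ξ (n + 1) - ξ n) (m : ℕ) :
    IsField (fun n => V (m + n + 1)) (fun n => pair ξ (m + n)) := by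
  intro n
  unfold pair stp
  ext
  · rfl
  · exact h (m + n)

/-- the transfer bound -/
noncomputable def BB (e U A : ℝ) (N : ℕ) : ℝ := 2 * (U / e) + U ^ 2 * (N * (A + 2) / e ^ 2)

theorem BB_nonneg {e U A : ℝ} (he : 0 < e) (hU : 0 ≤ U) (hA : 0 ≤ A) (N : ℕ) : 0 ≤ BB e U A N := by
  unfold BB
  positivity

/-- every solution grows at most by the factor `BB` between `m` and `n ≤ N` -/
theorem transfer {V ξ : ℕ → ℝ} (hξ : ∀ n, ξ (n + 2) = V (n + 1) * ξ (n + 1) - ξ n)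
    {e U A : ℝ} (he : 0 < e) (hA : 0 ≤ A) {N : ℕ}
    (hlo : ∀ n, n ≤ N → e ≤ nn (pair ξ n)) (hup : ∀ n, n ≤ N → nn (pair ξ n) ≤ U)
    (hV : ∀ n, n < N → |V (n + 1)| ≤ A)
    {m : ℕ} {z : ℕ → ℝ} (hz : ∀ n, m ≤ n → z (n + 2) = V (n + 1) * z (n + 1) - z n)
    {n : ℕ} (hmn : m ≤ n) (hn : n ≤ N) :
    nn (pair z n) ≤ nn (pair z m) * BB e U A N := by
  obtain ⟨j, rfl⟩ := Nat.exists_eq_add_of_le hmn
  have hU : 0 ≤ U := (nn_nonneg _).trans (hup 0 (Nat.zero_le _))
  have F1 := isField_pair hξ m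
  have F2 : IsField (fun n => V (m + n + 1)) (fun n => pair z (m + n)) := by
    intro i
    unfold pair stp
    ext
    · rfl
    · exact hz (m + i) (by omega)
  have h0 : 0 < nn (pair ξ (m + 0)) := lt_of_lt_of_le he (hlo _ (by omega))
  have key := tree_ineq F1 F2 (Nat.zero_le j) h0
  simp only [add_zero] at key
  refine key.trans (mul_le_mul_of_nonneg_left ?_ (nn_nonneg _))
  have l0 := hlo m (by omega)
  have lj := hlo (m + j) hn
  have u0 := hup m (by omega)
  have uj := hup (m + j) hn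
  have t1 : nn (pair ξ (m + j)) / nn (pair ξ m) ≤ U / e := by gcongr
  have t2 : nn (pair ξ m) / nn (pair ξ (m + j)) ≤ U / e := by gcongr
  have hwt : wt (fun n => V (m + n + 1)) (fun n => pair ξ (m + n)) 0 j ≤ N * (A + 2) / e ^ 2 := by
    unfold wt
    have hb : ∀ i ∈ Ico 0 j, (|V (m + i + 1)| + 2) /
        (nn (pair ξ (m + i)) * nn (pair ξ (m + (i + 1)))) ≤ (A + 2) / e ^ 2 := by
      intro i hi
      rw [mem_Ico] at hi
      have a1 := hV (m + i) (by omega)
      have a2 := hlo (m + i) (by omega)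
      have a3 := hlo (m + (i + 1)) (by omega)
      have a4 : e ^ 2 ≤ nn (pair ξ (m + i)) * nn (pair ξ (m + (i + 1))) := by
        rw [sq]
        exact mul_le_mul a2 a3 he.le (he.le.trans a2)
      have : (0 : ℝ) < e ^ 2 := by positivity
      gcongr
    refine (Finset.sum_le_card_nsmul _ _ _ hb).trans ?_
    rw [Nat.card_Ico, nsmul_eq_mul, Nat.sub_zero, ← mul_div_assoc]
    have : (j : ℝ) ≤ N := by exact_mod_cast (by omega : j ≤ N)
    gcongr
  have hwt0 := wt_nonneg (fun n => V (m + n + 1)) (fun n => pair ξ (m + n)) 0 j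
  have t3 : nn (pair ξ m) * nn (pair ξ (m + j)) *
      wt (fun n => V (m + n + 1)) (fun n => pair ξ (m + n)) 0 j ≤
      U ^ 2 * (N * (A + 2) / e ^ 2) := by
    have : nn (pair ξ m) * nn (pair ξ (m + j)) ≤ U ^ 2 := by
      rw [sq]
      exact mul_le_mul u0 uj (nn_nonneg _) hU
    exact mul_le_mul this hwt hwt0 (by positivity)
  unfold BB
  linarith

theorem nn_zero_right (d : ℝ) : nn (0, d) = |d| := by
  unfold nn
  simp [Real.sqrt_sq_eq_abs]

theorem abs_G_le {V ξ : ℕ → ℝ} (hξ : ∀ n, ξ (n + 2) = V (n + 1) * ξ (n + 1) - ξ n)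
    {e U A : ℝ} (he : 0 < e) (hA : 0 ≤ A) {N : ℕ}
    (hlo : ∀ n, n ≤ N → e ≤ nn (pair ξ n)) (hup : ∀ n, n ≤ N → nn (pair ξ n) ≤ U)
    (hV : ∀ n, n < N → |V (n + 1)| ≤ A) {m n : ℕ} (hmn : m ≤ n) (hn : n ≤ N) :
    |G V m n| ≤ BB e U A N := by
  have h1 : nn (pair (G V m) n) ≤ nn (pair (G V m) m) * BB e U A N :=
    transfer hξ he hA hlo hup hV (fun i hi => G_succ_succ V m i hi) hmn hn
  have h2 : nn (pair (G V m) m) = 1 := by
    have : pair (G V m) m = (0, 1) := by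
      unfold pair
      rw [G_of_le V m m le_rfl, G_self_succ]
    rw [this, nn_zero_right, abs_one]
  rw [h2, one_mul] at h1
  exact (abs_fst_le (pair (G V m) n)).trans h1

/-! ### The standard map -/

/-- digit -/
noncomputable def Vr (k x : ℝ) : ℝ := 2 + 2 * Real.pi * k * Real.cos (2 * Real.pi * x)

/-- the constant `4π²k` -/
noncomputable def cc (k : ℝ) : ℝ := 4 * Real.pi ^ 2 * k

theorem abs_Vr_sub_le {k : ℝ} (hk : 0 ≤ k) (x y : ℝ) : |Vr k y - Vr k x| ≤ cc k * |y - x| := by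
  unfold Vr cc
  have e1 : 2 + 2 * Real.pi * k * Real.cos (2 * Real.pi * y) -
      (2 + 2 * Real.pi * k * Real.cos (2 * Real.pi * x)) =
      2 * Real.pi * k * (Real.cos (2 * Real.pi * y) - Real.cos (2 * Real.pi * x)) := by ring
  have hp := Real.pi_pos
  rw [e1, abs_mul, abs_of_nonneg (by positivity : 0 ≤ 2 * Real.pi * k)]
  have h1 := Real.abs_cos_sub_cos_le (2 * Real.pi * y) (2 * Real.pi * x)
  have e2 : |2 * Real.pi * y - 2 * Real.pi * x| = 2 * Real.pi * |y - x| := by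
    rw [← mul_sub, abs_mul, abs_of_pos (by positivity : 0 < 2 * Real.pi)]
  rw [e2] at h1
  calc 2 * Real.pi * k * |Real.cos (2 * Real.pi * y) - Real.cos (2 * Real.pi * x)|
      ≤ 2 * Real.pi * k * (2 * Real.pi * |y - x|) :=
        mul_le_mul_of_nonneg_left h1 (by positivity)
    _ = _ := by ring

theorem sin_taylor (x y : ℝ) : |Real.sin y - Real.sin x - Real.cos x * (y - x)| ≤ (y - x) ^ 2 := by
  have hd : ∀ s ∈ Set.uIcc x y, HasDerivWithinAt
      (fun s => Real.sin s - Real.sin x - Real.cos x * (s - x)) (Real.cos s - Real.cos x)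
      (Set.uIcc x y) s := by
    intro s _
    have h1 := ((Real.hasDerivAt_sin s).sub_const (Real.sin x)).sub
      (((hasDerivAt_id s).sub_const x).const_mul (Real.cos x))
    simp only [mul_one, id_eq] at h1
    exact h1.hasDerivWithinAt
  have hb : ∀ s ∈ Set.uIcc x y, ‖Real.cos s - Real.cos x‖ ≤ |y - x| := by
    intro s hs
    rw [Real.norm_eq_abs]
    exact (Real.abs_cos_sub_cos_le s x).trans (Set.abs_sub_left_of_mem_uIcc hs)
  have h := Convex.norm_image_sub_le_of_norm_hasDerivWithin_le hd hb (convex_uIcc x y)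
    Set.left_mem_uIcc Set.right_mem_uIcc
  simp only [sub_self, mul_zero, sub_zero, Real.norm_eq_abs] at h
  calc |Real.sin y - Real.sin x - Real.cos x * (y - x)| ≤ |y - x| * |y - x| := h
    _ = (y - x) ^ 2 := by rw [← sq, sq_abs]

/-- **Perturbation lemma, one side.** -/
theorem perturb_side {k : ℝ} (hk : 0 ≤ k) {X X' ξ ξ' : ℕ → ℝ}
    (hX : ∀ n, X (n + 2) = 2 * X (n + 1) + k * Real.sin (2 * Real.pi * X (n + 1)) - X n)
    (hX' : ∀ n, X' (n + 2) = 2 * X' (n + 1) + k * Real.sin (2 * Real.pi * X' (n + 1)) - X' n)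
    (hξ : ∀ n, ξ (n + 2) = Vr k (X (n + 1)) * ξ (n + 1) - ξ n)
    (hξ' : ∀ n, ξ' (n + 2) = Vr k (X' (n + 1)) * ξ' (n + 1) - ξ' n)
    (h0 : X' 0 = X 0) (i0 : ξ' 0 = ξ 0) (i1 : ξ' 1 = ξ 1)
    {e U : ℝ} (he : 0 < e) {N : ℕ}
    (hlo : ∀ n, n ≤ N → e ≤ nn (pair ξ n)) (hup : ∀ n, n ≤ N → nn (pair ξ n) ≤ U)
    {d : ℝ} (hd : |X' 1 - X 1| ≤ d)
    (hd1 : 4 * cc k * N * BB e U (2 + 2 * Real.pi * k) N ^ 2 * d ≤ 1) :
    (∀ n, n ≤ N → |X' n - X n| ≤ 2 * BB e U (2 + 2 * Real.pi * k) N * d) ∧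
    ∀ ε, ε ≤ U → 4 * cc k * N * BB e U (2 + 2 * Real.pi * k) N ^ 2 * d * U ≤ ε →
      ∀ n, n ≤ N → |ξ' n - ξ n| ≤ ε := by
  set A : ℝ := 2 + 2 * Real.pi * k with hAdef
  have hp := Real.pi_pos
  have hA : 0 ≤ A := by positivity
  have hd0 : 0 ≤ d := (abs_nonneg _).trans hd
  have hc : 0 ≤ cc k := by unfold cc; positivity
  set V : ℕ → ℝ := fun n => Vr k (X n) with hVdef
  have hVb : ∀ n, n < N → |V (n + 1)| ≤ A := by
    intro n _
    have h1 := Real.abs_cos_le_one (2 * Real.pi * X (n + 1))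
    have h2 : |Vr k (X (n + 1))| ≤ |2| + |2 * Real.pi * k * Real.cos (2 * Real.pi * X (n + 1))| :=
      abs_add_le _ _
    rw [abs_mul, abs_of_nonneg (by positivity : 0 ≤ 2 * Real.pi * k), abs_two] at h2
    have h3 : 2 * Real.pi * k * |Real.cos (2 * Real.pi * X (n + 1))| ≤ 2 * Real.pi * k * 1 :=
      mul_le_mul_of_nonneg_left h1 (by positivity)
    show |Vr k (X (n + 1))| ≤ A
    linarith
  have hU : 0 ≤ U := (nn_nonneg _).trans (hup 0 (Nat.zero_le _))
  set B := BB e U A N with hBdef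
  have hB : 0 ≤ B := BB_nonneg he hU hA N
  have hξV : ∀ n, ξ (n + 2) = V (n + 1) * ξ (n + 1) - ξ n := hξ
  -- displacement
  set δ : ℕ → ℝ := fun n => X' n - X n with hδ
  set R : ℕ → ℝ := fun m => k * (Real.sin (2 * Real.pi * X' m) - Real.sin (2 * Real.pi * X m)) -
    (2 * Real.pi * k * Real.cos (2 * Real.pi * X m)) * δ m with hR
  have hrec : ∀ n, δ (n + 2) = V (n + 1) * δ (n + 1) - δ n + R (n + 1) := by
    intro n
    simp only [hδ, hR, hVdef, Vr]
    rw [hX, hX']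
    ring
  have hRb : ∀ m, m < N → ‖R m‖ ≤ cc k * ‖δ m‖ ^ 2 := by
    intro m _
    have h1 := sin_taylor (2 * Real.pi * X m) (2 * Real.pi * X' m)
    have e1 : R m = k * (Real.sin (2 * Real.pi * X' m) - Real.sin (2 * Real.pi * X m) -
        Real.cos (2 * Real.pi * X m) * (2 * Real.pi * X' m - 2 * Real.pi * X m)) := by
      simp only [hR, hδ]
      ring
    rw [e1, Real.norm_eq_abs, abs_mul, abs_of_nonneg hk, Real.norm_eq_abs, sq_abs]
    calc k * _ ≤ k * (2 * Real.pi * X' m - 2 * Real.pi * X m) ^ 2 :=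
          mul_le_mul_of_nonneg_left h1 hk
      _ = cc k * δ m ^ 2 := by simp only [hδ, cc]; ring
  have hδ0 : δ 0 = 0 := by simp [hδ, h0]
  have hS : ∀ n, n ≤ N → ‖S V (δ 0) (δ 1) n‖ ≤ B * d := by
    intro n hn
    have h1 : nn (pair (S V (δ 0) (δ 1)) n) ≤ nn (pair (S V (δ 0) (δ 1)) 0) * B :=
      transfer hξV he hA hlo hup hVb (m := 0) (fun i _ => S_succ_succ V _ _ i) (Nat.zero_le n) hn
    have h2 : nn (pair (S V (δ 0) (δ 1)) 0) = |δ 1| := by
      have : pair (S V (δ 0) (δ 1)) 0 = (0, δ 1) := by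
        unfold pair
        rw [S_zero, zero_add, S_one, hδ0]
      rw [this, nn_zero_right]
    rw [h2] at h1
    rw [Real.norm_eq_abs]
    refine ((abs_fst_le (pair (S V (δ 0) (δ 1)) n)).trans h1).trans ?_
    rw [mul_comm]
    exact mul_le_mul_of_nonneg_left hd hB
  have hG : ∀ m n, m ≤ n → n ≤ N → |G V m n| ≤ B := fun m n h1 h2 =>
    abs_G_le hξV he hA hlo hup hVb h1 h2
  have hsum : ∀ (q : ℝ), 0 ≤ q → ∀ n, n ≤ N → ∑ m ∈ Ico 1 n, ‖G V m n‖ * q ≤ N * (B * q) := by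
    intro q hq n hn
    refine (Finset.sum_le_card_nsmul _ _ (B * q) ?_).trans ?_
    · intro m hm
      rw [mem_Ico] at hm
      rw [Real.norm_eq_abs]
      exact mul_le_mul_of_nonneg_right (hG m n (by omega) hn) hq
    · rw [Nat.card_Ico, nsmul_eq_mul]
      have : ((n - 1 : ℕ) : ℝ) ≤ N := by exact_mod_cast (by omega : n - 1 ≤ N)
      exact mul_le_mul_of_nonneg_right this (by positivity)
  have hdisp := displacement V R δ N hrec (cc k) hc hRb (fun _ => B * d) (fun _ => B * d)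
    hS (by
      intro n hn
      refine (hsum (cc k * (B * d + B * d) ^ 2) (by positivity) n hn).trans ?_
      have e1 : (N : ℝ) * (B * (cc k * (B * d + B * d) ^ 2)) =
          (4 * cc k * N * B ^ 2 * d) * (B * d) := by ring
      rw [e1]
      calc _ ≤ 1 * (B * d) := mul_le_mul_of_nonneg_right hd1 (by positivity)
        _ = _ := one_mul _)
  have hdelta : ∀ n, n ≤ N → |X' n - X n| ≤ 2 * B * d := by
    intro n hn
    have h1 := hdisp n hn
    have h2 := hS n hn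
    rw [Real.norm_eq_abs] at h1 h2
    have h3 : |δ n| ≤ |δ n - S V (δ 0) (δ 1) n| + |S V (δ 0) (δ 1) n| := by
      have := abs_add_le (δ n - S V (δ 0) (δ 1) n) (S V (δ 0) (δ 1) n)
      simpa using this
    show |δ n| ≤ _
    linarith
  refine ⟨hdelta, ?_⟩
  intro ε hεU hε n hn
  have hε0 : 0 ≤ ε := le_trans (by positivity) hε
  set θ : ℕ → ℝ := fun m => Vr k (X' m) - Vr k (X m) with hθ
  have hu : ∀ n, ξ' (n + 2) = (V (n + 1) + θ (n + 1)) * ξ' (n + 1) - ξ' n := by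
    intro n
    rw [hξ']
    simp only [hθ, hVdef]
    ring
  have hSξ : ∀ n, S V (ξ' 0) (ξ' 1) n = ξ n := by
    intro n
    induction n using Nat.strong_induction_on with
    | _ n ih =>
      match n with
      | 0 => rw [S_zero, i0]
      | 1 => rw [S_one, i1]
      | n + 2 => rw [S_succ_succ, ih (n + 1) (by omega), ih n (by omega), hξV]
  have hθb : ∀ m, m < N → ‖θ m‖ ≤ cc k * (2 * B * d) := by
    intro m hm
    rw [Real.norm_eq_abs]
    exact (abs_Vr_sub_le hk _ _).trans (mul_le_mul_of_nonneg_left (hdelta m hm.le) hc)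
  have key := perturb V θ ξ' N hu (fun _ => U) (fun _ => ε) (fun _ => cc k * (2 * B * d)) hθb
    (by
      intro n hn
      rw [hSξ, Real.norm_eq_abs]
      exact (abs_fst_le (pair ξ n)).trans (hup n hn))
    (by
      intro n hn
      refine (hsum (cc k * (2 * B * d) * (U + ε)) (by positivity) n hn).trans ?_
      have e1 : (N : ℝ) * (B * (cc k * (2 * B * d) * (U + ε))) ≤
          N * (B * (cc k * (2 * B * d) * (U + U))) := by gcongr
      refine e1.trans (le_trans (le_of_eq ?_) hε)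
      ring)
  have h1 := key n hn
  rw [hSξ, Real.norm_eq_abs] at h1
  exact h1

end Crest.Agent.R128.Pert
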