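import Crest.Agent.R128.Torus
/-!
Row 128, node V34-PROD (helper815): product of stable and unstable strips.
A set `B₁` whose points carry stable strips (graphs over the first coordinate) and a set `B₂` whose
points carry unstable strips (graphs over the second coordinate), both with the coherence property
of CORE2, satisfy `vol (B₁ ∩ B₂) ≤ C vol Q₁ vol Q₂`.
-/
set_option autoImplicit false
open MeasureTheory Set
open scoped ENNReal
namespace Crest.Agent.R128.Prod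

/-- strip of half width `u` around the graph of `f` over `[a, b]` -/
def strip (a b : ℝ) (f : ℝ → ℝ) (u : ℝ) : Set (ℝ × ℝ) := {p | p.1 ∈ Icc a b ∧ |p.2 - f p.1| ≤ u}

theorem isClosed_strip {a b : ℝ} {f : ℝ → ℝ} (hf : Continuous f) (u : ℝ) :
    IsClosed (strip a b f u) := by
  have h1 : IsClosed {p : ℝ × ℝ | p.1 ∈ Icc a b} := isClosed_Icc.preimage continuous_fst
  have h2 : IsClosed {p : ℝ × ℝ | |p.2 - f p.1| ≤ u} :=
    isClosed_le ((continuous_snd.sub (hf.comp continuous_fst)).abs) continuous_const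
  exact h1.inter h2

theorem volume_strip {a b : ℝ} (hab : a ≤ b) {f : ℝ → ℝ} (hf : Continuous f) {u : ℝ} (hu : 0 ≤ u) :
    volume (strip a b f u) = ENNReal.ofReal ((b - a) * (2 * u)) := by
  rw [Measure.volume_eq_prod, Measure.prod_apply (isClosed_strip hf u).measurableSet]
  have h : ∀ x : ℝ, volume (Prod.mk x ⁻¹' strip a b f u) =
      (Icc a b).indicator (fun _ => ENNReal.ofReal (2 * u)) x := by
    intro x
    by_cases hx : x ∈ Icc a b
    · rw [indicator_of_mem hx]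
      have : Prod.mk x ⁻¹' strip a b f u = Icc (f x - u) (f x + u) := by
        ext y
        constructor
        · rintro ⟨_, h2⟩
          have h3 := abs_le.1 h2
          have h4 : -u ≤ y - f x := h3.1
          have h5 : y - f x ≤ u := h3.2
          exact ⟨by linarith, by linarith⟩
        · rintro ⟨h1, h2⟩
          refine ⟨hx, abs_le.2 ⟨?_, ?_⟩⟩
          · show -u ≤ y - f x
            linarith
          · show y - f x ≤ u
            linarith
      rw [this, Real.volume_Icc]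
      congr 1; ring
    · rw [indicator_of_notMem hx]
      have : Prod.mk x ⁻¹' strip a b f u = ∅ := by
        ext y
        simp only [mem_empty_iff_false, iff_false]
        exact fun h => hx h.1
      rw [this, measure_empty]
  simp_rw [h]
  rw [lintegral_indicator measurableSet_Icc, setLIntegral_const, Real.volume_Icc,
    mul_comm, ← ENNReal.ofReal_mul (by linarith)]

/-- two transversal strips: case of the thinner first strip -/
theorem cross_aux {f g : ℝ → ℝ} (hf : ∀ x y, |f x - f y| ≤ 1 / 8 * |x - y|)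
    (hg : ∀ x y, |g x - g y| ≤ 1 / 8 * |x - y|) {u v : ℝ} (hu : 0 ≤ u) (huv : u ≤ v) :
    volume {p : ℝ × ℝ | |p.2 - f p.1| ≤ u ∧ |p.1 - g p.2| ≤ v} ≤ ENNReal.ofReal (10 * u * v) := by
  rcases eq_empty_or_nonempty {p : ℝ × ℝ | |p.2 - f p.1| ≤ u ∧ |p.1 - g p.2| ≤ v} with h | ⟨q, hq⟩
  · rw [h, measure_empty]; exact zero_le
  have hv : 0 ≤ v := hu.trans huv
  have hfc : Continuous f := by
    have : LipschitzWith (1 / 8 : NNReal) f := by
      refine LipschitzWith.of_dist_le_mul fun x y => ?_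
      rw [Real.dist_eq, Real.dist_eq]
      simpa using hf x y
    exact this.continuous
  have hsub : {p : ℝ × ℝ | |p.2 - f p.1| ≤ u ∧ |p.1 - g p.2| ≤ v} ⊆
      strip (q.1 - 5 / 2 * v) (q.1 + 5 / 2 * v) f u := by
    rintro p ⟨hp1, hp2⟩
    obtain ⟨hq1, hq2⟩ := hq
    refine ⟨?_, hp1⟩
    have a1 : |p.2 - q.2| ≤ 2 * u + 1 / 8 * |p.1 - q.1| := by
      have := hf p.1 q.1
      have e : p.2 - q.2 = (p.2 - f p.1) - (q.2 - f q.1) + (f p.1 - f q.1) := by ring
      rw [e]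
      calc _ ≤ |(p.2 - f p.1) - (q.2 - f q.1)| + |f p.1 - f q.1| := abs_add_le _ _
        _ ≤ |p.2 - f p.1| + |q.2 - f q.1| + |f p.1 - f q.1| := by gcongr; exact abs_sub _ _
        _ ≤ _ := by linarith
    have a2 : |p.1 - q.1| ≤ 2 * v + 1 / 8 * |p.2 - q.2| := by
      have := hg p.2 q.2
      have e : p.1 - q.1 = (p.1 - g p.2) - (q.1 - g q.2) + (g p.2 - g q.2) := by ring
      rw [e]
      calc _ ≤ |(p.1 - g p.2) - (q.1 - g q.2)| + |g p.2 - g q.2| := abs_add_le _ _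
        _ ≤ |p.1 - g p.2| + |q.1 - g q.2| + |g p.2 - g q.2| := by gcongr; exact abs_sub _ _
        _ ≤ _ := by linarith
    have a3 : |p.1 - q.1| ≤ 5 / 2 * v := by linarith
    rw [abs_le] at a3
    constructor <;> linarith [a3.1, a3.2]
  refine (measure_mono hsub).trans ?_
  rw [volume_strip (by linarith) hfc hu]
  apply ENNReal.ofReal_le_ofReal
  nlinarith

theorem volume_cross {f g : ℝ → ℝ} (hf : ∀ x y, |f x - f y| ≤ 1 / 8 * |x - y|)
    (hg : ∀ x y, |g x - g y| ≤ 1 / 8 * |x - y|) {u v : ℝ} (hu : 0 ≤ u) (hv : 0 ≤ v) :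
    volume {p : ℝ × ℝ | |p.2 - f p.1| ≤ u ∧ |p.1 - g p.2| ≤ v} ≤ ENNReal.ofReal (10 * u * v) := by
  rcases le_total u v with h | h
  · exact cross_aux hf hg hu h
  have hc : ∀ f : ℝ → ℝ, (∀ x y, |f x - f y| ≤ 1 / 8 * |x - y|) → Continuous f := by
    intro f hf
    have : LipschitzWith (1 / 8 : NNReal) f := by
      refine LipschitzWith.of_dist_le_mul fun x y => ?_
      rw [Real.dist_eq, Real.dist_eq]
      simpa using hf x y
    exact this.continuous
  have hcl : IsClosed {p : ℝ × ℝ | |p.2 - g p.1| ≤ v ∧ |p.1 - f p.2| ≤ u} := by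
    apply IsClosed.and
    · exact isClosed_le ((continuous_snd.sub ((hc g hg).comp continuous_fst)).abs) continuous_const
    · exact isClosed_le ((continuous_fst.sub ((hc f hf).comp continuous_snd)).abs) continuous_const
  have hms : MeasurePreserving (Prod.swap : ℝ × ℝ → ℝ × ℝ) volume volume :=
    Measure.measurePreserving_swap
  have e : {p : ℝ × ℝ | |p.2 - f p.1| ≤ u ∧ |p.1 - g p.2| ≤ v} =
      Prod.swap ⁻¹' {p : ℝ × ℝ | |p.2 - g p.1| ≤ v ∧ |p.1 - f p.2| ≤ u} := by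
    ext p
    exact and_comm
  rw [e, hms.measure_preimage hcl.measurableSet.nullMeasurableSet]
  refine (cross_aux hg hf hv h).trans ?_
  apply ENNReal.ofReal_le_ofReal
  nlinarith

/-- maximal separated family of strips -/
theorem exists_cover {ι : Type*} (S : Set ι) (σ : ι → ℝ → ℝ) (hσ : ∀ z ∈ S, Continuous (σ z))
    {r : ℝ} (hr : 0 < r) {G : Set (ℝ × ℝ)} (hGfin : volume G ≠ ⊤)
    (hsub : ∀ z ∈ S, strip 0 1 (σ z) r ⊆ G) :
    ∃ F : Finset ι, (∀ z ∈ F, z ∈ S) ∧ (F.card : ℝ≥0∞) * ENNReal.ofReal (2 * r) ≤ volume G ∧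
      ∀ z ∈ S, ∃ w ∈ F, ∃ l ∈ Icc (0 : ℝ) 1, |σ z l - σ w l| ≤ 2 * r := by
  classical
  set P : Finset ι → Prop := fun F => (∀ z ∈ F, z ∈ S) ∧
    ∀ z ∈ F, ∀ w ∈ F, z ≠ w → ∀ l ∈ Icc (0 : ℝ) 1, 2 * r < |σ z l - σ w l| with hP
  have hcard : ∀ F, P F → (F.card : ℝ≥0∞) * ENNReal.ofReal (2 * r) ≤ volume G := by
    rintro F ⟨h1, h2⟩
    have hdisj : (F : Set ι).PairwiseDisjoint fun z => strip 0 1 (σ z) r := by
      intro z hz w hw hzw
      rw [Function.onFun, Set.disjoint_left]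
      rintro p ⟨hp1, hp2⟩ ⟨_, hp3⟩
      have := h2 z hz w hw hzw p.1 hp1
      have e : σ z p.1 - σ w p.1 = (p.2 - σ w p.1) - (p.2 - σ z p.1) := by ring
      rw [e] at this
      have := this.trans_le (abs_sub _ _)
      linarith
    have hu := measure_biUnion_finset (μ := (volume : Measure (ℝ × ℝ))) hdisj
      fun z hz => (isClosed_strip (hσ z (h1 z hz)) r).measurableSet
    have hle : volume (⋃ z ∈ F, strip 0 1 (σ z) r) ≤ volume G :=
      measure_mono (iUnion₂_subset fun z hz => hsub z (h1 z hz))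
    rw [hu, Finset.sum_congr rfl fun z hz => volume_strip (by norm_num : (0 : ℝ) ≤ 1)
      (hσ z (h1 z hz)) hr.le] at hle
    simpa using hle
  have hne : P ∅ := ⟨by simp, by simp⟩
  have hbdd : ∃ M : ℕ, ∀ F, P F → F.card ≤ M := by
    have hr2 : ENNReal.ofReal (2 * r) ≠ 0 := by
      simp [ENNReal.ofReal_eq_zero]; linarith
    refine ⟨⌈(volume G / ENNReal.ofReal (2 * r)).toReal⌉₊, fun F hF => ?_⟩
    have h1 := hcard F hF
    have h2 : (F.card : ℝ≥0∞) ≤ volume G / ENNReal.ofReal (2 * r) :=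
      (ENNReal.le_div_iff_mul_le (Or.inl hr2) (Or.inl ENNReal.ofReal_ne_top)).2 h1
    have h3 : volume G / ENNReal.ofReal (2 * r) ≠ ⊤ := ENNReal.div_ne_top hGfin hr2
    have h4 : (F.card : ℝ) ≤ (volume G / ENNReal.ofReal (2 * r)).toReal := by
      have := ENNReal.toReal_mono h3 h2
      simpa using this
    have h5 := h4.trans (Nat.le_ceil _)
    exact_mod_cast h5
  obtain ⟨M, hM⟩ := hbdd
  obtain ⟨F, hF, hmax⟩ : ∃ F, P F ∧ ∀ F', P F' → F'.card ≤ F.card := by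
    by_contra hcon
    push Not at hcon
    have : ∀ n : ℕ, ∃ F, P F ∧ n ≤ F.card := by
      intro n
      induction n with
      | zero => exact ⟨∅, hne, by simp⟩
      | succ n ih =>
        obtain ⟨F, hF, hn⟩ := ih
        obtain ⟨F', hF', hlt⟩ := hcon F hF
        exact ⟨F', hF', by omega⟩
    obtain ⟨F, hF, hn⟩ := this (M + 1)
    have := hM F hF
    omega
  refine ⟨F, hF.1, hcard F hF, fun z hz => ?_⟩
  by_cases hzF : z ∈ F
  · exact ⟨z, hzF, 0, by simp, by simp; linarith⟩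
  by_contra hcon
  push Not at hcon
  have hP' : P (insert z F) := by
    refine ⟨fun w hw => ?_, fun a ha b hb hab l hl => ?_⟩
    · rcases Finset.mem_insert.1 hw with rfl | hw
      · exact hz
      · exact hF.1 w hw
    · rcases Finset.mem_insert.1 ha with rfl | ha
      · rcases Finset.mem_insert.1 hb with rfl | hb
        · exact absurd rfl hab
        · exact hcon b hb l hl
      · rcases Finset.mem_insert.1 hb with hbz | hb
        · rw [hbz, abs_sub_comm]; exact hcon a ha l hl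
        · exact hF.2 a ha b hb hab l hl
  have := hmax _ hP'
  rw [Finset.card_insert_of_notMem hzF] at this
  omega

/-- points of `S` (in `[0,1] × ℝ`) with coherent strips of half width `r` inside `G` -/
structure Fam (S : Set (ℝ × ℝ)) (σ : ℝ × ℝ → ℝ → ℝ) (r K : ℝ) (G : Set (ℝ × ℝ)) : Prop where
  mem : ∀ z ∈ S, z.1 ∈ Icc (0 : ℝ) 1
  base : ∀ z ∈ S, σ z z.1 = z.2
  lip : ∀ z ∈ S, ∀ x ∈ Icc (0 : ℝ) 1, ∀ y ∈ Icc (0 : ℝ) 1, |σ z x - σ z y| ≤ 1 / 8 * |x - y|
  sub : ∀ z ∈ S, ∀ l ∈ Icc (0 : ℝ) 1, ∀ s, |s - σ z l| ≤ r → (l, s) ∈ G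
  coh : ∀ z ∈ S, ∀ w ∈ S, ∀ l ∈ Icc (0 : ℝ) 1, ∀ l' ∈ Icc (0 : ℝ) 1,
    |σ z l - σ w l| ≤ 2 * r → |σ z l' - σ w l'| ≤ K * r

/-- clamp to `[0,1]` -/
noncomputable def cl (x : ℝ) : ℝ := max 0 (min x 1)

theorem cl_mem (x : ℝ) : cl x ∈ Icc (0 : ℝ) 1 := by
  unfold cl; constructor
  · exact le_max_left _ _
  · exact max_le (by norm_num) (min_le_right _ _)

theorem cl_of_mem {x : ℝ} (h : x ∈ Icc (0 : ℝ) 1) : cl x = x := by
  unfold cl; rw [min_eq_left h.2, max_eq_right h.1]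

theorem cl_lip (x y : ℝ) : |cl x - cl y| ≤ |x - y| := by
  unfold cl
  refine (abs_max_sub_max_le_max _ _ _ _).trans ?_
  refine max_le (by simp) ?_
  refine (abs_min_sub_min_le_max _ _ _ _).trans ?_
  exact max_le le_rfl (by simp)

/-- the finite cover of `S` by the `K r`-strips of a separated family -/
theorem Fam.cover {S : Set (ℝ × ℝ)} {σ : ℝ × ℝ → ℝ → ℝ} {r K : ℝ} {G : Set (ℝ × ℝ)}
    (h : Fam S σ r K G) (hr : 0 < r) (hG : volume G ≠ ⊤) :
    ∃ F : Finset (ℝ × ℝ), (∀ z ∈ F, z ∈ S) ∧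
      (F.card : ℝ≥0∞) * ENNReal.ofReal (2 * r) ≤ volume G ∧
      ∀ z ∈ S, ∃ w ∈ F, |z.2 - σ w (cl z.1)| ≤ K * r := by
  obtain ⟨F, h1, h2, h3⟩ := exists_cover S (fun z x => σ z (cl x)) (fun z hz => by
    have : LipschitzWith (1 / 8 : NNReal) (fun x => σ z (cl x)) := by
      refine LipschitzWith.of_dist_le_mul fun x y => ?_
      rw [Real.dist_eq, Real.dist_eq]
      have := h.lip z hz _ (cl_mem x) _ (cl_mem y)
      have h2 := cl_lip x y
      have h3 : |σ z (cl x) - σ z (cl y)| ≤ 1 / 8 * |x - y| := by linarith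
      simpa using h3
    exact this.continuous) hr hG (fun z hz => by
      rintro ⟨l, s⟩ ⟨hl, hs⟩
      simp only [cl_of_mem hl] at hs
      exact h.sub z hz l hl s hs)
  refine ⟨F, h1, h2, fun z hz => ?_⟩
  obtain ⟨w, hw, l, hl, hlw⟩ := h3 z hz
  refine ⟨w, hw, ?_⟩
  simp only [cl_of_mem hl] at hlw
  have := h.coh z hz w (h1 w hw) l hl z.1 (h.mem z hz) hlw
  rw [h.base z hz] at this
  rw [cl_of_mem (h.mem z hz)]
  exact this

/-- **Product of strips, plane version.** -/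
theorem Fam.prod {S₁ S₂ : Set (ℝ × ℝ)} {σ₁ σ₂ : ℝ × ℝ → ℝ → ℝ} {r₁ r₂ K : ℝ}
    {G₁ G₂ : Set (ℝ × ℝ)} (h₁ : Fam S₁ σ₁ r₁ K G₁) (h₂ : Fam S₂ σ₂ r₂ K G₂) (hr₁ : 0 < r₁)
    (hr₂ : 0 < r₂) (hK : 0 ≤ K) (hG₁ : volume G₁ ≠ ⊤) (hG₂ : volume G₂ ≠ ⊤) :
    ∃ U : Set (ℝ × ℝ), MeasurableSet U ∧ S₁ ∩ Prod.swap ⁻¹' S₂ ⊆ U ∧
      volume U ≤ ENNReal.ofReal (5 / 2 * K ^ 2) * (volume G₁ * volume G₂) := by
  obtain ⟨F₁, a1, a2, a3⟩ := h₁.cover hr₁ hG₁
  obtain ⟨F₂, b1, b2, b3⟩ := h₂.cover hr₂ hG₂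
  have L₁ : ∀ z ∈ F₁, ∀ x y, |σ₁ z (cl x) - σ₁ z (cl y)| ≤ 1 / 8 * |x - y| := fun z hz x y => by
    have := h₁.lip z (a1 z hz) _ (cl_mem x) _ (cl_mem y)
    have h2 := cl_lip x y
    linarith
  have L₂ : ∀ z ∈ F₂, ∀ x y, |σ₂ z (cl x) - σ₂ z (cl y)| ≤ 1 / 8 * |x - y| := fun z hz x y => by
    have := h₂.lip z (b1 z hz) _ (cl_mem x) _ (cl_mem y)
    have h2 := cl_lip x y
    linarith
  have hc : ∀ f : ℝ → ℝ, (∀ x y, |f x - f y| ≤ 1 / 8 * |x - y|) → Continuous f := by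
    intro f hf
    have : LipschitzWith (1 / 8 : NNReal) f := by
      refine LipschitzWith.of_dist_le_mul fun x y => ?_
      rw [Real.dist_eq, Real.dist_eq]
      simpa using hf x y
    exact this.continuous
  set A : (ℝ × ℝ) → (ℝ × ℝ) → Set (ℝ × ℝ) := fun z w =>
    {p : ℝ × ℝ | |p.2 - σ₁ z (cl p.1)| ≤ K * r₁ ∧ |p.1 - σ₂ w (cl p.2)| ≤ K * r₂} with hA
  refine ⟨⋃ z ∈ F₁, ⋃ w ∈ F₂, A z w, ?_, ?_, ?_⟩
  · refine Finset.measurableSet_biUnion _ fun z hz => Finset.measurableSet_biUnion _ fun w hw => ?_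
    refine IsClosed.measurableSet (IsClosed.and ?_ ?_)
    · exact isClosed_le ((continuous_snd.sub ((hc (fun x => σ₁ z (cl x)) (L₁ z hz)).comp
        continuous_fst)).abs) continuous_const
    · exact isClosed_le ((continuous_fst.sub ((hc (fun x => σ₂ w (cl x)) (L₂ w hw)).comp
        continuous_snd)).abs) continuous_const
  · rintro p ⟨hp1, hp2⟩
    obtain ⟨z, hz, hz'⟩ := a3 p hp1
    obtain ⟨w, hw, hw'⟩ := b3 p.swap hp2
    exact mem_iUnion₂.2 ⟨z, hz, mem_iUnion₂.2 ⟨w, hw, hz', by simpa using hw'⟩⟩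
  · calc volume (⋃ z ∈ F₁, ⋃ w ∈ F₂, A z w)
        ≤ ∑ z ∈ F₁, volume (⋃ w ∈ F₂, A z w) := measure_biUnion_finset_le _ _
      _ ≤ ∑ z ∈ F₁, ∑ w ∈ F₂, volume (A z w) :=
          Finset.sum_le_sum fun z _ => measure_biUnion_finset_le _ _
      _ ≤ ∑ z ∈ F₁, ∑ w ∈ F₂, ENNReal.ofReal (10 * (K * r₁) * (K * r₂)) :=
          Finset.sum_le_sum fun z hz => Finset.sum_le_sum fun w hw =>
            volume_cross (L₁ z hz) (L₂ w hw) (by positivity) (by positivity)
      _ = ENNReal.ofReal (5 / 2 * K ^ 2) * (((F₁.card : ℝ≥0∞) * ENNReal.ofReal (2 * r₁)) *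
            ((F₂.card : ℝ≥0∞) * ENNReal.ofReal (2 * r₂))) := by
          have e : ENNReal.ofReal (10 * (K * r₁) * (K * r₂)) = ENNReal.ofReal (5 / 2 * K ^ 2) *
              (ENNReal.ofReal (2 * r₁) * ENNReal.ofReal (2 * r₂)) := by
            rw [← ENNReal.ofReal_mul (by positivity), ← ENNReal.ofReal_mul (by positivity)]
            congr 1; ring
          simp only [Finset.sum_const, nsmul_eq_mul, e]
          ring
      _ ≤ _ := by gcongr

end Crest.Agent.R128.Prod
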