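import Mathlib
import Crest.Agent.R128.CleanCont

/-!
Row 128, node N6 (quadratic old content), RE-CENTRED version of 816's `CleanCont.content_quad`
(helper914).  `content_quad` gives the real quadratic approximation of the slope on discs centred at
the clean base point `t0` only, with an error proportional to the cube of the radius of a disc that
must contain BOTH `t0` and the cell centre.  For a cell centre `m` at distance `k^{-60} 2^{-n}` from
`t0` and cells of radius `1/R`, `R` up to `k^{74} 2^n`, that error is too large.  Here the Taylor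
expansion is centred at `x0 = m` (any real point with `2 |x0 - t0| <= rho0 / X`), so that the error is
proportional to the cube of the radius of the cell itself.
-/

set_option autoImplicit false

open Finset Metric Topology

namespace Crest.Agent.R128.QuadAt914

open Crest.Agent.R128 Crest.Agent.R128.Cell Crest.Agent.R128.CellB
open Crest.Agent.R128.TreeSum Crest.Agent.R128.Disp Crest.Agent.R128.CleanNum
open Crest.Agent.R128.CleanDisc Crest.Agent.R128.CleanCont

section main

variable {k c t0 : ℝ} {z : ℕ → ℝ × ℝ} {n : ℕ} {δ K A c0 : ℝ}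

/-- **The content of a clean side is quadratic, with the expansion RE-CENTRED at a real point `x0`
near the clean base point `t0`.** -/
theorem content_quad_at (h : Clean (ra k c t0) (wf k c t0) z n δ K A c0) (hk : 1 ≤ k) {e : ℕ}
    (he : e ≤ n) (hq : 1 / 2 * nn (wf k c t0 e) ≤ |(wf k c t0 e).2|) {r x0 : ℝ} (hr0 : 0 ≤ r)
    (hx0 : 2 * |x0 - t0| ≤ rho0 k A K c0 / XX (wf k c t0) z)
    (hr : 4 * r ≤ rho0 k A K c0 / XX (wf k c t0) z) (mc : ℝ) :
    ∃ q0 q1 q2 : ℝ, ∀ u ∈ closedBall (x0 : ℂ) r,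
      ‖Align.mu (fun j => cV k (y k c j u)) (e + 1) -
        (q0 + q1 * (u - mc) + q2 * (u - mc) ^ 2)‖ ≤
      8 * (4 * (CV k + 2) * A ^ 3 * K + 8) * (r * XX (wf k c t0) z / rho0 k A K c0) ^ 3 /
        XX (wf k c t0) z ^ 2 * nn (z e) ^ (-(1 - 47 * δ)) := by
  have hX : 0 < XX (wf k c t0) z := h.Xpos
  have hρ := rho0_pos h hk
  have hδ0 := h.δ0
  have hδ1 := h.δ1
  have hCV := CV_ge k
  have hK := h.K1
  have hA1 := h.A1
  set X := XX (wf k c t0) z with hXdef
  have hXe : |wr (wf k c t0 0) (z 0)| = X := rfl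
  set ρ := rho0 k A K c0 with hρdef
  -- radii
  set rad : ℕ → ℝ := fun m => 1 / 2 * (ρ / X * nn (z m) ^ (1 - 15 * δ)) with hrad
  have hradge : ∀ m ≤ n, 2 * r ≤ rad m := by
    intro m hm
    have h1 : 1 ≤ nn (z m) ^ (1 - 15 * δ) := Real.one_le_rpow (h.one m hm) (by linarith)
    have h2 : 0 < ρ / X := by positivity
    have h3 : ρ / X * 1 ≤ ρ / X * nn (z m) ^ (1 - 15 * δ) := mul_le_mul_of_nonneg_left h1 h2.le
    simp only [hrad]
    linarith
  have hradpos : ∀ m ≤ n, 0 < rad m := by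
    intro m hm
    have h1 : 0 < nn (z m) := lt_of_lt_of_le one_pos (h.one m hm)
    simp only [hrad]
    positivity
  have hrr : ∀ m ≤ n, r / rad m = (2 * (r * X / ρ)) * nn (z m) ^ (-(1 - 15 * δ)) := by
    intro m hm
    have h1 : 0 < nn (z m) := lt_of_lt_of_le one_pos (h.one m hm)
    simp only [hrad]
    rw [Real.rpow_neg h1.le]
    have h2 : 0 < nn (z m) ^ (1 - 15 * δ) := Real.rpow_pos_of_pos h1 _
    field_simp
  have hball : ∀ m ≤ n, ∀ u, u ∈ closedBall (x0 : ℂ) (rad m) → ‖u - t0‖ ≤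
      rho0 k A K c0 / XX (wf k c t0) z * nn (z m) ^ (1 - 15 * δ) := by
    intro m hm u hu
    rw [mem_closedBall, dist_eq_norm] at hu
    have h1 : 1 ≤ nn (z m) ^ (1 - 15 * δ) := Real.one_le_rpow (h.one m hm) (by linarith)
    have h2 : 0 < ρ / X := by positivity
    have h3 : ρ / X * 1 ≤ ρ / X * nn (z m) ^ (1 - 15 * δ) := mul_le_mul_of_nonneg_left h1 h2.le
    have h4 : ‖u - (t0 : ℂ)‖ ≤ ‖u - (x0 : ℂ)‖ + ‖(x0 : ℂ) - (t0 : ℂ)‖ := by
      have := norm_add_le (u - (x0 : ℂ)) ((x0 : ℂ) - (t0 : ℂ))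
      rwa [sub_add_sub_cancel] at this
    have h5 : ‖(x0 : ℂ) - (t0 : ℂ)‖ = |x0 - t0| := by
      rw [← Complex.ofReal_sub, Complex.norm_real, Real.norm_eq_abs]
    rw [h5] at h4
    simp only [hrad] at hu
    linarith
  have hden : ∀ m ≤ n, ∀ u ∈ closedBall (x0 : ℂ) (rad m), ∀ j ≤ m,
      4 / 5 * nn (wf k c t0 j) ^ 2 ≤ ‖den k c t0 j u‖ := by
    intro m hm u hu j hj
    obtain ⟨_, _, _, _, _, _, _, g1, g2⟩ := fields h hk hm (hball m hm u hu) j hj
    exact den_ge g1 g2
  have hden0 : ∀ m ≤ n, ∀ u ∈ closedBall (x0 : ℂ) (rad m), ∀ j ≤ m, den k c t0 j u ≠ 0 := by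
    intro m hm u hu j hj h0
    have := hden m hm u hu j hj
    rw [h0, norm_zero] at this
    have hR := h.Rpos j
    have : 0 < nn (wf k c t0 j) ^ 2 := by positivity
    linarith
  -- the sum of the steps
  obtain ⟨p0, p1, p2, hp⟩ := sum_taylor_real (range e) (x0 := x0) (r := r)
    (g := fun m u => mu k c t0 (m + 1) u - mu k c t0 m u) (R := fun m => rad (m + 1))
    (B := fun m => 2 * (CV k + 2) * (1 / (nn (wf k c t0 m) * nn (wf k c t0 (m + 1)))))
    (fun m hm => hradpos (m + 1) (by have := Finset.mem_range.1 hm; omega))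
    (fun m hm => hradge (m + 1) (by have := Finset.mem_range.1 hm; omega))
    (fun m hm u hu => by
      have hme : m + 1 ≤ n := by have := Finset.mem_range.1 hm; omega
      have d1 := hden0 (m + 1) hme u hu (m + 1) le_rfl
      have d0 := hden0 (m + 1) hme u hu m (by omega)
      unfold mu
      exact (((differentiable_num k c t0 (m + 1)) u).div ((differentiable_den k c t0 (m + 1)) u)
        d1 |>.sub (((differentiable_num k c t0 m) u).div ((differentiable_den k c t0 m) u)
        d0)).differentiableWithinAt)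
    (fun m hm u hu => by
      have hme : m + 1 ≤ n := by have := Finset.mem_range.1 hm; omega
      obtain ⟨_, _, _, i1, _⟩ := fields h hk hme (hball (m + 1) hme u hu) m (by omega)
      exact step_le (h.Rpos m) (h.Rpos (m + 1)) (hden (m + 1) hme u hu m (by omega))
        (hden (m + 1) hme u hu (m + 1) le_rfl) i1)
    (fun m _ u => by rw [mu_conj, mu_conj, map_sub])
  -- the last component switch
  have hRe := h.Rpos e
  have hZe : 0 < nn (z e) := lt_of_lt_of_le one_pos (h.one e he)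
  set sw : ℂ → ℂ := fun u => (wf k c t0 e).1 / (yd k c (e + 1) u * den k c t0 e u) with hsw
  have hyd : ∀ u ∈ closedBall (x0 : ℂ) (rad e), 2 / 5 * nn (wf k c t0 e) ≤ ‖yd k c (e + 1) u‖ := by
    intro u hu
    obtain ⟨_, _, _, _, _, _, _, _, g2⟩ := fields h hk he (hball e he u hu) e le_rfl
    have g3 : ‖(((wf k c t0 e).2 : ℝ) : ℂ)‖ ≤ ‖yd k c (e + 1) u‖ +
        ‖yd k c (e + 1) u - (wf k c t0 e).2‖ := by
      have := norm_sub_le (yd k c (e + 1) u) (yd k c (e + 1) u - (wf k c t0 e).2)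
      rwa [sub_sub_cancel] at this
    rw [Complex.norm_real, Real.norm_eq_abs] at g3
    linarith
  have hyd0 : ∀ u ∈ closedBall (x0 : ℂ) (rad e), yd k c (e + 1) u ≠ 0 := by
    intro u hu h0
    have := hyd u hu
    rw [h0, norm_zero] at this
    have : 0 < 2 / 5 * nn (wf k c t0 e) := by positivity
    linarith
  obtain ⟨s0, s1, s2, hs⟩ := taylor_real (f := sw) (x0 := x0) (R := rad e)
    (B := 25 / 8 / nn (wf k c t0 e) ^ 2) (hradpos e he)
    (fun u hu => by
      have d1 := hyd0 u hu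
      have d0 := hden0 e he u hu e le_rfl
      exact ((differentiableAt_const _).div (((differentiable_yd k c (e + 1)) u).mul
        ((differentiable_den k c t0 e) u)) (mul_ne_zero d1 d0)).differentiableWithinAt)
    (fun u hu => by
      have d1 := hyd u hu
      have d0 := hden e he u hu e le_rfl
      have a1 := norm_ofReal_fst_le (wf k c t0 e)
      simp only [hsw]
      rw [norm_div, norm_mul]
      have hpos : 0 < ‖yd k c (e + 1) u‖ * ‖den k c t0 e u‖ :=
        mul_pos (lt_of_lt_of_le (by positivity) d1) (lt_of_lt_of_le (by positivity) d0)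
      rw [div_le_div_iff₀ hpos (by positivity)]
      calc ‖((wf k c t0 e).1 : ℂ)‖ * nn (wf k c t0 e) ^ 2
          ≤ nn (wf k c t0 e) * nn (wf k c t0 e) ^ 2 := by gcongr
        _ = 25 / 8 * ((2 / 5 * nn (wf k c t0 e)) * (4 / 5 * nn (wf k c t0 e) ^ 2)) := by ring
        _ ≤ 25 / 8 * (‖yd k c (e + 1) u‖ * ‖den k c t0 e u‖) := by gcongr)
    (fun u => by
      simp only [hsw]
      rw [map_div₀, map_mul, Complex.conj_ofReal, yd_conj]
      congr 2
      unfold den
      rw [map_add, map_mul, map_mul, Complex.conj_ofReal, Complex.conj_ofReal, yd_conj, yd_conj])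
    (hradge e he)
  refine ⟨(s0 - p0) + (s1 - p1) * mc + (s2 - p2) * mc ^ 2, (s1 - p1) + 2 * (s2 - p2) * mc,
    s2 - p2, fun u hu => ?_⟩
  have hu' : u ∈ closedBall (x0 : ℂ) (rad e) :=
    closedBall_subset_closedBall (by have := hradge e he; linarith) hu
  have hPQ : ∀ j, Align.Q (fun j => cV k (y k c j u)) j = yd k c j u ∧
      Align.P (fun j => cV k (y k c j u)) j = pd k c j u := by
    intro j
    induction j using Nat.strong_induction_on with
    | _ j ih =>
      match j with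
      | 0 => exact ⟨by simp, by simp⟩
      | 1 => exact ⟨by simp, by simp⟩
      | j + 2 =>
        rw [Align.Q_add_two, Align.P_add_two, yd_add_two, pd_add_two, (ih (j + 1) (by omega)).1,
          (ih (j + 1) (by omega)).2, (ih j (by omega)).1, (ih j (by omega)).2]
        exact ⟨rfl, rfl⟩
  have hmu : Align.mu (fun j => cV k (y k c j u)) (e + 1) = sw u - mu k c t0 e u := by
    unfold Align.mu
    rw [(hPQ (e + 1)).1, (hPQ (e + 1)).2]
    have d1 := hyd0 u hu'
    have d0 := hden0 e he u hu' e le_rfl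
    simp only [hsw]
    unfold mu
    rw [div_sub_div _ _ (mul_ne_zero d1 d0) d0, div_eq_div_iff d1
      (mul_ne_zero (mul_ne_zero d1 d0) d0)]
    have hw := wronskian k c e u
    have hnd : (wf k c t0 e).1 + num k c t0 e u * -(yd k c (e + 1) u) =
        -(pd k c (e + 1) u) * den k c t0 e u := by
      unfold num den
      linear_combination (-((wf k c t0 e).1 : ℂ)) * hw
    linear_combination (-(yd k c (e + 1) u) * den k c t0 e u) * hnd
  have hsum := hp u hu
  rw [sum_range_sub_mu] at hsum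
  have hsu := hs u hu
  have e1 : Align.mu (fun j => cV k (y k c j u)) (e + 1) -
      (((((s0 - p0) + (s1 - p1) * mc + (s2 - p2) * mc ^ 2 : ℝ)) : ℂ) +
        (((s1 - p1) + 2 * (s2 - p2) * mc : ℝ) : ℂ) * (u - mc) + ((s2 - p2 : ℝ) : ℂ) * (u - mc) ^ 2) =
      (sw u - (s0 + s1 * u + s2 * u ^ 2)) - (mu k c t0 e u - (p0 + p1 * u + p2 * u ^ 2)) := by
    rw [hmu]
    push_cast
    ring
  rw [e1]
  refine (norm_sub_le _ _).trans ?_
  -- the two numbers
  have hcont := h.content_le he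
  rw [hXe] at hcont
  set q := 2 * (r * X / ρ) with hqdef
  have hq0 : 0 ≤ q := by positivity
  have n1 : ∑ m ∈ range e, 2 * (2 * (CV k + 2) *
      (1 / (nn (wf k c t0 m) * nn (wf k c t0 (m + 1))))) * (r / rad (m + 1)) ^ 3 ≤
      4 * (CV k + 2) * A ^ 3 * K * q ^ 3 / X ^ 2 * nn (z e) ^ (-(1 - 47 * δ)) := by
    calc _ = 4 * (CV k + 2) * q ^ 3 * ∑ m ∈ range e,
          1 / (nn (wf k c t0 m) * nn (wf k c t0 (m + 1))) *
            (nn (z (m + 1)) ^ (-(1 - 15 * δ))) ^ 3 := by
          rw [Finset.mul_sum]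
          refine Finset.sum_congr rfl fun m hm => ?_
          rw [hrr (m + 1) (by have := Finset.mem_range.1 hm; omega)]
          ring
      _ ≤ 4 * (CV k + 2) * q ^ 3 * (A ^ 3 * K / X ^ 2 * nn (z e) ^ (-(1 - 47 * δ))) := by
          refine mul_le_mul_of_nonneg_left hcont ?_
          have : 0 ≤ CV k + 2 := by linarith
          positivity
      _ = _ := by ring
  have n2 : 2 * (25 / 8 / nn (wf k c t0 e) ^ 2) * (r / rad e) ^ 3 ≤
      8 * q ^ 3 / X ^ 2 * nn (z e) ^ (-(1 - 47 * δ)) := by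
    have hXle := h.X_le e
    rw [hXe] at hXle
    have g1 : 1 / nn (wf k c t0 e) ^ 2 ≤ nn (z e) ^ 2 / X ^ 2 := by
      rw [div_le_div_iff₀ (by positivity) (by positivity), one_mul]
      calc X ^ 2 ≤ (nn (wf k c t0 e) * nn (z e)) ^ 2 := pow_le_pow_left₀ hX.le hXle 2
        _ = _ := by ring
    have g2 : nn (z e) ^ 2 * (nn (z e) ^ (-(1 - 15 * δ))) ^ 3 ≤ nn (z e) ^ (-(1 - 47 * δ)) := by
      have : nn (z e) ^ 2 * (nn (z e) ^ (-(1 - 15 * δ))) ^ 3 = nn (z e) ^ (-(1 - 45 * δ)) := by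
        rw [← Real.rpow_natCast, ← Real.rpow_natCast, ← Real.rpow_mul hZe.le,
          ← Real.rpow_add hZe]
        congr 1
        push_cast
        ring
      rw [this]
      exact Real.rpow_le_rpow_of_exponent_le (h.one e he) (by linarith)
    rw [hrr e he]
    have hp3 : 0 ≤ (nn (z e) ^ (-(1 - 15 * δ))) ^ 3 := by
      have := Real.rpow_nonneg hZe.le (-(1 - 15 * δ))
      positivity
    calc 2 * (25 / 8 / nn (wf k c t0 e) ^ 2) * (q * nn (z e) ^ (-(1 - 15 * δ))) ^ 3
        = 25 / 4 * q ^ 3 * ((1 / nn (wf k c t0 e) ^ 2) * (nn (z e) ^ (-(1 - 15 * δ))) ^ 3) := by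
          ring
      _ ≤ 25 / 4 * q ^ 3 * ((nn (z e) ^ 2 / X ^ 2) * (nn (z e) ^ (-(1 - 15 * δ))) ^ 3) := by
          gcongr
      _ = 25 / 4 * q ^ 3 / X ^ 2 * (nn (z e) ^ 2 * (nn (z e) ^ (-(1 - 15 * δ))) ^ 3) := by ring
      _ ≤ 25 / 4 * q ^ 3 / X ^ 2 * nn (z e) ^ (-(1 - 47 * δ)) := by gcongr
      _ ≤ 8 * q ^ 3 / X ^ 2 * nn (z e) ^ (-(1 - 47 * δ)) := by
          have : 0 ≤ nn (z e) ^ (-(1 - 47 * δ)) := Real.rpow_nonneg hZe.le _
          gcongr
          norm_num
  calc _ ≤ 2 * (25 / 8 / nn (wf k c t0 e) ^ 2) * (r / rad e) ^ 3 +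
        ∑ m ∈ range e, 2 * (2 * (CV k + 2) *
      (1 / (nn (wf k c t0 m) * nn (wf k c t0 (m + 1))))) * (r / rad (m + 1)) ^ 3 :=
        add_le_add hsu hsum
    _ ≤ 8 * q ^ 3 / X ^ 2 * nn (z e) ^ (-(1 - 47 * δ)) +
        4 * (CV k + 2) * A ^ 3 * K * q ^ 3 / X ^ 2 * nn (z e) ^ (-(1 - 47 * δ)) :=
        add_le_add n2 n1
    _ = _ := by rw [hqdef]; ring

end main

end Crest.Agent.R128.QuadAt914
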