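import Mathlib
import Crest.Agent.R128.CleanStart
import Crest.Agent.R128.QuadAt914

/-!
Row 128, node V5 (helper914): `CleanStart.cont_quad` re-centred at a real point `x0` near `t0`.
-/

set_option autoImplicit false

open Finset Metric Topology

namespace Crest.Agent.R128.QuadAt914b

open Crest.Agent.R128 Crest.Agent.R128.Cell Crest.Agent.R128.CellB Crest.Agent.R128.CellDy
open Crest.Agent.R128.TreeSum Crest.Agent.R128.Disp Crest.Agent.R128.CleanNum
open Crest.Agent.R128.CleanDisc Crest.Agent.R128.CleanCont Crest.Agent.R128.CleanStart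
open Crest.Agent.R128.QuadAt914

/-- **The content of two clean sides is a real quadratic polynomial on small complex discs centred
at any real point `x0` near `t0`; the error is proportional to the cube of the radius of the small
disc.** -/
theorem cont_quad_at {k c t0 : ℝ} {z z' : ℕ → ℝ × ℝ} {n n' : ℕ} {δ K A c0 : ℝ}
    (h : Clean (ra k c t0) (wf k c t0) z n δ K A c0)
    (h' : Clean (ra k c (kap k c - t0)) (wf k c (kap k c - t0)) z' n' δ K A c0)
    (hk : 1 ≤ k) {e e' : ℕ} (he : e ≤ n) (he' : e' ≤ n')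
    (hq : 1 / 2 * nn (wf k c t0 e) ≤ |(wf k c t0 e).2|)
    (hq' : 1 / 2 * nn (wf k c (kap k c - t0) e') ≤ |(wf k c (kap k c - t0) e').2|)
    {r x0 : ℝ} (hr0 : 0 ≤ r)
    (hx0 : 2 * |x0 - t0| ≤ rho0 k A K c0 / XX (wf k c t0) z)
    (hx0' : 2 * |x0 - t0| ≤ rho0 k A K c0 / XX (wf k c (kap k c - t0)) z')
    (hr : 4 * r ≤ rho0 k A K c0 / XX (wf k c t0) z)
    (hr' : 4 * r ≤ rho0 k A K c0 / XX (wf k c (kap k c - t0)) z') (mc : ℝ) :
    ∃ q0 q1 q2 : ℝ, ∀ u ∈ closedBall (x0 : ℂ) r,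
      ‖Loc.cont k c true (e + 1) (e' + 1) u - (q0 + q1 * (u - mc) + q2 * (u - mc) ^ 2)‖ ≤
        8 * err k A K c0 δ r (XX (wf k c t0) z) (nn (z e)) +
        8 * err k A K c0 δ r (XX (wf k c (kap k c - t0)) z') (nn (z' e')) := by
  obtain ⟨a0, a1, a2, ha⟩ := content_quad_at h hk he hq hr0 hx0 hr mc
  obtain ⟨b0, b1, b2, hb⟩ := content_quad_at h' hk he' hq' (x0 := kap k c - x0) hr0
    (by rw [show kap k c - x0 - (kap k c - t0) = -(x0 - t0) by ring, abs_neg]; exact hx0')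
    hr' (kap k c - mc)
  refine ⟨V k (c : UnitAddCircle) - a0 - b0, -a1 + b1, -a2 - b2, fun u hu => ?_⟩
  have hu' : ((kap k c : ℝ) : ℂ) - u ∈ closedBall ((kap k c - x0 : ℝ) : ℂ) r := by
    rw [mem_closedBall, dist_eq_norm] at hu ⊢
    rw [show ((kap k c : ℝ) : ℂ) - u - ((kap k c - x0 : ℝ) : ℂ) = -(u - x0) by push_cast; ring,
      norm_neg]
    exact hu
  have h1 := ha u hu
  have h2 := hb _ hu'
  rw [← mu_true] at h1
  rw [← mu_false] at h2
  have e1 : Loc.cont k c true (e + 1) (e' + 1) u -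
      (((V k (c : UnitAddCircle) - a0 - b0 : ℝ) : ℂ) + ((-a1 + b1 : ℝ) : ℂ) * (u - mc) +
        ((-a2 - b2 : ℝ) : ℂ) * (u - mc) ^ 2) =
      -(Loc.mu k c true (e + 1) u - (a0 + a1 * (u - mc) + a2 * (u - mc) ^ 2)) -
      (Loc.mu k c false (e' + 1) u - (b0 + b1 * (((kap k c : ℝ) : ℂ) - u - ((kap k c - mc : ℝ) : ℂ)) +
        b2 * (((kap k c : ℝ) : ℂ) - u - ((kap k c - mc : ℝ) : ℂ)) ^ 2)) := by
    unfold Loc.cont
    rw [cV_ofReal]
    simp only [Bool.not_true]
    push_cast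
    ring
  rw [e1]
  refine (norm_sub_le _ _).trans ?_
  rw [norm_neg]
  refine add_le_add (h1.trans (le_of_eq ?_)) (h2.trans (le_of_eq ?_)) <;>
  · unfold err
    ring

end Crest.Agent.R128.QuadAt914b
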