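import Crest.Agent.R128.TaylorTwo
import Crest.Agent.R128.LocDef

/-!
Row 128 (helper466), node V5 / `Cell3.quad`: real quadratic approximation, on a COMPLEX disc around a real
centre, of a finite sum of holomorphic functions that are real on the real axis.

* `quad_one`, `quad_sum`, `quad_sum_norm` : abstract;
* `quad_scaled` : in the units of `Loc.Cell3.quad`;
* `im_mu`, `im_D`, `mu_tel`, `quad_cont` : the content `Loc.cont k c s (n+1) (n'+1)` from its parts
  (two old parts `mu (e)`, `mu' (e')` and the straight terms `1 / (D_j D_(j+1))`).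
-/

set_option autoImplicit false
open Metric Set Finset

namespace Crest.Agent.R128.QuadC

/-- one function -/
theorem quad_one {f : ℂ → ℂ} {m ρ B : ℝ} (hρ : 0 < ρ)
    (hf : DifferentiableOn ℂ f (ball (m : ℂ) ρ)) (hB : ∀ w ∈ ball (m : ℂ) ρ, ‖f w - f m‖ ≤ B)
    (him : ∀ u : ℝ, |u - m| < ρ → (f u).im = 0) :
    ∃ q0 q1 q2 : ℝ, |q1| ≤ B / ρ ∧ |q2| ≤ B / ρ ^ 2 ∧ ∀ w : ℂ, ‖w - m‖ ≤ ρ / 2 →
      ‖f w - (q0 + q1 * (w - m) + q2 * (w - m) ^ 2)‖ ≤ 2 * B * (‖w - m‖ / ρ) ^ 3 := by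
  obtain ⟨a, b, ha, hb, hab, hbb, h⟩ := TaylorTwo.taylor_two hρ hf hB
  have hm0 : (f m).im = 0 := him m (by simpa using hρ)
  -- the conjugate function has the same expansion
  have hconj : ∀ w : ℂ, w ∈ ball (m : ℂ) ρ → f (starRingEnd ℂ w) = starRingEnd ℂ (f w) := by
    set g : ℂ → ℂ := fun w => starRingEnd ℂ (f (starRingEnd ℂ w)) with hg
    have hconjball : ∀ w : ℂ, w ∈ ball (m : ℂ) ρ → starRingEnd ℂ w ∈ ball (m : ℂ) ρ := by
      intro w hw
      rw [mem_ball, dist_eq_norm] at hw ⊢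
      have e : starRingEnd ℂ w - (m : ℂ) = starRingEnd ℂ (w - m) := by
        simp
      rw [e, RCLike.norm_conj]
      exact hw
    have hgd : DifferentiableOn ℂ g (ball (m : ℂ) ρ) := by
      intro w hw
      have h1 : DifferentiableAt ℂ f (starRingEnd ℂ w) :=
        (hf _ (hconjball w hw)).differentiableAt (isOpen_ball.mem_nhds (hconjball w hw))
      have h2 : DifferentiableAt ℂ g w := by
        have := h1.conj_conj
        simpa [g, Function.comp_def] using this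
      exact h2.differentiableWithinAt
    have hfa : AnalyticOnNhd ℂ f (ball (m : ℂ) ρ) := hf.analyticOnNhd isOpen_ball
    have hga : AnalyticOnNhd ℂ g (ball (m : ℂ) ρ) := hgd.analyticOnNhd isOpen_ball
    have hpre : IsPreconnected (ball (m : ℂ) ρ) := (convex_ball (m : ℂ) ρ).isPreconnected
    have hfreq : ∃ᶠ w in nhdsWithin (m : ℂ) {(m : ℂ)}ᶜ, f w = g w := by
      have htend : Filter.Tendsto (fun n : ℕ => ((m + ρ / (n + 2) : ℝ) : ℂ)) Filter.atTop
          (nhdsWithin (m : ℂ) {(m : ℂ)}ᶜ) := by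
        rw [tendsto_nhdsWithin_iff]
        constructor
        · have h1 : Filter.Tendsto (fun n : ℕ => (m + ρ / (n + 2) : ℝ)) Filter.atTop (nhds m) := by
            have h2 : Filter.Tendsto (fun n : ℕ => ρ / ((n : ℝ) + 2)) Filter.atTop (nhds 0) := by
              apply Filter.Tendsto.div_atTop tendsto_const_nhds
              exact Filter.tendsto_atTop_add_const_right _ _ tendsto_natCast_atTop_atTop
            simpa using h2.const_add m
          exact (Complex.continuous_ofReal.tendsto m).comp h1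
        · refine Filter.Eventually.of_forall fun n => ?_
          simp only [mem_compl_iff, mem_singleton_iff]
          intro hcontra
          have : (m + ρ / (n + 2) : ℝ) = m := by exact_mod_cast hcontra
          have h3 : 0 < ρ / ((n : ℝ) + 2) := by positivity
          linarith
      refine htend.frequently (Filter.Frequently.of_forall fun n => ?_)
      have hu : |(m + ρ / (n + 2) : ℝ) - m| < ρ := by
        have h3 : 0 < ρ / ((n : ℝ) + 2) := by positivity
        have h4 : ρ / ((n : ℝ) + 2) < ρ := by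
          rw [div_lt_iff₀ (by positivity)]
          nlinarith [Nat.cast_nonneg (α := ℝ) n]
        rw [add_sub_cancel_left, abs_of_pos h3]
        exact h4
      have h5 := him _ hu
      simp only [hg, Complex.conj_ofReal]
      exact (Complex.conj_eq_iff_im.mpr h5).symm
    have heq := hfa.eqOn_of_preconnected_of_frequently_eq hga hpre (mem_ball_self hρ) hfreq
    intro w hw
    have h1 := heq (hconjball w hw)
    rw [h1]
    simp [hg]
  have hda : (a.im = 0) ∧ (b.im = 0) := by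
    -- replace `a, b` by real parts : use the expansion and its conjugate
    have hsame : ∀ w : ℂ, ‖w - m‖ ≤ ρ / 2 →
        ‖(a - starRingEnd ℂ a) * (w - m) + (b - starRingEnd ℂ b) * (w - m) ^ 2‖ ≤
          2 * (2 * B * (‖w - m‖ / ρ) ^ 3) := by
      intro w hw
      have hwb : w ∈ ball (m : ℂ) ρ := by
        rw [mem_ball, dist_eq_norm]; linarith
      have hcn : ‖starRingEnd ℂ w - m‖ = ‖w - m‖ := by
        have e : starRingEnd ℂ w - (m : ℂ) = starRingEnd ℂ (w - m) := by simp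
        rw [e, RCLike.norm_conj]
      have h1 := h w hw
      have h2 := h (starRingEnd ℂ w) (by rw [hcn]; exact hw)
      rw [hcn, hconj w hwb] at h2
      have h3 : ‖f w - (f m + starRingEnd ℂ a * (w - m) + starRingEnd ℂ b * (w - m) ^ 2)‖ ≤
          2 * B * (‖w - m‖ / ρ) ^ 3 := by
        have e : f w - (f m + starRingEnd ℂ a * (w - m) + starRingEnd ℂ b * (w - m) ^ 2) =
            starRingEnd ℂ (starRingEnd ℂ (f w) -
              (f m + a * (starRingEnd ℂ w - m) + b * (starRingEnd ℂ w - m) ^ 2)) := by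
          have hfm : starRingEnd ℂ (f m) = f m := Complex.conj_eq_iff_im.mpr hm0
          simp [hfm]
        rw [e, RCLike.norm_conj]
        exact h2
      have e : (a - starRingEnd ℂ a) * (w - m) + (b - starRingEnd ℂ b) * (w - m) ^ 2 =
          (f w - (f m + starRingEnd ℂ a * (w - m) + starRingEnd ℂ b * (w - m) ^ 2)) -
          (f w - (f m + a * (w - m) + b * (w - m) ^ 2)) := by ring
      rw [e]
      exact (norm_sub_le _ _).trans (by linarith)
    set α := a - starRingEnd ℂ a with hα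
    set β := b - starRingEnd ℂ b with hβ
    have hB0 : 0 ≤ B := (norm_nonneg _).trans (hB m (mem_ball_self hρ))
    -- `‖α + β s‖ ≤ C s ^ 2` for small real `s`
    have hlim : ∀ s : ℝ, 0 < s → s ≤ ρ / 2 → ‖α + β * (s : ℂ)‖ ≤ 4 * B / ρ ^ 3 * s ^ 2 := by
      intro s hs hs2
      have h1 := hsame ((m : ℂ) + s) (by
        rw [add_sub_cancel_left, Complex.norm_real, Real.norm_eq_abs, abs_of_pos hs]; exact hs2)
      rw [add_sub_cancel_left, Complex.norm_real, Real.norm_eq_abs, abs_of_pos hs] at h1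
      have e : α * (s : ℂ) + β * (s : ℂ) ^ 2 = (s : ℂ) * (α + β * s) := by ring
      rw [e, norm_mul, Complex.norm_real, Real.norm_eq_abs, abs_of_pos hs] at h1
      have h2 : s * ‖α + β * (s : ℂ)‖ ≤ s * (4 * B / ρ ^ 3 * s ^ 2) := by
        refine h1.trans (le_of_eq ?_)
        rw [div_pow]; field_simp; ring
      exact le_of_mul_le_mul_left h2 hs
    have hα0 : α = 0 := by
      have ht : Filter.Tendsto (fun s : ℝ => ‖α + β * (s : ℂ)‖) (nhdsWithin 0 (Ioi 0)) (nhds ‖α‖) := by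
        have hc : Continuous (fun s : ℝ => ‖α + β * (s : ℂ)‖) := by fun_prop
        have := hc.tendsto 0
        simp only [Complex.ofReal_zero, mul_zero, add_zero] at this
        exact this.mono_left nhdsWithin_le_nhds
      have ht2 : Filter.Tendsto (fun s : ℝ => 4 * B / ρ ^ 3 * s ^ 2) (nhdsWithin 0 (Ioi 0))
          (nhds 0) := by
        have hc : Continuous (fun s : ℝ => 4 * B / ρ ^ 3 * s ^ 2) := by fun_prop
        have := hc.tendsto 0
        simp only [ne_eq, OfNat.ofNat_ne_zero, not_false_eq_true, zero_pow, mul_zero] at this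
        exact this.mono_left nhdsWithin_le_nhds
      have hle := le_of_tendsto_of_tendsto ht ht2 (by
        have h1 : ∀ᶠ s : ℝ in nhdsWithin 0 (Ioi 0), s < ρ / 2 :=
          nhdsWithin_le_nhds (gt_mem_nhds (by positivity))
        filter_upwards [h1, self_mem_nhdsWithin] with s hs1 hs2
        exact hlim s hs2 hs1.le)
      exact norm_le_zero_iff.mp hle
    have hβ0 : β = 0 := by
      have h2 : ∀ s : ℝ, 0 < s → s ≤ ρ / 2 → ‖β‖ ≤ 4 * B / ρ ^ 3 * s := by
        intro s hs hs2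
        have h1 := hlim s hs hs2
        rw [hα0, zero_add, norm_mul, Complex.norm_real, Real.norm_eq_abs, abs_of_pos hs] at h1
        have h3 : s * ‖β‖ ≤ s * (4 * B / ρ ^ 3 * s) := by
          calc s * ‖β‖ = ‖β‖ * s := by ring
            _ ≤ _ := h1
            _ = _ := by ring
        exact le_of_mul_le_mul_left h3 hs
      have ht2 : Filter.Tendsto (fun s : ℝ => 4 * B / ρ ^ 3 * s) (nhdsWithin 0 (Ioi 0))
          (nhds 0) := by
        have hc : Continuous (fun s : ℝ => 4 * B / ρ ^ 3 * s) := by fun_prop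
        have := hc.tendsto 0
        simp only [mul_zero] at this
        exact this.mono_left nhdsWithin_le_nhds
      have hle := ge_of_tendsto ht2 (by
        have h1 : ∀ᶠ s : ℝ in nhdsWithin 0 (Ioi 0), s < ρ / 2 :=
          nhdsWithin_le_nhds (gt_mem_nhds (by positivity))
        filter_upwards [h1, self_mem_nhdsWithin] with s hs1 hs2
        exact h2 s hs2 hs1.le)
      exact norm_le_zero_iff.mp hle
    constructor
    · exact Complex.conj_eq_iff_im.mp (sub_eq_zero.mp hα0).symm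
    · exact Complex.conj_eq_iff_im.mp (sub_eq_zero.mp hβ0).symm
  have hf0 : ((f m).re : ℂ) = f m := Complex.ext (by simp) (by simp [hm0])
  have ha0 : (a.re : ℂ) = a := Complex.ext (by simp) (by simp [hda.1])
  have hb0 : (b.re : ℂ) = b := Complex.ext (by simp) (by simp [hda.2])
  refine ⟨(f m).re, a.re, b.re, (Complex.abs_re_le_norm a).trans hab,
    (Complex.abs_re_le_norm b).trans hbb, ?_⟩
  intro w hw
  rw [hf0, ha0, hb0]
  exact h w hw

/-- finite sum, oscillation form -/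
theorem quad_sum {ι : Type*} (S : Finset ι) {T : ι → ℂ → ℂ} {m r : ℝ} {ρ B : ι → ℝ} (_hr : 0 ≤ r)
    (hρ : ∀ i ∈ S, 0 < ρ i) (hrρ : ∀ i ∈ S, r ≤ ρ i / 2)
    (hT : ∀ i ∈ S, DifferentiableOn ℂ (T i) (ball (m : ℂ) (ρ i)))
    (hB : ∀ i ∈ S, ∀ w ∈ ball (m : ℂ) (ρ i), ‖T i w - T i m‖ ≤ B i)
    (him : ∀ i ∈ S, ∀ u : ℝ, |u - m| < ρ i → (T i u).im = 0) :
    ∃ q0 q1 q2 : ℝ, ∀ w ∈ closedBall (m : ℂ) r,
      ‖∑ i ∈ S, T i w - (q0 + q1 * (w - m) + q2 * (w - m) ^ 2)‖ ≤
        ∑ i ∈ S, 2 * B i * (r / ρ i) ^ 3 := by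
  classical
  have h1 : ∀ i ∈ S, ∃ q : ℝ × ℝ × ℝ, ∀ w : ℂ, ‖w - m‖ ≤ ρ i / 2 →
      ‖T i w - (q.1 + q.2.1 * (w - m) + q.2.2 * (w - m) ^ 2)‖ ≤ 2 * B i * (‖w - m‖ / ρ i) ^ 3 := by
    intro i hi
    obtain ⟨q0, q1, q2, -, -, h⟩ := quad_one (hρ i hi) (hT i hi) (hB i hi) (him i hi)
    exact ⟨(q0, q1, q2), h⟩
  choose! q hq using h1
  refine ⟨∑ i ∈ S, (q i).1, ∑ i ∈ S, (q i).2.1, ∑ i ∈ S, (q i).2.2, ?_⟩
  intro w hw
  rw [mem_closedBall, dist_eq_norm] at hw
  have e : ∑ i ∈ S, T i w - (((∑ i ∈ S, (q i).1 : ℝ) : ℂ) + ((∑ i ∈ S, (q i).2.1 : ℝ) : ℂ) * (w - m) +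
      ((∑ i ∈ S, (q i).2.2 : ℝ) : ℂ) * (w - m) ^ 2) =
      ∑ i ∈ S, (T i w - ((q i).1 + (q i).2.1 * (w - m) + (q i).2.2 * (w - m) ^ 2)) := by
    push_cast
    rw [Finset.sum_sub_distrib, Finset.sum_add_distrib, Finset.sum_add_distrib, Finset.sum_mul,
      Finset.sum_mul]
  rw [e]
  refine (norm_sum_le _ _).trans (Finset.sum_le_sum fun i hi => ?_)
  have hB0 : 0 ≤ B i := (norm_nonneg _).trans (hB i hi m (mem_ball_self (hρ i hi)))
  have hρi := hρ i hi
  refine (hq i hi w (hw.trans (hrρ i hi))).trans ?_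
  gcongr

/-- finite sum, size form -/
theorem quad_sum_norm {ι : Type*} (S : Finset ι) {T : ι → ℂ → ℂ} {m r : ℝ} {ρ A : ι → ℝ} (hr : 0 ≤ r)
    (hρ : ∀ i ∈ S, 0 < ρ i) (hrρ : ∀ i ∈ S, r ≤ ρ i / 2)
    (hT : ∀ i ∈ S, DifferentiableOn ℂ (T i) (ball (m : ℂ) (ρ i)))
    (hA : ∀ i ∈ S, ∀ w ∈ ball (m : ℂ) (ρ i), ‖T i w‖ ≤ A i)
    (him : ∀ i ∈ S, ∀ u : ℝ, |u - m| < ρ i → (T i u).im = 0) :
    ∃ q0 q1 q2 : ℝ, ∀ w ∈ closedBall (m : ℂ) r,
      ‖∑ i ∈ S, T i w - (q0 + q1 * (w - m) + q2 * (w - m) ^ 2)‖ ≤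
        ∑ i ∈ S, 4 * A i * (r / ρ i) ^ 3 := by
  obtain ⟨q0, q1, q2, h⟩ := quad_sum S (B := fun i => 2 * A i) hr hρ hrρ hT
    (fun i hi w hw => by
      have h1 := hA i hi w hw
      have h2 := hA i hi m (mem_ball_self (hρ i hi))
      exact (norm_sub_le _ _).trans (by linarith)) him
  refine ⟨q0, q1, q2, fun w hw => (h w hw).trans (le_of_eq ?_)⟩
  exact Finset.sum_congr rfl fun i _ => by ring

/-- change of units: a quadratic in `w - m` is a quadratic in `R (w - m)`, times `K`. -/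
theorem quad_scaled {F : ℂ → ℂ} {m R K E : ℝ} (hR : 0 < R) (hK : 0 ≤ K)
    {q0 q1 q2 : ℝ} {S : Set ℂ}
    (h : ∀ w ∈ S, ‖F w - (q0 + q1 * (w - m) + q2 * (w - m) ^ 2)‖ ≤ E) :
    ∀ w ∈ S, ‖(K : ℂ) * F w - (((K * q0 : ℝ) : ℂ) + ((K * q1 / R : ℝ) : ℂ) * ((R : ℂ) * (w - m)) +
      ((K * q2 / R ^ 2 : ℝ) : ℂ) * ((R : ℂ) * (w - m)) ^ 2)‖ ≤ K * E := by
  intro w hw
  have hR' : (R : ℂ) ≠ 0 := by exact_mod_cast hR.ne'
  have e : (K : ℂ) * F w - (((K * q0 : ℝ) : ℂ) + ((K * q1 / R : ℝ) : ℂ) * ((R : ℂ) * (w - m)) +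
      ((K * q2 / R ^ 2 : ℝ) : ℂ) * ((R : ℂ) * (w - m)) ^ 2) =
      (K : ℂ) * (F w - (q0 + q1 * (w - m) + q2 * (w - m) ^ 2)) := by
    push_cast
    field_simp
  rw [e, norm_mul, Complex.norm_real, Real.norm_eq_abs, abs_of_nonneg hK]
  exact mul_le_mul_of_nonneg_left (h w hw) hK

end Crest.Agent.R128.QuadC
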