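import Crest.Agent.R128.QuadC

/-!
Row 128 (helper466), node V5 / `Cell3.quad`: the content `Loc.cont` is a real quadratic up to a small error on
a COMPLEX disc.

* `differentiable_D`, `im_D`, `differentiableOn_mu`, `im_mu`;
* `mu_tel` : `mu (n) - mu (e) = ∑ 1 / (D_j D_(j+1))`;
* `quad_mu_old` : the old part from an oscillation bound on a big disc;
* `quad_mu` : one side, old part + straight terms;
* `quad_cont` : both sides, in the exact form of `Loc.Cell3.quad`.
-/

set_option autoImplicit false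
open Metric Set Finset
open Crest.Agent.R128 Crest.Agent.R128.Cell Crest.Agent.R128.CellB Crest.Agent.R128.CellDy
open Crest.Agent.R128.Loc

namespace Crest.Agent.R128.QuadCont

variable {k c : ℝ} {s : Bool}

theorem sdC_ofReal (k c : ℝ) (s : Bool) (u : ℝ) :
    sdC k c s (u : ℂ) = ((if s then u else kap k c - u : ℝ) : ℂ) := by
  unfold sdC
  cases s <;> simp

theorem differentiable_sdC (k c : ℝ) (s : Bool) : Differentiable ℂ (sdC k c s) := by
  unfold sdC
  cases s
  · simp only [Bool.false_eq_true, if_false]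
    fun_prop
  · simp only [if_true]
    fun_prop

theorem differentiable_Y (k c : ℝ) (s : Bool) (n : ℕ) : Differentiable ℂ (Y k c s n) := by
  unfold Y
  exact (differentiable_y k c n).comp (differentiable_sdC k c s)

theorem im_Y (k c : ℝ) (s : Bool) (n : ℕ) (u : ℝ) : (Y k c s n u).im = 0 := by
  unfold Y
  rw [sdC_ofReal]
  exact im_y_ofReal k c n _

theorem differentiable_dg (k c : ℝ) (s : Bool) (n : ℕ) :
    Differentiable ℂ (fun z => dg k c s z n) := by
  have h := differentiable_Y k c s n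
  unfold dg cV
  fun_prop

theorem im_dg (k c : ℝ) (s : Bool) (n : ℕ) (u : ℝ) : (dg k c s u n).im = 0 := by
  have h : Y k c s n u = ((Y k c s n u).re : ℂ) := Complex.ext (by simp) (by simp [im_Y])
  unfold dg
  rw [h]
  unfold cV
  rw [show (2 + 2 * Real.pi * k * Complex.cos (2 * Real.pi * ((Y k c s n u).re : ℂ)) : ℂ) =
    ((2 + 2 * Real.pi * k * Real.cos (2 * Real.pi * (Y k c s n u).re) : ℝ) : ℂ) by push_cast; rfl]
  exact Complex.ofReal_im _

theorem differentiable_sol (k c : ℝ) (s : Bool) (u v : ℂ) : ∀ n : ℕ,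
    Differentiable ℂ (fun z => Align.sol (dg k c s z) u v n) := by
  have key : ∀ n : ℕ, Differentiable ℂ (fun z => Align.sol (dg k c s z) u v n) ∧
      Differentiable ℂ (fun z => Align.sol (dg k c s z) u v (n + 1)) := by
    intro n
    induction n with
    | zero => exact ⟨by simp, by simp⟩
    | succ n ih =>
      refine ⟨ih.2, ?_⟩
      have e : (fun z => Align.sol (dg k c s z) u v (n + 1 + 1)) = fun z =>
          dg k c s z (n + 1) * Align.sol (dg k c s z) u v (n + 1) -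
            Align.sol (dg k c s z) u v n := by
        funext z; rw [Align.sol_add_two]
      rw [e]
      exact ((differentiable_dg k c s (n + 1)).mul ih.2).sub ih.1
  exact fun n => (key n).1

theorem im_sol (k c : ℝ) (s : Bool) (a b : ℝ) (x : ℝ) : ∀ n : ℕ,
    (Align.sol (dg k c s x) (a : ℂ) (b : ℂ) n).im = 0 := by
  have key : ∀ n : ℕ, (Align.sol (dg k c s x) (a : ℂ) (b : ℂ) n).im = 0 ∧
      (Align.sol (dg k c s x) (a : ℂ) (b : ℂ) (n + 1)).im = 0 := by
    intro n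
    induction n with
    | zero => exact ⟨by simp, by simp⟩
    | succ n ih =>
      refine ⟨ih.2, ?_⟩
      rw [Align.sol_add_two, Complex.sub_im, Complex.mul_im, im_dg, ih.1, ih.2]
      ring
  exact fun n => (key n).1

theorem differentiable_D (k c : ℝ) (s : Bool) (n : ℕ) : Differentiable ℂ (D k c s n) := by
  have h := differentiable_sol k c s 0 1 n
  have e : (fun z => Align.sol (dg k c s z) (0 : ℂ) 1 n) = D k c s n := by
    funext z; exact Q_dg k c s z n
  rwa [e] at h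

theorem im_D (k c : ℝ) (s : Bool) (n : ℕ) (u : ℝ) : (D k c s n u).im = 0 := by
  rw [← Q_dg]
  have := im_sol k c s 0 1 u n
  simpa [Align.Q] using this

theorem differentiableOn_mu {n : ℕ} {S : Set ℂ} (h : ∀ z ∈ S, D k c s n z ≠ 0) :
    DifferentiableOn ℂ (mu k c s n) S := by
  have e : mu k c s n = fun z => -(Align.sol (dg k c s z) (1 : ℂ) 0 n) / D k c s n z := by
    funext z
    unfold mu Align.mu
    rw [Q_dg]
    rfl
  rw [e]
  intro z hz
  have h1 := (differentiable_sol k c s 1 0 n) z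
  have h2 := (differentiable_D k c s n) z
  exact (h1.neg.div h2 (h z hz)).differentiableWithinAt

theorem im_mu (k c : ℝ) (s : Bool) (n : ℕ) (u : ℝ) : (mu k c s n u).im = 0 := by
  unfold mu Align.mu
  rw [Q_dg, Complex.div_im]
  have h1 : (Align.P (dg k c s u) n).im = 0 := by
    have := im_sol k c s 1 0 u n
    simpa [Align.P] using this
  rw [im_D, Complex.neg_im, h1]
  ring

/-- telescoping -/
theorem mu_tel {e n : ℕ} (hen : e ≤ n) {z : ℂ} (h : ∀ i, e ≤ i → i ≤ n → D k c s i z ≠ 0) :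
    mu k c s n z = mu k c s e z + ∑ i ∈ Ico e n, 1 / (D k c s i z * D k c s (i + 1) z) := by
  have h1 := Align.mu_sub (a := dg k c s z) hen (fun i h1 h2 => by rw [Q_dg]; exact h i h1 h2)
  have h2 : ∑ i ∈ Ico e n, 1 / (Align.Q (dg k c s z) i * Align.Q (dg k c s z) (i + 1)) =
      ∑ i ∈ Ico e n, 1 / (D k c s i z * D k c s (i + 1) z) :=
    Finset.sum_congr rfl fun i _ => by rw [Q_dg, Q_dg]
  rw [h2] at h1
  unfold mu
  linear_combination h1

/-- `F` is a real quadratic up to `E` on the closed disc `closedBall m r` -/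
def QA (F : ℂ → ℂ) (m r E : ℝ) : Prop :=
  ∃ q0 q1 q2 : ℝ, ∀ w ∈ closedBall (m : ℂ) r,
    ‖F w - (q0 + q1 * (w - m) + q2 * (w - m) ^ 2)‖ ≤ E

theorem QA.add {F G : ℂ → ℂ} {m r E E' : ℝ} (h : QA F m r E) (h' : QA G m r E') :
    QA (fun w => F w + G w) m r (E + E') := by
  obtain ⟨q0, q1, q2, h⟩ := h
  obtain ⟨p0, p1, p2, h'⟩ := h'
  refine ⟨q0 + p0, q1 + p1, q2 + p2, fun w hw => ?_⟩
  have e : F w + G w - (((q0 + p0 : ℝ) : ℂ) + ((q1 + p1 : ℝ) : ℂ) * (w - m) +
      ((q2 + p2 : ℝ) : ℂ) * (w - m) ^ 2) =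
      (F w - (q0 + q1 * (w - m) + q2 * (w - m) ^ 2)) +
      (G w - (p0 + p1 * (w - m) + p2 * (w - m) ^ 2)) := by
    push_cast; ring
  rw [e]
  exact (norm_add_le _ _).trans (add_le_add (h w hw) (h' w hw))

theorem QA.neg {F : ℂ → ℂ} {m r E : ℝ} (h : QA F m r E) : QA (fun w => -F w) m r E := by
  obtain ⟨q0, q1, q2, h⟩ := h
  refine ⟨-q0, -q1, -q2, fun w hw => ?_⟩
  have e : -F w - (((-q0 : ℝ) : ℂ) + ((-q1 : ℝ) : ℂ) * (w - m) + ((-q2 : ℝ) : ℂ) * (w - m) ^ 2) =
      -(F w - (q0 + q1 * (w - m) + q2 * (w - m) ^ 2)) := by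
    push_cast; ring
  rw [e, norm_neg]
  exact h w hw

theorem QA.const (a : ℝ) (m r : ℝ) : QA (fun _ => (a : ℂ)) m r 0 :=
  ⟨a, 0, 0, fun w _ => by simp⟩

theorem QA.mono {F : ℂ → ℂ} {m r r' E E' : ℝ} (h : QA F m r E) (hr : r' ≤ r) (hE : E ≤ E') :
    QA F m r' E' := by
  obtain ⟨q0, q1, q2, h⟩ := h
  exact ⟨q0, q1, q2, fun w hw => (h w (closedBall_subset_closedBall hr hw)).trans hE⟩

theorem QA.congr {F G : ℂ → ℂ} {m r E : ℝ} (h : QA F m r E)
    (hFG : ∀ w ∈ closedBall (m : ℂ) r, G w = F w) : QA G m r E := by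
  obtain ⟨q0, q1, q2, h⟩ := h
  exact ⟨q0, q1, q2, fun w hw => by rw [hFG w hw]; exact h w hw⟩

/-- the old part from an oscillation bound -/
theorem quad_mu_old {e : ℕ} {m r ρ B : ℝ} (hρ : 0 < ρ) (hrρ : r ≤ ρ / 2)
    (hD : ∀ z ∈ ball (m : ℂ) ρ, D k c s e z ≠ 0)
    (hB : ∀ z ∈ ball (m : ℂ) ρ, ‖mu k c s e z - mu k c s e m‖ ≤ B) :
    QA (mu k c s e) m r (2 * B * (r / ρ) ^ 3) := by
  obtain ⟨q0, q1, q2, -, -, h⟩ := QuadC.quad_one hρ (differentiableOn_mu hD) hB
    (fun u _ => im_mu k c s e u)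
  refine ⟨q0, q1, q2, fun w hw => ?_⟩
  rw [mem_closedBall, dist_eq_norm] at hw
  have hB0 : 0 ≤ B := (norm_nonneg _).trans (hB m (mem_ball_self hρ))
  refine (h w (hw.trans hrρ)).trans ?_
  gcongr

/-- one side: old part + straight terms -/
theorem quad_mu {e n : ℕ} (hen : e ≤ n) {m r E : ℝ} {ρ A : ℕ → ℝ} (hr : 0 ≤ r)
    (hold : QA (mu k c s e) m r E)
    (hne : ∀ z ∈ closedBall (m : ℂ) r, D k c s e z ≠ 0)
    (hρ : ∀ i, e ≤ i → i < n → 0 < ρ i) (hrρ : ∀ i, e ≤ i → i < n → r ≤ ρ i / 2)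
    (hD : ∀ i, e ≤ i → i < n → ∀ z ∈ ball (m : ℂ) (ρ i), D k c s i z ≠ 0 ∧ D k c s (i + 1) z ≠ 0)
    (hA : ∀ i, e ≤ i → i < n → ∀ z ∈ ball (m : ℂ) (ρ i),
      ‖1 / (D k c s i z * D k c s (i + 1) z)‖ ≤ A i) :
    QA (mu k c s n) m r (E + ∑ i ∈ Ico e n, 4 * A i * (r / ρ i) ^ 3) := by
  have h1 : QA (fun w => ∑ i ∈ Ico e n, 1 / (D k c s i w * D k c s (i + 1) w)) m r
      (∑ i ∈ Ico e n, 4 * A i * (r / ρ i) ^ 3) := by
    refine QuadC.quad_sum_norm (Ico e n) (T := fun i w => 1 / (D k c s i w * D k c s (i + 1) w))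
      hr ?_ ?_ ?_ ?_ ?_
    · intro i hi
      rw [Finset.mem_Ico] at hi
      exact hρ i hi.1 hi.2
    · intro i hi
      rw [Finset.mem_Ico] at hi
      exact hrρ i hi.1 hi.2
    · intro i hi
      rw [Finset.mem_Ico] at hi
      intro z hz
      have h2 := hD i hi.1 hi.2 z hz
      have h3 := ((differentiable_D k c s i) z).mul ((differentiable_D k c s (i + 1)) z)
      exact ((differentiableAt_const (1 : ℂ)).div h3 (mul_ne_zero h2.1 h2.2)).differentiableWithinAt
    · intro i hi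
      rw [Finset.mem_Ico] at hi
      exact hA i hi.1 hi.2
    · intro i _ u _
      have h2 : (D k c s i u * D k c s (i + 1) u).im = 0 := by
        rw [Complex.mul_im, im_D, im_D]; ring
      rw [Complex.div_im, h2, Complex.one_im]
      ring
  refine (hold.add h1).congr fun w hw => ?_
  refine mu_tel hen fun i hi1 hi2 => ?_
  rcases Nat.lt_or_ge i n with h | h
  · refine (hD i hi1 h w ?_).1
    rw [mem_closedBall] at hw
    rw [mem_ball]
    have h2 := hrρ i hi1 h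
    have h3 := hρ i hi1 h
    linarith
  · have hin : i = n := le_antisymm hi2 h
    subst hin
    rcases Nat.eq_or_lt_of_le hi1 with h4 | h4
    · rw [← h4]; exact hne w hw
    · obtain ⟨p, rfl⟩ : ∃ p, i = p + 1 := ⟨i - 1, by omega⟩
      refine (hD p (by omega) (by omega) w ?_).2
      rw [mem_closedBall] at hw
      rw [mem_ball]
      have h2 := hrρ p (by omega) (by omega)
      have h3 := hρ p (by omega) (by omega)
      linarith

/-- **both sides**, in the exact form of `Loc.Cell3.quad` -/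
theorem quad_cont {n n' : ℕ} {m R E E' : ℝ} (hR : 0 < R) (hk : 0 ≤ k)
    (h : QA (mu k c s (n + 1)) m (4 / R) E) (h' : QA (mu k c (!s) (n' + 1)) m (4 / R) E')
    (hE : 2 * Real.pi * k * R ^ 2 * (E + E') ≤ 1 / 16) :
    ∃ q0 q1 q2 : ℝ, ∀ z ∈ ball (m : ℂ) (4 / R),
      ‖(2 * Real.pi * k * R ^ 2 : ℝ) * cont k c s (n + 1) (n' + 1) z -
        (q0 + q1 * ((R : ℂ) * (z - m)) + q2 * ((R : ℂ) * (z - m)) ^ 2)‖ ≤ 1 / 16 := by
  have hcV : cV k (c : ℂ) = ((2 + 2 * Real.pi * k * Real.cos (2 * Real.pi * c) : ℝ) : ℂ) := by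
    unfold cV; push_cast; rfl
  have h1 := ((QA.const (2 + 2 * Real.pi * k * Real.cos (2 * Real.pi * c)) m (4 / R)).add
    h.neg).add h'.neg
  obtain ⟨q0, q1, q2, h2⟩ := h1
  have hK : 0 ≤ 2 * Real.pi * k * R ^ 2 := by positivity
  have h3 := QuadC.quad_scaled hR hK h2
  refine ⟨2 * Real.pi * k * R ^ 2 * q0, 2 * Real.pi * k * R ^ 2 * q1 / R,
    2 * Real.pi * k * R ^ 2 * q2 / R ^ 2, fun z hz => ?_⟩
  have h4 := h3 z (ball_subset_closedBall hz)
  have e : cont k c s (n + 1) (n' + 1) z = ((2 + 2 * Real.pi * k *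
      Real.cos (2 * Real.pi * c) : ℝ) : ℂ) + -mu k c s (n + 1) z + -mu k c (!s) (n' + 1) z := by
    unfold cont
    rw [hcV]; ring
  rw [e]
  refine h4.trans ?_
  rw [zero_add]
  exact hE

end Crest.Agent.R128.QuadCont
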