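import Mathlib

set_option autoImplicit false

/-! Row 128, node P4-ASM (helper155), part 4: measure tools (Mathlib only). -/

namespace Crest.Agent.R128.RoughAsm

open MeasureTheory Real Set
open scoped ENNReal

/-- Density lemma (Tonelli + Markov): if `D` has mass `≥ c` in `[x-h,x+h]` for every `x ∈ W`, then
`c |W| ≤ 2h |D|`.  No measurability needed. -/
theorem density {D W : Set ℝ} {h : ℝ} {c : ℝ≥0∞}
    (hc : ∀ x ∈ W, c ≤ volume (D ∩ {y | |y - x| ≤ h})) :
    c * volume W ≤ ENNReal.ofReal (2 * h) * volume D := by
  obtain ⟨D', hD'⟩ : ∃ D', D' = toMeasurable volume D := ⟨_, rfl⟩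
  have hDm : MeasurableSet D' := by rw [hD']; exact measurableSet_toMeasurable _ _
  have hDv : volume D' = volume D := by rw [hD']; exact measure_toMeasurable _
  have hDs : D ⊆ D' := by rw [hD']; exact subset_toMeasurable _ _
  obtain ⟨S, hS⟩ : ∃ S : Set (ℝ × ℝ), S = {q | q.2 ∈ D' ∧ |q.2 - q.1| ≤ h} := ⟨_, rfl⟩
  have hSm : MeasurableSet S := by
    rw [hS]
    apply MeasurableSet.inter
    · exact measurable_snd hDm
    · exact measurableSet_le (measurable_snd.sub measurable_fst).norm measurable_const
  have hg : Measurable (fun x : ℝ => volume (Prod.mk x ⁻¹' S)) := measurable_measure_prodMk_left hSm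
  have h1 : W ⊆ {x | c ≤ volume (Prod.mk x ⁻¹' S)} := by
    intro x hx
    refine (hc x hx).trans (measure_mono ?_)
    rintro y ⟨hy, hyx⟩
    rw [mem_preimage, hS]
    exact ⟨hDs hy, hyx⟩
  calc c * volume W ≤ c * volume {x | c ≤ volume (Prod.mk x ⁻¹' S)} := by gcongr
    _ ≤ ∫⁻ x, volume (Prod.mk x ⁻¹' S) := mul_meas_ge_le_lintegral hg c
    _ = (volume.prod volume) S := (Measure.prod_apply hSm).symm
    _ = ∫⁻ y, volume ((fun x => (x, y)) ⁻¹' S) := Measure.prod_apply_symm hSm
    _ ≤ ∫⁻ y, D'.indicator (fun _ => ENNReal.ofReal (2 * h)) y := by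
        apply lintegral_mono
        intro y
        by_cases hy : y ∈ D'
        · rw [indicator_of_mem hy]
          have : (fun x => (x, y)) ⁻¹' S ⊆ Icc (y - h) (y + h) := by
            intro x hx
            rw [mem_preimage, hS] at hx
            have := abs_le.1 hx.2
            simp only at this
            exact ⟨by linarith [this.2], by linarith [this.1]⟩
          refine (measure_mono this).trans ?_
          rw [Real.volume_Icc]
          apply ENNReal.ofReal_le_ofReal
          linarith
        · rw [indicator_of_notMem hy]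
          have : (fun x => (x, y)) ⁻¹' S = ∅ := by
            ext x
            rw [mem_preimage, hS]
            simp only [mem_empty_iff_false, iff_false]
            exact fun h => hy h.1
          simp only
          rw [this, measure_empty]
    _ = ENNReal.ofReal (2 * h) * volume D' := by
        rw [lintegral_indicator hDm, setLIntegral_const]
    _ = ENNReal.ofReal (2 * h) * volume D := by rw [hDv]

/-- outer measure of a Lipschitz image -/
theorem volume_image_le {f : ℝ → ℝ} {s : Set ℝ} {K : NNReal}
    (hf : ∀ x ∈ s, ∀ y ∈ s, |f x - f y| ≤ K * |x - y|) : volume (f '' s) ≤ K * volume s := by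
  have h1 : LipschitzOnWith K f s := by
    apply LipschitzOnWith.of_dist_le_mul
    intro x hx y hy
    rw [Real.dist_eq, Real.dist_eq]
    exact hf x hx y hy
  have h2 := h1.hausdorffMeasure_image_le (d := 1) (by norm_num)
  rw [MeasureTheory.hausdorffMeasure_real] at h2
  simpa using h2

end Crest.Agent.R128.RoughAsm
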