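import Crest.Agent.R128.RAPre
import Crest.Agent.R128.RoughAsm4
import Crest.Agent.R128.RALevel
import Crest.Agent.R128.RABroken
import Crest.Agent.R128.RAStep

/-!
# Row 128, node V5-RA (helper793): assembly of `Loc.RA` from the level dichotomy, the broken mirror
and the step
-/

set_option autoImplicit false

open Metric MeasureTheory Set
open Crest.Agent.R128 Crest.Agent.R128.Cell Crest.Agent.R128.CellB Crest.Agent.R128.CellDy
open Crest.Agent.R128.Loc
open scoped Real ENNReal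

namespace Crest.Agent.R128.RAAsm

theorem cell3_mono {k c : ℝ} {s : Bool} {n n' : ℕ} {m R lam C1 C2 q0 q1 q2 : ℝ} (hk : 0 < k)
    (h : Cell3 k c s n n' m R lam C1 q0 q1 q2) (hC : C1 ≤ C2) :
    Cell3 k c s n n' m R lam C2 q0 q1 q2 := by
  have hR : 0 < R := lt_of_lt_of_le one_pos h.hR
  refine ⟨h.hR, h.hlam, ?_, ?_, ?_, ?_, h.quad⟩
  · obtain ⟨σ, hσ, h1⟩ := h.slow
    refine ⟨σ, hσ, fun z hz => (h1 z hz).trans ?_⟩
    gcongr
  · intro z hz
    refine (h.slow0 z hz).trans ?_
    gcongr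
  · intro z hz
    refine (h.fast z hz).trans ?_
    gcongr
  · intro z hz
    refine (h.fast0 z hz).trans ?_
    gcongr

theorem norm_D_add_two_le {k c : ℝ} {s : Bool} {n n' : ℕ} {m R lam C1 q0 q1 q2 : ℝ}
    (hk : 1 ≤ k) (hC : C1 ≤ k) (h : Cell3 k c s n n' m R lam C1 q0 q1 q2) {t : ℝ}
    (ht : |t - m| ≤ 3 / 2 / R) : ‖D k c s (n + 2) (t : ℂ)‖ ≤ 20 * k * R := by
  have hR : 0 < R := lt_of_lt_of_le one_pos h.hR
  have hk0 : 0 < k := by linarith
  have hmem : (t : ℂ) ∈ ball (m : ℂ) (4 / R) := by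
    rw [mem_ball, Complex.dist_eq, ← Complex.ofReal_sub, Complex.norm_real, Real.norm_eq_abs]
    refine lt_of_le_of_lt ht ?_
    gcongr
    norm_num
  have hCk : C1 * R / k ≤ R := by
    rw [div_le_iff₀ hk0]
    nlinarith
  obtain ⟨σ, hσ, h1⟩ := h.slow
  have h2 := h1 _ hmem
  have h3 := h.slow0 _ hmem
  have hσR : ‖((σ * R : ℝ) : ℂ)‖ = R := by
    rw [Complex.norm_real, Real.norm_eq_abs, abs_mul, abs_of_pos hR]
    rcases hσ with h | h <;> rw [h] <;> simp
  have h4 : ‖D k c s (n + 1) (t : ℂ)‖ ≤ 2 * R := by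
    calc ‖D k c s (n + 1) (t : ℂ)‖ = ‖(D k c s (n + 1) (t : ℂ) - ((σ * R : ℝ) : ℂ)) + ((σ * R : ℝ) : ℂ)‖ := by
          rw [sub_add_cancel]
      _ ≤ _ := norm_add_le _ _
      _ ≤ 2 * R := by rw [hσR]; linarith
  have h5 : ‖dg k c s (t : ℂ) (n + 1)‖ ≤ 9 * k := by
    rw [RAPre.dg_re, Complex.norm_real, Real.norm_eq_abs]
    have hc := Real.abs_cos_le_one (2 * Real.pi * (Y k c s (n + 1) (t : ℂ)).re)
    have hp : Real.pi < 3.15 := Real.pi_lt_d2
    have hp0 := Real.pi_pos
    refine (abs_add_le _ _).trans ?_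
    rw [abs_mul, abs_of_pos (by positivity : 0 < 2 * Real.pi * k)]
    have : 2 * Real.pi * k * |Real.cos (2 * Real.pi * (Y k c s (n + 1) (t : ℂ)).re)| ≤
        2 * Real.pi * k * 1 := by gcongr
    have h6 : |(2 : ℝ)| = 2 := by norm_num
    rw [h6]
    nlinarith
  rw [RAPre.D_add_two]
  calc ‖dg k c s (t : ℂ) (n + 1) * D k c s (n + 1) (t : ℂ) - D k c s n (t : ℂ)‖
      ≤ ‖dg k c s (t : ℂ) (n + 1)‖ * ‖D k c s (n + 1) (t : ℂ)‖ + ‖D k c s n (t : ℂ)‖ := by
        rw [← norm_mul]; exact norm_sub_le _ _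
    _ ≤ 9 * k * (2 * R) + R := by gcongr; exact h3.trans hCk
    _ ≤ 20 * k * R := by nlinarith

theorem cos_norm (k c : ℝ) (s : Bool) (n : ℕ) (t : ℝ) :
    ‖Complex.cos (2 * Real.pi * Y k c s n (t : ℂ))‖ =
      |Real.cos (2 * Real.pi * (Y k c s n (t : ℂ)).re)| := by
  have h : Complex.cos (2 * Real.pi * Y k c s n (t : ℂ)) =
      ((Real.cos (2 * Real.pi * (Y k c s n (t : ℂ)).re) : ℝ) : ℂ) := by
    rw [RAPre.Y_re k c s n t]; push_cast; simp
  rw [h, Complex.norm_real, Real.norm_eq_abs]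

set_option maxHeartbeats 2000000 in
/-- **RA** -/
theorem ra : Loc.RA := by
  intro C1'
  obtain ⟨C1, hC1def⟩ : ∃ C1 : ℝ, C1 = max C1' 1 := ⟨_, rfl⟩
  have hC1 : 1 ≤ C1 := by rw [hC1def]; exact le_max_right _ _
  have hC1' : C1' ≤ C1 := by rw [hC1def]; exact le_max_left _ _
  obtain ⟨del, r, κ, c0, hdel, hdel1, hr, hκ, hκ1, hc0, kB, hB1⟩ := RABroken.broken hC1
  obtain ⟨a1, ha1, kL, hL1⟩ := RALevel.level_half hC1 hdel hdel1
  obtain ⟨C2, hC2, kS, hS1⟩ := RAStep.step (C1 := C1) (L := 4) (by linarith) hκ hκ1 (by norm_num)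
  obtain ⟨a2, ha2, kL2, hL2⟩ := RALevel.level_half (del := min (r / 3) (1 / 10 ^ 4)) hC2
    (lt_min (by positivity) (by norm_num)) (min_le_right _ _)
  refine ⟨min a1 (a2 * c0 * κ / 160), lt_min ha1 (by positivity),
    max (max (max kB kL) (max kS kL2)) (max (8 / κ) (max 16 C1)), ?_⟩
  intro k hk c s n n' m R lam q0 q1 q2 hlam hcell
  simp only [max_le_iff] at hk
  obtain ⟨⟨⟨hkB, hkL⟩, hkS, hkL2⟩, hkκ, hk1, hkC1⟩ := hk
  have hk0 : 0 < k := by linarith
  have hcell' := cell3_mono hk0 hcell hC1'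
  have hR : 0 < R := lt_of_lt_of_le one_pos hcell.hR
  have hlam' : |lam| ≤ C1 * Real.sqrt k :=
    hlam.trans (mul_le_mul_of_nonneg_right hC1' (Real.sqrt_nonneg _))
  have hsq : 4 ≤ Real.sqrt k := by rw [Real.le_sqrt' (by norm_num)]; linarith
  rcases hL1 k hkL c s n n' m R lam q0 q1 q2 hlam' hcell' with hdead | ⟨hlam4, e, i, he, hmir⟩
  · refine (ENNReal.ofReal_le_ofReal ?_).trans (hdead.trans (measure_mono ?_))
    · gcongr
      exact min_le_left _ _
    · rintro t ⟨h1, h2⟩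
      exact ⟨h1, Or.inl (lt_trans (by norm_num) h2)⟩
  · obtain ⟨Dd, hDd⟩ : ∃ Dd : Set ℝ, Dd = {t : ℝ | |t - m| ≤ 2 / R ∧
        (1 / 4 < (2 * Real.pi * k * R ^ 2) * ‖cont k c s (n + 2) (n' + 2) t‖ ∨
         1 / 4 < (2 * Real.pi * k * (min ‖D k c s (n + 2) t‖ ‖D k c (!s) (n' + 2) t‖) ^ 2) *
            ‖cont k c s (n + 3) (n' + 3) t‖)} := ⟨_, rfl⟩
    rw [← hDd]
    have hW := hB1 k hkB c s n n' m R lam q0 q1 q2 hlam4 hcell' e i he hmir
    obtain ⟨W, hWdef⟩ : ∃ W : Set ℝ, W = {t : ℝ | |t - m| ≤ 3 / 2 / R ∧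
      κ ≤ |Real.cos (2 * Real.pi * (Y k c s (n + 1) t).re)| ∧
      κ ≤ |Real.cos (2 * Real.pi * (Y k c (!s) (n' + 1) t).re)| ∧
      ∀ j : ℤ, r < |(Y k c (!s) (n' + 2) t).re + (Y k c s (n + 2) t).re - j / 2| ∧
        r < |(Y k c (!s) (n' + 2) t).re - (Y k c s (n + 2) t).re - j / 2|} := ⟨_, rfl⟩
    rw [← hWdef] at hW
    have hkey : ∀ x ∈ W, ENNReal.ofReal (a2 / (20 * k * R)) ≤
        volume (Dd ∩ {y | |y - x| ≤ 4 / (κ * k * R)}) := by
      intro x hx
      rw [hWdef] at hx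
      obtain ⟨hx1, hx2, hx3, hx4⟩ := hx
      have hx1' : |x - m| ≤ 2 / R := hx1.trans (by gcongr; norm_num)
      obtain ⟨s2, n2, n2', R', lam2, p0, p1, p2, hside, hRlow, hl2, hcell2, hmin⟩ :=
        hS1 k hkS c s n n' m R lam q0 q1 q2 hcell' hlam4 x hx1'
          (by rw [cos_norm]; exact hx2) (by rw [cos_norm]; exact hx3)
      have hR' : 0 < R' := lt_of_lt_of_le one_pos hcell2.hR
      have hl2' : |lam2| ≤ C2 * Real.sqrt k := by nlinarith
      have hRup : R' ≤ 20 * k * R :=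
        (hmin _ (mem_ball_self (by positivity))).1.trans
          (norm_D_add_two_le (by linarith) hkC1 hcell' hx1)
      have h2R : 2 / R' ≤ 4 / (κ * k * R) := by
        rw [div_le_div_iff₀ hR' (by positivity)]
        linarith
      rcases hL2 k hkL2 c s2 n2 n2' x R' lam2 p0 p1 p2 hl2' hcell2 with hd | ⟨_, e2, i2, he2, hm2⟩
      · refine (ENNReal.ofReal_le_ofReal ?_).trans (hd.trans (measure_mono ?_))
        · gcongr
        · rintro u ⟨hu1, hu2⟩
          have hux : |u - x| ≤ 4 / (κ * k * R) := hu1.trans h2R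
          refine ⟨?_, hux⟩
          rw [hDd]
          refine ⟨?_, Or.inr ?_⟩
          · have h20 : 4 / (κ * k * R) ≤ 1 / 2 / R := by
              rw [div_le_iff₀ hκ] at hkκ
              rw [div_le_div_iff₀ (by positivity) hR]
              nlinarith
            calc |u - m| = |(u - x) + (x - m)| := by ring_nf
              _ ≤ |u - x| + |x - m| := abs_add_le _ _
              _ ≤ 1 / 2 / R + 3 / 2 / R := by gcongr; exact hux.trans h20
              _ = 2 / R := by field_simp; norm_num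
          · have hmem : (u : ℂ) ∈ ball (x : ℂ) (4 / R') := by
              rw [mem_ball, Complex.dist_eq, ← Complex.ofReal_sub, Complex.norm_real,
                Real.norm_eq_abs]
              refine lt_of_le_of_lt hu1 ?_
              gcongr
              norm_num
            have hm := hmin _ hmem
            have hcont : ‖cont k c s2 (n2 + 2) (n2' + 2) (u : ℂ)‖ =
                ‖cont k c s (n + 3) (n' + 3) (u : ℂ)‖ := by
              rcases hside with ⟨h1, h2, h3⟩ | ⟨h1, h2, h3⟩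
              · rw [h1, h2, h3, Nat.add_assoc n 1 2, Nat.add_assoc n' 1 2]
              · rw [h1, h2, h3, Nat.add_assoc n 1 2, Nat.add_assoc n' 1 2, RAPre.cont_symm]
            rw [hcont] at hu2
            have h12 : R' ^ 2 ≤
                (min ‖D k c s (n + 2) (u : ℂ)‖ ‖D k c (!s) (n' + 2) (u : ℂ)‖) ^ 2 := by
              have := le_min hm.1 hm.2
              gcongr
            have hN := norm_nonneg (cont k c s (n + 3) (n' + 3) (u : ℂ))
            have hp0 := Real.pi_pos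
            calc (1 / 4 : ℝ) < 1 / 2 := by norm_num
              _ < (2 * Real.pi * k * R' ^ 2) * ‖cont k c s (n + 3) (n' + 3) (u : ℂ)‖ := hu2
              _ ≤ _ := by gcongr
      · exfalso
        have h0 : |x - x| ≤ 2 / R' := by rw [sub_self, abs_zero]; positivity
        have hmx := hm2 x h0
        have hmx2 := hmx.trans (mul_le_mul_of_nonneg_left (min_le_left _ _) (by norm_num))
        have h3r : 3 * (r / 3) = r := by ring
        rw [h3r] at hmx2
        rcases hside with ⟨h1, h2, h3⟩ | ⟨h1, h2, h3⟩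
        · subst h1 h2 h3
          rcases he2 with rfl | rfl
          · have := (hx4 (2 * i2 + 1)).2
            have e1 : (Y k c (!s2) (n' + 2) (x : ℂ)).re - (Y k c s2 (n + 2) (x : ℂ)).re -
                ((2 * i2 + 1 : ℤ) : ℝ) / 2 = (Y k c (!s2) (n' + 1 + 1) (x : ℂ)).re -
                1 * (Y k c s2 (n + 1 + 1) (x : ℂ)).re - 1 / 2 - i2 := by push_cast; ring
            rw [e1] at this
            linarith
          · have := (hx4 (2 * i2 + 1)).1
            have e1 : (Y k c (!s2) (n' + 2) (x : ℂ)).re + (Y k c s2 (n + 2) (x : ℂ)).re -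
                ((2 * i2 + 1 : ℤ) : ℝ) / 2 = (Y k c (!s2) (n' + 1 + 1) (x : ℂ)).re -
                (-1) * (Y k c s2 (n + 1 + 1) (x : ℂ)).re - 1 / 2 - i2 := by push_cast; ring
            rw [e1] at this
            linarith
        · subst h1 h2 h3
          rw [Bool.not_not] at hmx2
          rcases he2 with rfl | rfl
          · have := (hx4 (-(2 * i2 + 1))).2
            have e1 : (Y k c (!s) (n' + 2) (x : ℂ)).re - (Y k c s (n + 2) (x : ℂ)).re -
                ((-(2 * i2 + 1) : ℤ) : ℝ) / 2 = -((Y k c s (n + 1 + 1) (x : ℂ)).re -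
                1 * (Y k c (!s) (n' + 1 + 1) (x : ℂ)).re - 1 / 2 - i2) := by push_cast; ring
            rw [e1, abs_neg] at this
            linarith
          · have := (hx4 (2 * i2 + 1)).1
            have e1 : (Y k c (!s) (n' + 2) (x : ℂ)).re + (Y k c s (n + 2) (x : ℂ)).re -
                ((2 * i2 + 1 : ℤ) : ℝ) / 2 = (Y k c s (n + 1 + 1) (x : ℂ)).re -
                (-1) * (Y k c (!s) (n' + 1 + 1) (x : ℂ)).re - 1 / 2 - i2 := by push_cast; ring
            rw [e1] at this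
            linarith
    have hdens := RoughAsm.density hkey
    have hone : ENNReal.ofReal (κ * k * R / 8) * ENNReal.ofReal (2 * (4 / (κ * k * R))) = 1 := by
      rw [← ENNReal.ofReal_mul (by positivity), ← ENNReal.ofReal_one]
      congr 1
      field_simp
      norm_num
    calc ENNReal.ofReal (min a1 (a2 * c0 * κ / 160) / R)
        ≤ ENNReal.ofReal (κ * k * R / 8 * (a2 / (20 * k * R) * (c0 / R))) := by
          refine ENNReal.ofReal_le_ofReal ?_
          have e1 : κ * k * R / 8 * (a2 / (20 * k * R) * (c0 / R)) = (a2 * c0 * κ / 160) / R := by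
            field_simp
            norm_num
          rw [e1]
          gcongr
          exact min_le_right _ _
      _ = ENNReal.ofReal (κ * k * R / 8) *
          (ENNReal.ofReal (a2 / (20 * k * R)) * ENNReal.ofReal (c0 / R)) := by
          rw [ENNReal.ofReal_mul (by positivity), ENNReal.ofReal_mul (by positivity)]
      _ ≤ ENNReal.ofReal (κ * k * R / 8) * (ENNReal.ofReal (a2 / (20 * k * R)) * volume W) := by
          gcongr
      _ ≤ ENNReal.ofReal (κ * k * R / 8) *
          (ENNReal.ofReal (2 * (4 / (κ * k * R))) * volume Dd) := by gcongr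
      _ = volume Dd := by rw [← mul_assoc, hone, one_mul]

end Crest.Agent.R128.RAAsm
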