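import Crest.Agent.R128.RoughAsm2
import Crest.Agent.R128.RoughAsm4

set_option autoImplicit false

/-! Row 128, node P4-ASM (helper155), part 7: one level is enough when one side is much faster
(`|lam| > 10^4`). -/

namespace Crest.Agent.R128.RoughAsm

open MeasureTheory Real Set
open Crest.Agent.R128.Rough (sec Bad F S vol_cos rough1 exists_good near_pole)

theorem sec_le_of_dist {z δ : ℝ} (hδ : 0 < δ) (h : ∀ n : ℤ, δ ≤ |z - 1 / 4 - n / 2|) :
    |sec z| ≤ 1 / (4 * δ) := by
  have h1 := near_pole z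
  have h2 := h (round (2 * z - 1 / 2))
  rw [sec, abs_div, abs_one]
  apply one_div_le_one_div_of_le (by positivity)
  linarith

/-- a quadratic cannot cancel `sec` near a pole -/
theorem quad_sec {q0 q1 q2 : ℝ} : ENNReal.ofReal (1 / 1000) ≤
    volume {z : ℝ | z ∈ Icc (0:ℝ) 3 ∧ 1 < |q0 + q1 * z + q2 * z ^ 2 + sec z|} := by
  obtain ⟨A, hA⟩ : ∃ A : Set ℝ, A = {z : ℝ | z ∈ Icc (0:ℝ) 3 ∧
    1 < |q0 + q1 * z + q2 * z ^ 2 + sec z|} := ⟨_, rfl⟩
  rw [← hA]
  have hcov : Ico (245 / 1000 : ℝ) (1 / 4) ⊆ (fun z => z + 0) ⁻¹' A ∪ ((fun z => z + 3 / 10) ⁻¹' A ∪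
      ((fun z => z + 6 / 10) ⁻¹' A ∪ (fun z => z + 9 / 10) ⁻¹' A)) := by
    intro z hz
    by_contra hcon
    simp only [mem_union, mem_preimage, not_or] at hcon
    obtain ⟨c0, c1, c2, c3⟩ := hcon
    rw [add_zero] at c0
    have good : ∀ w : ℝ, w ∉ A → w ∈ Icc (0:ℝ) 3 → |q0 + q1 * w + q2 * w ^ 2 + sec w| ≤ 1 := by
      intro w hw hw2
      by_contra hc
      rw [not_le] at hc
      exact hw (by rw [hA]; exact ⟨hw2, hc⟩)
    have g0 := good z c0 ⟨by linarith [hz.1], by linarith [hz.2]⟩
    have g1 := good _ c1 ⟨by linarith [hz.1], by linarith [hz.2]⟩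
    have g2 := good _ c2 ⟨by linarith [hz.1], by linarith [hz.2]⟩
    have g3 := good _ c3 ⟨by linarith [hz.1], by linarith [hz.2]⟩
    have s1 : |sec (z + 3 / 10)| ≤ 1 / (4 * (19 / 100)) := by
      apply sec_le_of_dist (by norm_num)
      intro n
      rcases le_or_gt n 0 with h | h
      · have : (n:ℝ) ≤ 0 := by exact_mod_cast h
        refine le_trans ?_ (le_abs_self _)
        linarith [hz.1]
      · have : (1:ℝ) ≤ n := by exact_mod_cast h
        refine le_trans ?_ (neg_le_abs _)
        linarith [hz.2]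
    have s2 : |sec (z + 6 / 10)| ≤ 1 / (4 * (9 / 100)) := by
      apply sec_le_of_dist (by norm_num)
      intro n
      rcases le_or_gt n 1 with h | h
      · have : (n:ℝ) ≤ 1 := by exact_mod_cast h
        refine le_trans ?_ (le_abs_self _)
        linarith [hz.1]
      · have : (2:ℝ) ≤ n := by exact_mod_cast h
        refine le_trans ?_ (neg_le_abs _)
        linarith [hz.2]
    have s3 : |sec (z + 9 / 10)| ≤ 1 / (4 * (1 / 10)) := by
      apply sec_le_of_dist (by norm_num)
      intro n
      rcases le_or_gt n 1 with h | h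
      · have : (n:ℝ) ≤ 1 := by exact_mod_cast h
        refine le_trans ?_ (le_abs_self _)
        linarith [hz.1]
      · have : (2:ℝ) ≤ n := by exact_mod_cast h
        refine le_trans ?_ (neg_le_abs _)
        linarith [hz.2]
    have s0 : 31 ≤ |sec z| := by
      have hpi := Real.pi_pos
      have hpi3 : π < 3.15 := Real.pi_lt_d2
      have h1 : |Real.cos (2 * π * z)| ≤ 2 * π * (5 / 1000) := by
        have h2 : Real.cos (2 * π * z) = Real.sin (2 * π * (1 / 4 - z)) := by
          rw [← Real.cos_pi_div_two_sub]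
          congr 1
          ring
        rw [h2]
        refine (Real.abs_sin_le_abs).trans ?_
        rw [abs_of_nonneg (by have := hz.2; have : 0 ≤ 1 / 4 - z := by linarith
                              positivity)]
        apply mul_le_mul_of_nonneg_left _ (by positivity)
        linarith [hz.1]
      have h3 : 0 < |Real.cos (2 * π * z)| := by
        have h4 := near_pole z
        apply abs_pos.2
        intro h0
        rw [h0, abs_zero] at h4
        have h5 : z - 1 / 4 - (round (2 * z - 1 / 2) : ℝ) / 2 = 0 := by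
          have := abs_nonneg (z - 1 / 4 - (round (2 * z - 1 / 2) : ℝ) / 2)
          apply abs_eq_zero.1
          linarith
        have h6 : (round (2 * z - 1 / 2) : ℝ) = 2 * z - 1 / 2 := by linarith
        have h7 : (round (2 * z - 1 / 2) : ℝ) < 0 := by rw [h6]; linarith [hz.2]
        have h8 : (-1 : ℝ) < (round (2 * z - 1 / 2) : ℝ) := by rw [h6]; linarith [hz.1]
        have h9 : round (2 * z - 1 / 2) < 0 := by exact_mod_cast h7
        have h10 : -1 < round (2 * z - 1 / 2) := by exact_mod_cast h8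
        omega
      rw [sec, abs_div, abs_one, le_div_iff₀ h3]
      nlinarith
    have hid : sec z = (q0 + q1 * z + q2 * z ^ 2 + sec z)
        - 3 * (q0 + q1 * (z + 3 / 10) + q2 * (z + 3 / 10) ^ 2 + sec (z + 3 / 10))
        + 3 * (q0 + q1 * (z + 6 / 10) + q2 * (z + 6 / 10) ^ 2 + sec (z + 6 / 10))
        - (q0 + q1 * (z + 9 / 10) + q2 * (z + 9 / 10) ^ 2 + sec (z + 9 / 10))
        + 3 * sec (z + 3 / 10) - 3 * sec (z + 6 / 10) + sec (z + 9 / 10) := by ring
    have b0 := abs_le.1 g0
    have b1 := abs_le.1 g1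
    have b2 := abs_le.1 g2
    have b3 := abs_le.1 g3
    have t1 := abs_le.1 s1
    have t2 := abs_le.1 s2
    have t3 := abs_le.1 s3
    norm_num at t1 t2 t3
    rcases le_total 0 (sec z) with h | h
    · rw [abs_of_nonneg h] at s0
      linarith [b0.1, b0.2, b1.1, b1.2, b2.1, b2.2, b3.1, b3.2, t1.1, t1.2, t2.1, t2.2, t3.1, t3.2]
    · rw [abs_of_nonpos h] at s0
      linarith [b0.1, b0.2, b1.1, b1.2, b2.1, b2.2, b3.1, b3.2, t1.1, t1.2, t2.1, t2.2, t3.1, t3.2]
  have hv : ENNReal.ofReal (5 / 1000) ≤ volume A + (volume A + (volume A + volume A)) := by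
    calc ENNReal.ofReal (5 / 1000) = volume (Ico (245 / 1000 : ℝ) (1 / 4)) := by
          rw [Real.volume_Ico]; norm_num
      _ ≤ _ := measure_mono hcov
      _ ≤ volume ((fun z : ℝ => z + 0) ⁻¹' A) + (volume ((fun z : ℝ => z + 3 / 10) ⁻¹' A) +
          (volume ((fun z : ℝ => z + 6 / 10) ⁻¹' A) + volume ((fun z : ℝ => z + 9 / 10) ⁻¹' A))) :=
          (measure_union_le _ _).trans (add_le_add le_rfl ((measure_union_le _ _).trans
            (add_le_add le_rfl (measure_union_le _ _))))
      _ = _ := by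
          rw [measure_preimage_add_right, measure_preimage_add_right, measure_preimage_add_right,
            measure_preimage_add_right]
  by_contra hcon
  rw [not_le] at hcon
  have h4 : volume A + (volume A + (volume A + volume A)) ≤
      ENNReal.ofReal (1 / 1000 + (1 / 1000 + (1 / 1000 + 1 / 1000))) := by
    rw [ENNReal.ofReal_add (by norm_num) (by norm_num), ENNReal.ofReal_add (by norm_num) (by norm_num),
      ENNReal.ofReal_add (by norm_num) (by norm_num)]
    gcongr
  have h5 := hv.trans h4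
  rw [ENNReal.ofReal_le_ofReal_iff (by norm_num)] at h5
  norm_num at h5

end Crest.Agent.R128.RoughAsm
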