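import Crest.Agent.R128.RoughAsm6
import Crest.Agent.R128.RoughAsm7

set_option autoImplicit false

/-! Row 128, node P4-ASM (helper155), part 8: one level, `|lam| ≥ 10^4`. -/

namespace Crest.Agent.R128.RoughAsm

open MeasureTheory Real Set
open Crest.Agent.R128.Rough (sec Bad F S vol_cos rough1 exists_good near_pole)

/-- `T` is small away from the poles when the derivative is large -/
theorem T_small {k u d d0 lam : ℝ} (hk : 10 ^ 12 ≤ k) (hlam : 10 ^ 4 ≤ |lam|)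
    (hu : 1 / 10 ^ 6 ≤ |Real.cos (2 * π * u)|) (hd : 9 / 10 * |lam| ≤ |d|) (hd0 : |d0| ≤ |lam|) :
    |T k u d d0| ≤ 1 / 4 := by
  have hpi3 : 3.14 < π := Real.pi_gt_d2
  have hpi4 : π < 3.15 := Real.pi_lt_d2
  have hk0 : 0 < k := lt_of_lt_of_le (by norm_num) hk
  have hl0 : 0 < |lam| := lt_of_lt_of_le (by norm_num) hlam
  have h1 : 6 * k / 10 ^ 6 ≤ |Vr k u| := by
    unfold Vr
    have e : |2 * π * k * Real.cos (2 * π * u)| = 2 * π * k * |Real.cos (2 * π * u)| := by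
      rw [abs_mul, abs_of_nonneg (by positivity : 0 ≤ 2 * π * k)]
    have h4 : 6.28 * k * (1 / 10 ^ 6) ≤ 2 * π * k * |Real.cos (2 * π * u)| := by
      have : 6.28 * k ≤ 2 * π * k := by nlinarith
      exact mul_le_mul this hu (by norm_num) (by positivity)
    have h5 := abs_sub_abs_le_abs_add (2 * π * k * Real.cos (2 * π * u)) 2
    rw [e, abs_of_pos (by norm_num : (0:ℝ) < 2), add_comm] at h5
    linarith
  have h2 : 5 * k / 10 ^ 6 * |lam| ≤ |Vr k u * d - d0| := by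
    have h3 : 6 * k / 10 ^ 6 * (9 / 10 * |lam|) ≤ |Vr k u * d| := by
      rw [abs_mul]
      exact mul_le_mul h1 hd (by positivity) (abs_nonneg _)
    have h4 := abs_sub_abs_le_abs_sub (Vr k u * d) d0
    have h5 : |lam| ≤ 4 / 10 * k / 10 ^ 6 * |lam| := by
      have : 1 ≤ 4 / 10 * k / 10 ^ 6 := by linarith
      nlinarith
    linarith
  have hdpos : 0 < |d| := lt_of_lt_of_le (by positivity) hd
  have hpos : 0 < |Vr k u * d - d0| := lt_of_lt_of_le (by positivity) h2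
  unfold T
  rw [abs_div, abs_mul d, abs_of_pos (by positivity : 0 < 2 * π * k), div_le_iff₀ (by positivity)]
  have h6 : 9 / 10 * |lam| * (5 * k / 10 ^ 6 * |lam|) ≤ |d| * |Vr k u * d - d0| :=
    mul_le_mul hd h2 (by positivity) (abs_nonneg _)
  have h7 : (10 ^ 4) ^ 2 ≤ |lam| ^ 2 := pow_le_pow_left₀ (by norm_num) hlam 2
  have h8 : 9 / 10 * |lam| * (5 * k / 10 ^ 6 * |lam|) = 45 / 10 ^ 7 * k * |lam| ^ 2 := by ring
  rw [h8] at h6
  have h9 : 45 / 10 ^ 7 * k * (10 ^ 4) ^ 2 ≤ 45 / 10 ^ 7 * k * |lam| ^ 2 :=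
    mul_le_mul_of_nonneg_left h7 (by positivity)
  have h10 : 2 * π * k ≤ 6.3 * k := by nlinarith
  linarith

set_option maxHeartbeats 1000000 in
/-- **One-level roughness when the faster side is at least `10^4` times faster.** -/
theorem asm_big {k lam ε : ℝ} {P dP dP0 Q dQ dQ0 f0 : ℝ → ℝ} (hk : 10 ^ 12 ≤ k)
    (hlam : 10 ^ 4 ≤ |lam|) (hε0 : 0 ≤ ε) (hε : ε ≤ 1 / 10 ^ 13)
    (hQ : ∀ x ∈ Icc (0:ℝ) 3, HasDerivAt Q (dQ x) x)
    (nP : ∀ x ∈ Icc (0:ℝ) 3, |P x - x| ≤ ε) (ndP : ∀ x ∈ Icc (0:ℝ) 3, |dP x - 1| ≤ ε)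
    (ndP0 : ∀ x ∈ Icc (0:ℝ) 3, |dP0 x| ≤ ε)
    (ndQ : ∀ x ∈ Icc (0:ℝ) 3, |dQ x - lam| ≤ 1 / 10 * |lam|)
    (ndQ0 : ∀ x ∈ Icc (0:ℝ) 3, |dQ0 x| ≤ |lam|)
    (hf0 : ∃ q0 q1 q2 : ℝ, ∀ x ∈ Icc (0:ℝ) 3, |f0 x - (q0 + q1 * x + q2 * x ^ 2)| ≤ 1 / 8) :
    ENNReal.ofReal (1 / 2000) ≤
      volume {y : ℝ | y ∈ Icc (0:ℝ) 3 ∧ 1 / 4 < |F1 k f0 P dP dP0 Q dQ dQ0 y|} := by
  have hk0 : 0 < k := lt_of_lt_of_le (by norm_num) hk
  have hl0 : 0 < |lam| := lt_of_lt_of_le (by norm_num) hlam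
  obtain ⟨q0, q1, q2, hq⟩ := hf0
  have hQs : ∀ x ∈ Icc (0:ℝ) 3, ∀ y ∈ Icc (0:ℝ) 3,
      |(Q y - Q x) - lam * (y - x)| ≤ 1 / 10 * |lam| * |y - x| := by
    intro x hx y hy
    have h1 := mvt (f := fun t => Q t - lam * t) (f' := fun t => dQ t - lam) (a := x) (b := y)
      (B := 1 / 10 * |lam|)
      (fun t ht => by
        have := (hQ t (uIcc_sub hx hy ht)).sub ((hasDerivAt_id t).const_mul lam)
        refine this.congr_deriv ?_
        ring)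
      (fun t ht => ndQ t (uIcc_sub hx hy ht))
    have h2 : (Q y - Q x) - lam * (y - x) = Q y - lam * y - (Q x - lam * x) := by ring
    rw [h2]
    exact h1
  have hQlow : ∀ x ∈ Icc (0:ℝ) 3, ∀ y ∈ Icc (0:ℝ) 3,
      (9 / 10 * |lam|) * |y - x| ≤ |(Q y - 1 / 4) - (Q x - 1 / 4)| := by
    intro x hx y hy
    have h1 := hQs x hx y hy
    have h2 := abs_sub_abs_le_abs_sub (lam * (y - x)) (Q y - Q x)
    rw [abs_sub_comm (lam * (y - x)) (Q y - Q x), abs_mul] at h2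
    have h3 : Q y - 1 / 4 - (Q x - 1 / 4) = Q y - Q x := by ring
    rw [h3]
    linarith
  have hQup : ∀ x ∈ Icc (0:ℝ) 3, ∀ y ∈ Icc (0:ℝ) 3,
      |(Q y - 1 / 4) - (Q x - 1 / 4)| ≤ (11 / 10 * |lam|) * |y - x| := by
    intro x hx y hy
    have h1 := hQs x hx y hy
    have h2 := abs_sub_abs_le_abs_sub (Q y - Q x) (lam * (y - x))
    rw [abs_mul] at h2
    have h3 : Q y - 1 / 4 - (Q x - 1 / 4) = Q y - Q x := by ring
    rw [h3]
    linarith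
  have hcount := Mirror.eq_count (f := fun x => Q x - 1 / 4) (u := 0) (v := 3)
    (b := 9 / 10 * |lam|) (L := 11 / 10 * |lam|) (d := 1 / (4 * 10 ^ 6)) (by norm_num)
    (by positivity) (by positivity) (by norm_num) hQlow hQup
  have hcountv : volume {x : ℝ | x ∈ Icc (0:ℝ) 3 ∧ ∃ n : ℤ, |Q x - 1 / 4 - n / 2| ≤ 1 / (4 * 10 ^ 6)}
      ≤ ENNReal.ofReal (1 / 10000) := by
    refine hcount.trans (ENNReal.ofReal_le_ofReal ?_)
    rw [mul_div_assoc', div_le_iff₀ (by positivity)]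
    nlinarith
  have hqs := quad_sec (q0 := q0) (q1 := q1) (q2 := q2)
  have hcosv := vol_cos (x0 := 0) (lam := 1) (a := 0) (b := 3) (kap := 1 / 10 ^ 5) one_ne_zero
    (by norm_num) (by norm_num)
  obtain ⟨D, hD⟩ : ∃ D : Set ℝ, D = {y : ℝ | y ∈ Icc (0:ℝ) 3 ∧
    1 / 4 < |F1 k f0 P dP dP0 Q dQ dQ0 y|} := ⟨_, rfl⟩
  rw [← hD]
  have hcov : {z : ℝ | z ∈ Icc (0:ℝ) 3 ∧ 1 < |q0 + q1 * z + q2 * z ^ 2 + sec z|} ⊆
      D ∪ ({x : ℝ | x ∈ Icc (0:ℝ) 3 ∧ ∃ n : ℤ, |Q x - 1 / 4 - n / 2| ≤ 1 / (4 * 10 ^ 6)} ∪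
        {y : ℝ | y ∈ Icc (0:ℝ) 3 ∧ |Real.cos (2 * π * (0 + 1 * y))| < 1 / 10 ^ 5}) := by
    rintro z ⟨hz, hbig⟩
    by_cases h1 : ∃ n : ℤ, |Q z - 1 / 4 - n / 2| ≤ 1 / (4 * 10 ^ 6)
    · exact Or.inr (Or.inl ⟨hz, h1⟩)
    by_cases h2 : |Real.cos (2 * π * (0 + 1 * z))| < 1 / 10 ^ 5
    · exact Or.inr (Or.inr ⟨hz, h2⟩)
    left
    rw [hD]
    refine ⟨hz, ?_⟩
    push Not at h1
    rw [not_lt] at h2
    have e0 : (0:ℝ) + 1 * z = z := by ring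
    rw [e0] at h2
    have hcQ : 1 / 10 ^ 6 ≤ |Real.cos (2 * π * Q z)| := by
      have h3 := near_pole (Q z)
      have h4 := h1 (round (2 * Q z - 1 / 2))
      linarith
    have hdQ : 9 / 10 * |lam| ≤ |dQ z| := by
      have h5 := abs_sub_abs_le_abs_sub lam (dQ z)
      rw [abs_sub_comm] at h5
      linarith [ndQ z hz]
    have t1 := T_small hk hlam hcQ hdQ (ndQ0 z hz)
    have t2 := T_approx (k := k) (κ := 1 / 10 ^ 5) (ε := 1 / 10 ^ 13) (e := 10 * (1 / 10 ^ 13) + 1 / k)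
      (by linarith) (by norm_num) h2 ((nP z hz).trans hε) ((ndP z hz).trans hε)
      ((ndP0 z hz).trans hε) (by norm_num) rfl (by
        have : 1 / k ≤ 1 / 10 ^ 12 := one_div_le_one_div_of_le (by norm_num) hk
        linarith)
    have t3 : 2 * (10 * (1 / 10 ^ 13) + 1 / k) / (1 / 10 ^ 5) ^ 2 ≤ 1 / 20 := by
      have : 1 / k ≤ 1 / 10 ^ 12 := one_div_le_one_div_of_le (by norm_num) hk
      rw [div_le_iff₀ (by norm_num)]
      linarith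
    have t4 := hq z hz
    have t5 : q0 + q1 * z + q2 * z ^ 2 + sec z
      = F1 k f0 P dP dP0 Q dQ dQ0 z - (f0 z - (q0 + q1 * z + q2 * z ^ 2))
        - (T k (P z) (dP z) (dP0 z) - sec z) - T k (Q z) (dQ z) (dQ0 z) := by
      unfold F1; ring
    rw [t5] at hbig
    have t6 := abs_sub (F1 k f0 P dP dP0 Q dQ dQ0 z - (f0 z - (q0 + q1 * z + q2 * z ^ 2))
        - (T k (P z) (dP z) (dP0 z) - sec z)) (T k (Q z) (dQ z) (dQ0 z))
    have t7 := abs_sub (F1 k f0 P dP dP0 Q dQ dQ0 z - (f0 z - (q0 + q1 * z + q2 * z ^ 2)))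
        (T k (P z) (dP z) (dP0 z) - sec z)
    have t8 := abs_sub (F1 k f0 P dP dP0 Q dQ dQ0 z) (f0 z - (q0 + q1 * z + q2 * z ^ 2))
    linarith
  by_contra hcon
  rw [not_le] at hcon
  have hcos' : volume {y : ℝ | y ∈ Icc (0:ℝ) 3 ∧ |Real.cos (2 * π * (0 + 1 * y))| < 1 / 10 ^ 5}
      ≤ ENNReal.ofReal (1 / 10000) := by
    refine hcosv.trans (ENNReal.ofReal_le_ofReal ?_)
    rw [abs_one]; norm_num
  have hfin : ENNReal.ofReal (1 / 1000) ≤ ENNReal.ofReal (1 / 2000 + (1 / 10000 + 1 / 10000)) := by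
    rw [ENNReal.ofReal_add (by norm_num) (by norm_num), ENNReal.ofReal_add (by norm_num) (by norm_num)]
    calc _ ≤ _ := hqs
      _ ≤ _ := measure_mono hcov
      _ ≤ _ := (measure_union_le _ _).trans (add_le_add le_rfl (measure_union_le _ _))
      _ ≤ _ := add_le_add hcon.le (add_le_add hcountv hcos')
  rw [ENNReal.ofReal_le_ofReal_iff (by norm_num)] at hfin
  norm_num at hfin

end Crest.Agent.R128.RoughAsm
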