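import Crest.Agent.R128.LocDef
import Crest.Agent.R128.TaylorTwo
import Crest.Agent.R128.RoughAsm8

set_option autoImplicit false

/-! Row 128, RA bridge (helper155), part 1: real points of the two sides. -/

open Metric MeasureTheory Set
open Crest.Agent.R128 Crest.Agent.R128.Cell Crest.Agent.R128.CellB Crest.Agent.R128.CellDy
open Crest.Agent.R128.Loc

namespace Crest.Agent.R128.RABr

open Crest.Agent.R128.RoughAsm (Vr T nx dnx)

/-- sign of the side -/
noncomputable def sg (s : Bool) : ℝ := if s then 1 else -1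

theorem sg_sq (s : Bool) : sg s * sg s = 1 := by cases s <;> simp [sg]
theorem sg_abs (s : Bool) : |sg s| = 1 := by cases s <;> simp [sg]

theorem hasDerivAt_Y (k c : ℝ) (s : Bool) (n : ℕ) (z : ℂ) :
    HasDerivAt (Y k c s n) ((sg s : ℂ) * D k c s n z) z := by
  cases s
  · simpa [sg] using hasDerivAt_Y_false k c n z
  · simpa [sg] using hasDerivAt_Y_true k c n z

theorem Y_add_two (k c : ℝ) (s : Bool) (n : ℕ) (z : ℂ) : Y k c s (n + 2) z =
    2 * Y k c s (n + 1) z + k * Complex.sin (2 * Real.pi * Y k c s (n + 1) z) - Y k c s n z := by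
  unfold Y; rw [CellB.y_add_two]

theorem D_add_two (k c : ℝ) (s : Bool) (n : ℕ) (z : ℂ) : D k c s (n + 2) z =
    cV k (Y k c s (n + 1) z) * D k c s (n + 1) z - D k c s n z := by
  unfold D Y; rw [CellB.yd_add_two]

theorem sdC_ofReal (k c : ℝ) (s : Bool) (t : ℝ) : sdC k c s (t : ℂ) = ((sd k c s t : ℝ) : ℂ) := by
  cases s <;> simp [sdC, sd]

theorem im_Y (k c : ℝ) (s : Bool) (n : ℕ) (t : ℝ) : (Y k c s n (t : ℂ)).im = 0 := by
  unfold Y; rw [sdC_ofReal]; exact im_y_ofReal k c n _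

theorem im_D (k c : ℝ) (s : Bool) (n : ℕ) (t : ℝ) : (D k c s n (t : ℂ)).im = 0 := by
  unfold D; rw [sdC_ofReal, yd_ofReal]; simp

/-- real digit -/
noncomputable def yr (k c : ℝ) (s : Bool) (n : ℕ) (t : ℝ) : ℝ := (Y k c s n (t : ℂ)).re
/-- real derivative -/
noncomputable def dr (k c : ℝ) (s : Bool) (n : ℕ) (t : ℝ) : ℝ := (D k c s n (t : ℂ)).re

theorem ofReal_yr (k c : ℝ) (s : Bool) (n : ℕ) (t : ℝ) : ((yr k c s n t : ℝ) : ℂ) = Y k c s n (t : ℂ) := by
  apply Complex.ext
  · simp [yr]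
  · simp [im_Y]

theorem ofReal_dr (k c : ℝ) (s : Bool) (n : ℕ) (t : ℝ) : ((dr k c s n t : ℝ) : ℂ) = D k c s n (t : ℂ) := by
  apply Complex.ext
  · simp [dr]
  · simp [im_D]

theorem cV_real (k x : ℝ) : cV k (x : ℂ) = ((Vr k x : ℝ) : ℂ) := by
  unfold cV Vr
  push_cast
  ring

theorem dr_add_two (k c : ℝ) (s : Bool) (n : ℕ) (t : ℝ) : dr k c s (n + 2) t =
    Vr k (yr k c s (n + 1) t) * dr k c s (n + 1) t - dr k c s n t := by
  have h : ((dr k c s (n + 2) t : ℝ) : ℂ) = ((Vr k (yr k c s (n + 1) t) * dr k c s (n + 1) t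
      - dr k c s n t : ℝ) : ℂ) := by
    rw [ofReal_dr, D_add_two, ← ofReal_yr, cV_real, ← ofReal_dr, ← ofReal_dr]
    push_cast
    ring
  exact_mod_cast h

theorem yr_add_two (k c : ℝ) (s : Bool) (n : ℕ) (t : ℝ) : yr k c s (n + 2) t =
    2 * yr k c s (n + 1) t + k * Real.sin (2 * Real.pi * yr k c s (n + 1) t) - yr k c s n t := by
  have h : ((yr k c s (n + 2) t : ℝ) : ℂ) = ((2 * yr k c s (n + 1) t
      + k * Real.sin (2 * Real.pi * yr k c s (n + 1) t) - yr k c s n t : ℝ) : ℂ) := by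
    rw [ofReal_yr, Y_add_two, ← ofReal_yr, ← ofReal_yr]
    push_cast
    ring
  exact_mod_cast h

theorem hasDerivAt_yr (k c : ℝ) (s : Bool) (n : ℕ) (t : ℝ) :
    HasDerivAt (yr k c s n) (sg s * dr k c s n t) t := by
  have h := (hasDerivAt_Y k c s n (t : ℂ)).real_of_complex
  refine h.congr_deriv ?_
  simp [dr]

theorem differentiable_Y (k c : ℝ) (s : Bool) (n : ℕ) : Differentiable ℂ (Y k c s n) :=
  fun z => (hasDerivAt_Y k c s n z).differentiableAt

theorem differentiable_D (k c : ℝ) (s : Bool) (n : ℕ) : Differentiable ℂ (D k c s n) := by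
  induction n using Nat.strong_induction_on with
  | _ n ih =>
    match n with
    | 0 => 
      have : D k c s 0 = fun _ => 0 := by funext z; simp [D]
      rw [this]; exact differentiable_const _
    | 1 =>
      have : D k c s 1 = fun _ => 1 := by funext z; simp [D]
      rw [this]; exact differentiable_const _
    | n + 2 =>
      have : D k c s (n + 2) = fun z => cV k (Y k c s (n + 1) z) * D k c s (n + 1) z
          - D k c s n z := by
        funext z; exact D_add_two k c s n z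
      rw [this]
      have hV : Differentiable ℂ (cV k) := fun z => (hasDerivAt_cV k z).differentiableAt
      exact ((hV.comp (differentiable_Y k c s (n + 1))).mul (ih (n + 1) (by omega))).sub
        (ih n (by omega))

theorem hasDerivAt_dr (k c : ℝ) (s : Bool) (n : ℕ) (t : ℝ) :
    HasDerivAt (dr k c s n) (deriv (D k c s n) (t : ℂ)).re t :=
  ((differentiable_D k c s n (t : ℂ)).hasDerivAt).real_of_complex

/-- the content at real points is real -/
theorem im_mu (k c : ℝ) (s : Bool) (n : ℕ) (t : ℝ) : (mu k c s n (t : ℂ)).im = 0 := by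
  have hd : ∀ j, (dg k c s (t : ℂ) j).im = 0 := by
    intro j
    unfold dg
    rw [← ofReal_yr, cV_real]
    simp
  have hP : ∀ j, (Align.P (dg k c s (t : ℂ)) j).im = 0 := by
    intro j
    induction j using Nat.strong_induction_on with
    | _ j ih =>
      match j with
      | 0 => simp
      | 1 => simp
      | j + 2 =>
        rw [Align.P_add_two, Complex.sub_im, Complex.mul_im, hd, ih (j + 1) (by omega),
          ih j (by omega)]
        simp
  have hQ : (Align.Q (dg k c s (t : ℂ)) n).im = 0 := by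
    rw [Q_dg]; exact im_D k c s n t
  unfold mu Align.mu
  rw [Complex.div_im, hQ, Complex.neg_im, hP]
  simp

theorem im_cont (k c : ℝ) (s : Bool) (n n' : ℕ) (t : ℝ) : (cont k c s n n' (t : ℂ)).im = 0 := by
  unfold cont
  rw [Complex.sub_im, Complex.sub_im, im_mu, im_mu, cV_real]
  simp

/-- real content -/
noncomputable def cr (k c : ℝ) (s : Bool) (n n' : ℕ) (t : ℝ) : ℝ := (cont k c s n n' (t : ℂ)).re

theorem ofReal_cr (k c : ℝ) (s : Bool) (n n' : ℕ) (t : ℝ) :
    ((cr k c s n n' t : ℝ) : ℂ) = cont k c s n n' (t : ℂ) := by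
  apply Complex.ext
  · simp [cr]
  · simp [im_cont]

theorem norm_cont (k c : ℝ) (s : Bool) (n n' : ℕ) (t : ℝ) :
    ‖cont k c s n n' (t : ℂ)‖ = |cr k c s n n' t| := by
  rw [← ofReal_cr, Complex.norm_real, Real.norm_eq_abs]

theorem norm_D (k c : ℝ) (s : Bool) (n : ℕ) (t : ℝ) : ‖D k c s n (t : ℂ)‖ = |dr k c s n t| := by
  rw [← ofReal_dr, Complex.norm_real, Real.norm_eq_abs]

/-- one more digit on both sides -/
theorem cont_step {k c : ℝ} {s : Bool} {n n' : ℕ} {z : ℂ} (h0 : D k c s n z ≠ 0)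
    (h1 : D k c s (n + 1) z ≠ 0) (h0' : D k c (!s) n' z ≠ 0) (h1' : D k c (!s) (n' + 1) z ≠ 0) :
    cont k c s (n + 1) (n' + 1) z = cont k c s n n' z - 1 / (D k c s n z * D k c s (n + 1) z)
      - 1 / (D k c (!s) n' z * D k c (!s) (n' + 1) z) := by
  have a1 := Align.mu_succ_sub (a := dg k c s z) (n := n) (by rw [Q_dg]; exact h0)
    (by rw [Q_dg]; exact h1)
  have a2 := Align.mu_succ_sub (a := dg k c (!s) z) (n := n') (by rw [Q_dg]; exact h0')
    (by rw [Q_dg]; exact h1')
  rw [Q_dg, Q_dg] at a1 a2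
  unfold cont mu
  linear_combination -a1 - a2

theorem cr_step {k c : ℝ} {s : Bool} {n n' : ℕ} {t : ℝ} (h0 : dr k c s n t ≠ 0)
    (h1 : dr k c s (n + 1) t ≠ 0) (h0' : dr k c (!s) n' t ≠ 0) (h1' : dr k c (!s) (n' + 1) t ≠ 0) :
    cr k c s (n + 1) (n' + 1) t = cr k c s n n' t - 1 / (dr k c s n t * dr k c s (n + 1) t)
      - 1 / (dr k c (!s) n' t * dr k c (!s) (n' + 1) t) := by
  have hne : ∀ (s : Bool) (n : ℕ), dr k c s n t ≠ 0 → D k c s n (t : ℂ) ≠ 0 := by
    intro s n h
    rw [← ofReal_dr]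
    exact_mod_cast h
  have h := cont_step (z := (t : ℂ)) (hne s n h0) (hne s (n + 1) h1) (hne (!s) n' h0')
    (hne (!s) (n' + 1) h1')
  rw [← ofReal_cr, ← ofReal_cr, ← ofReal_dr, ← ofReal_dr, ← ofReal_dr, ← ofReal_dr] at h
  exact_mod_cast h

/-- the zero set of `t ↦ D (t)` on the real line is negligible unless `D` vanishes identically -/
theorem ae_dr_ne {k c : ℝ} {s : Bool} {n : ℕ} {t₁ : ℝ} (h : dr k c s n t₁ ≠ 0) :
    volume {t : ℝ | dr k c s n t = 0} = 0 := by
  have hA : AnalyticOnNhd ℝ (fun t : ℝ => D k c s n (t : ℂ)) univ := by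
    intro t _
    have h1 : AnalyticAt ℂ (D k c s n) (t : ℂ) :=
      (differentiable_D k c s n).analyticAt _
    have h2 : AnalyticAt ℝ (D k c s n) (t : ℂ) := h1.restrictScalars
    exact h2.comp (Complex.ofRealCLM.analyticAt t)
  have hx : (fun t : ℝ => D k c s n (t : ℂ)) t₁ ≠ 0 := by
    simp only
    rw [← ofReal_dr]
    exact_mod_cast h
  have h3 := hA.preimage_zero_mem_codiscreteWithin hx (mem_univ t₁) isConnected_univ
  have h4 := ae_restrict_le_codiscreteWithin (μ := (volume : Measure ℝ)) MeasurableSet.univ h3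
  rw [Measure.restrict_univ] at h4
  have h5 : {t : ℝ | dr k c s n t = 0} ⊆ ((fun t : ℝ => D k c s n (t : ℂ)) ⁻¹' {0}ᶜ)ᶜ := by
    intro t ht
    simp only [mem_compl_iff, mem_preimage, mem_singleton_iff, not_not]
    rw [← ofReal_dr]
    have : dr k c s n t = 0 := ht
    rw [this]; simp
  exact measure_mono_null h5 h4

end Crest.Agent.R128.RABr
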