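import Crest.Agent.R128.RABr

set_option autoImplicit false

/-! Row 128, RA bridge (helper155), part 2: dictionary `Cell3 → Cell`. -/

open Metric MeasureTheory Set
open Crest.Agent.R128 Crest.Agent.R128.Cell Crest.Agent.R128.CellB
open Crest.Agent.R128.CellDy (kap sd)
open Crest.Agent.R128.Loc

namespace Crest.Agent.R128.RABr

open Crest.Agent.R128.RoughAsm (Vr nx dnx mvt uIcc_sub)

/-- affine coordinate: `S = τ R` -/
noncomputable def tx (m S xc x : ℝ) : ℝ := m + (x - xc) / S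

theorem hasDerivAt_tx (m S xc x : ℝ) : HasDerivAt (tx m S xc) (1 / S) x := by
  unfold tx
  have := (((hasDerivAt_id x).sub_const xc).div_const S).const_add m
  simpa using this

/-- digit in the affine coordinate -/
noncomputable def Pf (k c : ℝ) (s : Bool) (n : ℕ) (m S xc N x : ℝ) : ℝ :=
  yr k c s n (tx m S xc x) - N
/-- its derivative -/
noncomputable def dPf (k c : ℝ) (s : Bool) (n : ℕ) (m S xc x : ℝ) : ℝ :=
  sg s / S * dr k c s n (tx m S xc x)
/-- second derivative -/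
noncomputable def d2Pf (k c : ℝ) (s : Bool) (n : ℕ) (m S xc x : ℝ) : ℝ :=
  sg s / S * ((deriv (D k c s n) ((tx m S xc x : ℝ) : ℂ)).re * (1 / S))

theorem hasDerivAt_Pf (k c : ℝ) (s : Bool) (n : ℕ) (m S xc N x : ℝ) :
    HasDerivAt (Pf k c s n m S xc N) (dPf k c s n m S xc x) x := by
  have h := ((hasDerivAt_yr k c s n (tx m S xc x)).comp x (hasDerivAt_tx m S xc x)).sub_const N
  refine h.congr_deriv ?_
  unfold dPf
  ring

theorem hasDerivAt_dPf (k c : ℝ) (s : Bool) (n : ℕ) (m S xc x : ℝ) :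
    HasDerivAt (dPf k c s n m S xc) (d2Pf k c s n m S xc x) x := by
  have h := ((hasDerivAt_dr k c s n (tx m S xc x)).comp x (hasDerivAt_tx m S xc x)).const_mul
    (sg s / S)
  exact h

theorem Vr_sub_int (k u : ℝ) (N : ℤ) : Vr k (u - (N : ℝ)) = Vr k u := by
  unfold Vr
  have : 2 * Real.pi * (u - N) = 2 * Real.pi * u - N * (2 * Real.pi) := by ring
  rw [this, Real.cos_sub_int_mul_two_pi]

theorem nx_Pf (k c : ℝ) (s : Bool) (n : ℕ) (m S xc : ℝ) (N : ℤ) (x : ℝ) :
    nx k (Pf k c s (n + 1) m S xc N) (Pf k c s n m S xc 0) x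
      = yr k c s (n + 2) (tx m S xc x) - ((2 * N : ℤ) : ℝ) := by
  unfold nx Pf
  rw [yr_add_two]
  have : 2 * Real.pi * (yr k c s (n + 1) (tx m S xc x) - N)
    = 2 * Real.pi * yr k c s (n + 1) (tx m S xc x) - N * (2 * Real.pi) := by ring
  rw [this, Real.sin_sub_int_mul_two_pi]
  push_cast
  ring

theorem dnx_Pf (k c : ℝ) (s : Bool) (n : ℕ) (m S xc : ℝ) (N : ℤ) (x : ℝ) :
    dnx k (Pf k c s (n + 1) m S xc N) (dPf k c s (n + 1) m S xc) (dPf k c s n m S xc) x
      = dPf k c s (n + 2) m S xc x := by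
  unfold dnx Pf dPf
  rw [Vr_sub_int, dr_add_two]
  ring

/-- the fresh term -/
theorem T_dPf (k c : ℝ) (s : Bool) (n : ℕ) (m S xc : ℝ) (N : ℤ) (x : ℝ) (hS : S ≠ 0) :
    RoughAsm.T k (yr k c s (n + 1) (tx m S xc x) - (N : ℝ)) (dPf k c s (n + 1) m S xc x) (dPf k c s n m S xc x)
      = (2 * Real.pi * k * S ^ 2) * (1 / (dr k c s (n + 1) (tx m S xc x)
        * dr k c s (n + 2) (tx m S xc x))) := by
  unfold RoughAsm.T dPf
  rw [Vr_sub_int, dr_add_two]
  have h1 : sg s / S * dr k c s (n + 1) (tx m S xc x) * (Vr k (yr k c s (n + 1) (tx m S xc x))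
      * (sg s / S * dr k c s (n + 1) (tx m S xc x)) - sg s / S * dr k c s n (tx m S xc x))
      = (sg s * sg s) / S ^ 2 * (dr k c s (n + 1) (tx m S xc x)
        * (Vr k (yr k c s (n + 1) (tx m S xc x)) * dr k c s (n + 1) (tx m S xc x)
          - dr k c s n (tx m S xc x))) := by
    field_simp
  rw [h1, sg_sq]
  by_cases h0 : dr k c s (n + 1) (tx m S xc x)
        * (Vr k (yr k c s (n + 1) (tx m S xc x)) * dr k c s (n + 1) (tx m S xc x)
          - dr k c s n (tx m S xc x)) = 0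
  · rw [h0]; simp
  · field_simp

section cell
variable {k c : ℝ} {s : Bool} {n n' : ℕ} {m R lam C1 q0 q1 q2 : ℝ}

theorem tx_ball {σ xc x : ℝ} (hR : 1 ≤ R) (hσ : σ = 1 ∨ σ = -1) (hxc : xc ∈ Icc (1:ℝ) 2)
    (hx : x ∈ Icc (0:ℝ) 3) : |tx m (σ * R) xc x - m| ≤ 2 / R := by
  have hR0 : 0 < R := by linarith
  have h1 : tx m (σ * R) xc x - m = (x - xc) / (σ * R) := by unfold tx; ring
  have h2 : |σ * R| = R := by
    rw [abs_mul, abs_of_pos hR0]
    rcases hσ with h | h <;> rw [h] <;> simp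
  rw [h1, abs_div, h2]
  apply div_le_div_of_nonneg_right _ hR0.le
  rw [abs_le]
  constructor <;> linarith [hx.1, hx.2, hxc.1, hxc.2]

theorem mem_ball_of {t r : ℝ} (h : |t - m| < r) : (t : ℂ) ∈ ball (m : ℂ) r := by
  rw [mem_ball, dist_eq_norm, ← Complex.ofReal_sub, Complex.norm_real, Real.norm_eq_abs]
  exact h

/-- bounds of one side -/
theorem side_bounds {s : Bool} {n : ℕ} {v E : ℝ} (hR : 1 ≤ R) 
    (h1 : ∀ z ∈ ball (m : ℂ) (4 / R), ‖D k c s (n + 1) z - ((v * R : ℝ) : ℂ)‖ ≤ E * R)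
    {t : ℝ} (ht : |t - m| ≤ 2 / R) :
    |dr k c s (n + 1) t - v * R| ≤ E * R ∧ |(deriv (D k c s (n + 1)) (t : ℂ)).re| ≤ E * R ^ 2 := by
  have hR0 : 0 < R := by linarith
  have hlt : 2 / R < 4 / R := div_lt_div_of_pos_right (by norm_num) hR0
  constructor
  · have h := h1 (t : ℂ) (mem_ball_of (lt_of_le_of_lt ht hlt))
    rw [← ofReal_dr, ← Complex.ofReal_sub, Complex.norm_real, Real.norm_eq_abs] at h
    exact h
  · refine (Complex.abs_re_le_norm _).trans ?_
    have hsub : closedBall (t : ℂ) (1 / R) ⊆ ball (m : ℂ) (4 / R) := by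
      intro z hz
      rw [mem_closedBall, dist_eq_norm] at hz
      rw [mem_ball, dist_eq_norm]
      have e1 : z - m = (z - t) + ((t - m : ℝ) : ℂ) := by push_cast; ring
      rw [e1]
      have e2 : ‖((t - m : ℝ) : ℂ)‖ ≤ 2 / R := by
        rw [Complex.norm_real, Real.norm_eq_abs]; exact ht
      have e3 : 1 / R + 2 / R < 4 / R := by
        rw [← add_div]
        exact div_lt_div_of_pos_right (by norm_num) hR0
      exact lt_of_le_of_lt ((norm_add_le _ _).trans (add_le_add hz e2)) e3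
    have hd : DiffContOnCl ℂ (fun z => D k c s (n + 1) z - ((v * R : ℝ) : ℂ)) (ball (t : ℂ) (1 / R)) :=
      ((differentiable_D k c s (n + 1)).sub_const _).diffContOnCl
    have h2 := Complex.norm_deriv_le_of_forall_mem_sphere_norm_le (by positivity : 0 < 1 / R) hd
      (C := E * R) (fun z hz => h1 z (hsub (sphere_subset_closedBall hz)))
    rw [deriv_sub_const] at h2
    refine h2.trans (le_of_eq ?_)
    field_simp

end cell

end Crest.Agent.R128.RABr
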