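import Crest.Agent.R128.LocDef

/-!
# Row 128, node V5-RA (helper793): the zeros of `D` on the real line are null
-/

set_option autoImplicit false

open Metric MeasureTheory Set Filter
open Crest.Agent.R128 Crest.Agent.R128.Cell Crest.Agent.R128.CellB Crest.Agent.R128.CellDy
open Crest.Agent.R128.Loc

namespace Crest.Agent.R128.RANull

theorem y_add_one (k : ℝ) (c : ℂ) (z : ℂ) : ∀ n, y k c n (z + 1) = y k c n z + n ∧
    y k c (n + 1) (z + 1) = y k c (n + 1) z + ((n + 1 : ℕ) : ℂ) := by
  intro n
  induction n with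
  | zero => simp
  | succ n ih =>
    refine ⟨ih.2, ?_⟩
    rw [y_add_two, y_add_two, ih.1, ih.2]
    have h : Complex.sin (2 * Real.pi * (y k c (n + 1) z + ((n + 1 : ℕ) : ℂ))) =
        Complex.sin (2 * Real.pi * y k c (n + 1) z) := by
      have e : 2 * (Real.pi : ℂ) * (y k c (n + 1) z + ((n + 1 : ℕ) : ℂ)) =
          2 * Real.pi * y k c (n + 1) z + ((n + 1 : ℕ) : ℂ) * (2 * Real.pi) := by ring
      rw [e, Complex.sin_add_nat_mul_two_pi]
    rw [h]
    push_cast
    ring

theorem differentiable_D (k c : ℝ) (s : Bool) (n : ℕ) : Differentiable ℂ (D k c s n) := by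
  cases s with
  | true =>
    have hY : Differentiable ℂ (Y k c true n) := fun z => (hasDerivAt_Y_true k c n z).differentiableAt
    have h : D k c true n = deriv (Y k c true n) := by
      funext z; exact (hasDerivAt_Y_true k c n z).deriv.symm
    rw [h]
    intro z
    exact (hY.analyticAt z).deriv.differentiableAt
  | false =>
    have hY : Differentiable ℂ (Y k c false n) := fun z => (hasDerivAt_Y_false k c n z).differentiableAt
    have h : D k c false n = fun z => -(deriv (Y k c false n) z) := by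
      funext z; rw [(hasDerivAt_Y_false k c n z).deriv]; ring
    rw [h]
    intro z
    exact (hY.analyticAt z).deriv.differentiableAt.neg

theorem exists_D_ne (k c : ℝ) (s : Bool) {n : ℕ} (hn : 1 ≤ n) : ∃ t : ℝ, D k c s n (t : ℂ) ≠ 0 := by
  by_contra hcon
  push Not at hcon
  have hY : ∀ t : ℝ, HasDerivAt (fun t : ℝ => Y k c s n (t : ℂ)) 0 t := by
    intro t
    cases s with
    | true =>
      have h := (hasDerivAt_Y_true k c n (t : ℂ)).comp_ofReal
      rw [hcon t] at h
      exact h
    | false =>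
      have h := (hasDerivAt_Y_false k c n (t : ℂ)).comp_ofReal
      rw [hcon t, neg_zero] at h
      exact h
  have hc := is_const_of_deriv_eq_zero (f := fun t : ℝ => Y k c s n (t : ℂ))
    (fun t => (hY t).differentiableAt) (fun t => (hY t).deriv) 0 1
  have hn0 : (n : ℂ) ≠ 0 := by
    have : (n : ℂ) ≠ ((0 : ℕ) : ℂ) := by exact_mod_cast (by omega : n ≠ 0)
    simpa using this
  cases s with
  | true =>
    have h := (y_add_one k c 0 n).1
    simp only [Y, sdC, if_true] at hc
    rw [Complex.ofReal_zero, Complex.ofReal_one] at hc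
    rw [zero_add] at h
    rw [h] at hc
    exact hn0 (by linear_combination -hc)
  | false =>
    have h := (y_add_one k c ((kap k c : ℂ) - 1) n).1
    simp only [Y, sdC] at hc
    rw [Complex.ofReal_zero, Complex.ofReal_one] at hc
    simp only [Bool.false_eq_true, if_false, sub_zero] at hc
    rw [sub_add_cancel] at h
    rw [h] at hc
    exact hn0 (by linear_combination hc)

theorem ae_D_ne (k c : ℝ) (s : Bool) {n : ℕ} (hn : 1 ≤ n) :
    ∀ᵐ t : ℝ, D k c s n (t : ℂ) ≠ 0 := by
  obtain ⟨t0, ht0⟩ := exists_D_ne k c s hn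
  have han : AnalyticOnNhd ℝ (fun t : ℝ => D k c s n (t : ℂ)) univ := by
    intro t _
    have h1 : AnalyticAt ℂ (D k c s n) (t : ℂ) := (differentiable_D k c s n).analyticAt _
    exact (h1.restrictScalars (𝕜 := ℝ)).comp (Complex.ofRealCLM.analyticAt t)
  have h := han.preimage_zero_mem_codiscrete ht0
  have h2 := ae_restrict_le_codiscreteWithin (μ := (volume : Measure ℝ)) MeasurableSet.univ h
  rw [Measure.restrict_univ] at h2
  exact h2

theorem null_D (k c : ℝ) (s : Bool) {n : ℕ} (hn : 1 ≤ n) :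
    volume {t : ℝ | D k c s n (t : ℂ) = 0} = 0 := by
  have h := ae_D_ne k c s hn
  rw [ae_iff] at h
  simpa using h

/-- enlarging a set by the four zero sets does not change the measure -/
theorem volume_le_of_subset_off (k c : ℝ) (s : Bool) (n n' : ℕ) {A B : Set ℝ}
    (h : ∀ t ∈ A, D k c s (n + 1) (t : ℂ) ≠ 0 → D k c s (n + 2) (t : ℂ) ≠ 0 →
      D k c s (n + 3) (t : ℂ) ≠ 0 → D k c (!s) (n' + 1) (t : ℂ) ≠ 0 →
      D k c (!s) (n' + 2) (t : ℂ) ≠ 0 → D k c (!s) (n' + 3) (t : ℂ) ≠ 0 → t ∈ B) :
    volume A ≤ volume B := by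
  refine measure_mono_ae ?_
  filter_upwards [ae_D_ne k c s (n := n + 1) (by omega), ae_D_ne k c s (n := n + 2) (by omega),
    ae_D_ne k c s (n := n + 3) (by omega), ae_D_ne k c (!s) (n := n' + 1) (by omega),
    ae_D_ne k c (!s) (n := n' + 2) (by omega), ae_D_ne k c (!s) (n := n' + 3) (by omega)]
    with t h1 h2 h3 h4 h5 h6 ht
  exact h t ht h1 h2 h3 h4 h5 h6

end Crest.Agent.R128.RANull
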