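import Crest.Agent.R128.RABr2
import Crest.Agent.R128.RANull

set_option autoImplicit false

/-! Row 128, RA bridge (helper155), part 3: `Cell3 → Cell`, identities for `F1`, `F2`. -/

open Metric MeasureTheory Set
open Crest.Agent.R128 Crest.Agent.R128.Cell Crest.Agent.R128.CellB
open Crest.Agent.R128.CellDy (kap sd)
open Crest.Agent.R128.Loc

namespace Crest.Agent.R128.RABr

open Crest.Agent.R128.RoughAsm (Vr nx dnx mvt uIcc_sub)

/-- old content in the affine coordinate -/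
noncomputable def f0 (k c : ℝ) (s : Bool) (n n' : ℕ) (m S xc x : ℝ) : ℝ :=
  -(2 * Real.pi * k * S ^ 2) * cr k c s (n + 1) (n' + 1) (tx m S xc x)

/-- `F1` of the cell -/
noncomputable def F1c (k c : ℝ) (s : Bool) (n n' : ℕ) (m S xc : ℝ) (N : ℤ) : ℝ → ℝ :=
  RoughAsm.F1 k (f0 k c s n n' m S xc) (Pf k c s (n + 1) m S xc (N : ℝ)) (dPf k c s (n + 1) m S xc)
    (dPf k c s n m S xc) (Pf k c (!s) (n' + 1) m S xc ((0 : ℤ) : ℝ)) (dPf k c (!s) (n' + 1) m S xc)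
    (dPf k c (!s) n' m S xc)

theorem F1c_eq {k c : ℝ} {s : Bool} {n n' : ℕ} {m S xc : ℝ} {N : ℤ} (hS : S ≠ 0) (x : ℝ) :
    F1c k c s n n' m S xc N x = -(2 * Real.pi * k * S ^ 2) * (cr k c s (n + 1) (n' + 1) (tx m S xc x)
      - 1 / (dr k c s (n + 1) (tx m S xc x) * dr k c s (n + 2) (tx m S xc x))
      - 1 / (dr k c (!s) (n' + 1) (tx m S xc x) * dr k c (!s) (n' + 2) (tx m S xc x))) := by
  have h1 := T_dPf k c s n m S xc N x hS
  have h2 := T_dPf k c (!s) n' m S xc 0 x hS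
  unfold F1c RoughAsm.F1
  have e1 : Pf k c s (n + 1) m S xc (N : ℝ) x = yr k c s (n + 1) (tx m S xc x) - (N : ℝ) := rfl
  have e2 : Pf k c (!s) (n' + 1) m S xc ((0 : ℤ) : ℝ) x
    = yr k c (!s) (n' + 1) (tx m S xc x) - ((0 : ℤ) : ℝ) := rfl
  rw [e1, e2, h1, h2]
  unfold f0
  ring

theorem F1c_cont {k c : ℝ} {s : Bool} {n n' : ℕ} {m S xc : ℝ} {N : ℤ} (hS : S ≠ 0) {x : ℝ}
    (h1 : dr k c s (n + 1) (tx m S xc x) ≠ 0) (h2 : dr k c s (n + 2) (tx m S xc x) ≠ 0)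
    (h1' : dr k c (!s) (n' + 1) (tx m S xc x) ≠ 0)
    (h2' : dr k c (!s) (n' + 2) (tx m S xc x) ≠ 0) :
    F1c k c s n n' m S xc N x
      = -(2 * Real.pi * k * S ^ 2) * cr k c s (n + 2) (n' + 2) (tx m S xc x) := by
  rw [F1c_eq hS, cr_step (n := n + 1) (n' := n' + 1) h1 h2 h1' h2']

/-- `F2` of the cell -/
noncomputable def F2c (k c : ℝ) (s : Bool) (n n' : ℕ) (m S xc : ℝ) (N : ℤ) : ℝ → ℝ :=
  RoughAsm.F2 k (F1c k c s n n' m S xc N) (Pf k c s (n + 1) m S xc (N : ℝ)) (Pf k c s n m S xc 0)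
    (dPf k c s (n + 1) m S xc)
    (dPf k c s n m S xc) (Pf k c (!s) (n' + 1) m S xc ((0 : ℤ) : ℝ)) (Pf k c (!s) n' m S xc 0)
    (dPf k c (!s) (n' + 1) m S xc) (dPf k c (!s) n' m S xc)

theorem F2c_cont {k c : ℝ} {s : Bool} {n n' : ℕ} {m S xc : ℝ} {N : ℤ} (hS : S ≠ 0) {x : ℝ}
    (h1 : dr k c s (n + 1) (tx m S xc x) ≠ 0) (h2 : dr k c s (n + 2) (tx m S xc x) ≠ 0)
    (h3 : dr k c s (n + 3) (tx m S xc x) ≠ 0)
    (h1' : dr k c (!s) (n' + 1) (tx m S xc x) ≠ 0)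
    (h2' : dr k c (!s) (n' + 2) (tx m S xc x) ≠ 0)
    (h3' : dr k c (!s) (n' + 3) (tx m S xc x) ≠ 0) :
    F2c k c s n n' m S xc N x
      = -(2 * Real.pi * k * S ^ 2) * cr k c s (n + 3) (n' + 3) (tx m S xc x) := by
  unfold F2c RoughAsm.F2
  rw [F1c_cont hS h1 h2 h1' h2', nx_Pf, nx_Pf, dnx_Pf, dnx_Pf]
  have e1 := T_dPf k c s (n + 1) m S xc (2 * N) x hS
  have e2 := T_dPf k c (!s) (n' + 1) m S xc (2 * 0) x hS
  rw [e1, e2, cr_step (n := n + 2) (n' := n' + 2) h2 h3 h2' h3']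
  ring

/-- the dead set of `RoughAsm` is contained in the dead set of `RA`, off the zeros -/
theorem dead_sub {k c : ℝ} {s : Bool} {n n' : ℕ} {m R S xc : ℝ} {N : ℤ} (hk : 0 < k)
    (hS : |S| = R) (hR : 0 < R) {x : ℝ}
    (h1 : dr k c s (n + 1) (tx m S xc x) ≠ 0) (h2 : dr k c s (n + 2) (tx m S xc x) ≠ 0)
    (h3 : dr k c s (n + 3) (tx m S xc x) ≠ 0)
    (h1' : dr k c (!s) (n' + 1) (tx m S xc x) ≠ 0)
    (h2' : dr k c (!s) (n' + 2) (tx m S xc x) ≠ 0)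
    (h3' : dr k c (!s) (n' + 3) (tx m S xc x) ≠ 0)
    (hdead : 1 / 4 < |F1c k c s n n' m S xc N x| ∨
      RoughAsm.dead2 k (F1c k c s n n' m S xc N) (Pf k c s (n + 1) m S xc (N : ℝ))
        (Pf k c s n m S xc 0) (dPf k c s (n + 1) m S xc)
        (dPf k c s n m S xc) (Pf k c (!s) (n' + 1) m S xc ((0 : ℤ) : ℝ)) (Pf k c (!s) n' m S xc 0)
        (dPf k c (!s) (n' + 1) m S xc) (dPf k c (!s) n' m S xc) x) :
    1 / 4 < (2 * Real.pi * k * R ^ 2) * ‖cont k c s (n + 2) (n' + 2) (tx m S xc x : ℝ)‖ ∨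
    1 / 4 < (2 * Real.pi * k * (min ‖D k c s (n + 2) (tx m S xc x : ℝ)‖
      ‖D k c (!s) (n' + 2) (tx m S xc x : ℝ)‖) ^ 2) *
            ‖cont k c s (n + 3) (n' + 3) (tx m S xc x : ℝ)‖ := by
  have hS0 : S ≠ 0 := by
    intro h
    rw [h, abs_zero] at hS
    linarith
  have hS2 : S ^ 2 = R ^ 2 := by rw [← sq_abs, hS]
  have hpi := Real.pi_pos
  rcases hdead with hd | hd
  · left
    rw [F1c_cont hS0 h1 h2 h1' h2', abs_mul, abs_neg, hS2,
      abs_of_pos (by positivity : 0 < 2 * Real.pi * k * R ^ 2)] at hd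
    rw [norm_cont]
    exact hd
  · right
    unfold RoughAsm.dead2 at hd
    have e0 : RoughAsm.F2 k (F1c k c s n n' m S xc N) (Pf k c s (n + 1) m S xc (N : ℝ))
        (Pf k c s n m S xc 0) (dPf k c s (n + 1) m S xc)
        (dPf k c s n m S xc) (Pf k c (!s) (n' + 1) m S xc ((0 : ℤ) : ℝ)) (Pf k c (!s) n' m S xc 0)
        (dPf k c (!s) (n' + 1) m S xc) (dPf k c (!s) n' m S xc) x
        = F2c k c s n n' m S xc N x := rfl
    rw [e0, F2c_cont hS0 h1 h2 h3 h1' h2' h3', dnx_Pf, dnx_Pf, abs_mul, abs_neg, hS2,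
      abs_of_pos (by positivity : 0 < 2 * Real.pi * k * R ^ 2)] at hd
    rw [norm_cont, norm_D, norm_D]
    have hsq : ∀ (s' : Bool) (j : ℕ), dPf k c s' j m S xc x ^ 2
        = |dr k c s' j (tx m S xc x)| ^ 2 / R ^ 2 := by
      intro s' j
      unfold dPf
      rw [sq_abs, mul_pow, div_pow, hS2]
      have : sg s' ^ 2 = 1 := by rw [sq, sg_sq]
      rw [this]
      ring
    rw [hsq, hsq] at hd
    have hmin : min (|dr k c s (n + 2) (tx m S xc x)| ^ 2 / R ^ 2)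
        (|dr k c (!s) (n' + 2) (tx m S xc x)| ^ 2 / R ^ 2)
        ≤ (min |dr k c s (n + 2) (tx m S xc x)| |dr k c (!s) (n' + 2) (tx m S xc x)|) ^ 2 / R ^ 2 := by
      rcases le_total |dr k c s (n + 2) (tx m S xc x)| |dr k c (!s) (n' + 2) (tx m S xc x)| with h | h
      · rw [min_eq_left h]; exact min_le_left _ _
      · rw [min_eq_right h]; exact min_le_right _ _
    refine lt_of_lt_of_le hd ?_
    calc 2 * Real.pi * k * R ^ 2 * |cr k c s (n + 3) (n' + 3) (tx m S xc x)| *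
          min (|dr k c s (n + 2) (tx m S xc x)| ^ 2 / R ^ 2)
          (|dr k c (!s) (n' + 2) (tx m S xc x)| ^ 2 / R ^ 2)
        ≤ 2 * Real.pi * k * R ^ 2 * |cr k c s (n + 3) (n' + 3) (tx m S xc x)| *
          ((min |dr k c s (n + 2) (tx m S xc x)| |dr k c (!s) (n' + 2) (tx m S xc x)|) ^ 2 / R ^ 2) :=
          mul_le_mul_of_nonneg_left hmin (by positivity)
      _ = _ := by
          field_simp

section cell
variable {k c : ℝ} {s : Bool} {n n' : ℕ} {m R lam C1 q0 q1 q2 : ℝ}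

/-- data extracted from a `Cell3` -/
theorem extract (h : Cell3 k c s n n' m R lam C1 q0 q1 q2) (hk : 0 < k) :
    ∃ σ : ℝ, (σ = 1 ∨ σ = -1) ∧
    (∀ z ∈ ball (m : ℂ) (4 / R), ‖D k c s (n + 1) z - ((σ * R : ℝ) : ℂ)‖ ≤ (max C1 1 / k) * R) ∧
    (∀ z ∈ ball (m : ℂ) (4 / R), ‖D k c s n z‖ ≤ (max C1 1 / k) * R) ∧
    (∀ z ∈ ball (m : ℂ) (4 / R), ‖D k c (!s) (n' + 1) z - ((lam * R : ℝ) : ℂ)‖
      ≤ (max C1 1 * |lam| ^ 2 / k) * R) ∧
    (∀ z ∈ ball (m : ℂ) (4 / R), ‖D k c (!s) n' z‖ ≤ (max C1 1 * |lam| / k) * R) := by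
  obtain ⟨σ, hσ, hs⟩ := h.slow
  have hR0 : 0 < R := lt_of_lt_of_le one_pos h.hR
  have hC : C1 ≤ max C1 1 := le_max_left _ _
  refine ⟨σ, hσ, fun z hz => (hs z hz).trans ?_, fun z hz => (h.slow0 z hz).trans ?_,
    fun z hz => (h.fast z hz).trans ?_, fun z hz => (h.fast0 z hz).trans ?_⟩
  · rw [div_mul_eq_mul_div]
    apply div_le_div_of_nonneg_right _ hk.le
    exact mul_le_mul_of_nonneg_right hC hR0.le
  · rw [div_mul_eq_mul_div]
    apply div_le_div_of_nonneg_right _ hk.le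
    exact mul_le_mul_of_nonneg_right hC hR0.le
  · rw [div_mul_eq_mul_div]
    apply div_le_div_of_nonneg_right _ hk.le
    exact mul_le_mul_of_nonneg_right (mul_le_mul_of_nonneg_right hC (by positivity)) hR0.le
  · rw [div_mul_eq_mul_div]
    apply div_le_div_of_nonneg_right _ hk.le
    exact mul_le_mul_of_nonneg_right (mul_le_mul_of_nonneg_right hC (by positivity)) hR0.le

/-- bounds of one side in the affine coordinate -/
theorem side_aff {s' : Bool} {j : ℕ} {v E τ xc : ℝ} (hR : 1 ≤ R) (hτ : τ = 1 ∨ τ = -1)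
    (hxc : xc ∈ Icc (1:ℝ) 2)
    (h1 : ∀ z ∈ ball (m : ℂ) (4 / R), ‖D k c s' (j + 1) z - ((v * R : ℝ) : ℂ)‖ ≤ E * R)
    {x : ℝ} (hx : x ∈ Icc (0:ℝ) 3) :
    |dPf k c s' (j + 1) m (τ * R) xc x - sg s' * τ * v| ≤ E ∧
      |d2Pf k c s' (j + 1) m (τ * R) xc x| ≤ E := by
  have hR0 : 0 < R := by linarith
  have hb := side_bounds hR h1 (tx_ball (m := m) hR hτ hxc hx)
  have hτ1 : |τ| = 1 := by rcases hτ with h | h <;> rw [h] <;> simp
  have hττ : τ * τ = 1 := by rcases hτ with h | h <;> rw [h] <;> norm_num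
  have hτ0 : τ ≠ 0 := by rcases hτ with h | h <;> rw [h] <;> norm_num
  constructor
  · have e : dPf k c s' (j + 1) m (τ * R) xc x - sg s' * τ * v
        = sg s' * τ / R * (dr k c s' (j + 1) (tx m (τ * R) xc x) - v * R) := by
      unfold dPf
      have : sg s' / (τ * R) = sg s' * τ / R := by
        rw [div_eq_div_iff (by positivity) hR0.ne']
        linear_combination (-sg s' * R) * hττ
      rw [this]
      field_simp
    rw [e, abs_mul, abs_div, abs_mul, sg_abs, hτ1, abs_of_pos hR0, one_mul, one_div,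
      inv_mul_le_iff₀ hR0]
    linarith [hb.1]
  · unfold d2Pf
    rw [abs_mul, abs_mul, abs_div, abs_div, abs_mul, sg_abs, hτ1, abs_of_pos hR0, abs_one]
    have e : 1 / (1 * R) * (|(deriv (D k c s' (j + 1)) ((tx m (τ * R) xc x : ℝ) : ℂ)).re| * (1 / (1 * R)))
      = |(deriv (D k c s' (j + 1)) ((tx m (τ * R) xc x : ℝ) : ℂ)).re| / R ^ 2 := by
      field_simp
    rw [e, div_le_iff₀ (by positivity)]
    exact hb.2

theorem side_aff0 {s' : Bool} {j : ℕ} {E τ xc : ℝ} (hR : 1 ≤ R) (hτ : τ = 1 ∨ τ = -1)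
    (hxc : xc ∈ Icc (1:ℝ) 2)
    (h1 : ∀ z ∈ ball (m : ℂ) (4 / R), ‖D k c s' j z‖ ≤ E * R)
    {x : ℝ} (hx : x ∈ Icc (0:ℝ) 3) :
    |dPf k c s' j m (τ * R) xc x| ≤ E := by
  have hR0 : 0 < R := by linarith
  have hτ1 : |τ| = 1 := by rcases hτ with h | h <;> rw [h] <;> simp
  have hlt : 2 / R < 4 / R := div_lt_div_of_pos_right (by norm_num) hR0
  have h := h1 _ (mem_ball_of (lt_of_le_of_lt (tx_ball (m := m) hR hτ hxc hx) hlt))
  rw [norm_D] at h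
  unfold dPf
  rw [abs_mul, abs_div, abs_mul, sg_abs, hτ1, abs_of_pos hR0, one_mul, one_div, inv_mul_le_iff₀ hR0]
  linarith

end cell

end Crest.Agent.R128.RABr
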