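import Crest.Agent.R128.LocDef

/-!
Row 128 (helper189): elementary lemmas on the objects of `LocDef`: recursion, conjugation symmetry,
real values, differentiability of `Y`, `D`, `mu`, `cont`.
-/

set_option autoImplicit false

open Metric MeasureTheory
open Crest.Agent.R128 Crest.Agent.R128.Cell Crest.Agent.R128.CellB Crest.Agent.R128.CellDy
open Crest.Agent.R128.Loc

namespace Crest.Agent.R128.RALem

/-! ### recursion and conjugation -/

theorem D_add_two (k c : ℝ) (s : Bool) (n : ℕ) (z : ℂ) :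
    D k c s (n + 2) z = dg k c s z (n + 1) * D k c s (n + 1) z - D k c s n z := by
  unfold D dg Y
  rw [yd_add_two]

theorem cont_swap (k c : ℝ) (s : Bool) (n n' : ℕ) (z : ℂ) :
    cont k c (!s) n' n z = cont k c s n n' z := by
  unfold cont
  rw [Bool.not_not]
  ring

theorem cont_succ {k c : ℝ} {s : Bool} {n n' : ℕ} {z : ℂ}
    (h1 : D k c s n z ≠ 0) (h2 : D k c s (n + 1) z ≠ 0)
    (h3 : D k c (!s) n' z ≠ 0) (h4 : D k c (!s) (n' + 1) z ≠ 0) :
    cont k c s (n + 1) (n' + 1) z = cont k c s n n' z - 1 / (D k c s n z * D k c s (n + 1) z)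
      - 1 / (D k c (!s) n' z * D k c (!s) (n' + 1) z) := by
  have e1 := Align.mu_succ_sub (a := dg k c s z) (n := n) (by rwa [Q_dg]) (by rwa [Q_dg])
  have e2 := Align.mu_succ_sub (a := dg k c (!s) z) (n := n') (by rwa [Q_dg]) (by rwa [Q_dg])
  rw [Q_dg, Q_dg] at e1 e2
  unfold cont mu
  rw [← e1, ← e2]
  ring

theorem sol_conj (a : ℕ → ℂ) (u v : ℂ) (n : ℕ) :
    Align.sol (fun i => (starRingEnd ℂ) (a i)) ((starRingEnd ℂ) u) ((starRingEnd ℂ) v) n =
      (starRingEnd ℂ) (Align.sol a u v n) := by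
  induction n using Nat.strong_induction_on with
  | _ n ih =>
    match n with
    | 0 => rfl
    | 1 => rfl
    | n + 2 =>
      rw [Align.sol_add_two, Align.sol_add_two, ih (n + 1) (by omega), ih n (by omega), map_sub,
        map_mul]

theorem amu_conj (a : ℕ → ℂ) (n : ℕ) :
    Align.mu (fun i => (starRingEnd ℂ) (a i)) n = (starRingEnd ℂ) (Align.mu a n) := by
  unfold Align.mu Align.P Align.Q
  have h1 := sol_conj a 1 0 n
  have h2 := sol_conj a 0 1 n
  rw [map_one, map_zero] at h1 h2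
  rw [h1, h2, map_div₀, map_neg]

theorem cV_conj (k : ℝ) (w : ℂ) : cV k ((starRingEnd ℂ) w) = (starRingEnd ℂ) (cV k w) := by
  have h2 : (starRingEnd ℂ) (2 : ℂ) = 2 := map_ofNat _ 2
  unfold cV
  have e : (2 * (Real.pi : ℂ) * (starRingEnd ℂ) w) = (starRingEnd ℂ) (2 * Real.pi * w) := by
    rw [map_mul, map_mul, h2, Complex.conj_ofReal]
  rw [e, Complex.cos_conj, map_add, map_mul, map_mul, map_mul, h2, Complex.conj_ofReal,
    Complex.conj_ofReal]

theorem sdC_conj (k c : ℝ) (s : Bool) (z : ℂ) :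
    sdC k c s ((starRingEnd ℂ) z) = (starRingEnd ℂ) (sdC k c s z) := by
  unfold sdC
  cases s <;> simp

theorem Y_conj (k c : ℝ) (s : Bool) (n : ℕ) (z : ℂ) :
    Y k c s n ((starRingEnd ℂ) z) = (starRingEnd ℂ) (Y k c s n z) := by
  unfold Y
  rw [sdC_conj, y_conj]

theorem dg_conj (k c : ℝ) (s : Bool) (z : ℂ) :
    dg k c s ((starRingEnd ℂ) z) = fun i => (starRingEnd ℂ) (dg k c s z i) := by
  funext i
  unfold dg
  rw [Y_conj, cV_conj]

theorem mu_conj (k c : ℝ) (s : Bool) (n : ℕ) (z : ℂ) :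
    mu k c s n ((starRingEnd ℂ) z) = (starRingEnd ℂ) (mu k c s n z) := by
  unfold mu
  rw [dg_conj, amu_conj]

theorem cont_conj (k c : ℝ) (s : Bool) (n n' : ℕ) (z : ℂ) :
    cont k c s n n' ((starRingEnd ℂ) z) = (starRingEnd ℂ) (cont k c s n n' z) := by
  unfold cont
  rw [mu_conj, mu_conj, map_sub, map_sub, ← cV_conj]
  simp

/-! ### differentiability -/

theorem differentiable_Y (k c : ℝ) (s : Bool) (n : ℕ) : Differentiable ℂ (Y k c s n) := by
  cases s
  · exact fun z => (hasDerivAt_Y_false k c n z).differentiableAt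
  · exact fun z => (hasDerivAt_Y_true k c n z).differentiableAt

theorem differentiable_dg (k c : ℝ) (s : Bool) (n : ℕ) :
    Differentiable ℂ (fun z => dg k c s z n) := by
  intro z
  unfold dg
  exact (hasDerivAt_cV k (Y k c s n z)).differentiableAt.comp z (differentiable_Y k c s n z)

theorem differentiable_sol (k c : ℝ) (s : Bool) (u v : ℂ) (n : ℕ) :
    Differentiable ℂ (fun z => Align.sol (dg k c s z) u v n) := by
  induction n using Nat.strong_induction_on with
  | _ n ih =>
    match n with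
    | 0 => exact differentiable_const u
    | 1 => exact differentiable_const v
    | n + 2 =>
      have h : (fun z => Align.sol (dg k c s z) u v (n + 2)) = fun z =>
          dg k c s z (n + 1) * Align.sol (dg k c s z) u v (n + 1) -
            Align.sol (dg k c s z) u v n := by
        funext z
        rw [Align.sol_add_two]
      rw [h]
      exact ((differentiable_dg k c s (n + 1)).mul (ih (n + 1) (by omega))).sub
        (ih n (by omega))

theorem differentiableAt_mu {k c : ℝ} {s : Bool} {n : ℕ} {z : ℂ} (h : D k c s n z ≠ 0) :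
    DifferentiableAt ℂ (mu k c s n) z := by
  unfold mu Align.mu Align.P Align.Q
  refine DifferentiableAt.div ?_ ?_ ?_
  · exact (differentiable_sol k c s 1 0 n z).neg
  · exact differentiable_sol k c s 0 1 n z
  · have := Q_dg k c s z n
    unfold Align.Q at this
    rwa [this]

theorem differentiableAt_cont {k c : ℝ} {s : Bool} {n n' : ℕ} {z : ℂ} (h : D k c s n z ≠ 0)
    (h' : D k c (!s) n' z ≠ 0) : DifferentiableAt ℂ (cont k c s n n') z := by
  unfold cont
  exact ((differentiableAt_const _).sub (differentiableAt_mu h)).sub (differentiableAt_mu h')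

/-- real values -/
theorem D_real (k c : ℝ) (s : Bool) (n : ℕ) (t : ℝ) :
    D k c s n (t : ℂ) = (((D k c s n (t : ℂ)).re : ℝ) : ℂ) := by
  have h : ∃ u : ℝ, sdC k c s (t : ℂ) = (u : ℂ) := by
    cases s
    · exact ⟨kap k c - t, by simp [sdC]⟩
    · exact ⟨t, by simp [sdC]⟩
  obtain ⟨u, hu⟩ := h
  unfold D
  rw [hu, yd_ofReal]
  simp

theorem hasDerivAt_Y (k c : ℝ) (s : Bool) (n : ℕ) (z : ℂ) :
    ∃ d : ℂ, ‖d‖ = ‖D k c s n z‖ ∧ HasDerivAt (Y k c s n) d z := by
  cases s
  · exact ⟨-(D k c false n z), by rw [norm_neg], hasDerivAt_Y_false k c n z⟩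
  · exact ⟨D k c true n z, rfl, hasDerivAt_Y_true k c n z⟩

theorem im_Y (k c : ℝ) (s : Bool) (n : ℕ) (t : ℝ) : (Y k c s n (t : ℂ)).im = 0 := by
  have h : ∃ u : ℝ, sdC k c s (t : ℂ) = (u : ℂ) := by
    cases s
    · exact ⟨kap k c - t, by simp [sdC]⟩
    · exact ⟨t, by simp [sdC]⟩
  obtain ⟨u, hu⟩ := h
  unfold Y
  rw [hu, im_y_ofReal]

/-- `D` at real points is real -/
theorem im_D (k c : ℝ) (s : Bool) (n : ℕ) (t : ℝ) : (D k c s n (t : ℂ)).im = 0 := by
  rw [D_real, Complex.ofReal_im]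

/-- `cont` at real points is real -/
theorem im_cont (k c : ℝ) (s : Bool) (n n' : ℕ) (t : ℝ) : (cont k c s n n' (t : ℂ)).im = 0 := by
  have h := cont_conj k c s n n' (t : ℂ)
  rw [Complex.conj_ofReal] at h
  exact Complex.conj_eq_iff_im.mp h.symm

/-- `mu` at real points is real -/
theorem im_mu (k c : ℝ) (s : Bool) (n : ℕ) (t : ℝ) : (mu k c s n (t : ℂ)).im = 0 := by
  have h := mu_conj k c s n (t : ℂ)
  rw [Complex.conj_ofReal] at h
  exact Complex.conj_eq_iff_im.mp h.symm

theorem differentiable_D (k c : ℝ) (s : Bool) (n : ℕ) : Differentiable ℂ (D k c s n) := by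
  have h : D k c s n = fun z => Align.sol (dg k c s z) 0 1 n := by
    funext z
    rw [← Q_dg]
    rfl
  rw [h]
  exact differentiable_sol k c s 0 1 n

end Crest.Agent.R128.RALem
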