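import Crest.Agent.R128.LocDef
import Crest.Agent.R128.RALevel
import Crest.Agent.R128.RABroken
import Crest.Agent.R128.RAStep
import Crest.Agent.R128.RALem
import Crest.Agent.R128.RoughAsmX

/-!
# Row 128, node V5-LOC / RA: final assembly (helper117)

level 1: dead mass or mirror (`RALevel.level`); mirror gives a set of positive measure of points
where both exit digits are not critical and the exit digits one level later are not mirror images
(`RABroken.broken'`); at each such point the next level is a `Cell3` (`RAStep.step`), and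
`RALevel.level` there gives dead mass; `vitali_lower` sums up.
-/

set_option autoImplicit false

open Metric MeasureTheory Set
open Crest.Agent.R128 Crest.Agent.R128.Cell Crest.Agent.R128.CellB Crest.Agent.R128.Loc

namespace Crest.Agent.R128.RAEnd117

theorem norm_cos_re (k c : ℝ) (s : Bool) (n : ℕ) (t : ℝ) :
    ‖Complex.cos (2 * Real.pi * Y k c s n (t : ℂ))‖ =
      |Real.cos (2 * Real.pi * (Y k c s n (t : ℂ)).re)| := by
  have h : Y k c s n (t : ℂ) = (((Y k c s n (t : ℂ)).re : ℝ) : ℂ) := by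
    apply Complex.ext
    · simp
    · rw [RALem.im_Y]; simp
  rw [h]
  have e : Complex.cos (2 * Real.pi * (((Y k c s n (t : ℂ)).re : ℝ) : ℂ)) =
      ((Real.cos (2 * Real.pi * (Y k c s n (t : ℂ)).re) : ℝ) : ℂ) := by
    push_cast; rfl
  rw [e, Complex.norm_real, Real.norm_eq_abs]
  simp

theorem norm_dg_real (k c : ℝ) (s : Bool) (n : ℕ) (t : ℝ) (hk : 1 ≤ k) :
    ‖dg k c s (t : ℂ) n‖ ≤ 10 * k := by
  have h : Y k c s n (t : ℂ) = (((Y k c s n (t : ℂ)).re : ℝ) : ℂ) := by
    apply Complex.ext
    · simp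
    · rw [RALem.im_Y]; simp
  unfold dg
  rw [h]
  obtain ⟨x, hx⟩ : ∃ x : ℝ, x = (Y k c s n (t : ℂ)).re := ⟨_, rfl⟩
  rw [← hx]
  have e : cV k (x : ℂ) = ((2 + 2 * Real.pi * k * Real.cos (2 * Real.pi * x) : ℝ) : ℂ) := by
    unfold cV; push_cast; ring
  rw [e, Complex.norm_real, Real.norm_eq_abs]
  have h1 : |Real.cos (2 * Real.pi * x)| ≤ 1 := Real.abs_cos_le_one _
  have hpi : Real.pi < 3.15 := Real.pi_lt_d2
  calc |2 + 2 * Real.pi * k * Real.cos (2 * Real.pi * x)|
      ≤ |2| + |2 * Real.pi * k * Real.cos (2 * Real.pi * x)| := abs_add_le _ _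
    _ = 2 + 2 * Real.pi * k * |Real.cos (2 * Real.pi * x)| := by
        rw [abs_mul, abs_of_pos (by positivity : (0:ℝ) < 2 * Real.pi * k)]; norm_num
    _ ≤ 2 + 2 * Real.pi * k * 1 := by gcongr
    _ ≤ 10 * k := by nlinarith

theorem cell_mono {k c : ℝ} {s : Bool} {n n' : ℕ} {m R lam C C' q0 q1 q2 : ℝ} (hk : 0 < k)
    (hC : C ≤ C') (h : Cell3 k c s n n' m R lam C q0 q1 q2) :
    Cell3 k c s n n' m R lam C' q0 q1 q2 := by
  have hR0 : 0 ≤ R := by linarith [h.hR]
  refine ⟨h.hR, h.hlam, ?_, ?_, ?_, ?_, h.quad⟩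
  · obtain ⟨σ, hσ, h1⟩ := h.slow
    exact ⟨σ, hσ, fun z hz => (h1 z hz).trans (by gcongr)⟩
  · exact fun z hz => (h.slow0 z hz).trans (by gcongr)
  · exact fun z hz => (h.fast z hz).trans (by gcongr)
  · exact fun z hz => (h.fast0 z hz).trans (by gcongr)

set_option maxHeartbeats 1000000 in
/-- **RA** -/
theorem ra : Loc.RA := by
  intro C0
  obtain ⟨C1, hC1def⟩ : ∃ C1 : ℝ, C1 = max C0 1 := ⟨_, rfl⟩
  have hC1 : 1 ≤ C1 := by rw [hC1def]; exact le_max_right _ _
  have hC01 : C0 ≤ C1 := by rw [hC1def]; exact le_max_left _ _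
  obtain ⟨del, r, kap, cB, hdel0, hdel1, hr0, hkap0, hkap1, hcB, kB, hB⟩ := RABroken.broken' hC1
  obtain ⟨cA, hcA, kA, hA⟩ := RALevel.level (C1 := C1) (del := del) hC1 hdel0 hdel1
  obtain ⟨C2, hC2, kS, hS⟩ := RAStep.step (C1 := C1) (kap := kap) (L := 4) (by linarith) hkap0
    hkap1 (by norm_num)
  obtain ⟨del2, hdel2⟩ : ∃ d : ℝ, d = min (r / 4) (1 / 10 ^ 4) := ⟨_, rfl⟩
  have hd20 : 0 < del2 := by rw [hdel2]; positivity
  have hd2a : del2 ≤ r / 4 := by rw [hdel2]; exact min_le_left _ _
  have hd2b : del2 ≤ 1 / 10 ^ 4 := by rw [hdel2]; exact min_le_right _ _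
  obtain ⟨cD, hcD, kD, hD⟩ := RALevel.level (C1 := C2) (del := del2) hC2 hd20 hd2b
  refine ⟨min cA (kap * cD * cB / 1200), by positivity,
    max (max kA kB) (max (max kS kD) (max (8 / kap) C1)), ?_⟩
  intro k hk c s n n' m R lam q0 q1 q2 hlam0 hcell0
  have hkA : kA ≤ k := le_trans (le_trans (le_max_left _ _) (le_max_left _ _)) hk
  have hkB : kB ≤ k := le_trans (le_trans (le_max_right _ _) (le_max_left _ _)) hk
  have hkS : kS ≤ k := le_trans (le_trans (le_trans (le_max_left _ _) (le_max_left _ _))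
    (le_max_right _ _)) hk
  have hkD : kD ≤ k := le_trans (le_trans (le_trans (le_max_right _ _) (le_max_left _ _))
    (le_max_right _ _)) hk
  have hk8 : 8 / kap ≤ k := le_trans (le_trans (le_trans (le_max_left _ _) (le_max_right _ _))
    (le_max_right _ _)) hk
  have hkC : C1 ≤ k := le_trans (le_trans (le_trans (le_max_right _ _) (le_max_right _ _))
    (le_max_right _ _)) hk
  have hk1 : 1 ≤ k := hC1.trans hkC
  have hk0 : 0 < k := by linarith
  have hkk : 8 ≤ kap * k := by
    rw [div_le_iff₀ hkap0] at hk8; linarith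
  have hsk1 : 1 ≤ Real.sqrt k := by rw [Real.one_le_sqrt]; exact hk1
  have hcell := cell_mono hk0 hC01 hcell0
  have hlam : |lam| ≤ C1 * Real.sqrt k := hlam0.trans (by gcongr)
  have hR1 : 1 ≤ R := hcell.hR
  have hR0 : 0 < R := by linarith
  obtain ⟨B, hBdef⟩ : ∃ B : Set ℝ, B = {t : ℝ | |t - m| ≤ 2 / R ∧
        (1 / 4 < (2 * Real.pi * k * R ^ 2) * ‖cont k c s (n + 2) (n' + 2) t‖ ∨
         1 / 4 < (2 * Real.pi * k * (min ‖D k c s (n + 2) t‖ ‖D k c (!s) (n' + 2) t‖) ^ 2) *
            ‖cont k c s (n + 3) (n' + 3) t‖)} := ⟨_, rfl⟩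
  rw [← hBdef]
  rcases hA k hkA c s n n' m R lam q0 q1 q2 hlam hcell with h1 | ⟨hl4, eps, M, heps, hmir⟩
  · refine le_trans (ENNReal.ofReal_le_ofReal ?_) (h1.trans (measure_mono ?_))
    · apply div_le_div_of_nonneg_right (min_le_left _ _) hR0.le
    · rintro t ⟨h2, h3⟩
      rw [hBdef]
      exact ⟨h2, Or.inl h3⟩
  · have hbr := hB k hkB c s n n' m R lam q0 q1 q2 hl4 hcell eps M heps (3 * del) le_rfl hmir
    obtain ⟨A, hAdef⟩ : ∃ A : Set ℝ, A = {t : ℝ | |t - m| ≤ 3 / 2 / R ∧
        kap ≤ |Real.cos (2 * Real.pi * (Y k c s (n + 1) (t : ℂ)).re)| ∧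
        kap ≤ |Real.cos (2 * Real.pi * (Y k c (!s) (n' + 1) (t : ℂ)).re)| ∧
        ∀ j : ℤ, r < |(Y k c (!s) (n' + 2) (t : ℂ)).re + (Y k c s (n + 2) (t : ℂ)).re - j / 2| ∧
          r < |(Y k c (!s) (n' + 2) (t : ℂ)).re - (Y k c s (n + 2) (t : ℂ)).re - j / 2|} :=
      ⟨_, rfl⟩
    rw [← hAdef] at hbr
    have hkey : ∀ m' ∈ A, ENNReal.ofReal (cD / (30 * k * R)) ≤
        volume (B ∩ closedBall m' (4 / (kap * k * R))) := by
      intro m' hm'A
      rw [hAdef] at hm'A
      obtain ⟨hm', hc1, hc2, hj⟩ := hm'A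
      have hm2 : |m' - m| ≤ 2 / R := hm'.trans (by gcongr; norm_num)
      obtain ⟨s', a, a', R', lam', q0', q1', q2', hsa, hR', hlam', hcell', hle⟩ :=
        hS k hkS c s n n' m R lam q0 q1 q2 hcell hl4 m' hm2
          (by rw [norm_cos_re]; exact hc1) (by rw [norm_cos_re]; exact hc2)
      have hR'0 : 0 < R' := lt_of_lt_of_le (by positivity) hR'
      have hR'4 : 4 * R ≤ R' := by
        refine le_trans ?_ hR'
        nlinarith
      have hmb : (m' : ℂ) ∈ ball (m' : ℂ) (4 / R') := mem_ball_self (by positivity)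
      have hmb0 : (m' : ℂ) ∈ ball (m : ℂ) (4 / R) := by
        rw [mem_ball, dist_eq_norm, ← Complex.ofReal_sub, Complex.norm_real, Real.norm_eq_abs]
        refine lt_of_le_of_lt hm' ?_
        gcongr
        norm_num
      have hCk : C1 * R / k ≤ R := by
        rw [div_le_iff₀ hk0]; nlinarith
      have hup : R' ≤ 30 * k * R := by
        refine (hle _ hmb).1.trans ?_
        obtain ⟨σ, hσ, hslow⟩ := hcell.slow
        have h1 := hslow _ hmb0
        have h0 := hcell.slow0 _ hmb0
        have hσR : ‖((σ * R : ℝ) : ℂ)‖ = R := by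
          rw [Complex.norm_real, Real.norm_eq_abs, abs_mul, abs_of_pos hR0]
          rcases hσ with h | h <;> rw [h] <;> norm_num
        have h2 : ‖D k c s (n + 1) (m' : ℂ)‖ ≤ 2 * R := by
          have := norm_le_norm_add_norm_sub ((σ * R : ℝ) : ℂ) (D k c s (n + 1) (m' : ℂ))
          rw [hσR, norm_sub_rev] at this
          linarith
        have h3 := norm_dg_real k c s (n + 1) m' hk1
        rw [RALem.D_add_two]
        refine (norm_sub_le _ _).trans ?_
        rw [norm_mul]
        have h4 : ‖dg k c s (m' : ℂ) (n + 1)‖ * ‖D k c s (n + 1) (m' : ℂ)‖ ≤ (10 * k) * (2 * R) := by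
          gcongr
        have h5 : R ≤ k * R := by nlinarith
        linarith
      rcases hD k hkD c s' a a' m' R' lam' q0' q1' q2'
        (hlam'.trans (by nlinarith)) hcell' with h5 | ⟨_, eps', M', heps', hmir'⟩
      · refine le_trans (ENNReal.ofReal_le_ofReal ?_) (h5.trans (measure_mono ?_))
        · exact div_le_div_of_nonneg_left hcD.le hR'0 hup
        · rintro t ⟨ht1, ht2⟩
          have hR2 : 2 / R' ≤ 1 / 2 / R := by
            rw [div_div, div_le_div_iff₀ hR'0 (by positivity)]; linarith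
          have hR3 : 2 / R' ≤ 4 / (kap * k * R) := by
            rw [div_le_div_iff₀ hR'0 (by positivity)]; nlinarith
          have htb : (t : ℂ) ∈ ball (m' : ℂ) (4 / R') := by
            rw [mem_ball, dist_eq_norm, ← Complex.ofReal_sub, Complex.norm_real,
              Real.norm_eq_abs]
            refine lt_of_le_of_lt ht1 ?_
            gcongr
            norm_num
          have hmin : R' ≤ min ‖D k c s (n + 2) (t : ℂ)‖ ‖D k c (!s) (n' + 2) (t : ℂ)‖ :=
            le_min (hle _ htb).1 (hle _ htb).2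
          have hcont : ‖cont k c s' (a + 2) (a' + 2) (t : ℂ)‖ =
              ‖cont k c s (n + 3) (n' + 3) (t : ℂ)‖ := by
            rcases hsa with ⟨e1, e2, e3⟩ | ⟨e1, e2, e3⟩
            · rw [e1, e2, e3]
            · rw [e1, e2, e3]
              rw [RALem.cont_swap]
          refine ⟨?_, ?_⟩
          · rw [hBdef]
            refine ⟨?_, Or.inr ?_⟩
            · calc |t - m| = |(t - m') + (m' - m)| := by ring_nf
                _ ≤ |t - m'| + |m' - m| := abs_add_le _ _
                _ ≤ 1 / 2 / R + 3 / 2 / R := add_le_add (ht1.trans hR2) hm'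
                _ = 2 / R := by ring
            · rw [hcont] at ht2
              refine lt_of_lt_of_le ht2 ?_
              gcongr
          · rw [mem_closedBall, Real.dist_eq]
            exact ht1.trans hR3
      · exfalso
        have h6 := hmir' m' (by rw [sub_self, abs_zero]; positivity)
        have h7 : 3 * del2 < r := by linarith
        rcases hsa with ⟨e1, e2, e3⟩ | ⟨e1, e2, e3⟩
        · rw [e1, e2, e3] at h6
          rcases heps' with he | he
          · have h8 := (hj (1 + 2 * M')).2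
            rw [he] at h6
            have : (Y k c (!s) (n' + 2) (m' : ℂ)).re - (Y k c s (n + 2) (m' : ℂ)).re -
                ((1 + 2 * M' : ℤ) : ℝ) / 2 = (Y k c (!s) (n' + 1 + 1) (m' : ℂ)).re -
                1 * (Y k c s (n + 1 + 1) (m' : ℂ)).re - 1 / 2 - M' := by
              push_cast; ring
            rw [this] at h8
            linarith
          · have h8 := (hj (1 + 2 * M')).1
            rw [he] at h6
            have : (Y k c (!s) (n' + 2) (m' : ℂ)).re + (Y k c s (n + 2) (m' : ℂ)).re -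
                ((1 + 2 * M' : ℤ) : ℝ) / 2 = (Y k c (!s) (n' + 1 + 1) (m' : ℂ)).re -
                -1 * (Y k c s (n + 1 + 1) (m' : ℂ)).re - 1 / 2 - M' := by
              push_cast; ring
            rw [this] at h8
            linarith
        · rw [e1, e2, e3, Bool.not_not] at h6
          rcases heps' with he | he
          · have h8 := (hj (-(1 + 2 * M'))).2
            rw [he] at h6
            have : (Y k c (!s) (n' + 2) (m' : ℂ)).re - (Y k c s (n + 2) (m' : ℂ)).re -
                ((-(1 + 2 * M') : ℤ) : ℝ) / 2 = -((Y k c s (n + 1 + 1) (m' : ℂ)).re -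
                1 * (Y k c (!s) (n' + 1 + 1) (m' : ℂ)).re - 1 / 2 - M') := by
              push_cast; ring
            rw [this, abs_neg] at h8
            linarith
          · have h8 := (hj (1 + 2 * M')).1
            rw [he] at h6
            have : (Y k c (!s) (n' + 2) (m' : ℂ)).re + (Y k c s (n + 2) (m' : ℂ)).re -
                ((1 + 2 * M' : ℤ) : ℝ) / 2 = (Y k c s (n + 1 + 1) (m' : ℂ)).re -
                -1 * (Y k c (!s) (n' + 1 + 1) (m' : ℂ)).re - 1 / 2 - M' := by
              push_cast; ring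
            rw [this] at h8
            linarith
    have hvit := RoughAsmX.vitali_lower (A := A) (B := B) (ρ := 4 / (kap * k * R))
      (c := cD / (30 * k * R)) (by positivity) (by positivity) hkey
    have hconst : 10 * (4 / (kap * k * R)) / (cD / (30 * k * R)) = 1200 / (kap * cD) := by
      field_simp
      norm_num
    rw [hconst] at hvit
    have hK0 : 0 < 1200 / (kap * cD) := by positivity
    have hfin : ENNReal.ofReal (cB / R) ≤ ENNReal.ofReal (1200 / (kap * cD)) * volume B :=
      hbr.trans hvit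
    have h9 : ENNReal.ofReal (min cA (kap * cD * cB / 1200) / R) ≤
        ENNReal.ofReal (cB / R / (1200 / (kap * cD))) := by
      apply ENNReal.ofReal_le_ofReal
      calc min cA (kap * cD * cB / 1200) / R ≤ (kap * cD * cB / 1200) / R := by
            apply div_le_div_of_nonneg_right (min_le_right _ _) hR0.le
        _ = cB / R / (1200 / (kap * cD)) := by
            field_simp
    refine h9.trans ?_
    rw [ENNReal.ofReal_div_of_pos hK0]
    exact ENNReal.div_le_of_le_mul' hfin

end Crest.Agent.R128.RAEnd117
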