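import Crest.Agent.R128.RABr3

set_option autoImplicit false

/-! Row 128, RA bridge (helper155), part 4: `Loc.RA` from `asm_small`, `asm_big` and the local
quadratic approximation `QuadLocal`. -/

open Metric MeasureTheory Set
open Crest.Agent.R128 Crest.Agent.R128.Cell Crest.Agent.R128.CellB
open Crest.Agent.R128.CellDy (kap sd)
open Crest.Agent.R128.Loc

namespace Crest.Agent.R128.RAFin

open Crest.Agent.R128.RoughAsm (Vr nx dnx mvt uIcc_sub)
open Crest.Agent.R128.RABr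

/-- local quadratic approximation of the content after one fresh digit -/
def QuadLocal : Prop :=
  ∀ C1 κ ρR : ℝ, 0 < κ → κ ≤ 1 → 0 < ρR → ∃ k1 : ℝ, ∀ k : ℝ, k1 ≤ k →
    ∀ (c : ℝ) (s : Bool) (n n' : ℕ) (m R lam q0 q1 q2 : ℝ), |lam| ≤ 10 ^ 4 →
    Cell3 k c s n n' m R lam C1 q0 q1 q2 → ∀ (τ xc : ℝ) (N : ℤ), (τ = 1 ∨ τ = -1) →
    xc ∈ Icc (1:ℝ) 2 → ∀ x ∈ Icc (1 / 4 : ℝ) (11 / 4),
    κ ≤ |Real.cos (2 * Real.pi * yr k c s (n + 1) (tx m (τ * R) xc x))| →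
    κ ≤ |Real.cos (2 * Real.pi * yr k c (!s) (n' + 1) (tx m (τ * R) xc x))| →
    ∃ a0 a1 a2 : ℝ, ∀ y, |y - x| ≤ ρR / k →
      |F1c k c s n n' m (τ * R) xc N y - (a0 + a1 * y + a2 * y ^ 2)| ≤ 1 / (8 * (18 * k) ^ 2)

theorem tau_facts (s : Bool) {σ : ℝ} (hσ : σ = 1 ∨ σ = -1) :
    (sg s * σ = 1 ∨ sg s * σ = -1) ∧ sg s * (sg s * σ) * σ = 1 := by
  have h1 : sg s * sg s = 1 := sg_sq s
  constructor
  · cases s <;> rcases hσ with h | h <;> rw [h] <;> simp [sg]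
  · rcases hσ with h | h <;> rw [h]
    · linear_combination h1
    · linear_combination h1

section
variable {k c : ℝ} {s : Bool} {n n' : ℕ} {m R lam C1 q0 q1 q2 : ℝ}

theorem P_near {E τ σ xc : ℝ} {N : ℤ} (hR : 1 ≤ R) (hτ : τ = 1 ∨ τ = -1)
    (hxc : xc ∈ Icc (1:ℝ) 2) (hsg : sg s * τ * σ = 1)
    (hxN : yr k c s (n + 1) m - N = xc)
    (h1 : ∀ z ∈ ball (m : ℂ) (4 / R), ‖D k c s (n + 1) z - ((σ * R : ℝ) : ℂ)‖ ≤ E * R)
    {x : ℝ} (hx : x ∈ Icc (0:ℝ) 3) : |Pf k c s (n + 1) m (τ * R) xc N x - x| ≤ 3 * E := by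
  have hxc3 : xc ∈ Icc (0:ℝ) 3 := ⟨by linarith [hxc.1], by linarith [hxc.2]⟩
  have h := mvt (f := fun t => Pf k c s (n + 1) m (τ * R) xc N t - t)
    (f' := fun t => dPf k c s (n + 1) m (τ * R) xc t - 1) (a := xc) (b := x) (B := E)
    (fun t ht => (hasDerivAt_Pf k c s (n + 1) m (τ * R) xc N t).sub (hasDerivAt_id t))
    (fun t ht => by
      have := (side_aff hR hτ hxc h1 (uIcc_sub hxc3 hx ht)).1
      rw [hsg] at this
      exact this)
  have h0 : Pf k c s (n + 1) m (τ * R) xc N xc = xc := by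
    unfold Pf tx
    rw [sub_self, zero_div, add_zero, hxN]
  rw [h0, sub_self, sub_zero] at h
  have hE : 0 ≤ E := by
    have := (side_aff hR hτ hxc h1 hx).1
    exact (abs_nonneg _).trans this
  have h3 : |x - xc| ≤ 3 := by
    rw [abs_le]; constructor <;> linarith [hx.1, hx.2, hxc.1, hxc.2]
  nlinarith

/-- the dictionary -/
theorem toCell (h : Cell3 k c s n n' m R lam C1 q0 q1 q2) (hk : 0 < k) (hlam : |lam| ≤ 10 ^ 4) :
    ∃ τ xc : ℝ, ∃ N : ℤ, (τ = 1 ∨ τ = -1) ∧ xc ∈ Icc (1:ℝ) 2 ∧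
      RoughAsm.Cell k (10 ^ 4 * max C1 1) (sg (!s) * τ * lam)
        (Pf k c s (n + 1) m (τ * R) xc (N : ℝ)) (Pf k c s n m (τ * R) xc 0)
        (dPf k c s (n + 1) m (τ * R) xc) (dPf k c s n m (τ * R) xc)
        (d2Pf k c s (n + 1) m (τ * R) xc)
        (Pf k c (!s) (n' + 1) m (τ * R) xc ((0 : ℤ) : ℝ)) (Pf k c (!s) n' m (τ * R) xc 0)
        (dPf k c (!s) (n' + 1) m (τ * R) xc) (dPf k c (!s) n' m (τ * R) xc)
        (d2Pf k c (!s) (n' + 1) m (τ * R) xc) := by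
  obtain ⟨σ, hσ, e1, e2, e3, e4⟩ := extract h hk
  obtain ⟨hτ, hsg⟩ := tau_facts s hσ
  obtain ⟨τ, hτd⟩ : ∃ τ, τ = sg s * σ := ⟨_, rfl⟩
  rw [← hτd] at hτ hsg
  obtain ⟨N, hN⟩ : ∃ N : ℤ, N = ⌊yr k c s (n + 1) m⌋ - 1 := ⟨_, rfl⟩
  obtain ⟨xc, hxcd⟩ : ∃ x, x = yr k c s (n + 1) m - N := ⟨_, rfl⟩
  have hxc : xc ∈ Icc (1:ℝ) 2 := by
    rw [hxcd, hN]
    push_cast
    have h1 := Int.floor_le (yr k c s (n + 1) m)
    have h2 := Int.lt_floor_add_one (yr k c s (n + 1) m)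
    constructor <;> linarith
  have hR := h.hR
  have hl1 := h.hlam
  have hC' : 1 ≤ max C1 1 := le_max_right _ _
  obtain ⟨C', hC'd⟩ : ∃ C', C' = max C1 1 := ⟨_, rfl⟩
  rw [← hC'd] at e1 e2 e3 e4 hC'
  rw [← hC'd]
  have hC0 : 0 < C' := by linarith
  have hE : C' / k ≤ 10 ^ 4 * C' / k := by
    apply div_le_div_of_nonneg_right _ hk.le
    linarith
  have hE3 : 3 * (C' / k) ≤ 10 ^ 4 * C' / k := by
    rw [← mul_div_assoc]
    apply div_le_div_of_nonneg_right _ hk.le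
    linarith
  have hτ1 : |τ| = 1 := by rcases hτ with h | h <;> rw [h] <;> simp
  have hlam' : |sg (!s) * τ * lam| = |lam| := by
    rw [abs_mul, abs_mul, sg_abs, hτ1, one_mul, one_mul]
  have hsq : (sg (!s) * τ * lam) ^ 2 = |lam| ^ 2 := by rw [← sq_abs, hlam']
  refine ⟨τ, xc, N, hτ, hxc, ?_⟩
  refine
    { hP := fun x _ => hasDerivAt_Pf k c s (n + 1) m (τ * R) xc N x
      hP0 := fun x _ => hasDerivAt_Pf k c s n m (τ * R) xc 0 x
      hdP := fun x _ => hasDerivAt_dPf k c s (n + 1) m (τ * R) xc x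
      hQ := fun x _ => hasDerivAt_Pf k c (!s) (n' + 1) m (τ * R) xc ((0 : ℤ) : ℝ) x
      hQ0 := fun x _ => hasDerivAt_Pf k c (!s) n' m (τ * R) xc 0 x
      hdQ := fun x _ => hasDerivAt_dPf k c (!s) (n' + 1) m (τ * R) xc x
      nP := fun x hx => (P_near hR hτ hxc hsg hxcd.symm e1 hx).trans hE3
      ndP := fun x hx => ?_
      ndP0 := fun x hx => (side_aff0 hR hτ hxc e2 hx).trans hE
      nd2P := fun x hx => ((side_aff hR hτ hxc e1 hx).2).trans hE
      ndQ := fun x hx => ?_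
      ndQ0 := fun x hx => ?_
      nd2Q := fun x hx => ?_ }
  · have := (side_aff hR hτ hxc e1 hx).1
    rw [hsg] at this
    exact this.trans hE
  · refine ((side_aff hR hτ hxc e3 hx).1).trans ?_
    rw [hlam', div_mul_eq_mul_div]
    apply div_le_div_of_nonneg_right _ hk.le
    have : C' * |lam| ^ 2 = C' * |lam| * |lam| := by ring
    rw [this]
    apply mul_le_mul_of_nonneg_right _ (abs_nonneg _)
    nlinarith
  · refine (side_aff0 hR hτ hxc e4 hx).trans ?_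
    rw [hlam', div_mul_eq_mul_div]
    apply div_le_div_of_nonneg_right _ hk.le
    apply mul_le_mul_of_nonneg_right _ (abs_nonneg _)
    linarith
  · refine ((side_aff hR hτ hxc e3 hx).2).trans ?_
    rw [hsq, div_mul_eq_mul_div]
    apply div_le_div_of_nonneg_right _ hk.le
    apply mul_le_mul_of_nonneg_right _ (by positivity)
    linarith

/-- the old content is quadratic on the cell -/
theorem f0_quad (h : Cell3 k c s n n' m R lam C1 q0 q1 q2) {τ xc : ℝ} (hτ : τ = 1 ∨ τ = -1)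
    (hxc : xc ∈ Icc (1:ℝ) 2) : ∃ a0 a1 a2 : ℝ, ∀ x ∈ Icc (0:ℝ) 3,
      |f0 k c s n n' m (τ * R) xc x - (a0 + a1 * x + a2 * x ^ 2)| ≤ 1 / 8 := by
  have hR := h.hR
  have hR0 : 0 < R := by linarith
  have hττ : τ * τ = 1 := by rcases hτ with h | h <;> rw [h] <;> norm_num
  have hτ0 : τ ≠ 0 := by rcases hτ with h | h <;> rw [h] <;> norm_num
  have hlt : 2 / R < 4 / R := div_lt_div_of_pos_right (by norm_num) hR0
  refine ⟨-(q0 - q1 * τ * xc + q2 * xc ^ 2), -(q1 * τ - 2 * q2 * xc), -q2, ?_⟩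
  intro x hx
  have hb := h.quad _ (mem_ball_of (lt_of_le_of_lt (tx_ball (m := m) hR hτ hxc hx) hlt))
  have e1 : ((R : ℂ) * (((tx m (τ * R) xc x : ℝ) : ℂ) - m)) = ((τ * (x - xc) : ℝ) : ℂ) := by
    unfold tx
    rw [← Complex.ofReal_sub, ← Complex.ofReal_mul]
    congr 1
    field_simp
    linear_combination (-(x - xc)) * hττ
  rw [e1, ← ofReal_cr] at hb
  have e2 : ((2 * Real.pi * k * R ^ 2 : ℝ) : ℂ) * ((cr k c s (n + 1) (n' + 1) (tx m (τ * R) xc x) : ℝ) : ℂ)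
      - ((q0 : ℂ) + q1 * ((τ * (x - xc) : ℝ) : ℂ) + q2 * ((τ * (x - xc) : ℝ) : ℂ) ^ 2)
      = ((2 * Real.pi * k * R ^ 2 * cr k c s (n + 1) (n' + 1) (tx m (τ * R) xc x)
        - (q0 + q1 * (τ * (x - xc)) + q2 * (τ * (x - xc)) ^ 2) : ℝ) : ℂ) := by
    push_cast
    ring
  rw [e2, Complex.norm_real, Real.norm_eq_abs] at hb
  have e3 : f0 k c s n n' m (τ * R) xc x - (-(q0 - q1 * τ * xc + q2 * xc ^ 2)
      + -(q1 * τ - 2 * q2 * xc) * x + -q2 * x ^ 2)
      = -(2 * Real.pi * k * R ^ 2 * cr k c s (n + 1) (n' + 1) (tx m (τ * R) xc x)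
        - (q0 + q1 * (τ * (x - xc)) + q2 * (τ * (x - xc)) ^ 2)) := by
    unfold f0
    linear_combination (-(2 * Real.pi * k * R ^ 2 * cr k c s (n + 1) (n' + 1) (tx m (τ * R) xc x))
      - q2 * (x - xc) ^ 2) * hττ
  rw [e3, abs_neg]
  linarith

theorem abs_tauR {τ : ℝ} (hτ : τ = 1 ∨ τ = -1) (hR : 0 < R) : |τ * R| = R := by
  rw [abs_mul, abs_of_pos hR]
  rcases hτ with h | h <;> rw [h] <;> simp

/-- transport of the measure of the dead set -/
theorem transport (hk : 0 < k) {τ xc c0 : ℝ} {N : ℤ} (hR : 1 ≤ R) (hτ : τ = 1 ∨ τ = -1)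
    (hxc : xc ∈ Icc (1:ℝ) 2) {De : Set ℝ} (hDe : ∀ x ∈ De, x ∈ Icc (0:ℝ) 3 ∧
    (1 / 4 < |F1c k c s n n' m (τ * R) xc N x| ∨
      RoughAsm.dead2 k (F1c k c s n n' m (τ * R) xc N) (Pf k c s (n + 1) m (τ * R) xc (N : ℝ))
        (Pf k c s n m (τ * R) xc 0) (dPf k c s (n + 1) m (τ * R) xc)
        (dPf k c s n m (τ * R) xc) (Pf k c (!s) (n' + 1) m (τ * R) xc ((0 : ℤ) : ℝ))
        (Pf k c (!s) n' m (τ * R) xc 0)
        (dPf k c (!s) (n' + 1) m (τ * R) xc) (dPf k c (!s) n' m (τ * R) xc) x))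
    (hc : ENNReal.ofReal c0 ≤ volume De) :
    ENNReal.ofReal (c0 / R) ≤ volume {t : ℝ | |t - m| ≤ 2 / R ∧
        (1 / 4 < (2 * Real.pi * k * R ^ 2) * ‖cont k c s (n + 2) (n' + 2) t‖ ∨
         1 / 4 < (2 * Real.pi * k * (min ‖D k c s (n + 2) t‖ ‖D k c (!s) (n' + 2) t‖) ^ 2) *
            ‖cont k c s (n + 3) (n' + 3) t‖)} := by
  have hR0 : 0 < R := by linarith
  have hSR : |τ * R| = R := abs_tauR hτ hR0
  have hS0 : τ * R ≠ 0 := by
    intro h
    rw [h, abs_zero] at hSR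
    linarith
  obtain ⟨A, hA⟩ : ∃ A : Set ℝ, A = {t : ℝ | |t - m| ≤ 2 / R ∧
        (1 / 4 < (2 * Real.pi * k * R ^ 2) * ‖cont k c s (n + 2) (n' + 2) t‖ ∨
         1 / 4 < (2 * Real.pi * k * (min ‖D k c s (n + 2) t‖ ‖D k c (!s) (n' + 2) t‖) ^ 2) *
            ‖cont k c s (n + 3) (n' + 3) t‖)} := ⟨_, rfl⟩
  rw [← hA]
  obtain ⟨Z, hZ⟩ : ∃ Z : Set ℝ, Z = ({t : ℝ | D k c s (n + 1) (t : ℂ) = 0} ∪
      {t : ℝ | D k c s (n + 2) (t : ℂ) = 0}) ∪ ({t : ℝ | D k c s (n + 3) (t : ℂ) = 0} ∪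
      {t : ℝ | D k c (!s) (n' + 1) (t : ℂ) = 0}) ∪ ({t : ℝ | D k c (!s) (n' + 2) (t : ℂ) = 0} ∪
      {t : ℝ | D k c (!s) (n' + 3) (t : ℂ) = 0}) := ⟨_, rfl⟩
  have hZ0 : volume Z = 0 := by
    rw [hZ]
    refine measure_union_null (measure_union_null (measure_union_null ?_ ?_)
      (measure_union_null ?_ ?_)) (measure_union_null ?_ ?_)
    · exact RANull.null_D k c s (n := n + 1) (by omega)
    · exact RANull.null_D k c s (n := n + 2) (by omega)
    · exact RANull.null_D k c s (n := n + 3) (by omega)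
    · exact RANull.null_D k c (!s) (n := n' + 1) (by omega)
    · exact RANull.null_D k c (!s) (n := n' + 2) (by omega)
    · exact RANull.null_D k c (!s) (n := n' + 3) (by omega)
  have hsub : De ⊆ (fun z : ℝ => m + (z - xc) / (τ * R)) ⁻¹' (A ∪ Z) := by
    intro x hx
    have ht : m + (x - xc) / (τ * R) = tx m (τ * R) xc x := rfl
    rw [mem_preimage]
    simp only [ht]
    by_cases hz : tx m (τ * R) xc x ∈ Z
    · exact Or.inr hz
    left
    have hne : ∀ (s' : Bool) (j : ℕ), D k c s' j ((tx m (τ * R) xc x : ℝ) : ℂ) ≠ 0 →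
        dr k c s' j (tx m (τ * R) xc x) ≠ 0 := by
      intro s' j h h0
      apply h
      rw [← ofReal_dr, h0]
      simp
    rw [hZ] at hz
    simp only [mem_union, mem_ofPred_eq, not_or] at hz
    rw [hA]
    refine ⟨tx_ball hR hτ hxc (hDe x hx).1, ?_⟩
    exact dead_sub (N := N) hk hSR hR0 (hne _ _ hz.1.1.1) (hne _ _ hz.1.1.2) (hne _ _ hz.1.2.1)
      (hne _ _ hz.1.2.2) (hne _ _ hz.2.1) (hne _ _ hz.2.2) (hDe x hx).2
  have h1 : ENNReal.ofReal c0 ≤ ENNReal.ofReal R * volume A := by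
    calc _ ≤ _ := hc
      _ ≤ _ := measure_mono hsub
      _ = ENNReal.ofReal |τ * R| * volume (A ∪ Z) := RoughAsm.vol_affine hS0 m xc (A ∪ Z)
      _ ≤ ENNReal.ofReal R * (volume A + volume Z) := by
          rw [hSR]
          exact mul_le_mul_right (measure_union_le _ _) _
      _ = _ := by rw [hZ0, add_zero]
  rw [ENNReal.ofReal_div_of_pos hR0]
  apply ENNReal.div_le_of_le_mul
  rw [mul_comm]
  exact h1

end

set_option maxHeartbeats 1000000 in
theorem ra_of_quad (hq : QuadLocal) : Loc.RA := by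
  intro C1
  obtain ⟨C', hC'd⟩ : ∃ C', C' = max C1 1 := ⟨_, rfl⟩
  have hC' : 1 ≤ C' := by rw [hC'd]; exact le_max_right _ _
  have hC1C' : C1 ≤ C' := by rw [hC'd]; exact le_max_left _ _
  have hC0 : 0 < C' := by linarith
  obtain ⟨C, hCd⟩ : ∃ C, C = 10 ^ 4 * C' := ⟨_, rfl⟩
  have hC : 1 ≤ C := by rw [hCd]; linarith
  obtain ⟨c0, hc0, K0, hsmall⟩ := RoughAsm.asm_small C hC
  have hrr : 0 < RoughAsm.rr C := by unfold RoughAsm.rr; positivity
  have hrr1 : RoughAsm.rr C ≤ 1 := by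
    unfold RoughAsm.rr
    rw [div_le_one (by positivity)]
    linarith
  have hkap0 : 0 < RoughAsm.kap C := by unfold RoughAsm.kap; positivity
  have hkap1 : RoughAsm.kap C ≤ 1 := by unfold RoughAsm.kap; linarith
  have hRR : 0 < RoughAsm.RR C := by unfold RoughAsm.RR; positivity
  obtain ⟨k1, hk1⟩ := hq C1 (RoughAsm.kap C) (RoughAsm.RR C) hkap0 hkap1 hRR
  refine ⟨min c0 (1 / 2000), lt_min hc0 (by norm_num),
    max (max K0 k1) (max (3 * 10 ^ 13 * C') (100 * C' ^ 4)), ?_⟩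
  intro k hk c s n n' m R lam q0 q1 q2 hlam h
  have kK0 : K0 ≤ k := (le_max_left _ _).trans ((le_max_left _ _).trans hk)
  have kk1 : k1 ≤ k := (le_max_right _ _).trans ((le_max_left _ _).trans hk)
  have k3 : 3 * 10 ^ 13 * C' ≤ k := (le_max_left _ _).trans ((le_max_right _ _).trans hk)
  have k4 : 100 * C' ^ 4 ≤ k := (le_max_right _ _).trans ((le_max_right _ _).trans hk)
  have hk0 : 0 < k := lt_of_lt_of_le (by positivity) k3
  have hR := h.hR
  have hR0 : 0 < R := by linarith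
  rcases le_or_gt |lam| (10 ^ 4) with hl | hl
  · -- small ratio
    obtain ⟨τ, xc, N, hτ, hxc, hcell⟩ := toCell h hk0 hl
    rw [← hC'd, ← hCd] at hcell
    have hτ1 : |τ| = 1 := by rcases hτ with h | h <;> rw [h] <;> simp
    have hlam' : |sg (!s) * τ * lam| = |lam| := by
      rw [abs_mul, abs_mul, sg_abs, hτ1, one_mul, one_mul]
    have hfin := hsmall k kK0 (sg (!s) * τ * lam) (by rw [hlam']; exact h.hlam)
      (by rw [hlam']; exact hl) _ _ _ _ _ _ _ _ _ _ (f0 k c s n n' m (τ * R) xc) hcell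
      (f0_quad h hτ hxc) (by
        intro x hx hcP hcQ
        have e1 : Real.cos (2 * Real.pi * Pf k c s (n + 1) m (τ * R) xc (N : ℝ) x)
          = Real.cos (2 * Real.pi * yr k c s (n + 1) (tx m (τ * R) xc x)) := by
          unfold Pf
          rw [show 2 * Real.pi * (yr k c s (n + 1) (tx m (τ * R) xc x) - (N : ℝ))
            = 2 * Real.pi * yr k c s (n + 1) (tx m (τ * R) xc x) - N * (2 * Real.pi) by ring,
            Real.cos_sub_int_mul_two_pi]
        have e2 : Real.cos (2 * Real.pi * Pf k c (!s) (n' + 1) m (τ * R) xc ((0 : ℤ) : ℝ) x)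
          = Real.cos (2 * Real.pi * yr k c (!s) (n' + 1) (tx m (τ * R) xc x)) := by
          unfold Pf
          rw [Int.cast_zero, sub_zero]
        rw [e1] at hcP
        rw [e2] at hcQ
        exact hk1 k kk1 c s n n' m R lam q0 q1 q2 hl h τ xc N hτ hxc x hx hcP hcQ)
    refine le_trans (ENNReal.ofReal_le_ofReal ?_) (transport (N := N) hk0 hR hτ hxc
      (De := RoughAsm.Dead k (f0 k c s n n' m (τ * R) xc) (Pf k c s (n + 1) m (τ * R) xc (N : ℝ))
        (Pf k c s n m (τ * R) xc 0)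
        (dPf k c s (n + 1) m (τ * R) xc) (dPf k c s n m (τ * R) xc)
        (Pf k c (!s) (n' + 1) m (τ * R) xc ((0 : ℤ) : ℝ)) (Pf k c (!s) n' m (τ * R) xc 0)
        (dPf k c (!s) (n' + 1) m (τ * R) xc) (dPf k c (!s) n' m (τ * R) xc))
      (fun x hx => hx) hfin)
    exact div_le_div_of_nonneg_right (min_le_left _ _) hR0.le
  · -- large ratio
    obtain ⟨σ, hσ, e1, e2, e3, e4⟩ := extract h hk0
    rw [← hC'd] at e1 e2 e3 e4
    obtain ⟨hτ, hsg⟩ := tau_facts s hσ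
    obtain ⟨τ, hτd⟩ : ∃ τ, τ = sg s * σ := ⟨_, rfl⟩
    rw [← hτd] at hτ hsg
    have hτ1 : |τ| = 1 := by rcases hτ with h | h <;> rw [h] <;> simp
    obtain ⟨N, hN⟩ : ∃ N : ℤ, N = ⌊yr k c s (n + 1) m⌋ - 1 := ⟨_, rfl⟩
    obtain ⟨xc, hxcd⟩ : ∃ x, x = yr k c s (n + 1) m - N := ⟨_, rfl⟩
    have hxc : xc ∈ Icc (1:ℝ) 2 := by
      rw [hxcd, hN]
      push_cast
      have h1 := Int.floor_le (yr k c s (n + 1) m)
      have h2 := Int.lt_floor_add_one (yr k c s (n + 1) m)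
      constructor <;> linarith
    have hlam' : |sg (!s) * τ * lam| = |lam| := by
      rw [abs_mul, abs_mul, sg_abs, hτ1, one_mul, one_mul]
    have hl0 : 0 < |lam| := lt_trans (by norm_num) hl
    have hE : 3 * (C' / k) ≤ 1 / 10 ^ 13 := by
      rw [← mul_div_assoc, div_le_div_iff₀ hk0 (by norm_num)]
      linarith
    have hE' : C' / k ≤ 3 * (C' / k) := by
      have : 0 < C' / k := by positivity
      linarith
    have hQE : C' * |lam| ^ 2 / k ≤ 1 / 10 * |lam| := by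
      have hs0 : 0 ≤ Real.sqrt k := Real.sqrt_nonneg k
      have hs1 : Real.sqrt k * Real.sqrt k = k := Real.mul_self_sqrt hk0.le
      have hs2 : 10 * C' ^ 2 ≤ Real.sqrt k := by
        apply Real.le_sqrt_of_sq_le
        nlinarith
      have hl2 : |lam| ≤ C' * Real.sqrt k :=
        hlam.trans (mul_le_mul_of_nonneg_right hC1C' hs0)
      rw [div_le_iff₀ hk0]
      have h5 : 10 * (C' * |lam|) ≤ k := by
        calc 10 * (C' * |lam|) ≤ 10 * (C' * (C' * Real.sqrt k)) := by gcongr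
          _ = (10 * C' ^ 2) * Real.sqrt k := by ring
          _ ≤ Real.sqrt k * Real.sqrt k := mul_le_mul_of_nonneg_right hs2 hs0
          _ = k := hs1
      nlinarith
    have hbig := RoughAsm.asm_big (k := k) (lam := sg (!s) * τ * lam) (ε := 1 / 10 ^ 13)
      (P := Pf k c s (n + 1) m (τ * R) xc (N : ℝ)) (dP := dPf k c s (n + 1) m (τ * R) xc)
      (dP0 := dPf k c s n m (τ * R) xc) (Q := Pf k c (!s) (n' + 1) m (τ * R) xc ((0 : ℤ) : ℝ))
      (dQ := dPf k c (!s) (n' + 1) m (τ * R) xc) (dQ0 := dPf k c (!s) n' m (τ * R) xc)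
      (f0 := f0 k c s n n' m (τ * R) xc) (by nlinarith) (by rw [hlam']; exact hl.le)
      (by norm_num) le_rfl
      (fun x _ => hasDerivAt_Pf k c (!s) (n' + 1) m (τ * R) xc ((0 : ℤ) : ℝ) x)
      (fun x hx => (P_near hR hτ hxc hsg hxcd.symm e1 hx).trans hE)
      (fun x hx => by
        have := (side_aff hR hτ hxc e1 hx).1
        rw [hsg] at this
        exact this.trans (hE'.trans hE))
      (fun x hx => (side_aff0 hR hτ hxc e2 hx).trans (hE'.trans hE))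
      (fun x hx => by
        rw [hlam']
        exact ((side_aff hR hτ hxc e3 hx).1).trans hQE)
      (fun x hx => by
        rw [hlam']
        refine (side_aff0 hR hτ hxc e4 hx).trans ?_
        rw [div_le_iff₀ hk0]
        have : C' ≤ k := by nlinarith
        nlinarith)
      (f0_quad h hτ hxc)
    refine le_trans (ENNReal.ofReal_le_ofReal ?_) (transport (N := N) hk0 hR hτ hxc
      (De := {y : ℝ | y ∈ Icc (0:ℝ) 3 ∧ 1 / 4 < |RoughAsm.F1 k (f0 k c s n n' m (τ * R) xc)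
        (Pf k c s (n + 1) m (τ * R) xc (N : ℝ))
        (dPf k c s (n + 1) m (τ * R) xc) (dPf k c s n m (τ * R) xc)
        (Pf k c (!s) (n' + 1) m (τ * R) xc ((0 : ℤ) : ℝ))
        (dPf k c (!s) (n' + 1) m (τ * R) xc) (dPf k c (!s) n' m (τ * R) xc) y|})
      (fun x hx => ⟨hx.1, Or.inl hx.2⟩) hbig)
    exact div_le_div_of_nonneg_right (min_le_right _ _) hR0.le

end Crest.Agent.R128.RAFin
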