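import Crest.Agent.R128.RABr3
import Crest.Agent.R128.RALem

set_option autoImplicit false

/-! Row 128, RA bridge (helper907, statement of helper155): the content after the first fresh digits
is locally quadratic. -/

open Metric MeasureTheory Set
open Crest.Agent.R128 Crest.Agent.R128.Cell Crest.Agent.R128.CellB
open Crest.Agent.R128.CellDy (kap sd)
open Crest.Agent.R128.Loc

namespace Crest.Agent.R128.RAQuad907

open Crest.Agent.R128.RoughAsm (Vr)
open Crest.Agent.R128.RABr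

/-- complex affine coordinate -/
noncomputable def tz (m S xc : ℝ) (w : ℂ) : ℂ := m + (w - xc) / S

theorem tz_ofReal (m S xc x : ℝ) : tz m S xc (x : ℂ) = ((tx m S xc x : ℝ) : ℂ) := by
  unfold tz tx; push_cast; ring

theorem hasDerivAt_tz (m S xc : ℝ) (w : ℂ) : HasDerivAt (tz m S xc) (1 / (S : ℂ)) w := by
  unfold tz
  have := (((hasDerivAt_id w).sub_const (xc : ℂ)).div_const (S : ℂ)).const_add (m : ℂ)
  simpa using this

/-- constant with `CL k = L0 * k` -/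
noncomputable def L0 : ℝ := 4 * Real.pi ^ 2 * Real.exp (2 * Real.pi)

theorem L0_pos : 0 < L0 := by unfold L0; positivity

theorem CL_eq {k : ℝ} (hk : 0 ≤ k) : CL k = L0 * k := by
  unfold CL L0; rw [abs_of_nonneg hk]; ring

/-- the radius -/
noncomputable def rd (κ : ℝ) : ℝ := κ / (10 ^ 5 * (L0 + 1))

theorem rd_pos {κ : ℝ} (h : 0 < κ) : 0 < rd κ := by
  unfold rd; have := L0_pos; positivity

theorem rd_le {κ : ℝ} (h1 : κ ≤ 1) (h0 : 0 < κ) : rd κ ≤ 1 / 10 ^ 5 := by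
  unfold rd
  have := L0_pos
  rw [div_le_div_iff₀ (by positivity) (by positivity)]
  nlinarith

theorem tz_ball {m S xc R x : ℝ} (hR : 1 ≤ R) (hS : |S| = R) (hxc : xc ∈ Icc (1:ℝ) 2)
    (hx : x ∈ Icc (1 / 4 : ℝ) (11 / 4)) {w : ℂ} (hw : ‖w - x‖ ≤ 1) :
    tz m S xc w ∈ ball (m : ℂ) (4 / R) := by
  have hR0 : 0 < R := by linarith
  rw [mem_ball, dist_eq_norm]
  have e : tz m S xc w - m = (w - xc) / S := by unfold tz; ring
  rw [e, norm_div, Complex.norm_real, Real.norm_eq_abs, hS]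
  apply div_lt_div_of_pos_right _ hR0
  have h1 : w - xc = (w - x) + ((x - xc : ℝ) : ℂ) := by push_cast; ring
  rw [h1]
  refine lt_of_le_of_lt (norm_add_le _ _) ?_
  rw [Complex.norm_real, Real.norm_eq_abs]
  have h2 : |x - xc| ≤ 7 / 4 := by
    rw [abs_le]; constructor <;> linarith [hx.1, hx.2, hxc.1, hxc.2]
  linarith

/-- one side -/
theorem side {k c m S xc R x κ v : ℝ} {s' : Bool} {j : ℕ} (hR : 1 ≤ R) (hS : |S| = R)
    (hxc : xc ∈ Icc (1:ℝ) 2) (hx : x ∈ Icc (1 / 4 : ℝ) (11 / 4)) (hκ : 0 < κ) (hκ1 : κ ≤ 1)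
    (hk : 2 ≤ k * κ) (hk0 : 0 < k) (hv1 : 1 ≤ |v|) (hv2 : |v| ≤ 10 ^ 4)
    (h1 : ∀ z ∈ ball (m : ℂ) (4 / R), ‖D k c s' (j + 1) z - ((v * R : ℝ) : ℂ)‖ ≤ |v| * R / 2)
    (h0 : ∀ z ∈ ball (m : ℂ) (4 / R), ‖D k c s' j z‖ ≤ |v| * R / 2)
    (hcos : κ ≤ |Real.cos (2 * Real.pi * yr k c s' (j + 1) (tx m S xc x))|)
    {w : ℂ} (hw : ‖w - x‖ < rd κ) :
    D k c s' (j + 1) (tz m S xc w) ≠ 0 ∧ D k c s' (j + 2) (tz m S xc w) ≠ 0 ∧
      ‖1 / (D k c s' (j + 1) (tz m S xc w) * D k c s' (j + 2) (tz m S xc w))‖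
        ≤ 2 / (k * κ * R ^ 2) := by
  have hR0 : 0 < R := by linarith
  have hv0 : 0 < |v| := by linarith
  have hL := L0_pos
  have hrd0 := rd_pos hκ
  have hrd := rd_le hκ1 hκ
  have hpi := Real.pi_gt_three
  have hbd : ∀ u : ℂ, ‖u - x‖ < rd κ → |v| * R / 2 ≤ ‖D k c s' (j + 1) (tz m S xc u)‖ ∧
      ‖D k c s' (j + 1) (tz m S xc u)‖ ≤ 3 / 2 * |v| * R := by
    intro u hu
    have hz : tz m S xc u ∈ ball (m : ℂ) (4 / R) := tz_ball hR hS hxc hx (by linarith)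
    have h := h1 _ hz
    have hn : ‖((v * R : ℝ) : ℂ)‖ = |v| * R := by
      rw [Complex.norm_real, Real.norm_eq_abs, abs_mul, abs_of_pos hR0]
    have t1 := norm_sub_norm_le ((v * R : ℝ) : ℂ) (((v * R : ℝ) : ℂ) - D k c s' (j + 1) (tz m S xc u))
    have t2 := norm_sub_norm_le (D k c s' (j + 1) (tz m S xc u)) ((v * R : ℝ) : ℂ)
    have e1 : ((v * R : ℝ) : ℂ) - (((v * R : ℝ) : ℂ) - D k c s' (j + 1) (tz m S xc u))
      = D k c s' (j + 1) (tz m S xc u) := by ring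
    rw [e1, norm_sub_rev ((v * R : ℝ) : ℂ), hn] at t1
    rw [hn] at t2
    constructor <;> linarith
  obtain ⟨hlo, hhi⟩ := hbd w hw
  -- movement of the digit
  have hmove : ‖Y k c s' (j + 1) (tz m S xc w) - Y k c s' (j + 1) (tz m S xc (x : ℂ))‖
      ≤ 3 / 2 * |v| * ‖w - x‖ := by
    have hder : ∀ u ∈ ball (x : ℂ) (rd κ), HasDerivWithinAt (fun u => Y k c s' (j + 1) (tz m S xc u))
        ((sg s' : ℂ) * D k c s' (j + 1) (tz m S xc u) * (1 / (S : ℂ))) (ball (x : ℂ) (rd κ)) u := by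
      intro u _
      exact ((hasDerivAt_Y k c s' (j + 1) (tz m S xc u)).comp u
        (hasDerivAt_tz m S xc u)).hasDerivWithinAt
    have hbound : ∀ u ∈ ball (x : ℂ) (rd κ),
        ‖(sg s' : ℂ) * D k c s' (j + 1) (tz m S xc u) * (1 / (S : ℂ))‖ ≤ 3 / 2 * |v| := by
      intro u hu
      rw [mem_ball, dist_eq_norm] at hu
      have h2 := (hbd u hu).2
      rw [norm_mul, norm_mul, Complex.norm_real, Real.norm_eq_abs, sg_abs, one_mul, norm_div,
        norm_one, Complex.norm_real, Real.norm_eq_abs, hS, mul_one_div, div_le_iff₀ hR0]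
      exact h2
    have := (convex_ball (x : ℂ) (rd κ)).norm_image_sub_le_of_norm_hasDerivWithin_le hder hbound
      (mem_ball_self hrd0) (show w ∈ ball (x : ℂ) (rd κ) by rw [mem_ball, dist_eq_norm]; exact hw)
    exact this
  have hYx : Y k c s' (j + 1) (tz m S xc (x : ℂ)) = ((yr k c s' (j + 1) (tx m S xc x) : ℝ) : ℂ) := by
    rw [tz_ofReal, ofReal_yr]
  have hmv : ‖Y k c s' (j + 1) (tz m S xc w) - Y k c s' (j + 1) (tz m S xc (x : ℂ))‖
      ≤ 15 * 10 ^ 3 * rd κ := by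
    refine hmove.trans ?_
    have hn := norm_nonneg (w - (x : ℂ))
    calc 3 / 2 * |v| * ‖w - (x : ℂ)‖ ≤ 3 / 2 * 10 ^ 4 * rd κ := by gcongr
      _ = _ := by ring
  have him : |(Y k c s' (j + 1) (tz m S xc w)).im| ≤ 1 := by
    have h2 := (Complex.abs_im_le_norm _).trans hmv
    rw [Complex.sub_im, hYx, Complex.ofReal_im, sub_zero] at h2
    refine h2.trans ?_
    nlinarith
  have him0 : |(Y k c s' (j + 1) (tz m S xc (x : ℂ))).im| ≤ 1 := by
    rw [hYx, Complex.ofReal_im, abs_zero]; norm_num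
  have hV := norm_cV_sub_le k him him0
  rw [CL_eq hk0.le] at hV
  have hrdL : L0 * rd κ * 10 ^ 5 ≤ κ := by
    unfold rd
    rw [mul_div_assoc', div_mul_eq_mul_div, div_le_iff₀ (by positivity)]
    nlinarith
  have hV2 : ‖cV k (Y k c s' (j + 1) (tz m S xc w)) - cV k (Y k c s' (j + 1) (tz m S xc (x : ℂ)))‖
      ≤ k * κ := by
    refine hV.trans ?_
    calc L0 * k * ‖Y k c s' (j + 1) (tz m S xc w) - Y k c s' (j + 1) (tz m S xc (x : ℂ))‖
        ≤ L0 * k * (15 * 10 ^ 3 * rd κ) := by gcongr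
      _ = k * (L0 * rd κ * 10 ^ 5) * (15 / 100) := by ring
      _ ≤ k * κ * (15 / 100) := by gcongr
      _ ≤ k * κ := by nlinarith
  have hVx : 5 * (k * κ) ≤ ‖cV k (Y k c s' (j + 1) (tz m S xc (x : ℂ)))‖ := by
    rw [hYx, cV_real, Complex.norm_real, Real.norm_eq_abs]
    unfold Vr
    set C := Real.cos (2 * Real.pi * yr k c s' (j + 1) (tx m S xc x)) with hC
    have h3 : |2 * Real.pi * k * C| = 2 * Real.pi * k * |C| := by
      rw [abs_mul, abs_of_pos (by positivity)]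
    have h4 : |2 * Real.pi * k * C| ≤ |2 + 2 * Real.pi * k * C| + 2 := by
      have := abs_sub (2 + 2 * Real.pi * k * C) 2
      rw [abs_of_pos (by norm_num : (0:ℝ) < 2)] at this
      calc |2 * Real.pi * k * C| = |2 + 2 * Real.pi * k * C - 2| := by congr 1; ring
        _ ≤ _ := this
    have h5 : 2 * Real.pi * k * κ ≤ 2 * Real.pi * k * |C| :=
      mul_le_mul_of_nonneg_left hcos (by positivity)
    have h6 : 6 * (k * κ) ≤ 2 * Real.pi * k * κ := by
      have : 0 < k * κ := by positivity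
      nlinarith
    linarith
  have hVw : 4 * (k * κ) ≤ ‖cV k (Y k c s' (j + 1) (tz m S xc w))‖ := by
    have := norm_sub_norm_le (cV k (Y k c s' (j + 1) (tz m S xc (x : ℂ))))
      (cV k (Y k c s' (j + 1) (tz m S xc w)))
    rw [norm_sub_rev] at this
    linarith
  have hz : tz m S xc w ∈ ball (m : ℂ) (4 / R) := tz_ball hR hS hxc hx (by linarith)
  have hD2 : k * κ * R ≤ ‖D k c s' (j + 2) (tz m S xc w)‖ := by
    rw [RABr.D_add_two]
    have h2 := norm_sub_norm_le (cV k (Y k c s' (j + 1) (tz m S xc w)) * D k c s' (j + 1) (tz m S xc w))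
      (D k c s' j (tz m S xc w))
    rw [norm_mul] at h2
    have h3 := h0 _ hz
    have h4 : 4 * (k * κ) * (|v| * R / 2) ≤ ‖cV k (Y k c s' (j + 1) (tz m S xc w))‖ *
        ‖D k c s' (j + 1) (tz m S xc w)‖ := by
      gcongr
    have h5 : 0 < |v| * R := by positivity
    have h6 : k * κ * R ≤ k * κ * (|v| * R) := by
      have : R ≤ |v| * R := by nlinarith
      gcongr
    nlinarith
  have hD1pos : 0 < ‖D k c s' (j + 1) (tz m S xc w)‖ := lt_of_lt_of_le (by positivity) hlo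
  have hD2pos : 0 < ‖D k c s' (j + 2) (tz m S xc w)‖ := lt_of_lt_of_le (by positivity) hD2
  refine ⟨norm_pos_iff.1 hD1pos, norm_pos_iff.1 hD2pos, ?_⟩
  rw [norm_div, norm_one, norm_mul]
  rw [div_le_div_iff₀ (by positivity) (by positivity)]
  have h7 : R / 2 ≤ ‖D k c s' (j + 1) (tz m S xc w)‖ := by
    refine le_trans ?_ hlo
    have : R ≤ |v| * R := by nlinarith
    linarith
  have h8 : R / 2 * (k * κ * R) ≤ ‖D k c s' (j + 1) (tz m S xc w)‖ *
      ‖D k c s' (j + 2) (tz m S xc w)‖ := by gcongr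
  nlinarith

set_option maxHeartbeats 1000000 in
theorem quad_local {C1 κ ρR : ℝ} (hκ : 0 < κ) (hκ1 : κ ≤ 1) (hρ : 0 < ρR) : ∃ k1 : ℝ, ∀ k : ℝ,
    k1 ≤ k → ∀ (c : ℝ) (s : Bool) (n n' : ℕ) (m R lam q0 q1 q2 : ℝ), |lam| ≤ 10 ^ 4 →
    Cell3 k c s n n' m R lam C1 q0 q1 q2 → ∀ (τ xc : ℝ) (N : ℤ), (τ = 1 ∨ τ = -1) →
    xc ∈ Icc (1:ℝ) 2 → ∀ x ∈ Icc (1/4 : ℝ) (11/4),
    κ ≤ |Real.cos (2 * Real.pi * yr k c s (n + 1) (tx m (τ * R) xc x))| →
    κ ≤ |Real.cos (2 * Real.pi * yr k c (!s) (n' + 1) (tx m (τ * R) xc x))| →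
    ∃ a0 a1 a2 : ℝ, ∀ y, |y - x| ≤ ρR / k →
      |F1c k c s n n' m (τ * R) xc N y - (a0 + a1 * y + a2 * y ^ 2)| ≤ 1 / (8 * (18 * k) ^ 2) := by
  obtain ⟨C, hC⟩ : ∃ C, C = max C1 1 := ⟨_, rfl⟩
  have hC1 : 1 ≤ C := by rw [hC]; exact le_max_right _ _
  have hCC : C1 ≤ C := by rw [hC]; exact le_max_left _ _
  have hr0 := rd_pos hκ
  have hr1 := rd_le hκ1 hκ
  obtain ⟨r, hr⟩ : ∃ r, r = rd κ := ⟨_, rfl⟩
  rw [← hr] at hr0 hr1
  refine ⟨2 * 10 ^ 4 * C + 2 / κ + 2 * ρR / r + 300000 * ρR ^ 3 / (κ * r ^ 3) + 1, ?_⟩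
  intro k hkK c s n n' m R lam q0 q1 q2 hlam hcell τ xc N hτ hxc x hx hcP hcQ
  have p1 : 0 < 2 / κ := by positivity
  have p2 : 0 < 2 * ρR / r := by positivity
  have p3 : 0 < 300000 * ρR ^ 3 / (κ * r ^ 3) := by positivity
  have hk1 : 1 ≤ k := by linarith
  have hk0 : 0 < k := by linarith
  have hkC : 2 * 10 ^ 4 * C ≤ k := by linarith
  have hkκ : 2 ≤ k * κ := by
    have : 2 / κ ≤ k := by linarith
    rwa [div_le_iff₀ hκ] at this
  have hkr : 2 * ρR ≤ k * r := by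
    have : 2 * ρR / r ≤ k := by linarith
    rwa [div_le_iff₀ hr0] at this
  have hk3 : 300000 * ρR ^ 3 ≤ k * (κ * r ^ 3) := by
    have : 300000 * ρR ^ 3 / (κ * r ^ 3) ≤ k := by linarith
    rwa [div_le_iff₀ (by positivity)] at this
  have hR := hcell.hR
  have hR0 : 0 < R := by linarith
  have hτ1 : |τ| = 1 := by rcases hτ with h | h <;> rw [h] <;> simp
  have hτ0 : τ ≠ 0 := by rcases hτ with h | h <;> rw [h] <;> norm_num
  have hττ : τ * τ = 1 := by rcases hτ with h | h <;> rw [h] <;> norm_num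
  obtain ⟨S, hSdef⟩ : ∃ S, S = τ * R := ⟨_, rfl⟩
  rw [← hSdef] at hcP hcQ ⊢
  have hS : |S| = R := by rw [hSdef, abs_mul, hτ1, one_mul, abs_of_pos hR0]
  have hS0 : S ≠ 0 := by rw [hSdef]; exact mul_ne_zero hτ0 hR0.ne'
  have hS2 : S ^ 2 = R ^ 2 := by rw [← sq_abs, hS]
  have hCk : C / k ≤ 1 / 2 := by
    rw [div_le_div_iff₀ hk0 (by norm_num)]; linarith
  have hCk2 : C * 10 ^ 4 / k ≤ 1 / 2 := by
    rw [div_le_div_iff₀ hk0 (by norm_num)]; linarith
  obtain ⟨σ, hσ, e1, e2, e3, e4⟩ := extract hcell hk0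
  rw [← hC] at e1 e2 e3 e4
  have hσ1 : |σ| = 1 := by rcases hσ with h | h <;> rw [h] <;> simp
  have hl1 := hcell.hlam
  have hl0 : 0 < |lam| := by linarith
  have b1 : ∀ z ∈ ball (m : ℂ) (4 / R), ‖D k c s (n + 1) z - ((σ * R : ℝ) : ℂ)‖ ≤ |σ| * R / 2 := by
    intro z hz
    refine (e1 z hz).trans ?_
    rw [hσ1]
    have : C / k * R ≤ 1 / 2 * R := by gcongr
    linarith
  have b2 : ∀ z ∈ ball (m : ℂ) (4 / R), ‖D k c s n z‖ ≤ |σ| * R / 2 := by
    intro z hz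
    refine (e2 z hz).trans ?_
    rw [hσ1]
    have : C / k * R ≤ 1 / 2 * R := by gcongr
    linarith
  have b3 : ∀ z ∈ ball (m : ℂ) (4 / R), ‖D k c (!s) (n' + 1) z - ((lam * R : ℝ) : ℂ)‖
      ≤ |lam| * R / 2 := by
    intro z hz
    refine (e3 z hz).trans ?_
    have h5 : C * |lam| ^ 2 / k ≤ 1 / 2 * |lam| := by
      calc C * |lam| ^ 2 / k = (C * |lam| / k) * |lam| := by ring
        _ ≤ (C * 10 ^ 4 / k) * |lam| := by gcongr
        _ ≤ 1 / 2 * |lam| := by gcongr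
    calc C * |lam| ^ 2 / k * R ≤ 1 / 2 * |lam| * R := by gcongr
      _ = _ := by ring
  have b4 : ∀ z ∈ ball (m : ℂ) (4 / R), ‖D k c (!s) n' z‖ ≤ |lam| * R / 2 := by
    intro z hz
    refine (e4 z hz).trans ?_
    calc C * |lam| / k * R = C / k * |lam| * R := by ring
      _ ≤ 1 / 2 * |lam| * R := by gcongr
      _ = _ := by ring
  -- the two sides
  have sP : ∀ w : ℂ, ‖w - x‖ < rd κ → _ := fun w hw =>
    side (s' := s) (j := n) hR hS hxc hx hκ hκ1 hkκ hk0 (by rw [hσ1]) (by rw [hσ1]; norm_num) b1 b2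
      hcP hw
  have sQ : ∀ w : ℂ, ‖w - x‖ < rd κ → _ := fun w hw =>
    side (s' := !s) (j := n') hR hS hxc hx hκ hκ1 hkκ hk0 hl1 hlam b3 b4 hcQ hw
  -- the holomorphic function
  set g : ℂ → ℂ := fun w => -((2 * Real.pi * k * R ^ 2 : ℝ) : ℂ) *
      (cont k c s (n + 1) (n' + 1) (tz m S xc w)
        - 1 / (D k c s (n + 1) (tz m S xc w) * D k c s (n + 2) (tz m S xc w))
        - 1 / (D k c (!s) (n' + 1) (tz m S xc w) * D k c (!s) (n' + 2) (tz m S xc w)))
      + (q0 + q1 * ((τ : ℂ) * (w - xc)) + q2 * ((τ : ℂ) * (w - xc)) ^ 2) with hg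
  set G : ℝ → ℝ := fun y => F1c k c s n n' m S xc N y
      + (q0 + q1 * (τ * (y - xc)) + q2 * (τ * (y - xc)) ^ 2) with hG
  have hτinv : ((R : ℝ) : ℂ) / (S : ℂ) = (τ : ℂ) := by
    rw [hSdef]
    have : (R : ℂ) ≠ 0 := by exact_mod_cast hR0.ne'
    have h3 : (τ : ℂ) ≠ 0 := by exact_mod_cast hτ0
    have h4 : (τ : ℂ) * τ = 1 := by exact_mod_cast hττ
    push_cast
    rw [div_eq_iff (mul_ne_zero h3 this)]
    rw [← mul_assoc, h4, one_mul]
  have hRz : ∀ w : ℂ, (R : ℂ) * (tz m S xc w - m) = (τ : ℂ) * (w - xc) := by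
    intro w
    unfold tz
    rw [← hτinv]
    ring
  have hdiff : DifferentiableOn ℂ g (ball (x : ℂ) r) := by
    intro w hw
    rw [mem_ball, dist_eq_norm, hr] at hw
    obtain ⟨a1, a2, -⟩ := sP w hw
    obtain ⟨a1', a2', -⟩ := sQ w hw
    apply DifferentiableAt.differentiableWithinAt
    have htz : DifferentiableAt ℂ (tz m S xc) w := (hasDerivAt_tz m S xc w).differentiableAt
    have d1 : DifferentiableAt ℂ (fun w => cont k c s (n + 1) (n' + 1) (tz m S xc w)) w :=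
      (RALem.differentiableAt_cont a1 a1').comp w htz
    have dD : ∀ (s' : Bool) (j : ℕ), DifferentiableAt ℂ (fun w => D k c s' j (tz m S xc w)) w :=
      fun s' j => (differentiable_D k c s' j _).comp w htz
    have d2 : DifferentiableAt ℂ (fun w => 1 / (D k c s (n + 1) (tz m S xc w) *
        D k c s (n + 2) (tz m S xc w))) w :=
      (differentiableAt_const _).div ((dD s (n + 1)).mul (dD s (n + 2))) (mul_ne_zero a1 a2)
    have d3 : DifferentiableAt ℂ (fun w => 1 / (D k c (!s) (n' + 1) (tz m S xc w) *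
        D k c (!s) (n' + 2) (tz m S xc w))) w :=
      (differentiableAt_const _).div ((dD (!s) (n' + 1)).mul (dD (!s) (n' + 2))) (mul_ne_zero a1' a2')
    have d4 : DifferentiableAt ℂ (fun w : ℂ => (q0 + q1 * ((τ : ℂ) * (w - xc)) +
        q2 * ((τ : ℂ) * (w - xc)) ^ 2 : ℂ)) w := by
      fun_prop
    exact (((differentiableAt_const _).mul ((d1.sub d2).sub d3))).add d4
  have hreal : ∀ u : ℝ, |u - x| < r → g u = G u := by
    intro u _
    rw [hg, hG]
    simp only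
    rw [F1c_eq hS0, tz_ofReal, ← ofReal_cr, ← ofReal_dr, ← ofReal_dr, ← ofReal_dr, ← ofReal_dr, hS2]
    push_cast
    ring
  have hbound : ∀ w ∈ ball (x : ℂ) r, ‖g w‖ ≤ 27 / κ := by
    intro w hw
    rw [mem_ball, dist_eq_norm, hr] at hw
    obtain ⟨-, -, a3⟩ := sP w hw
    obtain ⟨-, -, a3'⟩ := sQ w hw
    have hz : tz m S xc w ∈ ball (m : ℂ) (4 / R) :=
      tz_ball hR hS hxc hx (by rw [← hr] at hw; linarith)
    have hq := hcell.quad _ hz
    have e : g w = -(((2 * Real.pi * k * R ^ 2 : ℝ) : ℂ) * cont k c s (n + 1) (n' + 1) (tz m S xc w)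
          - (q0 + q1 * ((R : ℂ) * (tz m S xc w - m)) + q2 * ((R : ℂ) * (tz m S xc w - m)) ^ 2))
        + ((2 * Real.pi * k * R ^ 2 : ℝ) : ℂ) *
          (1 / (D k c s (n + 1) (tz m S xc w) * D k c s (n + 2) (tz m S xc w)))
        + ((2 * Real.pi * k * R ^ 2 : ℝ) : ℂ) *
          (1 / (D k c (!s) (n' + 1) (tz m S xc w) * D k c (!s) (n' + 2) (tz m S xc w))) := by
      rw [hRz, hg]
      simp only
      ring
    have hU : ‖((2 * Real.pi * k * R ^ 2 : ℝ) : ℂ)‖ = 2 * Real.pi * k * R ^ 2 := by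
      rw [Complex.norm_real, Real.norm_eq_abs, abs_of_pos]
      have := Real.pi_pos
      positivity
    have hpi := Real.pi_lt_d2
    have hpi0 := Real.pi_pos
    have hterm : 2 * Real.pi * k * R ^ 2 * (2 / (k * κ * R ^ 2)) ≤ 13 / κ := by
      have : 2 * Real.pi * k * R ^ 2 * (2 / (k * κ * R ^ 2)) = 4 * Real.pi / κ := by
        field_simp
        ring
      rw [this]
      apply div_le_div_of_nonneg_right _ hκ.le
      linarith
    rw [e]
    refine (norm_add_le _ _).trans ?_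
    have h1 := norm_add_le (-(((2 * Real.pi * k * R ^ 2 : ℝ) : ℂ) * cont k c s (n + 1) (n' + 1) (tz m S xc w)
          - (q0 + q1 * ((R : ℂ) * (tz m S xc w - m)) + q2 * ((R : ℂ) * (tz m S xc w - m)) ^ 2)))
        (((2 * Real.pi * k * R ^ 2 : ℝ) : ℂ) *
          (1 / (D k c s (n + 1) (tz m S xc w) * D k c s (n + 2) (tz m S xc w))))
    rw [norm_neg] at h1
    have h2 : ‖((2 * Real.pi * k * R ^ 2 : ℝ) : ℂ) *
          (1 / (D k c s (n + 1) (tz m S xc w) * D k c s (n + 2) (tz m S xc w)))‖ ≤ 13 / κ := by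
      rw [norm_mul, hU]
      exact (mul_le_mul_of_nonneg_left a3 (by positivity)).trans hterm
    have h3 : ‖((2 * Real.pi * k * R ^ 2 : ℝ) : ℂ) *
          (1 / (D k c (!s) (n' + 1) (tz m S xc w) * D k c (!s) (n' + 2) (tz m S xc w)))‖ ≤ 13 / κ := by
      rw [norm_mul, hU]
      exact (mul_le_mul_of_nonneg_left a3' (by positivity)).trans hterm
    have h4 : (1:ℝ) / 16 + 13 / κ + 13 / κ ≤ 27 / κ := by
      have : 1 ≤ 1 / κ := by rw [le_div_iff₀ hκ]; linarith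
      have e5 : 27 / κ = 13 / κ + 13 / κ + 1 / κ := by ring
      linarith
    linarith
  have hB : ∀ w ∈ ball (x : ℂ) r, ‖g w - g x‖ ≤ 54 / κ := by
    intro w hw
    refine (norm_sub_le _ _).trans ?_
    have h1 := hbound w hw
    have h2 := hbound x (mem_ball_self hr0)
    have : 54 / κ = 27 / κ + 27 / κ := by ring
    linarith
  obtain ⟨a, b, -, -, hab⟩ := TaylorTwo.taylor_two_real hr0 hdiff hB hreal
  refine ⟨G x - a * x + b * x ^ 2 - q0 + q1 * τ * xc - q2 * xc ^ 2,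
    a - 2 * b * x - q1 * τ + 2 * q2 * xc, b - q2, ?_⟩
  intro y hy
  have hy2 : |y - x| ≤ r / 2 := by
    refine hy.trans ?_
    rw [div_le_div_iff₀ hk0 (by norm_num)]
    linarith
  have h1 := hab y hy2
  have e : F1c k c s n n' m S xc N y - ((G x - a * x + b * x ^ 2 - q0 + q1 * τ * xc - q2 * xc ^ 2)
      + (a - 2 * b * x - q1 * τ + 2 * q2 * xc) * y + (b - q2) * y ^ 2)
      = G y - (G x + a * (y - x) + b * (y - x) ^ 2) := by
    have : F1c k c s n n' m S xc N y = G y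
        - (q0 + q1 * (τ * (y - xc)) + q2 * (τ * (y - xc)) ^ 2) := by
      rw [hG]; ring
    rw [this]
    linear_combination (-(q2 * (y - xc) ^ 2)) * hττ
  rw [e]
  refine h1.trans ?_
  have hyr : |y - x| / r ≤ ρR / (k * r) := by
    rw [← div_div]
    exact div_le_div_of_nonneg_right hy hr0.le
  calc 2 * (54 / κ) * (|y - x| / r) ^ 3 ≤ 2 * (54 / κ) * (ρR / (k * r)) ^ 3 := by
        gcongr
    _ = 108 * ρR ^ 3 / (κ * r ^ 3 * k * k ^ 2) := by
        field_simp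
        ring
    _ ≤ 1 / (8 * (18 * k) ^ 2) := by
        rw [div_le_div_iff₀ (by positivity) (by positivity)]
        have h5 : 0 < k ^ 2 := by positivity
        nlinarith [mul_le_mul_of_nonneg_right hk3 h5.le, pow_pos hρ 3]

end Crest.Agent.R128.RAQuad907
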