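import Crest.Agent.R128.RAFin
import Crest.Agent.R128.RAQuad907

set_option autoImplicit false

/-! Row 128, V5-RA: `Loc.RA` = helper155's bridge `RAFin.ra_of_quad` applied to `quad_local`
(helper907). -/

namespace Crest.Agent.R128.RAFin907

open Crest.Agent.R128

/-- **RA** -/
theorem ra : Loc.RA :=
  RAFin.ra_of_quad (fun _ _ _ h1 h2 h3 => RAQuad907.quad_local h1 h2 h3)

end Crest.Agent.R128.RAFin907
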