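import Crest.Agent.R128.RoughAsm2

/-!
# Row 128, RA: a point of the cell where the next two derivatives do not vanish (helper660, for 155)
-/

set_option autoImplicit false

namespace Crest.Agent.R128.RANe

open MeasureTheory Real Set
open Crest.Agent.R128.RoughAsm

theorem exists_ne {k lam : ℝ} {P P0 dP dP0 : ℝ → ℝ} (hk : 1000 ≤ k) (hlam : 1 ≤ |lam|)
    (hP : ∀ x ∈ Icc (0:ℝ) 3, HasDerivAt P (dP x) x)
    (hP0 : ∀ x ∈ Icc (0:ℝ) 3, HasDerivAt P0 (dP0 x) x)
    (h1 : ∀ x ∈ Icc (0:ℝ) 3, |dP x - lam| ≤ |lam| / 10)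
    (h2 : ∀ x ∈ Icc (0:ℝ) 3, |dP0 x| ≤ |lam| / 10) :
    ∃ x ∈ Icc (0:ℝ) 3, dnx k P dP dP0 x ≠ 0 ∧
      Vr k (nx k P P0 x) * dnx k P dP dP0 x - dP x ≠ 0 := by
  have hpi := Real.pi_pos
  have hpi3 := Real.pi_gt_three
  have hpi4 : π < 3.15 := Real.pi_lt_d2
  have hl0 : 0 < |lam| := by linarith
  -- `P` is bi-Lipschitz
  have hlin : ∀ x ∈ Icc (0:ℝ) 3, ∀ y ∈ Icc (0:ℝ) 3,
      |(P y - lam * y) - (P x - lam * x)| ≤ |lam| / 10 * |y - x| := by
    intro x hx y hy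
    refine mvt (f := fun t => P t - lam * t) (f' := fun t => dP t - lam)
      (fun t ht => ?_) (fun t ht => h1 t (uIcc_sub hx hy ht))
    have := (hP t (uIcc_sub hx hy ht)).sub ((hasDerivAt_id t).const_mul lam)
    exact this.congr_deriv (by ring)
  have hlow : ∀ x ∈ Icc (0:ℝ) 3, ∀ y ∈ Icc (0:ℝ) 3, 9 / 10 * |lam| * |y - x| ≤ |P y - P x| := by
    intro x hx y hy
    have h := hlin x hx y hy
    have h3 : |lam * (y - x)| ≤ |P y - P x| + |(P y - lam * y) - (P x - lam * x)| := by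
      have e : lam * (y - x) = (P y - P x) - ((P y - lam * y) - (P x - lam * x)) := by ring
      rw [e]
      exact abs_sub _ _
    rw [abs_mul] at h3
    linarith
  have hup : ∀ x ∈ Icc (0:ℝ) 3, ∀ y ∈ Icc (0:ℝ) 3, |P y - P x| ≤ 11 / 10 * |lam| * |y - x| := by
    intro x hx y hy
    have h := hlin x hx y hy
    have h3 : |P y - P x| ≤ |lam * (y - x)| + |(P y - lam * y) - (P x - lam * x)| := by
      have e : P y - P x = lam * (y - x) + ((P y - lam * y) - (P x - lam * x)) := by ring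
      rw [e]
      exact abs_add_le _ _
    rw [abs_mul] at h3
    linarith
  have hPc : ContinuousOn P (Icc 0 3) := fun x hx => (hP x hx).continuousAt.continuousWithinAt
  have hP0c : ContinuousOn P0 (Icc 0 3) := fun x hx => (hP0 x hx).continuousAt.continuousWithinAt
  have m0 : (0:ℝ) ∈ Icc (0:ℝ) 3 := by norm_num
  have m3 : (3:ℝ) ∈ Icc (0:ℝ) 3 := by norm_num
  have hgap : 27 / 10 ≤ |P 3 - P 0| := by
    have := hlow 0 m0 3 m3
    rw [sub_zero, abs_of_pos (by norm_num : (0:ℝ) < 3)] at this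
    linarith
  obtain ⟨mn, hmn⟩ : ∃ a, a = min (P 0) (P 3) := ⟨_, rfl⟩
  obtain ⟨mx, hmx⟩ : ∃ a, a = max (P 0) (P 3) := ⟨_, rfl⟩
  have hmm : mn + 27 / 10 ≤ mx := by
    have := max_sub_min_eq_abs (P 0) (P 3)
    rw [← hmn, ← hmx] at this
    linarith
  set j : ℤ := ⌈mn⌉ with hj
  have hj1 : mn ≤ j := Int.le_ceil _
  have hj2 : (j : ℝ) < mn + 1 := Int.ceil_lt_add_one _
  have hivt : ∀ v : ℝ, mn ≤ v → v ≤ mx → ∃ x ∈ Icc (0:ℝ) 3, P x = v := by
    intro v h3 h4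
    have hc : ContinuousOn P (uIcc 0 3) := by rwa [uIcc_of_le (by norm_num)]
    have hv : v ∈ uIcc (P 0) (P 3) := by
      rw [Set.mem_uIcc]
      rcases le_total (P 0) (P 3) with h5 | h5
      · rw [min_eq_left h5] at hmn
        rw [max_eq_right h5] at hmx
        exact Or.inl ⟨by linarith, by linarith⟩
      · rw [min_eq_right h5] at hmn
        rw [max_eq_left h5] at hmx
        exact Or.inr ⟨by linarith, by linarith⟩
    obtain ⟨x, hx, hxv⟩ := intermediate_value_uIcc hc hv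
    rw [uIcc_of_le (by norm_num)] at hx
    exact ⟨x, hx, hxv⟩
  obtain ⟨x1, hx1, hv1⟩ := hivt j hj1 (by linarith)
  obtain ⟨x2, hx2, hv2⟩ := hivt (j + 1 / 10) (by linarith) (by linarith)
  have hlen : |lam| * |x2 - x1| ≤ 1 / 9 := by
    have := hlow x1 hx1 x2 hx2
    rw [hv1, hv2, show (j : ℝ) + 1 / 10 - j = 1 / 10 by ring,
      abs_of_pos (by norm_num : (0:ℝ) < 1 / 10)] at this
    linarith
  have hnear : ∀ x ∈ uIcc x1 x2, |P x - j| ≤ 1 / 8 := by
    intro x hx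
    have hxI := uIcc_sub hx1 hx2 hx
    have h3 := hup x1 hx1 x hxI
    rw [hv1] at h3
    have h4 : |x - x1| ≤ |x2 - x1| := by
      have := abs_sub_left_of_mem_uIcc hx
      exact this
    have h5 : 11 / 10 * |lam| * |x - x1| ≤ 11 / 10 * (|lam| * |x2 - x1|) := by
      rw [mul_assoc]
      have := mul_le_mul_of_nonneg_left h4 hl0.le
      linarith
    linarith
  have hnxc : ContinuousOn (nx k P P0) (uIcc x1 x2) := by
    have hsub : uIcc x1 x2 ⊆ Icc (0:ℝ) 3 := uIcc_sub hx1 hx2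
    have c1 := hPc.mono hsub
    have c2 := hP0c.mono hsub
    unfold nx
    exact ((c1.const_mul 2).add ((Real.continuous_sin.comp_continuousOn
      (c1.const_mul (2 * π))).const_mul k)).sub c2
  have hdiff : nx k P P0 x1 + 1 ≤ nx k P P0 x2 := by
    have h3 : |P0 x2 - P0 x1| ≤ |lam| / 10 * |x2 - x1| :=
      mvt (fun t ht => hP0 t (uIcc_sub hx1 hx2 ht)) (fun t ht => h2 t (uIcc_sub hx1 hx2 ht))
    have h4 := abs_le.mp h3
    have h5 : |lam| / 10 * |x2 - x1| ≤ 1 / 90 := by linarith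
    have hs1 : Real.sin (2 * π * P x1) = 0 := by
      rw [hv1, show 2 * π * (j : ℝ) = ((2 * j : ℤ) : ℝ) * π by push_cast; ring]
      exact Real.sin_int_mul_pi _
    have hs2 : 4 / 10 ≤ Real.sin (2 * π * P x2) := by
      rw [hv2, show 2 * π * ((j : ℝ) + 1 / 10) = 2 * π * (1 / 10) + (j : ℝ) * (2 * π) by ring,
        Real.sin_add_int_mul_two_pi]
      have := Real.mul_le_sin (x := 2 * π * (1 / 10)) (by positivity) (by linarith)
      have e : 2 / π * (2 * π * (1 / 10)) = 4 / 10 := by field_simp; norm_num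
      linarith
    unfold nx
    rw [hv1, hv2] at *
    rw [hs1]
    have : k * (4 / 10) ≤ k * Real.sin (2 * π * ((j : ℝ) + 1 / 10)) :=
      mul_le_mul_of_nonneg_left hs2 (by linarith)
    linarith [h4.1, h4.2]
  obtain ⟨x, hx, hxN⟩ : ∃ x ∈ uIcc x1 x2, nx k P P0 x = (⌈nx k P P0 x1⌉ : ℤ) := by
    have hv : ((⌈nx k P P0 x1⌉ : ℤ) : ℝ) ∈ uIcc (nx k P P0 x1) (nx k P P0 x2) := by
      rw [uIcc_of_le (by linarith)]
      exact ⟨Int.le_ceil _, by linarith [Int.ceil_lt_add_one (nx k P P0 x1)]⟩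
    obtain ⟨x, hx, hxv⟩ := intermediate_value_uIcc hnxc hv
    exact ⟨x, hx, hxv⟩
  have hxI := uIcc_sub hx1 hx2 hx
  have hPx := hnear x hx
  have hcos : 4 / 10 ≤ Real.cos (2 * π * P x) := by
    rw [show 2 * π * P x = 2 * π * (P x - j) + (j : ℝ) * (2 * π) by ring,
      Real.cos_add_int_mul_two_pi]
    obtain ⟨w, hw⟩ : ∃ w, w = 2 * π * (P x - j) := ⟨_, rfl⟩
    rw [← hw]
    have hw1 : |w| ≤ 8 / 10 := by
      rw [hw, abs_mul, abs_of_pos (by positivity : 0 < 2 * π)]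
      calc 2 * π * |P x - j| ≤ 2 * π * (1 / 8) := mul_le_mul_of_nonneg_left hPx (by positivity)
        _ ≤ 8 / 10 := by linarith
    have hw2 := Real.one_sub_sq_div_two_le_cos (x := w)
    have hw3 : w ^ 2 ≤ (8 / 10) ^ 2 := by
      rw [← sq_abs]
      exact pow_le_pow_left₀ (abs_nonneg _) hw1 2
    linarith
  have hdP : 9 / 10 * |lam| ≤ |dP x| ∧ |dP x| ≤ 11 / 10 * |lam| := by
    have h3 := h1 x hxI
    constructor
    · have := abs_sub_abs_le_abs_sub lam (dP x)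
      rw [abs_sub_comm] at this
      linarith
    · have := abs_sub_abs_le_abs_sub (dP x) lam
      linarith
  have hVr : k ≤ Vr k (P x) := by
    unfold Vr
    have : 2 * π * k * (4 / 10) ≤ 2 * π * k * Real.cos (2 * π * P x) :=
      mul_le_mul_of_nonneg_left hcos (by positivity)
    nlinarith
  have hdnx : k / 2 * |lam| ≤ |dnx k P dP dP0 x| := by
    unfold dnx
    have h3 := abs_sub_abs_le_abs_sub (Vr k (P x) * dP x) (dP0 x)
    rw [abs_mul, abs_of_nonneg (by linarith : 0 ≤ Vr k (P x))] at h3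
    have h4 := h2 x hxI
    have h5 : k * (9 / 10 * |lam|) ≤ Vr k (P x) * |dP x| :=
      mul_le_mul hVr hdP.1 (by positivity) (by linarith)
    nlinarith
  have hVN : 1 ≤ Vr k (nx k P P0 x) := by
    unfold Vr
    rw [hxN, show 2 * π * ((⌈nx k P P0 x1⌉ : ℤ) : ℝ) = ((⌈nx k P P0 x1⌉ : ℤ) : ℝ) * (2 * π) by ring,
      Real.cos_int_mul_two_pi]
    have : 0 ≤ 2 * π * k * 1 := by positivity
    linarith
  refine ⟨x, hxI, ?_, ?_⟩
  · intro h0
    rw [h0, abs_zero] at hdnx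
    nlinarith
  · intro h0
    have h3 : Vr k (nx k P P0 x) * dnx k P dP dP0 x = dP x := by linarith
    have h4 : |Vr k (nx k P P0 x)| * |dnx k P dP dP0 x| = |dP x| := by rw [← abs_mul, h3]
    rw [abs_of_pos (by linarith : 0 < Vr k (nx k P P0 x))] at h4
    have h5 : 1 * |dnx k P dP dP0 x| ≤ Vr k (nx k P P0 x) * |dnx k P dP dP0 x| :=
      mul_le_mul_of_nonneg_right hVN (abs_nonneg _)
    nlinarith [hdP.2]

end Crest.Agent.R128.RANe
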