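import Crest.Agent.R128.LocDef

/-!
# Row 128, node V5-RA (helper793): real values and one step of `cont`
-/

set_option autoImplicit false

open Metric MeasureTheory Set
open Crest.Agent.R128 Crest.Agent.R128.Cell Crest.Agent.R128.CellB Crest.Agent.R128.CellDy
open Crest.Agent.R128.Loc

namespace Crest.Agent.R128.RAPre

/-- real starting point -/
noncomputable def sdR (k c : ℝ) (s : Bool) (t : ℝ) : ℝ := if s then t else kap k c - t

theorem sdC_ofReal (k c : ℝ) (s : Bool) (t : ℝ) : sdC k c s (t : ℂ) = ((sdR k c s t : ℝ) : ℂ) := by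
  cases s <;> simp [sdC, sdR]

theorem im_Y (k c : ℝ) (s : Bool) (n : ℕ) (t : ℝ) : (Y k c s n (t : ℂ)).im = 0 := by
  unfold Y; rw [sdC_ofReal]; exact im_y_ofReal k c n _

theorem im_D (k c : ℝ) (s : Bool) (n : ℕ) (t : ℝ) : (D k c s n (t : ℂ)).im = 0 := by
  unfold D; rw [sdC_ofReal, yd_ofReal]; exact Complex.ofReal_im _

theorem Y_re (k c : ℝ) (s : Bool) (n : ℕ) (t : ℝ) :
    Y k c s n (t : ℂ) = (((Y k c s n (t : ℂ)).re : ℝ) : ℂ) :=
  Complex.ext (by simp) (by simp [im_Y])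

theorem D_re (k c : ℝ) (s : Bool) (n : ℕ) (t : ℝ) :
    D k c s n (t : ℂ) = (((D k c s n (t : ℂ)).re : ℝ) : ℂ) :=
  Complex.ext (by simp) (by simp [im_D])

theorem cV_re (k : ℝ) (x : ℝ) : cV k (x : ℂ) = ((2 + 2 * Real.pi * k * Real.cos (2 * Real.pi * x) : ℝ) : ℂ) := by
  unfold cV; push_cast; ring_nf

theorem dg_re (k c : ℝ) (s : Bool) (n : ℕ) (t : ℝ) : dg k c s (t : ℂ) n =
    ((2 + 2 * Real.pi * k * Real.cos (2 * Real.pi * (Y k c s n (t : ℂ)).re) : ℝ) : ℂ) := by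
  unfold dg; rw [Y_re, cV_re]; simp

theorem D_add_two (k c : ℝ) (s : Bool) (n : ℕ) (z : ℂ) :
    D k c s (n + 2) z = dg k c s z (n + 1) * D k c s (n + 1) z - D k c s n z := by
  unfold D dg Y; rw [yd_add_two]

theorem Y_add_two (k c : ℝ) (s : Bool) (n : ℕ) (z : ℂ) :
    Y k c s (n + 2) z = 2 * Y k c s (n + 1) z + k * Complex.sin (2 * Real.pi * Y k c s (n + 1) z)
      - Y k c s n z := by
  unfold Y; rw [y_add_two]

theorem P_real (k c : ℝ) (s : Bool) (t : ℝ) : ∀ n, (Align.P (dg k c s (t : ℂ)) n).im = 0 ∧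
    (Align.P (dg k c s (t : ℂ)) (n + 1)).im = 0 := by
  intro n
  induction n with
  | zero => simp
  | succ n ih =>
    refine ⟨ih.2, ?_⟩
    rw [Align.P_add_two, dg_re, Complex.sub_im, Complex.mul_im, Complex.ofReal_im, ih.2, ih.1]
    ring

theorem im_mu (k c : ℝ) (s : Bool) (n : ℕ) (t : ℝ) : (mu k c s n (t : ℂ)).im = 0 := by
  unfold mu Align.mu
  rw [Q_dg]
  have h1 := (P_real k c s t n).1
  have h2 := im_D k c s n t
  rw [Complex.div_im]
  simp [h1, h2]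

theorem im_cont (k c : ℝ) (s : Bool) (n n' : ℕ) (t : ℝ) : (cont k c s n n' (t : ℂ)).im = 0 := by
  unfold cont
  simp only [Complex.sub_im, im_mu, cV_re, Complex.ofReal_im]
  simp

theorem cont_re (k c : ℝ) (s : Bool) (n n' : ℕ) (t : ℝ) :
    cont k c s n n' (t : ℂ) = (((cont k c s n n' (t : ℂ)).re : ℝ) : ℂ) :=
  Complex.ext (by simp) (by simp [im_cont])

theorem mu_succ (k c : ℝ) (s : Bool) (n : ℕ) (z : ℂ) (h0 : D k c s n z ≠ 0)
    (h1 : D k c s (n + 1) z ≠ 0) :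
    mu k c s (n + 1) z = mu k c s n z + 1 / (D k c s n z * D k c s (n + 1) z) := by
  have h := Align.mu_succ_sub (a := dg k c s z) (n := n) (by rw [Q_dg]; exact h0)
    (by rw [Q_dg]; exact h1)
  rw [Q_dg, Q_dg] at h
  unfold mu
  linear_combination h

theorem cont_succ (k c : ℝ) (s : Bool) (n n' : ℕ) (z : ℂ) (h0 : D k c s n z ≠ 0)
    (h1 : D k c s (n + 1) z ≠ 0) (h0' : D k c (!s) n' z ≠ 0) (h1' : D k c (!s) (n' + 1) z ≠ 0) :
    cont k c s (n + 1) (n' + 1) z = cont k c s n n' z - 1 / (D k c s n z * D k c s (n + 1) z) -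
      1 / (D k c (!s) n' z * D k c (!s) (n' + 1) z) := by
  unfold cont
  rw [mu_succ k c s n z h0 h1, mu_succ k c (!s) n' z h0' h1']
  ring

theorem cont_symm (k c : ℝ) (s : Bool) (n n' : ℕ) (z : ℂ) :
    cont k c (!s) n' n z = cont k c s n n' z := by
  unfold cont
  rw [Bool.not_not]
  ring

end Crest.Agent.R128.RAPre
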