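import Crest.Agent.R128.RAFin
import Crest.Agent.R128.RALem

set_option autoImplicit false

/-! Row 128, RA (helper155): the local quadratic approximation. -/

open Metric MeasureTheory Set
open Crest.Agent.R128 Crest.Agent.R128.Cell Crest.Agent.R128.CellB
open Crest.Agent.R128.CellDy (kap sd)
open Crest.Agent.R128.Loc

namespace Crest.Agent.R128.RAQuad155

open Crest.Agent.R128.RoughAsm (Vr nx dnx mvt uIcc_sub)
open Crest.Agent.R128.RABr

/-- complex affine coordinate -/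
noncomputable def tz (m S xc : ℝ) (w : ℂ) : ℂ := m + (w - xc) / S

theorem tz_real (m S xc x : ℝ) : tz m S xc (x : ℂ) = ((tx m S xc x : ℝ) : ℂ) := by
  unfold tz tx
  push_cast
  ring

/-- constant of the Lipschitz bound of `cV` -/
noncomputable def L0 : ℝ := 4 * Real.pi ^ 2 * Real.exp (2 * Real.pi)

theorem L0_pos : 0 < L0 := by unfold L0; positivity

theorem CL_eq {k : ℝ} (hk : 0 ≤ k) : CL k = L0 * k := by
  unfold CL L0
  rw [abs_of_nonneg hk]; ring

/-- lower bound of the next derivative near a regular real point -/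
theorem lower {k c κ r L R m : ℝ} {s : Bool} {n : ℕ} (hk : 1 ≤ k) (hκ : 0 < κ) (hkκ : 2 ≤ k * κ)
    (hR : 0 < R) (hL : 1 ≤ L) {t : ℝ} (hr : 0 < r)
    (hr1 : 2 * L * r * (L0 + 1) ≤ κ) (hκ1 : κ ≤ 1)
    (h1 : ∀ z ∈ ball (t : ℂ) (r / R), L * R / 2 ≤ ‖D k c s (n + 1) z‖ ∧
      ‖D k c s (n + 1) z‖ ≤ 2 * L * R)
    (h0 : ∀ z ∈ ball (t : ℂ) (r / R), ‖D k c s n z‖ ≤ L * R)
    (hcos : κ ≤ |Real.cos (2 * Real.pi * yr k c s (n + 1) t)|) :
    ∀ z ∈ ball (t : ℂ) (r / R), k * κ * R ≤ ‖D k c s (n + 2) z‖ := by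
  intro z hz
  have hk0 : 0 < k := by linarith
  have hrR : 0 < r / R := by positivity
  have ht : (t : ℂ) ∈ ball (t : ℂ) (r / R) := mem_ball_self hrR
  have hL0 := L0_pos
  have hpi3 : 3.14 < Real.pi := Real.pi_gt_d2
  -- variation of Y
  have hY : ‖Y k c s (n + 1) z - Y k c s (n + 1) (t : ℂ)‖ ≤ 2 * L * r := by
    have h2 := (convex_ball (t : ℂ) (r / R)).norm_image_sub_le_of_norm_hasDerivWithin_le
      (f := Y k c s (n + 1)) (f' := fun z => (sg s : ℂ) * D k c s (n + 1) z) (C := 2 * L * R)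
      (fun w _ => (RABr.hasDerivAt_Y k c s (n + 1) w).hasDerivWithinAt)
      (fun w hw => by
        rw [norm_mul, Complex.norm_real, Real.norm_eq_abs, sg_abs, one_mul]
        exact (h1 w hw).2) ht hz
    refine h2.trans ?_
    rw [mem_ball, dist_eq_norm] at hz
    calc 2 * L * R * ‖z - t‖ ≤ 2 * L * R * (r / R) := mul_le_mul_of_nonneg_left hz.le (by positivity)
      _ = 2 * L * r := by field_simp
  have hLr : 0 < 2 * L * r := by positivity
  have hLr1 : 2 * L * r ≤ 1 := by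
    have : 2 * L * r * 1 ≤ 2 * L * r * (L0 + 1) := mul_le_mul_of_nonneg_left (by linarith) hLr.le
    linarith
  have him0 := RABr.im_Y k c s (n + 1) t
  have him1 : |(Y k c s (n + 1) z).im| ≤ 1 := by
    have h3 := Complex.abs_im_le_norm (Y k c s (n + 1) z - Y k c s (n + 1) (t : ℂ))
    rw [Complex.sub_im, him0, sub_zero] at h3
    linarith
  have hV := norm_cV_sub_le k him1 (w := Y k c s (n + 1) (t : ℂ)) (by rw [him0]; norm_num)
  rw [CL_eq hk0.le] at hV
  have hV2 : ‖cV k (Y k c s (n + 1) z) - cV k (Y k c s (n + 1) (t : ℂ))‖ ≤ k * κ := by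
    refine hV.trans ?_
    calc L0 * k * ‖Y k c s (n + 1) z - Y k c s (n + 1) (t : ℂ)‖ ≤ L0 * k * (2 * L * r) :=
          mul_le_mul_of_nonneg_left hY (by positivity)
      _ = k * (2 * L * r * L0) := by ring
      _ ≤ k * κ := by
          apply mul_le_mul_of_nonneg_left _ hk0.le
          nlinarith
  have hV3 : 6.28 * k * κ - 2 ≤ ‖cV k (Y k c s (n + 1) (t : ℂ))‖ := by
    rw [← ofReal_yr, cV_real, Complex.norm_real, Real.norm_eq_abs]
    unfold Vr
    have e : |2 * Real.pi * k * Real.cos (2 * Real.pi * yr k c s (n + 1) t)|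
      = 2 * Real.pi * k * |Real.cos (2 * Real.pi * yr k c s (n + 1) t)| := by
      rw [abs_mul, abs_of_nonneg (by positivity : 0 ≤ 2 * Real.pi * k)]
    have h4 : 6.28 * k * κ ≤ 2 * Real.pi * k * |Real.cos (2 * Real.pi * yr k c s (n + 1) t)| := by
      have : 6.28 * k ≤ 2 * Real.pi * k := by nlinarith
      exact mul_le_mul this hcos hκ.le (by positivity)
    have h5 := abs_sub_abs_le_abs_add (2 * Real.pi * k
      * Real.cos (2 * Real.pi * yr k c s (n + 1) t)) 2
    rw [e, abs_of_pos (by norm_num : (0:ℝ) < 2),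
      add_comm (2 * Real.pi * k * Real.cos (2 * Real.pi * yr k c s (n + 1) t)) 2] at h5
    linarith
  have hV4 : 4 * k * κ ≤ ‖cV k (Y k c s (n + 1) z)‖ := by
    have h6 := norm_sub_norm_le (cV k (Y k c s (n + 1) (t : ℂ))) (cV k (Y k c s (n + 1) z))
    rw [norm_sub_rev] at h6
    nlinarith
  rw [RABr.D_add_two]
  have h7 := norm_sub_norm_le (cV k (Y k c s (n + 1) z) * D k c s (n + 1) z) (D k c s n z)
  rw [norm_mul] at h7
  have h8 : 4 * k * κ * (L * R / 2) ≤ ‖cV k (Y k c s (n + 1) z)‖ * ‖D k c s (n + 1) z‖ :=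
    mul_le_mul hV4 (h1 z hz).1 (by positivity) (norm_nonneg _)
  have h9 := h0 z hz
  have h10 : k * κ * R ≤ 4 * k * κ * (L * R / 2) - L * R := by
    have : R ≤ L * R := by nlinarith
    have h11 : L * R ≤ k * κ * (L * R) / 2 := by
      have : 0 < L * R := by positivity
      nlinarith
    have h12 : k * κ * R ≤ k * κ * (L * R) := mul_le_mul_of_nonneg_left this (by positivity)
    nlinarith
  linarith

set_option maxHeartbeats 1000000 in
theorem quad_local : RAFin.QuadLocal := by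
  intro C1 κ ρR hκ hκ1 hρR
  obtain ⟨C', hC'd⟩ : ∃ C', C' = max C1 1 := ⟨_, rfl⟩
  have hC' : 1 ≤ C' := by rw [hC'd]; exact le_max_right _ _
  have hC0 : 0 < C' := by linarith
  have hL0 := L0_pos
  obtain ⟨ρ, hρd⟩ : ∃ ρ, ρ = κ / (10 ^ 5 * (L0 + 1)) := ⟨_, rfl⟩
  have hρ : 0 < ρ := by rw [hρd]; positivity
  have hρ1 : ρ ≤ 1 / 10 ^ 5 := by
    rw [hρd, div_le_div_iff₀ (by positivity) (by norm_num)]
    nlinarith
  have hρκ : 10 ^ 5 * ρ * (L0 + 1) = κ := by
    rw [hρd]; field_simp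
  obtain ⟨B, hB⟩ : ∃ B, B = 2 * (1 / 16 + 26 / κ) := ⟨_, rfl⟩
  have hB0 : 0 < B := by rw [hB]; positivity
  refine ⟨1 + 2 / κ + 2 * 10 ^ 4 * C' * 10 + 2 * ρR / ρ + 2 * B * 2592 * (ρR / ρ) ^ 3, ?_⟩
  intro k hk c s n n' m R lam q0 q1 q2 hlam h τ xc N hτ hxc x hx hcP hcQ
  have p1 : 0 < 2 / κ := by positivity
  have p2 : 0 < 2 * ρR / ρ := by positivity
  have p3 : 0 < 2 * B * 2592 * (ρR / ρ) ^ 3 := by positivity
  have hk1 : 1 ≤ k := by linarith
  have hk0 : 0 < k := by linarith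
  have hkκ : 2 ≤ k * κ := by
    have : 2 / κ ≤ k := by linarith
    rwa [div_le_iff₀ hκ] at this
  have hkC : 2 * 10 ^ 5 * C' ≤ k := by linarith
  have hkρ : ρR / k ≤ ρ / 2 := by
    have : 2 * ρR / ρ ≤ k := by linarith
    rw [div_le_iff₀ hρ] at this
    rw [div_le_div_iff₀ hk0 (by norm_num)]
    linarith
  have hkB : 2 * B * 2592 * (ρR / ρ) ^ 3 ≤ k := by linarith
  obtain ⟨σ, hσ, e1, e2, e3, e4⟩ := extract h hk0
  rw [← hC'd] at e1 e2 e3 e4
  have hR := h.hR
  have hR0 : 0 < R := by linarith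
  have hl1 := h.hlam
  have hτ1 : |τ| = 1 := by rcases hτ with h | h <;> rw [h] <;> simp
  have hττ : τ * τ = 1 := by rcases hτ with h | h <;> rw [h] <;> norm_num
  have hτ0 : τ ≠ 0 := by rcases hτ with h | h <;> rw [h] <;> norm_num
  have hS0 : τ * R ≠ 0 := by positivity
  have hSR : |τ * R| = R := RAFin.abs_tauR hτ hR0
  obtain ⟨t, ht⟩ : ∃ t, t = tx m (τ * R) xc x := ⟨_, rfl⟩
  rw [← ht] at hcP hcQ
  -- the small ball is inside the big one
  have hx3 : x ∈ Icc (0:ℝ) 3 := ⟨by linarith [hx.1], by linarith [hx.2]⟩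
  have htm : |t - m| ≤ 2 / R := by rw [ht]; exact tx_ball hR hτ hxc hx3
  have hball : ball (t : ℂ) (ρ / R) ⊆ ball (m : ℂ) (4 / R) := by
    intro z hz
    rw [mem_ball, dist_eq_norm] at hz ⊢
    have a1 : z - m = (z - t) + ((t - m : ℝ) : ℂ) := by push_cast; ring
    have a2 : ‖((t - m : ℝ) : ℂ)‖ ≤ 2 / R := by
      rw [Complex.norm_real, Real.norm_eq_abs]; exact htm
    have a3 : ρ / R + 2 / R < 4 / R := by
      rw [← add_div]
      exact div_lt_div_of_pos_right (by linarith) hR0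
    rw [a1]
    exact lt_of_le_of_lt ((norm_add_le _ _).trans (add_le_add hz.le a2)) a3
  have hCk : C' / k ≤ 1 / 10 := by
    rw [div_le_iff₀ hk0]; linarith
  -- bounds of the two sides
  have bP1 : ∀ z ∈ ball (t : ℂ) (ρ / R), 1 * R / 2 ≤ ‖D k c s (n + 1) z‖ ∧
      ‖D k c s (n + 1) z‖ ≤ 2 * 1 * R := by
    intro z hz
    have a1 := e1 z (hball hz)
    have a2 : ‖((σ * R : ℝ) : ℂ)‖ = R := by
      rw [Complex.norm_real, Real.norm_eq_abs]
      exact RAFin.abs_tauR hσ hR0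
    have a3 : C' / k * R ≤ 1 / 10 * R := mul_le_mul_of_nonneg_right hCk hR0.le
    have a4 := norm_sub_norm_le ((σ * R : ℝ) : ℂ) (D k c s (n + 1) z)
    rw [norm_sub_rev] at a4
    have a5 := norm_sub_norm_le (D k c s (n + 1) z) ((σ * R : ℝ) : ℂ)
    constructor <;> linarith
  have bP0 : ∀ z ∈ ball (t : ℂ) (ρ / R), ‖D k c s n z‖ ≤ 1 * R := by
    intro z hz
    have a1 := e2 z (hball hz)
    have a3 : C' / k * R ≤ 1 / 10 * R := mul_le_mul_of_nonneg_right hCk hR0.le
    linarith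
  have hClk : C' * |lam| / k ≤ 1 / 10 := by
    rw [div_le_iff₀ hk0]
    have : C' * |lam| ≤ C' * 10 ^ 4 := mul_le_mul_of_nonneg_left hlam hC0.le
    linarith
  have bQ1 : ∀ z ∈ ball (t : ℂ) (ρ / R), |lam| * R / 2 ≤ ‖D k c (!s) (n' + 1) z‖ ∧
      ‖D k c (!s) (n' + 1) z‖ ≤ 2 * |lam| * R := by
    intro z hz
    have a1 := e3 z (hball hz)
    have a2 : ‖((lam * R : ℝ) : ℂ)‖ = |lam| * R := by
      rw [Complex.norm_real, Real.norm_eq_abs, abs_mul, abs_of_pos hR0]
    have a3 : C' * |lam| ^ 2 / k * R ≤ 1 / 10 * (|lam| * R) := by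
      have : C' * |lam| ^ 2 / k = C' * |lam| / k * |lam| := by ring
      rw [this, mul_assoc]
      exact mul_le_mul_of_nonneg_right hClk (by positivity)
    have a4 := norm_sub_norm_le ((lam * R : ℝ) : ℂ) (D k c (!s) (n' + 1) z)
    rw [norm_sub_rev] at a4
    have a5 := norm_sub_norm_le (D k c (!s) (n' + 1) z) ((lam * R : ℝ) : ℂ)
    have a6 : 0 < |lam| * R := by positivity
    constructor <;> linarith
  have bQ0 : ∀ z ∈ ball (t : ℂ) (ρ / R), ‖D k c (!s) n' z‖ ≤ |lam| * R := by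
    intro z hz
    have a1 := e4 z (hball hz)
    have a3 : C' * |lam| / k * R ≤ 1 / 10 * R := mul_le_mul_of_nonneg_right hClk hR0.le
    have a6 : R ≤ |lam| * R := by nlinarith
    linarith
  have lowP := lower (m := m) hk1 hκ hkκ hR0 le_rfl hρ (by nlinarith) hκ1 bP1 bP0 hcP
  have lowQ := lower (m := m) hk1 hκ hkκ hR0 hl1 hρ (by
    have : 2 * |lam| * ρ * (L0 + 1) ≤ 2 * 10 ^ 4 * ρ * (L0 + 1) := by gcongr
    nlinarith) hκ1 bQ1 bQ0 hcQ
  have hkκR : 0 < k * κ * R := by positivity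
  -- fresh terms
  have termP : ∀ z ∈ ball (t : ℂ) (ρ / R),
      ‖(2 * Real.pi * k * (τ * R) ^ 2 : ℝ) * (1 / (D k c s (n + 1) z * D k c s (n + 2) z))‖
        ≤ 13 / κ := by
    intro z hz
    have a1 : R / 2 ≤ ‖D k c s (n + 1) z‖ := by have := (bP1 z hz).1; linarith
    have a2 := lowP z hz
    have a3 : R / 2 * (k * κ * R) ≤ ‖D k c s (n + 1) z‖ * ‖D k c s (n + 2) z‖ :=
      mul_le_mul a1 a2 hkκR.le (norm_nonneg _)
    have a4 : 0 < ‖D k c s (n + 1) z‖ * ‖D k c s (n + 2) z‖ := lt_of_lt_of_le (by positivity) a3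
    rw [norm_mul, norm_div, norm_one, norm_mul, Complex.norm_real, Real.norm_eq_abs,
      abs_of_pos (by positivity), mul_one_div, div_le_div_iff₀ a4 hκ]
    have hpi4 : Real.pi < 3.15 := Real.pi_lt_d2
    have a5 : (τ * R) ^ 2 = R ^ 2 := by rw [← sq_abs, hSR]
    rw [a5]
    have a6 : 0 < k * κ * R ^ 2 := by positivity
    nlinarith
  have termQ : ∀ z ∈ ball (t : ℂ) (ρ / R),
      ‖(2 * Real.pi * k * (τ * R) ^ 2 : ℝ) * (1 / (D k c (!s) (n' + 1) z * D k c (!s) (n' + 2) z))‖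
        ≤ 13 / κ := by
    intro z hz
    have a1 : R / 2 ≤ ‖D k c (!s) (n' + 1) z‖ := by
      have := (bQ1 z hz).1
      have a6 : R ≤ |lam| * R := by nlinarith
      linarith
    have a2 := lowQ z hz
    have a3 : R / 2 * (k * κ * R) ≤ ‖D k c (!s) (n' + 1) z‖ * ‖D k c (!s) (n' + 2) z‖ :=
      mul_le_mul a1 a2 hkκR.le (norm_nonneg _)
    have a4 : 0 < ‖D k c (!s) (n' + 1) z‖ * ‖D k c (!s) (n' + 2) z‖ :=
      lt_of_lt_of_le (by positivity) a3
    rw [norm_mul, norm_div, norm_one, norm_mul, Complex.norm_real, Real.norm_eq_abs,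
      abs_of_pos (by positivity), mul_one_div, div_le_div_iff₀ a4 hκ]
    have hpi4 : Real.pi < 3.15 := Real.pi_lt_d2
    have a5 : (τ * R) ^ 2 = R ^ 2 := by rw [← sq_abs, hSR]
    rw [a5]
    have a6 : 0 < k * κ * R ^ 2 := by positivity
    nlinarith
  -- the function
  obtain ⟨H, hH⟩ : ∃ H : ℂ → ℂ, H = fun z =>
      -((2 * Real.pi * k * (τ * R) ^ 2 : ℝ) : ℂ) * cont k c s (n + 1) (n' + 1) z
      + ((2 * Real.pi * k * (τ * R) ^ 2 : ℝ) : ℂ) * (1 / (D k c s (n + 1) z * D k c s (n + 2) z))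
      + ((2 * Real.pi * k * (τ * R) ^ 2 : ℝ) : ℂ)
        * (1 / (D k c (!s) (n' + 1) z * D k c (!s) (n' + 2) z))
      + ((q0 : ℂ) + q1 * ((R : ℂ) * (z - m)) + q2 * ((R : ℂ) * (z - m)) ^ 2) := ⟨_, rfl⟩
  have hHb : ∀ z ∈ ball (t : ℂ) (ρ / R), ‖H z‖ ≤ 1 / 16 + 26 / κ := by
    intro z hz
    have a1 := h.quad z (hball hz)
    have a5 : (τ * R) ^ 2 = R ^ 2 := by rw [← sq_abs, hSR]
    have a2 := termP z hz
    have a3 := termQ z hz
    have a4 : H z = -((2 * Real.pi * k * R ^ 2 : ℝ) * cont k c s (n + 1) (n' + 1) z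
        - ((q0 : ℂ) + q1 * ((R : ℂ) * (z - m)) + q2 * ((R : ℂ) * (z - m)) ^ 2))
        + ((2 * Real.pi * k * (τ * R) ^ 2 : ℝ) : ℂ) * (1 / (D k c s (n + 1) z * D k c s (n + 2) z))
        + ((2 * Real.pi * k * (τ * R) ^ 2 : ℝ) : ℂ)
          * (1 / (D k c (!s) (n' + 1) z * D k c (!s) (n' + 2) z)) := by
      rw [hH]
      simp only
      rw [a5]
      ring
    rw [a4]
    refine (norm_add₃_le).trans ?_
    rw [norm_neg]
    have e26 : 26 / κ = 13 / κ + 13 / κ := by ring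
    rw [e26]
    linarith
  have hHd : ∀ z ∈ ball (t : ℂ) (ρ / R), DifferentiableAt ℂ H z := by
    intro z hz
    have d1 : D k c s (n + 1) z ≠ 0 := by
      intro h0
      have := (bP1 z hz).1
      rw [h0, norm_zero] at this
      linarith
    have d2 : D k c s (n + 2) z ≠ 0 := by
      intro h0
      have := lowP z hz
      rw [h0, norm_zero] at this
      linarith
    have d3 : D k c (!s) (n' + 1) z ≠ 0 := by
      intro h0
      have := (bQ1 z hz).1
      rw [h0, norm_zero] at this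
      have a6 : 0 < |lam| * R := by positivity
      linarith
    have d4 : D k c (!s) (n' + 2) z ≠ 0 := by
      intro h0
      have := lowQ z hz
      rw [h0, norm_zero] at this
      linarith
    have g1 := RALem.differentiableAt_cont (k := k) (c := c) (s := s) (n := n + 1) (n' := n' + 1) d1 d3
    have g2 := RABr.differentiable_D k c s (n + 1) z
    have g3 := RABr.differentiable_D k c s (n + 2) z
    have g4 := RABr.differentiable_D k c (!s) (n' + 1) z
    have g5 := RABr.differentiable_D k c (!s) (n' + 2) z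
    rw [hH]
    refine (((g1.const_mul _).add ((DifferentiableAt.div (differentiableAt_const _)
      (g2.mul g3) (mul_ne_zero d1 d2)).const_mul _)).add ((DifferentiableAt.div
      (differentiableAt_const _) (g4.mul g5) (mul_ne_zero d3 d4)).const_mul _)).add ?_
    fun_prop
  -- in the affine coordinate
  have htz : ∀ w : ℂ, ‖w - x‖ < ρ → tz m (τ * R) xc w ∈ ball (t : ℂ) (ρ / R) := by
    intro w hw
    rw [mem_ball, dist_eq_norm]
    have a1 : tz m (τ * R) xc w - t = (w - x) / ((τ * R : ℝ) : ℂ) := by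
      rw [ht]
      unfold tz tx
      push_cast
      ring
    rw [a1, norm_div, Complex.norm_real, Real.norm_eq_abs, hSR]
    exact div_lt_div_of_pos_right hw hR0
  obtain ⟨F, hF⟩ : ∃ F : ℝ → ℝ, F = fun u => F1c k c s n n' m (τ * R) xc N u
      + (q0 + q1 * (τ * (u - xc)) + q2 * (τ * (u - xc)) ^ 2) := ⟨_, rfl⟩
  obtain ⟨a, b, _, _, hab⟩ := TaylorTwo.taylor_two_real (f := fun w => H (tz m (τ * R) xc w))
    (F := F) (x := x) (ρ := ρ) (B := B) hρ
    (by
      intro w hw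
      rw [mem_ball, dist_eq_norm] at hw
      have h1 := hHd _ (htz w hw)
      have h2 : DifferentiableAt ℂ (tz m (τ * R) xc) w := by
        unfold tz
        fun_prop
      exact (h1.comp w h2).differentiableWithinAt)
    (by
      intro w hw
      rw [mem_ball, dist_eq_norm] at hw
      have h1 := hHb _ (htz w hw)
      have h2 := hHb _ (htz (x : ℂ) (by simpa using hρ))
      refine (norm_sub_le _ _).trans ?_
      rw [hB]; linarith)
    (by
      intro u hu
      --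
      rw [tz_real, hH, hF]
      simp only
      rw [F1c_eq hS0]
      have a1 : ((R : ℂ) * (((tx m (τ * R) xc u : ℝ) : ℂ) - m)) = ((τ * (u - xc) : ℝ) : ℂ) := by
        unfold tx
        rw [← Complex.ofReal_sub, ← Complex.ofReal_mul]
        congr 1
        field_simp
        linear_combination (-(u - xc)) * hττ
      rw [a1, ← ofReal_cr, ← ofReal_dr, ← ofReal_dr, ← ofReal_dr, ← ofReal_dr]
      push_cast
      ring)
  refine ⟨F x - a * x + b * x ^ 2 - (q0 - q1 * τ * xc + q2 * xc ^ 2),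
    a - 2 * b * x - (q1 * τ - 2 * q2 * xc), b - q2, ?_⟩
  intro u hu
  have h1 := hab u (hu.trans hkρ)
  have h2 : F1c k c s n n' m (τ * R) xc N u
      - (F x - a * x + b * x ^ 2 - (q0 - q1 * τ * xc + q2 * xc ^ 2)
        + (a - 2 * b * x - (q1 * τ - 2 * q2 * xc)) * u + (b - q2) * u ^ 2)
      = F u - (F x + a * (u - x) + b * (u - x) ^ 2) := by
    have : F u = F1c k c s n n' m (τ * R) xc N u
      + (q0 + q1 * (τ * (u - xc)) + q2 * (τ * (u - xc)) ^ 2) := by rw [hF]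
    rw [this]
    linear_combination (-q2 * (u - xc) ^ 2) * hττ
  rw [h2]
  refine h1.trans ?_
  have h3 : |u - x| / ρ ≤ ρR / ρ / k := by
    rw [div_div, mul_comm ρ k, ← div_div]
    exact div_le_div_of_nonneg_right hu hρ.le
  have h4 : (|u - x| / ρ) ^ 3 ≤ (ρR / ρ / k) ^ 3 := pow_le_pow_left₀ (by positivity) h3 3
  calc 2 * B * (|u - x| / ρ) ^ 3 ≤ 2 * B * (ρR / ρ / k) ^ 3 :=
        mul_le_mul_of_nonneg_left h4 (by positivity)
    _ = (2 * B * 2592 * (ρR / ρ) ^ 3) / (2592 * k ^ 3) := by field_simp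
    _ ≤ k / (2592 * k ^ 3) := div_le_div_of_nonneg_right hkB (by positivity)
    _ = 1 / (8 * (18 * k) ^ 2) := by field_simp; ring

/-- **RA** -/
theorem ra : Loc.RA := RAFin.ra_of_quad quad_local

end Crest.Agent.R128.RAQuad155
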