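import Crest.Agent.R128.LocDef

/-! Row 128, bridge `Cell3 → RA` (helper86), part 1: calculus on a real chart of the cell. -/

set_option autoImplicit false

open Metric MeasureTheory Set
open Crest.Agent.R128 Crest.Agent.R128.Cell Crest.Agent.R128.CellB Crest.Agent.R128.CellDy
open Crest.Agent.R128.Loc

namespace Crest.Agent.R128.RaBridge

/-- sign of `dY/dt` against `D` -/
noncomputable def sg (s : Bool) : ℝ := if s then 1 else -1

theorem sg_sq (s : Bool) : sg s * sg s = 1 := by cases s <;> simp [sg]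

theorem sg_or (s : Bool) : sg s = 1 ∨ sg s = -1 := by cases s <;> simp [sg]

theorem hasDerivAt_Y (k c : ℝ) (s : Bool) (n : ℕ) (z : ℂ) :
    HasDerivAt (Y k c s n) ((sg s : ℂ) * D k c s n z) z := by
  cases s
  · simpa [sg] using hasDerivAt_Y_false k c n z
  · simpa [sg] using hasDerivAt_Y_true k c n z

theorem sdC_ofReal (k c : ℝ) (s : Bool) (t : ℝ) :
    sdC k c s (t : ℂ) = ((sd k c s t : ℝ) : ℂ) := by
  cases s <;> simp [sdC, sd]

theorem Y_im (k c : ℝ) (s : Bool) (n : ℕ) (t : ℝ) : (Y k c s n (t : ℂ)).im = 0 := by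
  unfold Y
  rw [sdC_ofReal]
  exact im_y_ofReal k c n _

theorem D_im (k c : ℝ) (s : Bool) (n : ℕ) (t : ℝ) : (D k c s n (t : ℂ)).im = 0 := by
  unfold D
  rw [sdC_ofReal, yd_ofReal]
  simp

theorem Y_real (k c : ℝ) (s : Bool) (n : ℕ) (t : ℝ) :
    Y k c s n (t : ℂ) = (((Y k c s n (t : ℂ)).re : ℝ) : ℂ) := by
  apply Complex.ext
  · simp
  · simp [Y_im]

theorem D_real (k c : ℝ) (s : Bool) (n : ℕ) (t : ℝ) :
    D k c s n (t : ℂ) = (((D k c s n (t : ℂ)).re : ℝ) : ℂ) := by
  apply Complex.ext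
  · simp
  · simp [D_im]

theorem D_add_two (k c : ℝ) (s : Bool) (n : ℕ) (z : ℂ) :
    D k c s (n + 2) z = cV k (Y k c s (n + 1) z) * D k c s (n + 1) z - D k c s n z := by
  unfold D Y
  rw [yd_add_two]

theorem Y_add_two (k c : ℝ) (s : Bool) (n : ℕ) (z : ℂ) :
    Y k c s (n + 2) z = 2 * Y k c s (n + 1) z +
      k * Complex.sin (2 * Real.pi * Y k c s (n + 1) z) - Y k c s n z := by
  unfold Y
  rw [y_add_two]

/-- the real derivative recursion -/
theorem Dre_add_two (k c : ℝ) (s : Bool) (n : ℕ) (t : ℝ) :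
    (D k c s (n + 2) (t : ℂ)).re =
      (2 + 2 * Real.pi * k * Real.cos (2 * Real.pi * (Y k c s (n + 1) (t : ℂ)).re)) *
        (D k c s (n + 1) (t : ℂ)).re - (D k c s n (t : ℂ)).re := by
  have h := D_add_two k c s n (t : ℂ)
  rw [Y_real, D_real k c s (n + 1), D_real k c s n, D_real k c s (n + 2)] at h
  have e : cV k (((Y k c s (n + 1) (t : ℂ)).re : ℝ) : ℂ) =
      ((2 + 2 * Real.pi * k * Real.cos (2 * Real.pi * (Y k c s (n + 1) (t : ℂ)).re) : ℝ) : ℂ) := by
    unfold cV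
    push_cast
    ring
  rw [e] at h
  exact_mod_cast h

theorem Yre_add_two (k c : ℝ) (s : Bool) (n : ℕ) (t : ℝ) :
    (Y k c s (n + 2) (t : ℂ)).re =
      2 * (Y k c s (n + 1) (t : ℂ)).re +
        k * Real.sin (2 * Real.pi * (Y k c s (n + 1) (t : ℂ)).re) - (Y k c s n (t : ℂ)).re := by
  have h := Y_add_two k c s n (t : ℂ)
  rw [Y_real k c s (n + 1), Y_real k c s n, Y_real k c s (n + 2)] at h
  have e : Complex.sin (2 * Real.pi * (((Y k c s (n + 1) (t : ℂ)).re : ℝ) : ℂ)) =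
      ((Real.sin (2 * Real.pi * (Y k c s (n + 1) (t : ℂ)).re) : ℝ) : ℂ) := by
    push_cast
    ring_nf
  rw [e] at h
  exact_mod_cast h

/-! ### differentiability of `D` -/

theorem differentiable_yd (k : ℝ) (c : ℂ) (n : ℕ) : Differentiable ℂ (yd k c n) := by
  have h : yd k c n = deriv (y k c n) := by
    funext t; rw [deriv_y]
  rw [h]
  have h2 : DifferentiableOn ℂ (deriv (y k c n)) univ :=
    (differentiable_y k c n).differentiableOn.deriv isOpen_univ
  exact differentiableOn_univ.mp h2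

theorem differentiable_D (k c : ℝ) (s : Bool) (n : ℕ) : Differentiable ℂ (D k c s n) := by
  have h : Differentiable ℂ (sdC k c s) := by
    cases s
    · have : sdC k c false = fun z => (kap k c : ℂ) - z := by funext z; simp [sdC]
      rw [this]; fun_prop
    · have : sdC k c true = fun z => z := by funext z; simp [sdC]
      rw [this]; fun_prop
  exact (differentiable_yd k c n).comp h

theorem differentiable_Y (k c : ℝ) (s : Bool) (n : ℕ) : Differentiable ℂ (Y k c s n) :=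
  fun z => (hasDerivAt_Y k c s n z).differentiableAt

/-- Cauchy estimate for the derivative of `D` inside the cell -/
theorem norm_deriv_D_le {k c m R E : ℝ} {L : ℂ} {s : Bool} {n : ℕ} (hR : 0 < R)
    (h : ∀ z ∈ ball (m : ℂ) (4 / R), ‖D k c s n z - L‖ ≤ E) {z : ℂ} (hz : ‖z - m‖ ≤ 5 / 2 / R) :
    ‖deriv (D k c s n) z‖ ≤ E * R := by
  have hsub : ∀ w ∈ sphere z (1 / R), ‖D k c s n w - L‖ ≤ E := by
    intro w hw
    apply h
    rw [mem_ball, dist_eq_norm]
    rw [mem_sphere, dist_eq_norm] at hw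
    calc ‖w - m‖ = ‖(w - z) + (z - m)‖ := by congr 1; ring
      _ ≤ ‖w - z‖ + ‖z - m‖ := norm_add_le _ _
      _ ≤ 1 / R + 5 / 2 / R := by rw [hw]; gcongr
      _ = 7 / 2 / R := by ring
      _ < 4 / R := by
        apply div_lt_div_of_pos_right _ hR
        norm_num
  have hd : DiffContOnCl ℂ (fun w => D k c s n w - L) (ball z (1 / R)) :=
    ((differentiable_D k c s n).sub_const L).diffContOnCl
  have := Complex.norm_deriv_le_of_forall_mem_sphere_norm_le (by positivity) hd hsub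
  have e : deriv (fun w => D k c s n w - L) z = deriv (D k c s n) z := by
    rw [deriv_sub_const]
  rw [e] at this
  calc _ ≤ E / (1 / R) := this
    _ = E * R := by field_simp

/-! ### the chart -/

/-- real chart `x ↦ t1 + a x` -/
noncomputable def ph (t1 a x : ℝ) : ℝ := t1 + a * x

theorem ph_cast (t1 a x : ℝ) : ((ph t1 a x : ℝ) : ℂ) = (t1 : ℂ) + (a : ℂ) * (x : ℂ) := by
  simp [ph]

theorem hasDerivAt_Yph (k c : ℝ) (s : Bool) (n : ℕ) (t1 a x : ℝ) :
    HasDerivAt (fun x : ℝ => (Y k c s n (ph t1 a x : ℂ)).re)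
      (sg s * a * (D k c s n (ph t1 a x : ℂ)).re) x := by
  have h0 : HasDerivAt (fun w : ℂ => (t1 : ℂ) + (a : ℂ) * w) (a : ℂ) (x : ℂ) := by
    simpa using ((hasDerivAt_id (x : ℂ)).const_mul (a : ℂ)).const_add (t1 : ℂ)
  have h1 : HasDerivAt (fun w : ℂ => Y k c s n ((t1 : ℂ) + (a : ℂ) * w))
      ((sg s : ℂ) * D k c s n ((t1 : ℂ) + (a : ℂ) * x) * a) (x : ℂ) :=
    HasDerivAt.comp (h₂ := Y k c s n) (x : ℂ) (hasDerivAt_Y k c s n ((t1 : ℂ) + (a : ℂ) * x)) h0
  have h2 := h1.real_of_complex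
  have e1 : (fun x : ℝ => (Y k c s n (ph t1 a x : ℂ)).re) =
      fun x : ℝ => (Y k c s n ((t1 : ℂ) + (a : ℂ) * (x : ℂ))).re := by
    funext x; rw [ph_cast]
  rw [e1]
  refine h2.congr_deriv ?_
  rw [ph_cast]
  have e2 : (sg s : ℂ) * D k c s n ((t1 : ℂ) + (a : ℂ) * x) * a =
      ((sg s * a : ℝ) : ℂ) * D k c s n ((t1 : ℂ) + (a : ℂ) * x) := by
    push_cast; ring
  rw [e2, Complex.re_ofReal_mul]

theorem hasDerivAt_Dph (k c : ℝ) (s : Bool) (n : ℕ) (t1 a x : ℝ) :
    HasDerivAt (fun x : ℝ => sg s * a * (D k c s n (ph t1 a x : ℂ)).re)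
      (sg s * a * a * (deriv (D k c s n) (ph t1 a x : ℂ)).re) x := by
  have h0 : HasDerivAt (fun w : ℂ => (t1 : ℂ) + (a : ℂ) * w) (a : ℂ) (x : ℂ) := by
    simpa using ((hasDerivAt_id (x : ℂ)).const_mul (a : ℂ)).const_add (t1 : ℂ)
  have h1 : HasDerivAt (fun w : ℂ => D k c s n ((t1 : ℂ) + (a : ℂ) * w))
      (deriv (D k c s n) ((t1 : ℂ) + (a : ℂ) * x) * a) (x : ℂ) :=
    ((differentiable_D k c s n _).hasDerivAt).comp (x : ℂ) h0
  have h2 := (h1.real_of_complex).const_mul (sg s * a)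
  have e1 : (fun x : ℝ => sg s * a * (D k c s n (ph t1 a x : ℂ)).re) =
      fun x : ℝ => sg s * a * (D k c s n ((t1 : ℂ) + (a : ℂ) * (x : ℂ))).re := by
    funext x; rw [ph_cast]
  rw [e1]
  refine h2.congr_deriv ?_
  rw [ph_cast]
  have e2 : deriv (D k c s n) ((t1 : ℂ) + (a : ℂ) * x) * a =
      (a : ℂ) * deriv (D k c s n) ((t1 : ℂ) + (a : ℂ) * x) := by ring
  rw [e2, Complex.re_ofReal_mul]
  ring

/-! ### one step of the content -/

theorem mu_step {k c : ℝ} {s : Bool} {n : ℕ} {z : ℂ} (h0 : D k c s n z ≠ 0)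
    (h1 : D k c s (n + 1) z ≠ 0) :
    mu k c s (n + 1) z = mu k c s n z + 1 / (D k c s n z * D k c s (n + 1) z) := by
  have := Align.mu_succ_sub (a := dg k c s z) (n := n) (by rw [Q_dg]; exact h0)
    (by rw [Q_dg]; exact h1)
  rw [Q_dg, Q_dg] at this
  unfold mu
  rw [← this]; ring

theorem cont_step {k c : ℝ} {s : Bool} {n n' : ℕ} {z : ℂ} (h0 : D k c s n z ≠ 0)
    (h1 : D k c s (n + 1) z ≠ 0) (h0' : D k c (!s) n' z ≠ 0) (h1' : D k c (!s) (n' + 1) z ≠ 0) :
    cont k c s (n + 1) (n' + 1) z = cont k c s n n' z - 1 / (D k c s n z * D k c s (n + 1) z) -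
      1 / (D k c (!s) n' z * D k c (!s) (n' + 1) z) := by
  unfold cont
  rw [mu_step h0 h1, mu_step h0' h1']
  ring

/-- real part at a real point -/
theorem cont_step_re {k c : ℝ} {s : Bool} {n n' : ℕ} {t : ℝ} (h0 : D k c s n (t : ℂ) ≠ 0)
    (h1 : D k c s (n + 1) (t : ℂ) ≠ 0) (h0' : D k c (!s) n' (t : ℂ) ≠ 0)
    (h1' : D k c (!s) (n' + 1) (t : ℂ) ≠ 0) :
    (cont k c s (n + 1) (n' + 1) (t : ℂ)).re = (cont k c s n n' (t : ℂ)).re -
      1 / ((D k c s n (t : ℂ)).re * (D k c s (n + 1) (t : ℂ)).re) -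
      1 / ((D k c (!s) n' (t : ℂ)).re * (D k c (!s) (n' + 1) (t : ℂ)).re) := by
  rw [cont_step h0 h1 h0' h1']
  have e : ∀ (s : Bool) (n : ℕ), (1 / (D k c s n (t : ℂ) * D k c s (n + 1) (t : ℂ)) : ℂ) =
      ((1 / ((D k c s n (t : ℂ)).re * (D k c s (n + 1) (t : ℂ)).re) : ℝ) : ℂ) := by
    intro s n
    conv_lhs => rw [D_real k c s n, D_real k c s (n + 1)]
    push_cast
    ring
  rw [e s n, e (!s) n']
  simp only [Complex.sub_re, Complex.ofReal_re]

/-! ### differentiability of the content -/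

theorem differentiable_dg (k c : ℝ) (s : Bool) (n : ℕ) :
    Differentiable ℂ (fun z => dg k c s z n) := by
  intro z
  exact ((hasDerivAt_cV k (Y k c s n z)).comp z (hasDerivAt_Y k c s n z)).differentiableAt

theorem differentiable_P (k c : ℝ) (s : Bool) (n : ℕ) :
    Differentiable ℂ (fun z => Align.P (dg k c s z) n) := by
  induction n using Nat.strong_induction_on with
  | _ n ih =>
    match n with
    | 0 => simp
    | 1 => simp
    | n + 2 =>
      simp only [Align.P_add_two]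
      exact ((differentiable_dg k c s (n + 1)).mul (ih (n + 1) (by omega))).sub (ih n (by omega))

theorem differentiableAt_mu {k c : ℝ} {s : Bool} {n : ℕ} {z : ℂ} (h : D k c s n z ≠ 0) :
    DifferentiableAt ℂ (mu k c s n) z := by
  have e : mu k c s n = fun z => -(Align.P (dg k c s z) n) / D k c s n z := by
    funext z
    unfold mu Align.mu
    rw [Q_dg]
  rw [e]
  exact (differentiable_P k c s n z).neg.div (differentiable_D k c s n z) h

theorem differentiableAt_cont {k c : ℝ} {s : Bool} {n n' : ℕ} {z : ℂ} (h : D k c s n z ≠ 0)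
    (h' : D k c (!s) n' z ≠ 0) : DifferentiableAt ℂ (cont k c s n n') z := by
  have e : cont k c s n n' = fun z => cV k c - mu k c s n z - mu k c (!s) n' z := rfl
  rw [e]
  exact ((differentiableAt_const _).sub (differentiableAt_mu h)).sub (differentiableAt_mu h')

/-! ### zeros of `D` on the real line are a null set -/

theorem null_zeros {k c : ℝ} {s : Bool} {n : ℕ} {t0 : ℝ} (h : D k c s n (t0 : ℂ) ≠ 0) :
    volume {t : ℝ | D k c s n (t : ℂ) = 0} = 0 := by
  have ha : AnalyticOnNhd ℂ (D k c s n) univ :=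
    (differentiable_D k c s n).differentiableOn.analyticOnNhd isOpen_univ
  have hcount : {z : ℂ | D k c s n z = 0}.Countable := by
    have h1 : (D k c s n ⁻¹' {0})ᶜ ∈ Filter.codiscrete ℂ := by
      apply ha.preimage_zero_mem_codiscrete (x := (t0 : ℂ))
      exact h
    have h2 := isDiscrete_of_codiscreteWithin h1
    rw [inter_univ] at h2
    have := h2.to_subtype
    have h3 : Countable (D k c s n ⁻¹' {0} : Set ℂ) := countable_of_Lindelof_of_discrete
    exact Set.countable_coe_iff.mp h3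
  have h3 : {t : ℝ | D k c s n (t : ℂ) = 0}.Countable :=
    hcount.preimage (f := fun t : ℝ => (t : ℂ)) Complex.ofReal_injective
  exact h3.measure_zero _

end Crest.Agent.R128.RaBridge
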