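import Crest.Agent.R128.RoughAsm

set_option autoImplicit false

/-! Row 128, node P4-ASM (helper155), part 2: local analysis at the second level. -/

namespace Crest.Agent.R128.RoughAsm

open MeasureTheory Real Set
open Crest.Agent.R128.Rough (sec Bad F S vol_cos rough1)

/-- next digit -/
noncomputable def nx (k : ℝ) (P P0 : ℝ → ℝ) (x : ℝ) : ℝ :=
  2 * P x + k * Real.sin (2 * π * P x) - P0 x

/-- derivative of the next digit -/
noncomputable def dnx (k : ℝ) (P dP dP0 : ℝ → ℝ) (x : ℝ) : ℝ := Vr k (P x) * dP x - dP0 x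

/-- one side of a tip on the cell `[0,3]` (affine coordinate of the slower digit) -/
structure Side (k C : ℝ) (P P0 dP dP0 : ℝ → ℝ) : Prop where
  hP : ∀ x ∈ Icc (0:ℝ) 3, HasDerivAt P (dP x) x
  hP0 : ∀ x ∈ Icc (0:ℝ) 3, HasDerivAt P0 (dP0 x) x
  hd : ∀ x ∈ Icc (0:ℝ) 3, ∀ y ∈ Icc (0:ℝ) 3, |dP x - dP y| ≤ C / k
  hlo : ∀ x ∈ Icc (0:ℝ) 3, 1 / 2 ≤ |dP x|
  hhi : ∀ x ∈ Icc (0:ℝ) 3, |dP x| ≤ 2
  hd0 : ∀ x ∈ Icc (0:ℝ) 3, |dP0 x| ≤ 1

/-- mean value inequality on `[0,3]` -/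
theorem mvt {f f' : ℝ → ℝ} {B a b : ℝ} (hab : ∀ t ∈ uIcc a b, HasDerivAt f (f' t) t)
    (hB : ∀ t ∈ uIcc a b, |f' t| ≤ B) : |f b - f a| ≤ B * |b - a| := by
  have := (convex_uIcc a b).norm_image_sub_le_of_norm_hasDerivWithin_le
    (f := f) (f' := f') (C := B) (fun t ht => (hab t ht).hasDerivWithinAt)
    (fun t ht => by rw [Real.norm_eq_abs]; exact hB t ht) left_mem_uIcc right_mem_uIcc
  simpa [Real.norm_eq_abs] using this

theorem uIcc_sub {a b : ℝ} (ha : a ∈ Icc (0:ℝ) 3) (hb : b ∈ Icc (0:ℝ) 3) : uIcc a b ⊆ Icc (0:ℝ) 3 :=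
  (ordConnected_Icc.uIcc_subset ha hb)

section
variable {k C : ℝ} {P P0 dP dP0 : ℝ → ℝ}

theorem Side.nx_deriv (h : Side k C P P0 dP dP0) {x : ℝ} (hx : x ∈ Icc (0:ℝ) 3) :
    HasDerivAt (nx k P P0) (dnx k P dP dP0 x) x := by
  have h1 := h.hP x hx
  have h2 := h.hP0 x hx
  have h3 := ((h1.const_mul (2 * π)).sin).const_mul k
  have h4 := ((h1.const_mul 2).add h3).sub h2
  refine h4.congr_deriv ?_
  unfold dnx Vr
  ring

theorem Side.P_lip (h : Side k C P P0 dP dP0) {x y : ℝ} (hx : x ∈ Icc (0:ℝ) 3)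
    (hy : y ∈ Icc (0:ℝ) 3) : |P y - P x| ≤ 2 * |y - x| :=
  mvt (fun t ht => h.hP t (uIcc_sub hx hy ht)) (fun t ht => h.hhi t (uIcc_sub hx hy ht))

theorem Vr_sub_le {k u v : ℝ} (hk : 0 ≤ k) : |Vr k u - Vr k v| ≤ 40 * k * |u - v| := by
  have h : Vr k u - Vr k v = 2 * π * k * (Real.cos (2 * π * u) - Real.cos (2 * π * v)) := by
    unfold Vr; ring
  rw [h, abs_mul, abs_of_nonneg (by positivity : 0 ≤ 2 * π * k)]
  have h1 := abs_cos_sub_le u v
  have h3 : π < 3.15 := Real.pi_lt_d2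
  have h4 : 2 * π * k ≤ 6.3 * k := by nlinarith
  calc 2 * π * k * |Real.cos (2 * π * u) - Real.cos (2 * π * v)| ≤ (6.3 * k) * (6.3 * |u - v|) :=
        mul_le_mul h4 h1 (abs_nonneg _) (by positivity)
    _ ≤ 40 * k * |u - v| := by
        have : 0 ≤ k * |u - v| := by positivity
        nlinarith

theorem abs_Vr_le {k u : ℝ} (hk : 1 ≤ k) : |Vr k u| ≤ 8.3 * k := by
  unfold Vr
  have h3 : π < 3.15 := Real.pi_lt_d2
  have hpi := Real.pi_pos
  have h1 : |2 * π * k * Real.cos (2 * π * u)| ≤ 6.3 * k := by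
    rw [abs_mul, abs_of_nonneg (by positivity : 0 ≤ 2 * π * k)]
    have := Real.abs_cos_le_one (2 * π * u)
    have h4 : 2 * π * k ≤ 6.3 * k := by nlinarith
    calc 2 * π * k * |Real.cos (2 * π * u)| ≤ (6.3 * k) * 1 :=
          mul_le_mul h4 this (abs_nonneg _) (by positivity)
      _ = 6.3 * k := by ring
  have := abs_add_le 2 (2 * π * k * Real.cos (2 * π * u))
  rw [abs_of_pos (by norm_num : (0:ℝ) < 2)] at this
  linarith

theorem Side.dnx_sub_le (h : Side k C P P0 dP dP0) (hk : 1 ≤ k) (hC : 0 ≤ C) {x y R : ℝ}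
    (hx : x ∈ Icc (0:ℝ) 3) (hy : y ∈ Icc (0:ℝ) 3) (hxy : |x - y| ≤ R / k) :
    |dnx k P dP dP0 x - dnx k P dP dP0 y| ≤ 160 * R + 9 * C + 2 := by
  have hk0 : 0 < k := by linarith
  have h1 : dnx k P dP dP0 x - dnx k P dP dP0 y
      = (Vr k (P x) - Vr k (P y)) * dP x + Vr k (P y) * (dP x - dP y) - (dP0 x - dP0 y) := by
    unfold dnx; ring
  have hR : k * |x - y| ≤ R := by
    rw [le_div_iff₀ hk0] at hxy
    linarith
  have h2 : |Vr k (P x) - Vr k (P y)| ≤ 80 * R := by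
    refine (Vr_sub_le hk0.le).trans ?_
    have := h.P_lip hy hx
    have h5 : 40 * k * |P x - P y| ≤ 40 * k * (2 * |x - y|) :=
      mul_le_mul_of_nonneg_left this (by positivity)
    linarith
  have h3 : |(Vr k (P x) - Vr k (P y)) * dP x| ≤ 160 * R := by
    rw [abs_mul]
    have := h.hhi x hx
    have h0 : 0 ≤ R := le_trans (by positivity) hR
    calc |Vr k (P x) - Vr k (P y)| * |dP x| ≤ (80 * R) * 2 :=
          mul_le_mul h2 this (abs_nonneg _) (by positivity)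
      _ = 160 * R := by ring
  have h4 : |Vr k (P y) * (dP x - dP y)| ≤ 9 * C := by
    rw [abs_mul]
    calc |Vr k (P y)| * |dP x - dP y| ≤ (8.3 * k) * (C / k) :=
          mul_le_mul (abs_Vr_le hk) (h.hd x hx y hy) (abs_nonneg _) (by positivity)
      _ = 8.3 * C := by field_simp
      _ ≤ 9 * C := by linarith
  have h5 : |dP0 x - dP0 y| ≤ 2 := by
    have := abs_sub (dP0 x) (dP0 y)
    linarith [h.hd0 x hx, h.hd0 y hy]
  rw [h1]
  have h6 := abs_sub ((Vr k (P x) - Vr k (P y)) * dP x + Vr k (P y) * (dP x - dP y)) (dP0 x - dP0 y)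
  have h7 := abs_add_le ((Vr k (P x) - Vr k (P y)) * dP x) (Vr k (P y) * (dP x - dP y))
  linarith

theorem Side.dnx_lower (h : Side k C P P0 dP dP0) (hk : 1 ≤ k) {x κ : ℝ} (hκ : 0 ≤ κ)
    (hx : x ∈ Icc (0:ℝ) 3) (hc : κ ≤ |Real.cos (2 * π * P x)|) :
    3 * k * κ - 2 ≤ |dnx k P dP dP0 x| := by
  have hk0 : 0 < k := by linarith
  have h3 : 3.14 < π := Real.pi_gt_d2
  have h1 : 6.28 * k * κ - 2 ≤ |Vr k (P x)| := by
    unfold Vr
    have e : |2 * π * k * Real.cos (2 * π * P x)| = 2 * π * k * |Real.cos (2 * π * P x)| := by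
      rw [abs_mul, abs_of_nonneg (by positivity : 0 ≤ 2 * π * k)]
    have h4 : 6.28 * k * κ ≤ 2 * π * k * |Real.cos (2 * π * P x)| := by
      have : 6.28 * k ≤ 2 * π * k := by nlinarith
      exact mul_le_mul this hc hκ (by positivity)
    have h5 := abs_sub_abs_le_abs_add (2 * π * k * Real.cos (2 * π * P x)) 2
    rw [e, abs_of_pos (by norm_num : (0:ℝ) < 2), add_comm] at h5
    linarith
  have h2 : 3.14 * k * κ - 1 ≤ |Vr k (P x) * dP x| := by
    rw [abs_mul]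
    have := h.hlo x hx
    have h6 := mul_le_mul_of_nonneg_left this (abs_nonneg (Vr k (P x)))
    linarith
  have h4 := abs_sub_abs_le_abs_sub (Vr k (P x) * dP x) (dP0 x)
  have h5 := h.hd0 x hx
  unfold dnx
  have : 0 ≤ k * κ := by positivity
  nlinarith

theorem Side.dnx_upper (h : Side k C P P0 dP dP0) (hk : 1 ≤ k) {x : ℝ}
    (hx : x ∈ Icc (0:ℝ) 3) : |dnx k P dP dP0 x| ≤ 18 * k := by
  have hk0 : 0 < k := by linarith
  unfold dnx
  have h1 : |Vr k (P x) * dP x| ≤ (8.3 * k) * 2 := by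
    rw [abs_mul]
    exact mul_le_mul (abs_Vr_le hk) (h.hhi x hx) (abs_nonneg _) (by positivity)
  have h2 := abs_sub (Vr k (P x) * dP x) (dP0 x)
  have h3 := h.hd0 x hx
  linarith

/-- second order estimate: the next digit is affine up to `B R / k` on `|y - x| ≤ R / k` -/
theorem Side.nx_affine (h : Side k C P P0 dP dP0) (hk : 1 ≤ k) (hC : 0 ≤ C) {x y R : ℝ}
    (hx : x ∈ Icc (0:ℝ) 3) (hy : y ∈ Icc (0:ℝ) 3) (hxy : |y - x| ≤ R / k) :
    |nx k P P0 y - (nx k P P0 x + dnx k P dP dP0 x * (y - x))|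
      ≤ (160 * R + 9 * C + 2) * (R / k) := by
  have hmem : ∀ t ∈ uIcc x y, t ∈ Icc (0:ℝ) 3 ∧ |t - x| ≤ R / k := by
    intro t ht
    refine ⟨uIcc_sub hx hy ht, ?_⟩
    exact (abs_sub_left_of_mem_uIcc ht).trans hxy
  have h1 := mvt (f := fun t => nx k P P0 t - dnx k P dP dP0 x * t)
    (f' := fun t => dnx k P dP dP0 t - dnx k P dP dP0 x) (a := x) (b := y)
    (B := 160 * R + 9 * C + 2)
    (fun t ht => by
      have := (h.nx_deriv (hmem t ht).1).sub ((hasDerivAt_id t).const_mul (dnx k P dP dP0 x))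
      refine this.congr_deriv ?_
      ring)
    (fun t ht => h.dnx_sub_le hk hC (hmem t ht).1 hx (hmem t ht).2)
  have h2 : nx k P P0 y - (nx k P P0 x + dnx k P dP dP0 x * (y - x))
      = (nx k P P0 y - dnx k P dP dP0 x * y) - (nx k P P0 x - dnx k P dP dP0 x * x) := by ring
  rw [h2]
  refine h1.trans ?_
  have hR0 : 0 ≤ R / k := (abs_nonneg _).trans hxy
  have hk0 : 0 < k := by linarith
  have hR : 0 ≤ R := by
    by_contra hcon
    rw [not_le] at hcon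
    have := div_neg_of_neg_of_pos hcon hk0
    linarith
  exact mul_le_mul_of_nonneg_left hxy (by positivity)

end

end Crest.Agent.R128.RoughAsm
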