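import Crest.Agent.R128.RaBridge1
import Crest.Agent.R128.RoughAsm2
import Crest.Agent.R128.TaylorTwo

/-! Row 128, bridge `Cell3 → RA` (helper86), part 2: one side on the chart. -/

set_option autoImplicit false

open Metric MeasureTheory Set
open Crest.Agent.R128 Crest.Agent.R128.Cell Crest.Agent.R128.CellB Crest.Agent.R128.CellDy
open Crest.Agent.R128.Loc

namespace Crest.Agent.R128.RaBridge

open Crest.Agent.R128.RoughAsm (Vr mvt)

/-- one side of a cell -/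
structure SideC (k c : ℝ) (s : Bool) (n : ℕ) (m R L ε : ℝ) : Prop where
  hR : 0 < R
  hL : 1 ≤ |L|
  d1 : ∀ z ∈ ball (m : ℂ) (4 / R), ‖D k c s (n + 1) z - (L * R : ℝ)‖ ≤ ε * |L| * R
  d0 : ∀ z ∈ ball (m : ℂ) (4 / R), ‖D k c s n z‖ ≤ ε * |L| * R

/-- the chart `x ↦ t1 + a x` with `a = ± 1/R`, `t1 = m + a e` -/
structure Chart (m R t1 a e : ℝ) : Prop where
  ha : a * R = 1 ∨ a * R = -1
  ht : t1 = m + a * e
  he1 : -2 ≤ e
  he2 : e ≤ -(9 / 10)

theorem Chart.a_sq {m R t1 a e : ℝ} (h : Chart m R t1 a e) (hR : 0 < R) : a * a = 1 / R ^ 2 := by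
  rw [eq_div_iff (by positivity)]
  rcases h.ha with h | h
  · calc a * a * R ^ 2 = (a * R) * (a * R) := by ring
      _ = 1 := by rw [h]; ring
  · calc a * a * R ^ 2 = (a * R) * (a * R) := by ring
      _ = 1 := by rw [h]; ring

theorem Chart.a_abs {m R t1 a e : ℝ} (h : Chart m R t1 a e) (hR : 0 < R) : |a| = 1 / R := by
  have e : |a| * R = |a * R| := by rw [abs_mul, abs_of_pos hR]
  rw [eq_div_iff hR.ne', e]
  rcases h.ha with h | h <;> rw [h] <;> norm_num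

theorem Chart.mem {m R t1 a e : ℝ} (h : Chart m R t1 a e) (hR : 0 < R) {w : ℂ} {x ρ : ℝ}
    (hx : x ∈ Icc (0 : ℝ) 3) (hw : ‖w - x‖ ≤ ρ) (hρ : ρ ≤ 1 / 4) :
    ‖((t1 : ℂ) + (a : ℂ) * w) - m‖ ≤ 5 / 2 / R := by
  have e1 : ((t1 : ℂ) + (a : ℂ) * w) - m = (a : ℂ) * (((e + x : ℝ) : ℂ) + (w - x)) := by
    rw [h.ht]; push_cast; ring
  rw [e1, norm_mul, Complex.norm_real, Real.norm_eq_abs, h.a_abs hR]
  have h2 : ‖((e + x : ℝ) : ℂ) + (w - x)‖ ≤ 21 / 10 + 1 / 4 := by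
    refine (norm_add_le _ _).trans (add_le_add ?_ (hw.trans hρ))
    rw [Complex.norm_real, Real.norm_eq_abs, abs_le]
    constructor
    · linarith [h.he1, hx.1]
    · linarith [h.he2, hx.2]
  calc 1 / R * ‖((e + x : ℝ) : ℂ) + (w - x)‖ ≤ 1 / R * (5 / 2) := by
        apply mul_le_mul_of_nonneg_left (h2.trans (by norm_num)) (by positivity)
    _ = 5 / 2 / R := by ring

theorem mem_ball_of {m R : ℝ} {z : ℂ} (hR : 0 < R) (h : ‖z - m‖ ≤ 5 / 2 / R) :
    z ∈ ball (m : ℂ) (4 / R) := by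
  rw [mem_ball, dist_eq_norm]
  refine h.trans_lt ?_
  apply div_lt_div_of_pos_right _ hR
  norm_num

theorem Chart.mem_ph {m R t1 a e : ℝ} (h : Chart m R t1 a e) (hR : 0 < R) {x : ℝ}
    (hx : x ∈ Icc (0 : ℝ) 3) : ‖((ph t1 a x : ℝ) : ℂ) - m‖ ≤ 5 / 2 / R := by
  rw [ph_cast]
  exact h.mem hR hx (ρ := 0) (by simp) (by norm_num)

section
variable {k c m R L ε t1 a e : ℝ} {s : Bool} {n : ℕ}

/-- slope of the side in the chart -/
noncomputable def slp (s : Bool) (a R L : ℝ) : ℝ := sg s * (a * R) * L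

theorem abs_slp (hc : Chart m R t1 a e) : |slp s a R L| = |L| := by
  unfold slp
  rcases hc.ha with h | h <;> rcases sg_or s with h' | h' <;> rw [h, h'] <;> simp

theorem SideC.r1 (h : SideC k c s n m R L ε) (hc : Chart m R t1 a e) {x : ℝ}
    (hx : x ∈ Icc (0 : ℝ) 3) :
    |sg s * a * (D k c s (n + 1) (ph t1 a x : ℂ)).re - slp s a R L| ≤ ε * |L| := by
  have hR := h.hR
  have h1 := h.d1 _ (mem_ball_of hR (hc.mem_ph hR hx))
  have h2 : |(D k c s (n + 1) (ph t1 a x : ℂ)).re - L * R| ≤ ε * |L| * R := by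
    have := (Complex.abs_re_le_norm _).trans h1
    simpa using this
  have e1 : sg s * a * (D k c s (n + 1) (ph t1 a x : ℂ)).re - slp s a R L =
      sg s * a * ((D k c s (n + 1) (ph t1 a x : ℂ)).re - L * R) := by
    unfold slp; ring
  have e2 : |sg s| = 1 := by rcases sg_or s with h | h <;> rw [h] <;> norm_num
  rw [e1, abs_mul, abs_mul, e2, hc.a_abs hR, one_mul]
  calc 1 / R * |(D k c s (n + 1) (ph t1 a x : ℂ)).re - L * R| ≤ 1 / R * (ε * |L| * R) := by
        apply mul_le_mul_of_nonneg_left h2 (by positivity)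
    _ = ε * |L| := by field_simp

theorem SideC.r0 (h : SideC k c s n m R L ε) (hc : Chart m R t1 a e) {x : ℝ}
    (hx : x ∈ Icc (0 : ℝ) 3) : |sg s * a * (D k c s n (ph t1 a x : ℂ)).re| ≤ ε * |L| := by
  have hR := h.hR
  have h1 := h.d0 _ (mem_ball_of hR (hc.mem_ph hR hx))
  have h2 := (Complex.abs_re_le_norm _).trans h1
  have e2 : |sg s| = 1 := by rcases sg_or s with h | h <;> rw [h] <;> norm_num
  rw [abs_mul, abs_mul, e2, hc.a_abs hR, one_mul]
  calc 1 / R * |(D k c s n (ph t1 a x : ℂ)).re| ≤ 1 / R * (ε * |L| * R) := by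
        apply mul_le_mul_of_nonneg_left h2 (by positivity)
    _ = ε * |L| := by field_simp

theorem SideC.r2 (h : SideC k c s n m R L ε) (hc : Chart m R t1 a e) {x : ℝ}
    (hx : x ∈ Icc (0 : ℝ) 3) :
    |sg s * a * a * (deriv (D k c s (n + 1)) (ph t1 a x : ℂ)).re| ≤ ε * |L| := by
  have hR := h.hR
  have h1 := norm_deriv_D_le hR h.d1 (hc.mem_ph hR hx)
  have h2 := (Complex.abs_re_le_norm _).trans h1
  have e2 : |sg s| = 1 := by rcases sg_or s with h | h <;> rw [h] <;> norm_num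
  rw [mul_assoc (sg s) a a, hc.a_sq hR, abs_mul, abs_mul, e2, one_mul,
    abs_of_pos (by positivity : 0 < 1 / R ^ 2)]
  calc 1 / R ^ 2 * |(deriv (D k c s (n + 1)) (ph t1 a x : ℂ)).re| ≤
        1 / R ^ 2 * (ε * |L| * R * R) := by
        apply mul_le_mul_of_nonneg_left h2 (by positivity)
    _ = ε * |L| := by field_simp

/-- the fresh term -/
theorem T_eq (hR : 0 < R) (hc : Chart m R t1 a e) (N : ℤ) (x : ℝ) :
    RoughAsm.T k ((Y k c s (n + 1) (ph t1 a x : ℂ)).re - N) (sg s * a * (D k c s (n + 1) (ph t1 a x : ℂ)).re)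
      (sg s * a * (D k c s n (ph t1 a x : ℂ)).re) =
    2 * Real.pi * k * R ^ 2 * (1 / ((D k c s (n + 1) (ph t1 a x : ℂ)).re *
      (D k c s (n + 2) (ph t1 a x : ℂ)).re)) := by
  have hcos : Vr k ((Y k c s (n + 1) (ph t1 a x : ℂ)).re - N) =
      2 + 2 * Real.pi * k * Real.cos (2 * Real.pi * (Y k c s (n + 1) (ph t1 a x : ℂ)).re) := by
    unfold Vr
    have : 2 * Real.pi * ((Y k c s (n + 1) (ph t1 a x : ℂ)).re - N) =
        2 * Real.pi * (Y k c s (n + 1) (ph t1 a x : ℂ)).re - N * (2 * Real.pi) := by ring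
    rw [this, Real.cos_sub_int_mul_two_pi]
  unfold RoughAsm.T
  rw [hcos]
  have h2 := Dre_add_two k c s n (ph t1 a x)
  have e1 : (2 + 2 * Real.pi * k * Real.cos (2 * Real.pi * (Y k c s (n + 1) (ph t1 a x : ℂ)).re)) *
      (sg s * a * (D k c s (n + 1) (ph t1 a x : ℂ)).re) -
      sg s * a * (D k c s n (ph t1 a x : ℂ)).re =
      sg s * a * (D k c s (n + 2) (ph t1 a x : ℂ)).re := by
    rw [h2]; ring
  rw [e1]
  have e3 : sg s * a * (D k c s (n + 1) (ph t1 a x : ℂ)).re *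
      (sg s * a * (D k c s (n + 2) (ph t1 a x : ℂ)).re) =
      ((D k c s (n + 1) (ph t1 a x : ℂ)).re * (D k c s (n + 2) (ph t1 a x : ℂ)).re) / R ^ 2 := by
    have h3 := sg_sq s
    have h4 := hc.a_sq hR
    calc _ = (sg s * sg s) * (a * a) * ((D k c s (n + 1) (ph t1 a x : ℂ)).re *
          (D k c s (n + 2) (ph t1 a x : ℂ)).re) := by ring
      _ = _ := by rw [h3, h4]; ring
  rw [e3, div_div_eq_mul_div]
  ring

theorem nx_eq (N : ℤ) (x : ℝ) :
    RoughAsm.nx k (fun x => (Y k c s (n + 1) (ph t1 a x : ℂ)).re - N)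
      (fun x => (Y k c s n (ph t1 a x : ℂ)).re) x =
    (Y k c s (n + 2) (ph t1 a x : ℂ)).re - ((2 * N : ℤ) : ℝ) := by
  unfold RoughAsm.nx
  have h := Yre_add_two k c s n (ph t1 a x)
  have h1 : Real.sin (2 * Real.pi * ((Y k c s (n + 1) (ph t1 a x : ℂ)).re - N)) =
      Real.sin (2 * Real.pi * (Y k c s (n + 1) (ph t1 a x : ℂ)).re) := by
    have : 2 * Real.pi * ((Y k c s (n + 1) (ph t1 a x : ℂ)).re - N) =
        2 * Real.pi * (Y k c s (n + 1) (ph t1 a x : ℂ)).re - N * (2 * Real.pi) := by ring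
    rw [this, Real.sin_sub_int_mul_two_pi]
  simp only []
  rw [h1, h]
  push_cast
  ring

theorem dnx_eq (N : ℤ) (x : ℝ) :
    RoughAsm.dnx k (fun x => (Y k c s (n + 1) (ph t1 a x : ℂ)).re - N)
      (fun x => sg s * a * (D k c s (n + 1) (ph t1 a x : ℂ)).re)
      (fun x => sg s * a * (D k c s n (ph t1 a x : ℂ)).re) x =
    sg s * a * (D k c s (n + 2) (ph t1 a x : ℂ)).re := by
  unfold RoughAsm.dnx Vr
  have hcos : Real.cos (2 * Real.pi * ((Y k c s (n + 1) (ph t1 a x : ℂ)).re - N)) =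
      Real.cos (2 * Real.pi * (Y k c s (n + 1) (ph t1 a x : ℂ)).re) := by
    have : 2 * Real.pi * ((Y k c s (n + 1) (ph t1 a x : ℂ)).re - N) =
        2 * Real.pi * (Y k c s (n + 1) (ph t1 a x : ℂ)).re - N * (2 * Real.pi) := by ring
    rw [this, Real.cos_sub_int_mul_two_pi]
  simp only []
  rw [hcos, Dre_add_two]
  ring

/-- the second fresh term -/
theorem T2_eq (hR : 0 < R) (hc : Chart m R t1 a e) (N : ℤ) (x : ℝ) :
    RoughAsm.T k (RoughAsm.nx k (fun x => (Y k c s (n + 1) (ph t1 a x : ℂ)).re - N)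
        (fun x => (Y k c s n (ph t1 a x : ℂ)).re) x)
      (RoughAsm.dnx k (fun x => (Y k c s (n + 1) (ph t1 a x : ℂ)).re - N)
        (fun x => sg s * a * (D k c s (n + 1) (ph t1 a x : ℂ)).re)
        (fun x => sg s * a * (D k c s n (ph t1 a x : ℂ)).re) x)
      (sg s * a * (D k c s (n + 1) (ph t1 a x : ℂ)).re) =
    2 * Real.pi * k * R ^ 2 * (1 / ((D k c s (n + 2) (ph t1 a x : ℂ)).re *
      (D k c s (n + 3) (ph t1 a x : ℂ)).re)) := by
  rw [nx_eq, dnx_eq]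
  exact T_eq (n := n + 1) hR hc (2 * N) x

/-- the digit as a function on `[0,3]` -/
theorem hasDeriv_P (N : ℤ) (x : ℝ) :
    HasDerivAt (fun x : ℝ => (Y k c s n (ph t1 a x : ℂ)).re - N)
      (sg s * a * (D k c s n (ph t1 a x : ℂ)).re) x :=
  (hasDerivAt_Yph k c s n t1 a x).sub_const _

/-- near a point with `|cos| ≥ κ`, the next slope is large on a complex disc -/
theorem SideC.big (h : SideC k c s n m R L ε) (hc : Chart m R t1 a e) (hk : 1 ≤ k)
    (hL4 : |L| ≤ 10 ^ 4) (hε : ε ≤ 1 / 2) {κ ρ : ℝ} (hκ : 0 < κ) (hkκ : 10 ≤ k * κ)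
    (hρ : 0 < ρ) (hρ' : CL 1 * (2 * 10 ^ 4 * ρ) ≤ 2 * κ) (hρ1 : 2 * 10 ^ 4 * ρ ≤ 1) {x : ℝ}
    (hx : x ∈ Icc (0 : ℝ) 3)
    (hcos : κ ≤ |Real.cos (2 * Real.pi * (Y k c s (n + 1) (ph t1 a x : ℂ)).re)|) {w : ℂ}
    (hw : ‖w - x‖ ≤ ρ) :
    R / 2 ≤ ‖D k c s (n + 1) ((t1 : ℂ) + (a : ℂ) * w)‖ ∧
      k * κ * R ≤ ‖D k c s (n + 2) ((t1 : ℂ) + (a : ℂ) * w)‖ := by
  have hR := h.hR
  have hL0 : 0 < |L| := by linarith [h.hL]
  have hρ4 : ρ ≤ 1 / 4 := by linarith
  have hzb := hc.mem hR hx hw hρ4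
  have hzx := hc.mem_ph hR hx
  rw [ph_cast] at hzx
  set z : ℂ := (t1 : ℂ) + (a : ℂ) * w with hz
  set zx : ℂ := (t1 : ℂ) + (a : ℂ) * (x : ℂ) with hzx'
  have hzd : ‖z - zx‖ ≤ ρ / R := by
    have : z - zx = (a : ℂ) * (w - x) := by rw [hz, hzx']; ring
    rw [this, norm_mul, Complex.norm_real, Real.norm_eq_abs, hc.a_abs hR]
    calc 1 / R * ‖w - x‖ ≤ 1 / R * ρ := by gcongr
      _ = ρ / R := by ring
  have hLR : ‖((L * R : ℝ) : ℂ)‖ = |L| * R := by
    rw [Complex.norm_real, Real.norm_eq_abs, abs_mul, abs_of_pos hR]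
  -- size of `D (n+1)` on the whole ball
  have hD1 : ∀ z' : ℂ, ‖z' - m‖ ≤ 5 / 2 / R → |L| * R / 2 ≤ ‖D k c s (n + 1) z'‖ ∧
      ‖D k c s (n + 1) z'‖ ≤ 2 * |L| * R := by
    intro z' hz'
    have h1 := h.d1 z' (mem_ball_of hR hz')
    have h2 : ε * |L| * R ≤ |L| * R / 2 := by
      have : 0 < |L| * R := by positivity
      nlinarith
    have h3 := norm_sub_norm_le ((L * R : ℝ) : ℂ) (D k c s (n + 1) z')
    have h4 := norm_sub_norm_le (D k c s (n + 1) z') ((L * R : ℝ) : ℂ)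
    rw [norm_sub_rev] at h3
    rw [hLR] at h3 h4
    have h5 : 0 < |L| * R := by positivity
    constructor <;> linarith
  -- displacement of the digit
  have hYd : ‖Y k c s (n + 1) z - Y k c s (n + 1) zx‖ ≤ 2 * 10 ^ 4 * ρ := by
    have hconv : Convex ℝ (closedBall (m : ℂ) (5 / 2 / R)) := convex_closedBall _ _
    have h1 := hconv.norm_image_sub_le_of_norm_hasDerivWithin_le (f := Y k c s (n + 1))
      (f' := fun z => (sg s : ℂ) * D k c s (n + 1) z) (C := 2 * |L| * R)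
      (fun z' _ => (hasDerivAt_Y k c s (n + 1) z').hasDerivWithinAt)
      (fun z' hz' => by
        have e2 : ‖(sg s : ℂ)‖ = 1 := by
          rcases sg_or s with h | h <;> rw [h] <;> simp
        rw [norm_mul, e2, one_mul]
        exact (hD1 z' (by simpa [dist_eq_norm] using hz')).2)
      (show zx ∈ closedBall (m : ℂ) (5 / 2 / R) by simpa [dist_eq_norm] using hzx)
      (show z ∈ closedBall (m : ℂ) (5 / 2 / R) by simpa [dist_eq_norm] using hzb)
    refine h1.trans ?_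
    calc 2 * |L| * R * ‖z - zx‖ ≤ 2 * |L| * R * (ρ / R) := by gcongr
      _ = 2 * |L| * ρ := by field_simp
      _ ≤ 2 * 10 ^ 4 * ρ := by gcongr
  have hYx : Y k c s (n + 1) zx = (((Y k c s (n + 1) (ph t1 a x : ℂ)).re : ℝ) : ℂ) := by
    rw [hzx', ← ph_cast]; exact Y_real k c s (n + 1) (ph t1 a x)
  have him : |(Y k c s (n + 1) z).im| ≤ 1 := by
    have h1 : (Y k c s (n + 1) z).im = (Y k c s (n + 1) z - Y k c s (n + 1) zx).im := by
      rw [Complex.sub_im, hYx, Complex.ofReal_im, sub_zero]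
    rw [h1]
    exact (Complex.abs_im_le_norm _).trans (hYd.trans hρ1)
  have himx : |(Y k c s (n + 1) zx).im| ≤ 1 := by
    rw [hYx, Complex.ofReal_im]; simp
  have hk0 : 0 < k := by linarith
  have hCL : CL k = k * CL 1 := by
    unfold CL; rw [abs_of_pos hk0, abs_one]; ring
  have hV := norm_cV_sub_le k him himx
  have hV2 : ‖cV k (Y k c s (n + 1) z) - cV k (Y k c s (n + 1) zx)‖ ≤ 2 * (k * κ) := by
    refine hV.trans ?_
    rw [hCL]
    calc k * CL 1 * ‖Y k c s (n + 1) z - Y k c s (n + 1) zx‖ ≤ k * CL 1 * (2 * 10 ^ 4 * ρ) := by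
          apply mul_le_mul_of_nonneg_left hYd
          exact mul_nonneg hk0.le (CL_nonneg 1)
      _ = k * (CL 1 * (2 * 10 ^ 4 * ρ)) := by ring
      _ ≤ k * (2 * κ) := by gcongr
      _ = 2 * (k * κ) := by ring
  have hVx : 6 * (k * κ) - 2 ≤ ‖cV k (Y k c s (n + 1) zx)‖ := by
    have e1 : cV k (Y k c s (n + 1) zx) = ((2 + 2 * Real.pi * k *
        Real.cos (2 * Real.pi * (Y k c s (n + 1) (ph t1 a x : ℂ)).re) : ℝ) : ℂ) := by
      rw [hYx]; unfold cV; push_cast; ring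
    rw [e1, Complex.norm_real, Real.norm_eq_abs]
    have h1 : 6 * (k * κ) ≤ |2 * Real.pi * k *
        Real.cos (2 * Real.pi * (Y k c s (n + 1) (ph t1 a x : ℂ)).re)| := by
      rw [abs_mul, abs_of_pos (by positivity : 0 < 2 * Real.pi * k)]
      have h3 : (3 : ℝ) < Real.pi := Real.pi_gt_three
      calc 6 * (k * κ) ≤ 2 * Real.pi * (k * κ) := by
            have : 0 < k * κ := by positivity
            nlinarith
        _ = 2 * Real.pi * k * κ := by ring
        _ ≤ _ := by gcongr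
    have h2 := abs_sub_abs_le_abs_sub (2 * Real.pi * k *
        Real.cos (2 * Real.pi * (Y k c s (n + 1) (ph t1 a x : ℂ)).re)) (-2)
    rw [abs_neg, abs_of_pos (by norm_num : (0 : ℝ) < 2), sub_neg_eq_add, add_comm _ (2 : ℝ)] at h2
    linarith
  have hVz : 3 * (k * κ) ≤ ‖cV k (Y k c s (n + 1) z)‖ := by
    have h1 := norm_sub_norm_le (cV k (Y k c s (n + 1) zx)) (cV k (Y k c s (n + 1) z))
    rw [norm_sub_rev] at h1
    linarith
  refine ⟨?_, ?_⟩
  · refine le_trans ?_ (hD1 z hzb).1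
    have : R ≤ |L| * R := by
      have := h.hL
      nlinarith
    linarith
  · rw [D_add_two]
    have h1 := norm_sub_norm_le (cV k (Y k c s (n + 1) z) * D k c s (n + 1) z) (D k c s n z)
    rw [norm_mul] at h1
    have h2 := h.d0 z (mem_ball_of hR hzb)
    have h3 := (hD1 z hzb).1
    have h4 : 3 * (k * κ) * (|L| * R / 2) ≤
        ‖cV k (Y k c s (n + 1) z)‖ * ‖D k c s (n + 1) z‖ :=
      mul_le_mul hVz h3 (by positivity) (norm_nonneg _)
    have h5 : ε * |L| * R ≤ |L| * R / 2 := by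
      have : 0 < |L| * R := by positivity
      nlinarith
    have h6 : R ≤ |L| * R := by
      have := h.hL
      nlinarith
    have h7 : k * κ * R + |L| * R / 2 ≤ 3 * (k * κ) * (|L| * R / 2) := by
      have h8 : k * κ * R ≤ k * κ * (|L| * R) := by
        apply mul_le_mul_of_nonneg_left h6 (by positivity)
      have h9 : 0 < |L| * R := by positivity
      nlinarith
    linarith

end

end Crest.Agent.R128.RaBridge
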