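import Crest.Agent.R128.RaBridge2

/-! Row 128, bridge `Cell3 → RA` (helper86), part 3: nonzero witnesses and the choice of the chart. -/

set_option autoImplicit false

open Metric MeasureTheory Set
open Crest.Agent.R128 Crest.Agent.R128.Cell Crest.Agent.R128.CellB Crest.Agent.R128.CellDy
open Crest.Agent.R128.Loc

namespace Crest.Agent.R128.RaBridge

open Crest.Agent.R128.RoughAsm (Vr mvt uIcc_sub)

section
variable {k c m R L ε t1 a e : ℝ} {s : Bool} {n : ℕ}

theorem continuous_Dph (k c : ℝ) (s : Bool) (n : ℕ) (t1 a : ℝ) :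
    Continuous (fun x : ℝ => sg s * a * (D k c s n (ph t1 a x : ℂ)).re) :=
  continuous_iff_continuousAt.2 fun x => (hasDerivAt_Dph k c s n t1 a x).continuousAt

theorem continuous_Yph (k c : ℝ) (s : Bool) (n : ℕ) (t1 a : ℝ) :
    Continuous (fun x : ℝ => (Y k c s n (ph t1 a x : ℂ)).re) :=
  continuous_iff_continuousAt.2 fun x => (hasDerivAt_Yph k c s n t1 a x).continuousAt

theorem SideC.witness (h : SideC k c s n m R L ε) (hc : Chart m R t1 a e) (hk : 10 ≤ k)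
    (hε : ε ≤ 1 / 10) :
    (∃ x ∈ Icc (0 : ℝ) 3, D k c s (n + 2) (ph t1 a x : ℂ) ≠ 0) ∧
      (∃ x ∈ Icc (0 : ℝ) 3, D k c s (n + 3) (ph t1 a x : ℂ) ≠ 0) := by
  obtain ⟨q, hq⟩ : ∃ q : ℝ → ℝ, q = fun x => (Y k c s (n + 1) (ph t1 a x : ℂ)).re := ⟨_, rfl⟩
  obtain ⟨dq, hdq⟩ : ∃ dq : ℝ → ℝ, dq = fun x => sg s * a * (D k c s (n + 1) (ph t1 a x : ℂ)).re :=
    ⟨_, rfl⟩
  obtain ⟨dq0, hdq0⟩ : ∃ dq0 : ℝ → ℝ, dq0 = fun x => sg s * a * (D k c s n (ph t1 a x : ℂ)).re :=
    ⟨_, rfl⟩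
  obtain ⟨g, hg⟩ : ∃ g : ℝ → ℝ, g = fun x => sg s * a * (D k c s (n + 2) (ph t1 a x : ℂ)).re :=
    ⟨_, rfl⟩
  obtain ⟨L', hL'⟩ : ∃ L' : ℝ, L' = slp s a R L := ⟨_, rfl⟩
  have hLabs : |L'| = |L| := by rw [hL']; exact abs_slp hc
  have hL1 : 1 ≤ |L'| := by rw [hLabs]; exact h.hL
  have hder : ∀ x, HasDerivAt q (dq x) x := by
    intro x; rw [hq, hdq]; exact hasDerivAt_Yph k c s (n + 1) t1 a x
  have h1 : ∀ x ∈ Icc (0 : ℝ) 3, |dq x - L'| ≤ 1 / 10 * |L'| := by
    intro x hx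
    have := h.r1 hc hx
    rw [hdq, hL', abs_slp hc]
    exact this.trans (by have := h.hL; gcongr)
  have h0 : ∀ x ∈ Icc (0 : ℝ) 3, |dq0 x| ≤ 1 / 10 * |L'| := by
    intro x hx
    have := h.r0 hc hx
    rw [hdq0, hLabs]
    exact this.trans (by have := h.hL; gcongr)
  have hgeq : ∀ x, g x = (2 + 2 * Real.pi * k * Real.cos (2 * Real.pi * q x)) * dq x - dq0 x := by
    intro x
    rw [hg, hdq, hdq0, hq]
    simp only []
    rw [Dre_add_two]; ring
  have hgc : Continuous g := by rw [hg]; exact continuous_Dph k c s (n + 2) t1 a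
  have hqc : Continuous q := by rw [hq]; exact continuous_Yph k c s (n + 1) t1 a
  have m0 : (0 : ℝ) ∈ Icc (0 : ℝ) 3 := ⟨le_rfl, by norm_num⟩
  have m3 : (3 : ℝ) ∈ Icc (0 : ℝ) 3 := ⟨by norm_num, le_rfl⟩
  -- range of `q`
  have hrange : 27 / 10 ≤ |q 3 - q 0| := by
    have h2 := mvt (f := fun t => q t - L' * t) (f' := fun t => dq t - L') (a := 0) (b := 3)
      (B := 1 / 10 * |L'|)
      (fun t _ => by
        have := (hder t).sub ((hasDerivAt_id t).const_mul L')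
        refine this.congr_deriv ?_
        ring)
      (fun t ht => h1 t (uIcc_sub m0 m3 ht))
    have h3 : |L' * 3| ≤ |q 3 - q 0| + |(q 3 - L' * 3) - (q 0 - L' * 0)| := by
      have : L' * 3 = (q 3 - q 0) - ((q 3 - L' * 3) - (q 0 - L' * 0)) := by ring
      exact (congrArg abs this).trans_le (abs_sub _ _)
    rw [abs_mul, abs_of_pos (by norm_num : (0 : ℝ) < 3)] at h3
    norm_num at h2
    norm_num at h3
    have h4 : |q 3 - L' * 3 - q 0| = |(q 3 - L' * 3) - (q 0 - L' * 0)| := by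
      congr 1; ring
    have h5 : |q 3 - L' * 3 - q 0| ≤ 3 / 10 * |L'| := by linarith
    linarith
  obtain ⟨N, hN1, hN2⟩ : ∃ N : ℤ, (N : ℝ) ∈ uIcc (q 0) (q 3) ∧ (N : ℝ) + 1 / 2 ∈ uIcc (q 0) (q 3) := by
    rcases le_total (q 0) (q 3) with hle | hle
    · refine ⟨⌈q 0⌉, ?_, ?_⟩ <;> rw [uIcc_of_le hle, mem_Icc]
      · rw [abs_of_nonneg (by linarith)] at hrange
        exact ⟨Int.le_ceil _, by linarith [Int.ceil_lt_add_one (q 0)]⟩
      · rw [abs_of_nonneg (by linarith)] at hrange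
        exact ⟨by linarith [Int.le_ceil (q 0)], by linarith [Int.ceil_lt_add_one (q 0)]⟩
    · refine ⟨⌈q 3⌉, ?_, ?_⟩ <;> rw [uIcc_of_ge hle, mem_Icc]
      · rw [abs_of_nonpos (by linarith)] at hrange
        exact ⟨Int.le_ceil _, by linarith [Int.ceil_lt_add_one (q 3)]⟩
      · rw [abs_of_nonpos (by linarith)] at hrange
        exact ⟨by linarith [Int.le_ceil (q 3)], by linarith [Int.ceil_lt_add_one (q 3)]⟩
  have hivt := intermediate_value_uIcc (a := (0 : ℝ)) (b := 3) (f := q) hqc.continuousOn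
  obtain ⟨xa, hxa, hqa⟩ := hivt hN1
  obtain ⟨xb, hxb, hqb⟩ := hivt hN2
  have hxa' : xa ∈ Icc (0 : ℝ) 3 := uIcc_sub m0 m3 hxa
  have hxb' : xb ∈ Icc (0 : ℝ) 3 := uIcc_sub m0 m3 hxb
  have hpi : (3 : ℝ) < Real.pi := Real.pi_gt_three
  have hca : Real.cos (2 * Real.pi * q xa) = 1 := by
    rw [hqa]
    have : 2 * Real.pi * (N : ℝ) = N * (2 * Real.pi) := by ring
    rw [this, Real.cos_int_mul_two_pi]
  have hcb : Real.cos (2 * Real.pi * q xb) = -1 := by
    rw [hqb]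
    have : 2 * Real.pi * ((N : ℝ) + 1 / 2) = Real.pi + N * (2 * Real.pi) := by ring
    rw [this, Real.cos_add_int_mul_two_pi, Real.cos_pi]
  have hLsq : L' * L' = |L'| * |L'| := (abs_mul_abs_self L').symm
  have key1 : ∀ x ∈ Icc (0 : ℝ) 3, 9 / 10 * (|L'| * |L'|) ≤ dq x * L' := by
    intro x hx
    have h2 := h1 x hx
    have h3 : |(dq x - L') * L'| ≤ 1 / 10 * |L'| * |L'| := by
      rw [abs_mul]; gcongr
    have h4 := abs_le.mp h3
    nlinarith only [h4.1, hLsq]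
  have key0 : ∀ x ∈ Icc (0 : ℝ) 3, |dq0 x * L'| ≤ 1 / 10 * (|L'| * |L'|) := by
    intro x hx
    have h2 := h0 x hx
    rw [abs_mul]
    calc |dq0 x| * |L'| ≤ 1 / 10 * |L'| * |L'| := by gcongr
      _ = _ := by ring
  have hLL : 1 ≤ |L'| * |L'| := by nlinarith only [hL1]
  have hga : 0 < g xa * L' := by
    rw [hgeq xa, hca]
    have h2 := key1 xa hxa'
    have h3 := abs_le.mp (key0 xa hxa')
    have h5 : (62 : ℝ) ≤ 2 + 2 * Real.pi * k := by nlinarith only [hpi, hk]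
    have h4 : 62 * (dq xa * L') ≤ (2 + 2 * Real.pi * k) * (dq xa * L') := by
      apply mul_le_mul_of_nonneg_right h5
      linarith
    have h6 : ((2 + 2 * Real.pi * k * 1) * dq xa - dq0 xa) * L' =
        (2 + 2 * Real.pi * k) * (dq xa * L') - dq0 xa * L' := by ring
    rw [h6]
    linarith only [h2, h3.1, h3.2, h4, hLL]
  have hgb : g xb * L' < 0 := by
    rw [hgeq xb, hcb]
    have h2 := key1 xb hxb'
    have h3 := abs_le.mp (key0 xb hxb')
    have h5 : (2 : ℝ) - 2 * Real.pi * k ≤ -58 := by nlinarith only [hpi, hk]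
    have h4 : (2 - 2 * Real.pi * k) * (dq xb * L') ≤ -58 * (dq xb * L') := by
      apply mul_le_mul_of_nonneg_right h5
      linarith
    have h6 : ((2 + 2 * Real.pi * k * -1) * dq xb - dq0 xb) * L' =
        (2 - 2 * Real.pi * k) * (dq xb * L') - dq0 xb * L' := by ring
    rw [h6]
    linarith only [h2, h3.1, h3.2, h4, hLL]
  refine ⟨⟨xa, hxa', ?_⟩, ?_⟩
  · intro h0'
    have : g xa = 0 := by rw [hg]; simp only []; rw [h0']; simp
    rw [this, zero_mul] at hga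
    exact lt_irrefl _ hga
  · have hivt2 := intermediate_value_uIcc (a := xa) (b := xb) (f := fun x => g x * L')
      (hgc.mul continuous_const).continuousOn
    have hmem : (0 : ℝ) ∈ uIcc (g xa * L') (g xb * L') := by
      rw [uIcc_of_ge (by linarith)]
      exact ⟨hgb.le, hga.le⟩
    obtain ⟨xc, hxc, hgc0⟩ := hivt2 hmem
    have hxc' : xc ∈ Icc (0 : ℝ) 3 := uIcc_sub hxa' hxb' hxc
    refine ⟨xc, hxc', ?_⟩
    intro h3
    have hLne : L' ≠ 0 := by
      intro h; rw [h, abs_zero] at hL1; linarith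
    have hg0 : g xc = 0 := by
      simp only [] at hgc0
      rcases mul_eq_zero.mp hgc0 with h | h
      · exact h
      · exact absurd h hLne
    have hsa : sg s * a ≠ 0 := by
      have hR := h.hR
      have ha := hc.a_abs hR
      have : |sg s * a| = 1 / R := by
        rw [abs_mul, ha]
        rcases sg_or s with h | h <;> rw [h] <;> norm_num
      intro h0
      rw [h0, abs_zero] at this
      have : 0 < 1 / R := by positivity
      linarith
    have hD2 : (D k c s (n + 2) (ph t1 a xc : ℂ)).re = 0 := by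
      rw [hg] at hg0
      simp only [] at hg0
      exact (mul_eq_zero.mp hg0).resolve_left hsa
    have hD3 := Dre_add_two k c s (n + 1) (ph t1 a xc)
    rw [hD2, h3] at hD3
    have hD1 : (D k c s (n + 1) (ph t1 a xc : ℂ)).re = 0 := by
      simp at hD3
      linarith
    have h4 := h1 xc hxc'
    rw [hdq] at h4
    simp only [] at h4
    rw [hD1, mul_zero, zero_sub, abs_neg] at h4
    linarith

/-- zeros of `D (n+2)` or `D (n+3)` are negligible -/
theorem SideC.null (h : SideC k c s n m R L ε) (hc : Chart m R t1 a e) (hk : 10 ≤ k)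
    (hε : ε ≤ 1 / 10) :
    volume {t : ℝ | D k c s (n + 2) (t : ℂ) = 0 ∨ D k c s (n + 3) (t : ℂ) = 0} = 0 := by
  obtain ⟨⟨x2, -, h2⟩, ⟨x3, -, h3⟩⟩ := h.witness hc hk hε
  have : {t : ℝ | D k c s (n + 2) (t : ℂ) = 0 ∨ D k c s (n + 3) (t : ℂ) = 0} =
      {t : ℝ | D k c s (n + 2) (t : ℂ) = 0} ∪ {t : ℝ | D k c s (n + 3) (t : ℂ) = 0} := rfl
  rw [this]
  exact measure_union_null (null_zeros h2) (null_zeros h3)

/-- choice of the chart: the digit of the slower side is an integer at `t1` -/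
theorem exists_chart {C : ℝ} {σ : ℝ} (hR : 0 < R) (hk : 100 * (C + 1) ≤ k) (hC : 0 ≤ C)
    (hσ : σ = 1 ∨ σ = -1)
    (hslow : ∀ z ∈ ball (m : ℂ) (4 / R), ‖D k c s (n + 1) z - (σ * R : ℝ)‖ ≤ C * R / k) :
    ∃ t1 a e : ℝ, ∃ N : ℤ, Chart m R t1 a e ∧ sg s * (a * R) * σ = 1 ∧ e ≤ -1 + 2 * C / k ∧
      (Y k c s (n + 1) (ph t1 a 0 : ℂ)).re = N := by
  have hk0 : 0 < k := by linarith
  have hCk : C / k ≤ 1 / 100 := by
    rw [div_le_div_iff₀ hk0 (by norm_num)]; linarith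
  have hCk0 : 0 ≤ C / k := by positivity
  obtain ⟨a, ha⟩ : ∃ a, a = sg s * σ / R := ⟨_, rfl⟩
  have haR : a * R = sg s * σ := by rw [ha]; field_simp
  have hsσ : sg s * (a * R) * σ = 1 := by
    rw [haR]
    rcases hσ with h | h <;> rcases sg_or s with h' | h' <;> rw [h, h'] <;> norm_num
  have ha' : a * R = 1 ∨ a * R = -1 := by
    rw [haR]
    rcases hσ with h | h <;> rcases sg_or s with h' | h' <;> rw [h, h'] <;> norm_num
  -- chart started at the left end
  have hc0 : Chart m R (m + a * (-2)) a (-2) := ⟨ha', rfl, le_rfl, by norm_num⟩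
  obtain ⟨h, hh⟩ : ∃ h : ℝ → ℝ, h = fun x => (Y k c s (n + 1) (ph (m + a * (-2)) a x : ℂ)).re :=
    ⟨_, rfl⟩
  obtain ⟨dh, hdh⟩ : ∃ dh : ℝ → ℝ, dh = fun x =>
      sg s * a * (D k c s (n + 1) (ph (m + a * (-2)) a x : ℂ)).re := ⟨_, rfl⟩
  have hder : ∀ x, HasDerivAt h (dh x) x := by
    intro x; rw [hh, hdh]; exact hasDerivAt_Yph k c s (n + 1) _ a x
  have hbd : ∀ x ∈ Icc (0 : ℝ) 3, |dh x - 1| ≤ C / k := by
    intro x hx
    have h1 := hslow _ (mem_ball_of hR (hc0.mem_ph hR hx))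
    have h2 : |(D k c s (n + 1) (ph (m + a * (-2)) a x : ℂ)).re - σ * R| ≤ C * R / k := by
      have := (Complex.abs_re_le_norm _).trans h1
      simpa using this
    have e1 : dh x - 1 = sg s * a * ((D k c s (n + 1) (ph (m + a * (-2)) a x : ℂ)).re - σ * R) := by
      rw [hdh]; simp only []
      linear_combination hsσ
    have e2 : |sg s| = 1 := by rcases sg_or s with h | h <;> rw [h] <;> norm_num
    rw [e1, abs_mul, abs_mul, e2, hc0.a_abs hR, one_mul]
    calc 1 / R * |(D k c s (n + 1) (ph (m + a * (-2)) a x : ℂ)).re - σ * R| ≤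
          1 / R * (C * R / k) := by
          apply mul_le_mul_of_nonneg_left h2 (by positivity)
      _ = C / k := by field_simp
  have m0 : (0 : ℝ) ∈ Icc (0 : ℝ) 3 := ⟨le_rfl, by norm_num⟩
  obtain ⟨u0, hu0⟩ : ∃ u0, u0 = 1 + 2 * C / k := ⟨_, rfl⟩
  have hu0' : u0 = 1 + 2 * (C / k) := by rw [hu0]; ring
  have mu : u0 ∈ Icc (0 : ℝ) 3 := ⟨by rw [hu0']; linarith, by rw [hu0']; linarith⟩
  have hinc : h 0 + 1 ≤ h u0 := by
    have h2 := mvt (f := fun t => h t - t) (f' := fun t => dh t - 1) (a := 0) (b := u0)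
      (B := C / k) (fun t _ => (hder t).sub (hasDerivAt_id t))
      (fun t ht => hbd t (uIcc_sub m0 mu ht))
    have h3 := abs_le.mp h2
    have h4 : |u0 - 0| = u0 := by rw [sub_zero, abs_of_nonneg mu.1]
    rw [h4] at h3
    have h5 : C / k * u0 ≤ 2 * (C / k) := by
      have : u0 ≤ 2 := by rw [hu0']; linarith
      nlinarith only [this, hCk0]
    have h6 := h3.1
    simp only [sub_zero] at h6
    rw [hu0'] at h6 h5 ⊢
    linarith only [h6, h5]
  obtain ⟨N, hN⟩ : ∃ N : ℤ, N = ⌈h 0⌉ := ⟨_, rfl⟩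
  have hN1 : h 0 ≤ N := by rw [hN]; exact Int.le_ceil _
  have hN2 : (N : ℝ) ≤ h u0 := by
    have : (N : ℝ) < h 0 + 1 := by rw [hN]; exact Int.ceil_lt_add_one _
    linarith
  have hcont : ContinuousOn h (Icc 0 u0) := fun x _ => (hder x).continuousAt.continuousWithinAt
  obtain ⟨u, hu, hhu⟩ := intermediate_value_Icc mu.1 hcont ⟨hN1, hN2⟩
  refine ⟨m + a * (u - 2), a, u - 2, N, ⟨ha', rfl, by linarith [hu.1], ?_⟩, hsσ, ?_, ?_⟩
  · have := hu.2
    rw [hu0'] at this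
    linarith
  · have := hu.2
    rw [hu0] at this
    linarith
  · rw [← hhu, hh]
    simp only []
    have : ph (m + a * (u - 2)) a 0 = ph (m + a * (-2)) a u := by unfold ph; ring
    rw [this]

end

end Crest.Agent.R128.RaBridge
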