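import Crest.Agent.R128.RaBridge3

/-! Row 128, bridge `Cell3 → RA` (helper86), part 4: local quadratic form after one fresh term. -/

set_option autoImplicit false

open Metric MeasureTheory Set
open Crest.Agent.R128 Crest.Agent.R128.Cell Crest.Agent.R128.CellB Crest.Agent.R128.CellDy
open Crest.Agent.R128.Loc

namespace Crest.Agent.R128.RaBridge

section
variable {k c m R L Lf ε t1 a e : ℝ} {s : Bool} {n n' : ℕ}

/-- the normalised content after one fresh term, as a real function on the chart -/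
noncomputable def FF (k c : ℝ) (s : Bool) (n n' : ℕ) (R t1 a u : ℝ) : ℝ :=
  -(2 * Real.pi * k * R ^ 2) * (cont k c s (n + 1) (n' + 1) (ph t1 a u : ℂ)).re +
    2 * Real.pi * k * R ^ 2 * (1 / ((D k c s (n + 1) (ph t1 a u : ℂ)).re *
      (D k c s (n + 2) (ph t1 a u : ℂ)).re)) +
    2 * Real.pi * k * R ^ 2 * (1 / ((D k c (!s) (n' + 1) (ph t1 a u : ℂ)).re *
      (D k c (!s) (n' + 2) (ph t1 a u : ℂ)).re))

theorem re_inv_DD (k c : ℝ) (s : Bool) (n : ℕ) (A t : ℝ) :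
    ((A : ℂ) / (D k c s n (t : ℂ) * D k c s (n + 1) (t : ℂ))).re =
      A * (1 / ((D k c s n (t : ℂ)).re * (D k c s (n + 1) (t : ℂ)).re)) := by
  have e : (A : ℂ) / (D k c s n (t : ℂ) * D k c s (n + 1) (t : ℂ)) =
      ((A * (1 / ((D k c s n (t : ℂ)).re * (D k c s (n + 1) (t : ℂ)).re)) : ℝ) : ℂ) := by
    conv_lhs => rw [D_real k c s n, D_real k c s (n + 1)]
    push_cast
    ring
  rw [e, Complex.ofReal_re]

theorem quad_local (h : SideC k c s n m R L ε) (h' : SideC k c (!s) n' m R Lf ε)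
    (hc : Chart m R t1 a e) (hk : 1 ≤ k) (hL4 : |L| ≤ 10 ^ 4) (hL4' : |Lf| ≤ 10 ^ 4)
    (hε : ε ≤ 1 / 2) {κ ρ : ℝ} (hκ : 0 < κ) (hκ1 : κ ≤ 1) (hkκ : 10 ≤ k * κ)
    (hρ : 0 < ρ) (hρ' : CL 1 * (2 * 10 ^ 4 * ρ) ≤ 2 * κ) (hρ1 : 2 * 10 ^ 4 * ρ ≤ 1)
    {q0 q1 q2 : ℝ}
    (hquad : ∀ z ∈ ball (m : ℂ) (4 / R),
      ‖(2 * Real.pi * k * R ^ 2 : ℝ) * cont k c s (n + 1) (n' + 1) z -
        (q0 + q1 * ((R : ℂ) * (z - m)) + q2 * ((R : ℂ) * (z - m)) ^ 2)‖ ≤ 1 / 16)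
    {x : ℝ} (hx : x ∈ Icc (0 : ℝ) 3)
    (hcos : κ ≤ |Real.cos (2 * Real.pi * (Y k c s (n + 1) (ph t1 a x : ℂ)).re)|)
    (hcos' : κ ≤ |Real.cos (2 * Real.pi * (Y k c (!s) (n' + 1) (ph t1 a x : ℂ)).re)|) :
    ∃ p0 p1 p2 : ℝ, ∀ u : ℝ, |u - x| ≤ ρ / 2 →
      |FF k c s n n' R t1 a u - (p0 + p1 * u + p2 * u ^ 2)| ≤ 2 * (54 / κ) * (|u - x| / ρ) ^ 3 := by
  have hR := h.hR
  have hk0 : 0 < k := by linarith
  have hρ4 : ρ ≤ 1 / 4 := by linarith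
  obtain ⟨A, hA⟩ : ∃ A : ℝ, A = 2 * Real.pi * k * R ^ 2 := ⟨_, rfl⟩
  have hpi := Real.pi_pos
  have hA0 : 0 < A := by rw [hA]; positivity
  rw [← hA] at hquad
  obtain ⟨f, hf⟩ : ∃ f : ℂ → ℂ, f = fun w =>
      -((A : ℂ) * cont k c s (n + 1) (n' + 1) ((t1 : ℂ) + (a : ℂ) * w) -
        (q0 + q1 * ((R : ℂ) * (((t1 : ℂ) + (a : ℂ) * w) - m)) +
          q2 * ((R : ℂ) * (((t1 : ℂ) + (a : ℂ) * w) - m)) ^ 2)) +
      (A : ℂ) / (D k c s (n + 1) ((t1 : ℂ) + (a : ℂ) * w) *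
        D k c s (n + 2) ((t1 : ℂ) + (a : ℂ) * w)) +
      (A : ℂ) / (D k c (!s) (n' + 1) ((t1 : ℂ) + (a : ℂ) * w) *
        D k c (!s) (n' + 2) ((t1 : ℂ) + (a : ℂ) * w)) := ⟨_, rfl⟩
  -- lower bounds
  have hb : ∀ w : ℂ, ‖w - x‖ ≤ ρ →
      R / 2 ≤ ‖D k c s (n + 1) ((t1 : ℂ) + (a : ℂ) * w)‖ ∧
        k * κ * R ≤ ‖D k c s (n + 2) ((t1 : ℂ) + (a : ℂ) * w)‖ := fun w hw =>
    h.big hc hk hL4 hε hκ hkκ hρ hρ' hρ1 hx hcos hw
  have hb' : ∀ w : ℂ, ‖w - x‖ ≤ ρ →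
      R / 2 ≤ ‖D k c (!s) (n' + 1) ((t1 : ℂ) + (a : ℂ) * w)‖ ∧
        k * κ * R ≤ ‖D k c (!s) (n' + 2) ((t1 : ℂ) + (a : ℂ) * w)‖ := fun w hw =>
    h'.big hc hk hL4' hε hκ hkκ hρ hρ' hρ1 hx hcos' hw
  have hne : ∀ {z : ℂ} {b : ℝ}, 0 < b → b ≤ ‖z‖ → z ≠ 0 := by
    intro z b hb hz h0
    rw [h0, norm_zero] at hz
    linarith
  have hAb : ∀ z z' : ℂ, R / 2 ≤ ‖z‖ → k * κ * R ≤ ‖z'‖ → ‖(A : ℂ) / (z * z')‖ ≤ 13 / κ := by
    intro z z' hz hz'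
    have h1 : R / 2 * (k * κ * R) ≤ ‖z‖ * ‖z'‖ :=
      mul_le_mul hz hz' (by positivity) (norm_nonneg _)
    rw [norm_div, norm_mul, Complex.norm_real, Real.norm_eq_abs, abs_of_pos hA0]
    have hzz : 0 < ‖z‖ * ‖z'‖ := lt_of_lt_of_le (by positivity) h1
    rw [div_le_div_iff₀ hzz hκ]
    have hpi4 : Real.pi < 3.15 := Real.pi_lt_d2
    calc A * κ = 2 * Real.pi * (k * κ * R ^ 2) := by rw [hA]; ring
      _ ≤ 13 / 2 * (k * κ * R ^ 2) := by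
          apply mul_le_mul_of_nonneg_right _ (by positivity)
          linarith
      _ = 13 * (R / 2 * (k * κ * R)) := by ring
      _ ≤ 13 * (‖z‖ * ‖z'‖) := by gcongr
  have hfn : ∀ w : ℂ, ‖w - x‖ ≤ ρ → ‖f w‖ ≤ 27 / κ := by
    intro w hw
    have h1 := hquad _ (mem_ball_of hR (hc.mem hR hx hw hρ4))
    have h2 := hAb _ _ (hb w hw).1 (hb w hw).2
    have h3 := hAb _ _ (hb' w hw).1 (hb' w hw).2
    rw [hf]
    simp only []
    refine (norm_add_le _ _).trans ?_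
    refine (add_le_add ((norm_add_le _ _).trans (add_le_add ((norm_neg _).trans_le h1) h2)) h3).trans
      ?_
    have h4 : (1 : ℝ) / 16 ≤ 1 / κ := by
      rw [div_le_div_iff₀ (by norm_num) hκ]; linarith
    have h5 : (27 : ℝ) / κ = 1 / κ + 13 / κ + 13 / κ := by ring
    rw [h5]
    linarith
  have hlin : ∀ w : ℂ, DifferentiableAt ℂ (fun w : ℂ => (t1 : ℂ) + (a : ℂ) * w) w := by
    intro w; fun_prop
  have hfd : DifferentiableOn ℂ f (ball (x : ℂ) ρ) := by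
    intro w hw
    rw [mem_ball, dist_eq_norm] at hw
    have h1 := hb w hw.le
    have h1' := hb' w hw.le
    have n1 := hne (by positivity) h1.1
    have n2 := hne (by positivity) h1.2
    have n1' := hne (by positivity) h1'.1
    have n2' := hne (by positivity) h1'.2
    apply DifferentiableAt.differentiableWithinAt
    rw [hf]
    have c1 : DifferentiableAt ℂ (fun w => cont k c s (n + 1) (n' + 1) ((t1 : ℂ) + (a : ℂ) * w)) w :=
      DifferentiableAt.comp (g := cont k c s (n + 1) (n' + 1)) w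
        (differentiableAt_cont n1 n1') (hlin w)
    have c2 : ∀ (s : Bool) (i : ℕ), DifferentiableAt ℂ (fun w => D k c s i ((t1 : ℂ) + (a : ℂ) * w)) w :=
      fun s i => DifferentiableAt.comp (g := D k c s i) w (differentiable_D k c s i _) (hlin w)
    have c3 : DifferentiableAt ℂ (fun w : ℂ => (q0 + q1 * ((R : ℂ) * (((t1 : ℂ) + (a : ℂ) * w) - m)) +
          q2 * ((R : ℂ) * (((t1 : ℂ) + (a : ℂ) * w) - m)) ^ 2)) w := by fun_prop
    exact ((((c1.const_mul _).sub c3).neg).add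
      ((differentiableAt_const _).div ((c2 s (n + 1)).mul (c2 s (n + 2)))
        (mul_ne_zero n1 n2))).add
      ((differentiableAt_const _).div ((c2 (!s) (n' + 1)).mul (c2 (!s) (n' + 2)))
        (mul_ne_zero n1' n2'))
  have hB : ∀ w ∈ ball (x : ℂ) ρ, ‖f w - f x‖ ≤ 54 / κ := by
    intro w hw
    rw [mem_ball, dist_eq_norm] at hw
    have h1 := hfn w hw.le
    have h2 := hfn (x : ℂ) (by simpa using hρ.le)
    calc ‖f w - f x‖ ≤ ‖f w‖ + ‖f x‖ := norm_sub_le _ _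
      _ ≤ 27 / κ + 27 / κ := add_le_add h1 h2
      _ = 54 / κ := by ring
  obtain ⟨α, β, -, -, -, -, htay⟩ := TaylorTwo.taylor_two hρ hfd hB
  obtain ⟨τ, hτ⟩ : ∃ τ, τ = a * R := ⟨_, rfl⟩
  refine ⟨(f x).re - α.re * x + β.re * x ^ 2 - (q0 + q1 * τ * e + q2 * τ ^ 2 * e ^ 2),
    α.re - 2 * β.re * x - (q1 * τ + 2 * q2 * τ ^ 2 * e), β.re - q2 * τ ^ 2, ?_⟩
  intro u hu
  have h1 := htay (u : ℂ) (by
    rw [← Complex.ofReal_sub, Complex.norm_real, Real.norm_eq_abs]; exact hu)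
  have h2 := (Complex.abs_re_le_norm _).trans h1
  have h3 : ‖(u : ℂ) - x‖ = |u - x| := by
    rw [← Complex.ofReal_sub, Complex.norm_real, Real.norm_eq_abs]
  rw [h3] at h2
  refine le_trans (le_of_eq ?_) h2
  have h4 : (f u).re = FF k c s n n' R t1 a u + (q0 + q1 * (τ * (e + u)) + q2 * (τ * (e + u)) ^ 2) := by
    have e1 : (R : ℂ) * (((t1 : ℂ) + (a : ℂ) * (u : ℂ)) - m) = ((τ * (e + u) : ℝ) : ℂ) := by
      rw [hc.ht, hτ]; push_cast; ring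
    rw [hf]
    simp only []
    rw [e1, ← ph_cast]
    rw [Complex.add_re, Complex.add_re, re_inv_DD k c s (n + 1) A (ph t1 a u),
      re_inv_DD k c (!s) (n' + 1) A (ph t1 a u), Complex.neg_re, Complex.sub_re,
      Complex.re_ofReal_mul]
    have e2 : ((q0 : ℂ) + q1 * ((τ * (e + u) : ℝ) : ℂ) + q2 * ((τ * (e + u) : ℝ) : ℂ) ^ 2) =
        ((q0 + q1 * (τ * (e + u)) + q2 * (τ * (e + u)) ^ 2 : ℝ) : ℂ) := by
      push_cast; ring
    rw [e2, Complex.ofReal_re]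
    unfold FF
    rw [← hA]
    ring
  have h5 : (f (u : ℂ) - (f (x : ℂ) + α * ((u : ℂ) - (x : ℂ)) + β * ((u : ℂ) - (x : ℂ)) ^ 2)).re =
      (f u).re - ((f x).re + α.re * (u - x) + β.re * (u - x) ^ 2) := by
    have e3 : (u : ℂ) - (x : ℂ) = ((u - x : ℝ) : ℂ) := by push_cast; ring
    have e4 : ((u - x : ℝ) : ℂ) ^ 2 = (((u - x) ^ 2 : ℝ) : ℂ) := by push_cast; ring
    rw [e3, e4, Complex.sub_re, Complex.add_re, Complex.add_re, Complex.re_mul_ofReal,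
      Complex.re_mul_ofReal]
  rw [h5, h4]
  congr 1
  ring

end

end Crest.Agent.R128.RaBridge
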