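import Crest.Agent.R128.RoughAsm5

set_option autoImplicit false

/-! Row 128, node P4-ASM (helper155), part 6: the two-level theorem, `|lam| ≤ 10^4`. -/

namespace Crest.Agent.R128.RoughAsm

open MeasureTheory Real Set
open Crest.Agent.R128.Rough (sec Bad F S vol_cos rough1)

variable {k C lam : ℝ} {P P0 dP dP0 d2P Q Q0 dQ dQ0 d2Q : ℝ → ℝ}

/-- normalised content after the first fresh digits -/
noncomputable def F1 (k : ℝ) (f0 P dP dP0 Q dQ dQ0 : ℝ → ℝ) (y : ℝ) : ℝ :=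
  f0 y + T k (P y) (dP y) (dP0 y) + T k (Q y) (dQ y) (dQ0 y)

theorem Cell.Q_affine (h : Cell k C lam P P0 dP dP0 d2P Q Q0 dQ dQ0 d2Q) {x : ℝ}
    (hx : x ∈ Icc (0:ℝ) 3) : |Q x - (Q 0 + lam * x)| ≤ 3 * (C / k * |lam|) := by
  have h0 : (0:ℝ) ∈ Icc (0:ℝ) 3 := left_mem_Icc.2 (by norm_num)
  have h1 := mvt (f := fun t => Q t - lam * t) (f' := fun t => dQ t - lam) (a := 0) (b := x)
    (B := C / k * |lam|)
    (fun t ht => by
      have := (h.hQ t (uIcc_sub h0 hx ht)).sub ((hasDerivAt_id t).const_mul lam)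
      refine this.congr_deriv ?_
      ring)
    (fun t ht => h.ndQ t (uIcc_sub h0 hx ht))
  have h2 : Q x - (Q 0 + lam * x) = (Q x - lam * x) - (Q 0 - lam * 0) := by ring
  rw [h2]
  refine h1.trans ?_
  have h3 : 0 ≤ C / k * |lam| := (abs_nonneg _).trans (h.ndQ 0 h0)
  have h4 : |x - 0| ≤ 3 := by
    rw [sub_zero, abs_of_nonneg hx.1]; exact hx.2
  nlinarith

theorem Cell.level1_small (h : Cell k C lam P P0 dP dP0 d2P Q Q0 dQ dQ0 d2Q) {f0 : ℝ → ℝ}
    {del κ1 : ℝ} (hC : 1 ≤ C) (hk : 1 ≤ k) (hdel : 0 < del) (hdel' : del ≤ 1 / 10000)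
    (hκ1 : κ1 = del / 6400) (hlam1 : 1 ≤ |lam|) (hlam2 : |lam| ≤ 10 ^ 4)
    (hkbig : 32 * (10 * (3 * C * 10 ^ 4) + 1) ≤ κ1 ^ 2 * k)
    (hf0 : ∃ q0 q1 q2 : ℝ, ∀ x ∈ Icc (0:ℝ) 3, |f0 x - (q0 + q1 * x + q2 * x ^ 2)| ≤ 1 / 8)
    (hbad : volume {y : ℝ | y ∈ Icc (0:ℝ) 3 ∧ 1 / 2 < |F1 k f0 P dP dP0 Q dQ dQ0 y|}
      ≤ ENNReal.ofReal (del / 800)) :
    ∃ m : ℤ, (0 < lam ∧ ∀ y ∈ Icc (0 : ℝ) 3, |Q 0 + lam * y - y - 1 / 2 - m| ≤ del) ∨
      (lam < 0 ∧ ∀ y ∈ Icc (0 : ℝ) 3, |Q 0 + lam * y + y - 1 / 2 - m| ≤ del) := by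
  have hk0 : 0 < k := by linarith
  have hC0 : 0 < C := by linarith
  have hκ10 : 0 < κ1 := by rw [hκ1]; positivity
  have hκ11 : κ1 ≤ 1 / 64000000 := by rw [hκ1]; linarith
  have hlam0 : lam ≠ 0 := by
    intro h0
    rw [h0, abs_zero] at hlam1
    linarith
  have hlpos : 0 < |lam| := by linarith
  obtain ⟨ε, hε⟩ : ∃ e, e = 3 * C * 10 ^ 4 / k := ⟨_, rfl⟩
  have hε0 : 0 < ε := by rw [hε]; positivity
  obtain ⟨e, he⟩ : ∃ e, e = 10 * ε + 1 / k := ⟨_, rfl⟩
  have hek : e = (10 * (3 * C * 10 ^ 4) + 1) / k := by rw [he, hε]; field_simp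
  have he1 : 32 * e ≤ κ1 ^ 2 := by
    rw [hek]
    rw [← mul_div_assoc, div_le_iff₀ hk0]
    exact hkbig
  have hek0 : 0 < e := by rw [hek]; positivity
  have hε1 : ε ≤ 1 / 10 := by
    have : ε ≤ e := by
      rw [he]
      have : 0 < 1 / k := by positivity
      linarith
    nlinarith
  have heκ : e ≤ κ1 / 2 := by nlinarith
  have he2 : 2 * e / κ1 ^ 2 ≤ 1 / 8 := by
    rw [div_le_iff₀ (by positivity)]
    linarith
  have hCe : C / k ≤ ε := by
    rw [hε]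
    apply div_le_div_of_nonneg_right _ hk0.le
    linarith
  have hCe' : 3 * (C / k * |lam|) ≤ ε := by
    have e1 : ε = 3 * (C / k * 10 ^ 4) := by rw [hε]; ring
    rw [e1]
    have : 0 < C / k := by positivity
    nlinarith
  obtain ⟨q0, q1, q2, hq⟩ := hf0
  apply pert_mirror (a := 1 / lam ^ 2) (x0 := Q 0) (lam := lam) (κ := κ1) (q0 := q0) (q1 := q1)
    (q2 := q2) (G := F1 k f0 P dP dP0 Q dQ dQ0) hdel hdel' hlam1
    (by
      have : 1 / lam ^ 2 * lam ^ 2 - 1 = 0 := by field_simp; ring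
      rw [this]; norm_num) hκ10.le (by rw [hκ1]; linarith)
  · intro y hy h1 h2
    have e1 : |T k (P y) (dP y) (dP0 y) - sec y| ≤ 1 / 8 :=
      (T_approx hk hκ10 h1 ((h.nP y hy).trans hCe) ((h.ndP y hy).trans hCe)
        ((h.ndP0 y hy).trans hCe) hε1 he heκ).trans he2
    have e2 : |T k (Q y) (dQ y) (dQ0 y) - 1 / lam ^ 2 * sec (Q 0 + lam * y)| ≤ 1 / 8 := by
      have h0 : T k (Q y) (dQ y) (dQ0 y) = 1 / lam ^ 2 * T k (Q y) (dQ y / lam) (dQ0 y / lam) := by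
        rw [T_scale hlam0]
        field_simp
      rw [h0, ← mul_sub, abs_mul]
      have h3 : |T k (Q y) (dQ y / lam) (dQ0 y / lam) - sec (Q 0 + lam * y)| ≤ 1 / 8 := by
        refine (T_approx hk hκ10 h2 ((h.Q_affine hy).trans hCe') ?_ ?_ hε1 he heκ).trans he2
        · have h4 : dQ y / lam - 1 = (dQ y - lam) / lam := by field_simp
          rw [h4, abs_div, div_le_iff₀ hlpos]
          refine (h.ndQ y hy).trans ?_
          exact mul_le_mul_of_nonneg_right hCe hlpos.le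
        · rw [abs_div, div_le_iff₀ hlpos]
          refine (h.ndQ0 y hy).trans ?_
          exact mul_le_mul_of_nonneg_right hCe hlpos.le
      have h5 : |1 / lam ^ 2| ≤ 1 := by
        rw [abs_of_pos (by positivity), div_le_one (by positivity), ← sq_abs]
        nlinarith
      calc |1 / lam ^ 2| * |T k (Q y) (dQ y / lam) (dQ0 y / lam) - sec (Q 0 + lam * y)|
          ≤ 1 * (1 / 8) := mul_le_mul h5 h3 (abs_nonneg _) (by norm_num)
        _ = 1 / 8 := by norm_num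
    have e3 := hq y hy
    have e4 : F1 k f0 P dP dP0 Q dQ dQ0 y - F q0 q1 q2 (1 / lam ^ 2) (Q 0) lam y
        = (f0 y - (q0 + q1 * y + q2 * y ^ 2)) + (T k (P y) (dP y) (dP0 y) - sec y)
          + (T k (Q y) (dQ y) (dQ0 y) - 1 / lam ^ 2 * sec (Q 0 + lam * y)) := by
      unfold F1 F S
      ring
    rw [e4]
    refine (abs_add_three _ _ _).trans ?_
    linarith
  · exact hbad

theorem Cell.sideP (h : Cell k C lam P P0 dP dP0 d2P Q Q0 dQ dQ0 d2Q) (hC : 1 ≤ C)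
    (hCk : C / k ≤ 1 / 100) : Side k (3 * C) P P0 dP dP0 where
  hP := h.hP
  hP0 := h.hP0
  hd := fun x hx y hy => by
    have h1 := h.ndP x hx
    have h2 := h.ndP y hy
    have h3 := abs_sub (dP x - 1) (dP y - 1)
    have h4 : dP x - 1 - (dP y - 1) = dP x - dP y := by ring
    rw [h4] at h3
    have h5 : 3 * C / k = 3 * (C / k) := by ring
    have h6 : 0 ≤ C / k := (abs_nonneg _).trans h1
    rw [h5]; linarith
  hlo := fun x hx => by
    have := abs_le.1 (h.ndP x hx)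
    rw [abs_of_nonneg (by linarith)]; linarith
  hhi := fun x hx => by
    have := abs_le.1 (h.ndP x hx)
    rw [abs_le]; constructor <;> linarith
  hd0 := fun x hx => (h.ndP0 x hx).trans (by linarith)

theorem Cell.sideQ (h : Cell k C lam P P0 dP dP0 d2P Q Q0 dQ dQ0 d2Q) (hC : 1 ≤ C)
    (hCk : C / k ≤ 1 / 100) (hl1 : 9 / 10 ≤ |lam|) (hl2 : |lam| ≤ 11 / 10) :
    Side k (3 * C) Q Q0 dQ dQ0 where
  hP := h.hQ
  hP0 := h.hQ0
  hd := fun x hx y hy => by
    have h1 := h.ndQ x hx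
    have h2 := h.ndQ y hy
    have h3 := abs_sub (dQ x - lam) (dQ y - lam)
    have h4 : dQ x - lam - (dQ y - lam) = dQ x - dQ y := by ring
    rw [h4] at h3
    have h5 : 3 * C / k = 3 * (C / k) := by ring
    have h6 : 0 ≤ C / k := (abs_nonneg _).trans (h.nP x hx)
    have h7 : C / k * |lam| ≤ C / k * (11 / 10) := mul_le_mul_of_nonneg_left hl2 h6
    rw [h5]; linarith
  hlo := fun x hx => by
    have h1 := h.ndQ x hx
    have h6 : 0 ≤ C / k := (abs_nonneg _).trans (h.nP x hx)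
    have h7 : C / k * |lam| ≤ 1 / 100 * (11 / 10) := mul_le_mul hCk hl2 (abs_nonneg _) (by norm_num)
    have h8 := abs_sub_abs_le_abs_sub lam (dQ x)
    rw [abs_sub_comm] at h8
    linarith
  hhi := fun x hx => by
    have h1 := h.ndQ x hx
    have h7 : C / k * |lam| ≤ 1 / 100 * (11 / 10) := mul_le_mul hCk hl2 (abs_nonneg _) (by norm_num)
    have h8 := abs_sub_abs_le_abs_sub (dQ x) lam
    linarith
  hd0 := fun x hx => by
    refine (h.ndQ0 x hx).trans ?_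
    have h7 : C / k * |lam| ≤ 1 / 100 * (11 / 10) := mul_le_mul hCk hl2 (abs_nonneg _) (by norm_num)
    linarith

theorem F2_swap (k : ℝ) (F1 P P0 dP dP0 Q Q0 dQ dQ0 : ℝ → ℝ) (y : ℝ) :
    F2 k F1 Q Q0 dQ dQ0 P P0 dP dP0 y = F2 k F1 P P0 dP dP0 Q Q0 dQ dQ0 y := by
  unfold F2; ring

theorem dead2_swap (k : ℝ) (F1 P P0 dP dP0 Q Q0 dQ dQ0 : ℝ → ℝ) (y : ℝ) :
    dead2 k F1 Q Q0 dQ dQ0 P P0 dP dP0 y ↔ dead2 k F1 P P0 dP dP0 Q Q0 dQ dQ0 y := by
  unfold dead2
  rw [F2_swap, min_comm]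

/-- the constant `r` -/
noncomputable def rr (C : ℝ) : ℝ := 1 / (256000 * C)
/-- threshold for the cosines -/
noncomputable def kap (C : ℝ) : ℝ := rr C / 100
/-- radius constant -/
noncomputable def RR (C : ℝ) : ℝ := 3 / (2 * kap C)

/-- dead set of the two-level theorem -/
def Dead (k : ℝ) (f0 P P0 dP dP0 Q Q0 dQ dQ0 : ℝ → ℝ) : Set ℝ :=
  {y : ℝ | y ∈ Icc (0:ℝ) 3 ∧ (1 / 4 < |F1 k f0 P dP dP0 Q dQ dQ0 y| ∨
    dead2 k (F1 k f0 P dP dP0 Q dQ dQ0) P P0 dP dP0 Q Q0 dQ dQ0 y)}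

set_option maxHeartbeats 1000000 in
/-- **Two-level roughness, `1 ≤ |lam| ≤ 10^4`.** -/
theorem asm_small (C : ℝ) (hC : 1 ≤ C) : ∃ c0 : ℝ, 0 < c0 ∧ ∃ K0 : ℝ, ∀ k, K0 ≤ k → ∀ lam : ℝ,
    1 ≤ |lam| → |lam| ≤ 10 ^ 4 → ∀ P P0 dP dP0 d2P Q Q0 dQ dQ0 d2Q f0 : ℝ → ℝ,
    Cell k C lam P P0 dP dP0 d2P Q Q0 dQ dQ0 d2Q →
    (∃ q0 q1 q2 : ℝ, ∀ x ∈ Icc (0:ℝ) 3, |f0 x - (q0 + q1 * x + q2 * x ^ 2)| ≤ 1 / 8) →
    (∀ x ∈ Icc (1 / 4 : ℝ) (11 / 4), kap C ≤ |Real.cos (2 * π * P x)| →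
      kap C ≤ |Real.cos (2 * π * Q x)| → ∃ q0 q1 q2 : ℝ, ∀ y, |y - x| ≤ RR C / k →
      |F1 k f0 P dP dP0 Q dQ dQ0 y - (q0 + q1 * y + q2 * y ^ 2)| ≤ 1 / (8 * (18 * k) ^ 2)) →
    ENNReal.ofReal c0 ≤ volume (Dead k f0 P P0 dP dP0 Q Q0 dQ dQ0) := by
  obtain ⟨r, hr⟩ : ∃ r, r = rr C := ⟨_, rfl⟩
  have hC0 : 0 < C := by linarith
  have hr0 : 0 < r := by rw [hr, rr]; positivity
  have hr1 : r ≤ 1 / 256000 := by
    rw [hr, rr]
    apply one_div_le_one_div_of_le (by norm_num)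
    linarith
  obtain ⟨κ, hκ⟩ : ∃ κ, κ = kap C := ⟨_, rfl⟩
  have hκr : κ = r / 100 := by rw [hκ, hr, kap]
  have hκ0 : 0 < κ := by rw [hκr]; positivity
  have hκ1' : κ ≤ 1 := by rw [hκr]; linarith
  obtain ⟨R, hR⟩ : ∃ R, R = RR C := ⟨_, rfl⟩
  have hRκ : R = 3 / (2 * κ) := by rw [hR, hκ, RR]
  have hR0 : 0 < R := by rw [hRκ]; positivity
  have hR1 : 1 ≤ R := by
    rw [hRκ, le_div_iff₀ (by positivity)]
    linarith
  obtain ⟨del, hdel⟩ : ∃ d, d = r / 2000 := ⟨_, rfl⟩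
  have hdel0 : 0 < del := by rw [hdel]; positivity
  have hdel1 : del ≤ 1 / 10000 := by rw [hdel]; linarith
  obtain ⟨κ1, hκ1⟩ : ∃ d, d = del / 6400 := ⟨_, rfl⟩
  have hκ10 : 0 < κ1 := by rw [hκ1]; positivity
  obtain ⟨B, hB⟩ : ∃ B, B = 160 * R + 9 * (3 * C) + 2 := ⟨_, rfl⟩
  have hB0 : 0 < B := by rw [hB]; positivity
  obtain ⟨c0, hc0⟩ : ∃ c, c = del * r / (300000 * R) := ⟨_, rfl⟩
  have hc00 : 0 < c0 := by rw [hc0]; positivity
  have hc01 : c0 ≤ del / 800 := by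
    rw [hc0, div_le_div_iff₀ (by positivity) (by positivity)]
    nlinarith
  refine ⟨c0, hc00, 10 ^ 11 * (16 * C) ^ 2 + 32 * (10 * (B * R) + 1) / κ1 ^ 2
    + 32 * (10 * (3 * C * 10 ^ 4) + 1) / κ1 ^ 2 + 4 * R + 2 / κ + 10000 * C / r + 1, ?_⟩
  intro k hkK lam hlam1 hlam2 P P0 dP dP0 d2P Q Q0 dQ dQ0 d2Q f0 hcell hf0 hquad
  have p1 : 0 < 10 ^ 11 * (16 * C) ^ 2 := by positivity
  have p2 : 0 < 32 * (10 * (B * R) + 1) / κ1 ^ 2 := by positivity
  have p3 : 0 < 32 * (10 * (3 * C * 10 ^ 4) + 1) / κ1 ^ 2 := by positivity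
  have p4 : 0 < 2 / κ := by positivity
  have p5 : 0 < 10000 * C / r := by positivity
  have hk1 : 1 ≤ k := by linarith
  have hk0 : 0 < k := by linarith
  have k1 : 10 ^ 11 * (16 * C) ^ 2 ≤ k := by linarith
  have k2 : 32 * (10 * (B * R) + 1) ≤ κ1 ^ 2 * k := by
    have : 32 * (10 * (B * R) + 1) / κ1 ^ 2 ≤ k := by linarith
    rw [div_le_iff₀ (by positivity)] at this
    linarith
  have k3 : 32 * (10 * (3 * C * 10 ^ 4) + 1) ≤ κ1 ^ 2 * k := by
    have : 32 * (10 * (3 * C * 10 ^ 4) + 1) / κ1 ^ 2 ≤ k := by linarith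
    rw [div_le_iff₀ (by positivity)] at this
    linarith
  have k4 : R / k ≤ 1 / 4 := by
    rw [div_le_iff₀ hk0]
    linarith
  have k5 : 2 ≤ k * κ := by
    have : 2 / κ ≤ k := by linarith
    rw [div_le_iff₀ hκ0] at this
    exact this
  have k6 : C / k ≤ r / 10000 := by
    have : 10000 * C / r ≤ k := by linarith
    rw [div_le_iff₀ hr0] at this
    rw [div_le_iff₀ hk0]
    linarith
  have hCk0 : 0 < C / k := by positivity
  have hCk : C / k ≤ 1 / 100 := by linarith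
  by_contra hcon
  rw [not_le] at hcon
  obtain ⟨D, hD⟩ : ∃ D, D = Dead k f0 P P0 dP dP0 Q Q0 dQ dQ0 := ⟨_, rfl⟩
  rw [← hD] at hcon
  -- first level
  obtain ⟨m, hm⟩ := hcell.level1_small (f0 := f0) hC hk1 hdel0 hdel1 hκ1 hlam1 hlam2 k3 hf0 (by
    refine le_trans (le_trans (measure_mono ?_) hcon.le) (ENNReal.ofReal_le_ofReal hc01)
    rintro y ⟨hy, hy2⟩
    rw [hD]
    exact ⟨hy, Or.inl (by linarith)⟩)
  have h0m : (0:ℝ) ∈ Icc (0:ℝ) 3 := left_mem_Icc.2 (by norm_num)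
  have h3m : (3:ℝ) ∈ Icc (0:ℝ) 3 := right_mem_Icc.2 (by norm_num)
  -- common form of the mirror relation
  obtain ⟨ε, hε, hlb, hmir⟩ : ∃ ε : ℝ, (ε = 1 ∨ ε = -1) ∧ |lam| ≤ 11 / 10 ∧
      ∀ x ∈ Icc (0:ℝ) 3, |Q x - ε * P x - 1 / 2 - m| ≤ 2 * del := by
    have hsm : 3 * (C / k * (11 / 10)) + C / k ≤ del := by
      rw [hdel]; linarith
    rcases hm with ⟨hpos, hm⟩ | ⟨hneg, hm⟩
    · have a1 := abs_le.1 (hm 0 h0m)
      have a2 := abs_le.1 (hm 3 h3m)
      have hl : |lam| ≤ 11 / 10 := by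
        rw [abs_of_pos hpos]
        linarith [a1.1, a1.2, a2.1, a2.2]
      refine ⟨1, Or.inl rfl, hl, ?_⟩
      intro x hx
      have b1 := hcell.Q_affine hx
      have b2 := hcell.nP x hx
      have b3 := hm x hx
      have b4 : Q x - 1 * P x - 1 / 2 - m = (Q x - (Q 0 + lam * x))
        + (Q 0 + lam * x - x - 1 / 2 - m) + (-(P x - x)) := by ring
      have b5 : 3 * (C / k * |lam|) ≤ 3 * (C / k * (11 / 10)) := by
        have := mul_le_mul_of_nonneg_left hl hCk0.le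
        linarith
      rw [b4]
      refine (abs_add_three _ _ _).trans ?_
      rw [abs_neg]
      linarith
    · have a1 := abs_le.1 (hm 0 h0m)
      have a2 := abs_le.1 (hm 3 h3m)
      have hl : |lam| ≤ 11 / 10 := by
        rw [abs_of_neg hneg]
        linarith [a1.1, a1.2, a2.1, a2.2]
      refine ⟨-1, Or.inr rfl, hl, ?_⟩
      intro x hx
      have b1 := hcell.Q_affine hx
      have b2 := hcell.nP x hx
      have b3 := hm x hx
      have b4 : Q x - -1 * P x - 1 / 2 - m = (Q x - (Q 0 + lam * x))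
        + (Q 0 + lam * x + x - 1 / 2 - m) + (P x - x) := by ring
      have b5 : 3 * (C / k * |lam|) ≤ 3 * (C / k * (11 / 10)) := by
        have := mul_le_mul_of_nonneg_left hl hCk0.le
        linarith
      rw [b4]
      refine (abs_add_three _ _ _).trans ?_
      linarith
  have hW := hcell.mirror_measure (r := r) (ε := ε) (m := m) hC (by rw [hr, rr]) k1 hlb hε
    (fun x hx => (hmir x hx).trans (by rw [hdel]; linarith))
  have hsP := hcell.sideP hC hCk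
  have hsQ := hcell.sideQ hC hCk (by linarith) hlb
  -- second level
  have hdens := density (D := D) (W := NonMir k r (r / 50) P P0 Q Q0) (h := R / k)
    (c := ENNReal.ofReal (del / (14400 * k))) (by
      rintro x ⟨hx, hcx, hn⟩
      by_contra hlt
      rw [not_le] at hlt
      have hx3 : x ∈ Icc (0:ℝ) 3 := ⟨by linarith [hx.1], by linarith [hx.2]⟩
      have hcP : κ ≤ |Real.cos (2 * π * P x)| := by rw [hκr]; linarith
      have hcQ : κ ≤ |Real.cos (2 * π * Q x)| := by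
        have c1 : |Real.cos (2 * π * (ε * P x + 1 / 2 + m))| = |Real.cos (2 * π * P x)| := by
          have e1 : 2 * π * (ε * P x + 1 / 2 + m) = (ε * (2 * π * P x) + π) + m * (2 * π) := by ring
          rw [e1, Real.cos_add_int_mul_two_pi, Real.cos_add_pi, abs_neg]
          rcases hε with h | h
          · rw [h, one_mul]
          · rw [h, neg_one_mul, Real.cos_neg]
        have c2 := abs_cos_sub_le (ε * P x + 1 / 2 + m) (Q x)
        have c3 : |ε * P x + 1 / 2 + m - Q x| ≤ 2 * del := by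
          rw [abs_sub_comm]
          have : Q x - (ε * P x + 1 / 2 + m) = Q x - ε * P x - 1 / 2 - m := by ring
          rw [this]; exact hmir x hx3
        have c4 := abs_sub_abs_le_abs_sub (Real.cos (2 * π * (ε * P x + 1 / 2 + m)))
          (Real.cos (2 * π * Q x))
        rw [c1] at c4
        rw [hκr]
        rw [hdel] at c3
        linarith
      have hsub : {y : ℝ | |y - x| ≤ R / k ∧
          dead2 k (F1 k f0 P dP dP0 Q dQ dQ0) P P0 dP dP0 Q Q0 dQ dQ0 y} ⊆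
          D ∩ {y | |y - x| ≤ R / k} := by
        rintro y ⟨hy1, hy2⟩
        refine ⟨?_, hy1⟩
        rw [hD]
        have := abs_le.1 (hy1.trans k4)
        exact ⟨⟨by linarith [this.1, hx.1], by linarith [this.2, hx.2]⟩, Or.inr hy2⟩
      have hbad := (measure_mono hsub).trans hlt.le
      have hHQ := hquad x hx (by rw [← hκ]; exact hcP) (by rw [← hκ]; exact hcQ)
      rw [← hR] at hHQ
      rcases le_total |dnx k P dP dP0 x| |dnx k Q dQ dQ0 x| with hle | hle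
      · obtain ⟨m', hm'⟩ := level2_local hsP hsQ hk1 (by positivity) hκ0 hκ1' k5 hRκ hB hdel0 hdel1
          hκ1 k2 hx k4 hcP hcQ hle hHQ hbad
        have hn' := hn (2 * m' + 1)
        push_cast at hn'
        have e1 : nx k Q Q0 x - nx k P P0 x - (2 * (m':ℝ) + 1) / 2
          = nx k Q Q0 x - nx k P P0 x - 1 / 2 - m' := by ring
        have e2 : nx k Q Q0 x + nx k P P0 x - (2 * (m':ℝ) + 1) / 2
          = nx k Q Q0 x + nx k P P0 x - 1 / 2 - m' := by ring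
        rw [e1, e2] at hn'
        rw [hdel] at hm'
        rcases hm' with hm' | hm'
        · linarith [hn'.2]
        · linarith [hn'.1]
      · obtain ⟨m', hm'⟩ := level2_local (F1 := F1 k f0 P dP dP0 Q dQ dQ0) hsQ hsP hk1
          (by positivity) hκ0 hκ1' k5 hRκ hB hdel0 hdel1
          hκ1 k2 hx k4 hcQ hcP hle hHQ (by
            have : {y : ℝ | |y - x| ≤ R / k ∧
              dead2 k (F1 k f0 P dP dP0 Q dQ dQ0) Q Q0 dQ dQ0 P P0 dP dP0 y}
              = {y : ℝ | |y - x| ≤ R / k ∧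
              dead2 k (F1 k f0 P dP dP0 Q dQ dQ0) P P0 dP dP0 Q Q0 dQ dQ0 y} := by
              ext y
              simp only [mem_ofPred_eq, dead2_swap]
            rw [this]
            exact hbad)
        rw [hdel] at hm'
        rcases hm' with hm' | hm'
        · have hn' := (hn (-(2 * m' + 1))).2
          push_cast at hn'
          have e1 : nx k Q Q0 x - nx k P P0 x - -(2 * (m':ℝ) + 1) / 2
            = -(nx k P P0 x - nx k Q Q0 x - 1 / 2 - m') := by ring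
          rw [e1, abs_neg] at hn'
          linarith
        · have hn' := (hn (2 * m' + 1)).1
          push_cast at hn'
          have e1 : nx k Q Q0 x + nx k P P0 x - (2 * (m':ℝ) + 1) / 2
            = nx k P P0 x + nx k Q Q0 x - 1 / 2 - m' := by ring
          rw [e1] at hn'
          linarith)
  have hlow : ENNReal.ofReal (del / (14400 * k)) * ENNReal.ofReal (r / 10)
      ≤ ENNReal.ofReal (2 * (R / k)) * ENNReal.ofReal c0 := by
    calc _ ≤ ENNReal.ofReal (del / (14400 * k)) * volume (NonMir k r (r / 50) P P0 Q Q0) := by gcongr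
      _ ≤ _ := hdens
      _ ≤ _ := by gcongr
  rw [← ENNReal.ofReal_mul (by positivity), ← ENNReal.ofReal_mul (by positivity),
    ENNReal.ofReal_le_ofReal_iff (by positivity)] at hlow
  have e1 : 2 * (R / k) * c0 = del * r / (150000 * k) := by
    rw [hc0]
    field_simp
    ring
  have e2 : del / (14400 * k) * (r / 10) = del * r / (144000 * k) := by
    field_simp
    ring
  rw [e1, e2, div_le_div_iff₀ (by positivity) (by positivity)] at hlow
  have : 0 < del * r * k := by positivity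
  nlinarith

end Crest.Agent.R128.RoughAsm
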