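import Crest.Agent.R128.RaBridge4
import Crest.Agent.R128.RoughAsm8
import Crest.Agent.R128.RoughAsm6

/-! Row 128, bridge `Cell3 → RA` (helper86), part 5: **RA**. -/

set_option autoImplicit false

open Metric MeasureTheory Set
open Crest.Agent.R128 Crest.Agent.R128.Cell Crest.Agent.R128.CellB Crest.Agent.R128.CellDy
open Crest.Agent.R128.Loc

namespace Crest.Agent.R128.RaBridge

open Crest.Agent.R128.RoughAsm (Vr mvt uIcc_sub)

section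
variable {k c m R L Lf ε t1 a e : ℝ} {s : Bool} {n n' : ℕ}

theorem SideC.mono {ε' : ℝ} (h : SideC k c s n m R L ε) (hε : ε ≤ ε') :
    SideC k c s n m R L ε' where
  hR := h.hR
  hL := h.hL
  d1 := fun z hz => (h.d1 z hz).trans (by have := h.hR; gcongr)
  d0 := fun z hz => (h.d0 z hz).trans (by have := h.hR; gcongr)

theorem SideC.ne1 (h : SideC k c s n m R L ε) (hc : Chart m R t1 a e) (hε : ε ≤ 1 / 2) {x : ℝ}
    (hx : x ∈ Icc (0 : ℝ) 3) : D k c s (n + 1) (ph t1 a x : ℂ) ≠ 0 := by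
  intro h0
  have h1 := h.r1 hc hx
  rw [h0, Complex.zero_re, mul_zero, zero_sub, abs_neg, abs_slp hc] at h1
  have := h.hL
  nlinarith

theorem FF_eq {u : ℝ} (h0 : D k c s (n + 1) (ph t1 a u : ℂ) ≠ 0)
    (h1 : D k c s (n + 2) (ph t1 a u : ℂ) ≠ 0) (h0' : D k c (!s) (n' + 1) (ph t1 a u : ℂ) ≠ 0)
    (h1' : D k c (!s) (n' + 2) (ph t1 a u : ℂ) ≠ 0) :
    FF k c s n n' R t1 a u =
      -(2 * Real.pi * k * R ^ 2) * (cont k c s (n + 2) (n' + 2) (ph t1 a u : ℂ)).re := by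
  have h := cont_step_re (t := ph t1 a u) h0 h1 h0' h1'
  unfold FF
  rw [show n + 2 = n + 1 + 1 from rfl, show n' + 2 = n' + 1 + 1 from rfl, h]
  ring

theorem F2_eq {u : ℝ} (h0 : D k c s (n + 1) (ph t1 a u : ℂ) ≠ 0)
    (h1 : D k c s (n + 2) (ph t1 a u : ℂ) ≠ 0) (h2 : D k c s (n + 3) (ph t1 a u : ℂ) ≠ 0)
    (h0' : D k c (!s) (n' + 1) (ph t1 a u : ℂ) ≠ 0)
    (h1' : D k c (!s) (n' + 2) (ph t1 a u : ℂ) ≠ 0)
    (h2' : D k c (!s) (n' + 3) (ph t1 a u : ℂ) ≠ 0) :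
    FF k c s n n' R t1 a u +
      2 * Real.pi * k * R ^ 2 * (1 / ((D k c s (n + 2) (ph t1 a u : ℂ)).re *
        (D k c s (n + 3) (ph t1 a u : ℂ)).re)) +
      2 * Real.pi * k * R ^ 2 * (1 / ((D k c (!s) (n' + 2) (ph t1 a u : ℂ)).re *
        (D k c (!s) (n' + 3) (ph t1 a u : ℂ)).re)) =
      -(2 * Real.pi * k * R ^ 2) * (cont k c s (n + 3) (n' + 3) (ph t1 a u : ℂ)).re := by
  have h := cont_step_re (n := n + 2) (n' := n' + 2) (t := ph t1 a u) h1 h2 h1' h2'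
  rw [FF_eq h0 h1 h0' h1', show n + 3 = n + 2 + 1 from rfl, show n' + 3 = n' + 2 + 1 from rfl, h]
  ring

theorem vol_transport {c0 c1 δ : ℝ} (hR : 0 < R) (hc : Chart m R t1 a e) {A S Z : Set ℝ}
    (hA : ENNReal.ofReal c1 ≤ volume A)
    (hsub : A ⊆ ph t1 a ⁻¹' S ∪ (ph t1 a ⁻¹' Z ∪ Ioc (3 - δ) 3)) (hZ : volume Z = 0)
    (hδ : c0 + δ ≤ c1) (hδ0 : 0 ≤ δ) (hc0 : 0 ≤ c0) :
    ENNReal.ofReal (c0 / R) ≤ volume S := by
  have ha0 : a ≠ 0 := by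
    intro h0
    rcases hc.ha with h | h <;> rw [h0, zero_mul] at h <;> norm_num at h
  have hpre : ∀ B : Set ℝ, volume (ph t1 a ⁻¹' B) = ENNReal.ofReal R * volume B := by
    intro B
    have h1 : ph t1 a ⁻¹' B = (fun z : ℝ => a * z) ⁻¹' ((fun u : ℝ => t1 + u) ⁻¹' B) := rfl
    rw [h1, Real.volume_preimage_mul_left ha0, measure_preimage_add, abs_inv, hc.a_abs hR]
    simp
  have h1 : volume A ≤ ENNReal.ofReal R * volume S + ENNReal.ofReal δ := by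
    refine (measure_mono hsub).trans ((measure_union_le _ _).trans ?_)
    rw [hpre S]
    refine add_le_add le_rfl ((measure_union_le _ _).trans ?_)
    rw [hpre Z, hZ, mul_zero, zero_add, Real.volume_Ioc]
    apply ENNReal.ofReal_le_ofReal
    linarith
  have h2 : ENNReal.ofReal c0 + ENNReal.ofReal δ ≤ ENNReal.ofReal R * volume S + ENNReal.ofReal δ := by
    rw [← ENNReal.ofReal_add hc0 hδ0]
    exact (ENNReal.ofReal_le_ofReal hδ).trans (hA.trans h1)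
  have h3 : ENNReal.ofReal c0 ≤ ENNReal.ofReal R * volume S :=
    (ENNReal.add_le_add_iff_right ENNReal.ofReal_ne_top).mp h2
  rw [ENNReal.ofReal_div_of_pos hR]
  exact ENNReal.div_le_of_le_mul' h3

/-- the set of `RA` -/
def SRA (k c : ℝ) (s : Bool) (n n' : ℕ) (m R : ℝ) : Set ℝ := {t : ℝ | |t - m| ≤ 2 / R ∧
        (1 / 4 < (2 * Real.pi * k * R ^ 2) * ‖cont k c s (n + 2) (n' + 2) t‖ ∨
         1 / 4 < (2 * Real.pi * k * (min ‖D k c s (n + 2) t‖ ‖D k c (!s) (n' + 2) t‖) ^ 2) *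
            ‖cont k c s (n + 3) (n' + 3) t‖)}

theorem Chart.dist_le {y δ : ℝ} (hR : 0 < R) (hc : Chart m R t1 a e) (he : e ≤ -1 + δ)
    (hy : y ∈ Icc (0 : ℝ) 3) (hy3 : y ≤ 3 - δ) : |ph t1 a y - m| ≤ 2 / R := by
  have e1 : ph t1 a y - m = a * (e + y) := by
    unfold ph; rw [hc.ht]; ring
  rw [e1, abs_mul, hc.a_abs hR]
  have h2 : |e + y| ≤ 2 := by
    rw [abs_le]
    constructor
    · linarith [hc.he1, hy.1]
    · linarith
  calc 1 / R * |e + y| ≤ 1 / R * 2 := by gcongr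
    _ = 2 / R := by ring

theorem first_alt {u : ℝ} (hk : 0 < k) (hR : 0 < R)
    (h0 : D k c s (n + 1) (ph t1 a u : ℂ) ≠ 0)
    (h1 : D k c s (n + 2) (ph t1 a u : ℂ) ≠ 0) (h0' : D k c (!s) (n' + 1) (ph t1 a u : ℂ) ≠ 0)
    (h1' : D k c (!s) (n' + 2) (ph t1 a u : ℂ) ≠ 0) (h : 1 / 4 < |FF k c s n n' R t1 a u|) :
    1 / 4 < (2 * Real.pi * k * R ^ 2) * ‖cont k c s (n + 2) (n' + 2) (ph t1 a u : ℂ)‖ := by
  rw [FF_eq h0 h1 h0' h1', abs_mul, abs_neg,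
    abs_of_pos (by have := Real.pi_pos; positivity : 0 < 2 * Real.pi * k * R ^ 2)] at h
  refine h.trans_le ?_
  have := Real.pi_pos
  gcongr
  exact Complex.abs_re_le_norm _

theorem second_alt {u x y : ℝ} (hk : 0 < k) (hR : 0 < R) (hc : Chart m R t1 a e)
    (h0 : D k c s (n + 1) (ph t1 a u : ℂ) ≠ 0)
    (h1 : D k c s (n + 2) (ph t1 a u : ℂ) ≠ 0) (h2 : D k c s (n + 3) (ph t1 a u : ℂ) ≠ 0)
    (h0' : D k c (!s) (n' + 1) (ph t1 a u : ℂ) ≠ 0)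
    (h1' : D k c (!s) (n' + 2) (ph t1 a u : ℂ) ≠ 0)
    (h2' : D k c (!s) (n' + 3) (ph t1 a u : ℂ) ≠ 0)
    (hx : x = sg s * a * (D k c s (n + 2) (ph t1 a u : ℂ)).re)
    (hy : y = sg (!s) * a * (D k c (!s) (n' + 2) (ph t1 a u : ℂ)).re)
    (h : 1 / 4 < |FF k c s n n' R t1 a u +
      2 * Real.pi * k * R ^ 2 * (1 / ((D k c s (n + 2) (ph t1 a u : ℂ)).re *
        (D k c s (n + 3) (ph t1 a u : ℂ)).re)) +
      2 * Real.pi * k * R ^ 2 * (1 / ((D k c (!s) (n' + 2) (ph t1 a u : ℂ)).re *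
        (D k c (!s) (n' + 3) (ph t1 a u : ℂ)).re))| * min (x ^ 2) (y ^ 2)) :
    1 / 4 < (2 * Real.pi * k * (min ‖D k c s (n + 2) (ph t1 a u : ℂ)‖
      ‖D k c (!s) (n' + 2) (ph t1 a u : ℂ)‖) ^ 2) *
        ‖cont k c s (n + 3) (n' + 3) (ph t1 a u : ℂ)‖ := by
  have hpi := Real.pi_pos
  rw [F2_eq h0 h1 h2 h0' h1' h2', abs_mul, abs_neg,
    abs_of_pos (by positivity : 0 < 2 * Real.pi * k * R ^ 2)] at h
  have hsq : ∀ (s : Bool) (r : ℝ), (sg s * a * r) ^ 2 = r ^ 2 / R ^ 2 := by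
    intro s r
    calc (sg s * a * r) ^ 2 = (sg s * sg s) * (a * a) * r ^ 2 := by ring
      _ = r ^ 2 / R ^ 2 := by rw [sg_sq, hc.a_sq hR]; ring
  have hn : ∀ (s : Bool) (i : ℕ), ‖D k c s i (ph t1 a u : ℂ)‖ = |(D k c s i (ph t1 a u : ℂ)).re| := by
    intro s i
    conv_lhs => rw [D_real k c s i (ph t1 a u)]
    rw [Complex.norm_real, Real.norm_eq_abs]
  rw [hx, hy, hsq, hsq, min_div_div_right (by positivity : (0:ℝ) ≤ R ^ 2)] at h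
  rw [hn, hn]
  have hmin : ∀ p q : ℝ, (min |p| |q|) ^ 2 = min (p ^ 2) (q ^ 2) := by
    intro p q
    rcases le_total |p| |q| with hpq | hpq
    · rw [min_eq_left hpq, min_eq_left (by rw [← sq_abs p, ← sq_abs q]; gcongr), sq_abs]
    · rw [min_eq_right hpq, min_eq_right (by rw [← sq_abs p, ← sq_abs q]; gcongr), sq_abs]
  rw [hmin]
  refine h.trans_le ?_
  have hre := Complex.abs_re_le_norm (cont k c s (n + 3) (n' + 3) (ph t1 a u : ℂ))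
  have hm0 : 0 ≤ min ((D k c s (n + 2) (ph t1 a u : ℂ)).re ^ 2)
      ((D k c (!s) (n' + 2) (ph t1 a u : ℂ)).re ^ 2) := le_min (by positivity) (by positivity)
  calc 2 * Real.pi * k * R ^ 2 * |(cont k c s (n + 3) (n' + 3) (ph t1 a u : ℂ)).re| *
        (min ((D k c s (n + 2) (ph t1 a u : ℂ)).re ^ 2)
          ((D k c (!s) (n' + 2) (ph t1 a u : ℂ)).re ^ 2) / R ^ 2)
      = 2 * Real.pi * k * min ((D k c s (n + 2) (ph t1 a u : ℂ)).re ^ 2)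
          ((D k c (!s) (n' + 2) (ph t1 a u : ℂ)).re ^ 2) *
          |(cont k c s (n + 3) (n' + 3) (ph t1 a u : ℂ)).re| := by
        field_simp
    _ ≤ _ := by gcongr

/-- functions of the chart -/
noncomputable def fP (k c : ℝ) (s : Bool) (n : ℕ) (t1 a : ℝ) (N : ℤ) (x : ℝ) : ℝ :=
  (Y k c s n (ph t1 a x : ℂ)).re - N
noncomputable def fD (k c : ℝ) (s : Bool) (n : ℕ) (t1 a x : ℝ) : ℝ :=
  sg s * a * (D k c s n (ph t1 a x : ℂ)).re
noncomputable def fD2 (k c : ℝ) (s : Bool) (n : ℕ) (t1 a x : ℝ) : ℝ :=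
  sg s * a * a * (deriv (D k c s n) (ph t1 a x : ℂ)).re
noncomputable def f0c (k c : ℝ) (s : Bool) (n n' : ℕ) (R t1 a x : ℝ) : ℝ :=
  -(2 * Real.pi * k * R ^ 2) * (cont k c s (n + 1) (n' + 1) (ph t1 a x : ℂ)).re

theorem F1_eq (hR : 0 < R) (hc : Chart m R t1 a e) (N N' : ℤ) (u : ℝ) :
    RoughAsm.F1 k (f0c k c s n n' R t1 a) (fP k c s (n + 1) t1 a N) (fD k c s (n + 1) t1 a)
      (fD k c s n t1 a) (fP k c (!s) (n' + 1) t1 a N') (fD k c (!s) (n' + 1) t1 a)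
      (fD k c (!s) n' t1 a) u = FF k c s n n' R t1 a u := by
  unfold RoughAsm.F1 FF f0c fP fD
  rw [T_eq hR hc, T_eq hR hc]

theorem quad_f0 (hc : Chart m R t1 a e) (hR : 0 < R) {q0 q1 q2 : ℝ}
    (hquad : ∀ z ∈ ball (m : ℂ) (4 / R),
      ‖(2 * Real.pi * k * R ^ 2 : ℝ) * cont k c s (n + 1) (n' + 1) z -
        (q0 + q1 * ((R : ℂ) * (z - m)) + q2 * ((R : ℂ) * (z - m)) ^ 2)‖ ≤ 1 / 16) :
    ∃ p0 p1 p2 : ℝ, ∀ x ∈ Icc (0 : ℝ) 3,
      |f0c k c s n n' R t1 a x - (p0 + p1 * x + p2 * x ^ 2)| ≤ 1 / 8 := by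
  obtain ⟨τ, hτ⟩ : ∃ τ, τ = a * R := ⟨_, rfl⟩
  refine ⟨-(q0 + q1 * τ * e + q2 * τ ^ 2 * e ^ 2), -(q1 * τ + 2 * q2 * τ ^ 2 * e), -(q2 * τ ^ 2), ?_⟩
  intro x hx
  have h1 := hquad _ (mem_ball_of hR (hc.mem_ph hR hx))
  have h2 := (Complex.abs_re_le_norm _).trans h1
  have e1 : (R : ℂ) * (((ph t1 a x : ℝ) : ℂ) - m) = ((τ * (e + x) : ℝ) : ℂ) := by
    unfold ph
    rw [hc.ht, hτ]; push_cast; ring
  have e2 : ((q0 : ℂ) + q1 * ((τ * (e + x) : ℝ) : ℂ) + q2 * ((τ * (e + x) : ℝ) : ℂ) ^ 2) =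
      ((q0 + q1 * (τ * (e + x)) + q2 * (τ * (e + x)) ^ 2 : ℝ) : ℂ) := by
    push_cast; ring
  rw [e1, e2, Complex.sub_re, Complex.re_ofReal_mul, Complex.ofReal_re] at h2
  unfold f0c
  have e3 : -(2 * Real.pi * k * R ^ 2) * (cont k c s (n + 1) (n' + 1) (ph t1 a x : ℂ)).re -
      (-(q0 + q1 * τ * e + q2 * τ ^ 2 * e ^ 2) + -(q1 * τ + 2 * q2 * τ ^ 2 * e) * x +
        -(q2 * τ ^ 2) * x ^ 2) =
      -(2 * Real.pi * k * R ^ 2 * (cont k c s (n + 1) (n' + 1) (ph t1 a x : ℂ)).re -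
        (q0 + q1 * (τ * (e + x)) + q2 * (τ * (e + x)) ^ 2)) := by ring
  rw [e3, abs_neg]
  exact h2.trans (by norm_num)

/-- the final inclusion -/
theorem dead_sub {δ : ℝ} {N N' : ℤ} (hk : 10 ≤ k) (h : SideC k c s n m R L ε)
    (h' : SideC k c (!s) n' m R Lf ε) (hε : ε ≤ 1 / 10) (hc : Chart m R t1 a e)
    (he : e ≤ -1 + δ) :
    RoughAsm.Dead k (f0c k c s n n' R t1 a) (fP k c s (n + 1) t1 a N)
      (fun x => (Y k c s n (ph t1 a x : ℂ)).re) (fD k c s (n + 1) t1 a)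
      (fD k c s n t1 a) (fP k c (!s) (n' + 1) t1 a N')
      (fun x => (Y k c (!s) n' (ph t1 a x : ℂ)).re) (fD k c (!s) (n' + 1) t1 a)
      (fD k c (!s) n' t1 a) ⊆
    ph t1 a ⁻¹' SRA k c s n n' m R ∪
      (ph t1 a ⁻¹' ({t : ℝ | D k c s (n + 2) (t : ℂ) = 0 ∨ D k c s (n + 3) (t : ℂ) = 0} ∪
        {t : ℝ | D k c (!s) (n' + 2) (t : ℂ) = 0 ∨ D k c (!s) (n' + 3) (t : ℂ) = 0}) ∪
        Ioc (3 - δ) 3) := by
  rintro y ⟨hy, hdead⟩
  have hR := h.hR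
  have hk0 : 0 < k := by linarith
  by_cases hy3 : y ≤ 3 - δ
  swap
  · exact Or.inr (Or.inr ⟨not_le.mp hy3, hy.2⟩)
  by_cases hZ : ph t1 a y ∈ ({t : ℝ | D k c s (n + 2) (t : ℂ) = 0 ∨ D k c s (n + 3) (t : ℂ) = 0} ∪
        {t : ℝ | D k c (!s) (n' + 2) (t : ℂ) = 0 ∨ D k c (!s) (n' + 3) (t : ℂ) = 0})
  · exact Or.inr (Or.inl hZ)
  left
  simp only [mem_union, mem_ofPred_eq, not_or] at hZ
  obtain ⟨⟨z2, z3⟩, ⟨z2', z3'⟩⟩ := hZ
  have z1 := h.ne1 hc (by linarith) hy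
  have z1' := h'.ne1 hc (by linarith) hy
  refine ⟨hc.dist_le hR he hy hy3, ?_⟩
  rcases hdead with hd | hd
  · left
    rw [F1_eq hR hc] at hd
    exact first_alt hk0 hR z1 z2 z1' z2' hd
  · right
    unfold RoughAsm.dead2 RoughAsm.F2 at hd
    rw [F1_eq hR hc] at hd
    have t1' := T2_eq (k := k) (c := c) (s := s) (n := n) hR hc N y
    have t2' := T2_eq (k := k) (c := c) (s := !s) (n := n') hR hc N' y
    have d1' := dnx_eq (k := k) (c := c) (s := s) (n := n) (t1 := t1) (a := a) N y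
    have d2' := dnx_eq (k := k) (c := c) (s := !s) (n := n') (t1 := t1) (a := a) N' y
    refine second_alt hk0 hR hc z1 z2 z3 z1' z2' z3' d1' d2' ?_
    rw [← t1', ← t2']
    exact hd

end

end Crest.Agent.R128.RaBridge
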