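import Crest.Agent.R128.RaBridge5

/-! Row 128, bridge `Cell3 → RA` (helper86), part 6: the theorem `Loc.RA`. -/

set_option autoImplicit false

open Metric MeasureTheory Set
open Crest.Agent.R128 Crest.Agent.R128.Cell Crest.Agent.R128.CellB Crest.Agent.R128.CellDy
open Crest.Agent.R128.Loc

namespace Crest.Agent.R128.RaBridge

open Crest.Agent.R128.RoughAsm (Vr mvt uIcc_sub)

section
variable {k c m R L Lf ε t1 a e : ℝ} {s : Bool} {n n' : ℕ}

theorem cos_fP (N : ℤ) (x : ℝ) : Real.cos (2 * Real.pi * fP k c s n t1 a N x) =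
    Real.cos (2 * Real.pi * (Y k c s n (ph t1 a x : ℂ)).re) := by
  unfold fP
  have : 2 * Real.pi * ((Y k c s n (ph t1 a x : ℂ)).re - N) =
      2 * Real.pi * (Y k c s n (ph t1 a x : ℂ)).re - N * (2 * Real.pi) := by ring
  rw [this, Real.cos_sub_int_mul_two_pi]

theorem nP_bound {B σ : ℝ} {N : ℤ} (h : SideC k c s n m R σ (B / k)) (hσ : |σ| = 1)
    (hk : 0 < k) (hB : 0 ≤ B) (hc : Chart m R t1 a e) (hs : sg s * (a * R) * σ = 1)
    (hN : (Y k c s (n + 1) (ph t1 a 0 : ℂ)).re = N) {x : ℝ} (hx : x ∈ Icc (0 : ℝ) 3) :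
    |fP k c s (n + 1) t1 a N x - x| ≤ 3 * B / k := by
  have m0 : (0 : ℝ) ∈ Icc (0 : ℝ) 3 := ⟨le_rfl, by norm_num⟩
  have h2 := mvt (f := fun t => fP k c s (n + 1) t1 a N t - t)
    (f' := fun t => fD k c s (n + 1) t1 a t - 1) (a := 0) (b := x)
    (B := B / k)
    (fun t _ => (hasDeriv_P (k := k) (c := c) (s := s) (n := n + 1) (t1 := t1) (a := a) N t).sub
      (hasDerivAt_id t))
    (fun t ht => by
      have h1 := h.r1 hc (uIcc_sub m0 hx ht)
      unfold slp at h1
      rw [hs, hσ, mul_one] at h1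
      exact h1)
  have h0 : fP k c s (n + 1) t1 a N 0 = 0 := by
    unfold fP; rw [hN]; ring
  simp only [h0, sub_zero] at h2
  refine h2.trans ?_
  rw [abs_of_nonneg hx.1]
  calc B / k * x ≤ B / k * 3 := by
        have := hx.2
        gcongr
    _ = 3 * B / k := by ring

end

set_option maxHeartbeats 2000000 in
/-- **RA**: two-level roughness on a cell. -/
theorem ra : Loc.RA := by
  intro C1
  obtain ⟨B, hB⟩ : ∃ B, B = |C1| := ⟨_, rfl⟩
  have hB0 : 0 ≤ B := by rw [hB]; exact abs_nonneg _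
  have hC1B : C1 ≤ B := by rw [hB]; exact le_abs_self _
  obtain ⟨C, hC⟩ : ∃ C, C = 10 ^ 4 * B + 1 := ⟨_, rfl⟩
  have hC1 : 1 ≤ C := by rw [hC]; linarith
  have hC0 : 0 < C := by linarith
  obtain ⟨cs, hcs, K0, hasm⟩ := RoughAsm.asm_small C hC1
  obtain ⟨κ, hκ⟩ : ∃ κ, κ = RoughAsm.kap C := ⟨_, rfl⟩
  have hκ0 : 0 < κ := by rw [hκ, RoughAsm.kap, RoughAsm.rr]; positivity
  have hκ1 : κ ≤ 1 / 2 := by
    rw [hκ, RoughAsm.kap, RoughAsm.rr, div_div, div_le_div_iff₀ (by positivity) (by norm_num)]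
    linarith
  obtain ⟨r, hr⟩ : ∃ r, r = RoughAsm.RR C := ⟨_, rfl⟩
  have hr0 : 0 < r := by rw [hr, RoughAsm.RR, ← hκ]; positivity
  have hCL := CL_nonneg 1
  obtain ⟨ρ, hρ⟩ : ∃ ρ, ρ = κ / (10 ^ 4 * (CL 1 + 1)) := ⟨_, rfl⟩
  have hρ0 : 0 < ρ := by rw [hρ]; positivity
  have hρa : CL 1 * (2 * 10 ^ 4 * ρ) ≤ 2 * κ := by
    have : CL 1 * (2 * 10 ^ 4 * ρ) = 2 * κ * (CL 1 / (CL 1 + 1)) := by
      rw [hρ]; field_simp
    rw [this]
    have h2 : CL 1 / (CL 1 + 1) ≤ 1 := by
      rw [div_le_one (by linarith)]; linarith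
    nlinarith
  have hρb : 2 * 10 ^ 4 * ρ ≤ 1 := by
    have : 2 * 10 ^ 4 * ρ = 2 * κ / (CL 1 + 1) := by
      rw [hρ]; field_simp
    rw [this, div_le_one (by linarith)]
    linarith
  obtain ⟨c1, hc1⟩ : ∃ c1, c1 = min cs (1 / 2000) := ⟨_, rfl⟩
  have hc1a : c1 ≤ cs := by rw [hc1]; exact min_le_left _ _
  have hc1b : c1 ≤ 1 / 2000 := by rw [hc1]; exact min_le_right _ _
  have hc10 : 0 < c1 := by rw [hc1]; exact lt_min hcs (by norm_num)
  obtain ⟨k1, hk1⟩ : ∃ k1, k1 = |K0| + 10 ^ 14 * (B + 1) + 100 * B ^ 4 + 10 * C + 10 / κ + 4 * r +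
    2 * r / ρ + 10 ^ 6 / κ * (r / ρ) ^ 3 + 4 * B / c1 := ⟨_, rfl⟩
  refine ⟨c1 / 2, by positivity, k1, ?_⟩
  intro k hk c s n n' m R lam q0 q1 q2 hlam H
  have p1 : 0 ≤ |K0| := abs_nonneg _
  have p2 : 0 ≤ 10 ^ 14 * (B + 1) := by positivity
  have p3 : 0 ≤ 100 * B ^ 4 := by positivity
  have p4 : 0 ≤ 10 * C := by positivity
  have p5 : 0 ≤ 10 / κ := by positivity
  have p6 : 0 ≤ 4 * r := by positivity
  have p7 : 0 ≤ 2 * r / ρ := by positivity
  have p8 : 0 ≤ 10 ^ 6 / κ * (r / ρ) ^ 3 := by positivity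
  have p9 : 0 ≤ 4 * B / c1 := by positivity
  have f1 : K0 ≤ k := by linarith [le_abs_self K0]
  have f2 : 10 ^ 14 * (B + 1) ≤ k := by linarith
  have f3 : 100 * B ^ 4 ≤ k := by linarith
  have f4 : 10 * C ≤ k := by linarith
  have f5 : 10 / κ ≤ k := by linarith
  have f6 : 4 * r ≤ k := by linarith
  have f7 : 2 * r / ρ ≤ k := by linarith
  have f8 : 10 ^ 6 / κ * (r / ρ) ^ 3 ≤ k := by linarith
  have f9 : 4 * B / c1 ≤ k := by linarith
  clear hk hk1 p1 p2 p3 p4 p5 p6 p7 p8 p9
  have hkbig : 10 ^ 14 ≤ k := by linarith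
  have hk0 : 0 < k := by linarith
  have hR : 0 < R := by linarith [H.hR]
  have hlam1 := H.hlam
  have hl0 : 0 < |lam| := by linarith
  have hBk0 : 0 ≤ B / k := by positivity
  obtain ⟨σ, hσ, hslow⟩ := H.slow
  have hσ1 : |σ| = 1 := by rcases hσ with h | h <;> rw [h] <;> norm_num
  have hslowB : ∀ z ∈ ball (m : ℂ) (4 / R), ‖D k c s (n + 1) z - (σ * R : ℝ)‖ ≤ B * R / k :=
    fun z hz => (hslow z hz).trans (by gcongr)
  obtain ⟨t1, a, e, N, hc, hsσ, he, hN⟩ := exists_chart (k := k) (c := c) (s := s) (n := n)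
    hR (by linarith : 100 * (B + 1) ≤ k) hB0 hσ hslowB
  have he' : e ≤ -1 + 2 * B / k := he
  have hP1 : SideC k c s n m R σ (B / k) :=
    ⟨hR, hσ1.ge, fun z hz => (hslowB z hz).trans (le_of_eq (by rw [hσ1]; ring)),
      fun z hz => (H.slow0 z hz).trans (by
        rw [hσ1, mul_one]
        calc C1 * R / k ≤ B * R / k := by gcongr
          _ = B / k * R := by ring)⟩
  have hf0 := quad_f0 (k := k) (c := c) (s := s) (n := n) (n' := n') hc hR H.quad
  have hδ0 : 0 ≤ 2 * B / k := by positivity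
  have hδ : c1 / 2 + 2 * B / k ≤ c1 := by
    have : 2 * B / k ≤ c1 / 2 := by
      rw [div_le_div_iff₀ hk0 (by norm_num)]
      rw [div_le_iff₀ hc10] at f9
      linarith
    linarith
  rcases le_total |lam| (10 ^ 4) with hsm | hbg
  · -- small case
    have hCk : C / k ≤ 1 / 10 := by
      rw [div_le_div_iff₀ hk0 (by norm_num)]; linarith
    have hBC : B / k ≤ C / k := by
      apply div_le_div_of_nonneg_right _ hk0.le
      rw [hC]; linarith
    have hP : SideC k c s n m R σ (C / k) := hP1.mono hBC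
    have hQ : SideC k c (!s) n' m R lam (C / k) := by
      refine ⟨hR, hlam1, fun z hz => (H.fast z hz).trans ?_, fun z hz => (H.fast0 z hz).trans ?_⟩
      · have h1 : C1 * |lam| ≤ C := by
          calc C1 * |lam| ≤ B * 10 ^ 4 := mul_le_mul hC1B hsm hl0.le hB0
            _ ≤ C := by rw [hC]; linarith
        calc C1 * |lam| ^ 2 * R / k = (C1 * |lam|) * (|lam| * R / k) := by ring
          _ ≤ C * (|lam| * R / k) := by
              apply mul_le_mul_of_nonneg_right h1 (by positivity)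
          _ = C / k * |lam| * R := by ring
      · have h1 : C1 ≤ C := by rw [hC]; linarith
        calc C1 * |lam| * R / k = C1 * (|lam| * R / k) := by ring
          _ ≤ C * (|lam| * R / k) := by
              apply mul_le_mul_of_nonneg_right h1 (by positivity)
          _ = C / k * |lam| * R := by ring
    have hlE : |slp (!s) a R lam| = |lam| := abs_slp hc
    have hslpσ : slp s a R σ = 1 := hsσ
    have hcell : RoughAsm.Cell k C (slp (!s) a R lam) (fP k c s (n + 1) t1 a N)
        (fun x => (Y k c s n (ph t1 a x : ℂ)).re) (fD k c s (n + 1) t1 a)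
        (fD k c s n t1 a) (fD2 k c s (n + 1) t1 a) (fP k c (!s) (n' + 1) t1 a 0)
        (fun x => (Y k c (!s) n' (ph t1 a x : ℂ)).re) (fD k c (!s) (n' + 1) t1 a)
        (fD k c (!s) n' t1 a) (fD2 k c (!s) (n' + 1) t1 a) := by
      refine ⟨fun x _ => hasDeriv_P N x, fun x _ => hasDerivAt_Yph k c s n t1 a x,
        fun x _ => hasDerivAt_Dph k c s (n + 1) t1 a x, fun x _ => hasDeriv_P 0 x,
        fun x _ => hasDerivAt_Yph k c (!s) n' t1 a x,
        fun x _ => hasDerivAt_Dph k c (!s) (n' + 1) t1 a x, ?_, ?_, ?_, ?_, ?_, ?_, ?_⟩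
      · intro x hx
        refine (nP_bound hP1 hσ1 hk0 hB0 hc hsσ hN hx).trans ?_
        apply div_le_div_of_nonneg_right _ hk0.le
        rw [hC]; linarith
      · intro x hx
        have := hP.r1 hc hx
        rw [hslpσ, hσ1, mul_one] at this
        exact this
      · intro x hx
        have := hP.r0 hc hx
        rw [hσ1, mul_one] at this
        exact this
      · intro x hx
        have := hP.r2 hc hx
        rw [hσ1, mul_one] at this
        exact this
      · intro x hx
        rw [hlE]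
        exact hQ.r1 hc hx
      · intro x hx
        rw [hlE]
        exact hQ.r0 hc hx
      · intro x hx
        refine (hQ.r2 hc hx).trans ?_
        rw [← sq_abs (slp (!s) a R lam), hlE]
        have h1 : |lam| ≤ |lam| ^ 2 := by nlinarith
        have h2 : 0 ≤ C / k := by positivity
        exact mul_le_mul_of_nonneg_left h1 h2
    have hdead := hasm k f1 (slp (!s) a R lam) (by rw [hlE]; exact hlam1) (by rw [hlE]; exact hsm)
      _ _ _ _ _ _ _ _ _ _ (f0c k c s n n' R t1 a) hcell hf0 (by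
        intro x hx hcP hcQ
        rw [cos_fP] at hcP hcQ
        rw [← hκ] at hcP hcQ
        have hx3 : x ∈ Icc (0 : ℝ) 3 := ⟨by linarith [hx.1], by linarith [hx.2]⟩
        obtain ⟨p0, p1, p2, hp⟩ := quad_local hP hQ hc (by linarith) (by rw [hσ1]; norm_num) hsm
          (by linarith) hκ0 (by linarith) (by rw [div_le_iff₀ hκ0] at f5; exact f5) hρ0 hρa hρb
          H.quad hx3 hcP hcQ
        refine ⟨p0, p1, p2, ?_⟩
        intro y hy
        rw [← hr] at hy
        rw [F1_eq hR hc]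
        have hy2 : |y - x| ≤ ρ / 2 := by
          refine hy.trans ?_
          rw [div_le_div_iff₀ hk0 (by norm_num)]
          rw [div_le_iff₀ hρ0] at f7
          linarith
        refine (hp y hy2).trans ?_
        have h1 : (|y - x| / ρ) ^ 3 ≤ (r / ρ) ^ 3 / k ^ 3 := by
          have : |y - x| / ρ ≤ (r / ρ) / k := by
            calc |y - x| / ρ ≤ (r / k) / ρ := by gcongr
              _ = (r / ρ) / k := by ring
          calc (|y - x| / ρ) ^ 3 ≤ ((r / ρ) / k) ^ 3 := by gcongr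
            _ = (r / ρ) ^ 3 / k ^ 3 := by rw [div_pow]
        have h2 : 2 * (54 / κ) * (|y - x| / ρ) ^ 3 ≤ 2 * (54 / κ) * ((r / ρ) ^ 3 / k ^ 3) := by
          gcongr
        refine h2.trans ?_
        have h3 : 2 * (54 / κ) * ((r / ρ) ^ 3 / k ^ 3) =
            (10 ^ 6 / κ * (r / ρ) ^ 3) * (108 / 10 ^ 6) / k ^ 3 := by ring
        rw [h3, div_le_div_iff₀ (by positivity) (by positivity)]
        calc (10 ^ 6 / κ * (r / ρ) ^ 3) * (108 / 10 ^ 6) * (8 * (18 * k) ^ 2)
            ≤ k * (108 / 10 ^ 6) * (8 * (18 * k) ^ 2) := by gcongr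
          _ = (108 / 10 ^ 6 * 2592) * k ^ 3 := by ring
          _ ≤ 1 * k ^ 3 := by
              apply mul_le_mul_of_nonneg_right _ (by positivity)
              norm_num)
    have hnullP := hP.null hc (by linarith) hCk
    have hnullQ := hQ.null hc (by linarith) hCk
    exact vol_transport hR hc ((ENNReal.ofReal_le_ofReal hc1a).trans hdead)
      (dead_sub (by linarith) hP hQ hCk hc he') (measure_union_null hnullP hnullQ) hδ hδ0
      (by positivity)
  · -- big case
    have hBk10 : B / k ≤ 1 / 10 := by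
      rw [div_le_div_iff₀ hk0 (by norm_num)]; linarith
    have hP : SideC k c s n m R σ (1 / 10) := hP1.mono hBk10
    have hsq : 0 < Real.sqrt k := Real.sqrt_pos.mpr hk0
    have hC1pos : 0 < C1 := by
      by_contra hcon
      have : C1 * Real.sqrt k ≤ 0 := mul_nonpos_of_nonpos_of_nonneg (not_lt.mp hcon) hsq.le
      linarith
    have hBC1 : B = C1 := by rw [hB, abs_of_pos hC1pos]
    have hB2 : 10 * B ^ 2 ≤ Real.sqrt k := by
      apply Real.le_sqrt_of_sq_le
      calc (10 * B ^ 2) ^ 2 = 100 * B ^ 4 := by ring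
        _ ≤ k := f3
    have hfast : C1 * |lam| / k ≤ 1 / 10 := by
      rw [div_le_div_iff₀ hk0 (by norm_num)]
      calc C1 * |lam| * 10 ≤ C1 * (C1 * Real.sqrt k) * 10 := by gcongr
        _ = 10 * B ^ 2 * Real.sqrt k := by rw [hBC1]; ring
        _ ≤ Real.sqrt k * Real.sqrt k := by gcongr
        _ = 1 * k := by rw [Real.mul_self_sqrt hk0.le, one_mul]
    have hQ : SideC k c (!s) n' m R lam (1 / 10) := by
      refine ⟨hR, hlam1, fun z hz => (H.fast z hz).trans ?_, fun z hz => (H.fast0 z hz).trans ?_⟩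
      · calc C1 * |lam| ^ 2 * R / k = (C1 * |lam| / k) * (|lam| * R) := by ring
          _ ≤ 1 / 10 * (|lam| * R) := by gcongr
          _ = 1 / 10 * |lam| * R := by ring
      · calc C1 * |lam| * R / k = (C1 / k) * (|lam| * R) := by ring
          _ ≤ 1 / 10 * (|lam| * R) := by
              apply mul_le_mul_of_nonneg_right _ (by positivity)
              rw [← hBC1]; exact hBk10
          _ = 1 / 10 * |lam| * R := by ring
    have hlE : |slp (!s) a R lam| = |lam| := abs_slp hc
    have hslpσ : slp s a R σ = 1 := hsσ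
    have hε13 : 3 * B / k ≤ 1 / 10 ^ 13 := by
      rw [div_le_div_iff₀ hk0 (by norm_num)]; linarith
    have hB3 : B / k ≤ 3 * B / k := by
      apply div_le_div_of_nonneg_right _ hk0.le
      linarith
    have hbig := RoughAsm.asm_big (k := k) (lam := slp (!s) a R lam) (ε := 3 * B / k)
      (P := fP k c s (n + 1) t1 a N) (dP := fD k c s (n + 1) t1 a) (dP0 := fD k c s n t1 a)
      (Q := fP k c (!s) (n' + 1) t1 a 0) (dQ := fD k c (!s) (n' + 1) t1 a)
      (dQ0 := fD k c (!s) n' t1 a) (f0 := f0c k c s n n' R t1 a)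
      (by linarith) (by rw [hlE]; exact hbg) (by positivity) hε13 (fun x _ => hasDeriv_P 0 x)
      (fun x hx => nP_bound hP1 hσ1 hk0 hB0 hc hsσ hN hx)
      (fun x hx => by
        have := hP1.r1 hc hx
        rw [hslpσ, hσ1, mul_one] at this
        exact this.trans hB3)
      (fun x hx => by
        have := hP1.r0 hc hx
        rw [hσ1, mul_one] at this
        exact this.trans hB3)
      (fun x hx => by
        rw [hlE]
        exact hQ.r1 hc hx)
      (fun x hx => by
        rw [hlE]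
        exact (hQ.r0 hc hx).trans (by linarith))
      hf0
    have hdead : ENNReal.ofReal c1 ≤ volume (RoughAsm.Dead k (f0c k c s n n' R t1 a)
        (fP k c s (n + 1) t1 a N)
        (fun x => (Y k c s n (ph t1 a x : ℂ)).re) (fD k c s (n + 1) t1 a)
        (fD k c s n t1 a) (fP k c (!s) (n' + 1) t1 a 0)
        (fun x => (Y k c (!s) n' (ph t1 a x : ℂ)).re) (fD k c (!s) (n' + 1) t1 a)
        (fD k c (!s) n' t1 a)) := by
      refine (ENNReal.ofReal_le_ofReal hc1b).trans (hbig.trans (measure_mono ?_))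
      rintro y ⟨hy, hF⟩
      exact ⟨hy, Or.inl hF⟩
    have hnullP := hP.null hc (by linarith) le_rfl
    have hnullQ := hQ.null hc (by linarith) le_rfl
    exact vol_transport hR hc hdead
      (dead_sub (by linarith) hP hQ le_rfl hc he') (measure_union_null hnullP hnullQ) hδ hδ0
      (by positivity)

end Crest.Agent.R128.RaBridge
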