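import Crest.Agent.R128.LocDef
import Crest.Agent.R128.RoughAsm8
import Crest.Agent.R128.TaylorTwo

/-!
# Row 128, node V5-LOC, `RA` (helper507)

Bridge from the two-level roughness theorems `asm_small`, `asm_big` (helper155) to `Loc.RA`
(interface of helper548): part 1, realness, recurrences, holomorphy, zeros.
-/

set_option autoImplicit false

open Metric MeasureTheory Set Filter Topology
open Crest.Agent.R128 Crest.Agent.R128.Cell Crest.Agent.R128.CellB Crest.Agent.R128.CellDy
open Crest.Agent.R128.Loc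

namespace Crest.Agent.R128.RaX

/-! ### realness -/

theorem Y_im (k c : ℝ) (s : Bool) (n : ℕ) (t : ℝ) : (Y k c s n (t : ℂ)).im = 0 := by
  unfold Y sdC
  cases s
  · simp only [Bool.false_eq_true, if_false]
    rw [← Complex.ofReal_sub]
    exact im_y_ofReal k c n _
  · simp only [if_true]
    exact im_y_ofReal k c n t

theorem D_im (k c : ℝ) (s : Bool) (n : ℕ) (t : ℝ) : (D k c s n (t : ℂ)).im = 0 := by
  unfold D sdC
  cases s
  · simp only [Bool.false_eq_true, if_false]
    rw [← Complex.ofReal_sub, yd_ofReal]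
    simp
  · simp only [if_true]
    rw [yd_ofReal]
    simp

/-- real digit -/
noncomputable def YR (k c : ℝ) (s : Bool) (n : ℕ) (t : ℝ) : ℝ := (Y k c s n (t : ℂ)).re
/-- real slope -/
noncomputable def DR (k c : ℝ) (s : Bool) (n : ℕ) (t : ℝ) : ℝ := (D k c s n (t : ℂ)).re

theorem Y_eq (k c : ℝ) (s : Bool) (n : ℕ) (t : ℝ) : Y k c s n (t : ℂ) = (YR k c s n t : ℂ) := by
  apply Complex.ext
  · simp [YR]
  · simp [Y_im]

theorem D_eq (k c : ℝ) (s : Bool) (n : ℕ) (t : ℝ) : D k c s n (t : ℂ) = (DR k c s n t : ℂ) := by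
  apply Complex.ext
  · simp [DR]
  · simp [D_im]

theorem cV_eq (k u : ℝ) : cV k (u : ℂ) = (RoughAsm.Vr k u : ℂ) := by
  unfold cV RoughAsm.Vr
  push_cast
  ring_nf

theorem Y_rec (k c : ℝ) (s : Bool) (n : ℕ) (z : ℂ) : Y k c s (n + 2) z =
    2 * Y k c s (n + 1) z + k * Complex.sin (2 * Real.pi * Y k c s (n + 1) z) - Y k c s n z := rfl

theorem D_rec (k c : ℝ) (s : Bool) (n : ℕ) (z : ℂ) : D k c s (n + 2) z =
    cV k (Y k c s (n + 1) z) * D k c s (n + 1) z - D k c s n z := rfl

theorem YR_rec (k c : ℝ) (s : Bool) (n : ℕ) (t : ℝ) : YR k c s (n + 2) t =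
    2 * YR k c s (n + 1) t + k * Real.sin (2 * Real.pi * YR k c s (n + 1) t) - YR k c s n t := by
  apply Complex.ofReal_injective
  rw [← Y_eq, Y_rec, Y_eq, Y_eq]
  push_cast
  ring_nf

theorem DR_rec (k c : ℝ) (s : Bool) (n : ℕ) (t : ℝ) : DR k c s (n + 2) t =
    RoughAsm.Vr k (YR k c s (n + 1) t) * DR k c s (n + 1) t - DR k c s n t := by
  apply Complex.ofReal_injective
  rw [← D_eq, D_rec, D_eq, D_eq, Y_eq, cV_eq]
  push_cast
  ring_nf

theorem P_im {a : ℕ → ℂ} (h : ∀ i, (a i).im = 0) (n : ℕ) : (Align.P a n).im = 0 := by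
  induction n using Nat.strong_induction_on with
  | _ n ih =>
    match n with
    | 0 => simp
    | 1 => simp
    | n + 2 =>
      rw [Align.P_add_two, Complex.sub_im, Complex.mul_im, h, ih (n + 1) (by omega),
        ih n (by omega)]
      simp

theorem dg_im (k c : ℝ) (s : Bool) (t : ℝ) (n : ℕ) : (dg k c s (t : ℂ) n).im = 0 := by
  unfold dg
  rw [Y_eq, cV_eq]
  simp

theorem mu_im (k c : ℝ) (s : Bool) (n : ℕ) (t : ℝ) : (mu k c s n (t : ℂ)).im = 0 := by
  unfold mu Align.mu
  rw [Q_dg, D_eq]
  have h := P_im (dg_im k c s t) n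
  have e : Align.P (dg k c s (t : ℂ)) n = ((Align.P (dg k c s (t : ℂ)) n).re : ℂ) := by
    apply Complex.ext
    · simp
    · simp [h]
  rw [e, ← Complex.ofReal_neg, ← Complex.ofReal_div]
  exact Complex.ofReal_im _

theorem cont_im (k c : ℝ) (s : Bool) (n n' : ℕ) (t : ℝ) : (cont k c s n n' (t : ℂ)).im = 0 := by
  unfold cont
  rw [Complex.sub_im, Complex.sub_im, mu_im, mu_im, cV_eq]
  simp

/-- real content -/
noncomputable def contR (k c : ℝ) (s : Bool) (n n' : ℕ) (t : ℝ) : ℝ :=
  (cont k c s n n' (t : ℂ)).re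

theorem cont_eq (k c : ℝ) (s : Bool) (n n' : ℕ) (t : ℝ) :
    cont k c s n n' (t : ℂ) = (contR k c s n n' t : ℂ) := by
  apply Complex.ext
  · simp [contR]
  · simp [cont_im]

/-- one more digit on both sides -/
theorem contR_succ (k c : ℝ) (s : Bool) (n n' : ℕ) (t : ℝ) (h1 : DR k c s n t ≠ 0)
    (h2 : DR k c s (n + 1) t ≠ 0) (h3 : DR k c (!s) n' t ≠ 0) (h4 : DR k c (!s) (n' + 1) t ≠ 0) :
    contR k c s (n + 1) (n' + 1) t = contR k c s n n' t - 1 / (DR k c s n t * DR k c s (n + 1) t)
      - 1 / (DR k c (!s) n' t * DR k c (!s) (n' + 1) t) := by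
  apply Complex.ofReal_injective
  rw [← cont_eq]
  push_cast
  rw [← cont_eq]
  unfold cont mu
  have e1 := Align.mu_succ_sub (a := dg k c s (t : ℂ)) (n := n)
    (by rw [Q_dg, D_eq]; exact_mod_cast h1) (by rw [Q_dg, D_eq]; exact_mod_cast h2)
  have e2 := Align.mu_succ_sub (a := dg k c (!s) (t : ℂ)) (n := n')
    (by rw [Q_dg, D_eq]; exact_mod_cast h3) (by rw [Q_dg, D_eq]; exact_mod_cast h4)
  rw [Q_dg, Q_dg, D_eq, D_eq] at e1 e2
  linear_combination -e1 - e2

/-! ### holomorphy -/

theorem differentiable_Y (k c : ℝ) (s : Bool) (n : ℕ) : Differentiable ℂ (Y k c s n) := by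
  cases s
  · exact fun z => (hasDerivAt_Y_false k c n z).differentiableAt
  · exact fun z => (hasDerivAt_Y_true k c n z).differentiableAt

theorem differentiable_cV (k : ℝ) : Differentiable ℂ (cV k) := by
  unfold cV
  fun_prop

theorem differentiable_D (k c : ℝ) (s : Bool) (n : ℕ) : Differentiable ℂ (D k c s n) := by
  induction n using Nat.strong_induction_on with
  | _ n ih =>
    match n with
    | 0 =>
      have : D k c s 0 = fun _ => 0 := by funext z; simp [D]
      rw [this]; exact differentiable_const _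
    | 1 =>
      have : D k c s 1 = fun _ => 1 := by funext z; simp [D]
      rw [this]; exact differentiable_const _
    | n + 2 =>
      have : D k c s (n + 2) = fun z => cV k (Y k c s (n + 1) z) * D k c s (n + 1) z -
          D k c s n z := by funext z; exact D_rec k c s n z
      rw [this]
      exact (((differentiable_cV k).comp (differentiable_Y k c s (n + 1))).mul
        (ih (n + 1) (by omega))).sub (ih n (by omega))

theorem differentiable_P (k c : ℝ) (s : Bool) (n : ℕ) :
    Differentiable ℂ (fun z => Align.P (dg k c s z) n) := by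
  induction n using Nat.strong_induction_on with
  | _ n ih =>
    match n with
    | 0 => simp
    | 1 => simp
    | n + 2 =>
      have : (fun z => Align.P (dg k c s z) (n + 2)) = fun z => cV k (Y k c s (n + 1) z) *
          Align.P (dg k c s z) (n + 1) - Align.P (dg k c s z) n := by
        funext z; rw [Align.P_add_two]; rfl
      rw [this]
      exact (((differentiable_cV k).comp (differentiable_Y k c s (n + 1))).mul
        (ih (n + 1) (by omega))).sub (ih n (by omega))

theorem differentiableAt_mu (k c : ℝ) (s : Bool) (n : ℕ) {z : ℂ} (h : D k c s n z ≠ 0) :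
    DifferentiableAt ℂ (mu k c s n) z := by
  have e : mu k c s n = fun z => -(Align.P (dg k c s z) n) / D k c s n z := by
    funext w
    unfold mu Align.mu
    rw [Q_dg]
  rw [e]
  exact ((differentiable_P k c s n z).neg).div (differentiable_D k c s n z) h

theorem differentiableAt_cont (k c : ℝ) (s : Bool) (n n' : ℕ) {z : ℂ} (h : D k c s n z ≠ 0)
    (h' : D k c (!s) n' z ≠ 0) : DifferentiableAt ℂ (cont k c s n n') z :=
  ((differentiableAt_const _).sub (differentiableAt_mu k c s n h)).sub
    (differentiableAt_mu k c (!s) n' h')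

/-! ### real zeros of entire functions -/

theorem null_zeros {F : ℂ → ℂ} (hF : Differentiable ℂ F) {z0 : ℂ} (h0 : F z0 ≠ 0) :
    volume {t : ℝ | F (t : ℂ) = 0} = 0 := by
  have han : AnalyticOnNhd ℂ F univ := fun z _ => hF.analyticAt z
  refine measure_null_of_locally_null _ fun t ht => ⟨{t}, ?_, by simp⟩
  have h1 : ∀ᶠ z in 𝓝[≠] (t : ℂ), F z ≠ 0 := by
    rcases (han t (mem_univ _)).eventually_eq_zero_or_eventually_ne_zero with h | h
    · exfalso
      have := han.eqOn_zero_of_preconnected_of_eventuallyEq_zero isPreconnected_univ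
        (mem_univ (t : ℂ)) h
      exact h0 (this (mem_univ z0))
    · exact h
  have h2 : Tendsto (fun x : ℝ => (x : ℂ)) (𝓝[≠] t) (𝓝[≠] (t : ℂ)) := by
    refine tendsto_nhdsWithin_iff.2 ⟨?_, ?_⟩
    · exact (Complex.continuous_ofReal.tendsto t).mono_left nhdsWithin_le_nhds
    · filter_upwards [self_mem_nhdsWithin] with x hx
      simpa using hx
  have h3 := h2.eventually h1
  rw [eventually_nhdsWithin_iff] at h3
  rw [mem_nhdsWithin_iff_eventually]
  filter_upwards [h3] with x hx hx2
  by_contra hne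
  exact hx hne hx2

end Crest.Agent.R128.RaX
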