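import Crest.Agent.R128.RaX

/-!
# Row 128, `RA` (helper507), part 2: the affine coordinate of the slower digit
-/

set_option autoImplicit false

open Metric MeasureTheory Set Filter Topology
open Crest.Agent.R128 Crest.Agent.R128.Cell Crest.Agent.R128.CellB Crest.Agent.R128.CellDy
open Crest.Agent.R128.Loc

namespace Crest.Agent.R128.RaX

/-- sign of a side -/
def sg : Bool → ℝ
  | true => 1
  | false => -1

theorem sg_not (s : Bool) : sg (!s) = -sg s := by cases s <;> simp [sg]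
theorem sg_sq (s : Bool) : sg s * sg s = 1 := by cases s <;> simp [sg]

/-- the affine map, complex -/
noncomputable def tt (m R δ y0 : ℝ) (w : ℂ) : ℂ := m + δ / R * (w - y0)
/-- the affine map, real -/
noncomputable def tr (m R δ y0 : ℝ) (x : ℝ) : ℝ := m + δ / R * (x - y0)

theorem tt_ofReal (m R δ y0 x : ℝ) : tt m R δ y0 (x : ℂ) = (tr m R δ y0 x : ℂ) := by
  unfold tt tr; push_cast; ring

theorem hasDerivAt_tt (m R δ y0 : ℝ) (w : ℂ) : HasDerivAt (tt m R δ y0) (δ / R : ℂ) w := by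
  unfold tt
  have h := (((hasDerivAt_id w).sub_const (y0 : ℂ)).const_mul ((δ : ℂ) / R)).const_add (m : ℂ)
  simpa using h

theorem tt_mem {m R δ y0 r : ℝ} (hR : 0 < R) (hδ : |δ| = 1) {w : ℂ} (hw : ‖w - y0‖ < r) :
    tt m R δ y0 w ∈ ball (m : ℂ) (r / R) := by
  rw [mem_ball, dist_eq_norm]
  unfold tt
  have e : (m : ℂ) + δ / R * (w - y0) - m = δ / R * (w - y0) := by ring
  rw [e, norm_mul, norm_div, Complex.norm_real, Complex.norm_real, Real.norm_eq_abs,
    Real.norm_eq_abs, hδ, abs_of_pos hR, one_div, div_eq_inv_mul]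
  exact mul_lt_mul_of_pos_left hw (inv_pos.2 hR)

section
variable (k c m R δ y0 : ℝ) (s : Bool) (i : ℕ)

/-- slope in the affine coordinate, complex -/
noncomputable def EE (w : ℂ) : ℂ := ((sg s * δ / R : ℝ) : ℂ) * D k c s i (tt m R δ y0 w)
/-- slope in the affine coordinate, real -/
noncomputable def ER (x : ℝ) : ℝ := sg s * δ / R * DR k c s i (tr m R δ y0 x)

theorem hasDerivAt_Ytt (w : ℂ) :
    HasDerivAt (fun w => Y k c s i (tt m R δ y0 w)) (EE k c m R δ y0 s i w) w := by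
  have ht := hasDerivAt_tt m R δ y0 w
  unfold EE
  cases s
  · have h := (hasDerivAt_Y_false k c i (tt m R δ y0 w)).comp w ht
    refine HasDerivAt.congr_deriv (f := fun w => Y k c false i (tt m R δ y0 w)) h ?_
    simp only [sg]
    push_cast
    ring
  · have h := (hasDerivAt_Y_true k c i (tt m R δ y0 w)).comp w ht
    refine HasDerivAt.congr_deriv (f := fun w => Y k c true i (tt m R δ y0 w)) h ?_
    simp only [sg]
    push_cast
    ring

theorem EE_ofReal (x : ℝ) : EE k c m R δ y0 s i (x : ℂ) = (ER k c m R δ y0 s i x : ℂ) := by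
  unfold EE ER
  rw [tt_ofReal, D_eq]
  push_cast
  ring

theorem hasDerivAt_YR (x : ℝ) :
    HasDerivAt (fun x => YR k c s i (tr m R δ y0 x)) (ER k c m R δ y0 s i x) x := by
  have h := (hasDerivAt_Ytt k c m R δ y0 s i (x : ℂ)).real_of_complex
  rw [EE_ofReal, Complex.ofReal_re] at h
  refine h.congr_of_eventuallyEq (Filter.Eventually.of_forall fun x => ?_)
  simp only [YR, tt_ofReal]

theorem differentiable_EE : Differentiable ℂ (EE k c m R δ y0 s i) := by
  unfold EE
  intro w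
  exact ((differentiable_D k c s i).comp (fun w => (hasDerivAt_tt m R δ y0 w).differentiableAt)
    w).const_mul _

theorem hasDerivAt_ER (x : ℝ) :
    HasDerivAt (ER k c m R δ y0 s i) ((deriv (EE k c m R δ y0 s i) x).re) x := by
  have h := ((differentiable_EE k c m R δ y0 s i) (x : ℂ)).hasDerivAt.real_of_complex
  refine h.congr_of_eventuallyEq (Filter.Eventually.of_forall fun x => ?_)
  simp only [EE_ofReal, Complex.ofReal_re]

theorem deriv_EE_le {l : ℂ} {B x : ℝ}
    (h : ∀ w : ℂ, ‖w - y0‖ < 4 → ‖EE k c m R δ y0 s i w - l‖ ≤ B) (hx : |x - y0| ≤ 2) :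
    |(deriv (EE k c m R δ y0 s i) x).re| ≤ B := by
  refine (Complex.abs_re_le_norm _).trans ?_
  have e : deriv (EE k c m R δ y0 s i) x = deriv (fun w => EE k c m R δ y0 s i w - l) x := by
    rw [deriv_sub_const]
  rw [e]
  have h1 := Complex.norm_deriv_le_of_forall_mem_sphere_norm_le (c := (x : ℂ)) (R := 1) (C := B)
    (f := fun w => EE k c m R δ y0 s i w - l) one_pos
    (((differentiable_EE k c m R δ y0 s i).sub_const l).diffContOnCl) (fun w hw => h w ?_)
  · simpa using h1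
  · rw [mem_sphere, dist_eq_norm] at hw
    have e2 : w - y0 = (w - x) + ((x - y0 : ℝ) : ℂ) := by push_cast; ring
    rw [e2]
    refine (norm_add_le _ _).trans_lt ?_
    rw [hw, Complex.norm_real, Real.norm_eq_abs]
    linarith

end

/-- the term of a fresh digit -/
theorem T_id {k u d0 d1 d2 ε R : ℝ} (hR : R ≠ 0) (hε : ε * ε = 1)
    (h : d2 = RoughAsm.Vr k u * d1 - d0) :
    RoughAsm.T k u (ε / R * d1) (ε / R * d0) = 2 * Real.pi * k * R ^ 2 / (d1 * d2) := by
  unfold RoughAsm.T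
  have e : ε / R * d1 * (RoughAsm.Vr k u * (ε / R * d1) - ε / R * d0) = d1 * d2 / R ^ 2 := by
    rw [h]
    field_simp
    linear_combination (d1 * (RoughAsm.Vr k u * d1 - d0)) * hε
  rw [e, div_div_eq_mul_div]

theorem Vr_int (k u : ℝ) (j : ℤ) : RoughAsm.Vr k (u - j) = RoughAsm.Vr k u := by
  unfold RoughAsm.Vr
  have e : 2 * Real.pi * (u - j) = 2 * Real.pi * u - j * (2 * Real.pi) := by ring
  rw [e, Real.cos_sub_int_mul_two_pi]

theorem sin_int (u : ℝ) (j : ℤ) : Real.sin (2 * Real.pi * (u - j)) = Real.sin (2 * Real.pi * u) := by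
  have e : 2 * Real.pi * (u - j) = 2 * Real.pi * u - j * (2 * Real.pi) := by ring
  rw [e, Real.sin_sub_int_mul_two_pi]

/-- both next slopes have a non zero -/
theorem nonzero_next {k c : ℝ} {s : Bool} {i : ℕ} {a b : ℝ} {p q : ℤ} (hk : 1 ≤ k)
    (ha : YR k c s (i + 1) a = p) (hb : YR k c s (i + 1) b = q + 1 / 2)
    (hcont : ContinuousOn (DR k c s (i + 2)) (uIcc a b)) {e : ℝ} (he : e * e = 1)
    (h1 : ∀ x ∈ uIcc a b, 0 < e * DR k c s (i + 1) x)
    (h0 : ∀ x ∈ uIcc a b, |DR k c s i x| ≤ |DR k c s (i + 1) x|) :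
    (∃ z, D k c s (i + 2) z ≠ 0) ∧ (∃ z, D k c s (i + 3) z ≠ 0) := by
  have hpi : 3 < Real.pi := Real.pi_gt_three
  have habs : |e| = 1 := by
    have h2 : |e| * |e| = 1 := by rw [← abs_mul, he, abs_one]
    nlinarith [abs_nonneg e]
  have hE : ∀ x ∈ uIcc a b, |DR k c s (i + 1) x| = e * DR k c s (i + 1) x := by
    intro x hx
    have h2 : |e * DR k c s (i + 1) x| = |DR k c s (i + 1) x| := by rw [abs_mul, habs, one_mul]
    rw [← h2, abs_of_pos (h1 x hx)]
  have hea : ∀ x ∈ uIcc a b, |e * DR k c s i x| ≤ e * DR k c s (i + 1) x := by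
    intro x hx
    rw [abs_mul, habs, one_mul, ← hE x hx]
    exact h0 x hx
  have h2a := DR_rec k c s i a
  have h2b := DR_rec k c s i b
  have hVa : RoughAsm.Vr k (YR k c s (i + 1) a) = 2 + 2 * Real.pi * k := by
    unfold RoughAsm.Vr
    rw [ha]
    have e1 : 2 * Real.pi * (p : ℝ) = p * (2 * Real.pi) := by ring
    rw [e1, Real.cos_int_mul_two_pi]; ring
  have hVb : RoughAsm.Vr k (YR k c s (i + 1) b) = 2 - 2 * Real.pi * k := by
    unfold RoughAsm.Vr
    rw [hb]
    have e1 : 2 * Real.pi * ((q : ℝ) + 1 / 2) = Real.pi + q * (2 * Real.pi) := by ring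
    rw [e1, Real.cos_add_int_mul_two_pi, Real.cos_pi]; ring
  rw [hVa] at h2a
  rw [hVb] at h2b
  have hpa := h1 a left_mem_uIcc
  have hpb := h1 b right_mem_uIcc
  have hqa := abs_le.1 (hea a left_mem_uIcc)
  have hqb := abs_le.1 (hea b right_mem_uIcc)
  have hkpi : 3 ≤ Real.pi * k := by nlinarith
  have hposa : 0 < e * DR k c s (i + 2) a := by
    rw [h2a]
    nlinarith [mul_pos (show 0 < 1 + 2 * (Real.pi * k) by linarith) hpa]
  have hnegb : e * DR k c s (i + 2) b < 0 := by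
    rw [h2b]
    nlinarith [mul_pos (show 0 < 2 * (Real.pi * k) - 3 by linarith) hpb]
  refine ⟨⟨(a : ℂ), ?_⟩, ?_⟩
  · rw [D_eq]
    intro h
    have h3 : DR k c s (i + 2) a = 0 := by exact_mod_cast h
    rw [h3, mul_zero] at hposa
    exact lt_irrefl _ hposa
  · have hc2 : ContinuousOn (fun x => e * DR k c s (i + 2) x) (uIcc a b) := hcont.const_mul e |>.congr (fun x _ => rfl)
    have hiv := intermediate_value_uIcc hc2
    have h0m : (0 : ℝ) ∈ uIcc (e * DR k c s (i + 2) a) (e * DR k c s (i + 2) b) := by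
      rw [mem_uIcc]
      right
      exact ⟨hnegb.le, hposa.le⟩
    obtain ⟨x, hx, hx0⟩ := hiv h0m
    have hx0' : DR k c s (i + 2) x = 0 := by
      rcases mul_eq_zero.1 hx0 with h | h
      · exfalso
        rw [h] at he
        simp at he
      · exact h
    refine ⟨(x : ℂ), ?_⟩
    rw [D_eq]
    intro h
    have h3 : DR k c s (i + 3) x = 0 := by exact_mod_cast h
    have h4 := DR_rec k c s (i + 1) x
    rw [show i + 1 + 2 = i + 3 from rfl, show i + 1 + 1 = i + 2 from rfl, h3, hx0', mul_zero,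
      zero_sub] at h4
    have h5 := h1 x hx
    rw [show DR k c s (i + 1) x = 0 by linarith, mul_zero] at h5
    exact lt_irrefl _ h5

theorem continuous_DR (k c : ℝ) (s : Bool) (i : ℕ) : Continuous (DR k c s i) := by
  unfold DR
  exact Complex.continuous_re.comp
    ((differentiable_D k c s i).continuous.comp Complex.continuous_ofReal)

theorem continuous_YR (k c : ℝ) (s : Bool) (i : ℕ) : Continuous (YR k c s i) := by
  unfold YR
  exact Complex.continuous_re.comp
    ((differentiable_Y k c s i).continuous.comp Complex.continuous_ofReal)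

/-- a continuous function which moves by at least `3/2` takes an integer and a half integer
value -/
theorem int_values {f : ℝ → ℝ} {a b : ℝ} (hf : ContinuousOn f (uIcc a b))
    (h : 3 / 2 ≤ |f b - f a|) : ∃ p : ℤ, (∃ x ∈ uIcc a b, f x = p) ∧
      ∃ x ∈ uIcc a b, f x = p + 1 / 2 := by
  have key : ∀ u v : ℝ, u + 3 / 2 ≤ v → ∃ p : ℤ, u ≤ p ∧ (p : ℝ) + 1 / 2 ≤ v := by
    intro u v huv
    refine ⟨⌈u⌉, Int.le_ceil u, ?_⟩
    have := Int.ceil_lt_add_one u
    linarith
  have hiv := intermediate_value_uIcc hf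
  rcases le_total (f a) (f b) with hab | hab
  · rw [abs_of_nonneg (by linarith)] at h
    obtain ⟨p, h1, h2⟩ := key (f a) (f b) (by linarith)
    obtain ⟨x, hx, hx2⟩ := hiv (show (p : ℝ) ∈ uIcc (f a) (f b) from
      mem_uIcc.2 (Or.inl ⟨h1, by linarith⟩))
    obtain ⟨x', hx', hx2'⟩ := hiv (show (p : ℝ) + 1 / 2 ∈ uIcc (f a) (f b) from
      mem_uIcc.2 (Or.inl ⟨by linarith, h2⟩))
    exact ⟨p, ⟨x, hx, hx2⟩, ⟨x', hx', hx2'⟩⟩
  · rw [abs_of_nonpos (by linarith)] at h
    obtain ⟨p, h1, h2⟩ := key (f b) (f a) (by linarith)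
    obtain ⟨x, hx, hx2⟩ := hiv (show (p : ℝ) ∈ uIcc (f a) (f b) from
      mem_uIcc.2 (Or.inr ⟨h1, by linarith⟩))
    obtain ⟨x', hx', hx2'⟩ := hiv (show (p : ℝ) + 1 / 2 ∈ uIcc (f a) (f b) from
      mem_uIcc.2 (Or.inr ⟨by linarith, h2⟩))
    exact ⟨p, ⟨x, hx, hx2⟩, ⟨x', hx', hx2'⟩⟩

/-- `cos` near a real point -/
theorem norm_cos_sub_le {a : ℝ} {h : ℂ} (hh : ‖h‖ ≤ 1) :
    ‖Complex.cos (a + h) - Complex.cos a‖ ≤ 4 * ‖h‖ := by
  rw [Complex.cos_add]
  have hI : ‖h * Complex.I‖ = ‖h‖ := by rw [norm_mul, Complex.norm_I, mul_one]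
  have e1 := Complex.norm_exp_sub_one_le (x := h * Complex.I) (by rw [hI]; exact hh)
  have e2 := Complex.norm_exp_sub_one_le (x := -h * Complex.I) (by
    rw [neg_mul, norm_neg, hI]; exact hh)
  rw [neg_mul, norm_neg] at e2
  rw [hI] at e1 e2
  have hcos : ‖Complex.cos h - 1‖ ≤ 2 * ‖h‖ := by
    have : Complex.cos h - 1 = ((Complex.exp (h * Complex.I) - 1) +
        (Complex.exp (-(h * Complex.I)) - 1)) / 2 := by
      rw [Complex.cos, neg_mul]; ring
    rw [this, norm_div]
    have := norm_add_le (Complex.exp (h * Complex.I) - 1) (Complex.exp (-(h * Complex.I)) - 1)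
    have h2 : ‖(2 : ℂ)‖ = 2 := by simp
    rw [h2, div_le_iff₀ (by norm_num)]
    linarith
  have hsin : ‖Complex.sin h‖ ≤ 2 * ‖h‖ := by
    have : Complex.sin h = ((Complex.exp (-(h * Complex.I)) - 1) -
        (Complex.exp (h * Complex.I) - 1)) * Complex.I / 2 := by
      rw [Complex.sin, neg_mul]; ring
    rw [this, norm_div, norm_mul, Complex.norm_I, mul_one]
    have := norm_sub_le (Complex.exp (-(h * Complex.I)) - 1) (Complex.exp (h * Complex.I) - 1)
    have h2 : ‖(2 : ℂ)‖ = 2 := by simp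
    rw [h2, div_le_iff₀ (by norm_num)]
    linarith
  have hca : ‖Complex.cos a‖ ≤ 1 := by
    rw [← Complex.ofReal_cos, Complex.norm_real, Real.norm_eq_abs]
    exact Real.abs_cos_le_one a
  have hsa : ‖Complex.sin a‖ ≤ 1 := by
    rw [← Complex.ofReal_sin, Complex.norm_real, Real.norm_eq_abs]
    exact Real.abs_sin_le_one a
  have e : Complex.cos a * Complex.cos h - Complex.sin a * Complex.sin h - Complex.cos a =
      Complex.cos a * (Complex.cos h - 1) - Complex.sin a * Complex.sin h := by ring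
  rw [e]
  have h1 : ‖Complex.cos a * (Complex.cos h - 1)‖ ≤ 1 * (2 * ‖h‖) := by
    rw [norm_mul]; gcongr
  have h2 : ‖Complex.sin a * Complex.sin h‖ ≤ 1 * (2 * ‖h‖) := by
    rw [norm_mul]; gcongr
  have := norm_sub_le (Complex.cos a * (Complex.cos h - 1)) (Complex.sin a * Complex.sin h)
  linarith

end Crest.Agent.R128.RaX
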