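import Crest.Agent.R128.RaX2

/-!
# Row 128, `RA` (helper507), part 3: frame of a `Cell3`
-/

set_option autoImplicit false

open Metric MeasureTheory Set Filter Topology
open Crest.Agent.R128 Crest.Agent.R128.Cell Crest.Agent.R128.CellB Crest.Agent.R128.CellDy
open Crest.Agent.R128.Loc

namespace Crest.Agent.R128.RaX

/-- a `Cell3` with an affine coordinate -/
structure Fr (k c : ℝ) (s : Bool) (n n' : ℕ) (m R lam C q0 q1 q2 σ δ y0 : ℝ) (j : ℤ) : Prop where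
  hk : 1 ≤ k
  hC : 1 ≤ C
  hR : 0 < R
  hσ : σ = 1 ∨ σ = -1
  hδ : δ = sg s * σ
  hy0 : YR k c s (n + 1) m - j = y0
  h1 : 1 ≤ y0
  h2 : y0 ≤ 2
  hlam : 1 ≤ |lam|
  slow : ∀ z ∈ ball (m : ℂ) (4 / R), ‖D k c s (n + 1) z - (σ * R : ℝ)‖ ≤ C * R / k
  slow0 : ∀ z ∈ ball (m : ℂ) (4 / R), ‖D k c s n z‖ ≤ C * R / k
  fast : ∀ z ∈ ball (m : ℂ) (4 / R),
    ‖D k c (!s) (n' + 1) z - (lam * R : ℝ)‖ ≤ C * |lam| ^ 2 * R / k
  fast0 : ∀ z ∈ ball (m : ℂ) (4 / R), ‖D k c (!s) n' z‖ ≤ C * |lam| * R / k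
  quad : ∀ z ∈ ball (m : ℂ) (4 / R),
    ‖(2 * Real.pi * k * R ^ 2 : ℝ) * cont k c s (n + 1) (n' + 1) z -
      (q0 + q1 * ((R : ℂ) * (z - m)) + q2 * ((R : ℂ) * (z - m)) ^ 2)‖ ≤ 1 / 16

variable {k c : ℝ} {s : Bool} {n n' : ℕ} {m R lam C q0 q1 q2 σ δ y0 : ℝ} {j : ℤ}

theorem Fr.σσ (h : Fr k c s n n' m R lam C q0 q1 q2 σ δ y0 j) : σ * σ = 1 := by
  rcases h.hσ with h | h <;> rw [h] <;> norm_num

theorem Fr.σa (h : Fr k c s n n' m R lam C q0 q1 q2 σ δ y0 j) : |σ| = 1 := by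
  rcases h.hσ with h | h <;> rw [h] <;> norm_num

theorem Fr.δa (h : Fr k c s n n' m R lam C q0 q1 q2 σ δ y0 j) : |δ| = 1 := by
  rw [h.hδ, abs_mul, h.σa, mul_one]
  cases s <;> simp [sg]

theorem Fr.δδ (h : Fr k c s n n' m R lam C q0 q1 q2 σ δ y0 j) : δ * δ = 1 := by
  have := h.δa
  rw [← abs_mul_abs_self, this, one_mul]

theorem Fr.e1 (h : Fr k c s n n' m R lam C q0 q1 q2 σ δ y0 j) : sg s * δ = σ := by
  rw [h.hδ, ← mul_assoc, sg_sq, one_mul]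

theorem Fr.e2 (h : Fr k c s n n' m R lam C q0 q1 q2 σ δ y0 j) : sg (!s) * δ = -σ := by
  rw [sg_not, neg_mul, h.e1]

theorem norm_EE_sub {k c m R δ y0 ε d l : ℝ} {s : Bool} {i : ℕ} {w : ℂ} (hR : 0 < R)
    (hε : sg s * δ = ε) (hε1 : |ε| = 1) (hl : ε * l = d) :
    ‖EE k c m R δ y0 s i w - (d : ℂ)‖ = ‖D k c s i (tt m R δ y0 w) - (l * R : ℝ)‖ / R := by
  unfold EE
  have hRc : (R : ℂ) ≠ 0 := by exact_mod_cast hR.ne'
  have e : ((sg s * δ / R : ℝ) : ℂ) * D k c s i (tt m R δ y0 w) - (d : ℂ) =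
      ((ε / R : ℝ) : ℂ) * (D k c s i (tt m R δ y0 w) - (l * R : ℝ)) := by
    rw [hε, ← hl]
    push_cast
    field_simp
  rw [e, norm_mul, Complex.norm_real, Real.norm_eq_abs, abs_div, hε1, abs_of_pos hR]
  ring

theorem Fr.EP (h : Fr k c s n n' m R lam C q0 q1 q2 σ δ y0 j) {w : ℂ} (hw : ‖w - y0‖ < 4) :
    ‖EE k c m R δ y0 s (n + 1) w - ((1 : ℝ) : ℂ)‖ ≤ C / k := by
  rw [norm_EE_sub h.hR h.e1 h.σa h.σσ, div_le_iff₀ h.hR]
  refine (h.slow _ (tt_mem h.hR h.δa hw)).trans (le_of_eq ?_)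
  ring

theorem Fr.EP0 (h : Fr k c s n n' m R lam C q0 q1 q2 σ δ y0 j) {w : ℂ} (hw : ‖w - y0‖ < 4) :
    ‖EE k c m R δ y0 s n w‖ ≤ C / k := by
  have e := norm_EE_sub (k := k) (c := c) (m := m) (y0 := y0) (i := n) (w := w) (l := 0) (d := 0)
    h.hR h.e1 h.σa (by ring)
  rw [Complex.ofReal_zero, sub_zero, zero_mul, Complex.ofReal_zero, sub_zero] at e
  rw [e, div_le_iff₀ h.hR]
  refine (h.slow0 _ (tt_mem h.hR h.δa hw)).trans (le_of_eq ?_)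
  ring

theorem Fr.EQ (h : Fr k c s n n' m R lam C q0 q1 q2 σ δ y0 j) {w : ℂ} (hw : ‖w - y0‖ < 4) :
    ‖EE k c m R δ y0 (!s) (n' + 1) w - ((-σ * lam : ℝ) : ℂ)‖ ≤ C / k * |lam| ^ 2 := by
  rw [norm_EE_sub (l := lam) h.hR h.e2 (by rw [abs_neg, h.σa]) rfl, div_le_iff₀ h.hR]
  refine (h.fast _ (tt_mem h.hR h.δa hw)).trans (le_of_eq ?_)
  ring

theorem Fr.EQ0 (h : Fr k c s n n' m R lam C q0 q1 q2 σ δ y0 j) {w : ℂ} (hw : ‖w - y0‖ < 4) :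
    ‖EE k c m R δ y0 (!s) n' w‖ ≤ C / k * |lam| := by
  have e := norm_EE_sub (k := k) (c := c) (m := m) (y0 := y0) (i := n') (w := w) (l := 0) (d := 0)
    h.hR h.e2 (by rw [abs_neg, h.σa]) (by ring)
  rw [Complex.ofReal_zero, sub_zero, zero_mul, Complex.ofReal_zero, sub_zero] at e
  rw [e, div_le_iff₀ h.hR]
  refine (h.fast0 _ (tt_mem h.hR h.δa hw)).trans (le_of_eq ?_)
  ring

theorem norm_real_sub {x y0 : ℝ} {r : ℝ} (h : |x - y0| < r) : ‖(x : ℂ) - y0‖ < r := by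
  rw [← Complex.ofReal_sub, Complex.norm_real, Real.norm_eq_abs]
  exact h

theorem Fr.dist_le (h : Fr k c s n n' m R lam C q0 q1 q2 σ δ y0 j) {x : ℝ}
    (hx : x ∈ Icc (0 : ℝ) 3) : |x - y0| ≤ 2 := by
  have h1 := h.h1
  have h2 := h.h2
  rw [abs_le]
  constructor <;> linarith [hx.1, hx.2]

theorem Fr.RP (h : Fr k c s n n' m R lam C q0 q1 q2 σ δ y0 j) {x : ℝ}
    (hx : x ∈ Icc (0 : ℝ) 3) : |ER k c m R δ y0 s (n + 1) x - 1| ≤ C / k := by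
  have h1 := h.EP (w := x) (norm_real_sub (lt_of_le_of_lt (h.dist_le hx) (by norm_num)))
  rwa [EE_ofReal, ← Complex.ofReal_sub, Complex.norm_real, Real.norm_eq_abs] at h1

theorem Fr.RP0 (h : Fr k c s n n' m R lam C q0 q1 q2 σ δ y0 j) {x : ℝ}
    (hx : x ∈ Icc (0 : ℝ) 3) : |ER k c m R δ y0 s n x| ≤ C / k := by
  have h1 := h.EP0 (w := x) (norm_real_sub (lt_of_le_of_lt (h.dist_le hx) (by norm_num)))
  rwa [EE_ofReal, Complex.norm_real, Real.norm_eq_abs] at h1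

theorem Fr.RQ (h : Fr k c s n n' m R lam C q0 q1 q2 σ δ y0 j) {x : ℝ}
    (hx : x ∈ Icc (0 : ℝ) 3) : |ER k c m R δ y0 (!s) (n' + 1) x - -σ * lam| ≤ C / k * |lam| ^ 2 := by
  have h1 := h.EQ (w := x) (norm_real_sub (lt_of_le_of_lt (h.dist_le hx) (by norm_num)))
  rwa [EE_ofReal, ← Complex.ofReal_sub, Complex.norm_real, Real.norm_eq_abs] at h1

theorem Fr.RQ0 (h : Fr k c s n n' m R lam C q0 q1 q2 σ δ y0 j) {x : ℝ}
    (hx : x ∈ Icc (0 : ℝ) 3) : |ER k c m R δ y0 (!s) n' x| ≤ C / k * |lam| := by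
  have h1 := h.EQ0 (w := x) (norm_real_sub (lt_of_le_of_lt (h.dist_le hx) (by norm_num)))
  rwa [EE_ofReal, Complex.norm_real, Real.norm_eq_abs] at h1

/-! ### the functions of `Cell` -/

section fns
variable (k c : ℝ) (s : Bool) (m R δ y0 : ℝ) (j : ℤ)

/-- digit (shifted by the integer `j`) -/
noncomputable def Pf (i : ℕ) (x : ℝ) : ℝ := YR k c s i (tr m R δ y0 x) - j
/-- second derivative -/
noncomputable def d2f (i : ℕ) (x : ℝ) : ℝ := (deriv (EE k c m R δ y0 s i) x).re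

end fns

theorem hasDerivAt_Pf (k c : ℝ) (s : Bool) (m R δ y0 : ℝ) (j : ℤ) (i : ℕ) (x : ℝ) :
    HasDerivAt (Pf k c s m R δ y0 j i) (ER k c m R δ y0 s i x) x :=
  (hasDerivAt_YR k c m R δ y0 s i x).sub_const _

theorem ER_rec (k c : ℝ) (s : Bool) (m R δ y0 : ℝ) (j : ℤ) (i : ℕ) (x : ℝ) :
    ER k c m R δ y0 s (i + 2) x =
      RoughAsm.Vr k (Pf k c s m R δ y0 j (i + 1) x) * ER k c m R δ y0 s (i + 1) x -
        ER k c m R δ y0 s i x := by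
  unfold ER Pf
  rw [Vr_int, DR_rec]
  ring

theorem Fr.nP (h : Fr k c s n n' m R lam C q0 q1 q2 σ δ y0 j) {x : ℝ}
    (hx : x ∈ Icc (0 : ℝ) 3) : |Pf k c s m R δ y0 j (n + 1) x - x| ≤ 2 * C / k := by
  have hy : y0 ∈ Icc (0 : ℝ) 3 := ⟨by linarith [h.h1], by linarith [h.h2]⟩
  have hP0 : Pf k c s m R δ y0 j (n + 1) y0 = y0 := by
    unfold Pf tr
    rw [sub_self, mul_zero, add_zero]
    exact h.hy0
  have h1 := RoughAsm.mvt (f := fun t => Pf k c s m R δ y0 j (n + 1) t - t)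
    (f' := fun t => ER k c m R δ y0 s (n + 1) t - 1) (a := y0) (b := x) (B := C / k)
    (fun t _ => (hasDerivAt_Pf k c s m R δ y0 j (n + 1) t).sub (hasDerivAt_id t))
    (fun t ht => h.RP (RoughAsm.uIcc_sub hy hx ht))
  simp only [hP0, sub_self, sub_zero] at h1
  have hk := h.hk
  have hC := h.hC
  have h3 : 0 ≤ C / k := by positivity
  calc |Pf k c s m R δ y0 j (n + 1) x - x| ≤ C / k * |x - y0| := h1
    _ ≤ C / k * 2 := by gcongr; exact h.dist_le hx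
    _ = 2 * C / k := by ring

/-- the `Cell` of helper155 -/
theorem Fr.cell (h : Fr k c s n n' m R lam C q0 q1 q2 σ δ y0 j) (hl : |lam| ≤ 10 ^ 4) :
    RoughAsm.Cell k (20000 * C) (-σ * lam)
      (Pf k c s m R δ y0 j (n + 1)) (Pf k c s m R δ y0 0 n)
      (ER k c m R δ y0 s (n + 1)) (ER k c m R δ y0 s n) (d2f k c s m R δ y0 (n + 1))
      (Pf k c (!s) m R δ y0 0 (n' + 1)) (Pf k c (!s) m R δ y0 0 n')
      (ER k c m R δ y0 (!s) (n' + 1)) (ER k c m R δ y0 (!s) n') (d2f k c (!s) m R δ y0 (n' + 1)) := by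
  have hk := h.hk
  have hC := h.hC
  have hk0 : 0 < k := by linarith
  have hla : |(-σ * lam)| = |lam| := by rw [abs_mul, abs_neg, h.σa, one_mul]
  have hl0 := h.hlam
  have hCk : 0 ≤ C / k := by positivity
  have hb : C / k ≤ 20000 * C / k := by
    gcongr
    linarith
  refine ⟨fun x _ => hasDerivAt_Pf _ _ _ _ _ _ _ _ _ _, fun x _ => hasDerivAt_Pf _ _ _ _ _ _ _ _ _ _,
    fun x _ => hasDerivAt_ER _ _ _ _ _ _ _ _ _, fun x _ => hasDerivAt_Pf _ _ _ _ _ _ _ _ _ _,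
    fun x _ => hasDerivAt_Pf _ _ _ _ _ _ _ _ _ _, fun x _ => hasDerivAt_ER _ _ _ _ _ _ _ _ _,
    ?_, ?_, ?_, ?_, ?_, ?_, ?_⟩
  · intro x hx
    refine (h.nP hx).trans ?_
    gcongr
    norm_num
  · intro x hx; exact (h.RP hx).trans hb
  · intro x hx; exact (h.RP0 hx).trans hb
  · intro x hx
    exact (deriv_EE_le k c m R δ y0 s (n + 1) (fun w hw => h.EP hw) (h.dist_le hx)).trans hb
  · intro x hx
    refine (h.RQ hx).trans ?_
    rw [hla]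
    have : C / k * |lam| ^ 2 = (C / k * |lam|) * |lam| := by ring
    rw [this]
    have h2 : 20000 * C / k * |lam| = (C / k * |lam|) * 20000 := by ring
    rw [h2]
    have h3 : 0 ≤ C / k * |lam| := by positivity
    exact mul_le_mul_of_nonneg_left (by linarith) h3
  · intro x hx
    refine (h.RQ0 hx).trans ?_
    rw [hla]
    exact mul_le_mul_of_nonneg_right hb (abs_nonneg _)
  · intro x hx
    refine (deriv_EE_le k c m R δ y0 (!s) (n' + 1) (fun w hw => h.EQ hw) (h.dist_le hx)).trans ?_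
    have e : (-σ * lam) ^ 2 = |lam| ^ 2 := by rw [← sq_abs, hla]
    rw [e]
    exact mul_le_mul_of_nonneg_right hb (by positivity)

/-! ### the content -/

/-- the old content, normalised -/
noncomputable def f0 (k c : ℝ) (s : Bool) (n n' : ℕ) (m R δ y0 : ℝ) (x : ℝ) : ℝ :=
  -(2 * Real.pi * k * R ^ 2) * contR k c s (n + 1) (n' + 1) (tr m R δ y0 x)

/-- the quadratic polynomial -/
noncomputable def qd (q0 q1 q2 δ y0 : ℝ) (x : ℝ) : ℝ :=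
  q0 + q1 * (δ * (x - y0)) + q2 * (δ * (x - y0)) ^ 2

theorem tr_sub (m R δ y0 x : ℝ) (hR : R ≠ 0) : R * (tr m R δ y0 x - m) = δ * (x - y0) := by
  unfold tr
  field_simp
  ring

theorem Fr.f0_qd (h : Fr k c s n n' m R lam C q0 q1 q2 σ δ y0 j) {x : ℝ} (hx : |x - y0| < 4) :
    |f0 k c s n n' m R δ y0 x + qd q0 q1 q2 δ y0 x| ≤ 1 / 16 := by
  have h1 := h.quad _ (tt_mem h.hR h.δa (norm_real_sub hx))
  rw [tt_ofReal, cont_eq] at h1
  have e : ((2 * Real.pi * k * R ^ 2 : ℝ) : ℂ) * (contR k c s (n + 1) (n' + 1) (tr m R δ y0 x) : ℂ) -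
      (q0 + q1 * ((R : ℂ) * ((tr m R δ y0 x : ℂ) - m)) + q2 * ((R : ℂ) * ((tr m R δ y0 x : ℂ) - m)) ^ 2)
      = ((-(f0 k c s n n' m R δ y0 x + qd q0 q1 q2 δ y0 x) : ℝ) : ℂ) := by
    unfold f0 qd
    rw [← tr_sub m R δ y0 x h.hR.ne']
    push_cast
    ring
  rw [e, Complex.norm_real, Real.norm_eq_abs, abs_neg] at h1
  exact h1

theorem Fr.f0_quad (h : Fr k c s n n' m R lam C q0 q1 q2 σ δ y0 j) :
    ∃ a0 a1 a2 : ℝ, ∀ x ∈ Icc (0:ℝ) 3,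
      |f0 k c s n n' m R δ y0 x - (a0 + a1 * x + a2 * x ^ 2)| ≤ 1 / 8 := by
  refine ⟨-(q0 - q1 * δ * y0 + q2 * y0 ^ 2), -(q1 * δ - 2 * q2 * y0), -q2, fun x hx => ?_⟩
  have h1 := h.f0_qd (x := x) (lt_of_le_of_lt (h.dist_le hx) (by norm_num))
  have e : f0 k c s n n' m R δ y0 x - (-(q0 - q1 * δ * y0 + q2 * y0 ^ 2) +
      -(q1 * δ - 2 * q2 * y0) * x + -q2 * x ^ 2) =
      f0 k c s n n' m R δ y0 x + qd q0 q1 q2 δ y0 x := by
    unfold qd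
    have hd := h.δδ
    linear_combination -(q2 * (x - y0) ^ 2) * hd
  rw [e]
  linarith

theorem T_eq (k c : ℝ) (s : Bool) (m R δ y0 : ℝ) (j : ℤ) (i : ℕ) (x : ℝ) :
    RoughAsm.T k (Pf k c s m R δ y0 j (i + 1) x) (ER k c m R δ y0 s (i + 1) x)
      (ER k c m R δ y0 s i x) =
      2 * Real.pi * k / (ER k c m R δ y0 s (i + 1) x * ER k c m R δ y0 s (i + 2) x) := by
  unfold RoughAsm.T
  rw [← ER_rec]

/-- the next digit -/
theorem nx_eq (k c : ℝ) (s : Bool) (m R δ y0 : ℝ) (j j' : ℤ) (i : ℕ) (x : ℝ) :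
    RoughAsm.nx k (Pf k c s m R δ y0 j (i + 1)) (Pf k c s m R δ y0 j' i) x =
      Pf k c s m R δ y0 (2 * j - j') (i + 2) x := by
  unfold RoughAsm.nx Pf
  rw [sin_int, YR_rec]
  push_cast
  ring

theorem dnx_eq (k c : ℝ) (s : Bool) (m R δ y0 : ℝ) (j : ℤ) (i : ℕ) (x : ℝ) :
    RoughAsm.dnx k (Pf k c s m R δ y0 j (i + 1)) (ER k c m R δ y0 s (i + 1))
      (ER k c m R δ y0 s i) x = ER k c m R δ y0 s (i + 2) x := by
  unfold RoughAsm.dnx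
  rw [← ER_rec]

theorem ER_mul {k c m R δ y0 ε : ℝ} {s : Bool} {i i' : ℕ} {x : ℝ} (hε : sg s * δ = ε)
    (hε1 : ε * ε = 1) (hR : R ≠ 0) :
    2 * Real.pi * k / (ER k c m R δ y0 s i x * ER k c m R δ y0 s i' x) =
      2 * Real.pi * k * R ^ 2 / (DR k c s i (tr m R δ y0 x) * DR k c s i' (tr m R δ y0 x)) := by
  unfold ER
  rw [hε]
  have e : ε / R * DR k c s i (tr m R δ y0 x) * (ε / R * DR k c s i' (tr m R δ y0 x)) =
      (DR k c s i (tr m R δ y0 x) * DR k c s i' (tr m R δ y0 x)) / R ^ 2 := by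
    field_simp
    linear_combination (DR k c s i (tr m R δ y0 x) * DR k c s i' (tr m R δ y0 x)) * hε1
  rw [e, div_div_eq_mul_div]

/-- `F1` is the content after one more digit -/
theorem Fr.F1_eq (h : Fr k c s n n' m R lam C q0 q1 q2 σ δ y0 j) {x : ℝ}
    (h1 : DR k c s (n + 1) (tr m R δ y0 x) ≠ 0) (h2 : DR k c s (n + 2) (tr m R δ y0 x) ≠ 0)
    (h3 : DR k c (!s) (n' + 1) (tr m R δ y0 x) ≠ 0) (h4 : DR k c (!s) (n' + 2) (tr m R δ y0 x) ≠ 0) :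
    RoughAsm.F1 k (f0 k c s n n' m R δ y0) (Pf k c s m R δ y0 j (n + 1))
      (ER k c m R δ y0 s (n + 1)) (ER k c m R δ y0 s n)
      (Pf k c (!s) m R δ y0 0 (n' + 1)) (ER k c m R δ y0 (!s) (n' + 1))
      (ER k c m R δ y0 (!s) n') x =
      -(2 * Real.pi * k * R ^ 2) * contR k c s (n + 2) (n' + 2) (tr m R δ y0 x) := by
  unfold RoughAsm.F1
  rw [T_eq, T_eq, ER_mul h.e1 h.σσ h.hR.ne', ER_mul h.e2 (by rw [neg_mul_neg]; exact h.σσ) h.hR.ne']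
  unfold f0
  rw [contR_succ k c s (n + 1) (n' + 1) (tr m R δ y0 x) h1 h2 h3 h4]
  ring

/-- `F2` is the content after two more digits -/
theorem Fr.F2_eq (h : Fr k c s n n' m R lam C q0 q1 q2 σ δ y0 j) {x : ℝ}
    (h1 : DR k c s (n + 1) (tr m R δ y0 x) ≠ 0) (h2 : DR k c s (n + 2) (tr m R δ y0 x) ≠ 0)
    (h3 : DR k c (!s) (n' + 1) (tr m R δ y0 x) ≠ 0) (h4 : DR k c (!s) (n' + 2) (tr m R δ y0 x) ≠ 0)
    (h5 : DR k c s (n + 3) (tr m R δ y0 x) ≠ 0) (h6 : DR k c (!s) (n' + 3) (tr m R δ y0 x) ≠ 0) :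
    RoughAsm.F2 k (RoughAsm.F1 k (f0 k c s n n' m R δ y0) (Pf k c s m R δ y0 j (n + 1))
      (ER k c m R δ y0 s (n + 1)) (ER k c m R δ y0 s n)
      (Pf k c (!s) m R δ y0 0 (n' + 1)) (ER k c m R δ y0 (!s) (n' + 1))
      (ER k c m R δ y0 (!s) n'))
      (Pf k c s m R δ y0 j (n + 1)) (Pf k c s m R δ y0 0 n)
      (ER k c m R δ y0 s (n + 1)) (ER k c m R δ y0 s n)
      (Pf k c (!s) m R δ y0 0 (n' + 1)) (Pf k c (!s) m R δ y0 0 n')
      (ER k c m R δ y0 (!s) (n' + 1)) (ER k c m R δ y0 (!s) n') x =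
      -(2 * Real.pi * k * R ^ 2) * contR k c s (n + 3) (n' + 3) (tr m R δ y0 x) := by
  unfold RoughAsm.F2
  rw [h.F1_eq h1 h2 h3 h4, nx_eq, nx_eq, dnx_eq, dnx_eq, T_eq, T_eq,
    ER_mul h.e1 h.σσ h.hR.ne', ER_mul h.e2 (by rw [neg_mul_neg]; exact h.σσ) h.hR.ne',
    contR_succ k c s (n + 2) (n' + 2) (tr m R δ y0 x) h2 h5 h4 h6]
  ring

end Crest.Agent.R128.RaX
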