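import Crest.Agent.R128.RaX3

/-!
# Row 128, `RA` (helper507), part 4: the content is quadratic on the cells of the next level
-/

set_option autoImplicit false

open Metric MeasureTheory Set Filter Topology
open Crest.Agent.R128 Crest.Agent.R128.Cell Crest.Agent.R128.CellB Crest.Agent.R128.CellDy
open Crest.Agent.R128.Loc

namespace Crest.Agent.R128.RaX

theorem EE_rec (k c m R δ y0 : ℝ) (s : Bool) (i : ℕ) (w : ℂ) :
    EE k c m R δ y0 s (i + 2) w = cV k (Y k c s (i + 1) (tt m R δ y0 w)) *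
      EE k c m R δ y0 s (i + 1) w - EE k c m R δ y0 s i w := by
  unfold EE
  rw [D_rec]
  ring

/-- lower bounds near a point with a large cosine -/
theorem low2 {k c m R δ y0 x κ ρ Λ l : ℝ} {s : Bool} {i : ℕ} (hk : 1 ≤ k) (hκ : 0 < κ)
    (hκ1 : κ ≤ 1) (hkκ : 2 ≤ k * κ) (hΛ : 1 ≤ Λ) (hΛ1 : Λ ≤ 10 ^ 4) (hl : |l| = Λ)
    (hρ : ρ = κ / 10 ^ 7) (hx : |x - y0| ≤ 2)
    (hE1 : ∀ w : ℂ, ‖w - y0‖ < 4 → ‖EE k c m R δ y0 s (i + 1) w - (l : ℂ)‖ ≤ Λ / 10)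
    (hE0 : ∀ w : ℂ, ‖w - y0‖ < 4 → ‖EE k c m R δ y0 s i w‖ ≤ Λ / 10)
    (hcos : κ ≤ |Real.cos (2 * Real.pi * YR k c s (i + 1) (tr m R δ y0 x))|)
    {w : ℂ} (hw : w ∈ ball (x : ℂ) ρ) :
    9 / 10 ≤ ‖EE k c m R δ y0 s (i + 1) w‖ ∧ k * κ ≤ ‖EE k c m R δ y0 s (i + 2) w‖ := by
  have hpi : 3.14 < Real.pi := Real.pi_gt_d2
  have hpi2 : Real.pi < 3.15 := Real.pi_lt_d2
  have hρ0 : 0 < ρ := by rw [hρ]; positivity
  have hρ1 : ρ ≤ 1 := by rw [hρ]; linarith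
  have hball : ∀ v ∈ ball (x : ℂ) ρ, ‖v - y0‖ < 4 := by
    intro v hv
    rw [mem_ball, dist_eq_norm] at hv
    have e2 : v - y0 = (v - x) + ((x - y0 : ℝ) : ℂ) := by push_cast; ring
    rw [e2]
    refine (norm_add_le _ _).trans_lt ?_
    rw [Complex.norm_real, Real.norm_eq_abs]
    linarith
  have hw4 := hball w hw
  have hln : ‖(l : ℂ)‖ = Λ := by rw [Complex.norm_real, Real.norm_eq_abs, hl]
  have h1 : 9 / 10 * Λ ≤ ‖EE k c m R δ y0 s (i + 1) w‖ := by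
    have h2 := hE1 w hw4
    have h3 := norm_sub_norm_le (l : ℂ) ((l : ℂ) - EE k c m R δ y0 s (i + 1) w)
    have h4 : (l : ℂ) - ((l : ℂ) - EE k c m R δ y0 s (i + 1) w) = EE k c m R δ y0 s (i + 1) w := by
      ring
    rw [h4, norm_sub_rev (l : ℂ), hln] at h3
    linarith
  -- the digit moves little
  have hmove : ‖Y k c s (i + 1) (tt m R δ y0 w) - Y k c s (i + 1) (tt m R δ y0 x)‖ ≤
      11 / 10 * Λ * ‖w - x‖ := by
    refine (convex_ball (x : ℂ) ρ).norm_image_sub_le_of_norm_hasDerivWithin_le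
      (f := fun w => Y k c s (i + 1) (tt m R δ y0 w))
      (f' := fun w => EE k c m R δ y0 s (i + 1) w)
      (fun v _ => (hasDerivAt_Ytt k c m R δ y0 s (i + 1) v).hasDerivWithinAt) (fun v hv => ?_)
      (mem_ball_self hρ0) hw
    have h2 := hE1 v (hball v hv)
    have h3 := norm_add_le (EE k c m R δ y0 s (i + 1) v - (l : ℂ)) (l : ℂ)
    rw [sub_add_cancel, hln] at h3
    linarith
  have hwx : ‖w - x‖ < ρ := by rwa [mem_ball, dist_eq_norm] at hw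
  have hmove2 : ‖Y k c s (i + 1) (tt m R δ y0 w) - Y k c s (i + 1) (tt m R δ y0 x)‖ ≤
      11 / 10 ^ 4 * κ := by
    refine hmove.trans ?_
    calc 11 / 10 * Λ * ‖w - x‖ ≤ 11 / 10 * 10 ^ 4 * ρ := by gcongr
      _ = 11 / 10 ^ 4 * κ := by rw [hρ]; ring
  have hYx : Y k c s (i + 1) (tt m R δ y0 x) = (YR k c s (i + 1) (tr m R δ y0 x) : ℂ) := by
    rw [tt_ofReal, Y_eq]
  set a : ℝ := 2 * Real.pi * YR k c s (i + 1) (tr m R δ y0 x) with ha
  set hh : ℂ := 2 * Real.pi * (Y k c s (i + 1) (tt m R δ y0 w) -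
    Y k c s (i + 1) (tt m R δ y0 x)) with hhh
  have hnh : ‖hh‖ ≤ 7 / 1000 * κ := by
    rw [hhh, norm_mul]
    have : ‖(2 * Real.pi : ℂ)‖ = 2 * Real.pi := by
      rw [show (2 * Real.pi : ℂ) = ((2 * Real.pi : ℝ) : ℂ) by push_cast; ring, Complex.norm_real,
        Real.norm_eq_abs, abs_of_pos (by positivity)]
    rw [this]
    have h3 := mul_le_mul_of_nonneg_left hmove2 (by positivity : (0:ℝ) ≤ 2 * Real.pi)
    nlinarith
  have hcosw : κ / 2 ≤ ‖Complex.cos (2 * Real.pi * Y k c s (i + 1) (tt m R δ y0 w))‖ := by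
    have e : 2 * Real.pi * Y k c s (i + 1) (tt m R δ y0 w) = (a : ℂ) + hh := by
      rw [hhh, ha, hYx]; push_cast; ring
    rw [e]
    have h3 := norm_cos_sub_le (a := a) (h := hh) (by linarith)
    have h4 : ‖Complex.cos (a : ℂ)‖ = |Real.cos a| := by
      rw [← Complex.ofReal_cos, Complex.norm_real, Real.norm_eq_abs]
    have h5 := norm_sub_norm_le (Complex.cos (a : ℂ))
      (Complex.cos (a : ℂ) - Complex.cos ((a : ℂ) + hh))
    have h6 : Complex.cos (a : ℂ) - (Complex.cos (a : ℂ) - Complex.cos ((a : ℂ) + hh)) =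
        Complex.cos ((a : ℂ) + hh) := by ring
    rw [h6, norm_sub_rev (Complex.cos (a : ℂ)), h4] at h5
    linarith
  have hcV : 2 * (k * κ) ≤ ‖cV k (Y k c s (i + 1) (tt m R δ y0 w))‖ := by
    unfold cV
    have h3 := norm_sub_norm_le (2 * Real.pi * k * Complex.cos (2 * Real.pi *
      Y k c s (i + 1) (tt m R δ y0 w))) (-2 : ℂ)
    have h4 : (2 * Real.pi * k : ℂ) = ((2 * Real.pi * k : ℝ) : ℂ) := by push_cast; ring
    have h5 : ‖(2 * Real.pi * k * Complex.cos (2 * Real.pi *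
        Y k c s (i + 1) (tt m R δ y0 w)) : ℂ)‖ = 2 * Real.pi * k *
          ‖Complex.cos (2 * Real.pi * Y k c s (i + 1) (tt m R δ y0 w))‖ := by
      rw [norm_mul, h4, Complex.norm_real, Real.norm_eq_abs, abs_of_pos (by positivity)]
    rw [h5] at h3
    have h6 : ‖(-2 : ℂ)‖ = 2 := by simp
    rw [h6, sub_neg_eq_add, add_comm _ (2 : ℂ)] at h3
    have h7 : 2 * Real.pi * k * (κ / 2) ≤ 2 * Real.pi * k *
        ‖Complex.cos (2 * Real.pi * Y k c s (i + 1) (tt m R δ y0 w))‖ := by gcongr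
    have h8 : 3 * (k * κ) ≤ 2 * Real.pi * k * (κ / 2) := by
      have : 0 < k * κ := by positivity
      nlinarith
    linarith
  refine ⟨by linarith, ?_⟩
  rw [EE_rec]
  have h3 := norm_sub_norm_le (cV k (Y k c s (i + 1) (tt m R δ y0 w)) *
    EE k c m R δ y0 s (i + 1) w) (EE k c m R δ y0 s i w)
  rw [norm_mul] at h3
  have h4 := hE0 w hw4
  have h5 : 2 * (k * κ) * (9 / 10 * Λ) ≤ ‖cV k (Y k c s (i + 1) (tt m R δ y0 w))‖ *
      ‖EE k c m R δ y0 s (i + 1) w‖ := by gcongr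
  have h6 : k * κ + Λ / 10 ≤ 2 * (k * κ) * (9 / 10 * Λ) := by
    nlinarith [mul_nonneg (show 0 ≤ k * κ by positivity) (show 0 ≤ Λ - 1 by linarith)]
  linarith

/-- **the content is quadratic on the cells of the next level** -/
theorem Fr.quad_local {k c : ℝ} {s : Bool} {n n' : ℕ} {m R lam C q0 q1 q2 σ δ y0 : ℝ} {j : ℤ}
    (h : Fr k c s n n' m R lam C q0 q1 q2 σ δ y0 j) (hl : |lam| ≤ 10 ^ 4) {κ ρ RR : ℝ}
    (hκ : 0 < κ) (hκ1 : κ ≤ 1) (hρ : ρ = κ / 10 ^ 7) (hRR : 0 < RR) (hk1 : 2 ≤ k * κ)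
    (hk2 : C / k * 10 ^ 8 ≤ 1) (hk3 : RR / k ≤ ρ / 2)
    (hk4 : 2592 * (60 / κ * (RR / ρ) ^ 3) ≤ k) {x : ℝ} (hx : x ∈ Icc (1 / 4 : ℝ) (11 / 4))
    (hP : κ ≤ |Real.cos (2 * Real.pi * Pf k c s m R δ y0 j (n + 1) x)|)
    (hQ : κ ≤ |Real.cos (2 * Real.pi * Pf k c (!s) m R δ y0 0 (n' + 1) x)|) :
    ∃ a0 a1 a2 : ℝ, ∀ y, |y - x| ≤ RR / k →
      |RoughAsm.F1 k (f0 k c s n n' m R δ y0) (Pf k c s m R δ y0 j (n + 1))
        (ER k c m R δ y0 s (n + 1)) (ER k c m R δ y0 s n)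
        (Pf k c (!s) m R δ y0 0 (n' + 1)) (ER k c m R δ y0 (!s) (n' + 1))
        (ER k c m R δ y0 (!s) n') y - (a0 + a1 * y + a2 * y ^ 2)| ≤ 1 / (8 * (18 * k) ^ 2) := by
  have hk := h.hk
  have hC := h.hC
  have hk0 : 0 < k := by linarith
  have hlam := h.hlam
  have hpi : 0 < Real.pi := Real.pi_pos
  have hpi2 : Real.pi < 3.15 := Real.pi_lt_d2
  have hρ0 : 0 < ρ := by rw [hρ]; positivity
  have hρ1 : ρ ≤ 1 := by rw [hρ]; linarith
  have hx2 : |x - y0| ≤ 2 := h.dist_le ⟨by linarith [hx.1], by linarith [hx.2]⟩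
  have hCk : 0 ≤ C / k := by positivity
  have hla : |(-σ * lam)| = |lam| := by rw [abs_mul, abs_neg, h.σa, one_mul]
  have hball : ∀ v ∈ ball (x : ℂ) ρ, ‖v - y0‖ < 4 := by
    intro v hv
    rw [mem_ball, dist_eq_norm] at hv
    have e2 : v - y0 = (v - x) + ((x - y0 : ℝ) : ℂ) := by push_cast; ring
    rw [e2]
    refine (norm_add_le _ _).trans_lt ?_
    rw [Complex.norm_real, Real.norm_eq_abs]
    linarith
  have hcosP : κ ≤ |Real.cos (2 * Real.pi * YR k c s (n + 1) (tr m R δ y0 x))| := by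
    unfold Pf at hP
    have e : 2 * Real.pi * (YR k c s (n + 1) (tr m R δ y0 x) - j) =
        2 * Real.pi * YR k c s (n + 1) (tr m R δ y0 x) - j * (2 * Real.pi) := by ring
    rwa [e, Real.cos_sub_int_mul_two_pi] at hP
  have hcosQ : κ ≤ |Real.cos (2 * Real.pi * YR k c (!s) (n' + 1) (tr m R δ y0 x))| := by
    unfold Pf at hQ
    simpa using hQ
  have hLP := fun w (hw : w ∈ ball (x : ℂ) ρ) => low2 (Λ := 1) (l := 1) (i := n) hk hκ hκ1 hk1
    le_rfl (by norm_num) (by simp) hρ hx2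
    (fun w hw => (h.EP hw).trans (by linarith)) (fun w hw => (h.EP0 hw).trans (by linarith))
    hcosP hw
  have hLQ := fun w (hw : w ∈ ball (x : ℂ) ρ) => low2 (Λ := |lam|) (l := -σ * lam) (i := n') hk hκ
    hκ1 hk1 hlam hl hla hρ hx2
    (fun w hw => (h.EQ hw).trans (by
      have : C / k * |lam| ^ 2 = (C / k * |lam|) * |lam| := by ring
      rw [this]
      have h3 : C / k * |lam| ≤ 1 / 10 := by nlinarith
      nlinarith [abs_nonneg lam]))
    (fun w hw => (h.EQ0 hw).trans (by nlinarith [abs_nonneg lam]))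
    hcosQ hw
  -- the holomorphic function
  set EP1 := EE k c m R δ y0 s (n + 1) with hEP1
  set EP2 := EE k c m R δ y0 s (n + 2) with hEP2
  set EQ1 := EE k c m R δ y0 (!s) (n' + 1) with hEQ1
  set EQ2 := EE k c m R δ y0 (!s) (n' + 2) with hEQ2
  set Ec : ℂ → ℂ := fun w => (2 * Real.pi * k * R ^ 2 : ℝ) *
    cont k c s (n + 1) (n' + 1) (tt m R δ y0 w) - (q0 + q1 * ((R : ℂ) * (tt m R δ y0 w - m)) +
      q2 * ((R : ℂ) * (tt m R δ y0 w - m)) ^ 2) with hEc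
  set G : ℂ → ℂ := fun w => -Ec w + (2 * Real.pi * k : ℝ) / (EP1 w * EP2 w) +
    (2 * Real.pi * k : ℝ) / (EQ1 w * EQ2 w) with hG
  have hkκ0 : 0 < k * κ := by positivity
  have ne1 : ∀ w ∈ ball (x : ℂ) ρ, EP1 w ≠ 0 := fun w hw h0 => by
    have h1 := (hLP w hw).1
    rw [h0, norm_zero] at h1
    linarith
  have ne2 : ∀ w ∈ ball (x : ℂ) ρ, EP2 w ≠ 0 := fun w hw h0 => by
    have h1 := (hLP w hw).2
    rw [h0, norm_zero] at h1
    linarith
  have ne3 : ∀ w ∈ ball (x : ℂ) ρ, EQ1 w ≠ 0 := fun w hw h0 => by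
    have h1 := (hLQ w hw).1
    rw [h0, norm_zero] at h1
    linarith
  have ne4 : ∀ w ∈ ball (x : ℂ) ρ, EQ2 w ≠ 0 := fun w hw h0 => by
    have h1 := (hLQ w hw).2
    rw [h0, norm_zero] at h1
    linarith
  have hnum : ‖((2 * Real.pi * k : ℝ) : ℂ)‖ = 2 * Real.pi * k := by
    rw [Complex.norm_real, Real.norm_eq_abs, abs_of_pos (by positivity)]
  have hT : ∀ u v : ℂ, 9 / 10 ≤ ‖u‖ → k * κ ≤ ‖v‖ →
      ‖((2 * Real.pi * k : ℝ) : ℂ) / (u * v)‖ ≤ 7 / κ := by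
    intro u v hu hv
    rw [norm_div, hnum, norm_mul]
    have h1 : 9 / 10 * (k * κ) ≤ ‖u‖ * ‖v‖ := by gcongr
    rw [div_le_div_iff₀ (lt_of_lt_of_le (by positivity) h1) hκ]
    have h2 : 2 * Real.pi * k * κ ≤ 7 * (9 / 10 * (k * κ)) := by nlinarith
    linarith
  have hEcb : ∀ w ∈ ball (x : ℂ) ρ, ‖Ec w‖ ≤ 1 / 16 := fun w hw =>
    h.quad _ (tt_mem h.hR h.δa (hball w hw))
  have hGb : ∀ w ∈ ball (x : ℂ) ρ, ‖G w‖ ≤ 15 / κ := by
    intro w hw
    have h1 := hEcb w hw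
    have h2 := hT (EP1 w) (EP2 w) (hLP w hw).1 (hLP w hw).2
    have h3 := hT (EQ1 w) (EQ2 w) (hLQ w hw).1 (hLQ w hw).2
    have h4 := norm_add_le (-Ec w + (2 * Real.pi * k : ℝ) / (EP1 w * EP2 w))
      ((2 * Real.pi * k : ℝ) / (EQ1 w * EQ2 w))
    have h5 := norm_add_le (-Ec w) (((2 * Real.pi * k : ℝ) : ℂ) / (EP1 w * EP2 w))
    rw [norm_neg] at h5
    have h6 : 15 / κ = 7 / κ + 7 / κ + 1 / κ := by ring
    have h7 : 1 / 16 ≤ 1 / κ := by
      rw [div_le_div_iff₀ (by norm_num) hκ]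
      linarith
    show ‖-Ec w + (2 * Real.pi * k : ℝ) / (EP1 w * EP2 w) +
      (2 * Real.pi * k : ℝ) / (EQ1 w * EQ2 w)‖ ≤ 15 / κ
    linarith
  have hGd : DifferentiableOn ℂ G (ball (x : ℂ) ρ) := by
    intro w hw
    refine DifferentiableAt.differentiableWithinAt ?_
    have hD1 : D k c s (n + 1) (tt m R δ y0 w) ≠ 0 := fun h0 => ne1 w hw (by
      rw [hEP1]; unfold EE; rw [h0, mul_zero])
    have hD3 : D k c (!s) (n' + 1) (tt m R δ y0 w) ≠ 0 := fun h0 => ne3 w hw (by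
      rw [hEQ1]; unfold EE; rw [h0, mul_zero])
    have ht : DifferentiableAt ℂ (tt m R δ y0) w := (hasDerivAt_tt m R δ y0 w).differentiableAt
    have hc : DifferentiableAt ℂ (fun w => cont k c s (n + 1) (n' + 1) (tt m R δ y0 w)) w :=
      (differentiableAt_cont k c s (n + 1) (n' + 1) hD1 hD3).comp w ht
    have hEcd : DifferentiableAt ℂ Ec w := by
      refine (hc.const_mul _).sub ?_
      have hq : DifferentiableAt ℂ (fun w => (R : ℂ) * (tt m R δ y0 w - m)) w :=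
        (ht.sub_const _).const_mul _
      exact ((hq.const_mul (q1 : ℂ)).const_add (q0 : ℂ)).add ((hq.pow 2).const_mul (q2 : ℂ))
    refine ((hEcd.neg).add ?_).add ?_
    · exact (differentiableAt_const _).div
        ((differentiable_EE k c m R δ y0 s (n + 1) w).mul (differentiable_EE k c m R δ y0 s (n + 2) w))
        (mul_ne_zero (ne1 w hw) (ne2 w hw))
    · exact (differentiableAt_const _).div
        ((differentiable_EE k c m R δ y0 (!s) (n' + 1) w).mul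
          (differentiable_EE k c m R δ y0 (!s) (n' + 2) w))
        (mul_ne_zero (ne3 w hw) (ne4 w hw))
  have hxm : (x : ℂ) ∈ ball (x : ℂ) ρ := mem_ball_self hρ0
  set FF : ℝ → ℝ := fun u => RoughAsm.F1 k (f0 k c s n n' m R δ y0) (Pf k c s m R δ y0 j (n + 1))
        (ER k c m R δ y0 s (n + 1)) (ER k c m R δ y0 s n)
        (Pf k c (!s) m R δ y0 0 (n' + 1)) (ER k c m R δ y0 (!s) (n' + 1))
        (ER k c m R δ y0 (!s) n') u with hFF
  have hreal : ∀ u : ℝ, G u = ((FF u + qd q0 q1 q2 δ y0 u : ℝ) : ℂ) := by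
    intro u
    rw [hFF]
    simp only [RoughAsm.F1]
    rw [T_eq, T_eq]
    simp only [hG, hEc, hEP1, hEP2, hEQ1, hEQ2, EE_ofReal, tt_ofReal, cont_eq]
    have e3 : (R : ℂ) * ((tr m R δ y0 u : ℂ) - m) = ((δ * (u - y0) : ℝ) : ℂ) := by
      rw [← tr_sub m R δ y0 u h.hR.ne']
      push_cast; ring
    rw [e3]
    unfold f0 qd
    push_cast
    ring
  obtain ⟨a, b, -, -, hT2⟩ := TaylorTwo.taylor_two_real (f := G)
    (F := fun u => FF u + qd q0 q1 q2 δ y0 u) (x := x) (ρ := ρ) (B := 30 / κ) hρ0 hGd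
    (fun w hw => by
      have h1 := hGb w hw
      have h2 := hGb x hxm
      have h3 := norm_sub_le (G w) (G x)
      have h4 : 30 / κ = 15 / κ + 15 / κ := by ring
      linarith) (fun u _ => hreal u)
  refine ⟨(FF x + qd q0 q1 q2 δ y0 x) - a * x + b * x ^ 2 - (q0 - q1 * δ * y0 + q2 * y0 ^ 2),
    a - 2 * b * x - (q1 * δ - 2 * q2 * y0), b - q2, fun y hy => ?_⟩
  have h1 := hT2 y (hy.trans hk3)
  have e : FF y - ((FF x + qd q0 q1 q2 δ y0 x) - a * x + b * x ^ 2 -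
      (q0 - q1 * δ * y0 + q2 * y0 ^ 2) + (a - 2 * b * x - (q1 * δ - 2 * q2 * y0)) * y +
      (b - q2) * y ^ 2) =
      FF y + qd q0 q1 q2 δ y0 y - (FF x + qd q0 q1 q2 δ y0 x + a * (y - x) + b * (y - x) ^ 2) := by
    have hd := h.δδ
    have e1 : qd q0 q1 q2 δ y0 y = q0 + q1 * δ * (y - y0) + q2 * (y - y0) ^ 2 := by
      unfold qd
      linear_combination (q2 * (y - y0) ^ 2) * hd
    rw [e1]
    ring
  rw [e]
  refine h1.trans ?_
  have h2 : |y - x| / ρ ≤ RR / k / ρ := by gcongr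
  have h3 : 2 * (30 / κ) * (|y - x| / ρ) ^ 3 ≤ 2 * (30 / κ) * (RR / k / ρ) ^ 3 := by
    have : 0 ≤ |y - x| / ρ := by positivity
    gcongr
  refine h3.trans ?_
  have e2 : 2 * (30 / κ) * (RR / k / ρ) ^ 3 = (60 / κ * (RR / ρ) ^ 3) / k ^ 3 := by
    field_simp
    ring
  rw [e2, div_le_div_iff₀ (by positivity) (by positivity)]
  have e3 : 60 / κ * (RR / ρ) ^ 3 * (8 * (18 * k) ^ 2) =
      (2592 * (60 / κ * (RR / ρ) ^ 3)) * k ^ 2 := by ring
  rw [e3, one_mul, pow_succ' k 2]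
  gcongr

end Crest.Agent.R128.RaX
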