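import Crest.Agent.R128.RaX4

/-!
# Row 128, `RA` (helper507), part 5: `theorem ra : Loc.RA`
-/

set_option autoImplicit false

open Metric MeasureTheory Set Filter Topology
open Crest.Agent.R128 Crest.Agent.R128.Cell Crest.Agent.R128.CellB Crest.Agent.R128.CellDy
open Crest.Agent.R128.Loc

namespace Crest.Agent.R128.RaX

variable {k c : ℝ} {s : Bool} {n n' : ℕ} {m R lam C q0 q1 q2 σ δ y0 : ℝ} {j : ℤ}

theorem volume_affine {a b : ℝ} (ha : a ≠ 0) (A : Set ℝ) :
    volume {t : ℝ | b + a * t ∈ A} = ENNReal.ofReal |a⁻¹| * volume A := by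
  have h1 : {t : ℝ | b + a * t ∈ A} = (fun t : ℝ => a * t) ⁻¹' ((fun u : ℝ => b + u) ⁻¹' A) := rfl
  rw [h1, Real.volume_preimage_mul_left ha, measure_preimage_add]

theorem sign_ER {E l B : ℝ} (hl : 1 ≤ |l|) (h : |E - l| ≤ |l| / 10) : 0 < l * E := by
  have h1 := abs_le.1 h
  have h2 : l * (E - l) ≥ -(|l| * (|l| / 10)) := by
    have h3 : |l * (E - l)| ≤ |l| * (|l| / 10) := by
      rw [abs_mul]; gcongr
    linarith [(abs_le.1 h3).1]
  have h4 : l * l = |l| * |l| := (abs_mul_abs_self l).symm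
  nlinarith

/-- nothing is identically zero -/
theorem ne_side {k c m R δ y0 ε l : ℝ} {s : Bool} {i : ℕ} (hk : 1 ≤ k) (hR : 0 < R)
    (hε : sg s * δ = ε) (hε1 : ε * ε = 1) (hl : 1 ≤ |l|)
    (h1 : ∀ x ∈ Icc (0 : ℝ) 3, |ER k c m R δ y0 s (i + 1) x - l| ≤ |l| / 10)
    (h0 : ∀ x ∈ Icc (0 : ℝ) 3, |ER k c m R δ y0 s i x| ≤ |l| / 10) :
    (∃ z, D k c s (i + 2) z ≠ 0) ∧ (∃ z, D k c s (i + 3) z ≠ 0) := by
  have h03 : uIcc (0 : ℝ) 3 = Icc 0 3 := uIcc_of_le (by norm_num)
  -- integer and half integer values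
  have hmove : 3 / 2 ≤ |YR k c s (i + 1) (tr m R δ y0 3) - YR k c s (i + 1) (tr m R δ y0 0)| := by
    have h2 := RoughAsm.mvt (f := fun t => YR k c s (i + 1) (tr m R δ y0 t) - l * t)
      (f' := fun t => ER k c m R δ y0 s (i + 1) t - l) (a := 0) (b := 3) (B := |l| / 10)
      (fun t _ => by
        have h3 := (hasDerivAt_YR k c m R δ y0 s (i + 1) t).sub ((hasDerivAt_id t).const_mul l)
        refine h3.congr_deriv ?_
        ring)
      (fun t ht => h1 t (by rwa [h03] at ht))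
    have h3 := abs_sub_abs_le_abs_sub (l * 3)
      (YR k c s (i + 1) (tr m R δ y0 3) - YR k c s (i + 1) (tr m R δ y0 0))
    have e : l * 3 - (YR k c s (i + 1) (tr m R δ y0 3) - YR k c s (i + 1) (tr m R δ y0 0)) =
        -((YR k c s (i + 1) (tr m R δ y0 3) - l * 3) -
          (YR k c s (i + 1) (tr m R δ y0 0) - l * 0)) := by ring
    rw [e, abs_neg, abs_mul] at h3
    have h4 : |(3 : ℝ)| = 3 := by norm_num
    have h5 : |(3 : ℝ) - 0| = 3 := by norm_num
    rw [h4] at h3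
    rw [h5] at h2
    linarith
  have hcY : ContinuousOn (YR k c s (i + 1)) (uIcc (tr m R δ y0 0) (tr m R δ y0 3)) :=
    (continuous_YR k c s (i + 1)).continuousOn
  obtain ⟨p, ⟨a, ha, ha2⟩, ⟨b, hb, hb2⟩⟩ := int_values hcY hmove
  -- every point of the segment is the image of a point of `[0, 3]`
  have hct : Continuous (tr m R δ y0) := by
    unfold tr
    fun_prop
  have himg : ∀ t ∈ uIcc (tr m R δ y0 0) (tr m R δ y0 3), ∃ x ∈ Icc (0 : ℝ) 3,
      tr m R δ y0 x = t := by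
    intro t ht
    have := intermediate_value_uIcc (a := (0:ℝ)) (b := 3) hct.continuousOn ht
    rwa [h03] at this
  have hsub : uIcc a b ⊆ uIcc (tr m R δ y0 0) (tr m R δ y0 3) :=
    ordConnected_uIcc.uIcc_subset ha hb
  have hεa : |ε| = 1 := by
    have h2 : |ε| * |ε| = 1 := by rw [← abs_mul, hε1, abs_one]
    nlinarith [abs_nonneg ε]
  -- sign
  set e : ℝ := ε * (l / |l|) with he
  have hl0 : 0 < |l| := by linarith
  have hll : l / |l| * (l / |l|) = 1 := by
    rw [div_mul_div_comm, abs_mul_abs_self, div_self]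
    intro h; rcases mul_self_eq_zero.1 h with rfl; simp at hl0
  have he1 : e * e = 1 := by
    rw [he]
    have : ε * (l / |l|) * (ε * (l / |l|)) = (ε * ε) * (l / |l| * (l / |l|)) := by ring
    rw [this, hε1, hll, one_mul]
  have hDE : ∀ (i' : ℕ) (x : ℝ), DR k c s i' (tr m R δ y0 x) = ε * R * ER k c m R δ y0 s i' x := by
    intro i' x
    unfold ER
    rw [hε]
    field_simp
    linear_combination -(DR k c s i' (tr m R δ y0 x)) * hε1
  refine nonzero_next (a := a) (b := b) (p := p) (q := p) hk ha2 hb2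
    (continuous_DR k c s (i + 2)).continuousOn he1 ?_ ?_
  · intro t ht
    obtain ⟨x, hx, rfl⟩ := himg t (hsub ht)
    rw [hDE]
    have h2 := sign_ER (B := 0) hl (h1 x hx)
    have e3 : e * (ε * R * ER k c m R δ y0 s (i + 1) x) =
        (ε * ε) * (R / |l|) * (l * ER k c m R δ y0 s (i + 1) x) := by
      rw [he]; ring
    rw [e3, hε1, one_mul]
    positivity
  · intro t ht
    obtain ⟨x, hx, rfl⟩ := himg t (hsub ht)
    rw [hDE, hDE, abs_mul, abs_mul, abs_mul, abs_mul]
    have h2 := h1 x hx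
    have h3 := h0 x hx
    have h4 := abs_sub_abs_le_abs_sub l (l - ER k c m R δ y0 s (i + 1) x)
    rw [sub_sub_cancel, abs_sub_comm l] at h4
    have : |ER k c m R δ y0 s i x| ≤ |ER k c m R δ y0 s (i + 1) x| := by linarith
    gcongr

theorem null_DR {k c : ℝ} {s : Bool} {i : ℕ} (h : ∃ z, D k c s i z ≠ 0) :
    volume {t : ℝ | DR k c s i t = 0} = 0 := by
  obtain ⟨z, hz⟩ := h
  have h1 := null_zeros (differentiable_D k c s i) hz
  have e : {t : ℝ | DR k c s i t = 0} = {t : ℝ | D k c s i (t : ℂ) = 0} := by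
    ext t
    simp only [mem_ofPred_eq, D_eq, Complex.ofReal_eq_zero]
  rw [e]; exact h1

/-- transport of the dead set -/
theorem Fr.transport (h : Fr k c s n n' m R lam C q0 q1 q2 σ δ y0 j)
    (hb : C / k ≤ 1 / 10) (hb2 : C / k * |lam| ≤ 1 / 10) {A : Set ℝ} {c0 : ℝ}
    (hA : ∀ y ∈ A, y ∈ Icc (0:ℝ) 3 ∧
      (1 / 4 < |RoughAsm.F1 k (f0 k c s n n' m R δ y0) (Pf k c s m R δ y0 j (n + 1))
        (ER k c m R δ y0 s (n + 1)) (ER k c m R δ y0 s n)
        (Pf k c (!s) m R δ y0 0 (n' + 1)) (ER k c m R δ y0 (!s) (n' + 1))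
        (ER k c m R δ y0 (!s) n') y| ∨
      RoughAsm.dead2 k (RoughAsm.F1 k (f0 k c s n n' m R δ y0) (Pf k c s m R δ y0 j (n + 1))
        (ER k c m R δ y0 s (n + 1)) (ER k c m R δ y0 s n)
        (Pf k c (!s) m R δ y0 0 (n' + 1)) (ER k c m R δ y0 (!s) (n' + 1))
        (ER k c m R δ y0 (!s) n'))
        (Pf k c s m R δ y0 j (n + 1)) (Pf k c s m R δ y0 0 n)
        (ER k c m R δ y0 s (n + 1)) (ER k c m R δ y0 s n)
        (Pf k c (!s) m R δ y0 0 (n' + 1)) (Pf k c (!s) m R δ y0 0 n')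
        (ER k c m R δ y0 (!s) (n' + 1)) (ER k c m R δ y0 (!s) n') y))
    (hvol : ENNReal.ofReal c0 ≤ volume A) (hc0 : 0 ≤ c0) :
    ENNReal.ofReal (c0 / R) ≤ volume {t : ℝ | |t - m| ≤ 2 / R ∧
        (1 / 4 < (2 * Real.pi * k * R ^ 2) * ‖cont k c s (n + 2) (n' + 2) t‖ ∨
         1 / 4 < (2 * Real.pi * k * (min ‖D k c s (n + 2) t‖ ‖D k c (!s) (n' + 2) t‖) ^ 2) *
            ‖cont k c s (n + 3) (n' + 3) t‖)} := by
  have hR := h.hR
  have hk := h.hk
  have hk0 : 0 < k := by linarith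
  have hpi : 0 < Real.pi := Real.pi_pos
  have hla : |(-σ * lam)| = |lam| := by rw [abs_mul, abs_neg, h.σa, one_mul]
  have hlam := h.hlam
  have nP := ne_side (l := 1) (i := n) hk hR h.e1 h.σσ (by simp)
    (fun x hx => (h.RP hx).trans (by simpa using hb)) (fun x hx => (h.RP0 hx).trans (by simpa using hb))
  have nQ := ne_side (l := -σ * lam) (i := n') hk hR h.e2
    (by rw [neg_mul_neg]; exact h.σσ) (by rw [hla]; exact hlam)
    (fun x hx => (h.RQ hx).trans (by
      rw [hla]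
      have : C / k * |lam| ^ 2 = (C / k * |lam|) * |lam| := by ring
      rw [this]
      nlinarith))
    (fun x hx => (h.RQ0 hx).trans (by rw [hla]; linarith))
  set Z : Set ℝ := {t : ℝ | DR k c s (n + 2) t = 0} ∪ {t : ℝ | DR k c s (n + 3) t = 0} ∪
    ({t : ℝ | DR k c (!s) (n' + 2) t = 0} ∪ {t : ℝ | DR k c (!s) (n' + 3) t = 0}) with hZ
  have hZ0 : volume Z = 0 := by
    rw [hZ, measure_union_null_iff, measure_union_null_iff, measure_union_null_iff]
    exact ⟨⟨null_DR nP.1, null_DR nP.2⟩, ⟨null_DR nQ.1, null_DR nQ.2⟩⟩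
  have hδa := h.δa
  have hδ0 : δ ≠ 0 := by
    intro h0; rw [h0] at hδa; simp at hδa
  have hinv : ∀ t, tr m R δ y0 ((y0 - δ * R * m) + (δ * R) * t) = t := by
    intro t
    unfold tr
    have hd := h.δδ
    field_simp
    linear_combination (R * (t - m)) * hd
  -- the slopes at the exits do not vanish
  have hne1 : ∀ y ∈ Icc (0:ℝ) 3, DR k c s (n + 1) (tr m R δ y0 y) ≠ 0 := by
    intro y hy h0
    have h1 := h.RP hy
    unfold ER at h1
    rw [h0, mul_zero, zero_sub, abs_neg, abs_one] at h1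
    linarith
  have hne3 : ∀ y ∈ Icc (0:ℝ) 3, DR k c (!s) (n' + 1) (tr m R δ y0 y) ≠ 0 := by
    intro y hy h0
    have h1 := h.RQ hy
    unfold ER at h1
    rw [h0, mul_zero, zero_sub, abs_neg, hla] at h1
    nlinarith
  have hsub : {t : ℝ | (y0 - δ * R * m) + (δ * R) * t ∈ A} ⊆ {t : ℝ | |t - m| ≤ 2 / R ∧
        (1 / 4 < (2 * Real.pi * k * R ^ 2) * ‖cont k c s (n + 2) (n' + 2) t‖ ∨
         1 / 4 < (2 * Real.pi * k * (min ‖D k c s (n + 2) t‖ ‖D k c (!s) (n' + 2) t‖) ^ 2) *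
            ‖cont k c s (n + 3) (n' + 3) t‖)} ∪ Z := by
    intro t ht
    by_cases hZt : t ∈ Z
    · exact Or.inr hZt
    left
    simp only [hZ, mem_union, mem_ofPred_eq, not_or] at hZt
    obtain ⟨⟨z2, z3⟩, ⟨z5, z6⟩⟩ := hZt
    set y := (y0 - δ * R * m) + (δ * R) * t with hy
    have hty : tr m R δ y0 y = t := hinv t
    obtain ⟨hy3, hdead⟩ := hA y ht
    have g1 := hne1 y hy3
    have g3 := hne3 y hy3
    refine ⟨?_, ?_⟩
    · have h1 := h.dist_le hy3
      have h2 : |R * (tr m R δ y0 y - m)| = |y - y0| := by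
        rw [tr_sub m R δ y0 y hR.ne', abs_mul, hδa, one_mul]
      rw [hty, abs_mul, abs_of_pos hR] at h2
      rw [le_div_iff₀ hR]
      linarith
    · have hK : 0 < 2 * Real.pi * k * R ^ 2 := by positivity
      rcases hdead with hd | hd
      · left
        rw [h.F1_eq g1 (by rw [hty]; exact z2) g3 (by rw [hty]; exact z5), hty, abs_mul, abs_neg,
          abs_of_pos hK] at hd
        rw [cont_eq, Complex.norm_real, Real.norm_eq_abs]
        exact hd
      · right
        unfold RoughAsm.dead2 at hd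
        rw [h.F2_eq g1 (by rw [hty]; exact z2) g3 (by rw [hty]; exact z5) (by rw [hty]; exact z3)
          (by rw [hty]; exact z6), dnx_eq, dnx_eq, hty, abs_mul, abs_neg, abs_of_pos hK] at hd
        rw [cont_eq, Complex.norm_real, Real.norm_eq_abs, D_eq, D_eq, Complex.norm_real,
          Complex.norm_real, Real.norm_eq_abs, Real.norm_eq_abs]
        refine hd.trans_le (le_of_eq ?_)
        have e1 : ER k c m R δ y0 s (n + 2) y ^ 2 = |DR k c s (n + 2) t| ^ 2 / R ^ 2 := by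
          unfold ER
          rw [hty, h.e1, sq_abs, mul_pow, div_pow]
          have := h.σσ
          rw [show σ ^ 2 = 1 by rw [sq]; exact this]
          ring
        have e2 : ER k c m R δ y0 (!s) (n' + 2) y ^ 2 = |DR k c (!s) (n' + 2) t| ^ 2 / R ^ 2 := by
          unfold ER
          rw [hty, h.e2, sq_abs, mul_pow, div_pow]
          have := h.σσ
          rw [show (-σ) ^ 2 = 1 by rw [neg_sq, sq]; exact this]
          ring
        rw [e1, e2, min_div_div_right (by positivity)]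
        have e3 : min (|DR k c s (n + 2) t| ^ 2) (|DR k c (!s) (n' + 2) t| ^ 2) =
            (min |DR k c s (n + 2) t| |DR k c (!s) (n' + 2) t|) ^ 2 := by
          rcases le_total |DR k c s (n + 2) t| |DR k c (!s) (n' + 2) t| with hle | hle
          · rw [min_eq_left hle, min_eq_left (by gcongr)]
          · rw [min_eq_right hle, min_eq_right (by gcongr)]
        rw [e3]
        field_simp
  have h1 := volume_affine (a := δ * R) (b := y0 - δ * R * m) (mul_ne_zero hδ0 hR.ne') A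
  have h2 : |(δ * R)⁻¹| = 1 / R := by
    rw [abs_inv, abs_mul, hδa, abs_of_pos hR, one_mul, one_div]
  rw [h2] at h1
  have h3 := (measure_mono (μ := (volume : Measure ℝ)) hsub).trans (measure_union_le _ _)
  rw [hZ0, add_zero, h1] at h3
  refine le_trans ?_ h3
  have e : c0 / R = 1 / R * c0 := by ring
  rw [e, ENNReal.ofReal_mul (by positivity)]
  gcongr

set_option maxHeartbeats 1000000 in
/-- **RA** -/
theorem ra : RA := by
  intro C1
  obtain ⟨C, hCdef⟩ : ∃ C, C = max C1 1 := ⟨_, rfl⟩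
  have hC : 1 ≤ C := by rw [hCdef]; exact le_max_right _ _
  have hC1 : C1 ≤ C := by rw [hCdef]; exact le_max_left _ _
  obtain ⟨c0, hc0, K0, hsmall⟩ := RoughAsm.asm_small (20000 * C) (by linarith)
  obtain ⟨κ, hκdef⟩ : ∃ κ, κ = RoughAsm.kap (20000 * C) := ⟨_, rfl⟩
  have hκ : 0 < κ := by
    rw [hκdef, RoughAsm.kap, RoughAsm.rr]; positivity
  have hκ1 : κ ≤ 1 := by
    rw [hκdef, RoughAsm.kap, RoughAsm.rr, div_div, div_le_one (by positivity)]
    nlinarith
  obtain ⟨RR, hRRdef⟩ : ∃ RR, RR = RoughAsm.RR (20000 * C) := ⟨_, rfl⟩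
  have hRR : 0 < RR := by
    rw [hRRdef, RoughAsm.RR, ← hκdef]; positivity
  obtain ⟨ρ, hρ⟩ : ∃ ρ, ρ = κ / 10 ^ 7 := ⟨_, rfl⟩
  have hρ0 : 0 < ρ := by rw [hρ]; positivity
  refine ⟨min c0 (1 / 2000), lt_min hc0 (by norm_num),
    |K0| + 2 / κ + C * 10 ^ 14 + 2 * RR / ρ + 2592 * (60 / κ * (RR / ρ) ^ 3) + 10 ^ 12 +
      100 * (C * C) ^ 2, ?_⟩
  intro k hkK c s n n' m R lam q0 q1 q2 hlamk hcell
  have p0 : 0 ≤ |K0| := abs_nonneg _
  have p1 : 0 < 2 / κ := by positivity
  have p2 : 0 < C * 10 ^ 14 := by positivity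
  have p3 : 0 < 2 * RR / ρ := by positivity
  have p4 : 0 < 2592 * (60 / κ * (RR / ρ) ^ 3) := by positivity
  have p5 : 0 ≤ 100 * (C * C) ^ 2 := by positivity
  have hk12 : (10 : ℝ) ^ 12 ≤ k := by linarith
  have hk1 : 1 ≤ k := le_trans (by norm_num) hk12
  have hk0 : 0 < k := by linarith
  have hkK0 : K0 ≤ k := le_trans (le_abs_self _) (by linarith)
  have hkκ : 2 ≤ k * κ := by
    have : 2 / κ ≤ k := by linarith
    rwa [div_le_iff₀ hκ] at this
  have hCk : C / k * 10 ^ 14 ≤ 1 := by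
    rw [div_mul_eq_mul_div, div_le_one hk0]; linarith
  have hCk0 : 0 ≤ C / k := by positivity
  have hRRk : RR / k ≤ ρ / 2 := by
    have h1 : 2 * RR / ρ ≤ k := by linarith
    rw [div_le_iff₀ hρ0] at h1
    rw [div_le_iff₀ hk0]
    linarith
  have hk4 : 2592 * (60 / κ * (RR / ρ) ^ 3) ≤ k := by linarith
  have hkC : 100 * (C * C) ^ 2 ≤ k := by linarith
  obtain ⟨hR1, hlam1, ⟨σ, hσ, hslow⟩, hslow0, hfast, hfast0, hquad⟩ := hcell
  have hR : 0 < R := by linarith
  -- the frame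
  obtain ⟨j, hj⟩ : ∃ j : ℤ, j = ⌊YR k c s (n + 1) m⌋ - 1 := ⟨_, rfl⟩
  obtain ⟨y0, hy0⟩ : ∃ y0, YR k c s (n + 1) m - j = y0 := ⟨_, rfl⟩
  have hfl := Int.floor_le (YR k c s (n + 1) m)
  have hfl2 := Int.lt_floor_add_one (YR k c s (n + 1) m)
  have hjr : (j : ℝ) = (⌊YR k c s (n + 1) m⌋ : ℝ) - 1 := by rw [hj]; push_cast; ring
  have hF : Fr k c s n n' m R lam C q0 q1 q2 σ (sg s * σ) y0 j := by
    refine ⟨hk1, hC, hR, hσ, rfl, hy0, by linarith, by linarith, hlam1, ?_, ?_, ?_, ?_, hquad⟩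
    · intro z hz
      refine (hslow z hz).trans ?_
      gcongr
    · intro z hz
      refine (hslow0 z hz).trans ?_
      gcongr
    · intro z hz
      refine (hfast z hz).trans ?_
      gcongr
    · intro z hz
      refine (hfast0 z hz).trans ?_
      gcongr
  have hla : |(-σ * lam)| = |lam| := by rw [abs_mul, abs_neg, hF.σa, one_mul]
  have hb : C / k ≤ 1 / 10 := by linarith
  rcases le_total |lam| (10 ^ 4) with hl | hl
  · -- two levels
    have hb2 : C / k * |lam| ≤ 1 / 10 := by nlinarith [abs_nonneg lam]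
    have h1 := hsmall k hkK0 (-σ * lam) (by rw [hla]; exact hlam1) (by rw [hla]; exact hl)
      _ _ _ _ _ _ _ _ _ _ (f0 k c s n n' m R (sg s * σ) y0) (hF.cell hl) hF.f0_quad
      (fun x hx hP hQ => by
        rw [← hκdef] at hP hQ
        rw [← hRRdef]
        exact hF.quad_local hl hκ hκ1 hρ hRR hkκ (by linarith) hRRk hk4 hx hP hQ)
    refine hF.transport hb hb2 (A := _) (fun y hy => hy)
      (le_trans (ENNReal.ofReal_le_ofReal (min_le_left _ _)) h1) ?_
    exact (lt_min hc0 (by norm_num)).le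
  · -- one level
    have hsq : C / k * |lam| ≤ 1 / 10 := by
      have h1 : |lam| ≤ C * Real.sqrt k := hlamk.trans (by gcongr)
      have h2 : C / k * |lam| ≤ C / k * (C * Real.sqrt k) := by gcongr
      have h3 : C / k * (C * Real.sqrt k) = C * C / Real.sqrt k := by
        have h5 : Real.sqrt k * Real.sqrt k = k := Real.mul_self_sqrt hk0.le
        have h6 : 0 < Real.sqrt k := Real.sqrt_pos.2 hk0
        rw [div_mul_eq_mul_div, div_eq_div_iff hk0.ne' h6.ne']
        linear_combination (C * C) * h5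
      have h4 : C * C / Real.sqrt k ≤ 1 / 10 := by
        have h6 : 0 < Real.sqrt k := Real.sqrt_pos.2 hk0
        rw [div_le_iff₀ h6]
        have h7 : 10 * (C * C) ≤ Real.sqrt k := by
          apply Real.le_sqrt_of_sq_le
          have : (10 * (C * C)) ^ 2 = 100 * (C * C) ^ 2 := by ring
          rw [this]; exact hkC
        linarith
      linarith
    have h1 := RoughAsm.asm_big (ε := 1 / 10 ^ 13) (lam := -σ * lam)
      (P := Pf k c s m R (sg s * σ) y0 j (n + 1)) (dP := ER k c m R (sg s * σ) y0 s (n + 1))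
      (dP0 := ER k c m R (sg s * σ) y0 s n) (Q := Pf k c (!s) m R (sg s * σ) y0 0 (n' + 1))
      (dQ := ER k c m R (sg s * σ) y0 (!s) (n' + 1)) (dQ0 := ER k c m R (sg s * σ) y0 (!s) n')
      (f0 := f0 k c s n n' m R (sg s * σ) y0) hk12 (by rw [hla]; exact hl) (by norm_num) le_rfl
      (fun x _ => hasDerivAt_Pf _ _ _ _ _ _ _ _ _ _)
      (fun x hx => (hF.nP hx).trans (by
        have : 2 * C / k = 2 * (C / k) := by ring
        rw [this]
        norm_num
        linarith))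
      (fun x hx => (hF.RP hx).trans (by norm_num; linarith))
      (fun x hx => (hF.RP0 hx).trans (by norm_num; linarith))
      (fun x hx => (hF.RQ hx).trans (by
        rw [hla]
        have : C / k * |lam| ^ 2 = (C / k * |lam|) * |lam| := by ring
        rw [this]
        nlinarith [abs_nonneg lam]))
      (fun x hx => (hF.RQ0 hx).trans (by
        rw [hla]
        nlinarith [abs_nonneg lam]))
      hF.f0_quad
    refine hF.transport hb hsq (A := _) (fun y hy => ⟨hy.1, Or.inl hy.2⟩)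
      (le_trans (ENNReal.ofReal_le_ofReal (min_le_right _ _)) h1) ?_
    exact (lt_min hc0 (by norm_num)).le

end Crest.Agent.R128.RaX
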