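import Mathlib
import Crest.Agent.R128.ValNum

/-!
Row 128 (helper105), node V34-RATIO, part 1: comparison of the `(0,1)` fields of two matched orbits.
`w = F p m`, `w' = F p' m`, `w' = la m • w + (Dw m / |w|^2) J w`; `la` is almost constant for late times.
-/

set_option autoImplicit false

open Finset

namespace Crest.Agent.R128.Ratio

open Crest.Agent.R128.TreeSum Crest.Agent.R128.Val

/-- the pair -/
def F (p : ℕ → ℝ) (m : ℕ) : ℝ × ℝ := (p m, p (m + 1))

/-- the Wronskian of the two fields -/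
noncomputable def Dw (p p' : ℕ → ℝ) (m : ℕ) : ℝ := wr (F p m) (F p' m)

/-- the component of the second field along the first one -/
noncomputable def la (p p' : ℕ → ℝ) (m : ℕ) : ℝ := lam (F p m) (F p' m)

theorem nn_pos_stp (a : ℝ) (w : ℝ × ℝ) (hw : 0 < nn w) : 0 < nn (stp a w) := by
  by_contra hc
  have h0 : nn (stp a w) = 0 := le_antisymm (not_lt.mp hc) (nn_nonneg _)
  have := nn_le_stp a w
  rw [h0, mul_zero] at this
  linarith

theorem wr_stp' (a a' : ℝ) (v u : ℝ × ℝ) :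
    wr (stp a v) (stp a' u) = wr v u + (a' - a) * v.2 * u.2 := by
  unfold wr stp
  ring

theorem lam_step' (a a' : ℝ) (w z : ℝ × ℝ) (hw : 0 < nn w) :
    |lam (stp a w) (stp a' z) - lam w z| ≤
      |wr w z| * ((|a| + 2) / (nn w * nn (stp a w))) + |a' - a| * |z.2| / nn (stp a w) := by
  have hw' := nn_pos_stp a w hw
  have h1 := lam_step a w z hw
  have e : lam (stp a w) (stp a' z) = lam (stp a w) (stp a z) +
      (a' - a) * z.2 * (stp a w).2 / nn (stp a w) ^ 2 := by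
    unfold lam
    rw [← add_div]
    congr 1
    unfold dt stp
    ring
  have h2 : |(a' - a) * z.2 * (stp a w).2 / nn (stp a w) ^ 2| ≤ |a' - a| * |z.2| / nn (stp a w) := by
    rw [abs_div, abs_mul, abs_mul, abs_of_pos (by positivity : 0 < nn (stp a w) ^ 2),
      div_le_div_iff₀ (by positivity) hw']
    have h3 := abs_snd_le (stp a w)
    calc |a' - a| * |z.2| * |(stp a w).2| * nn (stp a w)
        ≤ |a' - a| * |z.2| * nn (stp a w) * nn (stp a w) := by gcongr
      _ = _ := by ring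
  rw [e]
  calc |lam (stp a w) (stp a z) + (a' - a) * z.2 * (stp a w).2 / nn (stp a w) ^ 2 - lam w z|
      = |(lam (stp a w) (stp a z) - lam w z) + (a' - a) * z.2 * (stp a w).2 / nn (stp a w) ^ 2| := by
        ring_nf
    _ ≤ _ := (abs_add_le _ _).trans (by linarith)

/-- decomposition: `z = lam • w + (wr / |w|^2) J w` -/
theorem nn_sub_lam (w z : ℝ × ℝ) (hw : 0 < nn w) :
    nn (z - lam w z • w) = |wr w z| / nn w := by
  have hsq := nn_sq w
  have hne : nn w ^ 2 ≠ 0 := by positivity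
  have h1 : nn (z - lam w z • w) ^ 2 = (|wr w z| / nn w) ^ 2 := by
    rw [nn_sq, div_pow, sq_abs]
    have e1 : (z - lam w z • w).1 = z.1 - lam w z * w.1 := by simp
    have e2 : (z - lam w z • w).2 = z.2 - lam w z * w.2 := by simp
    rw [e1, e2, eq_div_iff hne]
    have e3 : lam w z * nn w ^ 2 = z.1 * w.1 + z.2 * w.2 := by
      unfold lam dt
      field_simp
    have e4 : ((z.1 - lam w z * w.1) ^ 2 + (z.2 - lam w z * w.2) ^ 2) * nn w ^ 2 =
        (z.1 ^ 2 + z.2 ^ 2) * nn w ^ 2 - 2 * (lam w z * nn w ^ 2) * (z.1 * w.1 + z.2 * w.2) +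
          (lam w z * nn w ^ 2) ^ 2 * ((w.1 ^ 2 + w.2 ^ 2) / nn w ^ 2) := by
      field_simp
      ring
    rw [e4, e3, ← hsq, div_self hne, hsq]
    unfold wr
    ring
  have h2 : 0 ≤ |wr w z| / nn w := by positivity
  exact (pow_left_inj₀ (nn_nonneg _) h2 (by norm_num)).mp h1

/-- hypotheses on the two fields -/
structure FD (b κ : ℝ) (n : ℕ) (a a' p p' u lm : ℕ → ℝ) : Prop where
  E : Expo b n u
  Lb : LamB b n u lm
  hb : 100 ≤ b
  hW : ∀ m ≤ n, nn (F p m) = b ^ u m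
  p0 : p 0 = 0
  p1 : p 1 = 1
  p0' : p' 0 = 0
  p1' : p' 1 = 1
  hp : ∀ m < n, p (m + 2) = a (m + 1) * p (m + 1) - p m
  hp' : ∀ m < n, p' (m + 2) = a' (m + 1) * p' (m + 1) - p' m
  hA : ∀ m ∈ Icc 1 n, |a m| + 2 ≤ b ^ 2
  hcs : ∀ m < 35, (|a (m + 1)| + 2) * nn (F p m) ≤ 5 / 4 * nn (F p (m + 1))
  hκ : 0 ≤ κ
  hκb : 128 * κ ≤ b ^ 2
  hd : ∀ m ∈ Icc 1 n, |a' m - a m| ≤ κ * lm m


variable {b κ : ℝ} {n : ℕ} {a a' p p' u lm : ℕ → ℝ}

theorem FD.b0 (h : FD b κ n a a' p p' u lm) : 0 < b := by linarith [h.hb]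

theorem FD.Fsucc (h : FD b κ n a a' p p' u lm) {m : ℕ} (hm : m < n) :
    F p (m + 1) = stp (a (m + 1)) (F p m) := by
  unfold F stp
  ext
  · rfl
  · exact h.hp m hm

theorem FD.Fsucc' (h : FD b κ n a a' p p' u lm) {m : ℕ} (hm : m < n) :
    F p' (m + 1) = stp (a' (m + 1)) (F p' m) := by
  unfold F stp
  ext
  · rfl
  · exact h.hp' m hm

theorem FD.Wpos (h : FD b κ n a a' p p' u lm) {m : ℕ} (hm : m ≤ n) : 0 < nn (F p m) := by
  rw [h.hW m hm]
  exact Real.rpow_pos_of_pos h.b0 _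

theorem FD.D_zero (h : FD b κ n a a' p p' u lm) : Dw p p' 0 = 0 := by
  unfold Dw wr F
  simp only
  rw [h.p0, h.p1, h.p0', h.p1']
  ring

theorem FD.la_zero (h : FD b κ n a a' p p' u lm) : la p p' 0 = 1 := by
  have h1 := nn_sq (F p 0)
  unfold la lam dt
  rw [h1]
  unfold F
  simp only
  rw [h.p0, h.p1, h.p0', h.p1']
  norm_num

theorem FD.D_succ (h : FD b κ n a a' p p' u lm) {m : ℕ} (hm : m < n) :
    Dw p p' (m + 1) = Dw p p' m + (a' (m + 1) - a (m + 1)) * p (m + 1) * p' (m + 1) := by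
  unfold Dw
  rw [h.Fsucc hm, h.Fsucc' hm, wr_stp']
  rfl

theorem FD.D_le (h : FD b κ n a a' p p' u lm) {m0 : ℕ}
    (hA : ∀ j < m0, nn (F p' j) ≤ 5 / 4 * b ^ u j) :
    ∀ m ≤ m0, m ≤ n → |Dw p p' m| ≤ 5 / 4 * κ * ∑ j ∈ Icc 1 m, (b ^ u (j - 1)) ^ 2 * lm j := by
  intro m
  induction m with
  | zero =>
    intro _ _
    rw [h.D_zero]
    simp
  | succ m ih =>
    intro hm hmn
    have h1 := ih (by omega) (by omega)
    rw [h.D_succ (by omega), Finset.sum_Icc_succ_top (by omega), mul_add]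
    refine (abs_add_le _ _).trans (add_le_add h1 ?_)
    have h2 : |p (m + 1)| ≤ b ^ u m := by
      rw [← h.hW m (by omega)]
      exact abs_snd_le (F p m)
    have h3 : |p' (m + 1)| ≤ 5 / 4 * b ^ u m := (abs_snd_le (F p' m)).trans (hA m (by omega))
    have h4 := h.hd (m + 1) (Finset.mem_Icc.mpr ⟨by omega, hmn⟩)
    have h5 : 0 ≤ κ * lm (m + 1) := mul_nonneg h.hκ (h.Lb.pos _ hmn)
    rw [abs_mul, abs_mul, Nat.add_sub_cancel]
    have h6 : 0 ≤ b ^ u m := Real.rpow_nonneg h.b0.le _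
    calc |a' (m + 1) - a (m + 1)| * |p (m + 1)| * |p' (m + 1)|
        ≤ (κ * lm (m + 1)) * (b ^ u m) * (5 / 4 * b ^ u m) := by gcongr
      _ = _ := by ring

theorem rsq {b : ℝ} (hb : 0 < b) (x : ℝ) : (b ^ x) ^ 2 = b ^ (2 * x) := by
  rw [← Real.rpow_natCast (b ^ x) 2, ← Real.rpow_mul hb.le]
  congr 1
  push_cast
  ring

theorem S_late (E : Expo b n u) (L : LamB b n u lm) {m : ℕ} (hm : m ≤ n) :
    ∑ j ∈ Icc 1 m, (b ^ u (j - 1)) ^ 2 * lm j ≤ 2 * b ^ (1111 / 100 + 10506 / 10000 * u m) := by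
  have hb0 := E.b0
  have hpt : ∀ j ∈ Icc 1 m, (b ^ u (j - 1)) ^ 2 * lm j ≤
      2 * b ^ (1011 / 100 + 10506 / 10000 * u m) * b ^ (-(1 / 100 * u j)) := by
    intro j hj
    rw [Finset.mem_Icc] at hj
    have h1 := L.g j (by omega)
    have h2 : b ^ (2 * u (j - 1)) ≤ b ^ (2 * u j + 4) := by
      apply E.mono
      have := E.dn (j - 1) (by omega)
      rw [Nat.sub_add_cancel hj.1] at this
      linarith
    have h3 := L.pos j (by omega)
    have h4 : b ^ (2 * u j + 4) * (2 * b ^ (6 - 97 / 100 * u j)) =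
        2 * b ^ (10 + 104 / 100 * u j) * b ^ (-(1 / 100 * u j)) := by
      have : b ^ (2 * u j + 4) * (2 * b ^ (6 - 97 / 100 * u j)) =
        2 * (b ^ (2 * u j + 4) * b ^ (6 - 97 / 100 * u j)) := by ring
      rw [this, ← Real.rpow_add hb0, mul_assoc, ← Real.rpow_add hb0]
      congr 2
      ring
    have h5 : b ^ (10 + 104 / 100 * u j) ≤ b ^ (1011 / 100 + 10506 / 10000 * u m) := by
      apply E.mono
      have h6 := E.v2 j m hj.2 hm
      have h7 := E.nonneg hm
      have h8 := E.nonneg (by omega : j ≤ n)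
      linarith
    rw [rsq hb0]
    calc b ^ (2 * u (j - 1)) * lm j ≤ b ^ (2 * u j + 4) * (2 * b ^ (6 - 97 / 100 * u j)) := by
          gcongr
      _ = 2 * b ^ (10 + 104 / 100 * u j) * b ^ (-(1 / 100 * u j)) := h4
      _ ≤ _ := by gcongr
  refine (Finset.sum_le_sum hpt).trans ?_
  rw [← Finset.mul_sum]
  have g2 := E.sum_le (Icc 1 m) (by
    intro j hj
    rw [Finset.mem_Icc] at hj
    rw [Finset.mem_range]
    omega)
  have g3 : b ^ (1011 / 100 + 10506 / 10000 * u m) * b = b ^ (1111 / 100 + 10506 / 10000 * u m) := by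
    nth_rewrite 2 [← Real.rpow_one b]
    rw [← Real.rpow_add hb0]
    congr 1
    ring
  calc 2 * b ^ (1011 / 100 + 10506 / 10000 * u m) * ∑ j ∈ Icc 1 m, b ^ (-(1 / 100 * u j))
      ≤ 2 * b ^ (1011 / 100 + 10506 / 10000 * u m) * b := by gcongr
    _ = 2 * b ^ (1111 / 100 + 10506 / 10000 * u m) := by rw [mul_assoc, g3]

theorem S_clean (E : Expo b n u) (L : LamB b n u lm) {m : ℕ} (hm1 : 1 ≤ m) (hm : m ≤ 30) :
    ∑ j ∈ Icc 1 m, (b ^ u (j - 1)) ^ 2 * lm j ≤ 16 / 5 * b ^ (u (m - 1) - 1) := by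
  have hb0 := E.b0
  have hn := E.hn
  have hpt : ∀ j ∈ Icc 1 m, (b ^ u (j - 1)) ^ 2 * lm j ≤
      3 * b ^ (u (m - 1) - 1) * (b⁻¹) ^ (m - j) := by
    intro j hj
    rw [Finset.mem_Icc] at hj
    have h1 := L.c j (by omega)
    rw [rsq hb0]
    calc b ^ (2 * u (j - 1)) * lm j ≤ b ^ (2 * u (j - 1)) * (3 * b ^ (-u j)) := by gcongr
      _ = 3 * b ^ (2 * u (j - 1) - u j) := by
        have : b ^ (2 * u (j - 1)) * (3 * b ^ (-u j)) =
          3 * (b ^ (2 * u (j - 1)) * b ^ (-u j)) := by ring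
        rw [this, ← Real.rpow_add hb0]
        congr 1
      _ ≤ 3 * (b ^ (u (m - 1) - 1) * (b⁻¹) ^ (m - j)) := by
        rw [E.pow_inv, ← Real.rpow_add hb0]
        have : b ^ (2 * u (j - 1) - u j) ≤ b ^ (u (m - 1) - 1 + -((m - j : ℕ) : ℝ)) := by
          apply E.mono
          have h7 := E.cl (j - 1) (by omega)
          rw [Nat.sub_add_cancel hj.1] at h7
          have h8 := E.clean (by omega : j - 1 ≤ m - 1) (by omega)
          have h9 : ((m - 1 - (j - 1) : ℕ) : ℝ) = ((m - j : ℕ) : ℝ) := by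
            congr 1
            omega
          rw [h9] at h8
          linarith
        gcongr
      _ = _ := by ring
  refine (Finset.sum_le_sum hpt).trans ?_
  rw [← Finset.mul_sum]
  have e : ∑ j ∈ Icc 1 m, (b⁻¹) ^ (m - j) ≤ 16 / 15 := by
    have e1 : ∑ j ∈ Icc 1 m, (b⁻¹) ^ (m - j) =
        ∑ i ∈ (Icc 1 m).image (fun j => m - j), (b⁻¹) ^ i := by
      rw [Finset.sum_image]
      intro x hx y hy hxy
      simp only [Finset.coe_Icc, Set.mem_Icc] at hx hy
      simp only at hxy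
      omega
    rw [e1]
    have := geom_le E.hb ((Icc 1 m).image (fun j => m - j)) 0
    simpa using this
  calc 3 * b ^ (u (m - 1) - 1) * ∑ j ∈ Icc 1 m, (b⁻¹) ^ (m - j)
      ≤ 3 * b ^ (u (m - 1) - 1) * (16 / 15) := by gcongr
    _ = _ := by ring

/-- general bound for the Wronskian -/
theorem FD.D_late (h : FD b κ n a a' p p' u lm) {m0 : ℕ}
    (hA : ∀ j < m0, nn (F p' j) ≤ 5 / 4 * b ^ u j) {m : ℕ} (hm : m ≤ m0) (hmn : m ≤ n) :
    |Dw p p' m| ≤ 5 / 2 * κ * b ^ (1111 / 100 + 10506 / 10000 * u m) := by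
  refine (h.D_le hA m hm hmn).trans ?_
  have := S_late h.E h.Lb hmn
  have hκ := h.hκ
  calc 5 / 4 * κ * ∑ j ∈ Icc 1 m, (b ^ u (j - 1)) ^ 2 * lm j
      ≤ 5 / 4 * κ * (2 * b ^ (1111 / 100 + 10506 / 10000 * u m)) := by gcongr
    _ = _ := by ring

/-- bound for the Wronskian in the clean part -/
theorem FD.D_clean (h : FD b κ n a a' p p' u lm) {m0 : ℕ}
    (hA : ∀ j < m0, nn (F p' j) ≤ 5 / 4 * b ^ u j) {m : ℕ} (hm : m ≤ m0) (h30 : m ≤ 30) :
    |Dw p p' m| ≤ 4 * κ * b ^ (u m - 2) := by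
  have hn := h.E.hn
  have hκ := h.hκ
  rcases Nat.eq_zero_or_pos m with h0 | h0
  · subst h0
    rw [h.D_zero, abs_zero]
    have : 0 ≤ b ^ (u 0 - 2) := Real.rpow_nonneg h.b0.le _
    positivity
  refine (h.D_le hA m hm (by omega)).trans ?_
  have h1 := S_clean h.E h.Lb h0 h30
  have h2 : b ^ (u (m - 1) - 1) ≤ b ^ (u m - 2) := by
    apply h.E.mono
    have h7 := h.E.cl (m - 1) (by omega)
    rw [Nat.sub_add_cancel h0] at h7
    linarith
  calc 5 / 4 * κ * ∑ j ∈ Icc 1 m, (b ^ u (j - 1)) ^ 2 * lm j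
      ≤ 5 / 4 * κ * (16 / 5 * b ^ (u m - 2)) := by
        have := h1.trans (mul_le_mul_of_nonneg_left h2 (by norm_num : (0:ℝ) ≤ 16 / 5))
        gcongr
    _ = _ := by ring

theorem FD.wgt_late (h : FD b κ n a a' p p' u lm) {m : ℕ} (hm : m < n) :
    (|a (m + 1)| + 2) / (nn (F p m) * nn (F p (m + 1))) ≤ b ^ (4 - 2 * u m) := by
  have hb0 := h.b0
  have h1 := h.hA (m + 1) (Finset.mem_Icc.mpr ⟨by omega, by omega⟩)
  rw [h.hW m hm.le, h.hW (m + 1) hm, ← Real.rpow_add hb0, div_le_iff₀ (Real.rpow_pos_of_pos hb0 _),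
    ← Real.rpow_add hb0]
  refine h1.trans ?_
  rw [← Real.rpow_two]
  apply h.E.mono
  have := h.E.dn m hm
  linarith

theorem FD.la_step (h : FD b κ n a a' p p' u lm) {m : ℕ} (hm : m < n) :
    |la p p' (m + 1) - la p p' m| ≤
      |Dw p p' m| * ((|a (m + 1)| + 2) / (nn (F p m) * nn (F p (m + 1)))) +
        κ * lm (m + 1) * nn (F p' m) / nn (F p (m + 1)) := by
  have h1 := lam_step' (a (m + 1)) (a' (m + 1)) (F p m) (F p' m) (h.Wpos hm.le)
  rw [← h.Fsucc hm, ← h.Fsucc' hm] at h1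
  refine h1.trans ?_
  have h2 := h.hd (m + 1) (Finset.mem_Icc.mpr ⟨by omega, by omega⟩)
  have h3 := abs_snd_le (F p' m)
  have h4 := h.Wpos (by omega : m + 1 ≤ n)
  have h5 := nn_nonneg (F p' m)
  have h6 : 0 ≤ κ * lm (m + 1) := mul_nonneg h.hκ (h.Lb.pos _ (by omega))
  apply add_le_add le_rfl
  gcongr

theorem FD.la_late (h : FD b κ n a a' p p' u lm) {m0 : ℕ}
    (hA : ∀ j < m0, nn (F p' j) ≤ 5 / 4 * b ^ u j) {m : ℕ} (hm : m < m0) (hmn : m < n) :
    |la p p' (m + 1) - la p p' m| ≤ 5 * κ * b ^ (1511 / 100 - 9494 / 10000 * u m) := by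
  have hb0 := h.b0
  have hκ := h.hκ
  refine (h.la_step hmn).trans ?_
  have h1 := h.wgt_late hmn
  have h2 := h.D_late hA hm.le hmn.le
  have hu := h.E.nonneg hmn.le
  have t1 : |Dw p p' m| * ((|a (m + 1)| + 2) / (nn (F p m) * nn (F p (m + 1)))) ≤
      5 / 2 * κ * b ^ (1511 / 100 - 9494 / 10000 * u m) := by
    calc |Dw p p' m| * ((|a (m + 1)| + 2) / (nn (F p m) * nn (F p (m + 1))))
        ≤ (5 / 2 * κ * b ^ (1111 / 100 + 10506 / 10000 * u m)) * b ^ (4 - 2 * u m) := by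
          have h9 : 0 ≤ (|a (m + 1)| + 2) / (nn (F p m) * nn (F p (m + 1))) :=
            div_nonneg (by positivity) (mul_nonneg (nn_nonneg _) (nn_nonneg _))
          exact mul_le_mul h2 h1 h9 (by positivity)
      _ = 5 / 2 * κ * b ^ (1511 / 100 - 9494 / 10000 * u m) := by
          rw [mul_assoc, ← Real.rpow_add hb0]
          congr 2
          ring
  have t2 : κ * lm (m + 1) * nn (F p' m) / nn (F p (m + 1)) ≤
      5 / 2 * κ * b ^ (1511 / 100 - 9494 / 10000 * u m) := by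
    have h3 := h.Lb.g (m + 1) hmn
    have h4 := hA m hm
    have h5 := h.Lb.pos (m + 1) hmn
    rw [h.hW (m + 1) hmn, div_le_iff₀ (Real.rpow_pos_of_pos hb0 _)]
    calc κ * lm (m + 1) * nn (F p' m)
        ≤ κ * (2 * b ^ (6 - 97 / 100 * u (m + 1))) * (5 / 4 * b ^ u m) := by
          have := nn_nonneg (F p' m)
          gcongr
      _ = 5 / 2 * κ * b ^ (6 - 97 / 100 * u (m + 1) + u m) := by
          rw [Real.rpow_add hb0]
          ring
      _ ≤ 5 / 2 * κ * b ^ (1511 / 100 - 9494 / 10000 * u m + u (m + 1)) := by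
          have : b ^ (6 - 97 / 100 * u (m + 1) + u m) ≤
              b ^ (1511 / 100 - 9494 / 10000 * u m + u (m + 1)) := by
            apply h.E.mono
            have h6 := h.E.dn m hmn
            have h7 := h.E.v2 m (m + 1) (by omega) hmn
            linarith
          gcongr
      _ = _ := by
          rw [Real.rpow_add hb0]
          ring
  linarith

theorem FD.la_clean (h : FD b κ n a a' p p' u lm) {m0 : ℕ}
    (hA : ∀ j < m0, nn (F p' j) ≤ 5 / 4 * b ^ u j) {m : ℕ} (hm : m < m0) (h30 : m < 30) :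
    |la p p' (m + 1) - la p p' m| ≤ 9 * κ * b ^ (-2 : ℝ) * (b⁻¹) ^ m := by
  have hb0 := h.b0
  have hκ := h.hκ
  have hn := h.E.hn
  have hmn : m < n := by omega
  refine (h.la_step hmn).trans ?_
  have h2 := h.D_clean hA hm.le h30.le
  have hW := h.Wpos hmn.le
  have hW' := h.Wpos (by omega : m + 1 ≤ n)
  have hcl := h.E.cl m (by omega)
  have t1 : |Dw p p' m| * ((|a (m + 1)| + 2) / (nn (F p m) * nn (F p (m + 1)))) ≤
      5 * κ * b ^ (-2 - u m) := by
    have h1 : (|a (m + 1)| + 2) / (nn (F p m) * nn (F p (m + 1))) ≤ 5 / 4 * b ^ (-(2 * u m)) := by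
      have h3 := h.hcs m (by omega)
      have e : b ^ (-(2 * u m)) = 1 / nn (F p m) ^ 2 := by
        rw [Real.rpow_neg hb0.le, ← rsq hb0, ← h.hW m hmn.le, one_div]
      rw [e, mul_one_div, div_le_div_iff₀ (by positivity) (by positivity)]
      nlinarith
    calc |Dw p p' m| * ((|a (m + 1)| + 2) / (nn (F p m) * nn (F p (m + 1))))
        ≤ (4 * κ * b ^ (u m - 2)) * (5 / 4 * b ^ (-(2 * u m))) := by gcongr
      _ = 5 * κ * b ^ (-2 - u m) := by
          have : 4 * κ * b ^ (u m - 2) * (5 / 4 * b ^ (-(2 * u m))) =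
            5 * κ * (b ^ (u m - 2) * b ^ (-(2 * u m))) := by ring
          rw [this, ← Real.rpow_add hb0]
          congr 2
          ring
  have t2 : κ * lm (m + 1) * nn (F p' m) / nn (F p (m + 1)) ≤ 15 / 4 * κ * b ^ (-2 - u m) := by
    have h3 := h.Lb.c (m + 1) (by omega)
    have h4 := hA m hm
    rw [h.hW (m + 1) (by omega), div_le_iff₀ (Real.rpow_pos_of_pos hb0 _)]
    calc κ * lm (m + 1) * nn (F p' m)
        ≤ κ * (3 * b ^ (-u (m + 1))) * (5 / 4 * b ^ u m) := by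
          have := nn_nonneg (F p' m)
          have := h.Lb.pos (m + 1) (by omega)
          gcongr
      _ = 15 / 4 * κ * b ^ (-u (m + 1) + u m) := by
          rw [Real.rpow_add hb0]
          ring
      _ ≤ 15 / 4 * κ * b ^ (-2 - u m + u (m + 1)) := by
          have : b ^ (-u (m + 1) + u m) ≤ b ^ (-2 - u m + u (m + 1)) := by
            apply h.E.mono
            linarith
          gcongr
      _ = _ := by
          rw [Real.rpow_add hb0]
          ring
  have t3 : b ^ (-2 - u m) ≤ b ^ (-2 : ℝ) * (b⁻¹) ^ m := by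
    rw [h.E.pow_inv, ← Real.rpow_add hb0]
    apply h.E.mono
    have := h.E.clean (Nat.zero_le m) (by omega)
    rw [h.E.u0, Nat.sub_zero] at this
    linarith
  have t4 := mul_le_mul_of_nonneg_left t3 hκ
  have t5 : 0 ≤ κ * (b ^ (-2 : ℝ) * (b⁻¹) ^ m) := by positivity
  nlinarith

theorem FD.la_sum_clean (h : FD b κ n a a' p p' u lm) {m0 : ℕ}
    (hA : ∀ j < m0, nn (F p' j) ≤ 5 / 4 * b ^ u j) {m : ℕ} (hm : m ≤ m0) (h30 : m ≤ 30) :
    |la p p' m - 1| ≤ 96 / 10 * κ * b ^ (-2 : ℝ) := by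
  have hb0 := h.b0
  have hκ := h.hκ
  have key : ∀ m ≤ m0, m ≤ 30 → |la p p' m - 1| ≤ ∑ j ∈ range m, 9 * κ * b ^ (-2 : ℝ) * (b⁻¹) ^ j := by
    intro m
    induction m with
    | zero =>
      intro _ _
      rw [h.la_zero]
      simp
    | succ m ih =>
      intro h1 h2
      rw [Finset.sum_range_succ]
      have h3 := ih (by omega) (by omega)
      have h4 := h.la_clean hA (by omega : m < m0) (by omega)
      calc |la p p' (m + 1) - 1| = |(la p p' m - 1) + (la p p' (m + 1) - la p p' m)| := by ring_nf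
        _ ≤ _ := (abs_add_le _ _).trans (add_le_add h3 h4)
  refine (key m hm h30).trans ?_
  rw [← Finset.mul_sum]
  have h5 := geom_le h.E.hb (range m) 0
  simp only [zero_le, Finset.filter_true, Nat.sub_zero] at h5
  calc 9 * κ * b ^ (-2 : ℝ) * ∑ j ∈ range m, (b⁻¹) ^ j ≤ 9 * κ * b ^ (-2 : ℝ) * (16 / 15) := by
        gcongr
    _ = _ := by ring

theorem FD.la_sum_late (h : FD b κ n a a' p p' u lm) {m0 : ℕ}
    (hA : ∀ j < m0, nn (F p' j) ≤ 5 / 4 * b ^ u j) {s m : ℕ} (hsm : s ≤ m) (hm : m ≤ m0) (hmn : m ≤ n)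
    {U : ℝ} (hU : ∀ j, s ≤ j → j < m → U ≤ u j) :
    |la p p' m - la p p' s| ≤ 5 * κ * b ^ (1611 / 100 - 9394 / 10000 * U) := by
  have hb0 := h.b0
  have hκ := h.hκ
  have key : ∀ m, s ≤ m → m ≤ m0 → m ≤ n → (∀ j, s ≤ j → j < m → U ≤ u j) →
      |la p p' m - la p p' s| ≤
        ∑ j ∈ Ico s m, 5 * κ * b ^ (1511 / 100 - 9394 / 10000 * U) * b ^ (-(1 / 100 * u j)) := by
    intro m hsm
    induction m, hsm using Nat.le_induction with
    | base =>
      intro _ _ _
      simp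
    | succ m hsm ih =>
      intro h1 h2 h3
      rw [Finset.sum_Ico_succ_top hsm]
      have h4 := ih (by omega) (by omega) (fun j hj1 hj2 => h3 j hj1 (by omega))
      have h5 := h.la_late hA (by omega : m < m0) (by omega)
      have h6 : 5 * κ * b ^ (1511 / 100 - 9494 / 10000 * u m) ≤
          5 * κ * b ^ (1511 / 100 - 9394 / 10000 * U) * b ^ (-(1 / 100 * u m)) := by
        rw [mul_assoc, mul_assoc, mul_assoc, ← Real.rpow_add hb0]
        have : b ^ (1511 / 100 - 9494 / 10000 * u m) ≤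
            b ^ (1511 / 100 - 9394 / 10000 * U + -(1 / 100 * u m)) := by
          apply h.E.mono
          have := h3 m hsm (by omega)
          linarith
        gcongr
      calc |la p p' (m + 1) - la p p' s|
          = |(la p p' m - la p p' s) + (la p p' (m + 1) - la p p' m)| := by ring_nf
        _ ≤ _ := (abs_add_le _ _).trans (add_le_add h4 (h5.trans h6))
  refine (key m hsm hm hmn hU).trans ?_
  rw [← Finset.mul_sum]
  have g2 := h.E.sum_le (Ico s m) (by
    intro j hj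
    rw [Finset.mem_Ico] at hj
    rw [Finset.mem_range]
    omega)
  calc 5 * κ * b ^ (1511 / 100 - 9394 / 10000 * U) * ∑ j ∈ Ico s m, b ^ (-(1 / 100 * u j))
      ≤ 5 * κ * b ^ (1511 / 100 - 9394 / 10000 * U) * b := by gcongr
    _ = 5 * κ * (b ^ (1511 / 100 - 9394 / 10000 * U) * b ^ (1 : ℝ)) := by
        rw [Real.rpow_one]; ring
    _ = _ := by
        rw [← Real.rpow_add hb0]
        congr 2
        ring

theorem FD.kap (h : FD b κ n a a' p p' u lm) : κ * b ^ (-2 : ℝ) ≤ 1 / 128 := by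
  have hb0 := h.b0
  have h1 := h.hκb
  rw [Real.rpow_neg hb0.le, Real.rpow_two, ← div_eq_mul_inv, div_le_iff₀ (by positivity)]
  linarith

theorem FD.small (h : FD b κ n a a' p p' u lm) {x : ℝ} (hx : x ≤ -3) :
    κ * b ^ x ≤ 1 / 12800 := by
  have hb0 := h.b0
  have h1 : b ^ x ≤ b ^ (-2 : ℝ) * b ^ (-1 : ℝ) := by
    rw [← Real.rpow_add hb0]
    apply h.E.mono
    linarith
  have h2 : b ^ (-1 : ℝ) ≤ 1 / 100 := by
    rw [Real.rpow_neg_one, inv_eq_one_div]
    exact one_div_le_one_div_of_le (by norm_num) h.hb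
  have h3 := h.kap
  have hκ := h.hκ
  have p2 : 0 ≤ b ^ (-2 : ℝ) := by positivity
  calc κ * b ^ x ≤ κ * (b ^ (-2 : ℝ) * b ^ (-1 : ℝ)) := by gcongr
    _ = (κ * b ^ (-2 : ℝ)) * b ^ (-1 : ℝ) := by ring
    _ ≤ 1 / 128 * (1 / 100) := by gcongr
    _ = _ := by norm_num

/-- the two bounds under the induction hypothesis -/
theorem FD.main_step (h : FD b κ n a a' p p' u lm) {m0 : ℕ}
    (hA : ∀ j < m0, nn (F p' j) ≤ 5 / 4 * b ^ u j) {m : ℕ} (hm : m ≤ m0) (hmn : m ≤ n) :
    |la p p' m - 1| ≤ 1 / 12 ∧ |Dw p p' m| ≤ 1 / 32 * nn (F p m) ^ 2 := by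
  have hb0 := h.b0
  have hκ := h.hκ
  have hkap := h.kap
  have hn := h.E.hn
  rcases Nat.lt_or_ge 30 m with h30 | h30
  · constructor
    · have h1 := h.la_sum_clean hA (m := 30) (by omega) le_rfl
      have h2 := h.la_sum_late hA h30.le hm hmn (U := 296 / 10)
        (fun j hj1 hj2 => h.E.big hj1 (by omega))
      have h3 : κ * b ^ (1611 / 100 - 9394 / 10000 * (296 / 10) : ℝ) ≤ 1 / 12800 :=
        h.small (by norm_num)
      calc |la p p' m - 1| = |(la p p' m - la p p' 30) + (la p p' 30 - 1)| := by ring_nf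
        _ ≤ 5 * κ * b ^ (1611 / 100 - 9394 / 10000 * (296 / 10) : ℝ) + 96 / 10 * κ * b ^ (-2 : ℝ) :=
          (abs_add_le _ _).trans (add_le_add h2 h1)
        _ ≤ 1 / 12 := by nlinarith
    · have h1 := h.D_late hA hm hmn
      have hu := h.E.big h30.le hmn
      rw [h.hW m hmn, rsq hb0]
      have h2 : κ * b ^ (1111 / 100 - 9494 / 10000 * u m) ≤ 1 / 12800 := h.small (by linarith)
      have h3 : b ^ (1111 / 100 + 10506 / 10000 * u m) =
          b ^ (1111 / 100 - 9494 / 10000 * u m) * b ^ (2 * u m) := by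
        rw [← Real.rpow_add hb0]
        congr 1
        ring
      rw [h3] at h1
      have h4 : 0 ≤ b ^ (2 * u m) := Real.rpow_nonneg hb0.le _
      calc |Dw p p' m| ≤ 5 / 2 * κ * (b ^ (1111 / 100 - 9494 / 10000 * u m) * b ^ (2 * u m)) := h1
        _ = 5 / 2 * (κ * b ^ (1111 / 100 - 9494 / 10000 * u m)) * b ^ (2 * u m) := by ring
        _ ≤ 5 / 2 * (1 / 12800) * b ^ (2 * u m) := by gcongr
        _ ≤ 1 / 32 * b ^ (2 * u m) := by
          apply mul_le_mul_of_nonneg_right _ h4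
          norm_num
  · constructor
    · have h1 := h.la_sum_clean hA hm h30
      linarith
    · have h1 := h.D_clean hA hm h30
      have hu := h.E.nonneg hmn
      rw [h.hW m hmn, rsq hb0]
      have h3 : b ^ (u m - 2) ≤ b ^ (-2 : ℝ) * b ^ (2 * u m) := by
        rw [← Real.rpow_add hb0]
        apply h.E.mono
        linarith
      have h4 : 0 ≤ b ^ (2 * u m) := Real.rpow_nonneg hb0.le _
      calc |Dw p p' m| ≤ 4 * κ * b ^ (u m - 2) := h1
        _ ≤ 4 * κ * (b ^ (-2 : ℝ) * b ^ (2 * u m)) := by gcongr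
        _ = 4 * (κ * b ^ (-2 : ℝ)) * b ^ (2 * u m) := by ring
        _ ≤ 4 * (1 / 128) * b ^ (2 * u m) := by gcongr
        _ = _ := by norm_num

theorem nn_upper {w z : ℝ × ℝ} (hw : 0 < nn w) {c d : ℝ} (h1 : |lam w z| ≤ c)
    (h2 : |wr w z| ≤ d * nn w ^ 2) : nn z ≤ (c + d) * nn w := by
  have h3 := nn_le_lam w z hw
  have h4 : |wr w z| / nn w ≤ d * nn w := by
    rw [div_le_iff₀ hw]
    linarith [h2, sq (nn w)]
  have h5 := mul_le_mul_of_nonneg_right h1 hw.le
  linarith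

theorem nn_lower (w z : ℝ × ℝ) (hw : 0 < nn w) : |lam w z| * nn w ≤ nn z := by
  have h1 := abs_dt_le z w
  unfold lam
  rw [abs_div, abs_of_pos (by positivity : 0 < nn w ^ 2), div_mul_eq_mul_div, div_le_iff₀ (by positivity)]
  nlinarith

theorem FD.A (h : FD b κ n a a' p p' u lm) : ∀ m ≤ n, nn (F p' m) ≤ 5 / 4 * b ^ u m := by
  intro m
  induction m using Nat.strong_induction_on with
  | _ m ih =>
    intro hmn
    have hA : ∀ j < m, nn (F p' j) ≤ 5 / 4 * b ^ u j := fun j hj => ih j hj (by omega)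
    obtain ⟨h1, h2⟩ := h.main_step hA le_rfl hmn
    have h3 := abs_le.mp h1
    have h4 : |lam (F p m) (F p' m)| ≤ 13 / 12 := by
      have : la p p' m = lam (F p m) (F p' m) := rfl
      rw [← this, abs_le]
      constructor <;> linarith
    have h5 := nn_upper (h.Wpos hmn) h4 h2
    rw [h.hW m hmn] at h5
    have h6 : 0 ≤ b ^ u m := Real.rpow_nonneg h.b0.le _
    nlinarith

/-- **FIELD, uniform part** -/
theorem FD.unif (h : FD b κ n a a' p p' u lm) {m : ℕ} (hm : m ≤ n) :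
    |la p p' m - 1| ≤ 1 / 12 ∧ |Dw p p' m| ≤ 1 / 32 * nn (F p m) ^ 2 :=
  h.main_step (m0 := n) (fun j hj => h.A j hj.le) hm hm

theorem FD.Dl (h : FD b κ n a a' p p' u lm) {m : ℕ} (hm : m ≤ n) :
    |Dw p p' m| ≤ 5 / 2 * κ * b ^ (1111 / 100 + 10506 / 10000 * u m) :=
  h.D_late (m0 := n) (fun j hj => h.A j hj.le) hm hm

/-- **FIELD, late part** -/
theorem FD.late (h : FD b κ n a a' p p' u lm) {s m : ℕ} (hsm : s ≤ m) (hm : m ≤ n)
    {U : ℝ} (hU : ∀ j, s ≤ j → j < m → U ≤ u j) :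
    |la p p' m - la p p' s| ≤ 5 * κ * b ^ (1611 / 100 - 9394 / 10000 * U) :=
  h.la_sum_late (m0 := n) (fun j hj => h.A j hj.le) hsm hm hm hU

/-- two more steps: the digit at `n+1` is the same, the digit at `n+2` differs by at most `κ * lm n` -/
structure FDX (b κ : ℝ) (n : ℕ) (a a' p p' u lm : ℕ → ℝ) : Prop extends FD b κ n a a' p p' u lm where
  e1 : p (n + 2) = a (n + 1) * p (n + 1) - p n
  e2 : p (n + 3) = a (n + 2) * p (n + 2) - p (n + 1)
  e1' : p' (n + 2) = a' (n + 1) * p' (n + 1) - p' n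
  e2' : p' (n + 3) = a' (n + 2) * p' (n + 2) - p' (n + 1)
  q1 : a' (n + 1) = a (n + 1)
  q2 : |a' (n + 2) - a (n + 2)| ≤ κ * lm n
  A1 : |a (n + 1)| + 2 ≤ b ^ 2
  A2 : |a (n + 2)| + 2 ≤ b ^ 2

/-- relative Wronskian -/
noncomputable def et (p p' : ℕ → ℝ) (m : ℕ) : ℝ := |Dw p p' m| / nn (F p m) ^ 2

theorem et_nonneg (p p' : ℕ → ℝ) (m : ℕ) : 0 ≤ et p p' m := by
  unfold et
  positivity

theorem gen_step {w z : ℝ × ℝ} {A A' B δ : ℝ} (hw : 0 < nn w) (hA : |A| + 2 ≤ B) (hB : 1 ≤ B)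
    (hz : nn z ≤ 2 * nn w) (hδ : |A' - A| ≤ δ) :
    |lam (stp A w) (stp A' z) - lam w z| ≤ B ^ 2 * (|wr w z| / nn w ^ 2) + 2 * δ * B ∧
    |wr (stp A w) (stp A' z)| / nn (stp A w) ^ 2 ≤ B ^ 2 * (|wr w z| / nn w ^ 2) + 2 * δ * B ^ 2 := by
  have hw' := nn_pos_stp A w hw
  have h1 : nn w ≤ B * nn (stp A w) := (nn_le_stp A w).trans (mul_le_mul_of_nonneg_right hA hw'.le)
  have hδ0 : 0 ≤ δ := (abs_nonneg _).trans hδ
  have hz2 := abs_snd_le z
  have hnz := nn_nonneg z
  constructor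
  · refine (lam_step' A A' w z hw).trans (add_le_add ?_ ?_)
    · have : (|A| + 2) / (nn w * nn (stp A w)) ≤ B ^ 2 / nn w ^ 2 := by
        rw [div_le_div_iff₀ (by positivity) (by positivity)]
        calc (|A| + 2) * nn w ^ 2 ≤ B * nn w ^ 2 := by gcongr
          _ = B * nn w * nn w := by ring
          _ ≤ B * nn w * (B * nn (stp A w)) := by gcongr
          _ = _ := by ring
      calc |wr w z| * ((|A| + 2) / (nn w * nn (stp A w))) ≤ |wr w z| * (B ^ 2 / nn w ^ 2) := by gcongr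
        _ = _ := by ring
    · rw [div_le_iff₀ hw']
      calc |A' - A| * |z.2| ≤ δ * (2 * nn w) := by
            have : |z.2| ≤ 2 * nn w := hz2.trans hz
            gcongr
        _ ≤ δ * (2 * (B * nn (stp A w))) := by gcongr
        _ = _ := by ring
  · rw [wr_stp', div_le_iff₀ (by positivity)]
    have h3 : nn w ^ 2 ≤ B ^ 2 * nn (stp A w) ^ 2 := by
      rw [← mul_pow]
      exact pow_le_pow_left₀ hw.le h1 2
    have h4 := abs_snd_le w
    have h5 : |wr w z + (A' - A) * w.2 * z.2| ≤ |wr w z| + δ * nn w * (2 * nn w) := by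
      refine (abs_add_le _ _).trans ?_
      rw [abs_mul, abs_mul]
      have : |z.2| ≤ 2 * nn w := hz2.trans hz
      gcongr
    have h6 : |wr w z| = |wr w z| / nn w ^ 2 * nn w ^ 2 := by
      field_simp
    calc |wr w z + (A' - A) * w.2 * z.2| ≤ |wr w z| + δ * nn w * (2 * nn w) := h5
      _ = (|wr w z| / nn w ^ 2 + 2 * δ) * nn w ^ 2 := by
          rw [add_mul, ← h6]
          ring
      _ ≤ (|wr w z| / nn w ^ 2 + 2 * δ) * (B ^ 2 * nn (stp A w) ^ 2) := by gcongr
      _ = _ := by ring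

theorem FD.et_le (h : FD b κ n a a' p p' u lm) {m : ℕ} (hm : m ≤ n) :
    et p p' m ≤ 5 / 2 * (κ * b ^ (1111 / 100 - 9494 / 10000 * u m)) := by
  have hb0 := h.b0
  have h1 := h.Dl hm
  unfold et
  rw [div_le_iff₀ (by have := h.Wpos hm; positivity), h.hW m hm, rsq hb0]
  have h3 : b ^ (1111 / 100 + 10506 / 10000 * u m) =
      b ^ (1111 / 100 - 9494 / 10000 * u m) * b ^ (2 * u m) := by
    rw [← Real.rpow_add hb0]
    congr 1
    ring
  rw [h3] at h1
  linarith



theorem FDX.F1 (X : FDX b κ n a a' p p' u lm) : F p (n + 1) = stp (a (n + 1)) (F p n) := by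
  unfold F stp; ext; rfl; exact X.e1

theorem FDX.F2 (X : FDX b κ n a a' p p' u lm) : F p (n + 2) = stp (a (n + 2)) (F p (n + 1)) := by
  unfold F stp; ext; rfl; exact X.e2

theorem FDX.F1' (X : FDX b κ n a a' p p' u lm) : F p' (n + 1) = stp (a' (n + 1)) (F p' n) := by
  unfold F stp; ext; rfl; exact X.e1'

theorem FDX.F2' (X : FDX b κ n a a' p p' u lm) : F p' (n + 2) = stp (a' (n + 2)) (F p' (n + 1)) := by
  unfold F stp; ext; rfl; exact X.e2'

theorem FDX.pos (X : FDX b κ n a a' p p' u lm) : ∀ m ≤ n + 2, 0 < nn (F p m) := by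
  intro m hm
  have h0 := X.toFD.Wpos le_rfl
  have h1 : 0 < nn (F p (n + 1)) := by rw [X.F1]; exact nn_pos_stp _ _ h0
  have h2 : 0 < nn (F p (n + 2)) := by rw [X.F2]; exact nn_pos_stp _ _ h1
  rcases Nat.lt_or_ge n m with h | h
  · rcases Nat.lt_or_ge (n + 1) m with h' | h'
    · have e : m = n + 2 := by omega
      rw [e]; exact h2
    · have e : m = n + 1 := by omega
      rw [e]; exact h1
  · exact X.toFD.Wpos h

/-- size of the perturbation at the end -/
noncomputable def Gn (b κ : ℝ) (n : ℕ) (u : ℕ → ℝ) : ℝ := κ * b ^ (1911 / 100 - 9494 / 10000 * u n)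

theorem FDX.Gn_small (X : FDX b κ n a a' p p' u lm) : Gn b κ n u ≤ 1 / 12800 := by
  have hn := X.E.hn
  have := X.E.big (by omega : 30 ≤ n) le_rfl
  exact X.toFD.small (by linarith)

theorem FDX.Gn_nonneg (X : FDX b κ n a a' p p' u lm) : 0 ≤ Gn b κ n u := by
  have := X.hκ
  have := X.toFD.b0
  unfold Gn
  positivity

theorem FDX.ext (X : FDX b κ n a a' p p' u lm) :
    (b ^ 4 * et p p' n ≤ 5 / 2 * Gn b κ n u) ∧
    (|la p p' (n + 1) - la p p' n| ≤ 3 * Gn b κ n u ∧ et p p' (n + 1) ≤ 3 * Gn b κ n u) ∧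
    (|la p p' (n + 2) - la p p' (n + 1)| ≤ 7 * Gn b κ n u ∧ et p p' (n + 2) ≤ 7 * Gn b κ n u) := by
  have h := X.toFD
  have hb0 := h.b0
  have hb1 : (1:ℝ) ≤ b ^ 2 := one_le_pow₀ (by linarith [h.hb])
  have hκ := h.hκ
  have hn := h.E.hn
  have hbig := h.E.big (by omega : 30 ≤ n) le_rfl
  have hG := X.Gn_small
  have hG0 := X.Gn_nonneg
  have hun := h.unif (m := n) le_rfl
  have het := h.et_le (m := n) le_rfl
  have b4 : b ^ 4 = b ^ (4 : ℝ) := by exact_mod_cast (Real.rpow_natCast b 4).symm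
  have b8 : b ^ 8 = b ^ (8 : ℝ) := by exact_mod_cast (Real.rpow_natCast b 8).symm
  have hW := h.Wpos (m := n) le_rfl
  -- et at n
  have g4 : b ^ 4 * et p p' n ≤ 5 / 2 * (κ * b ^ (1511 / 100 - 9494 / 10000 * u n)) := by
    calc b ^ 4 * et p p' n ≤ b ^ 4 * (5 / 2 * (κ * b ^ (1111 / 100 - 9494 / 10000 * u n))) := by gcongr
      _ = 5 / 2 * (κ * (b ^ (4:ℝ) * b ^ (1111 / 100 - 9494 / 10000 * u n))) := by rw [b4]; ring
      _ = _ := by
        rw [← Real.rpow_add hb0]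
        congr 3
        ring
  have g4' : 5 / 2 * (κ * b ^ (1511 / 100 - 9494 / 10000 * u n)) ≤ 5 / 2 * Gn b κ n u := by
    unfold Gn
    have : b ^ (1511 / 100 - 9494 / 10000 * u n) ≤ b ^ (1911 / 100 - 9494 / 10000 * u n) :=
      h.E.mono (by linarith)
    gcongr
  have g8 : b ^ 8 * et p p' n ≤ 5 / 2 * Gn b κ n u := by
    unfold Gn
    calc b ^ 8 * et p p' n ≤ b ^ 8 * (5 / 2 * (κ * b ^ (1111 / 100 - 9494 / 10000 * u n))) := by gcongr
      _ = 5 / 2 * (κ * (b ^ (8:ℝ) * b ^ (1111 / 100 - 9494 / 10000 * u n))) := by rw [b8]; ring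
      _ = _ := by
        rw [← Real.rpow_add hb0]
        congr 3
        ring
  have hlm := h.Lb.g n le_rfl
  have hlm0 := h.Lb.pos n le_rfl
  have gd : 2 * (κ * lm n) * (b ^ 2) ^ 2 ≤ 4 * Gn b κ n u := by
    have e : (b ^ 2) ^ 2 = b ^ (4:ℝ) := by rw [← pow_mul]; exact b4
    rw [e]
    unfold Gn
    calc 2 * (κ * lm n) * b ^ (4:ℝ) ≤ 2 * (κ * (2 * b ^ (6 - 97 / 100 * u n))) * b ^ (4:ℝ) := by gcongr
      _ = 4 * (κ * (b ^ (6 - 97 / 100 * u n) * b ^ (4:ℝ))) := by ring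
      _ ≤ _ := by
        have : b ^ (6 - 97 / 100 * u n) * b ^ (4:ℝ) ≤ b ^ (1911 / 100 - 9494 / 10000 * u n) := by
          rw [← Real.rpow_add hb0]
          apply h.E.mono
          linarith
        gcongr
  -- first step
  have hz0 : nn (F p' n) ≤ 2 * nn (F p n) := by
    have := h.A n le_rfl
    rw [← h.hW n le_rfl] at this
    linarith
  have s1 := gen_step (w := F p n) (z := F p' n) (A := a (n + 1)) (A' := a' (n + 1)) (B := b ^ 2)
    (δ := 0) hW X.A1 hb1 hz0 (by rw [X.q1]; simp)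
  rw [← X.F1, ← X.F1'] at s1
  have s1a : |la p p' (n + 1) - la p p' n| ≤ b ^ 4 * et p p' n := by
    have e : (b ^ 2) ^ 2 = b ^ 4 := by ring
    have := s1.1
    rw [e] at this
    unfold la et Dw
    linarith
  have s1b : et p p' (n + 1) ≤ b ^ 4 * et p p' n := by
    have e : (b ^ 2) ^ 2 = b ^ 4 := by ring
    have := s1.2
    rw [e] at this
    unfold et Dw
    linarith
  have s1a' : |la p p' (n + 1) - la p p' n| ≤ 3 * Gn b κ n u := by linarith
  have s1b' : et p p' (n + 1) ≤ 3 * Gn b κ n u := by linarith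
  -- the field at n+1
  have hW1 := X.pos (n + 1) (by omega)
  have hz1 : nn (F p' (n + 1)) ≤ 2 * nn (F p (n + 1)) := by
    have h1 := abs_le.mp hun.1
    have h2 := abs_le.mp s1a'
    have h3 : |lam (F p (n + 1)) (F p' (n + 1))| ≤ 5 / 4 := by
      have : la p p' (n + 1) = lam (F p (n + 1)) (F p' (n + 1)) := rfl
      rw [← this, abs_le]
      constructor <;> linarith
    have h4 : |wr (F p (n + 1)) (F p' (n + 1))| ≤ 1 / 4 * nn (F p (n + 1)) ^ 2 := by
      have h5 : |Dw p p' (n + 1)| / nn (F p (n + 1)) ^ 2 ≤ 1 / 4 := by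
        have : et p p' (n + 1) = |Dw p p' (n + 1)| / nn (F p (n + 1)) ^ 2 := rfl
        rw [← this]
        linarith
      rw [div_le_iff₀ (by positivity)] at h5
      exact h5
    have := nn_upper hW1 h3 h4
    linarith
  have s2 := gen_step (w := F p (n + 1)) (z := F p' (n + 1)) (A := a (n + 2)) (A' := a' (n + 2))
    (B := b ^ 2) (δ := κ * lm n) hW1 X.A2 hb1 hz1 X.q2
  rw [← X.F2, ← X.F2'] at s2
  have hB2 : 2 * (κ * lm n) * b ^ 2 ≤ 2 * (κ * lm n) * (b ^ 2) ^ 2 := by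
    have : b ^ 2 ≤ (b ^ 2) ^ 2 := by nlinarith
    gcongr
  have t1 : (b ^ 2) ^ 2 * et p p' (n + 1) ≤ 5 / 2 * Gn b κ n u := by
    calc (b ^ 2) ^ 2 * et p p' (n + 1) ≤ (b ^ 2) ^ 2 * (b ^ 4 * et p p' n) := by gcongr
      _ = b ^ 8 * et p p' n := by ring
      _ ≤ _ := g8
  have t1' : (b ^ 2) ^ 2 * (|wr (F p (n + 1)) (F p' (n + 1))| / nn (F p (n + 1)) ^ 2) ≤
      5 / 2 * Gn b κ n u := t1
  refine ⟨g4.trans g4', ⟨s1a', s1b'⟩, ?_, ?_⟩
  · have := s2.1
    unfold la
    linarith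
  · have := s2.2
    unfold et Dw
    linarith

theorem FDX.all (X : FDX b κ n a a' p p' u lm) {m : ℕ} (hm : m ≤ n + 2) :
    |la p p' m - 1| ≤ 1 / 8 ∧ et p p' m ≤ 1 / 32 := by
  have h := X.toFD
  obtain ⟨-, ⟨h1, h2⟩, h3, h4⟩ := X.ext
  have hG := X.Gn_small
  have hG0 := X.Gn_nonneg
  have hun := abs_le.mp (h.unif (m := n) le_rfl).1
  rcases Nat.lt_or_ge n m with hc | hc
  · rcases Nat.lt_or_ge (n + 1) m with h' | h'
    · have e : m = n + 2 := by omega
      subst e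
      have a1 := abs_le.mp h1
      have a3 := abs_le.mp h3
      refine ⟨?_, by linarith⟩
      rw [abs_le]
      constructor <;> linarith
    · have e : m = n + 1 := by omega
      subst e
      have a1 := abs_le.mp h1
      refine ⟨?_, by linarith⟩
      rw [abs_le]
      constructor <;> linarith
  · have h5 := h.unif hc
    refine ⟨h5.1.trans (by norm_num), ?_⟩
    unfold et
    rw [div_le_iff₀ (by have := h.Wpos hc; positivity)]
    exact h5.2

theorem W_bounds {w z : ℝ × ℝ} (hw : 0 < nn w) {e : ℝ} (h1 : |lam w z - 1| ≤ 1 / 8)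
    (h2 : |wr w z| / nn w ^ 2 ≤ e) :
    lam w z * nn w ≤ nn z ∧ nn z ≤ (lam w z + e) * nn w := by
  have h3 := abs_le.mp h1
  have h4 : |lam w z| = lam w z := abs_of_pos (by linarith)
  constructor
  · have := nn_lower w z hw
    rwa [h4] at this
  · apply nn_upper hw (le_of_eq h4)
    rwa [div_le_iff₀ (by positivity)] at h2

/-- **(F1)** -/
theorem FDX.F_one (X : FDX b κ n a a' p p' u lm) {m : ℕ} (hm : m ≤ n + 2) :
    nn (F p m) ≤ 2 * nn (F p' m) ∧ nn (F p' m) ≤ 2 * nn (F p m) := by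
  obtain ⟨h1, h2⟩ := X.all hm
  have hw := X.pos m hm
  obtain ⟨h3, h4⟩ := W_bounds (w := F p m) (z := F p' m) hw h1 h2
  have h5 := abs_le.mp h1
  have e : la p p' m = lam (F p m) (F p' m) := rfl
  rw [e] at h5
  constructor
  · nlinarith
  · nlinarith

theorem FDX.near (X : FDX b κ n a a' p p' u lm) {m : ℕ} (hm : m ≤ n + 2) {U : ℝ} (hU0 : 0 ≤ U)
    (hU : b ^ U ≤ nn (F p m)) :
    |la p p' m - la p p' n| ≤ 10 * κ * b ^ (23 - 93 / 100 * U) ∧
      et p p' m ≤ 10 * κ * b ^ (23 - 93 / 100 * U) := by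
  have h := X.toFD
  have hb0 := h.b0
  have hb1 : (1:ℝ) < b := by linarith [h.hb]
  have hκ := h.hκ
  obtain ⟨-, ⟨h1, h2⟩, h3, h4⟩ := X.ext
  have hG0 := X.Gn_nonneg
  have hQ0 : 0 ≤ κ * b ^ (23 - 93 / 100 * U) := by positivity
  rcases Nat.lt_or_ge n m with hc | hc
  · -- beyond n
    have key : ∀ c : ℝ, c ≤ 4 → b ^ U ≤ b ^ (c + u n) → Gn b κ n u ≤ κ * b ^ (23 - 93 / 100 * U) := by
      intro c hc4 hle
      have h5 := (Real.rpow_le_rpow_left_iff hb1).mp hle
      unfold Gn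
      have : b ^ (1911 / 100 - 9494 / 10000 * u n) ≤ b ^ (23 - 93 / 100 * U) := by
        apply h.E.mono
        linarith
      gcongr
    have w1 : nn (F p (n + 1)) ≤ b ^ (2 + u n) := by
      rw [X.F1, Real.rpow_add hb0, ← h.hW n le_rfl, Real.rpow_two]
      exact (nn_stp_le _ _).trans (mul_le_mul_of_nonneg_right X.A1 (nn_nonneg _))
    have w2 : nn (F p (n + 2)) ≤ b ^ (4 + u n) := by
      rw [X.F2]
      calc nn (stp (a (n + 2)) (F p (n + 1))) ≤ (|a (n + 2)| + 2) * nn (F p (n + 1)) := nn_stp_le _ _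
        _ ≤ b ^ (2:ℝ) * b ^ (2 + u n) := by
          rw [Real.rpow_two]
          exact mul_le_mul X.A2 w1 (nn_nonneg _) (by positivity)
        _ = b ^ (4 + u n) := by
          rw [← Real.rpow_add hb0]
          congr 1
          ring
    rcases Nat.lt_or_ge (n + 1) m with h' | h'
    · have e : m = n + 2 := by omega
      subst e
      have hG := key 4 le_rfl (hU.trans w2)
      have a1 := abs_le.mp h1
      have a3 := abs_le.mp h3
      constructor
      · rw [abs_le]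
        constructor <;> linarith
      · linarith
    · have e : m = n + 1 := by omega
      subst e
      have hG := key 2 (by norm_num) (hU.trans w1)
      constructor <;> linarith
  · have hUm : U ≤ u m := by
      rw [h.hW m hc] at hU
      exact (Real.rpow_le_rpow_left_iff hb1).mp hU
    constructor
    · have h5 := h.late hc le_rfl (U := 99 / 100 * U - 1 / 10) (by
        intro j hj1 hj2
        have := h.E.v2 m j hj1 hj2.le
        linarith)
      rw [abs_sub_comm]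
      refine h5.trans ?_
      have : b ^ (1611 / 100 - 9394 / 10000 * (99 / 100 * U - 1 / 10)) ≤ b ^ (23 - 93 / 100 * U) := by
        apply h.E.mono
        nlinarith
      have := mul_le_mul_of_nonneg_left this hκ
      linarith
    · have h5 := h.et_le hc
      refine h5.trans ?_
      have : b ^ (1111 / 100 - 9494 / 10000 * u m) ≤ b ^ (23 - 93 / 100 * U) := by
        apply h.E.mono
        nlinarith
      have := mul_le_mul_of_nonneg_left this hκ
      linarith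

/-- **(F2)**: the ratio of the two fields is the same at all late times -/
theorem FDX.F_two (X : FDX b κ n a a' p p' u lm) {j m : ℕ} (hj : j ≤ n + 2) (hm : m ≤ n + 2) {U : ℝ}
    (hUj : b ^ U ≤ nn (F p j)) (hUm : b ^ U ≤ nn (F p m)) :
    |nn (F p' m) * nn (F p j) - nn (F p m) * nn (F p' j)| ≤
      b ^ (40 - 9 / 10 * U) * (nn (F p m) * nn (F p' j)) := by
  have h := X.toFD
  have hb0 := h.b0
  have hb := h.hb
  have hκ := h.hκ
  have wj := X.pos j hj
  have wm := X.pos m hm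
  obtain ⟨f1, f2⟩ := X.F_one hj
  obtain ⟨g1, g2⟩ := X.F_one hm
  have wj' : 0 < nn (F p' j) := by linarith
  rcases lt_or_ge U 0 with hU | hU
  · have h1 : (4:ℝ) ≤ b ^ (40 - 9 / 10 * U) := by
      calc (4:ℝ) ≤ b := by linarith
        _ = b ^ (1:ℝ) := (Real.rpow_one b).symm
        _ ≤ _ := h.E.mono (by linarith)
    have h2 : 0 < nn (F p m) * nn (F p' j) := by positivity
    have h3 : nn (F p' m) * nn (F p j) ≤ 4 * (nn (F p m) * nn (F p' j)) := by
      calc nn (F p' m) * nn (F p j) ≤ (2 * nn (F p m)) * (2 * nn (F p' j)) := by gcongr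
        _ = _ := by ring
    have h4 : 0 ≤ nn (F p' m) * nn (F p j) := mul_nonneg (nn_nonneg _) (nn_nonneg _)
    have h5 : 4 * (nn (F p m) * nn (F p' j)) ≤ b ^ (40 - 9 / 10 * U) * (nn (F p m) * nn (F p' j)) :=
      mul_le_mul_of_nonneg_right h1 h2.le
    rw [abs_le]
    constructor <;> linarith
  · obtain ⟨a1, a2⟩ := X.near hj hU hUj
    obtain ⟨c1, c2⟩ := X.near hm hU hUm
    set Q := 10 * κ * b ^ (23 - 93 / 100 * U) with hQ
    have hQ0 : 0 ≤ Q := by positivity
    obtain ⟨b1, b2⟩ := W_bounds (w := F p j) (z := F p' j) wj (X.all hj).1 a2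
    obtain ⟨d1, d2⟩ := W_bounds (w := F p m) (z := F p' m) wm (X.all hm).1 c2
    have e1 : la p p' j = lam (F p j) (F p' j) := rfl
    have e2 : la p p' m = lam (F p m) (F p' m) := rfl
    rw [← e1] at b1 b2
    rw [← e2] at d1 d2
    have a1' := abs_le.mp a1
    have c1' := abs_le.mp c1
    have hdiff : la p p' m - la p p' j ≤ 2 * Q ∧ -(2 * Q) ≤ la p p' m - la p p' j := by
      constructor <;> linarith
    have hWW : 0 < nn (F p m) * nn (F p j) := by positivity
    have key : |nn (F p' m) * nn (F p j) - nn (F p m) * nn (F p' j)| ≤ 3 * Q * (nn (F p m) * nn (F p j)) := by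
      have u1 : nn (F p' m) * nn (F p j) ≤ (la p p' m + Q) * (nn (F p m) * nn (F p j)) := by
        have := mul_le_mul_of_nonneg_right d2 wj.le
        linarith
      have u2 : la p p' m * (nn (F p m) * nn (F p j)) ≤ nn (F p' m) * nn (F p j) := by
        have := mul_le_mul_of_nonneg_right d1 wj.le
        linarith
      have u3 : nn (F p m) * nn (F p' j) ≤ (la p p' j + Q) * (nn (F p m) * nn (F p j)) := by
        have := mul_le_mul_of_nonneg_left b2 wm.le
        linarith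
      have u4 : la p p' j * (nn (F p m) * nn (F p j)) ≤ nn (F p m) * nn (F p' j) := by
        have := mul_le_mul_of_nonneg_left b1 wm.le
        linarith
      have v1 := mul_le_mul_of_nonneg_right hdiff.1 hWW.le
      have v2 := mul_le_mul_of_nonneg_right hdiff.2 hWW.le
      rw [abs_le]
      constructor <;> nlinarith
    have hfin : 6 * Q ≤ b ^ (40 - 9 / 10 * U) := by
      have h1 := h.hκb
      have h2 : b ^ (23 - 93 / 100 * U) * b ^ 2 ≤ b ^ (40 - 9 / 10 * U) := by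
        rw [← Real.rpow_two, ← Real.rpow_add hb0]
        apply h.E.mono
        linarith
      have h3 : 0 ≤ b ^ (23 - 93 / 100 * U) := by positivity
      calc 6 * Q = 60 * κ * b ^ (23 - 93 / 100 * U) := by rw [hQ]; ring
        _ ≤ b ^ 2 * b ^ (23 - 93 / 100 * U) := by
          apply mul_le_mul_of_nonneg_right _ h3
          linarith
        _ = b ^ (23 - 93 / 100 * U) * b ^ 2 := by ring
        _ ≤ _ := h2
    calc |nn (F p' m) * nn (F p j) - nn (F p m) * nn (F p' j)|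
        ≤ 3 * Q * (nn (F p m) * nn (F p j)) := key
      _ ≤ 3 * Q * (nn (F p m) * (2 * nn (F p' j))) := by gcongr
      _ = 6 * Q * (nn (F p m) * nn (F p' j)) := by ring
      _ ≤ _ := by gcongr

end Crest.Agent.R128.Ratio
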