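import Mathlib
import Crest.Agent.R128.BVP5
import Crest.Agent.R128.ValNum

/-!
Row 128: helper756's `Val`, `ValNum`, `ValGood` with the WEAK TIP condition `W p n ≤ 2 b ^ 2 |p (n+1)|`
(needed for matching at fixed indices, helper105's ratio clock). The proofs are helper756's with the obvious
changes of constants.
-/

set_option autoImplicit false

open Finset

namespace Crest.Agent.R128.ValW

open Crest.Agent.R128.TreeSum Crest.Agent.R128.BVP Crest.Agent.R128.Val

variable {n L : ℕ} {a p q : ℕ → ℝ} {b : ℝ}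

/-- The VALID hypotheses (base `b`; clean up to `L`, no drop below the power `99/100`, time bound with the
exponent `1/400`, tip condition at the end). -/
structure ValidW (b : ℝ) (L n : ℕ) (a p q : ℕ → ℝ) : Prop where
  J : Jac n a p q
  hb : 100 ≤ b
  hL : 35 ≤ L
  hLn : L ≤ n
  hLb : 2 * (L : ℝ) ≤ b
  hA : ∀ m ∈ Icc 1 n, |a m| + 2 ≤ b ^ 2
  hcl : ∀ m ∈ Icc 1 L, 2 * b ≤ |a m|
  V2 : ∀ i j, L ≤ i → i ≤ j → j ≤ n → (N p i) ^ (99 / 100 : ℝ) ≤ N p j
  V3 : ∀ j, L ≤ j → j ≤ n → ∃ i ≤ j, (j : ℝ) ≤ (N p i) ^ (1 / 400 : ℝ)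
  tip : W p n ≤ 2 * b ^ 2 * |p (n + 1)|


theorem ValidW.ratio (V : ValidW b L n a p q) : ∀ m ≤ L, b * |p m| ≤ |p (m + 1)| := by
  intro m
  induction m with
  | zero => intro _; rw [V.J.p0]; simp
  | succ m ih =>
    intro hm
    have h1 := ih (by omega)
    have h2 := V.J.hp m (by have := V.hLn; omega)
    have h3 := V.hcl (m + 1) (Finset.mem_Icc.mpr ⟨by omega, hm⟩)
    have hb := V.hb
    show b * |p (m + 1)| ≤ |p (m + 2)|
    rw [h2]
    have h4 : |a (m + 1)| * |p (m + 1)| - |p m| ≤ |a (m + 1) * p (m + 1) - p m| := by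
      rw [← abs_mul]
      exact abs_sub_abs_le_abs_sub _ _
    have h5 : |p m| ≤ |p (m + 1)| := by
      have := abs_nonneg (p m)
      nlinarith
    have h6 := abs_nonneg (p (m + 1))
    nlinarith

/-- clean step -/
theorem ValidW.cleanstep (V : ValidW b L n a p q) {m : ℕ} (hm : m < L) :
    (|a (m + 1)| + 2) * W p m ≤ 5 / 4 * W p (m + 1) := by
  have h1 := V.ratio m hm.le
  have h2 := V.J.hp m (by have := V.hLn; omega)
  have h3 := V.hcl (m + 1) (Finset.mem_Icc.mpr ⟨by omega, by omega⟩)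
  have hb := V.hb
  have h4 : |a (m + 1)| * |p (m + 1)| - |p m| ≤ |a (m + 1) * p (m + 1) - p m| := by
    rw [← abs_mul]
    exact abs_sub_abs_le_abs_sub _ _
  rw [← h2] at h4
  have h5 : 100 * |p m| ≤ |p (m + 1)| := by
    have := abs_nonneg (p m)
    nlinarith
  have h6 := abs_nonneg (p (m + 1))
  have h7 := W_le_add p m
  have h8 : |p (m + 2)| ≤ W p (m + 1) := abs_succ_le_W p (m + 1)
  have h9 : 0 ≤ |a (m + 1)| := abs_nonneg _
  have h10 : (|a (m + 1)| + 2) * W p m ≤ (|a (m + 1)| + 2) * (101 / 100 * |p (m + 1)|) := by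
    apply mul_le_mul_of_nonneg_left _ (by linarith)
    linarith
  have h11 : 200 * |p (m + 1)| ≤ |a (m + 1)| * |p (m + 1)| := by
    apply mul_le_mul_of_nonneg_right _ h6
    linarith
  nlinarith

theorem ValidW.W_eq (V : ValidW b L n a p q) {m : ℕ} (hm : m ≤ n) : W p m = b ^ ex b p m := by
  have hb := V.hb
  unfold ex
  rw [Real.rpow_logb (by linarith) (by linarith) (W_pos V.J hm)]

theorem ValidW.ex_le (V : ValidW b L n a p q) {i j : ℕ} {x : ℝ} (hi : i ≤ n) (hj : j ≤ n)
    (h : W p i ≤ b ^ x * W p j) : ex b p i ≤ x + ex b p j := by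
  have hb := V.hb
  rw [V.W_eq hi, V.W_eq hj, ← Real.rpow_add (by linarith)] at h
  exact (Real.rpow_le_rpow_left_iff (by linarith)).mp h

theorem ValidW.clean_ex (V : ValidW b L n a p q) {m : ℕ} (hm : m < L) :
    ex b p m + 1 ≤ ex b p (m + 1) := by
  have hb := V.hb
  have hLn := V.hLn
  have h1 := V.cleanstep hm
  have h3 := V.hcl (m + 1) (Finset.mem_Icc.mpr ⟨by omega, by omega⟩)
  have h4 : W p m ≤ b ^ (-1 : ℝ) * W p (m + 1) := by
    have hW := W_nonneg p m
    have h5 : b * W p m ≤ W p (m + 1) := by nlinarith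
    rw [Real.rpow_neg_one, inv_mul_eq_div, le_div_iff₀ (by linarith)]
    linarith
  have := V.ex_le (by omega) (by omega) h4
  linarith

theorem ValidW.ex_zero (V : ValidW b L n a p q) : ex b p 0 = 0 := by
  unfold ex
  rw [W_zero V.J, Real.logb_one]

theorem ValidW.clean_mono (V : ValidW b L n a p q) {i j : ℕ} (hij : i ≤ j) (hj : j ≤ L) :
    ex b p i ≤ ex b p j := by
  induction j, hij using Nat.le_induction with
  | base => exact le_rfl
  | succ j hij ih =>
    have := ih (by omega)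
    have := V.clean_ex (by omega : j < L)
    linarith

theorem ValidW.ex_nonneg_clean (V : ValidW b L n a p q) {m : ℕ} (hm : m ≤ L) : 0 ≤ ex b p m := by
  have := V.clean_mono (Nat.zero_le m) hm
  rwa [V.ex_zero] at this

theorem ValidW.v2 (V : ValidW b L n a p q) : ∀ i j, i ≤ j → j ≤ n →
    99 / 100 * ex b p i - 1 / 10 ≤ ex b p j := by
  have hb := V.hb
  have hb0 : 0 < b := by linarith
  have hLn := V.hLn
  have key : ∀ i j, L ≤ i → i ≤ j → j ≤ n → 99 / 100 * ex b p i - 1 / 10 ≤ ex b p j := by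
    intro i j hi hij hj
    have h1 := V.V2 i j hi hij hj
    have h2 := N_le_W p j
    have h3 := W_le_N p i
    have h4 : (3 / 2 : ℝ) ≤ b ^ (1 / 10 : ℝ) := by
      have h5 : ((3 / 2 : ℝ) ^ (10 : ℕ)) ^ (1 / 10 : ℝ) ≤ b ^ (1 / 10 : ℝ) := by
        apply Real.rpow_le_rpow (by positivity) _ (by norm_num)
        norm_num
        linarith
      have h6 : ((3 / 2 : ℝ) ^ (10 : ℕ)) ^ (1 / 10 : ℝ) = 3 / 2 := by
        rw [← Real.rpow_natCast, ← Real.rpow_mul (by norm_num)]
        norm_num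
      linarith
    have h7 : b ^ (ex b p i - 1 / 10) ≤ N p i := by
      rw [Real.rpow_sub hb0, ← V.W_eq (by omega), div_le_iff₀ (Real.rpow_pos_of_pos hb0 _)]
      calc W p i ≤ 3 / 2 * N p i := h3
        _ ≤ b ^ (1 / 10 : ℝ) * N p i := mul_le_mul_of_nonneg_right h4 (N_nonneg p i)
        _ = _ := mul_comm _ _
    have h8 : (b ^ (ex b p i - 1 / 10)) ^ (99 / 100 : ℝ) ≤ b ^ ex b p j := by
      rw [← V.W_eq hj]
      exact (Real.rpow_le_rpow (Real.rpow_nonneg hb0.le _) h7 (by norm_num)).trans (h1.trans h2)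
    rw [← Real.rpow_mul hb0.le] at h8
    have h9 := (Real.rpow_le_rpow_left_iff (by linarith)).mp h8
    linarith
  intro i j hij hj
  rcases Nat.lt_or_ge i L with hi | hi
  · rcases Nat.lt_or_ge j L with hj' | hj'
    · have := V.clean_mono hij hj'.le
      have := V.ex_nonneg_clean hi.le
      linarith
    · have h1 := key L j le_rfl hj' hj
      have h2 := V.clean_mono hi.le le_rfl
      linarith
  · exact key i j hi hij hj

theorem ValidW.v3 (V : ValidW b L n a p q) :
    ∑ j ∈ range (n + 1), b ^ (-(1 / 100 * ex b p j)) ≤ b := by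
  have hb := V.hb
  have hb0 : 0 < b := by linarith
  have hLn := V.hLn
  have hLb := V.hLb
  have hL := V.hL
  have hpt : ∀ j ∈ range (n + 1), b ^ (-(1 / 100 * ex b p j)) ≤
      (if j < L then 1 else 0) + b * (if L ≤ j then ((j : ℝ) ^ 2)⁻¹ else 0) := by
    intro j hj
    rw [Finset.mem_range] at hj
    rcases Nat.lt_or_ge j L with h | h
    · rw [if_pos h, if_neg (by omega)]
      have h1 := V.ex_nonneg_clean h.le
      have h2 : b ^ (-(1 / 100 * ex b p j)) ≤ 1 :=
        Real.rpow_le_one_of_one_le_of_nonpos (by linarith) (by linarith)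
      linarith
    · rw [if_neg (by omega), if_pos h, zero_add]
      obtain ⟨i, hij, hi⟩ := V.V3 j h (by omega)
      have h1 := V.v2 i j hij (by omega)
      have h2 : (j : ℝ) ≤ b ^ (1 / 400 * ex b p i) := by
        refine hi.trans ?_
        have h3 : (N p i) ^ (1 / 400 : ℝ) ≤ (W p i) ^ (1 / 400 : ℝ) :=
          Real.rpow_le_rpow (N_nonneg p i) (N_le_W p i) (by norm_num)
        refine h3.trans ?_
        rw [V.W_eq (by omega), ← Real.rpow_mul hb0.le]
        apply Real.rpow_le_rpow_of_exponent_le (by linarith)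
        linarith
      have hj0 : (0 : ℝ) < (j : ℝ) := by
        have : 0 < j := by omega
        exact_mod_cast this
      have h4 : (j : ℝ) ^ 2 ≤ b ^ (1 / 200 * ex b p i) := by
        have h5 : (j : ℝ) ^ 2 ≤ (b ^ (1 / 400 * ex b p i)) ^ 2 := pow_le_pow_left₀ hj0.le h2 2
        refine h5.trans ?_
        rw [← Real.rpow_natCast, ← Real.rpow_mul hb0.le]
        apply Real.rpow_le_rpow_of_exponent_le (by linarith)
        push_cast
        linarith
      have h6 : b ^ (-(1 / 100 * ex b p j)) * (j : ℝ) ^ 2 ≤ b := by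
        calc b ^ (-(1 / 100 * ex b p j)) * (j : ℝ) ^ 2
            ≤ b ^ (-(1 / 100 * ex b p j)) * b ^ (1 / 200 * ex b p i) := by gcongr
          _ = b ^ (-(1 / 100 * ex b p j) + 1 / 200 * ex b p i) := by rw [← Real.rpow_add hb0]
          _ ≤ b ^ (1 : ℝ) := by
            apply Real.rpow_le_rpow_of_exponent_le (by linarith)
            have h7 : 0 ≤ ex b p i := by
              have h8 : (1 : ℝ) ≤ b ^ (1 / 400 * ex b p i) := by
                refine le_trans ?_ h2
                have : 1 ≤ j := by omega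
                exact_mod_cast this
              have h9 : (b : ℝ) ^ (0 : ℝ) ≤ b ^ (1 / 400 * ex b p i) := by
                rw [Real.rpow_zero]; exact h8
              have := (Real.rpow_le_rpow_left_iff (by linarith)).mp h9
              linarith
            linarith
          _ = b := Real.rpow_one b
      rw [← div_eq_mul_inv, le_div_iff₀ (by positivity)]
      exact h6
  refine (Finset.sum_le_sum hpt).trans ?_
  rw [Finset.sum_add_distrib, ← Finset.mul_sum]
  have s1 : ∑ j ∈ range (n + 1), (if j < L then (1 : ℝ) else 0) ≤ L := by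
    rw [← Finset.sum_filter, Finset.sum_const, nsmul_eq_mul, mul_one]
    have : ((range (n + 1)).filter (fun j => j < L)).card ≤ L := by
      calc ((range (n + 1)).filter (fun j => j < L)).card ≤ (range L).card := by
            apply Finset.card_le_card
            intro j hj
            rw [Finset.mem_filter] at hj
            rw [Finset.mem_range]
            exact hj.2
        _ = L := Finset.card_range L
    exact_mod_cast this
  have s2 : ∑ j ∈ range (n + 1), (if L ≤ j then ((j : ℝ) ^ 2)⁻¹ else 0) ≤ 1 / 2 := by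
    rw [← Finset.sum_filter]
    have h1 : (range (n + 1)).filter (fun j => L ≤ j) = Ioo (L - 1) (n + 1) := by
      ext j
      simp only [Finset.mem_filter, Finset.mem_range, Finset.mem_Ioo]
      omega
    rw [h1]
    have h2 := sum_Ioo_inv_sq_le (α := ℝ) (L - 1) (n + 1)
    refine h2.trans ?_
    rw [div_le_div_iff₀ (by positivity) (by norm_num)]
    have : (35 : ℝ) ≤ (L : ℝ) := by exact_mod_cast hL
    have h3 : ((L - 1 : ℕ) : ℝ) = (L : ℝ) - 1 := by
      rw [Nat.cast_sub (by omega)]; simp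
    rw [h3]
    linarith
  nlinarith

theorem ValidW.expo (V : ValidW b L n a p q) : Expo b n (ex b p) where
  hb := by linarith [V.hb]
  hn := V.hL.trans V.hLn
  u0 := V.ex_zero
  up := by
    intro m hm
    have hb := V.hb
    have h1 := W_succ_le V.J hm
    have h2 := V.hA (m + 1) (Finset.mem_Icc.mpr ⟨by omega, by omega⟩)
    have h3 : W p (m + 1) ≤ b ^ (2 : ℝ) * W p m := by
      rw [Real.rpow_two]
      exact h1.trans (mul_le_mul_of_nonneg_right h2 (W_nonneg p m))
    have := V.ex_le (by omega) (by omega) h3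
    linarith
  dn := by
    intro m hm
    have hb := V.hb
    have h1 := W_le_succ V.J hm
    have h2 := V.hA (m + 1) (Finset.mem_Icc.mpr ⟨by omega, by omega⟩)
    have h3 : W p m ≤ b ^ (2 : ℝ) * W p (m + 1) := by
      rw [Real.rpow_two]
      exact h1.trans (mul_le_mul_of_nonneg_right h2 (W_nonneg p (m + 1)))
    have := V.ex_le (by omega) (by omega) h3
    linarith
  cl := fun m hm => V.clean_ex (lt_of_lt_of_le hm V.hL)
  v2 := V.v2
  v3 := V.v3

theorem ValidW.Dpos (V : ValidW b L n a p q) : 0 < |p (n + 1)| := abs_pos.mpr V.J.W0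

theorem ValidW.Dge (V : ValidW b L n a p q) : W p n ≤ 2 * b ^ 2 * |p (n + 1)| := V.tip

/-- the raw bound for `lw` -/
theorem ValidW.lw_le (V : ValidW b L n a p q) {m : ℕ} (hm : m ≤ n) :
    lw n p q m ≤ 1 / W p m + W p m * (wtt a p m n + 2 * b ^ 2 / W p n ^ 2) := by
  have hD := V.Dpos
  have hWm := W_pos V.J hm
  have hWn := W_pos V.J le_rfl
  have h1 := W_q_le V.J hm
  unfold lw
  rw [div_le_iff₀ hD]
  have h2 : 1 / W p n ≤ 2 * b ^ 2 / W p n ^ 2 * |p (n + 1)| := by
    rw [div_mul_eq_mul_div, div_le_div_iff₀ hWn (by positivity)]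
    have := V.Dge
    nlinarith
  calc W q m ≤ |p (n + 1)| / W p m + W p m * (|p (n + 1)| * wtt a p m n + 1 / W p n) := h1
    _ ≤ |p (n + 1)| / W p m + W p m * (|p (n + 1)| * wtt a p m n + 2 * b ^ 2 / W p n ^ 2 * |p (n + 1)|) := by
        gcongr
    _ = _ := by ring

theorem ValidW.one_div_le_lw (V : ValidW b L n a p q) {m : ℕ} (hm : m ≤ n) :
    1 / W p m ≤ lw n p q m := by
  unfold lw
  rw [div_le_div_iff₀ (W_pos V.J hm) V.Dpos]
  have := le_W_mul V.J hm
  linarith

theorem ValidW.term_le (V : ValidW b L n a p q) {j : ℕ} (hj : j < n) :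
    (|a (j + 1)| + 2) / (W p j * W p (j + 1)) ≤ b ^ (4 - 2 * ex b p j) := by
  have hb := V.hb
  have hb0 : 0 < b := by linarith
  have h1 := W_le_succ V.J hj
  have h2 := V.hA (j + 1) (Finset.mem_Icc.mpr ⟨by omega, by omega⟩)
  have hWj := W_pos V.J hj.le
  have hWj' := W_pos V.J (by omega : j + 1 ≤ n)
  have h3 : 0 ≤ |a (j + 1)| := abs_nonneg _
  have h4 : W p j ≤ b ^ 2 * W p (j + 1) := h1.trans (mul_le_mul_of_nonneg_right h2 hWj'.le)
  have h5 : b ^ (4 - 2 * ex b p j) = b ^ 4 / W p j ^ 2 := by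
    rw [Real.rpow_sub hb0, V.W_eq hj.le]
    congr 1
    · exact_mod_cast Real.rpow_natCast b 4
    · rw [← Real.rpow_natCast (b ^ ex b p j) 2, ← Real.rpow_mul hb0.le]
      congr 1
      push_cast
      ring
  rw [h5, div_le_div_iff₀ (by positivity) (by positivity)]
  calc (|a (j + 1)| + 2) * W p j ^ 2 ≤ b ^ 2 * (W p j * (b ^ 2 * W p (j + 1))) := by
        rw [sq (W p j)]
        gcongr
    _ = b ^ 4 * (W p j * W p (j + 1)) := by ring

theorem ValidW.lamB (V : ValidW b L n a p q) : LamB b n (ex b p) (lw n p q) where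
  pos := fun m hm => div_nonneg (W_nonneg q m) (abs_nonneg _)
  c := by
    intro m hm
    have hb := V.hb
    have hb0 : 0 < b := by linarith
    have E := V.expo
    have hL := V.hL
    have hLn := V.hLn
    have h1 := V.lw_le (by omega : m ≤ n)
    have hWm := W_pos V.J (by omega : m ≤ n)
    have hum := E.ub (by omega : m ≤ n)
    have hum60 : ex b p m ≤ 60 := by
      have : (m : ℝ) ≤ 30 := by exact_mod_cast hm
      linarith
    have h35 : ex b p m + 5 ≤ ex b p 35 := by
      have h2 := E.clean (by omega : m ≤ 35) le_rfl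
      have h3 : (5 : ℝ) ≤ ((35 - m : ℕ) : ℝ) := by
        have : 5 ≤ 35 - m := by omega
        exact_mod_cast this
      linarith
    have hWsq : ∀ x : ℝ, (b ^ x) ^ 2 = b ^ (2 * x) := by
      intro x
      rw [← Real.rpow_natCast (b ^ x) 2, ← Real.rpow_mul hb0.le]
      congr 1
      push_cast
      ring
    -- the weight sum
    have hw : W p m ^ 2 * wtt a p m n ≤ 5 / 4 * (16 / 15) + 1 / 16 := by
      have hpt : ∀ j ∈ Ico m n, W p m ^ 2 * ((|a (j + 1)| + 2) / (W p j * W p (j + 1))) ≤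
          5 / 4 * (if m ≤ j then (b⁻¹) ^ (j - m) else 0) +
            b ^ (-2 : ℝ) * b ^ (-(1 / 100 * ex b p j)) := by
        intro j hj
        rw [Finset.mem_Ico] at hj
        rw [if_pos hj.1]
        have hWj := W_pos V.J hj.2.le
        have hWj' := W_pos V.J (by omega : j + 1 ≤ n)
        rcases Nat.lt_or_ge j 35 with h | h
        · have h2 := V.cleanstep (by omega : j < L)
          have h3 : (|a (j + 1)| + 2) / (W p j * W p (j + 1)) ≤ 5 / 4 / W p j ^ 2 := by
            rw [div_le_div_iff₀ (by positivity) (by positivity)]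
            nlinarith
          have h4 : W p m ^ 2 * (5 / 4 / W p j ^ 2) = 5 / 4 * b ^ (2 * ex b p m - 2 * ex b p j) := by
            rw [Real.rpow_sub hb0, ← hWsq, ← hWsq, ← V.W_eq (by omega), ← V.W_eq (by omega)]
            ring
          have h5 : b ^ (2 * ex b p m - 2 * ex b p j) ≤ (b⁻¹) ^ (j - m) := by
            rw [E.pow_inv]
            apply E.mono
            have h6 := E.clean hj.1 h.le
            have h7 : (0 : ℝ) ≤ ((j - m : ℕ) : ℝ) := Nat.cast_nonneg _
            linarith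
          calc W p m ^ 2 * ((|a (j + 1)| + 2) / (W p j * W p (j + 1)))
              ≤ W p m ^ 2 * (5 / 4 / W p j ^ 2) := by gcongr
            _ = 5 / 4 * b ^ (2 * ex b p m - 2 * ex b p j) := h4
            _ ≤ 5 / 4 * (b⁻¹) ^ (j - m) := by gcongr
            _ ≤ _ := by
              have : 0 ≤ b ^ (-2 : ℝ) * b ^ (-(1 / 100 * ex b p j)) := by positivity
              linarith
        · have h2 := V.term_le hj.2
          have h3 := E.v2 35 j h (by omega)
          have h4 : W p m ^ 2 * b ^ (4 - 2 * ex b p j) ≤ b ^ (-2 : ℝ) * b ^ (-(1 / 100 * ex b p j)) := by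
            rw [V.W_eq (by omega), hWsq, ← Real.rpow_add hb0, ← Real.rpow_add hb0]
            apply E.mono
            linarith
          calc W p m ^ 2 * ((|a (j + 1)| + 2) / (W p j * W p (j + 1)))
              ≤ W p m ^ 2 * b ^ (4 - 2 * ex b p j) := by gcongr
            _ ≤ b ^ (-2 : ℝ) * b ^ (-(1 / 100 * ex b p j)) := h4
            _ ≤ _ := by
              have : 0 ≤ 5 / 4 * (b⁻¹) ^ (j - m) := by positivity
              linarith
      unfold wtt
      rw [Finset.mul_sum]
      refine (Finset.sum_le_sum hpt).trans ?_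
      rw [Finset.sum_add_distrib, ← Finset.mul_sum, ← Finset.mul_sum, ← Finset.sum_filter]
      have g1 := geom_le E.hb (Ico m n) m
      have g2 := E.sum_le (Ico m n) (by
        intro j hj
        rw [Finset.mem_Ico] at hj
        rw [Finset.mem_range]
        omega)
      have g3 : b ^ (-2 : ℝ) * b = b ^ (-1 : ℝ) := by
        conv_lhs => rw [← Real.rpow_one b, ← Real.rpow_mul hb0.le, ← Real.rpow_add hb0]
        norm_num
      have g4 : b ^ (-1 : ℝ) ≤ (1 / 16) ^ 1 := E.small (by norm_num)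
      have p2 : 0 ≤ b ^ (-2 : ℝ) := by positivity
      nlinarith [mul_le_mul_of_nonneg_left g2 p2]
    have hn2 : W p m ^ 2 * (2 * b ^ 2 / W p n ^ 2) ≤ 1 / 16 := by
      have h2 := E.v2 35 n (by omega) le_rfl
      have e : W p m ^ 2 * (2 * b ^ 2 / W p n ^ 2) = 2 * b ^ (2 + (2 * ex b p m - 2 * ex b p n)) := by
        rw [Real.rpow_add hb0, Real.rpow_two, Real.rpow_sub hb0, ← hWsq, ← hWsq, ← V.W_eq (by omega),
          ← V.W_eq le_rfl]
        ring
      rw [e]
      have h3 : b ^ (2 + (2 * ex b p m - 2 * ex b p n)) ≤ (1 / 16) ^ 2 := by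
        apply E.small
        push_cast
        linarith
      have h4 : ((1 : ℝ) / 16) ^ 2 = 1 / 256 := by norm_num
      linarith
    have h6 : b ^ (-ex b p m) = 1 / W p m := by
      rw [Real.rpow_neg hb0.le, ← V.W_eq (by omega), one_div]
    rw [h6]
    calc lw n p q m ≤ 1 / W p m + W p m * (wtt a p m n + 2 * b ^ 2 / W p n ^ 2) := h1
      _ = (1 + (W p m ^ 2 * wtt a p m n + W p m ^ 2 * (2 * b ^ 2 / W p n ^ 2))) * (1 / W p m) := by
          field_simp
      _ ≤ 3 * (1 / W p m) := by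
          apply mul_le_mul_of_nonneg_right _ (by positivity)
          linarith
  g := by
    intro m hm
    have hb := V.hb
    have hb0 : 0 < b := by linarith
    have E := V.expo
    have h1 := V.lw_le hm
    have hWm := W_pos V.J hm
    have hu := E.nonneg hm
    have hw : wtt a p m n ≤ b ^ (52 / 10 - 19701 / 10000 * ex b p m) := by
      have hpt : ∀ j ∈ Ico m n, (|a (j + 1)| + 2) / (W p j * W p (j + 1)) ≤
          b ^ (42 / 10 - 19701 / 10000 * ex b p m) * b ^ (-(1 / 100 * ex b p j)) := by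
        intro j hj
        rw [Finset.mem_Ico] at hj
        refine (V.term_le hj.2).trans ?_
        rw [← Real.rpow_add hb0]
        apply E.mono
        have := E.v2 m j hj.1 (by omega)
        linarith
      unfold wtt
      refine (Finset.sum_le_sum hpt).trans ?_
      rw [← Finset.mul_sum]
      have g2 := E.sum_le (Ico m n) (by
        intro j hj
        rw [Finset.mem_Ico] at hj
        rw [Finset.mem_range]
        omega)
      calc b ^ (42 / 10 - 19701 / 10000 * ex b p m) * ∑ j ∈ Ico m n, b ^ (-(1 / 100 * ex b p j))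
          ≤ b ^ (42 / 10 - 19701 / 10000 * ex b p m) * b := by gcongr
        _ = b ^ (42 / 10 - 19701 / 10000 * ex b p m) * b ^ (1 : ℝ) := by rw [Real.rpow_one]
        _ = b ^ (52 / 10 - 19701 / 10000 * ex b p m) := by
          rw [← Real.rpow_add hb0]
          congr 1
          ring
    have t1 : 1 / W p m ≤ 1 / 16 * b ^ (6 - 97 / 100 * ex b p m) := by
      have e : 1 / W p m = b ^ (-ex b p m) := by
        rw [Real.rpow_neg hb0.le, ← V.W_eq hm, one_div]
      have e2 : b ^ (-ex b p m) = b ^ (-1 + (-6 - 3 / 100 * ex b p m + 1)) * b ^ (6 - 97 / 100 * ex b p m) := by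
        rw [← Real.rpow_add hb0]
        congr 1
        ring
      rw [e, e2]
      have h3 : b ^ (-1 + (-6 - 3 / 100 * ex b p m + 1)) ≤ (1 / 16) ^ 1 := by
        apply E.small
        push_cast
        linarith
      rw [pow_one] at h3
      gcongr
    have t2 : W p m * wtt a p m n ≤ b ^ (6 - 97 / 100 * ex b p m) := by
      calc W p m * wtt a p m n ≤ W p m * b ^ (52 / 10 - 19701 / 10000 * ex b p m) := by gcongr
        _ = b ^ (ex b p m + (52 / 10 - 19701 / 10000 * ex b p m)) := by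
          rw [Real.rpow_add hb0, ← V.W_eq hm]
        _ ≤ _ := by
          apply E.mono
          linarith
    have t3 : W p m * (2 * b ^ 2 / W p n ^ 2) ≤ 1 / 8 * b ^ (6 - 97 / 100 * ex b p m) := by
      have h2 := E.v2 m n hm le_rfl
      have e : W p m * (2 * b ^ 2 / W p n ^ 2) = 2 * b ^ (2 + (ex b p m - 2 * ex b p n)) := by
        rw [Real.rpow_add hb0, Real.rpow_two, Real.rpow_sub hb0, ← V.W_eq hm]
        have : b ^ (2 * ex b p n) = W p n ^ 2 := by
          rw [V.W_eq le_rfl, ← Real.rpow_natCast (b ^ ex b p n) 2, ← Real.rpow_mul hb0.le]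
          congr 1
          push_cast
          ring
        rw [this]
        ring
      have e2 : b ^ (2 + (ex b p m - 2 * ex b p n)) =
          b ^ (-4 + 197 / 100 * ex b p m - 2 * ex b p n) * b ^ (6 - 97 / 100 * ex b p m) := by
        rw [← Real.rpow_add hb0]
        congr 1
        ring
      have h3 : b ^ (-4 + 197 / 100 * ex b p m - 2 * ex b p n) ≤ (1 / 16) ^ 1 := by
        apply E.small
        push_cast
        linarith
      rw [pow_one] at h3
      rw [e, e2]
      have p1 : 0 ≤ b ^ (6 - 97 / 100 * ex b p m) := by positivity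
      nlinarith
    calc lw n p q m ≤ 1 / W p m + W p m * (wtt a p m n + 2 * b ^ 2 / W p n ^ 2) := h1
      _ = 1 / W p m + W p m * wtt a p m n + W p m * (2 * b ^ 2 / W p n ^ 2) := by ring
      _ ≤ 2 * b ^ (6 - 97 / 100 * ex b p m) := by
        have p1 : 0 ≤ b ^ (6 - 97 / 100 * ex b p m) := by positivity
        linarith

theorem ValidW.rh_pos (V : ValidW b L n a p q) {m : ℕ} (hm : m ∈ Icc 1 n) : 0 < rh n p m := by
  rw [Finset.mem_Icc] at hm
  exact div_pos (W_pos V.J (by omega)) V.Dpos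

theorem ValidW.lw_pos (V : ValidW b L n a p q) {m : ℕ} (hm : m ≤ n) : 0 < lw n p q m :=
  lt_of_lt_of_le (one_div_pos.mpr (W_pos V.J hm)) (V.one_div_le_lw hm)

theorem ValidW.p_le_rh (V : ValidW b L n a p q) {m : ℕ} (hm : m ∈ Icc 1 n) :
    |p m / p (n + 1)| ≤ rh n p m := by
  rw [Finset.mem_Icc] at hm
  rw [abs_div]
  unfold rh
  have := abs_le_W_pred p hm.1
  have := V.Dpos
  gcongr

theorem ValidW.q_le_lw (V : ValidW b L n a p q) (m : ℕ) :
    |q m / p (n + 1)| ≤ lw n p q m := by
  rw [abs_div]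
  unfold lw
  have := abs_le_W q m
  have := V.Dpos
  gcongr

theorem ValidW.K_left (V : ValidW b L n a p q) {m j : ℕ} (h : j ≤ m) :
    |K n p q m j| ≤ lw n p q m * |p j| := by
  unfold K
  rw [if_pos h, mul_div_right_comm, abs_mul]
  exact mul_le_mul_of_nonneg_right (V.q_le_lw m) (abs_nonneg _)

theorem ValidW.K_right (V : ValidW b L n a p q) {m j : ℕ} (h : m < j) :
    |K n p q m j| ≤ |p m| * lw n p q j := by
  unfold K
  rw [if_neg (by omega), mul_div_assoc, abs_mul]
  exact mul_le_mul_of_nonneg_left (V.q_le_lw j) (abs_nonneg _)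

/-- the three sums for a valid segment -/
theorem ValidW.s2 (V : ValidW b L n a p q) :
    ∑ j ∈ Icc 1 n, lw n p q j ^ 2 * W p (j - 1) ≤ 11 / b ^ 2 := by
  have h := sum2 V.expo V.lamB
  have hb0 : 0 < b := V.expo.b0
  have e : b ^ (-2 : ℝ) = 1 / b ^ 2 := by
    rw [Real.rpow_neg hb0.le, Real.rpow_two, one_div]
  rw [e] at h
  have : ∑ j ∈ Icc 1 n, lw n p q j ^ 2 * W p (j - 1) =
      ∑ j ∈ Icc 1 n, lw n p q j ^ 2 * b ^ ex b p (j - 1) := by
    apply Finset.sum_congr rfl
    intro j hj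
    rw [Finset.mem_Icc] at hj
    rw [V.W_eq (by omega)]
  rw [this]
  calc _ ≤ 11 * (1 / b ^ 2) := h
    _ = _ := by ring

theorem ValidW.s3 (V : ValidW b L n a p q) {m : ℕ} (hm : m ∈ Icc 1 n) :
    W p (m - 1) * W p m * ∑ j ∈ Ioc m n, lw n p q j ^ 3 ≤ 1 / b ^ 2 := by
  have h := sum3 V.expo V.lamB hm
  have hb := V.hb
  have hb0 : 0 < b := V.expo.b0
  have e : b ^ (-3 : ℝ) = 1 / b ^ 3 := by
    rw [Real.rpow_neg hb0.le, one_div]
    congr 1
    exact_mod_cast Real.rpow_natCast b 3
  rw [e] at h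
  rw [Finset.mem_Icc] at hm
  rw [V.W_eq (by omega), V.W_eq hm.2]
  refine h.trans ?_
  rw [mul_one_div, div_le_div_iff₀ (by positivity) (by positivity)]
  have : 0 < b ^ 2 := by positivity
  nlinarith

theorem ValidW.s1 (V : ValidW b L n a p q) {m : ℕ} (hm : m ∈ Icc 1 n) :
    lw n p q m * ∑ j ∈ Icc 1 m, W p (j - 1) ^ 2 * lw n p q j ≤ 10 / b ^ 2 * W p (m - 1) := by
  have h := sum1 V.expo V.lamB hm
  have hb0 : 0 < b := V.expo.b0
  rw [Finset.mem_Icc] at hm
  have e : b ^ (-2 : ℝ) = 1 / b ^ 2 := by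
    rw [Real.rpow_neg hb0.le, Real.rpow_two, one_div]
  rw [e, ← V.W_eq (by omega)] at h
  have : ∑ j ∈ Icc 1 m, W p (j - 1) ^ 2 * lw n p q j =
      ∑ j ∈ Icc 1 m, (b ^ ex b p (j - 1)) ^ 2 * lw n p q j := by
    apply Finset.sum_congr rfl
    intro j hj
    rw [Finset.mem_Icc] at hj
    rw [V.W_eq (by omega)]
  rw [this]
  calc _ ≤ 10 * (1 / b ^ 2) * W p (m - 1) := h
    _ = _ := by ring

/-- hypothesis `hsr` -/
theorem ValidW.hsr (V : ValidW b L n a p q) {M ε : ℝ} (hM0 : 0 ≤ M) (hM : 24 * M ≤ ε * b ^ 2)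
    {m : ℕ} (hm : m ∈ Icc 1 n) :
    ∑ j ∈ Icc 1 n, |K n p q m j| * (M * lw n p q j) * rh n p j ≤ ε * rh n p m := by
  have hb0 : 0 < b := V.expo.b0
  have hD := V.Dpos
  have hm' := Finset.mem_Icc.mp hm
  have s1 := V.s1 hm
  have s2 := V.s2
  have hWm := W_nonneg p (m - 1)
  -- pointwise
  have hpt : ∀ j ∈ Icc 1 n, |K n p q m j| * (M * lw n p q j) * rh n p j ≤
      (if j ≤ m then M / |p (n + 1)| * (lw n p q m * (W p (j - 1) ^ 2 * lw n p q j)) else 0) +
        M * rh n p m * (lw n p q j ^ 2 * W p (j - 1)) := by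
    intro j hj
    rw [Finset.mem_Icc] at hj
    have hlj := (V.lw_pos hj.2).le
    have hlm := (V.lw_pos hm'.2).le
    have hrm := (V.rh_pos hm).le
    have hWj := W_nonneg p (j - 1)
    rcases Nat.lt_or_ge m j with h | h
    · rw [if_neg (by omega), zero_add]
      have h1 := V.K_right h
      have h2 := abs_le_W_pred p hm'.1
      calc |K n p q m j| * (M * lw n p q j) * rh n p j
          ≤ (W p (m - 1) * lw n p q j) * (M * lw n p q j) * rh n p j := by
            have hr : 0 ≤ rh n p j := (V.rh_pos (Finset.mem_Icc.mpr hj)).le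
            have : |K n p q m j| ≤ W p (m - 1) * lw n p q j :=
              h1.trans (mul_le_mul_of_nonneg_right h2 hlj)
            gcongr
        _ = M * rh n p m * (lw n p q j ^ 2 * W p (j - 1)) := by
            unfold rh
            ring
    · rw [if_pos h]
      have h1 := V.K_left h
      have h2 := abs_le_W_pred p hj.1
      have h3 : |K n p q m j| * (M * lw n p q j) * rh n p j ≤
          M / |p (n + 1)| * (lw n p q m * (W p (j - 1) ^ 2 * lw n p q j)) := by
        calc |K n p q m j| * (M * lw n p q j) * rh n p j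
            ≤ (lw n p q m * W p (j - 1)) * (M * lw n p q j) * rh n p j := by
              have hr : 0 ≤ rh n p j := (V.rh_pos (Finset.mem_Icc.mpr hj)).le
              have : |K n p q m j| ≤ lw n p q m * W p (j - 1) :=
                h1.trans (mul_le_mul_of_nonneg_left h2 hlm)
              gcongr
          _ = _ := by
              unfold rh
              ring
      have h4 : 0 ≤ M * rh n p m * (lw n p q j ^ 2 * W p (j - 1)) := by positivity
      linarith
  refine (Finset.sum_le_sum hpt).trans ?_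
  rw [Finset.sum_add_distrib, ← Finset.mul_sum, ← Finset.sum_filter]
  have hf : (Icc 1 n).filter (fun j => j ≤ m) = Icc 1 m := by
    ext j
    simp only [Finset.mem_filter, Finset.mem_Icc]
    omega
  rw [hf, ← Finset.mul_sum, ← Finset.mul_sum]
  have hrm := (V.rh_pos hm).le
  have t1 : M / |p (n + 1)| * (lw n p q m * ∑ j ∈ Icc 1 m, W p (j - 1) ^ 2 * lw n p q j) ≤
      10 * M / b ^ 2 * rh n p m := by
    calc M / |p (n + 1)| * (lw n p q m * ∑ j ∈ Icc 1 m, W p (j - 1) ^ 2 * lw n p q j)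
        ≤ M / |p (n + 1)| * (10 / b ^ 2 * W p (m - 1)) := by gcongr
      _ = 10 * M / b ^ 2 * rh n p m := by unfold rh; ring
  have t2 : M * rh n p m * ∑ j ∈ Icc 1 n, lw n p q j ^ 2 * W p (j - 1) ≤
      11 * M / b ^ 2 * rh n p m := by
    calc M * rh n p m * ∑ j ∈ Icc 1 n, lw n p q j ^ 2 * W p (j - 1)
        ≤ M * rh n p m * (11 / b ^ 2) := by gcongr
      _ = _ := by ring
  have t3 : 21 * M / b ^ 2 ≤ ε := by
    rw [div_le_iff₀ (by positivity)]
    linarith
  have t4 := mul_le_mul_of_nonneg_right t3 hrm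
  have t5 : 21 * M / b ^ 2 * rh n p m = 10 * M / b ^ 2 * rh n p m + 11 * M / b ^ 2 * rh n p m := by
    ring
  linarith

/-- hypothesis `hsl` -/
theorem ValidW.hsl (V : ValidW b L n a p q) {M ε : ℝ} (hM0 : 0 ≤ M) (hM : 24 * M ≤ ε * b ^ 2)
    {m : ℕ} (hm : m ∈ Icc 1 n) :
    ∑ j ∈ Icc 1 n, |K n p q m j| * (M * lw n p q j) * lw n p q j ≤ ε * lw n p q m := by
  have hb0 : 0 < b := V.expo.b0
  have hD := V.Dpos
  have hm' := Finset.mem_Icc.mp hm
  have s2 := V.s2
  have s3 := V.s3 hm
  have hWm1 := W_nonneg p (m - 1)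
  have hWm := W_pos V.J hm'.2
  have hlm := (V.lw_pos hm'.2).le
  have hpt : ∀ j ∈ Icc 1 n, |K n p q m j| * (M * lw n p q j) * lw n p q j ≤
      M * lw n p q m * (lw n p q j ^ 2 * W p (j - 1)) +
      (if m < j then M * W p (m - 1) * lw n p q j ^ 3 else 0) := by
    intro j hj
    rw [Finset.mem_Icc] at hj
    have hlj := (V.lw_pos hj.2).le
    have hWj := W_nonneg p (j - 1)
    rcases Nat.lt_or_ge m j with h | h
    · rw [if_pos h]
      have h1 := V.K_right h
      have h2 := abs_le_W_pred p hm'.1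
      have h3 : |K n p q m j| * (M * lw n p q j) * lw n p q j ≤ M * W p (m - 1) * lw n p q j ^ 3 := by
        calc |K n p q m j| * (M * lw n p q j) * lw n p q j
            ≤ (W p (m - 1) * lw n p q j) * (M * lw n p q j) * lw n p q j := by
              have : |K n p q m j| ≤ W p (m - 1) * lw n p q j :=
                h1.trans (mul_le_mul_of_nonneg_right h2 hlj)
              gcongr
          _ = _ := by ring
      have h4 : 0 ≤ M * lw n p q m * (lw n p q j ^ 2 * W p (j - 1)) := by positivity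
      linarith
    · rw [if_neg (by omega), add_zero]
      have h1 := V.K_left h
      have h2 := abs_le_W_pred p hj.1
      calc |K n p q m j| * (M * lw n p q j) * lw n p q j
          ≤ (lw n p q m * W p (j - 1)) * (M * lw n p q j) * lw n p q j := by
            have : |K n p q m j| ≤ lw n p q m * W p (j - 1) :=
              h1.trans (mul_le_mul_of_nonneg_left h2 hlm)
            gcongr
        _ = _ := by ring
  refine (Finset.sum_le_sum hpt).trans ?_
  rw [Finset.sum_add_distrib, ← Finset.mul_sum, ← Finset.sum_filter]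
  have hf : (Icc 1 n).filter (fun j => m < j) = Ioc m n := by
    ext j
    simp only [Finset.mem_filter, Finset.mem_Icc, Finset.mem_Ioc]
    omega
  rw [hf, ← Finset.mul_sum]
  have t1 : M * lw n p q m * ∑ j ∈ Icc 1 n, lw n p q j ^ 2 * W p (j - 1) ≤
      11 * M / b ^ 2 * lw n p q m := by
    calc M * lw n p q m * ∑ j ∈ Icc 1 n, lw n p q j ^ 2 * W p (j - 1)
        ≤ M * lw n p q m * (11 / b ^ 2) := by gcongr
      _ = _ := by ring
  have t2 : M * W p (m - 1) * ∑ j ∈ Ioc m n, lw n p q j ^ 3 ≤ M / b ^ 2 * lw n p q m := by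
    have h1 : W p (m - 1) * ∑ j ∈ Ioc m n, lw n p q j ^ 3 ≤ 1 / b ^ 2 * (1 / W p m) := by
      rw [mul_one_div, le_div_iff₀ hWm]
      calc W p (m - 1) * (∑ j ∈ Ioc m n, lw n p q j ^ 3) * W p m
          = W p (m - 1) * W p m * ∑ j ∈ Ioc m n, lw n p q j ^ 3 := by ring
        _ ≤ _ := s3
    have h2 := V.one_div_le_lw hm'.2
    calc M * W p (m - 1) * ∑ j ∈ Ioc m n, lw n p q j ^ 3
        = M * (W p (m - 1) * ∑ j ∈ Ioc m n, lw n p q j ^ 3) := by ring
      _ ≤ M * (1 / b ^ 2 * (1 / W p m)) := by gcongr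
      _ ≤ M * (1 / b ^ 2 * lw n p q m) := by gcongr
      _ = _ := by ring
  have t3 : 12 * M / b ^ 2 ≤ ε := by
    rw [div_le_iff₀ (by positivity)]
    linarith
  have t4 := mul_le_mul_of_nonneg_right t3 hlm
  have t5 : 12 * M / b ^ 2 * lw n p q m = 11 * M / b ^ 2 * lw n p q m + M / b ^ 2 * lw n p q m := by
    ring
  linarith

/-- hypothesis `hG` for the weights `w = c * lw` -/
theorem ValidW.hG (V : ValidW b L n a p q) {M c : ℝ} (hM0 : 0 ≤ M) (hc : 0 ≤ c)
    (hM : 96 * (c * M) ≤ b ^ 2) {m : ℕ} (hm : m ∈ Icc 1 n) :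
    ∑ j ∈ Icc 1 n, |K n p q m j| * M * (c * lw n p q j) ^ 2 ≤ c * lw n p q m / 4 := by
  have h := V.hsl (M := c * M) (ε := 1 / 4) (by positivity) (by linarith) hm
  have e : ∑ j ∈ Icc 1 n, |K n p q m j| * M * (c * lw n p q j) ^ 2 =
      c * ∑ j ∈ Icc 1 n, |K n p q m j| * (c * M * lw n p q j) * lw n p q j := by
    rw [Finset.mul_sum]
    apply Finset.sum_congr rfl
    intro j _
    ring
  rw [e]
  calc _ ≤ c * (1 / 4 * lw n p q m) := mul_le_mul_of_nonneg_left h hc
    _ = _ := by ring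

/-- **Matching, existence**: move the left boundary by `dl`, keep the right boundary. -/
theorem exists_orb {f Vd : ℝ → ℝ} {M c : ℝ} (hM0 : 0 ≤ M) (hc : 0 < c) (hM : 96 * (c * M) ≤ b ^ 2)
    (hNL : NL f Vd M) (x : ℕ → ℝ) (hx : Orb n f x)
    (V : ValidW b L n (fun m => Vd (x m)) p q) (dl : ℝ) (hdl : |dl| ≤ c / 2) :
    ∃ y : ℕ → ℝ, Orb n f y ∧ y 0 = x 0 + dl ∧ y (n + 1) = x (n + 1) ∧
      ∀ m ∈ Icc 1 n, |y m - x m| ≤ 3 / 4 * (c * lw n p q m) := by
  obtain ⟨y, h1, h2, h3, h4⟩ := orb_exists hM0 hNL x hx V.J (fun m => c * lw n p q m)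
    (fun m hm => mul_pos hc (V.lw_pos (Finset.mem_Icc.mp hm).2))
    (fun m hm => V.hG hM0 hc.le hM hm) dl 0 (by
      intro m hm
      rw [mul_zero, add_zero, mul_div_right_comm, abs_mul]
      have h5 := V.q_le_lw m
      have h6 := (V.lw_pos (Finset.mem_Icc.mp hm).2).le
      calc |q m / p (n + 1)| * |dl| ≤ lw n p q m * (c / 2) := by gcongr
        _ = c * lw n p q m / 2 := by ring)
  exact ⟨y, h1, h2, by rw [h3, add_zero], h4⟩

/-- **Matching, comparison** of two orbits in the box `c * lw` around the valid orbit. -/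
theorem diff_orb {f Vd : ℝ → ℝ} {M c ε : ℝ} (hM0 : 0 ≤ M) (hc : 0 ≤ c) (hε : ε ≤ 1 / 4)
    (hM : 24 * (c * M) ≤ ε * b ^ 2)
    (hNL : NL f Vd M) (x : ℕ → ℝ)
    (V : ValidW b L n (fun m => Vd (x m)) p q)
    (y z : ℕ → ℝ) (hy : Orb n f y) (hz : Orb n f z)
    (hyx : ∀ m ∈ Icc 1 n, |y m - x m| ≤ c * lw n p q m)
    (hzx : ∀ m ∈ Icc 1 n, |z m - x m| ≤ c * lw n p q m) :
    ∀ m ∈ Icc 1 n,
      |z m - y m| ≤ 2 * (rh n p m * |z (n + 1) - y (n + 1)| + lw n p q m * |z 0 - y 0|) ∧
      |(z m - y m) - (q m * (z 0 - y 0) + p m * (z (n + 1) - y (n + 1))) / p (n + 1)| ≤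
        2 * ε * (rh n p m * |z (n + 1) - y (n + 1)| + lw n p q m * |z 0 - y 0|) := by
  refine orb_diff hM0 hNL x V.J (fun m => c * lw n p q m) (rh n p) (lw n p q) ε hε
    (fun m hm => V.rh_pos hm) (fun m hm => V.p_le_rh hm) (fun m _ => V.q_le_lw m) ?_ ?_ y z hy hz
    hyx hzx
  · intro m hm
    have h := V.hsr (M := c * M) (ε := ε) (by positivity) hM hm
    have e : ∑ j ∈ Icc 1 n, |K n p q m j| * (M * (c * lw n p q j)) * rh n p j =
        ∑ j ∈ Icc 1 n, |K n p q m j| * (c * M * lw n p q j) * rh n p j := by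
      apply Finset.sum_congr rfl
      intro j _
      ring
    rw [e]
    exact h
  · intro m hm
    have h := V.hsl (M := c * M) (ε := ε) (by positivity) hM hm
    have e : ∑ j ∈ Icc 1 n, |K n p q m j| * (M * (c * lw n p q j)) * lw n p q j =
        ∑ j ∈ Icc 1 n, |K n p q m j| * (c * M * lw n p q j) * lw n p q j := by
      apply Finset.sum_congr rfl
      intro j _
      ring
    rw [e]
    exact h

/-- **VALID => Good**, with the weights `w = 4 * lw`, `rho = rh`, `C = 1`. -/
theorem ValidW.good {f Vd : ℝ → ℝ} {M ε : ℝ} {x : ℕ → ℝ} (hx : Orb n f x)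
    (V : ValidW b L n (fun m => Vd (x m)) p q) (hM0 : 0 ≤ M) (hM : 96 * M ≤ ε * b ^ 2) :
    Good n f Vd M 1 ε x p q (fun m => 4 * lw n p q m) (rh n p) where
  orb := hx
  jac := V.J
  wpos := fun m hm => mul_pos (by norm_num) (V.lw_pos (Finset.mem_Icc.mp hm).2)
  hqw := fun m _ => by
    have := V.q_le_lw m
    linarith
  hsw := by
    intro m hm
    have h := V.hsl (M := 4 * M) (ε := ε) (by positivity) (by linarith) hm
    have e : ∑ j ∈ Icc 1 n, |K n p q m j| * M * (4 * lw n p q j) ^ 2 =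
        4 * ∑ j ∈ Icc 1 n, |K n p q m j| * (4 * M * lw n p q j) * lw n p q j := by
      rw [Finset.mul_sum]
      apply Finset.sum_congr rfl
      intro j _
      ring
    rw [e]
    calc _ ≤ 4 * (ε * lw n p q m) := mul_le_mul_of_nonneg_left h (by norm_num)
      _ = _ := by ring
  rpos := fun m hm => V.rh_pos hm
  hprho := fun m hm => V.p_le_rh hm
  hsr := by
    intro m hm
    have h := V.hsr (M := 4 * M) (ε := ε) (by positivity) (by linarith) hm
    have e : ∑ j ∈ Icc 1 n, |K n p q m j| * M * (4 * lw n p q j) * rh n p j =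
        ∑ j ∈ Icc 1 n, |K n p q m j| * (4 * M * lw n p q j) * rh n p j := by
      apply Finset.sum_congr rfl
      intro j _
      ring
    rw [e]
    exact h
  w1 := by
    have hb := V.hb
    have hL := V.hL
    have hLn := V.hLn
    have h1 := V.lamB.c 1 (by norm_num)
    have h2 := V.clean_ex (by omega : 0 < L)
    rw [V.ex_zero, zero_add, zero_add] at h2
    have h3 : b ^ (-ex b p 1) ≤ b ^ (-1 : ℝ) :=
      Real.rpow_le_rpow_of_exponent_le (by linarith) (by linarith)
    have h4 : b ^ (-1 : ℝ) ≤ 1 / 100 := by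
      rw [Real.rpow_neg_one, inv_eq_one_div]
      exact one_div_le_one_div_of_le (by norm_num) hb
    linarith
  rho1 := by
    unfold rh
    rw [one_mul, abs_div, abs_one]
    simp only [le_refl, tsub_eq_zero_of_le]
    rw [W_zero V.J]

end Crest.Agent.R128.ValW
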