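import Mathlib
import Crest.Agent.R128.Ratio
import Crest.Agent.R128.ValW

/-!
Row 128 (helper105), node V34-RATIO, part 2: the FIELD comparison for 539's `ValidW`.
-/

set_option autoImplicit false

open Finset

namespace Crest.Agent.R128.Ratio

open Crest.Agent.R128.TreeSum Crest.Agent.R128.Val Crest.Agent.R128.ValW Crest.Agent.R128.BVP

variable {b κ : ℝ} {L n : ℕ} {a a' p p' q : ℕ → ℝ}

theorem FDX.of_validW (V : ValidW b L n a p q)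
    (hA2 : ∀ m ∈ Icc 1 (n + 2), |a m| + 2 ≤ b ^ 2)
    (hκ : 0 ≤ κ) (hκb : 128 * κ ≤ b ^ 2)
    (hp : ∀ m ≤ n + 1, p (m + 2) = a (m + 1) * p (m + 1) - p m) (h0 : p' 0 = 0) (h1 : p' 1 = 1)
    (hp' : ∀ m ≤ n + 1, p' (m + 2) = a' (m + 1) * p' (m + 1) - p' m)
    (hd : ∀ m ∈ Icc 1 n, |a' m - a m| ≤ κ * lw n p q m) (hn1 : a' (n + 1) = a (n + 1))
    (hn2 : |a' (n + 2) - a (n + 2)| ≤ κ * lw n p q n) :
    FDX b κ n a a' p p' (ex b p) (lw n p q) where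
  E := V.expo
  Lb := V.lamB
  hb := V.hb
  hW := fun m hm => V.W_eq hm
  p0 := V.J.p0
  p1 := V.J.p1
  p0' := h0
  p1' := h1
  hp := V.J.hp
  hp' := fun m hm => hp' m (by omega)
  hA := V.hA
  hcs := fun m hm => V.cleanstep (lt_of_lt_of_le hm V.hL)
  hκ := hκ
  hκb := hκb
  hd := hd
  e1 := hp n (by omega)
  e2 := hp (n + 1) le_rfl
  e1' := hp' n (by omega)
  e2' := hp' (n + 1) le_rfl
  q1 := hn1
  q2 := hn2
  A1 := hA2 (n + 1) (Finset.mem_Icc.mpr ⟨by omega, by omega⟩)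
  A2 := hA2 (n + 2) (Finset.mem_Icc.mpr ⟨by omega, by omega⟩)

theorem FDX.F_one' {u lm : ℕ → ℝ} (X : FDX b κ n a a' p p' u lm) {m : ℕ} (hm : m ≤ n + 2) :
    nn (F p m) ≤ 4 / 3 * nn (F p' m) ∧ nn (F p' m) ≤ 4 / 3 * nn (F p m) := by
  obtain ⟨h1, h2⟩ := X.all hm
  have hw := X.pos m hm
  obtain ⟨h3, h4⟩ := W_bounds (w := F p m) (z := F p' m) hw h1 h2
  have h5 := abs_le.mp h1
  have e : la p p' m = lam (F p m) (F p' m) := rfl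
  rw [e] at h5
  constructor
  · nlinarith
  · nlinarith

/-- **FIELD** in the form used by the assembly. -/
theorem field (V : ValidW b L n a p q)
    (hA2 : ∀ m ∈ Icc 1 (n + 2), |a m| + 2 ≤ b ^ 2)
    (hκ : 0 ≤ κ) (hκb : 128 * κ ≤ b ^ 2)
    (hp : ∀ m ≤ n + 1, p (m + 2) = a (m + 1) * p (m + 1) - p m) (h0 : p' 0 = 0) (h1 : p' 1 = 1)
    (hp' : ∀ m ≤ n + 1, p' (m + 2) = a' (m + 1) * p' (m + 1) - p' m)
    (hd : ∀ m ∈ Icc 1 n, |a' m - a m| ≤ κ * lw n p q m) (hn1 : a' (n + 1) = a (n + 1))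
    (hn2 : |a' (n + 2) - a (n + 2)| ≤ κ * lw n p q n) :
    (∀ m ≤ n + 2, W p m ≤ 4 / 3 * W p' m ∧ W p' m ≤ 4 / 3 * W p m) ∧
    (∀ j m, j ≤ n + 2 → m ≤ n + 2 → ∀ U : ℝ, b ^ U ≤ W p j → b ^ U ≤ W p m →
      |W p' m * W p j - W p m * W p' j| ≤ b ^ (40 - 9 / 10 * U) * (W p m * W p' j)) := by
  have X := FDX.of_validW V hA2 hκ hκb hp h0 h1 hp' hd hn1 hn2
  exact ⟨fun m hm => X.F_one' hm, fun j m hj hm U hUj hUm => X.F_two hj hm hUj hUm⟩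

end Crest.Agent.R128.Ratio
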