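import Mathlib
import Crest.Agent.R128.Acc

/-!
# Row 128, node N1-ROOT (helper603): part A for the contour from one root

Modification of `AccSeq.lean`, `Acc.lean` (helper485): the tips are the exact tips of the contour
`bt (rr k z)` (first maximum of its component), not converted to `TIP`.
-/

set_option autoImplicit false
open MeasureTheory Filter Topology Finset
open Crest.AnalysisR.StandardFamily

namespace Crest.Agent.R128.Root603

open Crest.Agent.R128 Crest.Agent.R128.Acc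

/-- exact tip of the sequence `β` on `[0, N]`, of persistence at least `h` -/
def TopS (β : ℕ → ℝ) (h : ℝ) (N t : ℕ) : Prop :=
  ∃ a b, a < t ∧ t < b ∧ b ≤ N ∧ β a ≤ β t - h ∧ β b ≤ β t - h ∧
    (∀ m, a ≤ m → m < t → β m < β t) ∧ (∀ m, t ≤ m → m ≤ b → β m ≤ β t)

theorem Top_of_TopS {β : ℕ → ℝ} {κ : ℝ} {N t r : ℕ} (h : TopS β (r * κ) N t) :
    Top β κ N t r := by
  obtain ⟨a, b, h1, h2, h3, h4, h5, h6, h7⟩ := h
  refine ⟨a, b, h1, h2, h3, h4, h5, fun m h8 h9 => ?_, h6 (t - 1) (by omega) (by omega)⟩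
  rcases lt_or_ge m t with h | h
  · exact (h6 m h8 h).le
  · exact h7 m h h9

theorem TopS_mono {β : ℕ → ℝ} {h h' : ℝ} (hh : h' ≤ h) {N t : ℕ} (H : TopS β h N t) :
    TopS β h' N t := by
  obtain ⟨a, b, h1, h2, h3, h4, h5, h6, h7⟩ := H
  exact ⟨a, b, h1, h2, h3, by linarith, by linarith, h6, h7⟩

theorem TopS_mono_N {β : ℕ → ℝ} {h : ℝ} {N N' t : ℕ} (hN : N ≤ N') (H : TopS β h N t) :
    TopS β h N' t := by
  obtain ⟨a, b, h1, h2, h3, h4, h5, h6, h7⟩ := H
  exact ⟨a, b, h1, h2, h3.trans hN, h4, h5, h6, h7⟩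

theorem exists_topS {β : ℕ → ℝ} {κ : ℝ} (hκ : 0 < κ) (h0 : β 0 = 0) {n j : ℕ}
    (h1 : β (n + 1) ≤ j * κ) (h2 : j * κ < β n) :
    ∃ a t, a < t ∧ t ≤ n ∧ β a ≤ j * κ ∧ (∀ m, a < m → m ≤ n → j * κ < β m) ∧
      (∀ m, a ≤ m → m ≤ n + 1 → β m ≤ β t) ∧ (∀ m, a ≤ m → m < t → β m < β t) := by
  classical
  set a := Nat.findGreatest (fun a => β a ≤ j * κ) n with ha
  have hP0 : β 0 ≤ j * κ := by rw [h0]; positivity
  have hPa : β a ≤ j * κ := Nat.findGreatest_spec (P := fun a => β a ≤ j * κ) (Nat.zero_le n) hP0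
  have han : a ≤ n := Nat.findGreatest_le n
  have hgt : ∀ m, a < m → m ≤ n → j * κ < β m := fun m hm hmn =>
    not_le.mp (Nat.findGreatest_is_greatest (P := fun a => β a ≤ j * κ) hm hmn)
  have han' : a < n := by
    rcases han.lt_or_eq with h | h
    · exact h
    · rw [h] at hPa
      exact absurd h2 (not_lt.mpr hPa)
  obtain ⟨t0, ht0, hmax⟩ := (Finset.Icc (a + 1) n).exists_max_image β
    ⟨n, Finset.mem_Icc.mpr ⟨han', le_rfl⟩⟩
  have hex : ∃ t, a < t ∧ t ≤ n ∧ ∀ m, a < m → m ≤ n → β m ≤ β t := by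
    rw [Finset.mem_Icc] at ht0
    exact ⟨t0, ht0.1, ht0.2, fun m h3 h4 => hmax m (Finset.mem_Icc.mpr ⟨h3, h4⟩)⟩
  set t := Nat.find hex with ht
  obtain ⟨hat, htn, htmax⟩ := Nat.find_spec hex
  have hjt : j * κ < β t := hgt t hat htn
  refine ⟨a, t, hat, htn, hPa, hgt, ?_, ?_⟩
  · intro m h3 h4
    rcases h3.eq_or_lt with h5 | h5
    · rw [← h5]; linarith
    · rcases h4.eq_or_lt with h6 | h6
      · rw [h6]; linarith
      · exact htmax m h5 (by omega)
  · intro m h3 h4
    rcases h3.eq_or_lt with h5 | h5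
    · rw [← h5]; linarith
    · by_contra hc
      push Not at hc
      have h7 := Nat.find_min' hex (m := m) ⟨h5, by omega, fun m' h5 h6 =>
        (htmax m' h5 h6).trans hc⟩
      omega

open Classical in
theorem crossings_leS {β : ℕ → ℝ} {κ : ℝ} (hκ : 0 < κ) (h0 : β 0 = 0) (N R : ℕ)
    (hR : ∀ t, t < N → β t ≤ R * κ) :
    ∑ n ∈ range N, (⌈β n / κ⌉₊ - ⌈β (n + 1) / κ⌉₊) ≤
      ∑ r ∈ range R, #{t ∈ range N | TopS β (r * κ) N t} := by
  have key : ∀ p : Σ _ : ℕ, ℕ, p ∈ (range N).sigma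
      (fun n => Finset.Ico ⌈β (n + 1) / κ⌉₊ ⌈β n / κ⌉₊) →
      ∃ a t, a < t ∧ t ≤ p.1 ∧ β a ≤ p.2 * κ ∧ (∀ m, a < m → m ≤ p.1 → p.2 * κ < β m) ∧
      (∀ m, a ≤ m → m ≤ p.1 + 1 → β m ≤ β t) ∧ (∀ m, a ≤ m → m < t → β m < β t) := by
    rintro ⟨n, j⟩ hp
    rw [Finset.mem_sigma, Finset.mem_Ico] at hp
    obtain ⟨_, h1, h2⟩ := hp
    apply exists_topS hκ h0
    · rwa [Nat.ceil_le, div_le_iff₀ hκ] at h1
    · rwa [Nat.lt_ceil, lt_div_iff₀ hκ] at h2
  have key2 : ∀ p : Σ _ : ℕ, ℕ, ∃ q : ℕ × ℕ, p ∈ (range N).sigma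
      (fun n => Finset.Ico ⌈β (n + 1) / κ⌉₊ ⌈β n / κ⌉₊) →
      q ∈ ((range R) ×ˢ (range N)).filter (fun q => TopS β (q.1 * κ) N q.2) ∧
      q.2 ≤ p.1 ∧ (∀ m, q.2 ≤ m → m ≤ p.1 → p.2 * κ < β m) ∧ p.2 + q.1 + 1 = ⌈β q.2 / κ⌉₊ := by
    intro p
    by_cases hp : p ∈ (range N).sigma (fun n => Finset.Ico ⌈β (n + 1) / κ⌉₊ ⌈β n / κ⌉₊)
    · obtain ⟨a, t, h1, h2, h3, h4, h5, h6⟩ := key p hp
      rw [Finset.mem_sigma, Finset.mem_Ico, Finset.mem_range] at hp
      obtain ⟨hn, hj1, hj2⟩ := hp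
      have hjt : (p.2 : ℝ) * κ < β t := h4 t h1 h2
      have hjt' : p.2 < ⌈β t / κ⌉₊ := by
        rw [Nat.lt_ceil, lt_div_iff₀ hκ]
        exact hjt
      have hcl : (⌈β t / κ⌉₊ : ℝ) < β t / κ + 1 := Nat.ceil_lt_add_one (by
        apply div_nonneg _ hκ.le
        have : (0 : ℝ) ≤ (p.2 : ℝ) * κ := by positivity
        linarith)
      have hcR : ⌈β t / κ⌉₊ ≤ R := by
        rw [Nat.ceil_le, div_le_iff₀ hκ]
        exact hR t (by omega)
      refine ⟨(⌈β t / κ⌉₊ - 1 - p.2, t), fun _ => ⟨?_, h2, fun m hm1 hm2 => h4 m (by omega) hm2,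
        ?_⟩⟩
      · rw [Finset.mem_filter, Finset.mem_product, Finset.mem_range, Finset.mem_range]
        refine ⟨⟨by simp only; omega, by simp only; omega⟩, a, p.1 + 1, h1, by simp only; omega,
          by omega, ?_, ?_, h6,
          fun m hm1 hm2 => h5 m (by omega) hm2⟩
        · have e : ((⌈β t / κ⌉₊ - 1 - p.2 : ℕ) : ℝ) = (⌈β t / κ⌉₊ : ℝ) - 1 - p.2 := by
            rw [Nat.cast_sub (by omega), Nat.cast_sub (by omega)]
            simp
          simp only [e]
          have : ((⌈β t / κ⌉₊ : ℝ) - 1) * κ < β t := by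
            have := (sub_lt_iff_lt_add.mpr hcl)
            rw [lt_div_iff₀ hκ] at this
            exact this
          nlinarith
        · have e : ((⌈β t / κ⌉₊ - 1 - p.2 : ℕ) : ℝ) = (⌈β t / κ⌉₊ : ℝ) - 1 - p.2 := by
            rw [Nat.cast_sub (by omega), Nat.cast_sub (by omega)]
            simp
          simp only [e]
          have h8 : ((⌈β t / κ⌉₊ : ℝ) - 1) * κ < β t := by
            have := (sub_lt_iff_lt_add.mpr hcl)
            rw [lt_div_iff₀ hκ] at this
            exact this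
          have h9 : β (p.1 + 1) ≤ p.2 * κ := by
            rwa [Nat.ceil_le, div_le_iff₀ hκ] at hj1
          nlinarith
      · simp only
        omega
    · exact ⟨(0, 0), fun h => absurd h hp⟩
  choose q hq using key2
  have h1 : ∑ n ∈ range N, (⌈β n / κ⌉₊ - ⌈β (n + 1) / κ⌉₊) =
      #((range N).sigma (fun n => Finset.Ico ⌈β (n + 1) / κ⌉₊ ⌈β n / κ⌉₊)) := by
    rw [Finset.card_sigma]
    simp
  have h2 : ∑ r ∈ range R, #{t ∈ range N | TopS β (r * κ) N t} =
      #(((range R) ×ˢ (range N)).filter (fun q => TopS β (q.1 * κ) N q.2)) := by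
    rw [Finset.card_filter, Finset.sum_product]
    refine Finset.sum_congr rfl fun r _ => ?_
    rw [Finset.card_filter]
  rw [h1, h2]
  apply Finset.card_le_card_of_injOn q
  · intro p hp
    exact (hq p hp).1
  · intro p hp p' hp' h
    have hp := Finset.mem_coe.mp hp
    have hp' := Finset.mem_coe.mp hp'
    obtain ⟨_, h3, h4, h5⟩ := hq p hp
    obtain ⟨_, h3', h4', h5'⟩ := hq p' hp'
    rw [← h] at h3' h4' h5'
    have ej : p.2 = p'.2 := by omega
    rw [Finset.mem_sigma, Finset.mem_Ico] at hp hp'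
    have u1 : β (p.1 + 1) ≤ p.2 * κ := by
      have := hp.2.1
      rwa [Nat.ceil_le, div_le_iff₀ hκ] at this
    have u2 : β (p'.1 + 1) ≤ p'.2 * κ := by
      have := hp'.2.1
      rwa [Nat.ceil_le, div_le_iff₀ hκ] at this
    have en : p.1 = p'.1 := by
      rcases lt_trichotomy p.1 p'.1 with hlt | heq | hlt
      · have := h4' (p.1 + 1) (by omega) (by omega)
        rw [← ej] at this
        linarith
      · exact heq
      · have := h4 (p'.1 + 1) (by omega) (by omega)
        rw [ej] at this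
        linarith
    exact Sigma.ext en (heq_of_eq ej)

open Classical in
/-- total descent -/
theorem down_leS {β : ℕ → ℝ} {κ L : ℝ} (hκ : 0 < κ) (h0 : β 0 = 0) (hβ : ∀ n, 0 ≤ β n)
    (hL0 : 0 ≤ L) (N R : ℕ)
    (hR : ∀ t, t < N → β t ≤ R * κ) (bad : ℕ → Prop)
    (hL : ∀ n, β n - β (n + 1) ≤ L)
    (hgood : ∀ n, ¬ bad n → β (n + 1) < β n → κ ≤ β n - β (n + 1)) :
    ∑ n ∈ range N, max 0 (β n - β (n + 1)) ≤
      2 * κ * ∑ r ∈ range R, (#{t ∈ range N | TopS β (r * κ) N t} : ℝ) +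
        L * #{n ∈ range N | bad n} := by
  have h1 : (∑ n ∈ range N, ((⌈β n / κ⌉₊ - ⌈β (n + 1) / κ⌉₊ : ℕ) : ℝ)) ≤
      ∑ r ∈ range R, (#{t ∈ range N | TopS β (r * κ) N t} : ℝ) := by
    exact_mod_cast crossings_leS hκ h0 N R hR
  have h2 : ∀ n, max 0 (β n - β (n + 1)) ≤
      2 * κ * ((⌈β n / κ⌉₊ - ⌈β (n + 1) / κ⌉₊ : ℕ) : ℝ) + L * (if bad n then 1 else 0) := by
    intro n
    have hc0 : (0 : ℝ) ≤ ((⌈β n / κ⌉₊ - ⌈β (n + 1) / κ⌉₊ : ℕ) : ℝ) := Nat.cast_nonneg _
    have hκc : 0 ≤ 2 * κ * ((⌈β n / κ⌉₊ - ⌈β (n + 1) / κ⌉₊ : ℕ) : ℝ) := by positivity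
    by_cases hb : bad n
    · simp only [hb, if_true]
      refine max_le (by linarith) ?_
      linarith [hL n]
    · simp only [hb, if_false]
      rcases le_or_gt (β n) (β (n + 1)) with h | h
      · refine max_le (by linarith) (by linarith)
      · have h3 := hgood n hb h
        have hle : ⌈β (n + 1) / κ⌉₊ + 1 ≤ ⌈β n / κ⌉₊ := by
          rw [← Nat.ceil_add_one (div_nonneg (hβ _) hκ.le)]
          apply Nat.ceil_mono
          rw [← div_self hκ.ne', ← add_div]
          exact div_le_div_of_nonneg_right (by linarith) hκ.le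
        have e : (((⌈β n / κ⌉₊ - ⌈β (n + 1) / κ⌉₊ : ℕ)) : ℝ) =
            (⌈β n / κ⌉₊ : ℝ) - ⌈β (n + 1) / κ⌉₊ := by
          rw [Nat.cast_sub (by omega)]
        have c1 : β n / κ ≤ ⌈β n / κ⌉₊ := Nat.le_ceil _
        have c2 : (⌈β (n + 1) / κ⌉₊ : ℝ) < β (n + 1) / κ + 1 :=
          Nat.ceil_lt_add_one (div_nonneg (hβ _) hκ.le)
        have c3 : (1 : ℝ) ≤ (⌈β n / κ⌉₊ : ℝ) - ⌈β (n + 1) / κ⌉₊ := by
          have : ((⌈β (n + 1) / κ⌉₊ + 1 : ℕ) : ℝ) ≤ ⌈β n / κ⌉₊ := by exact_mod_cast hle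
          push_cast at this
          linarith
        have c4 : (β n - β (n + 1)) ≤ κ * ((⌈β n / κ⌉₊ : ℝ) - ⌈β (n + 1) / κ⌉₊ + 1) := by
          have : (β n - β (n + 1)) / κ ≤ (⌈β n / κ⌉₊ : ℝ) - ⌈β (n + 1) / κ⌉₊ + 1 := by
            rw [sub_div]
            linarith
          rw [div_le_iff₀ hκ] at this
          linarith
        rw [e]
        refine max_le (by nlinarith) ?_
        nlinarith
  calc ∑ n ∈ range N, max 0 (β n - β (n + 1)) ≤
      ∑ n ∈ range N, (2 * κ * ((⌈β n / κ⌉₊ - ⌈β (n + 1) / κ⌉₊ : ℕ) : ℝ) +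
        L * (if bad n then 1 else 0)) := Finset.sum_le_sum fun n _ => h2 n
    _ = 2 * κ * (∑ n ∈ range N, ((⌈β n / κ⌉₊ - ⌈β (n + 1) / κ⌉₊ : ℕ) : ℝ)) +
        L * #{n ∈ range N | bad n} := by
      rw [Finset.sum_add_distrib, ← Finset.mul_sum, ← Finset.mul_sum]
      congr 2
      simp
    _ ≤ _ := by
      have : 0 ≤ 2 * κ := by positivity
      nlinarith

section Rho

variable {ρ V : ℕ → ℝ} {L κ : ℝ}

open Classical in
/-- **deterministic accounting** -/
theorem accountingS (hV : ∀ n, 0 ≤ V n) (hρ : ∀ n, 0 < ρ n)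
    (h1 : ∀ n, V n * ρ (n + 1) ≤ ρ (n + 2) + ρ n)
    (h2 : ∀ n, ρ (n + 2) ≤ V n * ρ (n + 1) + ρ n)
    (h3 : ∀ n, ρ n ≤ V n * ρ (n + 1) + ρ (n + 2))
    (h4 : ∀ n, 1 ≤ ρ n * ρ (n + 1)) (h00 : ρ 0 = 1) (h01 : ρ 1 = 1)
    (hL : ∀ n, Real.log (1 + V n) ≤ L) (hκ : 0 < κ) (N R : ℕ) (hR : N * L ≤ R * κ) :
    (∑ n ∈ range N, gn (V n)) - (5 * L + 4 * κ) * #{n ∈ range N | V n < Real.exp κ + 1}
      - 4 * κ * ∑ r ∈ Ico 1 R, (#{t ∈ range N | TopS (bt ρ) (r * κ) N t} : ℝ) ≤ bt ρ N := by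
  have hL0 : 0 ≤ L := (Real.log_nonneg (by linarith [hV 0])).trans (hL 0)
  have hb0 : bt ρ 0 = 0 := by
    unfold bt
    rw [zero_add, h00, h01]
    simp
  have hbn := bt_nonneg hρ h4
  have hbL : ∀ n, bt ρ n ≤ n * L := by
    intro n
    induction n with
    | zero => rw [hb0]; simp
    | succ n ih =>
      have := bt_succ_le hV hρ h2 hL n
      push_cast
      linarith
  have hRt : ∀ t, t < N → bt ρ t ≤ R * κ := by
    intro t ht
    refine (hbL t).trans (le_trans ?_ hR)
    have : (t : ℝ) ≤ N := by exact_mod_cast ht.le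
    nlinarith
  have he2 : (2 : ℝ) ≤ Real.exp κ + 1 := by linarith [Real.add_one_le_exp κ]
  -- counting
  set B : ℝ := (#{n ∈ range N | V n < Real.exp κ + 1} : ℝ) with hB
  have hB2 : (#{n ∈ range N | V n < 2} : ℝ) ≤ B := by
    rw [hB]
    have : #{n ∈ range N | V n < 2} ≤ #{n ∈ range N | V n < Real.exp κ + 1} := by
      apply Finset.card_le_card
      intro n hn
      rw [Finset.mem_filter] at hn ⊢
      exact ⟨hn.1, by linarith [hn.2]⟩
    exact_mod_cast this
  have hVal := (valleys_le hρ h1 (by rw [h00, h01]) N).trans hB2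
  -- bad steps
  have hbad : ∀ bad : ℕ → Prop, (∀ n, bad n → V n < Real.exp κ + 1 ∨ Val ρ n) →
      (#{n ∈ range N | bad n} : ℝ) ≤ 2 * B := by
    intro bad hb
    have : #{n ∈ range N | bad n} ≤
        #{n ∈ range N | V n < Real.exp κ + 1} + #{n ∈ range N | Val ρ n} := by
      refine le_trans (Finset.card_le_card ?_) (Finset.card_union_le _ _)
      intro n hn
      rw [Finset.mem_filter] at hn
      rw [Finset.mem_union, Finset.mem_filter, Finset.mem_filter]
      rcases hb n hn.2 with h | h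
      · exact Or.inl ⟨hn.1, h⟩
      · exact Or.inr ⟨hn.1, h⟩
    have h' : (#{n ∈ range N | bad n} : ℝ) ≤
        B + #{n ∈ range N | Val ρ n} := by
      rw [hB]
      exact_mod_cast this
    linarith
  have hdown := down_leS (β := bt ρ) (L := L) hκ hb0 hbn hL0 N R hRt
    (fun n => V n < Real.exp κ + 1 ∨ Val ρ n)
    (fun n => by linarith [bt_le_succ hV hρ h3 hL n])
    (by
      intro n hn hlt
      push Not at hn
      have h5 := step_abs hρ h1 (by linarith [hn.1]) hn.2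
      have h6 : κ ≤ Real.log (V n - 1) := by
        rw [Real.le_log_iff_exp_le (by linarith [Real.exp_pos κ, hn.1])]
        linarith [hn.1]
      rw [abs_of_neg (by linarith)] at h5
      linarith)
  -- total variation
  have hvar : ∀ n, gn (V n) - L * (if Val ρ n then 1 else 0) ≤ |bt ρ (n + 1) - bt ρ n| := by
    intro n
    unfold gn
    by_cases h5 : V n < 2
    · rw [if_pos h5]
      have : 0 ≤ L * (if Val ρ n then (1 : ℝ) else 0) := by
        apply mul_nonneg hL0
        split_ifs <;> norm_num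
      linarith [abs_nonneg (bt ρ (n + 1) - bt ρ n)]
    · rw [if_neg h5]
      push Not at h5
      by_cases h6 : Val ρ n
      · rw [if_pos h6]
        have : Real.log (V n - 1) ≤ L :=
          (Real.log_le_log (by linarith) (by linarith)).trans (hL n)
        linarith [abs_nonneg (bt ρ (n + 1) - bt ρ n)]
      · rw [if_neg h6]
        linarith [step_abs hρ h1 h5 h6]
  have hvar2 := Finset.sum_le_sum fun n (_ : n ∈ range N) => hvar n
  rw [Finset.sum_sub_distrib, ← Finset.mul_sum, Finset.sum_boole] at hvar2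
  have hid : bt ρ N = ∑ n ∈ range N, |bt ρ (n + 1) - bt ρ n| -
      2 * ∑ n ∈ range N, max 0 (bt ρ n - bt ρ (n + 1)) := by
    have : bt ρ N = ∑ n ∈ range N, (bt ρ (n + 1) - bt ρ n) := by
      rw [Finset.sum_range_sub, hb0, sub_zero]
    rw [this, Finset.mul_sum, ← Finset.sum_sub_distrib]
    refine Finset.sum_congr rfl fun n _ => ?_
    rcases le_total (bt ρ n) (bt ρ (n + 1)) with h | h
    · rw [abs_of_nonneg (by linarith), max_eq_left (by linarith)]
      ring
    · rw [abs_of_nonpos (by linarith), max_eq_right (by linarith)]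
      ring
  -- tops at level 0
  have htop : ∑ r ∈ range R, (#{t ∈ range N | TopS (bt ρ) (r * κ) N t} : ℝ) ≤
      B + ∑ r ∈ Ico 1 R, (#{t ∈ range N | TopS (bt ρ) (r * κ) N t} : ℝ) := by
    rcases Nat.eq_zero_or_pos R with h0 | h0
    · subst h0
      simp only [Finset.range_zero, Finset.sum_empty]
      rw [Finset.Ico_eq_empty (by omega)]
      simp only [Finset.sum_empty, add_zero]
      rw [hB]
      positivity
    · have e1 : ∑ r ∈ range R, (#{t ∈ range N | TopS (bt ρ) (r * κ) N t} : ℝ) =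
          (#{t ∈ range N | TopS (bt ρ) ((0 : ℕ) * κ) N t} : ℝ) +
          ∑ r ∈ Ico 1 R, (#{t ∈ range N | TopS (bt ρ) (r * κ) N t} : ℝ) := by
        rw [Finset.sum_range_eq_add_Ico _ h0]
      rw [e1]
      have : (#{t ∈ range N | TopS (bt ρ) ((0 : ℕ) * κ) N t} : ℝ) ≤ B := by
        refine le_trans ?_ hB2
        have : #{t ∈ range N | TopS (bt ρ) ((0 : ℕ) * κ) N t} ≤ #{n ∈ range N | V n < 2} := by
          apply Finset.card_le_card
          intro n hn
          rw [Finset.mem_filter] at hn ⊢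
          exact ⟨hn.1, top_zero hρ h1 (Top_of_TopS hn.2)⟩
        exact_mod_cast this
      linarith
  have hmul := mul_le_mul_of_nonneg_left htop (by positivity : 0 ≤ 4 * κ)
  have hmul2 := mul_le_mul_of_nonneg_left (hbad (fun n => V n < Real.exp κ + 1 ∨ Val ρ n)
    fun n h => h) hL0
  have hmul3 := mul_le_mul_of_nonneg_left hVal hL0
  rw [hid]
  nlinarith

end Rho

/-! ## Hills and valleys -/

/-- exact valley -/
def ValS (β : ℕ → ℝ) (h : ℝ) (N t : ℕ) : Prop :=
  ∃ a b, a < t ∧ t < b ∧ b ≤ N ∧ β t + h ≤ β a ∧ β t + h ≤ β b ∧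
    (∀ m, a ≤ m → m < t → β t < β m) ∧ (∀ m, t ≤ m → m ≤ b → β t ≤ β m)

/-- between two valleys of persistence `≥ h` there is a tip of persistence `≥ h` -/
theorem exists_tip_between {β : ℕ → ℝ} {h : ℝ} (hh : 0 < h) {N q q' : ℕ} (hq : ValS β h N q)
    (hq' : ValS β h N q') (hlt : q < q') : ∃ t, q < t ∧ t < q' ∧ TopS β h N t := by
  classical
  obtain ⟨a, b, h1, h2, h3, h4, h5, h6, h7⟩ := hq
  obtain ⟨a', b', h1', h2', h3', h4', h5', h6', h7'⟩ := hq'
  -- a high point in between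
  have key : ∃ s, q ≤ s ∧ s ≤ q' ∧ β q + h ≤ β s ∧ β q' + h ≤ β s := by
    rcases le_or_gt b q' with hb | hb
    · rcases le_or_gt q a' with ha | ha
      · rcases le_total (β q) (β q') with hc | hc
        · exact ⟨a', ha, h1'.le, by linarith, h4'⟩
        · exact ⟨b, h2.le, hb, h5, by linarith⟩
      · have := h6' q ha.le hlt
        exact ⟨b, h2.le, hb, h5, by linarith⟩
    · have hc := h7 q' hlt.le hb.le
      rcases le_or_gt q a' with ha | ha
      · exact ⟨a', ha, h1'.le, by linarith, h4'⟩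
      · have := h6' q ha.le hlt
        linarith
  obtain ⟨s, hs1, hs2, hs3, hs4⟩ := key
  obtain ⟨t0, ht0, hmax⟩ := (Finset.Icc q q').exists_max_image β
    ⟨s, Finset.mem_Icc.mpr ⟨hs1, hs2⟩⟩
  have hex : ∃ t, q ≤ t ∧ t ≤ q' ∧ ∀ m, q ≤ m → m ≤ q' → β m ≤ β t := by
    rw [Finset.mem_Icc] at ht0
    exact ⟨t0, ht0.1, ht0.2, fun m h3 h4 => hmax m (Finset.mem_Icc.mpr ⟨h3, h4⟩)⟩
  set t := Nat.find hex with ht
  obtain ⟨hat, htn, htmax⟩ := Nat.find_spec hex
  rw [← ht] at hat htn htmax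
  have e1 := htmax s hs1 hs2
  have hqt : q < t := by
    rcases hat.lt_or_eq with h8 | h8
    · exact h8
    · rw [← h8] at e1
      linarith
  have htq : t < q' := by
    rcases htn.lt_or_eq with h8 | h8
    · exact h8
    · rw [h8] at e1
      linarith
  refine ⟨t, hqt, htq, q, q', hqt, htq, by omega, by linarith, by linarith, ?_, ?_⟩
  · intro m h8 h9
    by_contra hc
    push Not at hc
    have h10 := Nat.find_min' hex (m := m) ⟨h8, by omega, fun m' h11 h12 =>
      (htmax m' h11 h12).trans hc⟩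
    omega
  · intro m h8 h9
    exact htmax m (by omega) h9

open Classical in
/-- **pairing of valleys and tips** -/
theorem card_ValS_le {β : ℕ → ℝ} {h : ℝ} (hh : 0 < h) (N : ℕ) :
    #{t ∈ range N | ValS β h N t} ≤ #{t ∈ range N | TopS β h N t} + 1 := by
  set S := {t ∈ range N | ValS β h N t} with hS
  rcases S.eq_empty_or_nonempty with hE | hne
  · rw [hE]; simp
  set M := S.max' hne with hM
  have hMS : M ∈ S := S.max'_mem hne
  have hex : ∀ q, ∃ t, q ∈ S.erase M → t ∈ {t ∈ range N | TopS β h N t} ∧ q < t ∧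
      ∀ q' ∈ S, q < q' → t < q' := by
    intro q
    by_cases hq : q ∈ S.erase M
    · obtain ⟨hqM, hqS⟩ := Finset.mem_erase.1 hq
      have hlt : q < M := lt_of_le_of_ne (S.le_max' q hqS) hqM
      have hne' : (S.filter (fun x => q < x)).Nonempty := ⟨M, Finset.mem_filter.2 ⟨hMS, hlt⟩⟩
      set q' := (S.filter (fun x => q < x)).min' hne' with hq'
      have hq'S := Finset.mem_filter.1 ((S.filter (fun x => q < x)).min'_mem hne')
      rw [← hq'] at hq'S
      have v1 := (Finset.mem_filter.1 hqS).2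
      have v2 := (Finset.mem_filter.1 hq'S.1).2
      have v3 := Finset.mem_range.1 (Finset.mem_filter.1 hq'S.1).1
      obtain ⟨t, t1, t2, t3⟩ := exists_tip_between hh v1 v2 hq'S.2
      refine ⟨t, fun _ => ⟨Finset.mem_filter.2 ⟨Finset.mem_range.2 (by omega), t3⟩, t1, ?_⟩⟩
      intro q'' h1 h2
      have := (S.filter (fun x => q < x)).min'_le q'' (Finset.mem_filter.2 ⟨h1, h2⟩)
      rw [← hq'] at this
      omega
    · exact ⟨0, fun h => absurd h hq⟩
  choose f hf using hex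
  have h1 : #(S.erase M) ≤ #{t ∈ range N | TopS β h N t} := by
    apply Finset.card_le_card_of_injOn f
    · intro q hq
      exact (hf q hq).1
    · intro p hp q hq hpq
      obtain ⟨_, p1, p2⟩ := hf p hp
      obtain ⟨_, q1, q2⟩ := hf q hq
      rcases lt_trichotomy p q with hlt | heq | hlt
      · have := p2 q (Finset.mem_of_mem_erase hq) hlt
        omega
      · exact heq
      · have := q2 p (Finset.mem_of_mem_erase hp) hlt
        omega
  rw [Finset.card_erase_of_mem hMS] at h1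
  omega

/-! ## The pairs (tip, level): the time is unique -/

/-- `w` is the first time after `t` with `β ≤ β t - x` -/
def FirstAfter (β : ℕ → ℝ) (x : ℝ) (t w : ℕ) : Prop :=
  t < w ∧ β w ≤ β t - x ∧ ∀ m, t ≤ m → m < w → β t - x < β m

/-- `w` is the last time before `t` with `β ≤ β t - x` -/
def LastBefore (β : ℕ → ℝ) (x : ℝ) (t w : ℕ) : Prop :=
  w < t ∧ β w ≤ β t - x ∧ ∀ m, w < m → m ≤ t → β t - x < β m

theorem exists_firstAfter {β : ℕ → ℝ} {h x : ℝ} {N t : ℕ} (hx : 0 < x) (hxh : x ≤ h)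
    (H : TopS β h N t) : ∃ w, w ≤ N ∧ FirstAfter β x t w ∧ ∀ m, t ≤ m → m ≤ w → β m ≤ β t := by
  classical
  obtain ⟨a, b, h1, h2, h3, h4, h5, h6, h7⟩ := H
  have hex : ∃ w, t ≤ w ∧ β w ≤ β t - x := ⟨b, h2.le, by linarith⟩
  obtain ⟨g1, g2⟩ := Nat.find_spec hex
  have g3 : Nat.find hex ≤ b := Nat.find_min' hex ⟨h2.le, by linarith⟩
  refine ⟨Nat.find hex, by omega, ⟨?_, g2, ?_⟩, fun m h8 h9 => h7 m h8 (by omega)⟩
  · rcases g1.lt_or_eq with h8 | h8
    · exact h8
    · rw [← h8] at g2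
      linarith
  · intro m h8 h9
    by_contra hc
    push Not at hc
    have := Nat.find_min' hex (m := m) ⟨h8, hc⟩
    omega

theorem exists_lastBefore {β : ℕ → ℝ} {h x : ℝ} {N t : ℕ} (hx : 0 < x) (hxh : x ≤ h)
    (H : TopS β h N t) : ∃ w, LastBefore β x t w ∧ ∀ m, w ≤ m → m < t → β m < β t := by
  classical
  obtain ⟨a, b, h1, h2, h3, h4, h5, h6, h7⟩ := H
  set w := Nat.findGreatest (fun w => β w ≤ β t - x) t with hw
  have ha : β a ≤ β t - x := by linarith
  have g1 : β w ≤ β t - x := Nat.findGreatest_spec (P := fun w => β w ≤ β t - x) h1.le ha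
  have g2 : w ≤ t := Nat.findGreatest_le t
  have g3 : a ≤ w := Nat.le_findGreatest h1.le ha
  have g4 : w < t := by
    rcases g2.lt_or_eq with h8 | h8
    · exact h8
    · rw [h8] at g1
      linarith
  refine ⟨w, ⟨g4, g1, fun m h8 h9 => ?_⟩, fun m h8 h9 => h6 m (by omega) h9⟩
  exact not_le.mp (Nat.findGreatest_is_greatest (P := fun w => β w ≤ β t - x) h8 h9)

/-- tips which see the same first time `w` at the same absolute level `y` coincide -/
theorem firstAfter_unique {β : ℕ → ℝ} {h h' x x' y : ℝ} {N t t' w : ℕ} (hx : 0 < x) (hx' : 0 < x')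
    (hxh : x ≤ h) (hxh' : x' ≤ h') (H : TopS β h N t) (H' : TopS β h' N t')
    (hy : β t - x = y) (hy' : β t' - x' = y) (hw : FirstAfter β x t w)
    (hw' : FirstAfter β x' t' w) : t = t' := by
  wlog hlt : t < t' generalizing t t' x x' h h' with hgen
  · rcases lt_trichotomy t t' with h1 | h1 | h1
    · exact absurd h1 hlt
    · exact h1
    · exact (hgen hx' hx hxh' hxh H' H hy' hy hw' hw h1).symm
  obtain ⟨a, b, h1, h2, h3, h4, h5, h6, h7⟩ := H
  obtain ⟨a', b', h1', h2', h3', h4', h5', h6', h7'⟩ := H'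
  obtain ⟨w1, w2, w3⟩ := hw
  obtain ⟨w1', w2', w3'⟩ := hw'
  -- `t'` lies in the component of `t`
  have e1 : β t' ≤ β t := by
    rcases le_or_gt t' b with hb | hb
    · exact h7 t' hlt.le hb
    · rcases lt_or_ge b w with hbw | hbw
      · have := w3 b h2.le hbw
        linarith
      · omega
  have e2 : β t < β t' := by
    rcases le_or_gt a' t with ha | ha
    · exact h6' t ha hlt
    · have := w3 a' ha.le (by omega)
      linarith
  linarith

theorem lastBefore_unique {β : ℕ → ℝ} {h h' x x' y : ℝ} {N t t' w : ℕ} (hx : 0 < x) (hx' : 0 < x')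
    (hxh : x ≤ h) (hxh' : x' ≤ h') (H : TopS β h N t) (H' : TopS β h' N t')
    (hy : β t - x = y) (hy' : β t' - x' = y) (hw : LastBefore β x t w)
    (hw' : LastBefore β x' t' w) : t = t' := by
  wlog hlt : t < t' generalizing t t' x x' h h' with hgen
  · rcases lt_trichotomy t t' with h1 | h1 | h1
    · exact absurd h1 hlt
    · exact h1
    · exact (hgen hx' hx hxh' hxh H' H hy' hy hw' hw h1).symm
  obtain ⟨a, b, h1, h2, h3, h4, h5, h6, h7⟩ := H
  obtain ⟨a', b', h1', h2', h3', h4', h5', h6', h7'⟩ := H'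
  obtain ⟨w1, w2, w3⟩ := hw
  obtain ⟨w1', w2', w3'⟩ := hw'
  have e1 : β t' ≤ β t := by
    rcases le_or_gt t' b with hb | hb
    · exact h7 t' hlt.le hb
    · have := w3' b (by omega) hb.le
      linarith
  have e2 : β t < β t' := by
    rcases le_or_gt a' t with ha | ha
    · exact h6' t ha hlt
    · have := w3' a' (by omega) h1'.le
      linarith
  linarith

/-! ## Measurability and integration -/

open Classical in
/-- number of tips of persistence `≥ h` of the contour from the root -/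
noncomputable def cnt (k h : ℝ) (N : ℕ) (z : Tor) : ℝ :=
  (#{t ∈ range N | TopS (bt (rr k z)) h N t} : ℝ)

theorem cnt_nonneg (k h : ℝ) (N : ℕ) (z : Tor) : 0 ≤ cnt k h N z := Nat.cast_nonneg _

open Classical in
theorem cnt_anti {k h h' : ℝ} (hh : h' ≤ h) (N : ℕ) (z : Tor) : cnt k h N z ≤ cnt k h' N z := by
  unfold cnt
  have : #{t ∈ range N | TopS (bt (rr k z)) h N t} ≤ #{t ∈ range N | TopS (bt (rr k z)) h' N t} := by
    apply Finset.card_le_card
    intro t ht
    rw [Finset.mem_filter] at ht ⊢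
    exact ⟨ht.1, TopS_mono hh ht.2⟩
  exact_mod_cast this

theorem cnt_le (k h : ℝ) (N : ℕ) (z : Tor) : cnt k h N z ≤ N := by
  classical
  unfold cnt
  have : #{t ∈ range N | TopS (bt (rr k z)) h N t} ≤ N :=
    (Finset.card_filter_le _ _).trans (by simp)
  exact_mod_cast this

theorem continuous_rr (k : ℝ) (n : ℕ) : Continuous fun z : Tor => rr k z n := by
  unfold rr rn
  have h : ∀ i j, Continuous fun z : Tor => Mn k n z i j := fun i j =>
    (continuous_Mn k n).matrix_elem i j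
  exact (h 0 0).abs.add (h 0 1).abs

theorem continuous_bt (k : ℝ) (n : ℕ) : Continuous fun z : Tor => bt (rr k z) n := by
  unfold bt
  exact Continuous.log ((continuous_rr k n).max (continuous_rr k (n + 1)))
    fun z => (lt_max_of_lt_left (rr_pos k z n)).ne'

theorem measurableSet_TopS (k h : ℝ) (N t : ℕ) :
    MeasurableSet {z : Tor | TopS (bt (rr k z)) h N t} := by
  have hm : ∀ n, Measurable fun z : Tor => bt (rr k z) n := fun n => (continuous_bt k n).measurable
  have e : {z : Tor | TopS (bt (rr k z)) h N t} = ⋃ a : ℕ, ⋃ b : ℕ, ⋃ _ : a < t ∧ t < b ∧ b ≤ N,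
      (({z : Tor | bt (rr k z) a ≤ bt (rr k z) t - h} ∩ {z : Tor | bt (rr k z) b ≤ bt (rr k z) t - h})
      ∩ (⋂ m : ℕ, ⋂ _ : a ≤ m ∧ m < t, {z : Tor | bt (rr k z) m < bt (rr k z) t}))
      ∩ (⋂ m : ℕ, ⋂ _ : t ≤ m ∧ m ≤ b, {z : Tor | bt (rr k z) m ≤ bt (rr k z) t}) := by
    ext z
    simp only [TopS, Set.mem_ofPred_eq, Set.mem_iUnion, Set.mem_inter_iff, Set.mem_iInter,
      exists_prop]
    constructor
    · rintro ⟨a, b, h1, h2, h3, h4, h5, h6, h7⟩
      exact ⟨a, b, ⟨h1, h2, h3⟩, ⟨⟨h4, h5⟩, fun m hm => h6 m hm.1 hm.2⟩, fun m hm => h7 m hm.1 hm.2⟩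
    · rintro ⟨a, b, ⟨h1, h2, h3⟩, ⟨⟨h4, h5⟩, h6⟩, h7⟩
      exact ⟨a, b, h1, h2, h3, h4, h5, fun m h8 h9 => h6 m ⟨h8, h9⟩, fun m h8 h9 => h7 m ⟨h8, h9⟩⟩
  rw [e]
  refine MeasurableSet.iUnion fun a => MeasurableSet.iUnion fun b => MeasurableSet.iUnion fun _ => ?_
  refine (((measurableSet_le (hm a) ((hm t).sub_const h)).inter
    (measurableSet_le (hm b) ((hm t).sub_const h))).inter ?_).inter ?_
  · exact MeasurableSet.iInter fun m => MeasurableSet.iInter fun _ =>
      measurableSet_lt (hm m) (hm t)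
  · exact MeasurableSet.iInter fun m => MeasurableSet.iInter fun _ =>
      measurableSet_le (hm m) (hm t)

theorem cnt_eq (k h : ℝ) (N : ℕ) (z : Tor) : cnt k h N z =
    ∑ t ∈ range N, {z : Tor | TopS (bt (rr k z)) h N t}.indicator (fun _ => (1 : ℝ)) z := by
  classical
  unfold cnt
  rw [Finset.card_filter]
  push_cast
  refine Finset.sum_congr rfl fun t _ => ?_
  rw [Set.indicator_apply]
  rfl

theorem measurable_cnt (k h : ℝ) (N : ℕ) : Measurable (cnt k h N) := by
  have : cnt k h N = fun z => ∑ t ∈ range N,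
      {z : Tor | TopS (bt (rr k z)) h N t}.indicator (fun _ => (1 : ℝ)) z :=
    funext fun z => cnt_eq k h N z
  rw [this]
  exact Finset.measurable_fun_sum _ fun t _ => measurable_const.indicator (measurableSet_TopS k h N t)

theorem integrable_cnt (k h : ℝ) (N : ℕ) : Integrable (cnt k h N) (volume : Measure Tor) := by
  refine Integrable.of_bound (measurable_cnt k h N).aestronglyMeasurable (N : ℝ)
    (Eventually.of_forall fun z => ?_)
  rw [Real.norm_of_nonneg (cnt_nonneg k h N z)]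
  exact cnt_le k h N z

/-- total persistence in levels (`κ` = one level) below height `R`, of the contour on `[0,N]` from
the root `z` -/
noncomputable def LR (k κ : ℝ) (N R : ℕ) : ℝ := ∫ z : Tor, ∑ r ∈ Ico 1 R, cnt k (r * κ) N z

theorem LR_eq (k κ : ℝ) (N R : ℕ) : LR k κ N R = ∑ r ∈ Ico 1 R, ∫ z : Tor, cnt k (r * κ) N z := by
  unfold LR
  rw [integral_finsetSum _ fun r _ => integrable_cnt k _ N]

open Classical in
theorem pointwiseS {k κ : ℝ} (hk : 0 ≤ k) (hκ : 0 < κ) (z : Tor) (N R : ℕ)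
    (hR : N * Real.log (3 + 2 * Real.pi * k) ≤ R * κ) :
    (∑ n ∈ range N, (lm k 1 ((T k)^[n] z) - Real.log 2)) -
      (5 * Real.log (3 + 2 * Real.pi * k) + 4 * κ) *
        #{n ∈ range N | dg k z n < Real.exp κ + 1}
      - 4 * κ * ∑ r ∈ Ico 1 R, cnt k (r * κ) N z
      ≤ lm k N z + Real.log 2 := by
  have h := accountingS (ρ := rr k z) (V := dg k z) (L := Real.log (3 + 2 * Real.pi * k)) (κ := κ)
    (fun n => abs_nonneg _) (rr_pos k z) (rr_h1 k z) (rr_h2 k z) (rr_h3 k z) (rr_h4 k z)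
    (rr_zero k z) (rr_one k z)
    (fun n => Real.log_le_log (by have := abs_nonneg (V k ((T k)^[n] z).2); unfold dg; linarith)
      (by linarith [dg_le k hk z n])) hκ N R hR
  have h1 := bt_le_lm k N z
  have h2 : (∑ n ∈ range N, (lm k 1 ((T k)^[n] z) - Real.log 2)) ≤
      ∑ n ∈ range N, gn (dg k z n) := Finset.sum_le_sum fun n _ => gn_ge k _
  unfold cnt
  linarith

/-- **integrated accounting**, root form -/
theorem integratedS {k κ : ℝ} (hk : 1 ≤ k) (hκ : 0 < κ) (N R : ℕ)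
    (hR : N * Real.log (3 + 2 * Real.pi * k) ≤ R * κ) :
    N * (Real.log k - 3 - Real.log 2
      - (5 * Real.log (3 + 2 * Real.pi * k) + 4 * κ) * ((Real.exp κ + 1) / k))
      - 4 * κ * LR k κ N R - Real.log 2 ≤ ∫ z : Tor, lm k N z := by
  classical
  set c1 := 5 * Real.log (3 + 2 * Real.pi * k) + 4 * κ with hc1
  have hc1n : 0 ≤ c1 := by
    have : 0 ≤ Real.log (3 + 2 * Real.pi * k) := Real.log_nonneg (by
      have : 0 ≤ 2 * Real.pi * k := by positivity
      linarith)
    positivity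
  set B : Set Tor := {z | |V k z.2| ≤ Real.exp κ + 1} with hB
  have hBm : MeasurableSet B :=
    (isClosed_le ((continuous_V k).comp continuous_snd).abs continuous_const).measurableSet
  have hBI : Integrable (B.indicator (fun _ => (1:ℝ))) (volume : Measure Tor) :=
    (integrable_const (1:ℝ)).indicator hBm
  have hlI : Integrable (fun z => lm k 1 z - Real.log 2) (volume : Measure Tor) :=
    (integrable_lm k 1).sub (integrable_const _)
  have hpt : ∀ z : Tor, (∑ n ∈ range N, (lm k 1 ((T k)^[n] z) - Real.log 2)) -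
      c1 * (∑ n ∈ range N, B.indicator (fun _ => (1:ℝ)) ((T k)^[n] z))
      - 4 * κ * (∑ r ∈ Ico 1 R, cnt k (r * κ) N z)
      ≤ lm k N z + Real.log 2 := by
    intro z
    refine le_trans ?_ (pointwiseS (by linarith) hκ z N R hR)
    have e1 : (#{n ∈ range N | dg k z n < Real.exp κ + 1} : ℝ) ≤
        ∑ n ∈ range N, B.indicator (fun _ => (1:ℝ)) ((T k)^[n] z) := by
      rw [Finset.card_filter]
      push_cast
      refine Finset.sum_le_sum fun n _ => ?_
      rw [Set.indicator_apply]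
      split_ifs with h1 h2 h2
      · exact le_rfl
      · exact absurd h1.le h2
      · norm_num
      · exact le_rfl
    have e3 := mul_le_mul_of_nonneg_left e1 hc1n
    linarith
  have i1 : Integrable (fun z : Tor => ∑ n ∈ range N, (lm k 1 ((T k)^[n] z) - Real.log 2)) volume :=
    integrable_finsetSum _ fun n _ => integrable_comp_iter n hlI
  have i2 : Integrable (fun z : Tor => c1 * ∑ n ∈ range N, B.indicator (fun _ => (1:ℝ))
      ((T k)^[n] z)) volume :=
    (integrable_finsetSum _ fun n _ => integrable_comp_iter n hBI).const_mul _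
  have i3 : Integrable (fun z : Tor => 4 * κ * ∑ r ∈ Ico 1 R, cnt k (r * κ) N z) volume :=
    (integrable_finsetSum _ fun r _ => integrable_cnt k _ N).const_mul _
  have hI : ∫ z : Tor, ((∑ n ∈ range N, (lm k 1 ((T k)^[n] z) - Real.log 2)) -
      c1 * (∑ n ∈ range N, B.indicator (fun _ => (1:ℝ)) ((T k)^[n] z))
      - 4 * κ * (∑ r ∈ Ico 1 R, cnt k (r * κ) N z))
      ≤ ∫ z : Tor, (lm k N z + Real.log 2) :=
    integral_mono ((i1.sub i2).sub i3) ((integrable_lm k N).add (integrable_const _)) hpt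
  have j1 : ∫ z : Tor, ∑ n ∈ range N, (lm k 1 ((T k)^[n] z) - Real.log 2) =
      N * ((∫ z : Tor, lm k 1 z) - Real.log 2) := by
    rw [integral_finsetSum _ fun n _ => integrable_comp_iter n hlI]
    have : ∀ n, ∫ z : Tor, (lm k 1 ((T k)^[n] z) - Real.log 2) =
        (∫ z : Tor, lm k 1 z) - Real.log 2 := by
      intro n
      rw [integral_comp_iter (f := fun z => lm k 1 z - Real.log 2) n hlI.aestronglyMeasurable,
        integral_sub (integrable_lm k 1) (integrable_const _)]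
      simp
    rw [Finset.sum_congr rfl fun n _ => this n]
    simp only [Finset.sum_const, Finset.card_range, nsmul_eq_mul]
  have j2 : ∫ z : Tor, c1 * ∑ n ∈ range N, B.indicator (fun _ => (1:ℝ)) ((T k)^[n] z) =
      c1 * (N * (volume : Measure Tor).real B) := by
    rw [integral_const_mul, integral_finsetSum _ fun n _ => integrable_comp_iter n hBI]
    have : ∀ n, ∫ z : Tor, B.indicator (fun _ => (1:ℝ)) ((T k)^[n] z) =
        (volume : Measure Tor).real B := by
      intro n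
      rw [integral_comp_iter (f := B.indicator (fun _ => (1:ℝ))) n hBI.aestronglyMeasurable,
        integral_indicator hBm]
      simp
    rw [Finset.sum_congr rfl fun n _ => this n]
    simp
  have j3 : ∫ z : Tor, 4 * κ * ∑ r ∈ Ico 1 R, cnt k (r * κ) N z = 4 * κ * LR k κ N R := by
    rw [integral_const_mul, LR]
  have k1 := integral_sub (i1.sub i2) i3
  have k2 := integral_sub i1 i2
  simp only [Pi.sub_apply] at k1 k2
  rw [k1, k2, j1, j2, j3, integral_add (integrable_lm k N) (integrable_const _)] at hI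
  simp only [integral_const, probReal_univ, smul_eq_mul, one_mul] at hI
  have hl := log_sub_le_integral_lm_one hk
  have hBv : (volume : Measure Tor).real B ≤ (Real.exp κ + 1) / k :=
    volumeReal_V_le hk (by positivity)
  have hN : (0 : ℝ) ≤ N := Nat.cast_nonneg N
  have a1 := mul_le_mul_of_nonneg_left hl hN
  have a2 := mul_le_mul_of_nonneg_left (mul_le_mul_of_nonneg_left hBv hc1n) hN
  nlinarith

/-- there are at most as many tips as near critical digits -/
theorem integral_cnt_le {k h : ℝ} (hk : 1 ≤ k) (hh : 0 ≤ h) (N : ℕ) :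
    ∫ z : Tor, cnt k h N z ≤ N * (2 / k) := by
  classical
  set B : Set Tor := {z | |V k z.2| ≤ 2} with hB
  have hBm : MeasurableSet B :=
    (isClosed_le ((continuous_V k).comp continuous_snd).abs continuous_const).measurableSet
  have hBI : Integrable (B.indicator (fun _ => (1:ℝ))) (volume : Measure Tor) :=
    (integrable_const (1:ℝ)).indicator hBm
  have hpt : ∀ z : Tor, cnt k h N z ≤ ∑ n ∈ range N, B.indicator (fun _ => (1:ℝ)) ((T k)^[n] z) := by
    intro z
    unfold cnt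
    rw [Finset.card_filter]
    push_cast
    refine Finset.sum_le_sum fun n _ => ?_
    rw [Set.indicator_apply]
    split_ifs with h1 h2 h2
    · exact le_rfl
    · exfalso
      apply h2
      have h3 : TopS (bt (rr k z)) ((0 : ℕ) * (1 : ℝ)) N n := TopS_mono (by simpa using hh) h1
      exact (top_zero (V := dg k z) (rr_pos k z) (rr_h1 k z) (Top_of_TopS h3)).le
    · norm_num
    · exact le_rfl
  have hI := integral_mono (integrable_cnt k h N)
    (integrable_finsetSum _ fun n _ => integrable_comp_iter (k := k) n hBI) hpt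
  rw [integral_finsetSum _ fun n _ => integrable_comp_iter n hBI] at hI
  have : ∀ n, ∫ z : Tor, B.indicator (fun _ => (1:ℝ)) ((T k)^[n] z) =
      (volume : Measure Tor).real B := by
    intro n
    rw [integral_comp_iter (f := B.indicator (fun _ => (1:ℝ))) n hBI.aestronglyMeasurable,
      integral_indicator hBm]
    simp
  rw [Finset.sum_congr rfl fun n _ => this n, Finset.sum_const, Finset.card_range,
    nsmul_eq_mul] at hI
  refine hI.trans ?_
  exact mul_le_mul_of_nonneg_left (volumeReal_V_le hk (by norm_num)) (Nat.cast_nonneg N)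

theorem LR_half {k : ℝ} (hk : 1 ≤ k) (N R : ℕ) :
    LR k (Real.log k / 2) N (2 * (R + 1)) ≤ N * (2 / k) + 2 * LR k (Real.log k) N (R + 1) := by
  have hl : 0 ≤ Real.log k := Real.log_nonneg hk
  rw [LR_eq, LR_eq]
  induction R with
  | zero =>
    simp only [zero_add, mul_one, Finset.Ico_self, Finset.sum_empty, mul_zero, add_zero]
    rw [show Ico 1 2 = {1} from rfl, Finset.sum_singleton]
    exact integral_cnt_le hk (by positivity) _
  | succ R ih =>
    rw [show 2 * (R + 1 + 1) = 2 * (R + 1) + 1 + 1 by ring,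
      Finset.sum_Ico_succ_top (by omega), Finset.sum_Ico_succ_top (by omega),
      Finset.sum_Ico_succ_top (by omega : 1 ≤ R + 1)]
    have a : ∫ z : Tor, cnt k (((2 * (R + 1) : ℕ) : ℝ) * (Real.log k / 2)) N z ≤
        ∫ z : Tor, cnt k (((R + 1 : ℕ) : ℝ) * Real.log k) N z := by
      apply le_of_eq
      congr 1
      push_cast
      ring_nf
    have b : ∫ z : Tor, cnt k (((2 * (R + 1) + 1 : ℕ) : ℝ) * (Real.log k / 2)) N z ≤
        ∫ z : Tor, cnt k (((R + 1 : ℕ) : ℝ) * Real.log k) N z := by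
      apply integral_mono (integrable_cnt k _ N) (integrable_cnt k _ N)
      intro z
      apply cnt_anti
      push_cast
      nlinarith
    linarith

/-- **Part A, root form.** -/
theorem torus_of_root
    (H : ∃ k₁ : ℝ, ∀ k : ℝ, k₁ ≤ k → ∃ᶠ N : ℕ in atTop, ∀ R : ℕ,
      LR k (Real.log k) N R ≤ N / 10) :
    ∃ k₀ : ℝ, 0 < k₀ ∧ ∀ k : ℝ, k₀ ≤ k → ∃ c : ℝ, 0 < c ∧
      ∃ᶠ n : ℕ in atTop, c * n ≤ ∫ z : Tor, lm k n z := by
  obtain ⟨k₁, H⟩ := H
  refine ⟨max k₁ (Real.exp 100), lt_max_of_lt_right (Real.exp_pos _), fun k hk => ?_⟩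
  have hk1 : k₁ ≤ k := (le_max_left _ _).trans hk
  have hk2 : Real.exp 100 ≤ k := (le_max_right _ _).trans hk
  have hk0 : 0 < k := (Real.exp_pos _).trans_le hk2
  set x := Real.log k with hx
  have hx100 : 100 ≤ x := by
    rw [hx, Real.le_log_iff_exp_le hk0]
    exact hk2
  have hk' : 1 ≤ k := by
    have := Real.add_one_le_exp 100
    linarith
  have hkx : k = Real.exp x := (Real.exp_log hk0).symm
  refine ⟨1, one_pos, ((H k hk1).and_eventually (eventually_ge_atTop 1)).mono ?_⟩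
  rintro N ⟨hN, hN1⟩
  set κ := x / 2 with hκ
  have hκ0 : 0 < κ := by linarith
  obtain ⟨R, hR⟩ := exists_nat_ge (N * Real.log (3 + 2 * Real.pi * k) / κ)
  have hR2 : N * Real.log (3 + 2 * Real.pi * k) ≤ ((2 * (R + 1) : ℕ) : ℝ) * κ := by
    rw [div_le_iff₀ hκ0] at hR
    push_cast
    have : (0 : ℝ) ≤ R := Nat.cast_nonneg R
    nlinarith
  have h := integratedS hk' hκ0 N (2 * (R + 1)) hR2
  have h1 := LR_half hk' N R
  have h2 := hN (R + 1)
  rw [← hx] at h1 h2 h
  rw [← hκ] at h1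
  have hNr : (1 : ℝ) ≤ N := by exact_mod_cast hN1
  set Sg := LR k κ N (2 * (R + 1)) with hSg0
  have hSg : Sg ≤ N * (2 / k + 1 / 5) := by
    have e : (N : ℝ) * (2 / k + 1 / 5) = N * (2 / k) + 2 * (N / 10) := by ring
    rw [e]
    linarith
  have hlog2 : Real.log 2 ≤ 1 := by
    have := Real.log_le_sub_one_of_pos (by norm_num : (0:ℝ) < 2)
    linarith
  have hpi := Real.pi_lt_d2
  have hpi0 := Real.pi_pos
  have hL : Real.log (3 + 2 * Real.pi * k) ≤ x + 9 := by
    have a : 3 + 2 * Real.pi * k ≤ 10 * k := by nlinarith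
    have b := Real.log_le_log (by positivity) a
    rw [Real.log_mul (by norm_num) hk0.ne'] at b
    have c := Real.log_le_sub_one_of_pos (by norm_num : (0:ℝ) < 10)
    linarith
  have hL0 : 0 ≤ Real.log (3 + 2 * Real.pi * k) := Real.log_nonneg (by
    have : 0 ≤ 2 * Real.pi * k := by positivity
    linarith)
  -- `(√k + 1) / k ≤ 16 / x²`
  have he : x ^ 2 / 8 ≤ Real.exp κ := by
    have := Real.quadratic_le_exp_of_nonneg hκ0.le
    rw [hκ] at this ⊢
    nlinarith
  have hkk : k = Real.exp κ * Real.exp κ := by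
    rw [← Real.exp_add, hκ, add_halves]
    exact hkx
  have heκ : 0 < Real.exp κ := Real.exp_pos κ
  have he1 : 1 ≤ Real.exp κ := by nlinarith
  have hB : (Real.exp κ + 1) / k ≤ 16 / x ^ 2 := by
    rw [div_le_div_iff₀ hk0 (by positivity)]
    nlinarith
  have hB2 : (5 * Real.log (3 + 2 * Real.pi * k) + 4 * κ) * ((Real.exp κ + 1) / k) ≤ 2 := by
    have a : 5 * Real.log (3 + 2 * Real.pi * k) + 4 * κ ≤ 7 * x + 45 := by linarith
    have b : 0 ≤ (Real.exp κ + 1) / k := by positivity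
    have c : (7 * x + 45) * (16 / x ^ 2) ≤ 2 := by
      rw [mul_div_assoc', div_le_iff₀ (by positivity)]
      nlinarith
    calc _ ≤ (7 * x + 45) * ((Real.exp κ + 1) / k) := mul_le_mul_of_nonneg_right a b
      _ ≤ (7 * x + 45) * (16 / x ^ 2) := mul_le_mul_of_nonneg_left hB (by linarith)
      _ ≤ 2 := c
  have hC : 4 * κ * Sg ≤ N * (1 + 2 * x / 5) := by
    have a : 4 * κ * Sg ≤ 4 * κ * (N * (2 / k + 1 / 5)) :=
      mul_le_mul_of_nonneg_left hSg (by positivity)
    have b : 4 * κ * (2 / k) ≤ 1 := by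
      rw [mul_div_assoc', div_le_iff₀ hk0]
      nlinarith
    have c : 4 * κ * (N * (2 / k + 1 / 5)) = N * (4 * κ * (2 / k) + 2 * x / 5) := by
      rw [hκ]
      ring
    rw [c] at a
    refine a.trans (mul_le_mul_of_nonneg_left (by linarith) (by linarith))
  have hfin : (1 : ℝ) + 1 ≤ x - 3 - Real.log 2
      - (5 * Real.log (3 + 2 * Real.pi * k) + 4 * κ) * ((Real.exp κ + 1) / k) -
        (1 + 2 * x / 5) := by
    linarith
  have := mul_le_mul_of_nonneg_left hfin (by linarith : (0:ℝ) ≤ N)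
  linarith

/-- **S0172 from the tips of the root contour.** -/
theorem result_of_root
    (H : ∃ k₁ : ℝ, ∀ k : ℝ, k₁ ≤ k → ∃ᶠ N : ℕ in atTop, ∀ R : ℕ,
      LR k (Real.log k) N R ≤ N / 10) :
    ∃ k₀ : ℝ, 0 < k₀ ∧ ∀ k : ℝ, k₀ ≤ k →
      0 < MeasureTheory.volume ({p : ℝ × ℝ | ∃ c : ℝ, 0 < c ∧
          ∃ᶠ n : ℕ in Filter.atTop, c * n ≤ Real.log ‖fderiv ℝ (standardMapLift k)^[n] p‖} ∩
        Set.Ico (0 : ℝ) 1 ×ˢ Set.Ico (0 : ℝ) 1) :=
  result_of_torus (torus_of_root H)

end Crest.Agent.R128.Root603
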