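import Mathlib
import Crest.Agent.R128.Link

/-!
Row 128, node V5-BRIDGE (helper329): LOWER size of the root field at the feet.

862's `Link.root_field_top` gives one two-sided Jacobi field `x` at `y = T^t z` which is bounded ABOVE
by the root contour.  Here: the same field is bounded BELOW by the root contour, up to the second
singular direction `2 * K * exp (-2 β_t)`, `K` a bound for the cocycle from `y` to the time considered.
-/

set_option autoImplicit false
open MeasureTheory Filter Topology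
open Crest.Agent.R128 Crest.Agent.R128.Two Crest.Agent.R128.Acc Crest.Agent.R128.AlignMn
open Crest.Agent.R128.TreeSum Crest.Agent.R128.AlignLam Crest.Agent.R128.Link

namespace Crest.Agent.R128.RootLow

theorem act_add' (M : Matrix (Fin 2) (Fin 2) ℝ) (u v : ℝ × ℝ) :
    act M (u + v) = act M u + act M v := by
  ext <;> simp [act] <;> ring

/-- the wronskian of two images -/
theorem cross_act (M : Matrix (Fin 2) (Fin 2) ℝ) (hM : M.det = 1) (u v : ℝ × ℝ) :
    (act M u).1 * (act M v).2 - (act M u).2 * (act M v).1 = u.1 * v.2 - u.2 * v.1 := by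
  rw [Matrix.det_fin_two] at hM
  have e : (act M u).1 * (act M v).2 - (act M u).2 * (act M v).1 =
      (M 0 0 * M 1 1 - M 0 1 * M 1 0) * (u.1 * v.2 - u.2 * v.1) := by
    simp [act]; ring
  rw [e, hM, one_mul]

/-- decomposition of a vector along a dominating one -/
theorem decomp {u w : ℝ × ℝ} {N D : ℝ} (hN : 0 < N) (hu : ‖u‖ = N) (hw : ‖w‖ ≤ N)
    (hD : |u.1 * w.2 - u.2 * w.1| ≤ D) : ∃ (a : ℝ) (s : ℝ × ℝ), |a| ≤ 1 ∧ ‖s‖ ≤ D / N ∧
      w = a • u + s := by
  have hw1 : |w.1| ≤ N := (norm_fst_le w).trans hw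
  have hw2 : |w.2| ≤ N := (norm_snd_le w).trans hw
  rw [Prod.norm_def] at hu
  simp only [Real.norm_eq_abs] at hu
  have hD0 : 0 ≤ D := (abs_nonneg _).trans hD
  rcases max_choice |u.1| |u.2| with h | h
  · rw [h] at hu
    have hu0 : u.1 ≠ 0 := by
      intro h0; rw [h0, abs_zero] at hu; linarith
    refine ⟨w.1 / u.1, (0, (u.1 * w.2 - u.2 * w.1) / u.1), ?_, ?_, ?_⟩
    · rw [abs_div, hu]
      exact div_le_one_of_le₀ hw1 hN.le
    · rw [Prod.norm_def]
      simp only [norm_zero, Real.norm_eq_abs]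
      apply max_le (by positivity)
      rw [abs_div, hu]
      gcongr
    · ext
      · simp only [Prod.fst_add, Prod.smul_fst, smul_eq_mul, add_zero]
        field_simp
      · simp only [Prod.snd_add, Prod.smul_snd, smul_eq_mul]
        field_simp
        ring
  · rw [h] at hu
    have hu0 : u.2 ≠ 0 := by
      intro h0; rw [h0, abs_zero] at hu; linarith
    refine ⟨w.2 / u.2, (-(u.1 * w.2 - u.2 * w.1) / u.2, 0), ?_, ?_, ?_⟩
    · rw [abs_div, hu]
      exact div_le_one_of_le₀ hw2 hN.le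
    · rw [Prod.norm_def]
      simp only [norm_zero, Real.norm_eq_abs]
      apply max_le _ (by positivity)
      rw [abs_div, abs_neg, hu]
      gcongr
    · ext
      · simp only [Prod.fst_add, Prod.smul_fst, smul_eq_mul]
        field_simp
        ring
      · simp only [Prod.snd_add, Prod.smul_snd, smul_eq_mul, add_zero]
        field_simp

/-- **root field with upper AND lower bound** -/
theorem root_field_low (k : ℝ) (z : Tor) (t : ℕ) : ∃ x : ℤ → ℝ,
    (∀ n, x (n + 1) = dz k ((T k)^[t] z) n * x n - x (n - 1)) ∧ max |x (-1)| |x 0| = 1 ∧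
    (∀ m : ℤ, -(t : ℤ) ≤ m →
      max |x (m - 1)| |x m| ≤ Real.exp (bt (rr k z) (m + t).toNat - bt (rr k z) t)) ∧
    ∀ m : ℤ, -(t : ℤ) ≤ m → ∀ K : ℝ,
      (∀ v : ℝ × ℝ, ‖act (Az k m ((T k)^[t] z)) v‖ ≤ K * ‖v‖) →
      Real.exp (bt (rr k z) (m + t).toNat - bt (rr k z) t) ≤
        max |x (m - 1)| |x m| + 2 * K * Real.exp (-(2 * bt (rr k z) t)) := by
  obtain ⟨e, he1, he2⟩ := exists_max (Mn k t z)
  have hnm : max (rn (Mn k t z) 0) (rn (Mn k t z) 1) = nm k t z := by
    unfold nm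
    rw [rr_succ]
    rfl
  rw [hnm] at he2
  have hp := nm_pos k t z
  have he3 : ‖act (Mn k t z) e‖ = nm k t z := by
    apply le_antisymm _ he2
    refine (norm_act_Mn_le k t z e).trans ?_
    nlinarith
  have key : ∀ m, ‖act (Mn k m z) ((nm k t z)⁻¹ • e)‖ ≤
      Real.exp (bt (rr k z) m - bt (rr k z) t) := by
    intro m
    rw [act_smul, norm_smul, Real.exp_sub, exp_bt, exp_bt, norm_inv, Real.norm_of_nonneg hp.le,
      div_eq_inv_mul]
    apply mul_le_mul_of_nonneg_left _ (inv_nonneg.mpr hp.le)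
    refine (norm_act_Mn_le k m z e).trans ?_
    have := (nm_pos k m z)
    nlinarith
  set v0 : ℝ × ℝ := (nm k t z)⁻¹ • e with hv0
  set y := (T k)^[t] z with hy
  set v := act (Mn k t z) v0 with hv
  have hnorm : ∀ m : ℤ, -(t : ℤ) ≤ m →
      max |xf k y v (m - 1)| |xf k y v m| = ‖act (Mn k (m + t).toNat z) v0‖ := by
    intro m hm
    rw [← norm_act_Az, hy, hv, Az_root k z t v0 hm]
  refine ⟨xf k y v, fun n => xf_succ k y v n, ?_, ?_, ?_⟩
  · have h := hnorm 0 (by omega)
    rw [zero_sub, zero_add, Int.toNat_natCast] at h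
    rw [h, hv0, act_smul, norm_smul, he3, norm_inv, Real.norm_of_nonneg hp.le,
      inv_mul_cancel₀ hp.ne']
  · intro m hm
    rw [hnorm m hm]
    exact key _
  · intro m hm K hK
    rw [hnorm m hm]
    set n := (m + t).toNat with hn
    obtain ⟨e', he1', he2'⟩ := exists_max (Mn k n z)
    have hnm' : max (rn (Mn k n z) 0) (rn (Mn k n z) 1) = nm k n z := by
      unfold nm
      rw [rr_succ]
      rfl
    rw [hnm'] at he2'
    have hK0 : 0 ≤ K := by
      have h := hK (1, 1)
      have h1 : ‖((1 : ℝ), (1 : ℝ))‖ = 1 := by simp [Prod.norm_def]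
      rw [h1, mul_one] at h
      exact (norm_nonneg _).trans h
    have hw : ‖act (Mn k t z) e'‖ ≤ nm k t z := by
      refine (norm_act_Mn_le k t z e').trans ?_
      nlinarith
    have hdet : |(act (Mn k t z) e).1 * (act (Mn k t z) e').2 -
        (act (Mn k t z) e).2 * (act (Mn k t z) e').1| ≤ 2 := by
      rw [cross_act _ (det_Mn k t z)]
      have h1 : |e.1| ≤ 1 := (norm_fst_le e).trans he1
      have h2 : |e.2| ≤ 1 := (norm_snd_le e).trans he1
      have h3 : |e'.1| ≤ 1 := (norm_fst_le e').trans he1'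
      have h4 : |e'.2| ≤ 1 := (norm_snd_le e').trans he1'
      calc |e.1 * e'.2 - e.2 * e'.1| ≤ |e.1 * e'.2| + |e.2 * e'.1| := abs_sub _ _
        _ ≤ 1 * 1 + 1 * 1 := by
            rw [abs_mul, abs_mul]
            gcongr
        _ = 2 := by norm_num
    obtain ⟨a, s, ha, hs, hdec⟩ := decomp hp he3 hw hdet
    -- images at time `n`
    have hAz : ∀ u : ℝ × ℝ, act (Az k m y) (act (Mn k t z) u) = act (Mn k n z) u := fun u => by
      rw [hy]; exact Az_root k z t u hm
    have h5 : act (Mn k n z) e' = a • act (Mn k n z) e + act (Az k m y) s := by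
      rw [← hAz e', hdec, act_add', act_smul, hAz]
    have h6 : nm k n z ≤ ‖act (Mn k n z) e‖ + K * (2 / nm k t z) := by
      refine he2'.trans ?_
      rw [h5]
      refine (norm_add_le _ _).trans (add_le_add ?_ ?_)
      · rw [norm_smul, Real.norm_eq_abs]
        exact mul_le_of_le_one_left (norm_nonneg _) ha
      · exact (hK s).trans (mul_le_mul_of_nonneg_left hs hK0)
    rw [hv0, act_smul, norm_smul, norm_inv, Real.norm_of_nonneg hp.le, Real.exp_sub, exp_bt, exp_bt]
    have h7 : Real.exp (-(2 * bt (rr k z) t)) = (nm k t z)⁻¹ * (nm k t z)⁻¹ := by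
      rw [Real.exp_neg, two_mul, Real.exp_add, exp_bt, mul_inv]
    rw [h7]
    calc nm k n z / nm k t z ≤ (‖act (Mn k n z) e‖ + K * (2 / nm k t z)) / nm k t z := by
          gcongr
      _ = (nm k t z)⁻¹ * ‖act (Mn k n z) e‖ + 2 * K * ((nm k t z)⁻¹ * (nm k t z)⁻¹) := by
          field_simp

/-- at a strict (from the left) top -/
theorem root_field_top_low (k : ℝ) (z : Tor) {t : ℕ} (ht : 0 < t)
    (htop : bt (rr k z) (t - 1) < bt (rr k z) t) : ∃ x : ℤ → ℝ,
    (∀ n, x (n + 1) = dz k ((T k)^[t] z) n * x n - x (n - 1)) ∧ |x 0| = 1 ∧ |x (-1)| < 1 ∧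
    (∀ m : ℤ, -(t : ℤ) ≤ m →
      max |x (m - 1)| |x m| ≤ Real.exp (bt (rr k z) (m + t).toNat - bt (rr k z) t)) ∧
    ∀ m : ℤ, -(t : ℤ) ≤ m → ∀ K : ℝ,
      (∀ v : ℝ × ℝ, ‖act (Az k m ((T k)^[t] z)) v‖ ≤ K * ‖v‖) →
      Real.exp (bt (rr k z) (m + t).toNat - bt (rr k z) t) ≤
        max |x (m - 1)| |x m| + 2 * K * Real.exp (-(2 * bt (rr k z) t)) := by
  obtain ⟨x, hx, h1, h2, h4⟩ := root_field_low k z t
  have h3 : |x (-1)| < 1 := by
    have h := h2 (-1) (by omega)
    have e : ((-1 : ℤ) + t).toNat = t - 1 := by omega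
    rw [e] at h
    refine (le_max_right _ _).trans_lt (h.trans_lt ?_)
    rw [← Real.exp_zero]
    exact Real.exp_lt_exp.mpr (by linarith)
  refine ⟨x, hx, ?_, h3, h2, h4⟩
  rcases max_choice |x (-1)| |x 0| with h | h
  · rw [h] at h1
    linarith
  · rw [h] at h1
    exact h1

/-- the numeric step: at a foot of level `lam ≥ 5 κ` the root field is at least `exp (-ρ - 3 κ)`,
`ρ = β_t - lam` -/
theorem lo_of_K {b lam κ J K s β : ℝ} (hκ : 5 ≤ κ) (hJ : J ≤ κ + 3) (hlam : 5 * κ ≤ lam)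
    (hβ : lam - J ≤ β) (hK : K ≤ Real.exp (b - lam + 6 * κ))
    (h : Real.exp (β - b) ≤ s + 2 * K * Real.exp (-(2 * b))) :
    Real.exp (-(b - lam) - 3 * κ) ≤ s := by
  have h1 : 2 * K * Real.exp (-(2 * b)) ≤ 2 * Real.exp (-b - lam + 6 * κ) := by
    have h2 : Real.exp (b - lam + 6 * κ) * Real.exp (-(2 * b)) = Real.exp (-b - lam + 6 * κ) := by
      rw [← Real.exp_add]; congr 1; ring
    have h3 := mul_le_mul_of_nonneg_right hK (Real.exp_pos (-(2 * b))).le
    rw [h2] at h3
    linarith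
  have h2 : Real.exp (-(b - lam) - κ - 3) ≤ Real.exp (β - b) :=
    Real.exp_le_exp.mpr (by linarith)
  have h3 : Real.exp (-b - lam + 6 * κ) ≤ Real.exp (-(b - lam) - 3 * κ) :=
    Real.exp_le_exp.mpr (by nlinarith)
  have h4 : 3 * Real.exp (-(b - lam) - 3 * κ) ≤ Real.exp (-(b - lam) - κ - 3) := by
    have e1 : Real.exp (-(b - lam) - κ - 3) =
        Real.exp (2 * κ - 3) * Real.exp (-(b - lam) - 3 * κ) := by
      rw [← Real.exp_add]; congr 1; ring
    have e2 : (3 : ℝ) ≤ Real.exp (2 * κ - 3) := by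
      have := Real.add_one_le_exp (2 * κ - 3)
      linarith
    rw [e1]
    exact mul_le_mul_of_nonneg_right e2 (Real.exp_pos _).le
  linarith

end Crest.Agent.R128.RootLow
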