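import Crest.Agent.R128.AccSeq
import Crest.Agent.R128.Tips

/-!
# Row 128: single cover in root form (helper908)

`f` is the contour seen from one root (`f n = d 0 n`).  A start `s` whose forward path violates the
drop condition has an `x`-peak or an `x`-valley of `f` inside its window (`osc`, `osc_hyp`).  Valleys
interlace with peaks (`bot_le_top`).  With "one start per level" the number of such starts is at most
`C (A + B + 1) ∑ r, (2 #(tops of persistence ≥ r κ) + 1)` (`single_cover`).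
-/

set_option autoImplicit false
open Finset

namespace Crest.Agent.R128.RootTip

open Crest.Agent.R128.Acc (Top)
open Crest.Agent.R128.Tips (IsHyp gp chain)

/-- two-sided drop `x` inside `[s, m]` -/
def Peak (f : ℕ → ℝ) (x : ℝ) (s m : ℕ) : Prop :=
  ∃ u v w, s ≤ u ∧ u ≤ v ∧ v ≤ w ∧ w ≤ m ∧ f u + x ≤ f v ∧ f w + x ≤ f v

/-- two-sided rise `x` inside `[s, m]` -/
def Valley (f : ℕ → ℝ) (x : ℝ) (s m : ℕ) : Prop :=
  ∃ u v w, s ≤ u ∧ u ≤ v ∧ v ≤ w ∧ w ≤ m ∧ f v + x ≤ f u ∧ f v + x ≤ f w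

theorem valley_iff {f : ℕ → ℝ} {x : ℝ} {s m : ℕ} :
    Valley f x s m ↔ Peak (fun n => -f n) x s m := by
  constructor
  · rintro ⟨u, v, w, h1, h2, h3, h4, h5, h6⟩
    exact ⟨u, v, w, h1, h2, h3, h4, by simp only; linarith, by simp only; linarith⟩
  · rintro ⟨u, v, w, h1, h2, h3, h4, h5, h6⟩
    exact ⟨u, v, w, h1, h2, h3, h4, by simp only at h5; linarith, by simp only at h6; linarith⟩

theorem Peak.mono {f : ℕ → ℝ} {x x' : ℝ} {s m s' m' : ℕ} (h : Peak f x s m) (hx : x' ≤ x)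
    (hs : s' ≤ s) (hm : m ≤ m') : Peak f x' s' m' := by
  obtain ⟨u, v, w, h1, h2, h3, h4, h5, h6⟩ := h
  exact ⟨u, v, w, by omega, h2, h3, by omega, by linarith, by linarith⟩

theorem Valley.mono {f : ℕ → ℝ} {x x' : ℝ} {s m s' m' : ℕ} (h : Valley f x s m) (hx : x' ≤ x)
    (hs : s' ≤ s) (hm : m ≤ m') : Valley f x' s' m' := by
  obtain ⟨u, v, w, h1, h2, h3, h4, h5, h6⟩ := h
  exact ⟨u, v, w, by omega, h2, h3, by omega, by linarith, by linarith⟩

/-- without peaks and valleys the function is almost monotone -/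
theorem almost_monotone {f : ℕ → ℝ} {x : ℝ} {s m : ℕ} (hsm : s ≤ m)
    (hP : ¬ Peak f x s m) (hV : ¬ Valley f x s m) :
    (∀ a b, s ≤ a → a ≤ b → b ≤ m → f a - f b < x) ∨
      (∀ a b, s ≤ a → a ≤ b → b ≤ m → f b - f a < x) := by
  obtain ⟨p, hp, hpmax⟩ := (Finset.Icc s m).exists_max_image f ⟨s, Finset.mem_Icc.mpr ⟨le_rfl, hsm⟩⟩
  obtain ⟨q, hq, hqmin⟩ := (Finset.Icc s m).exists_min_image f ⟨s, Finset.mem_Icc.mpr ⟨le_rfl, hsm⟩⟩
  rw [Finset.mem_Icc] at hp hq
  rcases le_total q p with hqp | hpq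
  · left
    intro a b ha hab hb
    by_contra hc
    push Not at hc
    have ma := hqmin a (Finset.mem_Icc.mpr ⟨ha, by omega⟩)
    have mb := hqmin b (Finset.mem_Icc.mpr ⟨by omega, hb⟩)
    have Ma := hpmax a (Finset.mem_Icc.mpr ⟨ha, by omega⟩)
    have Mb := hpmax b (Finset.mem_Icc.mpr ⟨by omega, hb⟩)
    rcases le_or_gt b p with hbp | hbp
    · exact hV ⟨a, b, p, ha, hab, hbp, hp.2, by linarith, by linarith⟩
    · rcases le_or_gt q a with hqa | hqa
      · exact hP ⟨q, a, b, hq.1, hqa, hab, hb, by linarith, by linarith⟩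
      · exact hP ⟨q, p, b, hq.1, hqp, hbp.le, hb, by linarith, by linarith⟩
  · right
    intro a b ha hab hb
    by_contra hc
    push Not at hc
    have ma := hqmin a (Finset.mem_Icc.mpr ⟨ha, by omega⟩)
    have mb := hqmin b (Finset.mem_Icc.mpr ⟨by omega, hb⟩)
    have Ma := hpmax a (Finset.mem_Icc.mpr ⟨ha, by omega⟩)
    have Mb := hpmax b (Finset.mem_Icc.mpr ⟨by omega, hb⟩)
    rcases le_or_gt b q with hbq | hbq
    · exact hP ⟨a, b, q, ha, hab, hbq, hq.2, by linarith, by linarith⟩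
    · rcases le_or_gt p a with hpa | hpa
      · exact hV ⟨p, a, b, hp.1, hpa, hab, hb, by linarith, by linarith⟩
      · exact hV ⟨p, q, b, hp.1, hpq, hbq.le, hb, by linarith, by linarith⟩

/-- **a drop seen from the start is a peak or a valley of the root contour** -/
theorem osc {f : ℕ → ℝ} {d : ℕ → ℕ → ℝ} {x c D y : ℝ} {s p m : ℕ} (hsp : s ≤ p) (hpm : p ≤ m)
    (hlow : |f s - f m| ≤ d s m)
    (hup : ∀ μ, (∀ n, s ≤ n → n ≤ p → μ ≤ f n) → d s p ≤ f s + f p - 2 * μ + c)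
    (hD : D ≤ d s p) (hm : d s m ≤ D - y) (hy : 3 * x + c < y) :
    Peak f x s m ∨ Valley f x s m := by
  by_contra hc
  rw [not_or] at hc
  rw [abs_le] at hlow
  rcases almost_monotone (hsp.trans hpm) hc.1 hc.2 with h | h
  · have h1 := hup (f s - x) (fun n h1 h2 => by
      have := h s n le_rfl h1 (h2.trans hpm)
      linarith)
    have h2 := h p m hsp hpm le_rfl
    linarith [hlow.1, hlow.2]
  · have h1 := hup (f p - x) (fun n h1 h2 => by
      have := h n p h1 h2 hpm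
      linarith)
    have h2 := h p m hsp hpm le_rfl
    linarith [hlow.1, hlow.2]

/-- upper bound of the distance by the contour -/
theorem dist_le {d : ℕ → ℕ → ℝ} {δ B : ℝ} (h : IsHyp d δ B) {a b n : ℕ} (hab : a < b)
    (hn : b - a ≤ 2 ^ n) (μ : ℝ) (hμ : ∀ m, a ≤ m → m ≤ b → μ ≤ d 0 m) :
    d a b ≤ d 0 a + d 0 b - 2 * μ + (B + 2 * (n * δ)) := by
  refine le_of_forall_pos_le_add fun ε hε => ?_
  have hc : ∀ i < b - a, μ - B / 2 - ε / 2 < gp d (a + i) (a + (i + 1)) 0 := by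
    intro i hi
    unfold gp
    have h1 := hμ (a + i) (by omega) (by omega)
    have h2 := hμ (a + (i + 1)) (by omega) (by omega)
    have h3 := h.step (a + i)
    rw [h.symm (a + i) 0, h.symm (a + (i + 1)) 0]
    have h4 : d (a + i) (a + (i + 1)) ≤ B := h3
    linarith
  have := chain h 0 (μ - B / 2 - ε / 2) n (b - a) (fun i => a + i) hn (by omega) hc
  simp only [add_zero] at this
  rw [show a + (b - a) = b by omega] at this
  unfold gp at this
  rw [h.symm a 0, h.symm b 0] at this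
  linarith

/-- `osc` in a hyperbolic pseudo-metric -/
theorem osc_hyp {d : ℕ → ℕ → ℝ} {δ B x D y : ℝ} (h : IsHyp d δ B) (hB : 0 ≤ B) {s p m n : ℕ}
    (hsp : s ≤ p) (hpm : p ≤ m) (hn : p - s ≤ 2 ^ n)
    (hD : D ≤ d s p) (hm : d s m ≤ D - y) (hy : 3 * x + (B + 2 * (n * δ)) < y) :
    Peak (d 0) x s m ∨ Valley (d 0) x s m := by
  refine osc (d := d) (c := B + 2 * (n * δ)) hsp hpm ?_ ?_ hD hm hy
  · rw [abs_le]
    constructor
    · have := h.tri 0 s m
      linarith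
    · have := h.tri 0 m s
      rw [h.symm m s] at this
      linarith
  · intro μ hμ
    rcases hsp.lt_or_eq with h1 | h1
    · exact dist_le h h1 hn μ hμ
    · subst h1
      have h2 := hμ s le_rfl le_rfl
      rw [h.self]
      have h3 := h.δ_nonneg
      have h4 : (0 : ℝ) ≤ n * δ := by positivity
      linarith

/-! ## Counting -/

/-- first top of a window of depth `r κ` -/
def FTop (f : ℕ → ℝ) (κ : ℝ) (N t r : ℕ) : Prop :=
  ∃ a b, a < t ∧ t < b ∧ b ≤ N ∧ f a ≤ f t - r * κ ∧ f b ≤ f t - r * κ ∧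
    (∀ m, a ≤ m → m < t → f m < f t) ∧ (∀ m, t ≤ m → m ≤ b → f m ≤ f t)

theorem FTop.top {f : ℕ → ℝ} {κ : ℝ} {N t r : ℕ} (h : FTop f κ N t r) : Top f κ N t r := by
  obtain ⟨a, b, h1, h2, h3, h4, h5, h6, h7⟩ := h
  refine ⟨a, b, h1, h2, h3, h4, h5, fun m hm1 hm2 => ?_, h6 (t - 1) (by omega) (by omega)⟩
  rcases lt_or_ge m t with h8 | h8
  · exact (h6 m hm1 h8).le
  · exact h7 m h8 hm2

theorem FTop.anti {f : ℕ → ℝ} {κ : ℝ} (hκ : 0 ≤ κ) {N t r r' : ℕ} (hr : r' ≤ r)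
    (h : FTop f κ N t r) : FTop f κ N t r' := by
  obtain ⟨a, b, h1, h2, h3, h4, h5, h6, h7⟩ := h
  have : (r' : ℝ) * κ ≤ r * κ := mul_le_mul_of_nonneg_right (by exact_mod_cast hr) hκ
  exact ⟨a, b, h1, h2, h3, by linarith, by linarith, h6, h7⟩

theorem exists_fTop {f : ℕ → ℝ} {κ x : ℝ} {s m N r : ℕ} (h : Peak f x s m) (hmN : m ≤ N)
    (hx : 0 < x) (hr : r * κ ≤ x) : ∃ t, s < t ∧ t < m ∧ FTop f κ N t r := by
  classical
  obtain ⟨u, v, w, h1, h2, h3, h4, h5, h6⟩ := h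
  have hex : ∃ t, u ≤ t ∧ t ≤ w ∧ ∀ n, u ≤ n → n ≤ w → f n ≤ f t := by
    obtain ⟨t, ht, hmax⟩ := (Finset.Icc u w).exists_max_image f
      ⟨u, Finset.mem_Icc.mpr ⟨le_rfl, by omega⟩⟩
    rw [Finset.mem_Icc] at ht
    exact ⟨t, ht.1, ht.2, fun n hn1 hn2 => hmax n (Finset.mem_Icc.mpr ⟨hn1, hn2⟩)⟩
  obtain ⟨hut, htw, hmax⟩ := Nat.find_spec hex
  set t := Nat.find hex with ht
  have hvt := hmax v h2 h3
  have h7 : t ≠ u := by
    intro he
    rw [he] at hvt
    linarith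
  have h8 : t ≠ w := by
    intro he
    rw [he] at hvt
    linarith
  refine ⟨t, by omega, by omega, u, w, by omega, by omega, by omega, by linarith, by linarith, ?_,
    fun n hn1 hn2 => hmax n (by omega) hn2⟩
  intro n hn1 hn2
  by_contra hc
  push Not at hc
  have : u ≤ n ∧ n ≤ w ∧ ∀ n', u ≤ n' → n' ≤ w → f n' ≤ f n :=
    ⟨hn1, by omega, fun n' a b => (hmax n' a b).trans hc⟩
  have := Nat.find_min' hex this
  omega

theorem between {f : ℕ → ℝ} {κ : ℝ} {N r V1 V2 : ℕ} (hκ : 0 < r * κ) (h12 : V1 < V2)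
    (h1 : FTop (fun n => -f n) κ N V1 r) (h2 : FTop (fun n => -f n) κ N V2 r) :
    Peak f (r * κ) V1 V2 := by
  obtain ⟨a1, b1, p1, p2, p3, p4, p5, p6, p7⟩ := h1
  obtain ⟨a2, b2, q1, q2, q3, q4, q5, q6, q7⟩ := h2
  simp only at p4 p5 p6 p7 q4 q5 q6 q7
  rcases lt_or_ge V1 a2 with hA | hA
  · rcases lt_or_ge b1 V2 with hB | hB
    · rcases le_total (f a2) (f b1) with h | h
      · exact ⟨V1, b1, V2, le_rfl, by omega, by omega, le_rfl, by linarith, by linarith⟩
      · exact ⟨V1, a2, V2, le_rfl, by omega, by omega, le_rfl, by linarith, by linarith⟩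
    · have h := p7 V2 (by omega) hB
      exact ⟨V1, a2, V2, le_rfl, by omega, by omega, le_rfl, by linarith, by linarith⟩
  · have h := q6 V1 hA h12
    rcases lt_or_ge b1 V2 with hB | hB
    · exact ⟨V1, b1, V2, le_rfl, by omega, by omega, le_rfl, by linarith, by linarith⟩
    · have h' := p7 V2 (by omega) hB
      linarith

open Classical in
/-- valleys interlace with peaks -/
theorem bot_le_top {f : ℕ → ℝ} {κ : ℝ} {N r : ℕ} (hκ : 0 < κ) (hr : 1 ≤ r) :
    #{v ∈ range N | FTop (fun n => -f n) κ N v r} ≤ #{t ∈ range N | FTop f κ N t r} + 1 := by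
  have hrκ : 0 < (r : ℝ) * κ := mul_pos (by exact_mod_cast hr) hκ
  apply Finset.card_le_of_interleaved
  intro a ha b hb hab _
  rw [Finset.mem_filter, Finset.mem_range] at ha hb
  obtain ⟨t, h1, h2, h3⟩ := exists_fTop (between hrκ hab ha.2 hb.2) (hb.1.le) hrκ le_rfl
  exact ⟨t, by rw [Finset.mem_filter, Finset.mem_range]; exact ⟨by omega, h3⟩, h1, h2⟩

open Classical in
theorem charge {P : ℕ → ℕ → Prop} (anti : ∀ t r r', r' ≤ r → P t r → P t r')
    (S : Finset ℕ) (t r c : ℕ → ℕ) {R N A B C : ℕ} (ht : ∀ s ∈ S, t s < N)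
    (hP : ∀ s ∈ S, P (t s) (r s)) (h1 : ∀ s ∈ S, 1 ≤ r s) (hR : ∀ s ∈ S, r s ≤ R)
    (hc : ∀ s ∈ S, c s ≤ A * r s + B)
    (hone : ∀ a b, #{s ∈ S | t s = a ∧ c s = b} ≤ C) :
    S.card ≤ C * ((A + B + 1) * ∑ ρ ∈ Icc 1 R, #{a ∈ range N | P a ρ}) := by
  set ρ : ℕ → ℕ := fun a => #{r ∈ Icc 1 R | P a r} with hρ
  have hle : ∀ s ∈ S, r s ≤ ρ (t s) := by
    intro s hs
    have : Icc 1 (r s) ⊆ {r' ∈ Icc 1 R | P (t s) r'} := by
      intro r' hr'
      rw [Finset.mem_Icc] at hr'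
      rw [Finset.mem_filter, Finset.mem_Icc]
      exact ⟨⟨hr'.1, hr'.2.trans (hR s hs)⟩, anti _ _ _ hr'.2 (hP s hs)⟩
    have := Finset.card_le_card this
    rw [Nat.card_Icc] at this
    simpa [hρ] using this
  have hS := Finset.card_le_mul_card_image (f := fun s => (t s, c s)) S C (by
    intro a _
    refine le_trans (Finset.card_le_card ?_) (hone a.1 a.2)
    intro s hs
    rw [Finset.mem_filter] at hs ⊢
    refine ⟨hs.1, ?_, ?_⟩
    · rw [← hs.2]
    · rw [← hs.2])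
  refine hS.trans (Nat.mul_le_mul_left C ?_)
  have hsub : S.image (fun s => (t s, c s)) ⊆
      ((range N).filter (fun a => 1 ≤ ρ a)).biUnion
        (fun a => (range (A * ρ a + B + 1)).image (fun b => (a, b))) := by
    intro ab hab
    rw [Finset.mem_image] at hab
    obtain ⟨s, hs, rfl⟩ := hab
    rw [Finset.mem_biUnion]
    refine ⟨t s, ?_, ?_⟩
    · rw [Finset.mem_filter, Finset.mem_range]
      exact ⟨ht s hs, (h1 s hs).trans (hle s hs)⟩
    · rw [Finset.mem_image]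
      refine ⟨c s, ?_, rfl⟩
      rw [Finset.mem_range]
      have := hc s hs
      have := Nat.mul_le_mul_left A (hle s hs)
      omega
  calc (S.image (fun s => (t s, c s))).card ≤ _ := Finset.card_le_card hsub
    _ ≤ ∑ a ∈ (range N).filter (fun a => 1 ≤ ρ a),
        ((range (A * ρ a + B + 1)).image (fun b => (a, b))).card := Finset.card_biUnion_le
    _ ≤ ∑ a ∈ (range N).filter (fun a => 1 ≤ ρ a), (A + B + 1) * ρ a := by
      refine Finset.sum_le_sum fun a ha => ?_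
      rw [Finset.mem_filter] at ha
      refine Finset.card_image_le.trans ?_
      rw [Finset.card_range]
      nlinarith [ha.2]
    _ ≤ ∑ a ∈ range N, (A + B + 1) * ρ a :=
      Finset.sum_le_sum_of_subset (Finset.filter_subset _ _)
    _ = (A + B + 1) * ∑ a ∈ range N, ρ a := by rw [Finset.mul_sum]
    _ = (A + B + 1) * ∑ ρ ∈ Icc 1 R, #{a ∈ range N | P a ρ} := by
      congr 1
      simp only [hρ, Finset.card_filter]
      rw [Finset.sum_comm]

open Classical in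
/-- **single cover in root form** -/
theorem single_cover {f : ℕ → ℝ} {κ : ℝ} (hκ : 0 < κ) {N R A B C : ℕ} (S : Finset ℕ)
    (m r : ℕ → ℕ) (cl : ℕ → ℕ → ℕ) (hm : ∀ s ∈ S, m s ≤ N) (h1 : ∀ s ∈ S, 1 ≤ r s)
    (hR : ∀ s ∈ S, r s ≤ R)
    (hpv : ∀ s ∈ S, Peak f (r s * κ) s (m s) ∨ Valley f (r s * κ) s (m s))
    (hcl : ∀ s ∈ S, ∀ w, s < w → w < m s → cl s w ≤ A * r s + B)
    (hone : ∀ w c, #{s ∈ S | s < w ∧ w < m s ∧ cl s w = c} ≤ C) :
    S.card ≤ C * ((A + B + 1) *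
      ∑ r ∈ Icc 1 R, (2 * #{t ∈ range N | FTop f κ N t r} + 1)) := by
  have hpos : ∀ s ∈ S, 0 < (r s : ℝ) * κ := fun s hs =>
    mul_pos (by exact_mod_cast h1 s hs) hκ
  have key : ∀ g : ℕ → ℝ, ∀ S' ⊆ S, (∀ s ∈ S', Peak g (r s * κ) s (m s)) →
      S'.card ≤ C * ((A + B + 1) * ∑ r ∈ Icc 1 R, #{t ∈ range N | FTop g κ N t r}) := by
    intro g S' hS' hg
    have hex : ∀ s, ∃ t, s ∈ S' → s < t ∧ t < m s ∧ FTop g κ N t (r s) := by
      intro s
      by_cases hs : s ∈ S'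
      · obtain ⟨t, ht⟩ := exists_fTop (κ := κ) (r := r s) (hg s hs) (hm s (hS' hs))
          (hpos s (hS' hs)) le_rfl
        exact ⟨t, fun _ => ht⟩
      · exact ⟨0, fun h => absurd h hs⟩
    choose t ht using hex
    refine charge (P := fun a r => FTop g κ N a r) (fun _ _ _ h h' => FTop.anti hκ.le h h') S' t r
      (fun s => cl s (t s)) (fun s hs => ?_) (fun s hs => (ht s hs).2.2)
      (fun s hs => h1 s (hS' hs)) (fun s hs => hR s (hS' hs))
      (fun s hs => hcl s (hS' hs) _ (ht s hs).1 (ht s hs).2.1) ?_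
    · have := hm s (hS' hs)
      have := (ht s hs).2.1
      omega
    · intro a b
      refine le_trans (Finset.card_le_card ?_) (hone a b)
      intro s hs
      rw [Finset.mem_filter] at hs ⊢
      obtain ⟨h3, h4, h5⟩ := hs
      have := ht s h3
      rw [h4] at this
      refine ⟨hS' h3, this.1, this.2.1, ?_⟩
      rw [← h5, h4]
  have hP := key f (S.filter (fun s => Peak f (r s * κ) s (m s))) (Finset.filter_subset _ _)
    (fun s hs => (Finset.mem_filter.mp hs).2)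
  have hV := key (fun n => -f n) (S.filter (fun s => ¬ Peak f (r s * κ) s (m s)))
    (Finset.filter_subset _ _) (fun s hs => by
      rw [Finset.mem_filter] at hs
      exact valley_iff.mp ((hpv s hs.1).resolve_left hs.2))
  have hsum : ∑ r ∈ Icc 1 R, #{t ∈ range N | FTop (fun n => -f n) κ N t r} ≤
      ∑ r ∈ Icc 1 R, (#{t ∈ range N | FTop f κ N t r} + 1) :=
    Finset.sum_le_sum fun r hr => bot_le_top hκ (Finset.mem_Icc.mp hr).1
  have hcard := Finset.card_filter_add_card_filter_not (s := S)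
    (fun s => Peak f (r s * κ) s (m s))
  have h3 : C * ((A + B + 1) * ∑ r ∈ Icc 1 R, #{t ∈ range N | FTop (fun n => -f n) κ N t r}) ≤
      C * ((A + B + 1) * ∑ r ∈ Icc 1 R, (#{t ∈ range N | FTop f κ N t r} + 1)) :=
    Nat.mul_le_mul_left _ (Nat.mul_le_mul_left _ hsum)
  calc S.card = _ := hcard.symm
    _ ≤ C * ((A + B + 1) * ∑ r ∈ Icc 1 R, #{t ∈ range N | FTop f κ N t r}) +
        C * ((A + B + 1) * ∑ r ∈ Icc 1 R, (#{t ∈ range N | FTop f κ N t r} + 1)) :=
      Nat.add_le_add hP (hV.trans h3)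
    _ = C * ((A + B + 1) * (∑ r ∈ Icc 1 R, #{t ∈ range N | FTop f κ N t r} +
        ∑ r ∈ Icc 1 R, (#{t ∈ range N | FTop f κ N t r} + 1))) := by ring
    _ = _ := by
      rw [← Finset.sum_add_distrib]
      congr 2
      refine Finset.sum_congr rfl fun r _ => ?_
      ring

end Crest.Agent.R128.RootTip
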