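import Mathlib

/-!
Row 128, roughness at a doubly free state, elementary one-level version (helper7):
four poles and a third difference.
-/

set_option autoImplicit false

open Real MeasureTheory Set

namespace Crest.Agent.R128.Rough2

/-- the digit `V k x` -/
noncomputable def aa (k x : ℝ) : ℝ := 2 + 2 * π * k * cos (2 * π * x)

lemma sin_app {x : ℝ} (hx : |x| ≤ 1) : |sin x - x| ≤ |x| ^ 3 / 4 := by
  have key : ∀ y : ℝ, 0 < y → y ≤ 1 → |sin y - y| ≤ y ^ 3 / 4 := by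
    intro y h0 h1
    have a1 := Real.sin_gt_sub_cube h0
    have a2 := Real.sin_lt h0
    rw [abs_le]; constructor <;> nlinarith [pow_pos h0 3]
  rcases lt_trichotomy x 0 with h | h | h
  · have := key (-x) (by linarith) (by rw [abs_of_neg h] at hx; exact hx)
    rw [Real.sin_neg] at this
    rw [abs_of_neg h]
    have e : sin x - x = -(-sin x - -x) := by ring
    rw [e, abs_neg]; exact this
  · subst h; simp
  · have := key x h (by rw [abs_of_pos h] at hx; exact hx)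
    rw [abs_of_pos h]; exact this

/-- an argument with small cosine is near an odd quarter -/
lemma quarter {q C : ℝ} (hC : cos (2 * π * q) = C) :
    ∃ (τ : ℝ) (N : ℤ) (z : ℝ), (τ = 1 ∨ τ = -1) ∧ q = τ / 4 + N + z ∧ |z| ≤ |C| / 4 ∧
      C = -τ * sin (2 * π * z) := by
  set m : ℤ := round (2 * (q - 1 / 4)) with hm
  set z : ℝ := q - 1 / 4 - m / 2 with hz
  have hz1 : |z| ≤ 1 / 4 := by
    have := abs_sub_round (2 * (q - 1 / 4))
    rw [← hm] at this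
    have e : z = (2 * (q - 1 / 4) - m) / 2 := by rw [hz]; ring
    rw [e, abs_div, abs_two]; linarith
  have hpi := Real.pi_pos
  have key : ∀ (τ : ℝ) (N : ℤ), (τ = 1 ∨ τ = -1) → q = τ / 4 + N + z →
      |z| ≤ |C| / 4 ∧ C = -τ * sin (2 * π * z) := by
    intro τ N hτ hq
    have h1 : C = -τ * sin (2 * π * z) := by
      rw [← hC, hq]
      have e : 2 * π * (τ / 4 + N + z) = (2 * π * z + τ * (π / 2)) + N * (2 * π) := by ring
      rw [e, Real.cos_add_int_mul_two_pi]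
      rcases hτ with h | h <;> subst h
      · rw [one_mul, Real.cos_add_pi_div_two]; ring
      · have e2 : 2 * π * z + -1 * (π / 2) = 2 * π * z - π / 2 := by ring
        rw [e2, Real.cos_sub_pi_div_two]; ring
    refine ⟨?_, h1⟩
    have h2 : |C| = |sin (2 * π * z)| := by
      rw [h1, abs_mul, abs_neg]
      rcases hτ with h | h <;> subst h <;> simp
    have h3 : 2 / π * |2 * π * z| ≤ |sin (2 * π * z)| := by
      apply Real.mul_abs_le_abs_sin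
      rw [abs_mul, abs_of_pos (by positivity : (0:ℝ) < 2 * π)]
      nlinarith
    have h4 : 2 / π * |2 * π * z| = 4 * |z| := by
      rw [abs_mul, abs_of_pos (by positivity : (0:ℝ) < 2 * π)]
      field_simp; ring
    rw [h4] at h3
    rw [h2]; linarith
  rcases Int.even_or_odd m with he | ho
  · obtain ⟨N, hN⟩ := he
    have hq : q = (1:ℝ) / 4 + N + z := by
      rw [hz, hN]; push_cast; ring
    exact ⟨1, N, z, Or.inl rfl, hq, key 1 N (Or.inl rfl) hq⟩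
  · obtain ⟨N, hN⟩ := ho
    have hq : q = (-1:ℝ) / 4 + (N + 1 : ℤ) + z := by
      rw [hz, hN]; push_cast; ring
    exact ⟨-1, N + 1, z, Or.inr rfl, hq, key (-1) (N + 1) (Or.inr rfl) hq⟩


/-- numerical bounds for `π` used below -/
lemma pi_bds : 3 < π ∧ π < 3.142 := ⟨Real.pi_gt_three, by linarith [Real.pi_lt_d4]⟩

set_option maxHeartbeats 1000000 in
/-- the algebra at one point near a pole, in scaled variables
(`u = ε^11 (U - p)`, `v = ε^11 (V - p')`, `w` small). -/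
lemma alg {ε r β g u v Y σ d : ℝ} (hε0 : 0 < ε) (hε : ε ≤ 1 / 1000) (hr0 : 0 < r) (hr1 : r ≤ 1)
    (hβ : |β| ≤ 1) (hY : |Y| ≤ 1) (hY' : 1 / 4 ≤ |Y|) (hσ : σ = 1 ∨ σ = -1)
    (hu : u = 2 * ε ^ 11 - 4 * π ^ 2 * σ * Y + d) (hd : |d| ≤ 2 * ε ^ 14)
    (hv : v ≠ 0) (hg : |g| ≤ 2 * ε ^ 14)
    (heq : 1 / u + r / v = -β * ε ^ 8 + g) :
    |v + 2 * r * ε ^ 11 - 4 * π ^ 2 * r * σ * Y - 16 * π ^ 4 * r * β * ε ^ 8 * Y ^ 2|
      ≤ 3400 * ε ^ 14 := by
  obtain ⟨p1, p2⟩ := pi_bds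
  have hp2l : 9 < π ^ 2 := by nlinarith
  have hp2u : π ^ 2 < 9.8722 := by nlinarith
  have hσ2 : σ ^ 2 = 1 := by rcases hσ with h | h <;> subst h <;> norm_num
  have hσa : |σ| = 1 := by rcases hσ with h | h <;> subst h <;> simp
  have e11 : ε ^ 11 ≤ 1 / 10 ^ 33 := by
    calc ε ^ 11 ≤ (1 / 1000) ^ 11 := by gcongr
      _ = 1 / 10 ^ 33 := by norm_num
  have e8 : ε ^ 8 ≤ 1 / 10 ^ 24 := by
    calc ε ^ 8 ≤ (1 / 1000) ^ 8 := by gcongr
      _ = 1 / 10 ^ 24 := by norm_num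
  have e3 : ε ^ 3 ≤ 1 / 10 ^ 9 := by
    calc ε ^ 3 ≤ (1 / 1000) ^ 3 := by gcongr
      _ = 1 / 10 ^ 9 := by norm_num
  have e2 : ε ^ 2 ≤ 1 / 10 ^ 6 := by
    calc ε ^ 2 ≤ (1 / 1000) ^ 2 := by gcongr
      _ = 1 / 10 ^ 6 := by norm_num
  have e11p : 0 < ε ^ 11 := by positivity
  have e8p : 0 < ε ^ 8 := by positivity
  have e14p : 0 < ε ^ 14 := by positivity
  have e14_11 : ε ^ 14 = ε ^ 11 * ε ^ 3 := by ring
  have e14s : ε ^ 14 ≤ ε ^ 11 * (1 / 10 ^ 9) := by rw [e14_11]; gcongr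
  have e6 : ε ^ 6 ≤ 1 / 10 ^ 18 := by
    calc ε ^ 6 ≤ (1 / 1000) ^ 6 := by gcongr
      _ = 1 / 10 ^ 18 := by norm_num
  have e14t : ε ^ 14 ≤ ε ^ 8 * (1 / 10 ^ 18) := by
    have : ε ^ 14 = ε ^ 8 * ε ^ 6 := by ring
    rw [this]; gcongr
  -- decompose `u`
  set L : ℝ := 4 * π ^ 2 * σ * Y with hL
  set δ : ℝ := 2 * ε ^ 11 + d with hδ
  have huL : u = δ - L := by rw [hu, hδ, hL]; ring
  have hLabs : |L| = 4 * π ^ 2 * |Y| := by
    rw [hL, abs_mul, abs_mul, hσa, abs_of_pos (by positivity : (0:ℝ) < 4 * π ^ 2)]; ring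
  have hL1 : |L| ≤ 39.49 := by rw [hLabs]; nlinarith [abs_nonneg Y]
  have hL2 : 9 ≤ |L| := by rw [hLabs]; nlinarith [abs_nonneg Y]
  have hδa : |δ| ≤ 3 * ε ^ 11 := by
    calc |δ| ≤ |2 * ε ^ 11| + |d| := abs_add_le _ _
      _ ≤ 2 * ε ^ 11 + 2 * ε ^ 14 := by
          rw [abs_of_pos (by positivity : (0:ℝ) < 2 * ε ^ 11)]; linarith
      _ ≤ 3 * ε ^ 11 := by linarith
  have hua : |u| ≤ 40 := by
    rw [huL]
    calc |δ - L| ≤ |δ| + |L| := abs_sub _ _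
      _ ≤ 40 := by linarith
  have hu0 : u ≠ 0 := by
    intro h
    rw [huL] at h
    have : L = δ := by linarith
    rw [this] at hL2
    linarith
  -- `w`
  set w : ℝ := u * (β * ε ^ 8 - g) with hw
  have hin : |β * ε ^ 8 - g| ≤ 1.001 * ε ^ 8 := by
    calc |β * ε ^ 8 - g| ≤ |β * ε ^ 8| + |g| := abs_sub _ _
      _ ≤ 1 * ε ^ 8 + 2 * ε ^ 14 := by
          rw [abs_mul, abs_of_pos e8p]; gcongr
      _ ≤ 1.001 * ε ^ 8 := by linarith
  have hwa : |w| ≤ 41 * ε ^ 8 := by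
    rw [hw, abs_mul]
    calc |u| * |β * ε ^ 8 - g| ≤ 40 * (1.001 * ε ^ 8) := by gcongr
      _ ≤ 41 * ε ^ 8 := by linarith
  have hw1 : |w| ≤ 1 / 2 := by linarith
  have hw1' : 1 / 2 ≤ 1 + w := by linarith [(abs_le.1 hw1).1]
  have hvw : v * (1 + w) = -r * u := by
    have h1 : u * v * (1 / u + r / v) = v + r * u := by field_simp
    rw [heq] at h1
    rw [hw]
    linear_combination -h1
  have hv' : v = -r * u / (1 + w) := by
    rw [eq_div_iff (by linarith)]; exact hvw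
  -- first part
  have T1 : |v + r * u - r * u * w| ≤ 1 * ε ^ 14 := by
    have : v + r * u - r * u * w = -(r * u * w ^ 2 / (1 + w)) := by
      rw [hv']; field_simp; ring
    rw [this, abs_neg, abs_div, abs_of_pos (by linarith : (0:ℝ) < 1 + w), abs_mul, abs_mul,
      abs_of_pos hr0, abs_pow]
    rw [div_le_iff₀ (by linarith)]
    have hww : |w| ^ 2 ≤ 1681 * (ε ^ 14 * ε ^ 2) := by
      calc |w| ^ 2 ≤ (41 * ε ^ 8) ^ 2 := by gcongr
        _ = 1681 * (ε ^ 14 * ε ^ 2) := by ring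
    calc r * |u| * |w| ^ 2 ≤ 1 * 40 * (1681 * (ε ^ 14 * ε ^ 2)) := by gcongr
      _ ≤ 1 * 40 * (1681 * (ε ^ 14 * (1 / 10 ^ 6))) := by gcongr
      _ ≤ 1 * ε ^ 14 * (1 / 2) := by linarith
      _ ≤ 1 * ε ^ 14 * (1 + w) := by gcongr
  -- second part
  have T2 : |-(r * u) + 2 * r * ε ^ 11 - 4 * π ^ 2 * r * σ * Y| ≤ 2 * ε ^ 14 := by
    have : -(r * u) + 2 * r * ε ^ 11 - 4 * π ^ 2 * r * σ * Y = -(r * d) := by
      rw [hu]; ring
    rw [this, abs_neg, abs_mul, abs_of_pos hr0]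
    calc r * |d| ≤ 1 * (2 * ε ^ 14) := by gcongr
      _ = _ := by ring
  -- third part
  have hu2 : |u ^ 2 - 16 * π ^ 4 * Y ^ 2| ≤ 300 * ε ^ 11 := by
    have : u ^ 2 - 16 * π ^ 4 * Y ^ 2 = δ * (δ - 2 * L) := by
      have hLs : L ^ 2 = 16 * π ^ 4 * Y ^ 2 := by
        rw [hL]; ring_nf; rw [hσ2]; ring
      rw [huL, ← hLs]; ring
    rw [this, abs_mul]
    calc |δ| * |δ - 2 * L| ≤ (3 * ε ^ 11) * 80 := by
          gcongr
          calc |δ - 2 * L| ≤ |δ| + |2 * L| := abs_sub _ _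
            _ ≤ 80 := by rw [abs_mul, abs_two]; linarith
      _ ≤ 300 * ε ^ 11 := by linarith
  have T3 : |r * u * w - 16 * π ^ 4 * r * β * ε ^ 8 * Y ^ 2| ≤ 3300 * ε ^ 14 := by
    have : r * u * w - 16 * π ^ 4 * r * β * ε ^ 8 * Y ^ 2 =
        r * (β * ε ^ 8 * (u ^ 2 - 16 * π ^ 4 * Y ^ 2) - u ^ 2 * g) := by
      rw [hw]; ring
    rw [this, abs_mul, abs_of_pos hr0]
    have h1 : |β * ε ^ 8 * (u ^ 2 - 16 * π ^ 4 * Y ^ 2)| ≤ 1 * ε ^ 8 * (300 * ε ^ 11) := by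
      rw [abs_mul, abs_mul, abs_of_pos e8p]; gcongr
    have h2 : |u ^ 2 * g| ≤ 40 ^ 2 * (2 * ε ^ 14) := by
      rw [abs_mul, abs_pow]; gcongr
    have h3 : 1 * ε ^ 8 * (300 * ε ^ 11) ≤ 1 * ε ^ 14 := by
      have : (1:ℝ) * ε ^ 8 * (300 * ε ^ 11) = 300 * ε ^ 3 * (ε ^ 14 * ε ^ 2) := by ring
      rw [this]
      calc 300 * ε ^ 3 * (ε ^ 14 * ε ^ 2) ≤ 300 * (1 / 10 ^ 9) * (ε ^ 14 * (1 / 10 ^ 6)) := by
            gcongr
        _ ≤ 1 * ε ^ 14 := by linarith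
    calc r * |β * ε ^ 8 * (u ^ 2 - 16 * π ^ 4 * Y ^ 2) - u ^ 2 * g|
        ≤ 1 * (1 * ε ^ 14 + 40 ^ 2 * (2 * ε ^ 14)) := by
          gcongr
          exact (abs_sub _ _).trans (by linarith)
      _ ≤ 3300 * ε ^ 14 := by linarith
  have hsum : v + 2 * r * ε ^ 11 - 4 * π ^ 2 * r * σ * Y - 16 * π ^ 4 * r * β * ε ^ 8 * Y ^ 2 =
      (v + r * u - r * u * w) + (-(r * u) + 2 * r * ε ^ 11 - 4 * π ^ 2 * r * σ * Y)
        + (r * u * w - 16 * π ^ 4 * r * β * ε ^ 8 * Y ^ 2) := by ring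
  rw [hsum]
  refine (abs_add_three _ _ _).trans ?_
  linarith

end Crest.Agent.R128.Rough2
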