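import Mathlib
import Crest.Agent.R128.Rough2a

set_option autoImplicit false

open Real MeasureTheory Set

namespace Crest.Agent.R128.Rough2

/-- The position of `q` at one good point near a pole. `y = x - x₀`, `Y = y / ε^9`. -/
lemma point {ε k r b Bv σ x₀ q Y p p' : ℝ} (hε0 : 0 < ε) (hε : ε ≤ 1 / 1000)
    (hk : k = 1 / ε ^ 20) (hr0 : 0 < r) (hr1 : r ≤ 1) (hb : |b| ≤ 1 / ε)
    (hY : |Y| ≤ 1) (hY' : 1 / 4 ≤ |Y|) (hσ : σ = 1 ∨ σ = -1)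
    (hc : cos (2 * π * x₀) = 0) (hs : sin (2 * π * x₀) = σ) (hB : |Bv - b| ≤ ε ^ 5)
    (hp : |p| ≤ ε ^ 3) (hp' : |p'| ≤ ε ^ 3) (hV : aa k q ≠ p')
    (heq : |Bv + k / (aa k (x₀ + ε ^ 9 * Y) - p) + r * k / (aa k q - p')| ≤ ε ^ 5) :
    ∃ (τ : ℝ) (N : ℤ), (τ = 1 ∨ τ = -1) ∧
      |q - (τ / 4 + N) - τ * ((1 + r) * ε ^ 20 / (2 * π ^ 2) - r * σ * (ε ^ 9 * Y)
        - 4 * π ^ 2 * r * (b * ε) * ε ^ 17 * Y ^ 2)| ≤ 100 * ε ^ 23 := by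
  obtain ⟨p1, p2⟩ := pi_bds
  have hpi := Real.pi_pos
  set β : ℝ := b * ε with hβdef
  have hβ : |β| ≤ 1 := by
    rw [hβdef, abs_mul, abs_of_pos hε0]
    calc |b| * ε ≤ 1 / ε * ε := by gcongr
      _ = 1 := by field_simp
  set S : ℝ := sin (2 * π * (ε ^ 9 * Y)) with hS
  have hcos : cos (2 * π * (x₀ + ε ^ 9 * Y)) = -(σ * S) := by
    have : 2 * π * (x₀ + ε ^ 9 * Y) = 2 * π * x₀ + 2 * π * (ε ^ 9 * Y) := by ring
    rw [this, Real.cos_add, hc, hs]; ring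
  have e9 : ε ^ 9 ≤ 1 / 10 ^ 27 := by
    calc ε ^ 9 ≤ (1 / 1000) ^ 9 := by gcongr
      _ = 1 / 10 ^ 27 := by norm_num
  have e9p : 0 < ε ^ 9 := by positivity
  have harg : |2 * π * (ε ^ 9 * Y)| ≤ 6.284 * ε ^ 9 := by
    rw [abs_mul (2 * π), abs_mul (ε ^ 9), abs_of_pos e9p,
      abs_of_pos (by positivity : (0:ℝ) < 2 * π)]
    calc 2 * π * (ε ^ 9 * |Y|) ≤ 2 * 3.142 * (ε ^ 9 * 1) := by gcongr
      _ = 6.284 * ε ^ 9 := by ring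
  have hSapp : |S - 2 * π * (ε ^ 9 * Y)| ≤ 63 * ε ^ 27 := by
    have h1 := sin_app (x := 2 * π * (ε ^ 9 * Y)) (by linarith)
    refine h1.trans ?_
    calc |2 * π * (ε ^ 9 * Y)| ^ 3 / 4 ≤ (6.284 * ε ^ 9) ^ 3 / 4 := by gcongr
      _ = (6.284 ^ 3 / 4) * ε ^ 27 := by ring
      _ ≤ 63 * ε ^ 27 := by gcongr; norm_num
  -- scaled variables
  set u : ℝ := ε ^ 11 * (aa k (x₀ + ε ^ 9 * Y) - p) with hu
  set v : ℝ := ε ^ 11 * (aa k q - p') with hv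
  have hv0 : v ≠ 0 := by
    rw [hv]; exact mul_ne_zero (by positivity) (sub_ne_zero.2 hV)
  have hεne : ε ≠ 0 := hε0.ne'
  set d : ℝ := -(2 * π * σ * (S - 2 * π * (ε ^ 9 * Y)) / ε ^ 9) - ε ^ 11 * p with hd
  have hud : u = 2 * ε ^ 11 - 4 * π ^ 2 * σ * Y + d := by
    rw [hu, hd, aa, hcos, hk]; field_simp; ring
  have hda : |d| ≤ 2 * ε ^ 14 := by
    have h1 : |2 * π * σ * (S - 2 * π * (ε ^ 9 * Y)) / ε ^ 9| ≤ 400 * ε ^ 18 := by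
      have hσa : |σ| = 1 := by rcases hσ with h | h <;> subst h <;> simp
      rw [abs_div, abs_mul, abs_mul, hσa, abs_of_pos (by positivity : (0:ℝ) < 2 * π),
        abs_of_pos e9p, div_le_iff₀ e9p]
      calc 2 * π * 1 * |S - 2 * π * (ε ^ 9 * Y)| ≤ 2 * 3.142 * 1 * (63 * ε ^ 27) := by gcongr
        _ = 395.892 * (ε ^ 18 * ε ^ 9) := by ring
        _ ≤ 400 * (ε ^ 18 * ε ^ 9) := by gcongr; norm_num
        _ = 400 * ε ^ 18 * ε ^ 9 := by ring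
    have h2 : |ε ^ 11 * p| ≤ ε ^ 14 := by
      rw [abs_mul, abs_of_pos (by positivity : (0:ℝ) < ε ^ 11)]
      calc ε ^ 11 * |p| ≤ ε ^ 11 * ε ^ 3 := by gcongr
        _ = ε ^ 14 := by ring
    have h3 : 400 * ε ^ 18 ≤ ε ^ 14 := by
      have : ε ^ 18 = ε ^ 14 * ε ^ 4 := by ring
      rw [this]
      have e4 : ε ^ 4 ≤ 1 / 10 ^ 12 := by
        calc ε ^ 4 ≤ (1 / 1000) ^ 4 := by gcongr
          _ = 1 / 10 ^ 12 := by norm_num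
      have : (0:ℝ) < ε ^ 14 := by positivity
      nlinarith
    rw [hd]
    refine (abs_sub _ _).trans ?_
    rw [abs_neg]; linarith
  -- the equation
  set g : ℝ := ε ^ 9 * (Bv + k / (aa k (x₀ + ε ^ 9 * Y) - p) + r * k / (aa k q - p'))
      - ε ^ 9 * (Bv - b) with hg
  have hga : |g| ≤ 2 * ε ^ 14 := by
    rw [hg]
    refine (abs_sub _ _).trans ?_
    rw [abs_mul, abs_mul, abs_of_pos e9p]
    calc ε ^ 9 * |Bv + k / (aa k (x₀ + ε ^ 9 * Y) - p) + r * k / (aa k q - p')|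
          + ε ^ 9 * |Bv - b| ≤ ε ^ 9 * ε ^ 5 + ε ^ 9 * ε ^ 5 := by gcongr
      _ = 2 * ε ^ 14 := by ring
  have heq' : 1 / u + r / v = -β * ε ^ 8 + g := by
    have h1 : 1 / u = ε ^ 9 * (k / (aa k (x₀ + ε ^ 9 * Y) - p)) := by
      rw [hu, hk]; field_simp
    have h2 : r / v = ε ^ 9 * (r * k / (aa k q - p')) := by
      rw [hv, hk]; field_simp
    rw [h1, h2, hg, hβdef]; ring
  have hA := alg hε0 hε hr0 hr1 hβ hY hY' hσ hud hda hv0 hga heq'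
  -- the cosine
  set C : ℝ := cos (2 * π * q) with hC
  obtain ⟨τ, N, z, hτ, hq, hz, hCz⟩ := quarter (q := q) (C := C) rfl
  refine ⟨τ, N, hτ, ?_⟩
  set E : ℝ := v + 2 * r * ε ^ 11 - 4 * π ^ 2 * r * σ * Y
    - 16 * π ^ 4 * r * β * ε ^ 8 * Y ^ 2 with hE
  have hCE : C = -((1 + r) * ε ^ 20 / π) + 2 * π * r * σ * ε ^ 9 * Y
      + 8 * π ^ 3 * r * β * ε ^ 17 * Y ^ 2 + (ε ^ 9 * E + ε ^ 20 * p') / (2 * π) := by
    have : v = ε ^ 11 * (2 + 2 * π * k * C - p') := by rw [hv, aa]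
    rw [hE, this, hk]; field_simp; ring
  set A : ℝ := -((1 + r) * ε ^ 20 / π) + 2 * π * r * σ * ε ^ 9 * Y
      + 8 * π ^ 3 * r * β * ε ^ 17 * Y ^ 2 with hAdef
  set eC : ℝ := (ε ^ 9 * E + ε ^ 20 * p') / (2 * π) with heC
  have hσa : |σ| = 1 := by rcases hσ with h | h <;> subst h <;> simp
  have hτa : |τ| = 1 := by rcases hτ with h | h <;> subst h <;> simp
  have hτ2 : τ ^ 2 = 1 := by rcases hτ with h | h <;> subst h <;> norm_num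
  have heCa : |eC| ≤ 567 * ε ^ 23 := by
    rw [heC, abs_div, abs_of_pos (by positivity : (0:ℝ) < 2 * π), div_le_iff₀ (by positivity)]
    calc |ε ^ 9 * E + ε ^ 20 * p'| ≤ |ε ^ 9 * E| + |ε ^ 20 * p'| := abs_add_le _ _
      _ ≤ ε ^ 9 * (3400 * ε ^ 14) + ε ^ 20 * ε ^ 3 := by
          rw [abs_mul, abs_mul, abs_of_pos e9p, abs_of_pos (by positivity : (0:ℝ) < ε ^ 20)]
          gcongr
      _ = 567 * ε ^ 23 * (3401 / 567) := by ring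
      _ ≤ 567 * ε ^ 23 * (2 * π) := by
          gcongr
          linarith
  have e11 : ε ^ 11 ≤ 1 / 10 ^ 33 := by
    calc ε ^ 11 ≤ (1 / 1000) ^ 11 := by gcongr
      _ = 1 / 10 ^ 33 := by norm_num
  have e8 : ε ^ 8 ≤ 1 / 10 ^ 24 := by
    calc ε ^ 8 ≤ (1 / 1000) ^ 8 := by gcongr
      _ = 1 / 10 ^ 24 := by norm_num
  have e14 : ε ^ 14 ≤ 1 / 10 ^ 42 := by
    calc ε ^ 14 ≤ (1 / 1000) ^ 14 := by gcongr
      _ = 1 / 10 ^ 42 := by norm_num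
  have e4 : ε ^ 4 ≤ 1 / 10 ^ 12 := by
    calc ε ^ 4 ≤ (1 / 1000) ^ 4 := by gcongr
      _ = 1 / 10 ^ 12 := by norm_num
  have hCa : |C| ≤ 6.4 * ε ^ 9 := by
    have a1 : |-((1 + r) * ε ^ 20 / π)| ≤ ε ^ 9 * (1 / 10 ^ 33) := by
      rw [abs_neg, abs_div, abs_of_pos hpi, abs_mul, abs_of_pos (by linarith : (0:ℝ) < 1 + r),
        abs_of_pos (by positivity : (0:ℝ) < ε ^ 20), div_le_iff₀ hpi]
      calc (1 + r) * ε ^ 20 ≤ 2 * (ε ^ 9 * ε ^ 11) := by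
            have : ε ^ 20 = ε ^ 9 * ε ^ 11 := by ring
            rw [this]; gcongr; linarith
        _ ≤ 3 * (ε ^ 9 * (1 / 10 ^ 33)) := by gcongr; norm_num
        _ ≤ ε ^ 9 * (1 / 10 ^ 33) * π := by
            rw [mul_comm (3:ℝ)]; gcongr
    have a2 : |2 * π * r * σ * ε ^ 9 * Y| ≤ 6.284 * ε ^ 9 := by
      rw [abs_mul, abs_mul, abs_mul, abs_mul, hσa, abs_of_pos hr0, abs_of_pos e9p,
        abs_of_pos (by positivity : (0:ℝ) < 2 * π)]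
      calc 2 * π * r * 1 * ε ^ 9 * |Y| ≤ 2 * 3.142 * 1 * 1 * ε ^ 9 * 1 := by gcongr
        _ = 6.284 * ε ^ 9 := by ring
    have a3 : |8 * π ^ 3 * r * β * ε ^ 17 * Y ^ 2| ≤ ε ^ 9 * (1 / 10 ^ 20) := by
      rw [abs_mul, abs_mul, abs_mul, abs_mul, abs_of_pos hr0,
        abs_of_pos (by positivity : (0:ℝ) < 8 * π ^ 3),
        abs_of_pos (by positivity : (0:ℝ) < ε ^ 17), abs_pow]
      calc 8 * π ^ 3 * r * |β| * ε ^ 17 * |Y| ^ 2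
          ≤ 8 * 3.142 ^ 3 * 1 * 1 * ε ^ 17 * 1 ^ 2 := by gcongr
        _ = ε ^ 9 * (8 * 3.142 ^ 3 * ε ^ 8) := by ring
        _ ≤ ε ^ 9 * (8 * 3.142 ^ 3 * (1 / 10 ^ 24)) := by gcongr
        _ ≤ ε ^ 9 * (1 / 10 ^ 20) := by gcongr; norm_num
    have a4 : 567 * ε ^ 23 ≤ ε ^ 9 * (1 / 10 ^ 20) := by
      calc 567 * ε ^ 23 = ε ^ 9 * (567 * ε ^ 14) := by ring
        _ ≤ ε ^ 9 * (567 * (1 / 10 ^ 42)) := by gcongr
        _ ≤ ε ^ 9 * (1 / 10 ^ 20) := by gcongr; norm_num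
    calc |C| = |A + eC| := by rw [hCE]
      _ ≤ |A| + |eC| := abs_add_le _ _
      _ ≤ (|-((1 + r) * ε ^ 20 / π)| + |2 * π * r * σ * ε ^ 9 * Y|
            + |8 * π ^ 3 * r * β * ε ^ 17 * Y ^ 2|) + |eC| := by
          gcongr; rw [hAdef]; exact abs_add_three _ _ _
      _ ≤ 6.4 * ε ^ 9 := by linarith
  have hza : |2 * π * z| ≤ 10.1 * ε ^ 9 := by
    rw [abs_mul, abs_of_pos (by positivity : (0:ℝ) < 2 * π)]
    calc 2 * π * |z| ≤ 2 * 3.142 * (6.4 * ε ^ 9 / 4) := by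
          gcongr; linarith
      _ ≤ 10.1 * ε ^ 9 := by linarith
  have hsz : |sin (2 * π * z) - 2 * π * z| ≤ ε ^ 23 := by
    refine (sin_app (by linarith)).trans ?_
    calc |2 * π * z| ^ 3 / 4 ≤ (10.1 * ε ^ 9) ^ 3 / 4 := by gcongr
      _ = ε ^ 23 * (10.1 ^ 3 / 4 * ε ^ 4) := by ring
      _ ≤ ε ^ 23 * (10.1 ^ 3 / 4 * (1 / 10 ^ 12)) := by gcongr
      _ ≤ ε ^ 23 * 1 := by gcongr; norm_num
      _ = ε ^ 23 := by ring
  have hfin : q - (τ / 4 + N) - τ * ((1 + r) * ε ^ 20 / (2 * π ^ 2) - r * σ * (ε ^ 9 * Y)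
        - 4 * π ^ 2 * r * β * ε ^ 17 * Y ^ 2) =
      (-(τ * eC) - (sin (2 * π * z) - 2 * π * z)) / (2 * π) := by
    have h1 : sin (2 * π * z) = -(τ * C) := by
      have : τ * C = -(τ ^ 2 * sin (2 * π * z)) := by rw [hCz]; ring
      rw [this, hτ2]; ring
    rw [h1, hCE, hAdef, hq]; field_simp; ring
  rw [hfin, abs_div, abs_of_pos (by positivity : (0:ℝ) < 2 * π), div_le_iff₀ (by positivity)]
  calc |-(τ * eC) - (sin (2 * π * z) - 2 * π * z)|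
      ≤ |-(τ * eC)| + |sin (2 * π * z) - 2 * π * z| := abs_sub _ _
    _ ≤ 567 * ε ^ 23 + ε ^ 23 := by
        rw [abs_neg, abs_mul, hτa, one_mul]; gcongr
    _ ≤ 100 * ε ^ 23 * (2 * 3) := by
        have : (0:ℝ) < ε ^ 23 := by positivity
        linarith
    _ ≤ 100 * ε ^ 23 * (2 * π) := by gcongr

end Crest.Agent.R128.Rough2
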