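import Mathlib
import Crest.Agent.R128.Rough2b

set_option autoImplicit false

open Real MeasureTheory Set

namespace Crest.Agent.R128.Rough2

lemma exists_shift {G : Set ℝ} (hG : volume (Icc (-1 : ℝ) 1 \ G) ≤ ENNReal.ofReal (1 / 100))
    {s : ℝ} (hs0 : 0 ≤ s) (hs : s ≤ 1 / 2) : ∃ Y ∈ Icc (1 / 4 : ℝ) (1 / 2), Y ∈ G ∧ Y + s ∈ G := by
  by_contra hcon
  push Not at hcon
  set N : Set ℝ := Icc (-1 : ℝ) 1 \ G with hN
  have hsub : Icc (1 / 4 : ℝ) (1 / 2) ⊆ N ∪ (fun Y => Y + s) ⁻¹' N := by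
    intro Y hY
    by_cases h : Y ∈ G
    · right
      exact ⟨⟨by linarith [hY.1], by linarith [hY.2]⟩, hcon Y hY h⟩
    · left
      exact ⟨⟨by linarith [hY.1], by linarith [hY.2]⟩, h⟩
  have h1 : volume (Icc (1 / 4 : ℝ) (1 / 2)) ≤ ENNReal.ofReal (1 / 50) := by
    refine (measure_mono hsub).trans ((measure_union_le _ _).trans ?_)
    rw [measure_preimage_add_right]
    refine (add_le_add hG hG).trans ?_
    rw [← ENNReal.ofReal_add (by norm_num) (by norm_num)]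
    exact ENNReal.ofReal_le_ofReal (by norm_num)
  rw [Real.volume_Icc, ENNReal.ofReal_le_ofReal_iff (by norm_num)] at h1
  norm_num at h1

lemma exists_four {G : Set ℝ} (hG : volume (Icc (-1 : ℝ) 1 \ G) ≤ ENNReal.ofReal (1 / 100)) :
    ∃ t ∈ Icc (1 / 2 : ℝ) 1, t ∈ G ∧ -t ∈ G ∧ t / 2 ∈ G ∧ -(t / 2) ∈ G := by
  by_contra hcon
  push Not at hcon
  set N : Set ℝ := Icc (-1 : ℝ) 1 \ G with hN
  have hsub : Icc (1 / 2 : ℝ) 1 ⊆ N ∪ ((fun t => (-1 : ℝ) * t) ⁻¹' N ∪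
      ((fun t => (1 / 2 : ℝ) * t) ⁻¹' N ∪ (fun t => (-1 / 2 : ℝ) * t) ⁻¹' N)) := by
    intro t ht
    have ht1 := ht.1
    have ht2 := ht.2
    by_cases h1 : t ∈ G
    · right
      by_cases h2 : -t ∈ G
      · right
        by_cases h3 : t / 2 ∈ G
        · right
          have h4 := hcon t ht h1 h2 h3
          refine ⟨⟨by linarith, by linarith⟩, ?_⟩
          have : (-1 / 2 : ℝ) * t = -(t / 2) := by ring
          simpa only [this] using h4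
        · left
          refine ⟨⟨by linarith, by linarith⟩, ?_⟩
          have : (1 / 2 : ℝ) * t = t / 2 := by ring
          simpa only [this] using h3
      · left
        refine ⟨⟨by linarith, by linarith⟩, ?_⟩
        have : (-1 : ℝ) * t = -t := by ring
        simpa only [this] using h2
    · left
      exact ⟨⟨by linarith, by linarith⟩, h1⟩
  have h1 : volume (Icc (1 / 2 : ℝ) 1) ≤ ENNReal.ofReal (6 / 100) := by
    refine (measure_mono hsub).trans ((measure_union_le _ _).trans ?_)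
    refine (add_le_add hG ((measure_union_le _ _).trans
      (add_le_add le_rfl (measure_union_le _ _)))).trans ?_
    rw [Real.volume_preimage_mul_left (by norm_num), Real.volume_preimage_mul_left (by norm_num),
      Real.volume_preimage_mul_left (by norm_num)]
    have e1 : |(-1 : ℝ)⁻¹| = 1 := by norm_num
    have e2 : |(1 / 2 : ℝ)⁻¹| = 2 := by norm_num
    have e3 : |(-1 / 2 : ℝ)⁻¹| = 2 := by
      rw [abs_inv, abs_div, abs_neg, abs_one, abs_two]; norm_num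
    rw [e1, e2, e3]
    calc ENNReal.ofReal (1 / 100) + (ENNReal.ofReal 1 * volume N +
          (ENNReal.ofReal 2 * volume N + ENNReal.ofReal 2 * volume N))
        ≤ ENNReal.ofReal (1 / 100) + (ENNReal.ofReal 1 * ENNReal.ofReal (1 / 100) +
          (ENNReal.ofReal 2 * ENNReal.ofReal (1 / 100)
            + ENNReal.ofReal 2 * ENNReal.ofReal (1 / 100))) := by gcongr
      _ = ENNReal.ofReal (6 / 100) := by
          rw [← ENNReal.ofReal_mul (by norm_num), ← ENNReal.ofReal_mul (by norm_num),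
            ← ENNReal.ofReal_add (by norm_num) (by norm_num),
            ← ENNReal.ofReal_add (by norm_num) (by norm_num),
            ← ENNReal.ofReal_add (by norm_num) (by norm_num)]
          norm_num
  rw [Real.volume_Icc, ENNReal.ofReal_le_ofReal_iff (by norm_num)] at h1
  norm_num at h1

/-- two quarter points at distance `< 1/2` coincide -/
lemma quarter_eq {τ τ' : ℝ} {N N' : ℤ} (hτ : τ = 1 ∨ τ = -1) (hτ' : τ' = 1 ∨ τ' = -1)
    (h : |(τ / 4 + N) - (τ' / 4 + N')| < 1 / 2) : τ = τ' ∧ N = N' := by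
  have hNN : ∀ j : ℤ, |(j : ℝ)| < 1 / 2 → j = 0 := by
    intro j hj
    have : |(j : ℝ)| < 1 := by linarith
    have h2 : |j| < 1 := by exact_mod_cast this
    exact Int.abs_lt_one_iff.1 h2
  have hodd : ∀ j : ℤ, ¬ |(1 / 2 : ℝ) + j| < 1 / 2 := by
    intro j hj
    rw [abs_lt] at hj
    have h1 : (-1 : ℝ) < j := by linarith [hj.1]
    have h2 : (j : ℝ) < 0 := by linarith [hj.2]
    have h1' : (-1 : ℤ) < j := by exact_mod_cast h1
    have h2' : j < 0 := by exact_mod_cast h2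
    omega
  rcases hτ with a | a <;> rcases hτ' with b | b <;> subst a <;> subst b
  · refine ⟨rfl, ?_⟩
    have := hNN (N - N') (by push_cast; convert h using 2; ring)
    omega
  · exact absurd (by push_cast; convert h using 2; ring) (hodd (N - N'))
  · exact absurd (by push_cast; rw [← abs_neg]; convert h using 2; ring) (hodd (N' - N))
  · refine ⟨rfl, ?_⟩
    have := hNN (N - N') (by push_cast; convert h using 2; ring)
    omega


set_option maxHeartbeats 1000000 in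
/-- Local analysis at one pole: position and slope of the other digit. -/
lemma local_pole {ε r β σ c m n η : ℝ} (hε0 : 0 < ε) (hε : ε ≤ 1 / 1000) (hr0 : 0 < r)
    (hr1 : r ≤ 1) (hβ : |β| ≤ 1) (hσ : σ = 1 ∨ σ = -1) (hη0 : 0 ≤ η) (hη : η ≤ ε ^ 20)
    (hm : 9 / 10 ≤ |m|) (hn : |n| ≤ |m|)
    {G : Set ℝ} (hG : volume (Icc (-1 : ℝ) 1 \ G) ≤ ENNReal.ofReal (1 / 100)) {q : ℝ → ℝ}
    (hP : ∀ Y ∈ G, |Y| ≤ 1 → 1 / 4 ≤ |Y| → ∃ (τ : ℝ) (N : ℤ), (τ = 1 ∨ τ = -1) ∧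
      |q Y - (τ / 4 + N) - τ * ((1 + r) * ε ^ 20 / (2 * π ^ 2) - r * σ * (ε ^ 9 * Y)
        - 4 * π ^ 2 * r * β * ε ^ 17 * Y ^ 2)| ≤ 100 * ε ^ 23)
    (hQ : ∀ Y, |Y| ≤ 1 → |q Y - (c + m * (ε ^ 9 * Y) + n * (ε ^ 9 * Y) ^ 2)| ≤ η) :
    ∃ (τ : ℝ) (N : ℤ), (τ = 1 ∨ τ = -1) ∧
      |c - (τ / 4 + N) - τ * ((1 + r) * ε ^ 20 / (2 * π ^ 2))| ≤ 5 / 3 * (η + 100 * ε ^ 23) ∧
      |m + τ * σ * r| ≤ 1 / 100 := by
  obtain ⟨p1, p2⟩ := pi_bds
  have hpi := Real.pi_pos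
  have hσa : |σ| = 1 := by rcases hσ with h | h <;> subst h <;> simp
  have e9p : 0 < ε ^ 9 := by positivity
  have e9 : ε ^ 9 ≤ 1 / 10 ^ 27 := by
    calc ε ^ 9 ≤ (1 / 1000) ^ 9 := by gcongr
      _ = 1 / 10 ^ 27 := by norm_num
  have e8 : ε ^ 8 ≤ 1 / 10 ^ 24 := by
    calc ε ^ 8 ≤ (1 / 1000) ^ 8 := by gcongr
      _ = 1 / 10 ^ 24 := by norm_num
  have e11 : ε ^ 11 ≤ 1 / 10 ^ 33 := by
    calc ε ^ 11 ≤ (1 / 1000) ^ 11 := by gcongr
      _ = 1 / 10 ^ 33 := by norm_num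
  have e14 : ε ^ 14 ≤ 1 / 10 ^ 42 := by
    calc ε ^ 14 ≤ (1 / 1000) ^ 14 := by gcongr
      _ = 1 / 10 ^ 42 := by norm_num
  have e20 : ε ^ 20 ≤ ε ^ 9 * (1 / 10 ^ 33) := by
    have : ε ^ 20 = ε ^ 9 * ε ^ 11 := by ring
    rw [this]; gcongr
  have e17 : ε ^ 17 ≤ ε ^ 9 * (1 / 10 ^ 24) := by
    have : ε ^ 17 = ε ^ 9 * ε ^ 8 := by ring
    rw [this]; gcongr
  have e23 : ε ^ 23 ≤ ε ^ 9 * (1 / 10 ^ 42) := by
    have : ε ^ 23 = ε ^ 9 * ε ^ 14 := by ring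
    rw [this]; gcongr
  -- crude bound: distance to the quarter point
  have crude : ∀ Y τ : ℝ, |Y| ≤ 1 → (τ = 1 ∨ τ = -1) →
      |τ * ((1 + r) * ε ^ 20 / (2 * π ^ 2) - r * σ * (ε ^ 9 * Y)
        - 4 * π ^ 2 * r * β * ε ^ 17 * Y ^ 2)| ≤ 1.01 * ε ^ 9 := by
    intro Y τ hY hτ
    have hτa : |τ| = 1 := by rcases hτ with h | h <;> subst h <;> simp
    rw [abs_mul, hτa, one_mul]
    have a1 : |(1 + r) * ε ^ 20 / (2 * π ^ 2)| ≤ ε ^ 20 := by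
      rw [abs_div, abs_mul, abs_of_pos (by linarith : (0:ℝ) < 1 + r),
        abs_of_pos (by positivity : (0:ℝ) < ε ^ 20),
        abs_of_pos (by positivity : (0:ℝ) < 2 * π ^ 2), div_le_iff₀ (by positivity)]
      have : (9:ℝ) ≤ π ^ 2 := by nlinarith
      have h20 : (0:ℝ) < ε ^ 20 := by positivity
      nlinarith
    have a2 : |r * σ * (ε ^ 9 * Y)| ≤ ε ^ 9 := by
      rw [abs_mul, abs_mul, abs_mul, hσa, abs_of_pos hr0, abs_of_pos e9p]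
      calc r * 1 * (ε ^ 9 * |Y|) ≤ 1 * 1 * (ε ^ 9 * 1) := by gcongr
        _ = ε ^ 9 := by ring
    have a3 : |4 * π ^ 2 * r * β * ε ^ 17 * Y ^ 2| ≤ 40 * ε ^ 17 := by
      rw [abs_mul, abs_mul, abs_mul, abs_mul, abs_of_pos hr0,
        abs_of_pos (by positivity : (0:ℝ) < 4 * π ^ 2),
        abs_of_pos (by positivity : (0:ℝ) < ε ^ 17), abs_pow]
      calc 4 * π ^ 2 * r * |β| * ε ^ 17 * |Y| ^ 2 ≤ 4 * 3.142 ^ 2 * 1 * 1 * ε ^ 17 * 1 ^ 2 := by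
            gcongr
        _ ≤ 40 * ε ^ 17 := by
            have : (0:ℝ) < ε ^ 17 := by positivity
            nlinarith
    calc |(1 + r) * ε ^ 20 / (2 * π ^ 2) - r * σ * (ε ^ 9 * Y)
        - 4 * π ^ 2 * r * β * ε ^ 17 * Y ^ 2|
        ≤ |(1 + r) * ε ^ 20 / (2 * π ^ 2) - r * σ * (ε ^ 9 * Y)|
          + |4 * π ^ 2 * r * β * ε ^ 17 * Y ^ 2| := abs_sub _ _
      _ ≤ |(1 + r) * ε ^ 20 / (2 * π ^ 2)| + |r * σ * (ε ^ 9 * Y)|
          + |4 * π ^ 2 * r * β * ε ^ 17 * Y ^ 2| := by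
            gcongr; exact abs_sub _ _
      _ ≤ 1.01 * ε ^ 9 := by linarith
  have near : ∀ (Y τ : ℝ) (N : ℤ), |Y| ≤ 1 → (τ = 1 ∨ τ = -1) →
      |q Y - (τ / 4 + N) - τ * ((1 + r) * ε ^ 20 / (2 * π ^ 2) - r * σ * (ε ^ 9 * Y)
        - 4 * π ^ 2 * r * β * ε ^ 17 * Y ^ 2)| ≤ 100 * ε ^ 23 →
      |q Y - (τ / 4 + N)| ≤ 1.02 * ε ^ 9 := by
    intro Y τ N hY hτ h
    have h1 := crude Y τ hY hτ
    have h2 := abs_add_le (q Y - (τ / 4 + N) - τ * ((1 + r) * ε ^ 20 / (2 * π ^ 2)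
      - r * σ * (ε ^ 9 * Y) - 4 * π ^ 2 * r * β * ε ^ 17 * Y ^ 2))
      (τ * ((1 + r) * ε ^ 20 / (2 * π ^ 2) - r * σ * (ε ^ 9 * Y)
        - 4 * π ^ 2 * r * β * ε ^ 17 * Y ^ 2))
    rw [sub_add_cancel] at h2
    linarith
  have hm0 : 0 < |m| := by linarith
  -- the slope is not too large
  have hmle : |m| * ε ^ 9 ≤ 1 / 16 := by
    by_contra hcon
    push Not at hcon
    set s : ℝ := 1 / (32 * (|m| * ε ^ 9)) with hs
    have hmp : 0 < |m| * ε ^ 9 := by positivity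
    have hs0 : 0 ≤ s := by rw [hs]; positivity
    have hsh : s ≤ 1 / 2 := by
      rw [hs, div_le_div_iff₀ (by positivity) (by norm_num)]; linarith
    have hms : |m| * ε ^ 9 * s = 1 / 32 := by rw [hs]; field_simp
    obtain ⟨Y, hY, hYG, hYG'⟩ := exists_shift hG hs0 hsh
    have hYa : |Y| ≤ 1 := by rw [abs_le]; constructor <;> linarith [hY.1, hY.2]
    have hYa' : 1 / 4 ≤ |Y| := by rw [abs_of_nonneg (by linarith [hY.1])]; exact hY.1
    have hYs : |Y + s| ≤ 1 := by rw [abs_le]; constructor <;> linarith [hY.1, hY.2]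
    have hYs' : 1 / 4 ≤ |Y + s| := by
      rw [abs_of_nonneg (by linarith [hY.1])]; linarith [hY.1]
    obtain ⟨τ, N, hτ, h1⟩ := hP Y hYG hYa hYa'
    obtain ⟨τ', N', hτ', h2⟩ := hP (Y + s) hYG' hYs hYs'
    have n1 := near Y τ N hYa hτ h1
    have n2 := near (Y + s) τ' N' hYs hτ' h2
    have q1 := hQ Y hYa
    have q2 := hQ (Y + s) hYs
    -- difference of the approximants
    have hdiff : |(c + m * (ε ^ 9 * (Y + s)) + n * (ε ^ 9 * (Y + s)) ^ 2)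
        - (c + m * (ε ^ 9 * Y) + n * (ε ^ 9 * Y) ^ 2) - m * ε ^ 9 * s| ≤ ε ^ 9 := by
      have : (c + m * (ε ^ 9 * (Y + s)) + n * (ε ^ 9 * (Y + s)) ^ 2)
        - (c + m * (ε ^ 9 * Y) + n * (ε ^ 9 * Y) ^ 2) - m * ε ^ 9 * s
        = n * ε ^ 9 * s * (ε ^ 9 * (2 * Y + s)) := by ring
      rw [this, abs_mul, abs_mul, abs_mul, abs_mul, abs_of_pos e9p, abs_of_nonneg hs0]
      have : |2 * Y + s| ≤ 3 := by rw [abs_le]; constructor <;> linarith [hY.1, hY.2]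
      calc |n| * ε ^ 9 * s * (ε ^ 9 * |2 * Y + s|) ≤ |m| * ε ^ 9 * s * (ε ^ 9 * 3) := by gcongr
        _ ≤ ε ^ 9 := by rw [hms]; linarith
    have habs : |m * ε ^ 9 * s| = 1 / 32 := by
      rw [abs_mul, abs_mul, abs_of_pos e9p, abs_of_nonneg hs0, hms]
    -- close quarter points coincide, so the difference is tiny
    have hlt : |(τ' / 4 + N') - (τ / 4 + (N : ℝ))| < 1 / 2 := by
      rw [abs_le] at n1 n2 q1 q2 hdiff
      have hu := (abs_le.1 habs.le)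
      rw [abs_lt]
      constructor <;> linarith [n1.1, n1.2, n2.1, n2.2, q1.1, q1.2, q2.1, q2.2, hdiff.1,
        hdiff.2, hu.1, hu.2]
    obtain ⟨ht, hN⟩ := quarter_eq hτ' hτ hlt
    subst ht; subst hN
    rw [abs_le] at n1 n2 q1 q2 hdiff
    have : |m * ε ^ 9 * s| ≤ 1 / 64 := by
      rw [abs_le]
      constructor <;> linarith [n1.1, n1.2, n2.1, n2.2, q1.1, q1.2, q2.1, q2.2, hdiff.1,
        hdiff.2]
    rw [habs] at this
    norm_num at this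
  -- four points
  obtain ⟨t, ht, g1, g2, g3, g4⟩ := exists_four hG
  have ht1 := ht.1
  have ht2 := ht.2
  have b1 : |t| ≤ 1 := by rw [abs_le]; constructor <;> linarith
  have b2 : |-t| ≤ 1 := by rw [abs_neg]; exact b1
  have b3 : |t / 2| ≤ 1 := by rw [abs_le]; constructor <;> linarith
  have b4 : |-(t / 2)| ≤ 1 := by rw [abs_neg]; exact b3
  have c1 : 1 / 4 ≤ |t| := by rw [abs_of_nonneg (by linarith)]; linarith
  have c2 : 1 / 4 ≤ |-t| := by rw [abs_neg]; exact c1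
  have c3 : 1 / 4 ≤ |t / 2| := by rw [abs_of_nonneg (by linarith)]; linarith
  have c4 : 1 / 4 ≤ |-(t / 2)| := by rw [abs_neg]; exact c3
  obtain ⟨τ₁, N₁, hτ₁, h1⟩ := hP t g1 b1 c1
  obtain ⟨τ₂, N₂, hτ₂, h2⟩ := hP (-t) g2 b2 c2
  obtain ⟨τ₃, N₃, hτ₃, h3⟩ := hP (t / 2) g3 b3 c3
  obtain ⟨τ₄, N₄, hτ₄, h4⟩ := hP (-(t / 2)) g4 b4 c4
  -- they see the same quarter point
  have same : ∀ (Y Y' τ τ' : ℝ) (N N' : ℤ), |Y| ≤ 1 → |Y'| ≤ 1 → (τ = 1 ∨ τ = -1) →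
      (τ' = 1 ∨ τ' = -1) → |q Y - (τ / 4 + N)| ≤ 1.02 * ε ^ 9 →
      |q Y' - (τ' / 4 + N')| ≤ 1.02 * ε ^ 9 → τ = τ' ∧ N = N' := by
    intro Y Y' τ τ' N N' hY hY' hτ hτ' n1 n2
    have q1 := hQ Y hY
    have q2 := hQ Y' hY'
    have hpoly : ∀ Z : ℝ, |Z| ≤ 1 → |m * (ε ^ 9 * Z) + n * (ε ^ 9 * Z) ^ 2| ≤ 1 / 8 := by
      intro Z hZ
      have a1 : |m * (ε ^ 9 * Z)| ≤ 1 / 16 := by
        rw [abs_mul, abs_mul, abs_of_pos e9p]
        calc |m| * (ε ^ 9 * |Z|) ≤ |m| * (ε ^ 9 * 1) := by gcongr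
          _ ≤ 1 / 16 := by linarith
      have a2 : |n * (ε ^ 9 * Z) ^ 2| ≤ 1 / 16 := by
        rw [abs_mul, abs_pow, abs_mul, abs_of_pos e9p]
        calc |n| * (ε ^ 9 * |Z|) ^ 2 ≤ |m| * (ε ^ 9 * 1) ^ 2 := by gcongr
          _ = (|m| * ε ^ 9) * ε ^ 9 := by ring
          _ ≤ (1 / 16) * 1 := by gcongr; linarith
          _ = 1 / 16 := by ring
      exact (abs_add_le _ _).trans (by linarith)
    have p1 := hpoly Y hY
    have p2 := hpoly Y' hY'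
    apply quarter_eq hτ hτ'
    rw [abs_le] at n1 n2 q1 q2 p1 p2
    rw [abs_lt]
    constructor <;> linarith [n1.1, n1.2, n2.1, n2.2, q1.1, q1.2, q2.1, q2.2, p1.1, p1.2,
      p2.1, p2.2]
  obtain ⟨ht21, hN21⟩ := same _ _ _ _ _ _ b2 b1 hτ₂ hτ₁ (near _ _ _ b2 hτ₂ h2)
    (near _ _ _ b1 hτ₁ h1)
  obtain ⟨ht31, hN31⟩ := same _ _ _ _ _ _ b3 b1 hτ₃ hτ₁ (near _ _ _ b3 hτ₃ h3)
    (near _ _ _ b1 hτ₁ h1)
  obtain ⟨ht41, hN41⟩ := same _ _ _ _ _ _ b4 b1 hτ₄ hτ₁ (near _ _ _ b4 hτ₄ h4)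
    (near _ _ _ b1 hτ₁ h1)
  rw [ht21, hN21] at h2
  rw [ht31, hN31] at h3
  rw [ht41, hN41] at h4
  have q1 := hQ _ b1
  have q2 := hQ _ b2
  have q3 := hQ _ b3
  have q4 := hQ _ b4
  set c0 : ℝ := τ₁ / 4 + N₁ with hc0
  set a : ℝ := τ₁ * ((1 + r) * ε ^ 20 / (2 * π ^ 2)) with ha
  set T : ℝ := τ₁ * (r * σ * ε ^ 9) * t with hT
  set U : ℝ := τ₁ * (4 * π ^ 2 * r * β * ε ^ 17) * t ^ 2 with hU
  set x : ℝ := m * ε ^ 9 * t with hx
  set y : ℝ := n * ε ^ 18 * t ^ 2 with hy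
  have h1' : |q t - c0 - a + T + U| ≤ 100 * ε ^ 23 := by
    have e : q t - c0 - a + T + U = q t - c0 - τ₁ * ((1 + r) * ε ^ 20 / (2 * π ^ 2)
      - r * σ * (ε ^ 9 * t) - 4 * π ^ 2 * r * β * ε ^ 17 * t ^ 2) := by
      rw [ha, hT, hU]; ring
    rw [e]; exact h1
  have h2' : |q (-t) - c0 - a - T + U| ≤ 100 * ε ^ 23 := by
    have e : q (-t) - c0 - a - T + U = q (-t) - c0 - τ₁ * ((1 + r) * ε ^ 20 / (2 * π ^ 2)
      - r * σ * (ε ^ 9 * (-t)) - 4 * π ^ 2 * r * β * ε ^ 17 * (-t) ^ 2) := by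
      rw [ha, hT, hU]; ring
    rw [e]; exact h2
  have h3' : |q (t / 2) - c0 - a + T / 2 + U / 4| ≤ 100 * ε ^ 23 := by
    have e : q (t / 2) - c0 - a + T / 2 + U / 4 = q (t / 2) - c0
      - τ₁ * ((1 + r) * ε ^ 20 / (2 * π ^ 2)
      - r * σ * (ε ^ 9 * (t / 2)) - 4 * π ^ 2 * r * β * ε ^ 17 * (t / 2) ^ 2) := by
      rw [ha, hT, hU]; ring
    rw [e]; exact h3
  have h4' : |q (-(t / 2)) - c0 - a - T / 2 + U / 4| ≤ 100 * ε ^ 23 := by
    have e : q (-(t / 2)) - c0 - a - T / 2 + U / 4 = q (-(t / 2)) - c0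
      - τ₁ * ((1 + r) * ε ^ 20 / (2 * π ^ 2)
      - r * σ * (ε ^ 9 * (-(t / 2))) - 4 * π ^ 2 * r * β * ε ^ 17 * (-(t / 2)) ^ 2) := by
      rw [ha, hT, hU]; ring
    rw [e]; exact h4
  have q1' : |q t - c - x - y| ≤ η := by
    have e : q t - c - x - y = q t - (c + m * (ε ^ 9 * t) + n * (ε ^ 9 * t) ^ 2) := by
      rw [hx, hy]; ring
    rw [e]; exact q1
  have q2' : |q (-t) - c + x - y| ≤ η := by
    have e : q (-t) - c + x - y =
        q (-t) - (c + m * (ε ^ 9 * (-t)) + n * (ε ^ 9 * (-t)) ^ 2) := by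
      rw [hx, hy]; ring
    rw [e]; exact q2
  have q3' : |q (t / 2) - c - x / 2 - y / 4| ≤ η := by
    have e : q (t / 2) - c - x / 2 - y / 4 =
        q (t / 2) - (c + m * (ε ^ 9 * (t / 2)) + n * (ε ^ 9 * (t / 2)) ^ 2) := by
      rw [hx, hy]; ring
    rw [e]; exact q3
  have q4' : |q (-(t / 2)) - c + x / 2 - y / 4| ≤ η := by
    have e : q (-(t / 2)) - c + x / 2 - y / 4 =
        q (-(t / 2)) - (c + m * (ε ^ 9 * (-(t / 2))) + n * (ε ^ 9 * (-(t / 2))) ^ 2) := by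
      rw [hx, hy]; ring
    rw [e]; exact q4
  rw [abs_le] at h1' h2' h3' h4' q1' q2' q3' q4'
  obtain ⟨h1l, h1r⟩ := h1'
  obtain ⟨h2l, h2r⟩ := h2'
  obtain ⟨h3l, h3r⟩ := h3'
  obtain ⟨h4l, h4r⟩ := h4'
  obtain ⟨q1l, q1r⟩ := q1'
  obtain ⟨q2l, q2r⟩ := q2'
  obtain ⟨q3l, q3r⟩ := q3'
  obtain ⟨q4l, q4r⟩ := q4'
  refine ⟨τ₁, N₁, hτ₁, ?_, ?_⟩
  · rw [abs_le]; constructor <;> linarith
  · have hxT : |x + T| ≤ 100 * ε ^ 23 + η := by
      rw [abs_le]; constructor <;> linarith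
    have e : x + T = (m + τ₁ * σ * r) * (ε ^ 9 * t) := by rw [hx, hT]; ring
    rw [e, abs_mul, abs_of_pos (by positivity : (0:ℝ) < ε ^ 9 * t)] at hxT
    have h5 : |m + τ₁ * σ * r| * (ε ^ 9 * (1 / 2)) ≤ ε ^ 9 * (1 / 200) := by
      calc |m + τ₁ * σ * r| * (ε ^ 9 * (1 / 2)) ≤ |m + τ₁ * σ * r| * (ε ^ 9 * t) := by gcongr
        _ ≤ 100 * ε ^ 23 + η := hxT
        _ ≤ ε ^ 9 * (1 / 200) := by linarith
    have h6 : ε ^ 9 * (|m + τ₁ * σ * r| * (1 / 2)) ≤ ε ^ 9 * (1 / 200) := by linarith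
    have h7 := le_of_mul_le_mul_left h6 e9p
    linarith

lemma sgn {m r w : ℝ} (hr0 : 0 < r) (hm : 9 / 10 ≤ |m|) (s : |m + w * r| ≤ 1 / 100)
    (hw : w = 1 ∨ w = -1) : (0 < m → w = -1) ∧ (m < 0 → w = 1) := by
  rw [abs_le] at s
  constructor
  · intro h
    rw [abs_of_pos h] at hm
    rcases hw with a | a
    · subst a; linarith [s.1, s.2]
    · exact a
  · intro h
    rw [abs_of_neg h] at hm
    rcases hw with a | a
    · exact a
    · subst a; linarith [s.1, s.2]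

set_option maxHeartbeats 4000000 in
/-- **Roughness, one level.** Four consecutive poles of the slower digit `x` cannot all be
cancelled by the other digit `Q x` if `Q` is (up to `ν / 100`) quadratic on the two laps. -/
theorem rough {ε k r : ℝ} (hε0 : 0 < ε) (hε : ε ≤ 1 / 1000) (hk : k = 1 / ε ^ 20)
    (hr0 : 0 < r) (hr1 : r ≤ 1) {B Q : ℝ → ℝ} {b c m n : Fin 4 → ℝ} {A : Set ℝ} {X : Fin 4 → ℝ}
    (hX : ∀ j, X j = X 0 + (j : ℕ) / 2) (hX0 : cos (2 * π * X 0) = 0)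
    (hb : ∀ j, |b j| ≤ 1 / ε)
    (hB : ∀ j, ∀ x ∈ A, |x - X j| ≤ ε ^ 9 → |B x - b j| ≤ ε ^ 5)
    (hQ : ∀ j x, |x - X j| ≤ ε ^ 9 →
      |Q x - (c j + m j * (x - X j) + n j * (x - X j) ^ 2)| ≤ 1 / (200 * π ^ 2 * k))
    (hm : ∀ j, 9 / 10 ≤ |m j|) (hn : ∀ j, |n j| ≤ |m j|) (hsign : ∀ j, 0 < m 0 * m j)
    (hc : |c 0 - 3 * c 1 + 3 * c 2 - c 3| ≤ 1 / (2 * π ^ 2 * k))
    (hA : ∀ j, volume (Icc (X j - ε ^ 9) (X j + ε ^ 9) \ A) ≤ ENNReal.ofReal (ε ^ 9 / 100))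
    (heq : ∀ x ∈ A, ∃ p p' : ℝ, |p| ≤ ε ^ 3 ∧ |p'| ≤ ε ^ 3 ∧ aa k (Q x) ≠ p' ∧
      |B x + k / (aa k x - p) + r * k / (aa k (Q x) - p')| ≤ ε ^ 5) : False := by
  obtain ⟨p1, p2⟩ := pi_bds
  have hpi := Real.pi_pos
  have hp2 : 0 < π ^ 2 := by positivity
  have e9p : 0 < ε ^ 9 := by positivity
  have e20p : 0 < ε ^ 20 := by positivity
  have hεne : ε ≠ 0 := hε0.ne'
  set ν : ℝ := ε ^ 20 / (2 * π ^ 2) with hν
  have hν0 : 0 < ν := by rw [hν]; positivity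
  have hη : 1 / (200 * π ^ 2 * k) = ν / 100 := by rw [hk, hν]; field_simp; ring
  have hν' : 1 / (2 * π ^ 2 * k) = ν := by rw [hk, hν]; field_simp
  have hνle : ν ≤ ε ^ 20 / 18 := by
    rw [hν]; gcongr; nlinarith
  have hκ : 100 * ε ^ 23 ≤ ν / 1000 := by
    have h3 : ε ^ 3 ≤ 1 / 10 ^ 9 := by
      calc ε ^ 3 ≤ (1 / 1000) ^ 3 := by gcongr
        _ = 1 / 10 ^ 9 := by norm_num
    have : ε ^ 20 / 20 ≤ ν := by
      rw [hν]; gcongr; nlinarith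
    calc 100 * ε ^ 23 = ε ^ 20 * (100 * ε ^ 3) := by ring
      _ ≤ ε ^ 20 * (100 * (1 / 10 ^ 9)) := by gcongr
      _ ≤ ν / 1000 := by linarith
  -- signs of the sine
  set σ₀ : ℝ := sin (2 * π * X 0) with hσ₀
  have hσ₀' : σ₀ = 1 ∨ σ₀ = -1 := by
    have := Real.sin_sq_add_cos_sq (2 * π * X 0)
    rw [hX0, ← hσ₀] at this
    have h2 : (σ₀ - 1) * (σ₀ + 1) = 0 := by nlinarith
    rcases mul_eq_zero.1 h2 with h | h
    · left; linarith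
    · right; linarith
  have hcj : ∀ j : Fin 4, cos (2 * π * X j) = 0 ∧
      sin (2 * π * X j) = (-1) ^ (j : ℕ) * σ₀ := by
    intro j
    have e : 2 * π * X j = 2 * π * X 0 + (j : ℕ) * π := by rw [hX j]; ring
    rw [e, Real.cos_add_nat_mul_pi, Real.sin_add_nat_mul_pi, hX0, ← hσ₀]
    exact ⟨by ring, rfl⟩
  have main : ∀ j : Fin 4, ∃ (τ : ℝ) (N : ℤ), (τ = 1 ∨ τ = -1) ∧
      |c j - (τ / 4 + N) - τ * ((1 + r) * ε ^ 20 / (2 * π ^ 2))| ≤ 5 / 3 * (ν / 100 + 100 * ε ^ 23)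
      ∧ |m j + τ * ((-1) ^ (j : ℕ) * σ₀) * r| ≤ 1 / 100 := by
    intro j
    obtain ⟨hc0, hs0⟩ := hcj j
    have hσj : (-1 : ℝ) ^ (j : ℕ) * σ₀ = 1 ∨ (-1 : ℝ) ^ (j : ℕ) * σ₀ = -1 := by
      rcases neg_one_pow_eq_or ℝ (j : ℕ) with h | h <;> rcases hσ₀' with h' | h' <;>
        rw [h, h'] <;> norm_num
    set G : Set ℝ := (fun Y => ε ^ 9 * Y + X j) ⁻¹' A with hG
    have hGv : volume (Icc (-1 : ℝ) 1 \ G) ≤ ENNReal.ofReal (1 / 100) := by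
      have hsub : Icc (-1 : ℝ) 1 \ G ⊆ (fun Y => ε ^ 9 * Y) ⁻¹'
          ((fun x => x + X j) ⁻¹' (Icc (X j - ε ^ 9) (X j + ε ^ 9) \ A)) := by
        rintro Y ⟨hY, hYG⟩
        refine ⟨⟨?_, ?_⟩, hYG⟩
        · show X j - ε ^ 9 ≤ ε ^ 9 * Y + X j
          nlinarith [hY.1]
        · show ε ^ 9 * Y + X j ≤ X j + ε ^ 9
          nlinarith [hY.2]
      refine (measure_mono hsub).trans ?_
      rw [Real.volume_preimage_mul_left e9p.ne', measure_preimage_add_right]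
      calc ENNReal.ofReal |(ε ^ 9)⁻¹| * volume (Icc (X j - ε ^ 9) (X j + ε ^ 9) \ A)
          ≤ ENNReal.ofReal |(ε ^ 9)⁻¹| * ENNReal.ofReal (ε ^ 9 / 100) := by gcongr; exact hA j
        _ = ENNReal.ofReal (1 / 100) := by
            rw [← ENNReal.ofReal_mul (abs_nonneg _), abs_of_pos (by positivity)]
            congr 1; field_simp
    have hβ : |b j * ε| ≤ 1 := by
      rw [abs_mul, abs_of_pos hε0]
      calc |b j| * ε ≤ 1 / ε * ε := by gcongr; exact hb j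
        _ = 1 := by field_simp
    refine local_pole (G := G) (q := fun Y => Q (ε ^ 9 * Y + X j)) (β := b j * ε) (n := n j)
      hε0 hε hr0 hr1 hβ hσj (by positivity) (by linarith) (hm j) (hn j) hGv ?_ ?_
    · intro Y hYG hY hY'
      obtain ⟨p, p', hp, hp', hV, he⟩ := heq _ hYG
      have hxj : |ε ^ 9 * Y + X j - X j| ≤ ε ^ 9 := by
        rw [add_sub_cancel_right, abs_mul, abs_of_pos e9p]
        calc ε ^ 9 * |Y| ≤ ε ^ 9 * 1 := by gcongr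
          _ = ε ^ 9 := by ring
      have := point (x₀ := X j) (Bv := B (ε ^ 9 * Y + X j)) (b := b j) hε0 hε hk hr0 hr1 (hb j)
        hY hY' hσj hc0 hs0 (hB j _ hYG hxj) hp hp' hV (by
          rw [add_comm (X j)]; exact he)
      exact this
    · intro Y hY
      have hxj : |ε ^ 9 * Y + X j - X j| ≤ ε ^ 9 := by
        rw [add_sub_cancel_right, abs_mul, abs_of_pos e9p]
        calc ε ^ 9 * |Y| ≤ ε ^ 9 * 1 := by gcongr
          _ = ε ^ 9 := by ring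
      have := hQ j _ hxj
      rw [add_sub_cancel_right, hη] at this
      exact this
  obtain ⟨τ0, N0, ht0, c0, s0⟩ := main 0
  obtain ⟨τ1, N1, ht1, c1, s1⟩ := main 1
  obtain ⟨τ2, N2, ht2, c2, s2⟩ := main 2
  obtain ⟨τ3, N3, ht3, c3, s3⟩ := main 3
  have hg1 := hsign 1
  have hg2 := hsign 2
  have hg3 := hsign 3
  have hm0 := hm 0
  have hm1 := hm 1
  have hm2 := hm 2
  have hm3 := hm 3
  have hσ2 : σ₀ * σ₀ = 1 := by rcases hσ₀' with h | h <;> rw [h] <;> norm_num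
  have w0 : τ0 * ((-1) ^ ((0 : Fin 4) : ℕ) * σ₀) = τ0 * σ₀ := by norm_num
  have w1 : τ1 * ((-1) ^ ((1 : Fin 4) : ℕ) * σ₀) = -(τ1 * σ₀) := by norm_num
  have w2 : τ2 * ((-1) ^ ((2 : Fin 4) : ℕ) * σ₀) = τ2 * σ₀ := by norm_num
  have w3 : τ3 * ((-1) ^ ((3 : Fin 4) : ℕ) * σ₀) = -(τ3 * σ₀) := by
    have : ((3 : Fin 4) : ℕ) = 3 := rfl
    rw [this]; ring
  rw [w0] at s0
  rw [w1] at s1
  rw [w2] at s2
  rw [w3] at s3
  have pm : ∀ τ : ℝ, (τ = 1 ∨ τ = -1) → (τ * σ₀ = 1 ∨ τ * σ₀ = -1) := by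
    intro τ h
    rcases h with h | h <;> rcases hσ₀' with h' | h' <;> rw [h, h'] <;> norm_num
  have pm' : ∀ τ : ℝ, (τ = 1 ∨ τ = -1) → (-(τ * σ₀) = 1 ∨ -(τ * σ₀) = -1) := by
    intro τ h
    rcases pm τ h with h' | h' <;> rw [h'] <;> norm_num
  have k0 := sgn hr0 hm0 s0 (pm _ ht0)
  have k1 := sgn hr0 hm1 s1 (pm' _ ht1)
  have k2 := sgn hr0 hm2 s2 (pm _ ht2)
  have k3 := sgn hr0 hm3 s3 (pm' _ ht3)
  have hrel : -(τ1 * σ₀) = τ0 * σ₀ ∧ τ2 * σ₀ = τ0 * σ₀ ∧ -(τ3 * σ₀) = τ0 * σ₀ := by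
    have hne : m 0 ≠ 0 := by
      intro h; rw [h, abs_zero] at hm0; norm_num at hm0
    rcases lt_or_gt_of_ne hne with h | h
    · have g1 : m 1 < 0 := by
        by_contra hcon; push Not at hcon; nlinarith
      have g2 : m 2 < 0 := by
        by_contra hcon; push Not at hcon; nlinarith
      have g3 : m 3 < 0 := by
        by_contra hcon; push Not at hcon; nlinarith
      rw [k0.2 h, k1.2 g1, k2.2 g2, k3.2 g3]; exact ⟨rfl, rfl, rfl⟩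
    · have g1 : 0 < m 1 := by
        by_contra hcon; push Not at hcon; nlinarith
      have g2 : 0 < m 2 := by
        by_contra hcon; push Not at hcon; nlinarith
      have g3 : 0 < m 3 := by
        by_contra hcon; push Not at hcon; nlinarith
      rw [k0.1 h, k1.1 g1, k2.1 g2, k3.1 g3]; exact ⟨rfl, rfl, rfl⟩
  have r1 : τ1 = -τ0 := by
    have : τ1 * (σ₀ * σ₀) = -(τ0 * (σ₀ * σ₀)) := by linear_combination -σ₀ * hrel.1
    rw [hσ2] at this; linarith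
  have r2 : τ2 = τ0 := by
    have : τ2 * (σ₀ * σ₀) = τ0 * (σ₀ * σ₀) := by linear_combination σ₀ * hrel.2.1
    rw [hσ2] at this; linarith
  have r3 : τ3 = -τ0 := by
    have : τ3 * (σ₀ * σ₀) = -(τ0 * (σ₀ * σ₀)) := by linear_combination -σ₀ * hrel.2.2
    rw [hσ2] at this; linarith
  subst r1 r2 r3
  have hrν : (1 + r) * ε ^ 20 / (2 * π ^ 2) = (1 + r) * ν := by rw [hν]; ring
  rw [hrν] at c0 c1 c2 c3
  rw [hν', abs_le] at hc
  rw [abs_le] at c0 c1 c2 c3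
  have e20s : ε ^ 20 ≤ 1 / 10 ^ 60 := by
    calc ε ^ 20 ≤ (1 / 1000) ^ 20 := by gcongr
      _ = 1 / 10 ^ 60 := by norm_num
  have hνs : ν ≤ 1 / 1000 := by linarith
  have hrν2 : r * ν ≤ ν := by nlinarith
  have hrν0 : 0 < r * ν := by positivity
  obtain ⟨c0l, c0r⟩ := c0
  obtain ⟨c1l, c1r⟩ := c1
  obtain ⟨c2l, c2r⟩ := c2
  obtain ⟨c3l, c3r⟩ := c3
  obtain ⟨hcl, hcr⟩ := hc
  have hint : ∀ J : ℤ, |(J : ℝ)| < 1 → J = 0 := by
    intro J hJ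
    have h2 : |J| < 1 := by exact_mod_cast hJ
    exact Int.abs_lt_one_iff.1 h2
  rcases ht0 with h | h
  · subst h
    have hJ := hint (2 + (N0 - 3 * N1 + 3 * N2 - N3)) (by
      push_cast
      rw [abs_lt]
      constructor <;> linarith)
    have hJ' : (2 : ℝ) + ((N0 : ℝ) - 3 * N1 + 3 * N2 - N3) = 0 := by exact_mod_cast hJ
    linarith
  · subst h
    have hJ := hint (-2 + (N0 - 3 * N1 + 3 * N2 - N3)) (by
      push_cast
      rw [abs_lt]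
      constructor <;> linarith)
    have hJ' : (-2 : ℝ) + ((N0 : ℝ) - 3 * N1 + 3 * N2 - N3) = 0 := by exact_mod_cast hJ
    linarith

end Crest.Agent.R128.Rough2
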