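import Crest.Agent.R128.Rough

set_option autoImplicit false

/-! Row 128, node P4-ASM (helper155): assembly of `rough1` (86) and `mirror_broken` (548).
Part 1: perturbed form of `rough1`. -/

namespace Crest.Agent.R128.RoughAsm

open MeasureTheory Real Set
open Crest.Agent.R128.Rough (sec Bad F S vol_cos rough1)

/-- `V` -/
noncomputable def Vr (k u : ℝ) : ℝ := 2 + 2 * π * k * Real.cos (2 * π * u)

/-- fresh term of the content, normalised -/
noncomputable def T (k u d d0 : ℝ) : ℝ := 2 * π * k / (d * (Vr k u * d - d0))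

theorem abs_cos_sub_le (u v : ℝ) : |Real.cos (2 * π * u) - Real.cos (2 * π * v)| ≤ 6.3 * |u - v| := by
  have h1 := Real.abs_cos_sub_cos_le (2 * π * u) (2 * π * v)
  have h2 : 2 * π * u - 2 * π * v = 2 * π * (u - v) := by ring
  rw [h2, abs_mul, abs_of_pos (by positivity : (0:ℝ) < 2 * π)] at h1
  have h3 : π < 3.15 := Real.pi_lt_d2
  have := abs_nonneg (u - v)
  nlinarith

theorem T_scale {k u d d0 s : ℝ} (hs : s ≠ 0) : T k u (d / s) (d0 / s) = s ^ 2 * T k u d d0 := by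
  unfold T
  have h : d / s * (Vr k u * (d / s) - d0 / s) = d * (Vr k u * d - d0) / s ^ 2 := by
    field_simp
  rw [h]
  field_simp

/-- `T ≈ sec` -/
theorem T_approx {k u u0 d d0 κ ε e : ℝ} (hk : 1 ≤ k) (hκ : 0 < κ) (hu0 : κ ≤ |Real.cos (2 * π * u0)|)
    (hu : |u - u0| ≤ ε) (hd : |d - 1| ≤ ε) (hd0 : |d0| ≤ ε) (hε : ε ≤ 1 / 10)
    (he : e = 10 * ε + 1 / k) (heκ : e ≤ κ / 2) :
    |T k u d d0 - sec u0| ≤ 2 * e / κ ^ 2 := by
  have hpi := Real.pi_pos
  have hpi3 : 3.14 < π := Real.pi_gt_d2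
  have hk0 : 0 < k := by linarith
  have hε0 : 0 ≤ ε := (abs_nonneg _).trans hu
  have he0 : 0 < e := by rw [he]; positivity
  obtain ⟨D, hD⟩ : ∃ D, D = d ^ 2 * Real.cos (2 * π * u) + d * (2 * d - d0) / (2 * π * k) := ⟨_, rfl⟩
  have hT : T k u d d0 = 1 / D := by
    unfold T Vr
    rw [hD]
    have h : d * ((2 + 2 * π * k * Real.cos (2 * π * u)) * d - d0)
      = (2 * π * k) * (d ^ 2 * Real.cos (2 * π * u) + d * (2 * d - d0) / (2 * π * k)) := by
      field_simp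
      ring
    rw [h]
    by_cases h0 : d ^ 2 * Real.cos (2 * π * u) + d * (2 * d - d0) / (2 * π * k) = 0
    · rw [h0]; simp
    · field_simp
  have hdb := abs_le.1 hd
  have hd0b := abs_le.1 hd0
  have hc1 : |Real.cos (2 * π * u)| ≤ 1 := Real.abs_cos_le_one _
  have hE : |D - Real.cos (2 * π * u0)| ≤ e := by
    have h1 : D - Real.cos (2 * π * u0) = (d ^ 2 - 1) * Real.cos (2 * π * u)
      + (Real.cos (2 * π * u) - Real.cos (2 * π * u0)) + d * (2 * d - d0) / (2 * π * k) := by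
      rw [hD]; ring
    have h2 : |(d ^ 2 - 1) * Real.cos (2 * π * u)| ≤ 3 * ε := by
      rw [abs_mul]
      have : |d ^ 2 - 1| ≤ 3 * ε := by
        have : d ^ 2 - 1 = (d - 1) * (d + 1) := by ring
        rw [this, abs_mul]
        have h3 : |d + 1| ≤ 3 := by rw [abs_le]; constructor <;> linarith
        nlinarith [abs_nonneg (d - 1), abs_nonneg (d + 1)]
      nlinarith [abs_nonneg (d ^ 2 - 1), abs_nonneg (Real.cos (2 * π * u))]
    have h3 : |Real.cos (2 * π * u) - Real.cos (2 * π * u0)| ≤ 6.3 * ε :=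
      (abs_cos_sub_le _ _).trans (by linarith)
    have h4 : |d * (2 * d - d0) / (2 * π * k)| ≤ 1 / k := by
      rw [abs_div, abs_of_pos (by positivity : (0:ℝ) < 2 * π * k), div_le_div_iff₀ (by positivity) hk0]
      have h5 : |d * (2 * d - d0)| ≤ 4 := by
        rw [abs_mul]
        have : |d| ≤ 1.1 := by rw [abs_le]; constructor <;> linarith
        have h6 : |2 * d - d0| ≤ 2.4 := by rw [abs_le]; constructor <;> linarith
        nlinarith [abs_nonneg d, abs_nonneg (2 * d - d0)]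
      nlinarith
    rw [h1, he]
    have := abs_add_three ((d ^ 2 - 1) * Real.cos (2 * π * u))
      (Real.cos (2 * π * u) - Real.cos (2 * π * u0)) (d * (2 * d - d0) / (2 * π * k))
    linarith
  have hDlow : κ / 2 ≤ |D| := by
    have := abs_sub_abs_le_abs_sub (Real.cos (2 * π * u0)) D
    rw [abs_sub_comm] at this
    linarith
  have hD0 : D ≠ 0 := by
    intro h
    rw [h, abs_zero] at hDlow
    linarith
  have hc0 : Real.cos (2 * π * u0) ≠ 0 := by
    intro h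
    rw [h, abs_zero] at hu0
    linarith
  rw [hT, sec]
  have h7 : 1 / D - 1 / Real.cos (2 * π * u0) = (Real.cos (2 * π * u0) - D) / (D * Real.cos (2 * π * u0)) := by
    field_simp
  rw [h7, abs_div, abs_mul, div_le_div_iff₀ (by positivity) (by positivity)]
  have h8 : κ / 2 * κ ≤ |D| * |Real.cos (2 * π * u0)| := by
    apply mul_le_mul hDlow hu0 hκ.le (abs_nonneg _)
  rw [abs_sub_comm] at hE
  nlinarith [sq_nonneg κ, abs_nonneg (Real.cos (2 * π * u0) - D)]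

/-- perturbed form of `rough1` -/
theorem pert_mirror {del a x0 lam q0 q1 q2 κ : ℝ} {G : ℝ → ℝ} (hd0 : 0 < del) (hd : del ≤ 1 / 10000)
    (hlam : 1 ≤ |lam|) (ha : |a * lam ^ 2 - 1| ≤ 1 / 100) (hκ : 0 ≤ κ) (hκd : 8 * κ ≤ del / 800)
    (hG : ∀ y ∈ Icc (0:ℝ) 3, κ ≤ |Real.cos (2 * π * y)| → κ ≤ |Real.cos (2 * π * (x0 + lam * y))| →
      |G y - F q0 q1 q2 a x0 lam y| ≤ 1 / 2)
    (hbad : volume {y : ℝ | y ∈ Icc (0:ℝ) 3 ∧ 1 / 2 < |G y|} ≤ ENNReal.ofReal (del / 800)) :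
    ∃ m : ℤ, (0 < lam ∧ ∀ y ∈ Icc (0 : ℝ) 3, |x0 + lam * y - y - 1 / 2 - m| ≤ del) ∨
      (lam < 0 ∧ ∀ y ∈ Icc (0 : ℝ) 3, |x0 + lam * y + y - 1 / 2 - m| ≤ del) := by
  have hlam0 : lam ≠ 0 := by
    intro h
    rw [h, abs_zero] at hlam
    linarith
  apply rough1 hd0 hd hlam ha (q0 := q0) (q1 := q1) (q2 := q2)
  have hsub : Bad q0 q1 q2 a x0 lam ⊆ {y : ℝ | y ∈ Icc (0:ℝ) 3 ∧ 1 / 2 < |G y|} ∪
      ({y : ℝ | y ∈ Icc (0:ℝ) 3 ∧ |Real.cos (2 * π * (0 + 1 * y))| < κ} ∪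
       {y : ℝ | y ∈ Icc (0:ℝ) 3 ∧ |Real.cos (2 * π * (x0 + lam * y))| < κ}) := by
    rintro y ⟨hy, hF⟩
    by_cases h1 : |Real.cos (2 * π * (0 + 1 * y))| < κ
    · exact Or.inr (Or.inl ⟨hy, h1⟩)
    by_cases h2 : |Real.cos (2 * π * (x0 + lam * y))| < κ
    · exact Or.inr (Or.inr ⟨hy, h2⟩)
    left
    refine ⟨hy, ?_⟩
    rw [not_lt] at h1 h2
    have e1 : (0:ℝ) + 1 * y = y := by ring
    rw [e1] at h1
    have := hG y hy h1 h2
    have h3 := abs_sub_abs_le_abs_sub (F q0 q1 q2 a x0 lam y) (G y)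
    rw [abs_sub_comm] at this
    linarith
  have hv1 := vol_cos (x0 := 0) (lam := 1) (a := 0) (b := 3) (kap := κ) one_ne_zero (by norm_num) hκ
  have hv2 := vol_cos (x0 := x0) (lam := lam) (a := 0) (b := 3) (kap := κ) hlam0 (by norm_num) hκ
  have h1l : 1 / |lam| ≤ 1 := by
    rw [div_le_one (by linarith)]
    exact hlam
  have hv1' : volume {y : ℝ | y ∈ Icc (0:ℝ) 3 ∧ |Real.cos (2 * π * (0 + 1 * y))| < κ}
      ≤ ENNReal.ofReal (4 * κ) := by
    refine hv1.trans (ENNReal.ofReal_le_ofReal ?_)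
    rw [abs_one]
    linarith
  have hv2' : volume {y : ℝ | y ∈ Icc (0:ℝ) 3 ∧ |Real.cos (2 * π * (x0 + lam * y))| < κ}
      ≤ ENNReal.ofReal (4 * κ) := by
    refine hv2.trans (ENNReal.ofReal_le_ofReal ?_)
    nlinarith
  calc volume (Bad q0 q1 q2 a x0 lam)
      ≤ volume {y : ℝ | y ∈ Icc (0:ℝ) 3 ∧ 1 / 2 < |G y|} +
        (volume {y : ℝ | y ∈ Icc (0:ℝ) 3 ∧ |Real.cos (2 * π * (0 + 1 * y))| < κ} +
         volume {y : ℝ | y ∈ Icc (0:ℝ) 3 ∧ |Real.cos (2 * π * (x0 + lam * y))| < κ}) :=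
        (measure_mono hsub).trans ((measure_union_le _ _).trans (add_le_add le_rfl (measure_union_le _ _)))
    _ ≤ ENNReal.ofReal (del / 800) + (ENNReal.ofReal (4 * κ) + ENNReal.ofReal (4 * κ)) :=
        add_le_add hbad (add_le_add hv1' hv2')
    _ = ENNReal.ofReal (del / 800 + (4 * κ + 4 * κ)) := by
        rw [← ENNReal.ofReal_add (by positivity) (by positivity),
          ← ENNReal.ofReal_add (by positivity) (by positivity)]
    _ ≤ ENNReal.ofReal (del / 400) := ENNReal.ofReal_le_ofReal (by linarith)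

end Crest.Agent.R128.RoughAsm
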