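import Crest.Agent.R128.RoughAsm2

set_option autoImplicit false

/-! Row 128, node P4-ASM (helper155), part 3: the second level around one point. -/

namespace Crest.Agent.R128.RoughAsm

open MeasureTheory Real Set
open Crest.Agent.R128.Rough (sec Bad F S vol_cos rough1)

theorem cos_int (z : ℝ) (N : ℤ) : Real.cos (2 * π * (z + N)) = Real.cos (2 * π * z) := by
  have : 2 * π * (z + N) = 2 * π * z + N * (2 * π) := by ring
  rw [this, Real.cos_add_int_mul_two_pi]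

theorem sec_int (z : ℝ) (N : ℤ) : sec (z + N) = sec z := by
  rw [sec, sec, cos_int]

theorem vol_affine {s : ℝ} (hs : s ≠ 0) (x zs : ℝ) (A : Set ℝ) :
    volume ((fun z : ℝ => x + (z - zs) / s) ⁻¹' A) = ENNReal.ofReal |s| * volume A := by
  have h1 : (fun z : ℝ => x + (z - zs) / s) ⁻¹' A
      = (fun z : ℝ => s⁻¹ * z) ⁻¹' ((fun u : ℝ => (x - zs / s) + u) ⁻¹' A) := by
    ext z
    simp only [mem_preimage]
    have : x - zs / s + s⁻¹ * z = x + (z - zs) / s := by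
      field_simp
      ring
    rw [this]
  rw [h1, Real.volume_preimage_mul_left (inv_ne_zero hs), measure_preimage_add, inv_inv]

/-- normalised content after the second fresh digits -/
noncomputable def F2 (k : ℝ) (F1 P P0 dP dP0 Q Q0 dQ dQ0 : ℝ → ℝ) (y : ℝ) : ℝ :=
  F1 y + T k (nx k P P0 y) (dnx k P dP dP0 y) (dP y)
    + T k (nx k Q Q0 y) (dnx k Q dQ dQ0 y) (dQ y)

/-- dead at the second level -/
noncomputable def dead2 (k : ℝ) (F1 P P0 dP dP0 Q Q0 dQ dQ0 : ℝ → ℝ) (y : ℝ) : Prop :=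
  1 / 4 < |F2 k F1 P P0 dP dP0 Q Q0 dQ dQ0 y| *
    min (dnx k P dP dP0 y ^ 2) (dnx k Q dQ dQ0 y ^ 2)

set_option maxHeartbeats 1000000 in
theorem level2_local {k C κ κ1 del R B : ℝ} {P P0 dP dP0 Q Q0 dQ dQ0 F1 : ℝ → ℝ}
    (hS : Side k C P P0 dP dP0) (hS' : Side k C Q Q0 dQ dQ0) (hk : 1 ≤ k) (hC : 0 ≤ C)
    (hκ : 0 < κ) (hκ' : κ ≤ 1) (hkκ : 2 ≤ k * κ) (hR : R = 3 / (2 * κ)) (hB : B = 160 * R + 9 * C + 2)
    (hdel : 0 < del) (hdel' : del ≤ 1 / 10000) (hκ1 : κ1 = del / 6400)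
    (hkbig : 32 * (10 * (B * R) + 1) ≤ κ1 ^ 2 * k) {x : ℝ} (hx : x ∈ Icc (1 / 4 : ℝ) (11 / 4))
    (hRk : R / k ≤ 1 / 4)
    (hcP : κ ≤ |Real.cos (2 * π * P x)|) (hcQ : κ ≤ |Real.cos (2 * π * Q x)|)
    (hslow : |dnx k P dP dP0 x| ≤ |dnx k Q dQ dQ0 x|)
    (HQ : ∃ q0 q1 q2 : ℝ, ∀ y, |y - x| ≤ R / k →
      |F1 y - (q0 + q1 * y + q2 * y ^ 2)| ≤ 1 / (8 * (18 * k) ^ 2))
    (hbad : volume {y : ℝ | |y - x| ≤ R / k ∧ dead2 k F1 P P0 dP dP0 Q Q0 dQ dQ0 y}
      ≤ ENNReal.ofReal (del / (14400 * k))) :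
    ∃ m : ℤ, |nx k Q Q0 x - nx k P P0 x - 1 / 2 - m| ≤ del ∨
      |nx k Q Q0 x + nx k P P0 x - 1 / 2 - m| ≤ del := by
  have hk0 : 0 < k := by linarith
  have hR0 : 0 < R := by rw [hR]; positivity
  have hB0 : 2 ≤ B := by rw [hB]; nlinarith
  have hκ10 : 0 < κ1 := by rw [hκ1]; positivity
  have hκ11 : κ1 ≤ 1 / 64000000 := by rw [hκ1]; linarith
  have hx3 : x ∈ Icc (0:ℝ) 3 := ⟨by linarith [hx.1], by linarith [hx.2]⟩
  obtain ⟨s, hs⟩ : ∃ s, s = dnx k P dP dP0 x := ⟨_, rfl⟩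
  obtain ⟨sQ, hsQ⟩ : ∃ s, s = dnx k Q dQ dQ0 x := ⟨_, rfl⟩
  have hslo : 2 * k * κ ≤ |s| := by
    have := hS.dnx_lower hk hκ.le hx3 hcP
    rw [hs]; linarith
  have hsQlo : 2 * k * κ ≤ |sQ| := by
    have := hS'.dnx_lower hk hκ.le hx3 hcQ
    rw [hsQ]; linarith
  have hsup : |s| ≤ 18 * k := by rw [hs]; exact hS.dnx_upper hk hx3
  have hspos : 0 < |s| := lt_of_lt_of_le (by positivity) hslo
  have hsQpos : 0 < |sQ| := lt_of_lt_of_le (by positivity) hsQlo
  have hs0 : s ≠ 0 := abs_pos.1 hspos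
  have hsQ0 : sQ ≠ 0 := abs_pos.1 hsQpos
  obtain ⟨lam, hlam⟩ : ∃ l, l = sQ / s := ⟨_, rfl⟩
  have hlam1 : 1 ≤ |lam| := by
    rw [hlam, abs_div, le_div_iff₀ hspos, one_mul, hs, hsQ]; exact hslow
  have hlam0 : lam ≠ 0 := by rw [hlam]; exact div_ne_zero hsQ0 hs0
  obtain ⟨N, hN⟩ : ∃ N : ℤ, N = ⌊nx k P P0 x⌋ - 1 := ⟨_, rfl⟩
  obtain ⟨zs, hzs⟩ : ∃ z : ℝ, z = nx k P P0 x - N := ⟨_, rfl⟩
  have hzs1 : 1 ≤ zs := by
    rw [hzs, hN]; push_cast
    linarith [Int.floor_le (nx k P P0 x)]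
  have hzs2 : zs < 2 := by
    rw [hzs, hN]; push_cast
    linarith [Int.lt_floor_add_one (nx k P P0 x)]
  obtain ⟨x0, hx0⟩ : ∃ z : ℝ, z = nx k Q Q0 x - lam * zs := ⟨_, rfl⟩
  -- the affine coordinate
  obtain ⟨X, hX⟩ : ∃ X : ℝ → ℝ, X = fun z => x + (z - zs) / s := ⟨_, rfl⟩
  have hXd : ∀ z ∈ Icc (0:ℝ) 3, |X z - x| ≤ R / k := by
    intro z hz
    have h1 : X z - x = (z - zs) / s := by rw [hX]; ring
    rw [h1, abs_div, hR]
    have h2 : |z - zs| ≤ 2 := by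
      rw [abs_le]; constructor <;> linarith [hz.1, hz.2]
    rw [div_div, div_le_div_iff₀ hspos (by positivity)]
    calc |z - zs| * (2 * κ * k) ≤ 2 * (2 * κ * k) := mul_le_mul_of_nonneg_right h2 (by positivity)
      _ ≤ 3 * |s| := by nlinarith
  have hXm : ∀ z ∈ Icc (0:ℝ) 3, X z ∈ Icc (0:ℝ) 3 := by
    intro z hz
    have := abs_le.1 ((hXd z hz).trans hRk)
    exact ⟨by linarith [this.1, hx.1], by linarith [this.2, hx.2]⟩
  obtain ⟨ε, hε⟩ : ∃ e, e = B * R / k := ⟨_, rfl⟩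
  have hε0 : 0 < ε := by rw [hε]; positivity
  obtain ⟨e, he⟩ : ∃ e, e = 10 * ε + 1 / k := ⟨_, rfl⟩
  have hek : e = (10 * (B * R) + 1) / k := by rw [he, hε]; field_simp
  have he1 : 32 * e ≤ κ1 ^ 2 := by
    rw [hek]
    rw [← mul_div_assoc, div_le_iff₀ hk0]
    exact hkbig
  have hek0 : 0 < e := by rw [hek]; positivity
  have hε1 : ε ≤ 1 / 10 := by
    have : ε ≤ e := by
      rw [he]
      have : 0 < 1 / k := by positivity
      linarith
    nlinarith
  have heκ : e ≤ κ1 / 2 := by nlinarith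
  have he2 : 2 * e / κ1 ^ 2 ≤ 1 / 8 := by
    rw [div_le_iff₀ (by positivity)]
    linarith
  have hBs : B / |s| ≤ ε := by
    rw [hε, div_le_div_iff₀ hspos hk0]
    have h1 : k ≤ R * |s| := by
      rw [hR]
      rw [div_mul_eq_mul_div, le_div_iff₀ (by positivity)]
      nlinarith
    nlinarith
  have hBsQ : B / |sQ| ≤ ε := by
    refine le_trans ?_ hBs
    apply div_le_div_of_nonneg_left (by positivity) hspos
    rw [hs, hsQ]; exact hslow
  -- approximations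
  have appP : ∀ z ∈ Icc (0:ℝ) 3, κ1 ≤ |Real.cos (2 * π * z)| →
      |s ^ 2 * T k (nx k P P0 (X z)) (dnx k P dP dP0 (X z)) (dP (X z)) - sec z| ≤ 1 / 8 := by
    intro z hz hc
    rw [← T_scale hs0, ← sec_int z N]
    refine le_trans (T_approx hk hκ10 (by rw [cos_int]; exact hc) ?_ ?_ ?_ hε1 he heκ) he2
    · have h1 := hS.nx_affine hk hC hx3 (hXm z hz) (hXd z hz)
      have h2 : nx k P P0 x + dnx k P dP dP0 x * (X z - x) = z + N := by
        rw [← hs, hX]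
        simp only
        have : s * (x + (z - zs) / s - x) = z - zs := by field_simp; ring
        rw [this, hzs]; ring
      rw [h2] at h1
      rw [hε, hB]
      rw [mul_div_assoc]
      exact h1
    · have h1 := hS.dnx_sub_le hk hC (hXm z hz) hx3 (hXd z hz)
      have h2 : dnx k P dP dP0 (X z) / s - 1 = (dnx k P dP dP0 (X z) - s) / s := by
        field_simp
      rw [h2, abs_div]
      refine le_trans ?_ hBs
      apply div_le_div_of_nonneg_right _ hspos.le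
      rw [hs, hB]; exact h1
    · rw [abs_div]
      refine le_trans ?_ hBs
      apply div_le_div_of_nonneg_right _ hspos.le
      linarith [hS.hhi _ (hXm z hz)]
  have appQ : ∀ z ∈ Icc (0:ℝ) 3, κ1 ≤ |Real.cos (2 * π * (x0 + lam * z))| →
      |s ^ 2 * T k (nx k Q Q0 (X z)) (dnx k Q dQ dQ0 (X z)) (dQ (X z))
        - 1 / lam ^ 2 * sec (x0 + lam * z)| ≤ 1 / 8 := by
    intro z hz hc
    have h0 : s ^ 2 * T k (nx k Q Q0 (X z)) (dnx k Q dQ dQ0 (X z)) (dQ (X z))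
        = 1 / lam ^ 2 * T k (nx k Q Q0 (X z)) (dnx k Q dQ dQ0 (X z) / sQ) (dQ (X z) / sQ) := by
      rw [T_scale hsQ0, hlam]
      field_simp
    rw [h0, ← mul_sub, abs_mul]
    have h1 : |T k (nx k Q Q0 (X z)) (dnx k Q dQ dQ0 (X z) / sQ) (dQ (X z) / sQ)
        - sec (x0 + lam * z)| ≤ 1 / 8 := by
      refine le_trans (T_approx hk hκ10 hc ?_ ?_ ?_ hε1 he heκ) he2
      · have h1 := hS'.nx_affine hk hC hx3 (hXm z hz) (hXd z hz)
        have h2 : nx k Q Q0 x + dnx k Q dQ dQ0 x * (X z - x) = x0 + lam * z := by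
          rw [← hsQ, hX, hx0, hlam]
          simp only
          field_simp
          ring
        rw [h2] at h1
        rw [hε, hB]
        rw [mul_div_assoc]
        exact h1
      · have h1 := hS'.dnx_sub_le hk hC (hXm z hz) hx3 (hXd z hz)
        have h2 : dnx k Q dQ dQ0 (X z) / sQ - 1 = (dnx k Q dQ dQ0 (X z) - sQ) / sQ := by
          field_simp
        rw [h2, abs_div]
        refine le_trans ?_ hBsQ
        apply div_le_div_of_nonneg_right _ hsQpos.le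
        rw [hsQ, hB]; exact h1
      · rw [abs_div]
        refine le_trans ?_ hBsQ
        apply div_le_div_of_nonneg_right _ hsQpos.le
        linarith [hS'.hhi _ (hXm z hz)]
    have h2 : |1 / lam ^ 2| ≤ 1 := by
      rw [abs_of_pos (by positivity), div_le_one (by positivity), ← sq_abs]
      nlinarith
    calc |1 / lam ^ 2| * |T k (nx k Q Q0 (X z)) (dnx k Q dQ dQ0 (X z) / sQ) (dQ (X z) / sQ)
        - sec (x0 + lam * z)| ≤ 1 * (1 / 8) := mul_le_mul h2 h1 (abs_nonneg _) (by norm_num)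
      _ = 1 / 8 := by norm_num
  obtain ⟨q0, q1, q2, hq⟩ := HQ
  obtain ⟨c, hc⟩ : ∃ c, c = x - zs / s := ⟨_, rfl⟩
  have hXc : ∀ z, X z = c + z / s := by
    intro z; rw [hX, hc]; simp only; field_simp; ring
  -- apply the perturbed lemma
  obtain ⟨m, hm⟩ := pert_mirror (a := 1 / lam ^ 2) (x0 := x0) (lam := lam) (κ := κ1)
    (q0 := s ^ 2 * (q0 + q1 * c + q2 * c ^ 2)) (q1 := s ^ 2 * (q1 / s + 2 * q2 * c / s))
    (q2 := s ^ 2 * (q2 / s ^ 2))
    (G := fun z => s ^ 2 * F2 k F1 P P0 dP dP0 Q Q0 dQ dQ0 (X z)) hdel hdel' hlam1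
    (by
      have : 1 / lam ^ 2 * lam ^ 2 - 1 = 0 := by field_simp; ring
      rw [this]; norm_num) hκ10.le (by rw [hκ1]; linarith)
    (by
      intro z hz h1 h2
      have e1 := appP z hz h1
      have e2 := appQ z hz h2
      have e3 := hq (X z) (hXd z hz)
      have e4 : |s ^ 2 * (F1 (X z) - (q0 + q1 * X z + q2 * X z ^ 2))| ≤ 1 / 8 := by
        rw [abs_mul, abs_of_nonneg (sq_nonneg s)]
        have h5 : s ^ 2 ≤ (18 * k) ^ 2 := by
          rw [← sq_abs]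
          exact pow_le_pow_left₀ (abs_nonneg _) hsup 2
        calc s ^ 2 * |F1 (X z) - (q0 + q1 * X z + q2 * X z ^ 2)|
            ≤ (18 * k) ^ 2 * (1 / (8 * (18 * k) ^ 2)) :=
              mul_le_mul h5 e3 (abs_nonneg _) (by positivity)
          _ = 1 / 8 := by field_simp
      have e5 : s ^ 2 * F2 k F1 P P0 dP dP0 Q Q0 dQ dQ0 (X z)
          - F (s ^ 2 * (q0 + q1 * c + q2 * c ^ 2)) (s ^ 2 * (q1 / s + 2 * q2 * c / s))
            (s ^ 2 * (q2 / s ^ 2)) (1 / lam ^ 2) x0 lam z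
          = s ^ 2 * (F1 (X z) - (q0 + q1 * X z + q2 * X z ^ 2))
            + (s ^ 2 * T k (nx k P P0 (X z)) (dnx k P dP dP0 (X z)) (dP (X z)) - sec z)
            + (s ^ 2 * T k (nx k Q Q0 (X z)) (dnx k Q dQ dQ0 (X z)) (dQ (X z))
                - 1 / lam ^ 2 * sec (x0 + lam * z)) := by
        unfold F2 F S
        have e6 : s ^ 2 * (q0 + q1 * X z + q2 * X z ^ 2)
          = s ^ 2 * (q0 + q1 * c + q2 * c ^ 2) + s ^ 2 * (q1 / s + 2 * q2 * c / s) * z
            + s ^ 2 * (q2 / s ^ 2) * z ^ 2 := by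
          rw [hXc z]
          field_simp
          ring
        linear_combination (1:ℝ) * e6
      rw [e5]
      refine (abs_add_three _ _ _).trans ?_
      linarith)
    (by
      -- volume
      have hsub : {z : ℝ | z ∈ Icc (0:ℝ) 3 ∧
          1 / 2 < |s ^ 2 * F2 k F1 P P0 dP dP0 Q Q0 dQ dQ0 (X z)|} ⊆
          (fun z : ℝ => x + (z - zs) / s) ⁻¹'
            {y : ℝ | |y - x| ≤ R / k ∧ dead2 k F1 P P0 dP dP0 Q Q0 dQ dQ0 y} := by
        rintro z ⟨hz, hbig⟩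
        have hXz : x + (z - zs) / s = X z := by rw [hX]
        rw [mem_preimage, hXz]
        refine ⟨hXd z hz, ?_⟩
        unfold dead2
        have h1 := hS.dnx_sub_le hk hC (hXm z hz) hx3 (hXd z hz)
        have h2 := hS'.dnx_sub_le hk hC (hXm z hz) hx3 (hXd z hz)
        rw [← hB] at h1 h2
        rw [← hs] at h1
        rw [← hsQ] at h2
        have hBs' : B ≤ 1 / 10 * |s| := by
          rw [div_le_iff₀ hspos] at hBs
          nlinarith
        have h3 : 9 / 10 * |s| ≤ |dnx k P dP dP0 (X z)| := by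
          have := abs_sub_abs_le_abs_sub s (dnx k P dP dP0 (X z))
          rw [abs_sub_comm] at this
          linarith
        have hsle : |s| ≤ |sQ| := by rw [hs, hsQ]; exact hslow
        have h4 : 9 / 10 * |s| ≤ |dnx k Q dQ dQ0 (X z)| := by
          have := abs_sub_abs_le_abs_sub sQ (dnx k Q dQ dQ0 (X z))
          rw [abs_sub_comm] at this
          linarith
        have h5 : 81 / 100 * s ^ 2 ≤ dnx k P dP dP0 (X z) ^ 2 := by
          rw [← sq_abs s, ← sq_abs (dnx k P dP dP0 (X z))]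
          nlinarith [abs_nonneg s]
        have h6 : 81 / 100 * s ^ 2 ≤ dnx k Q dQ dQ0 (X z) ^ 2 := by
          rw [← sq_abs s, ← sq_abs (dnx k Q dQ dQ0 (X z))]
          nlinarith [abs_nonneg s]
        have h7 : 81 / 100 * s ^ 2 ≤ min (dnx k P dP dP0 (X z) ^ 2) (dnx k Q dQ dQ0 (X z) ^ 2) :=
          le_min h5 h6
        rw [abs_mul, abs_of_nonneg (sq_nonneg s)] at hbig
        calc (1:ℝ) / 4 < 81 / 100 * (s ^ 2 * |F2 k F1 P P0 dP dP0 Q Q0 dQ dQ0 (X z)|) := by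
              linarith
          _ = |F2 k F1 P P0 dP dP0 Q Q0 dQ dQ0 (X z)| * (81 / 100 * s ^ 2) := by ring
          _ ≤ _ := mul_le_mul_of_nonneg_left h7 (abs_nonneg _)
      refine (measure_mono hsub).trans ?_
      rw [vol_affine hs0]
      calc ENNReal.ofReal |s| * volume {y : ℝ | |y - x| ≤ R / k ∧ dead2 k F1 P P0 dP dP0 Q Q0 dQ dQ0 y}
          ≤ ENNReal.ofReal (18 * k) * ENNReal.ofReal (del / (14400 * k)) :=
            mul_le_mul' (ENNReal.ofReal_le_ofReal hsup) hbad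
        _ = ENNReal.ofReal (del / 800) := by
            rw [← ENNReal.ofReal_mul (by positivity)]
            congr 1
            field_simp
            ring)
  have hzm : zs ∈ Icc (0:ℝ) 3 := ⟨by linarith, by linarith⟩
  rcases hm with ⟨_, hm⟩ | ⟨_, hm⟩
  · refine ⟨m - N, Or.inl ?_⟩
    have := hm zs hzm
    have e1 : x0 + lam * zs - zs - 1 / 2 - m = nx k Q Q0 x - nx k P P0 x - 1 / 2 - ((m - N : ℤ) : ℝ) := by
      rw [hx0]; push_cast
      rw [hzs]; ring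
    rw [← e1]; exact this
  · refine ⟨m + N, Or.inr ?_⟩
    have := hm zs hzm
    have e1 : x0 + lam * zs + zs - 1 / 2 - m = nx k Q Q0 x + nx k P P0 x - 1 / 2 - ((m + N : ℤ) : ℝ) := by
      rw [hx0]; push_cast
      rw [hzs]; ring
    rw [← e1]; exact this

end Crest.Agent.R128.RoughAsm
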