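import Crest.Agent.R128.RoughAsm3
import Crest.Agent.R128.RoughAsm4
import Crest.Agent.R128.Mirror

set_option autoImplicit false

/-! Row 128, node P4-ASM (helper155), part 5: measure of the non-mirror set in the affine
coordinate (application of `mirror_broken`, helper548). -/

namespace Crest.Agent.R128.RoughAsm

open MeasureTheory Real Set
open Crest.Agent.R128.Rough (sec Bad F S vol_cos rough1)

/-- a two-sided cell `[0,3]` in the affine coordinate of the slower digit `P` -/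
structure Cell (k C lam : ℝ) (P P0 dP dP0 d2P Q Q0 dQ dQ0 d2Q : ℝ → ℝ) : Prop where
  hP : ∀ x ∈ Icc (0:ℝ) 3, HasDerivAt P (dP x) x
  hP0 : ∀ x ∈ Icc (0:ℝ) 3, HasDerivAt P0 (dP0 x) x
  hdP : ∀ x ∈ Icc (0:ℝ) 3, HasDerivAt dP (d2P x) x
  hQ : ∀ x ∈ Icc (0:ℝ) 3, HasDerivAt Q (dQ x) x
  hQ0 : ∀ x ∈ Icc (0:ℝ) 3, HasDerivAt Q0 (dQ0 x) x
  hdQ : ∀ x ∈ Icc (0:ℝ) 3, HasDerivAt dQ (d2Q x) x
  nP : ∀ x ∈ Icc (0:ℝ) 3, |P x - x| ≤ C / k
  ndP : ∀ x ∈ Icc (0:ℝ) 3, |dP x - 1| ≤ C / k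
  ndP0 : ∀ x ∈ Icc (0:ℝ) 3, |dP0 x| ≤ C / k
  nd2P : ∀ x ∈ Icc (0:ℝ) 3, |d2P x| ≤ C / k
  ndQ : ∀ x ∈ Icc (0:ℝ) 3, |dQ x - lam| ≤ C / k * |lam|
  ndQ0 : ∀ x ∈ Icc (0:ℝ) 3, |dQ0 x| ≤ C / k * |lam|
  nd2Q : ∀ x ∈ Icc (0:ℝ) 3, |d2Q x| ≤ C / k * lam ^ 2

variable {k C lam : ℝ} {P P0 dP dP0 d2P Q Q0 dQ dQ0 d2Q : ℝ → ℝ}

theorem Cell.P_lower (h : Cell k C lam P P0 dP dP0 d2P Q Q0 dQ dQ0 d2Q) (hk : C / k ≤ 1 / 10)
    {x y : ℝ} (hx : x ∈ Icc (0:ℝ) 3) (hy : y ∈ Icc (0:ℝ) 3) :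
    9 / 10 * |y - x| ≤ |P y - P x| := by
  have h1 := mvt (f := fun t => P t - t) (f' := fun t => dP t - 1) (a := x) (b := y) (B := 1 / 10)
    (fun t ht => (h.hP t (uIcc_sub hx hy ht)).sub (hasDerivAt_id t))
    (fun t ht => (h.ndP t (uIcc_sub hx hy ht)).trans hk)
  have h2 : P y - y - (P x - x) = (P y - P x) - (y - x) := by ring
  rw [h2] at h1
  have h3 := abs_sub_abs_le_abs_sub (y - x) (P y - P x)
  rw [abs_sub_comm (y - x) (P y - P x)] at h3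
  linarith

theorem Cell.P_upper (h : Cell k C lam P P0 dP dP0 d2P Q Q0 dQ dQ0 d2Q) (hk : C / k ≤ 1 / 10)
    {x y : ℝ} (hx : x ∈ Icc (0:ℝ) 3) (hy : y ∈ Icc (0:ℝ) 3) :
    |P y - P x| ≤ 2 * |y - x| :=
  mvt (fun t ht => h.hP t (uIcc_sub hx hy ht)) (fun t ht => by
    have := abs_le.1 (h.ndP t (uIcc_sub hx hy ht))
    rw [abs_le]; constructor <;> linarith)

theorem Cell.surj (h : Cell k C lam P P0 dP dP0 d2P Q Q0 dQ dQ0 d2Q) (hk : C / k ≤ 1 / 10)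
    {p : ℝ} (hp : p ∈ Icc (1 / 4 : ℝ) (11 / 4)) : ∃ x ∈ Icc (0:ℝ) 3, P x = p := by
  have hc : ContinuousOn P (Icc 0 3) := fun x hx => (h.hP x hx).continuousAt.continuousWithinAt
  have h1 := intermediate_value_Icc (by norm_num : (0:ℝ) ≤ 3) hc
  have h2 := abs_le.1 (h.nP 0 (left_mem_Icc.2 (by norm_num)))
  have h3 := abs_le.1 (h.nP 3 (right_mem_Icc.2 (by norm_num)))
  obtain ⟨x, hx, hxp⟩ := h1 (show p ∈ Icc (P 0) (P 3) from
    ⟨by linarith [h2.2, hp.1], by linarith [h3.1, hp.2]⟩)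
  exact ⟨x, hx, hxp⟩

/-- non-mirror set at the next level -/
def NonMir (k r κ : ℝ) (P P0 Q Q0 : ℝ → ℝ) : Set ℝ :=
  {x | x ∈ Icc (1 / 4 : ℝ) (11 / 4) ∧ κ ≤ |Real.cos (2 * π * P x)| ∧
    ∀ n : ℤ, r / 200 < |(nx k Q Q0 x + nx k P P0 x) - n / 2| ∧
      r / 200 < |(nx k Q Q0 x - nx k P P0 x) - n / 2|}

set_option maxHeartbeats 1000000 in
theorem Cell.mirror_measure (h : Cell k C lam P P0 dP dP0 d2P Q Q0 dQ dQ0 d2Q) {r ε : ℝ} {m : ℤ}
    (hC : 1 ≤ C) (hr : r = 1 / (256000 * C)) (hk : 10 ^ 11 * (16 * C) ^ 2 ≤ k)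
    (hlam : |lam| ≤ 11 / 10) (hε : ε = 1 ∨ ε = -1)
    (hη : ∀ x ∈ Icc (0:ℝ) 3, |Q x - ε * P x - 1 / 2 - m| ≤ r / 30) :
    ENNReal.ofReal (r / 10) ≤ volume (NonMir k r (r / 50) P P0 Q Q0) := by
  have hC0 : 0 < C := by linarith
  have hk0 : 0 < k := lt_of_lt_of_le (by positivity) hk
  have hr0 : 0 < r := by rw [hr]; positivity
  have hCk : C / k ≤ 1 / 100 := by
    rw [div_le_iff₀ hk0]
    nlinarith
  have hCk' : C / k ≤ 1 / 10 := by linarith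
  have hCk0 : 0 < C / k := by positivity
  classical
  obtain ⟨θ, hθ⟩ : ∃ θ : ℝ → ℝ, ∀ p ∈ Icc (1 / 4 : ℝ) (11 / 4), θ p ∈ Icc (0:ℝ) 3 ∧ P (θ p) = p := by
    refine ⟨fun p => if hp : p ∈ Icc (1 / 4 : ℝ) (11 / 4) then (h.surj hCk' hp).choose else 0, ?_⟩
    intro p hp
    simp only [dif_pos hp]
    exact (h.surj hCk' hp).choose_spec
  have hθL : ∀ p ∈ Icc (1 / 4 : ℝ) (11 / 4), ∀ q ∈ Icc (1 / 4 : ℝ) (11 / 4),
      |θ q - θ p| ≤ 2 * |q - p| := by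
    intro p hp q hq
    have h1 := h.P_lower hCk' (hθ p hp).1 (hθ q hq).1
    rw [(hθ p hp).2, (hθ q hq).2] at h1
    have := abs_nonneg (q - p)
    linarith
  have hin : ∀ p ∈ Icc (1 / 2 : ℝ) (1 / 2 + 2), p ∈ Ioo (1 / 4 : ℝ) (11 / 4) := by
    intro p hp
    exact ⟨by linarith [hp.1], by linarith [hp.2]⟩
  have hin' : ∀ p ∈ Icc (1 / 2 : ℝ) (1 / 2 + 2), p ∈ Icc (1 / 4 : ℝ) (11 / 4) := fun p hp =>
    Ioo_subset_Icc_self (hin p hp)
  have hθc : ∀ p ∈ Ioo (1 / 4 : ℝ) (11 / 4), ContinuousAt θ p := by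
    intro p hp
    rw [Metric.continuousAt_iff]
    intro e he
    have hnhds : Ioo (1 / 4 : ℝ) (11 / 4) ∈ nhds p := isOpen_Ioo.mem_nhds hp
    obtain ⟨d, hd, hball⟩ := Metric.mem_nhds_iff.1 hnhds
    refine ⟨min d (e / 2), lt_min hd (by positivity), ?_⟩
    intro q hq
    have hq1 : q ∈ Ioo (1 / 4 : ℝ) (11 / 4) := hball (lt_of_lt_of_le hq (min_le_left _ _))
    have h1 := hθL p (Ioo_subset_Icc_self hp) q (Ioo_subset_Icc_self hq1)
    have h2 : dist q p < e / 2 := lt_of_lt_of_le hq (min_le_right _ _)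
    rw [Real.dist_eq] at h2 ⊢
    linarith
  have hdP9 : ∀ x ∈ Icc (0:ℝ) 3, 9 / 10 ≤ dP x := by
    intro x hx
    have := abs_le.1 (h.ndP x hx)
    linarith
  have hθd : ∀ p ∈ Ioo (1 / 4 : ℝ) (11 / 4), HasDerivAt θ (dP (θ p))⁻¹ p := by
    intro p hp
    have hm := hθ p (Ioo_subset_Icc_self hp)
    apply HasDerivAt.of_local_left_inverse (hθc p hp) (h.hP _ hm.1)
    · have := hdP9 _ hm.1
      intro h0
      rw [h0] at this
      norm_num at this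
    · filter_upwards [isOpen_Ioo.mem_nhds hp] with q hq
      exact (hθ q (Ioo_subset_Icc_self hq)).2
  -- the mirrored digit
  have h1 : ∀ p ∈ Icc (1 / 2 : ℝ) (1 / 2 + 2),
      HasDerivAt (fun p => Q (θ p) - ε * p - 1 / 2 - m) (dQ (θ p) * (dP (θ p))⁻¹ - ε) p := by
    intro p hp
    have hm := hθ p (hin' p hp)
    have e1 := (h.hQ _ hm.1).comp p (hθd p (hin p hp))
    have e2 := ((e1.sub ((hasDerivAt_id p).const_mul ε)).sub_const (1 / 2)).sub_const (m : ℝ)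
    refine e2.congr_deriv ?_
    ring
  have h2 : ∀ p ∈ Icc (1 / 2 : ℝ) (1 / 2 + 2),
      HasDerivAt (fun p => dQ (θ p) * (dP (θ p))⁻¹ - ε)
        ((d2Q (θ p) * (dP (θ p))⁻¹) * (dP (θ p))⁻¹
          + dQ (θ p) * (-(d2P (θ p) * (dP (θ p))⁻¹) / (dP (θ p)) ^ 2)) p := by
    intro p hp
    have hm := hθ p (hin' p hp)
    have h0 : dP (θ p) ≠ 0 := by
      have := hdP9 _ hm.1
      intro h0
      rw [h0] at this
      norm_num at this
    have e1 := (h.hdQ _ hm.1).comp p (hθd p (hin p hp))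
    have e2 := (h.hdP _ hm.1).comp p (hθd p (hin p hp))
    have e3 := e2.inv h0
    exact (e1.mul e3).sub_const ε
  have hinv : ∀ p ∈ Icc (1 / 2 : ℝ) (1 / 2 + 2), |(dP (θ p))⁻¹| ≤ 10 / 9 := by
    intro p hp
    have := hdP9 _ (hθ p (hin' p hp)).1
    rw [abs_of_pos (by positivity), inv_le_comm₀ (by linarith) (by norm_num)]
    norm_num
    linarith
  have hdQ : ∀ x ∈ Icc (0:ℝ) 3, |dQ x| ≤ 12 / 10 := by
    intro x hx
    have e1 := h.ndQ x hx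
    have e2 := abs_sub_abs_le_abs_sub (dQ x) lam
    have e3 : C / k * |lam| ≤ 1 / 100 * (11 / 10) :=
      mul_le_mul hCk hlam (abs_nonneg _) (by norm_num)
    linarith
  have h3 : ∀ p ∈ Icc (1 / 2 : ℝ) (1 / 2 + 2),
      |(d2Q (θ p) * (dP (θ p))⁻¹) * (dP (θ p))⁻¹
          + dQ (θ p) * (-(d2P (θ p) * (dP (θ p))⁻¹) / (dP (θ p)) ^ 2)| ≤ (16 * C) / k := by
    intro p hp
    have hm := (hθ p (hin' p hp)).1
    obtain ⟨a, ha⟩ : ∃ a, a = (dP (θ p))⁻¹ := ⟨_, rfl⟩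
    have ha' : |a| ≤ 10 / 9 := by rw [ha]; exact hinv p hp
    have e0 : -(d2P (θ p) * (dP (θ p))⁻¹) / (dP (θ p)) ^ 2 = -(d2P (θ p) * a * a * a) := by
      rw [ha]
      field_simp
    rw [e0, ← ha]
    have e1 : |d2Q (θ p)| ≤ C / k * (121 / 100) := by
      refine (h.nd2Q _ hm).trans ?_
      apply mul_le_mul_of_nonneg_left _ hCk0.le
      rw [← sq_abs]
      nlinarith [abs_nonneg lam]
    have e2 := h.nd2P _ hm
    have e3 := hdQ _ hm
    have e4 : |d2Q (θ p) * a * a| ≤ (C / k * (121 / 100)) * (10 / 9) * (10 / 9) := by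
      rw [abs_mul, abs_mul]
      gcongr
    have e5 : |dQ (θ p) * -(d2P (θ p) * a * a * a)|
        ≤ (12 / 10) * ((C / k) * (10 / 9) * (10 / 9) * (10 / 9)) := by
      rw [abs_mul, abs_neg, abs_mul, abs_mul, abs_mul]
      gcongr
    have e6 := abs_add_le (d2Q (θ p) * a * a) (dQ (θ p) * -(d2P (θ p) * a * a * a))
    have e7 : 16 * C / k = 16 * (C / k) := by ring
    rw [e7]
    linarith
  have hη' : ∀ p ∈ Icc (1 / 2 : ℝ) (1 / 2 + 2), |Q (θ p) - ε * p - 1 / 2 - m| ≤ r / 30 := by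
    intro p hp
    have hm := hθ p (hin' p hp)
    have := hη _ hm.1
    rw [hm.2] at this
    exact this
  have hP0L : ∀ x ∈ Icc (1 / 2 : ℝ) (1 / 2 + 2), ∀ y ∈ Icc (1 / 2 : ℝ) (1 / 2 + 2),
      |P0 (θ y) - P0 (θ x)| ≤ 1 / 4 * |y - x| := by
    intro x hx y hy
    have mx := (hθ x (hin' x hx)).1
    have my := (hθ y (hin' y hy)).1
    have e1 := mvt (f := P0) (f' := dP0) (B := 1 / 100) (fun t ht => h.hP0 t (uIcc_sub mx my ht))
      (fun t ht => (h.ndP0 t (uIcc_sub mx my ht)).trans hCk)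
    have e2 := hθL x (hin' x hx) y (hin' y hy)
    have := abs_nonneg (y - x)
    linarith
  have hQ0L : ∀ x ∈ Icc (1 / 2 : ℝ) (1 / 2 + 2), ∀ y ∈ Icc (1 / 2 : ℝ) (1 / 2 + 2),
      |Q0 (θ y) - Q0 (θ x)| ≤ 1 / 4 * |y - x| := by
    intro x hx y hy
    have mx := (hθ x (hin' x hx)).1
    have my := (hθ y (hin' y hy)).1
    have e1 := mvt (f := Q0) (f' := dQ0) (B := 2 / 100) (fun t ht => h.hQ0 t (uIcc_sub mx my ht))
      (fun t ht => by
        refine (h.ndQ0 t (uIcc_sub mx my ht)).trans ?_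
        calc C / k * |lam| ≤ 1 / 100 * (11 / 10) := mul_le_mul hCk hlam (abs_nonneg _) (by norm_num)
          _ ≤ 2 / 100 := by norm_num)
    have e2 := hθL x (hin' x hx) y (hin' y hy)
    have := abs_nonneg (y - x)
    linarith
  have key := Mirror.mirror_broken (k := k) (C1 := 16 * C) (ε := ε) (α := 1 / 2) (r := r)
    (η := fun p => Q (θ p) - ε * p - 1 / 2 - m) (e1 := fun p => dQ (θ p) * (dP (θ p))⁻¹ - ε)
    (e2 := fun p => (d2Q (θ p) * (dP (θ p))⁻¹) * (dP (θ p))⁻¹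
          + dQ (θ p) * (-(d2P (θ p) * (dP (θ p))⁻¹) / (dP (θ p)) ^ 2))
    (P0 := fun p => P0 (θ p)) (Q0 := fun p => Q0 (θ p)) (Q := fun p => Q (θ p)) (m := m)
    (by linarith) (by rw [hr]; congr 1; ring) hk hε h1 h2 h3 hη'
    (fun p hp => by ring) hP0L hQ0L
  -- covering
  obtain ⟨M, hM⟩ : ∃ M : Set ℝ, M = {p : ℝ | p ∈ Icc (1 / 2 : ℝ) (1 / 2 + 2) ∧ ∃ n : ℤ,
        |((2 * Q (θ p) + k * Real.sin (2 * π * Q (θ p)) - Q0 (θ p))
          + (2 * p + k * Real.sin (2 * π * p) - P0 (θ p))) - n / 2| ≤ r / 200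
          ∨ |((2 * Q (θ p) + k * Real.sin (2 * π * Q (θ p)) - Q0 (θ p))
            - (2 * p + k * Real.sin (2 * π * p) - P0 (θ p))) - n / 2| ≤ r / 200} := ⟨_, rfl⟩
  have hMv : volume M ≤ ENNReal.ofReal (2 - 3 / 8 * r) := by rw [hM]; exact key
  obtain ⟨W, hW⟩ : ∃ W, W = NonMir k r (r / 50) P P0 Q Q0 := ⟨_, rfl⟩
  have hcos := vol_cos (x0 := 0) (lam := 1) (a := 1 / 2) (b := 1 / 2 + 2) (kap := r / 50) one_ne_zero
    (by norm_num) (by positivity)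
  have hcov : Icc (1 / 2 : ℝ) (1 / 2 + 2) ⊆ M ∪
      ({y : ℝ | y ∈ Icc (1 / 2 : ℝ) (1 / 2 + 2) ∧ |Real.cos (2 * π * (0 + 1 * y))| < r / 50} ∪
        P '' W) := by
    intro p hp
    by_cases hpM : p ∈ M
    · exact Or.inl hpM
    by_cases hpc : |Real.cos (2 * π * (0 + 1 * p))| < r / 50
    · exact Or.inr (Or.inl ⟨hp, hpc⟩)
    right; right
    have hm := hθ p (hin' p hp)
    refine ⟨θ p, ?_, hm.2⟩
    rw [hW]
    have h5 := abs_le.1 (h.nP _ hm.1)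
    rw [hm.2] at h5
    refine ⟨⟨by linarith [h5.2, hp.1], by linarith [h5.1, hp.2]⟩, ?_, ?_⟩
    · rw [hm.2]
      have e : (0:ℝ) + 1 * p = p := by ring
      rw [e] at hpc
      exact not_lt.1 hpc
    · intro n
      rw [hM] at hpM
      simp only [mem_ofPred_eq, not_and, not_exists, not_or, not_le] at hpM
      have := hpM hp n
      unfold nx
      rw [hm.2]
      exact this
  have hPW : volume (P '' W) ≤ 2 * volume W := by
    apply volume_image_le (K := 2)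
    intro x hx y hy
    rw [hW] at hx hy
    have mx : x ∈ Icc (0:ℝ) 3 := ⟨by linarith [hx.1.1], by linarith [hx.1.2]⟩
    have my : y ∈ Icc (0:ℝ) 3 := ⟨by linarith [hy.1.1], by linarith [hy.1.2]⟩
    exact h.P_upper hCk' my mx
  rw [← hW]
  by_contra hcon
  rw [not_le] at hcon
  have hr1 : r ≤ 1 := by
    rw [hr, div_le_one (by positivity)]
    linarith
  have htot : ENNReal.ofReal 2 ≤ ENNReal.ofReal (2 - 3 / 8 * r)
      + (ENNReal.ofReal (3 * (r / 50)) + 2 * volume W) := by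
    calc ENNReal.ofReal 2 = volume (Icc (1 / 2 : ℝ) (1 / 2 + 2)) := by
          rw [Real.volume_Icc]; norm_num
      _ ≤ _ := measure_mono hcov
      _ ≤ _ := (measure_union_le _ _).trans (add_le_add le_rfl (measure_union_le _ _))
      _ ≤ _ := by
          refine add_le_add hMv (add_le_add ?_ hPW)
          refine hcos.trans (ENNReal.ofReal_le_ofReal ?_)
          rw [abs_one]
          linarith
  have h2W : 2 * volume W ≤ ENNReal.ofReal (2 * (r / 10)) := by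
    rw [ENNReal.ofReal_mul (by norm_num)]
    have : ENNReal.ofReal 2 = 2 := by norm_num
    rw [this]
    gcongr
  have hfin : ENNReal.ofReal 2 ≤ ENNReal.ofReal ((2 - 3 / 8 * r) + (3 * (r / 50) + 2 * (r / 10))) := by
    rw [ENNReal.ofReal_add (by linarith) (by positivity), ENNReal.ofReal_add (by positivity) (by positivity)]
    exact htot.trans (by gcongr)
  rw [ENNReal.ofReal_le_ofReal_iff (by linarith)] at hfin
  linarith

end Crest.Agent.R128.RoughAsm
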