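import Crest.Agent.R128.RoughX

/-!
Row 128, node RA (helper791): the regime of a very fast second side.  If the term of the fast side is
small off a small set then the content is far from aligned on a positive fraction of the cell; no
information on the fast digit is needed.
-/

set_option autoImplicit false

namespace Crest.Agent.R128.RoughBig

open MeasureTheory Real Set
open Crest.Agent.R128.Rough Crest.Agent.R128.RoughX

/-- no mirror when the slope is large -/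
theorem not_mirror {x0 lam del : ℝ} (hd0 : 0 < del) (hd : del ≤ 1 / 10000) (hlam : 2 ≤ |lam|) :
    ¬ ∃ m : ℤ, (0 < lam ∧ ∀ y ∈ Icc (0 : ℝ) 3, |x0 + lam * y - y - 1 / 2 - m| ≤ del) ∨
      (lam < 0 ∧ ∀ y ∈ Icc (0 : ℝ) 3, |x0 + lam * y + y - 1 / 2 - m| ≤ del) := by
  rintro ⟨m, ⟨h0, h⟩ | ⟨h0, h⟩⟩
  · have h1 := abs_le.mp (h 0 (by norm_num))
    have h2 := abs_le.mp (h 3 (by norm_num))
    rw [abs_of_pos h0] at hlam
    linarith [h1.1, h1.2, h2.1, h2.2]
  · have h1 := abs_le.mp (h 0 (by norm_num))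
    have h2 := abs_le.mp (h 3 (by norm_num))
    rw [abs_of_neg h0] at hlam
    linarith [h1.1, h1.2, h2.1, h2.2]

/-- `rough1_of_near` with an exceptional set. -/
theorem rough1_exc {del a x0 lam q0 q1 q2 e : ℝ} {P Q g : ℝ → ℝ} {S : Set ℝ} (hd0 : 0 < del)
    (hd : del ≤ 1 / 10000) (hlam : 1 ≤ |lam|) (ha : |a * lam ^ 2 - 1| ≤ 1 / 100)
    (he : e ≤ del ^ 2 / 10 ^ 10)
    (hP : ∀ y ∈ Icc (0 : ℝ) 3, |P y - y| ≤ e)
    (hQ : ∀ y ∈ Icc (0 : ℝ) 3, |Q y - (x0 + lam * y)| ≤ e)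
    (hS : volume S ≤ ENNReal.ofReal (del / 1600))
    (hg : ∀ y ∈ Icc (0 : ℝ) 3, y ∉ S → del / 12800 ≤ |Real.cos (2 * π * P y)| →
      del / 12800 ≤ |Real.cos (2 * π * Q y)| →
      |g y - (q0 + q1 * y + q2 * y ^ 2 + (sec (P y) + a * sec (Q y)))| ≤ 1 / 4)
    (hbad : volume {y | y ∈ Icc (0 : ℝ) 3 ∧ 1 / 2 < |g y|} ≤ ENNReal.ofReal (del / 1600)) :
    ∃ m : ℤ, (0 < lam ∧ ∀ y ∈ Icc (0 : ℝ) 3, |x0 + lam * y - y - 1 / 2 - m| ≤ del) ∨
      (lam < 0 ∧ ∀ y ∈ Icc (0 : ℝ) 3, |x0 + lam * y + y - 1 / 2 - m| ≤ del) := by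
  classical
  refine rough1_of_near (P := P) (Q := Q)
    (g := fun y => if y ∈ S then q0 + q1 * y + q2 * y ^ 2 + (sec (P y) + a * sec (Q y)) else g y)
    (q0 := q0) (q1 := q1) (q2 := q2) hd0 hd hlam ha he hP hQ ?_ ?_
  · intro y hy h1 h2
    by_cases hyS : y ∈ S
    · simp [hyS]
    · simp only [hyS, if_false]
      exact hg y hy hyS h1 h2
  · have hsub : {y | y ∈ Icc (0 : ℝ) 3 ∧ 1 / 2 <
        |(fun y => if y ∈ S then q0 + q1 * y + q2 * y ^ 2 + (sec (P y) + a * sec (Q y)) else g y) y|} ⊆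
        {y | y ∈ Icc (0 : ℝ) 3 ∧ 1 / 2 < |g y|} ∪ S := by
      rintro y ⟨hy, h⟩
      by_cases hyS : y ∈ S
      · exact Or.inr hyS
      · left
        simp only [hyS, if_false] at h
        exact ⟨hy, h⟩
    refine (measure_mono hsub).trans ((measure_union_le _ _).trans ?_)
    calc _ ≤ ENNReal.ofReal (del / 1600) + ENNReal.ofReal (del / 1600) := add_le_add hbad hS
      _ = ENNReal.ofReal (del / 800) := by
        rw [← ENNReal.ofReal_add (by positivity) (by positivity)]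
        congr 1; ring

/-- **big slope**: quadratic content plus one secant is large on a positive fraction. -/
theorem big {del q0 q1 q2 e : ℝ} {P g : ℝ → ℝ} {S : Set ℝ} (hd0 : 0 < del) (hd : del ≤ 1 / 10000)
    (he : e ≤ del ^ 2 / 10 ^ 10)
    (hP : ∀ y ∈ Icc (0 : ℝ) 3, |P y - y| ≤ e)
    (hS : volume S ≤ ENNReal.ofReal (del / 1600))
    (hg : ∀ y ∈ Icc (0 : ℝ) 3, y ∉ S → del / 12800 ≤ |Real.cos (2 * π * P y)| →
      |g y - (q0 + q1 * y + q2 * y ^ 2 + sec (P y))| ≤ 1 / 8) :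
    ENNReal.ofReal (del / 1600) ≤ volume {y | y ∈ Icc (0 : ℝ) 3 ∧ 1 / 2 < |g y|} := by
  by_contra hcon
  push Not at hcon
  have he0 : 0 ≤ e := (abs_nonneg _).trans (hP 0 (by norm_num))
  obtain ⟨lam, hlamdef⟩ : ∃ lam : ℝ, lam = 1000 / del := ⟨_, rfl⟩
  have hlampos : 0 < lam := by rw [hlamdef]; positivity
  have hlam2 : 2 ≤ lam := by
    rw [hlamdef, le_div_iff₀ hd0]; linarith
  have hlabs : |lam| = lam := abs_of_pos hlampos
  have ha : |(1 / lam ^ 2) * lam ^ 2 - 1| ≤ 1 / 100 := by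
    have : (1 / lam ^ 2) * lam ^ 2 = 1 := by field_simp
    rw [this]; norm_num
  have key := rough1_exc (del := del) (a := 1 / lam ^ 2) (x0 := 0) (lam := lam) (q0 := q0)
    (q1 := q1) (q2 := q2) (e := e) (P := P) (Q := fun y => 0 + lam * y) (g := g) (S := S) hd0 hd
    (by rw [hlabs]; linarith) ha he hP (fun y _ => by simp [he0]) hS ?_ hcon.le
  · exact not_mirror hd0 hd (by rw [hlabs]; exact hlam2) key
  · intro y hy hyS h1 h2
    have h3 := hg y hy hyS h1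
    have h4 : |1 / lam ^ 2 * sec (0 + lam * y)| ≤ 1 / 8 := by
      rw [abs_mul]
      have h5 : |sec (0 + lam * y)| ≤ 1 / (del / 12800) := abs_sec_le (by positivity) h2
      have h6 : |1 / lam ^ 2| = del ^ 2 / 10 ^ 6 := by
        rw [hlamdef, abs_of_pos (by positivity)]
        field_simp
        norm_num
      rw [h6]
      calc del ^ 2 / 10 ^ 6 * |sec (0 + lam * y)| ≤ del ^ 2 / 10 ^ 6 * (1 / (del / 12800)) := by
            gcongr
        _ = del * (12800 / 10 ^ 6) := by field_simp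
        _ ≤ 1 / 8 := by nlinarith
    have h7 : g y - (q0 + q1 * y + q2 * y ^ 2 + (sec (P y) + 1 / lam ^ 2 * sec (0 + lam * y))) =
        (g y - (q0 + q1 * y + q2 * y ^ 2 + sec (P y))) - 1 / lam ^ 2 * sec (0 + lam * y) := by ring
    rw [h7]
    calc _ ≤ |g y - (q0 + q1 * y + q2 * y ^ 2 + sec (P y))| + |1 / lam ^ 2 * sec (0 + lam * y)| :=
          abs_sub _ _
      _ ≤ 1 / 8 + 1 / 8 := add_le_add h3 h4
      _ = 1 / 4 := by norm_num

end Crest.Agent.R128.RoughBig
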