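import Crest.Agent.R128.Rough
import Crest.Agent.R128.Mirror

/-!
Row 128, node ROUGH (one level), helper86.  The case of very different slopes: the faster digit `Q` is
only bi-Lipschitz with constant about `lam`, `|lam| ≥ 4`; then one level alone is rough.
-/

set_option autoImplicit false

namespace Crest.Agent.R128.RoughL

open MeasureTheory Real Set
open Crest.Agent.R128.Rough (sec near_pole vol_cos exists_good abs_sec_le abs_cos_at sec_lower)

/-- near critical set of a bi-Lipschitz digit -/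
theorem vol_cos_bi {Q : ℝ → ℝ} {u v b L κ : ℝ} (huv : u ≤ v) (hb : 0 < b) (hL : 0 ≤ L) (hκ : 0 ≤ κ)
    (hlow : ∀ x ∈ Icc u v, ∀ y ∈ Icc u v, b * |y - x| ≤ |Q y - Q x|)
    (hup : ∀ x ∈ Icc u v, ∀ y ∈ Icc u v, |Q y - Q x| ≤ L * |y - x|) :
    volume {x : ℝ | x ∈ Icc u v ∧ |Real.cos (2 * π * Q x)| < κ}
      ≤ ENNReal.ofReal ((4 * (L * (v - u) + κ / 4) + 1) * (κ / (2 * b))) := by
  have h := Mirror.eq_count (f := fun x => Q x - 1 / 4) (d := κ / 4) huv hb hL (by positivity)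
    (fun x hx y hy => by
      have := hlow x hx y hy
      simpa using this)
    (fun x hx y hy => by
      have := hup x hx y hy
      simpa using this)
  have e : (2 * (κ / 4) / b) = κ / (2 * b) := by
    field_simp
    ring
  rw [e] at h
  refine (measure_mono ?_).trans h
  rintro x ⟨hx, hc⟩
  refine ⟨hx, round (2 * Q x - 1 / 2), ?_⟩
  have := near_pole (Q x)
  show |Q x - 1 / 4 - (round (2 * Q x - 1 / 2) : ℝ) / 2| ≤ κ / 4
  linarith

theorem cos_lip (X Y : ℝ) :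
    |Real.cos (2 * π * X) - Real.cos (2 * π * Y)| ≤ 2 * π * |X - Y| := by
  have h := Real.abs_cos_sub_cos_le (2 * π * X) (2 * π * Y)
  have h2 : |2 * π * X - 2 * π * Y| = 2 * π * |X - Y| := by
    rw [← mul_sub, abs_mul, abs_of_pos (by positivity : (0 : ℝ) < 2 * π)]
  rwa [h2] at h

theorem cos_pert {X Y e κ κ' : ℝ} (h : |X - Y| ≤ e) (hX : κ ≤ |Real.cos (2 * π * X)|)
    (hk : κ' + 7 * e ≤ κ) : κ' ≤ |Real.cos (2 * π * Y)| := by
  have h1 := cos_lip X Y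
  have h2 : |Real.cos (2 * π * X)| - |Real.cos (2 * π * Y)| ≤
      |Real.cos (2 * π * X) - Real.cos (2 * π * Y)| := abs_sub_abs_le_abs_sub _ _
  have h0 : 0 ≤ |X - Y| := abs_nonneg _
  have h3 : 2 * π * |X - Y| ≤ 7 * |X - Y| := by
    have : π < 3.15 := Real.pi_lt_d2
    nlinarith
  linarith

/-- the bad values of the step `H`, for one multiple `j` -/
theorem vol_badj {B : Set ℝ} {Q : ℝ → ℝ} {lam c0 y j : ℝ} (hlam : 4 ≤ |lam|) (hj : 1 ≤ j)
    (hj3 : j ≤ 3) (hc0 : 0 ≤ c0) (hy : y ∈ Icc (0 : ℝ) (3 / 2))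
    (hbad : volume B ≤ ENNReal.ofReal c0)
    (hlow : ∀ x ∈ Icc (0 : ℝ) 3, ∀ y ∈ Icc (0 : ℝ) 3, 98 / 100 * |lam| * |y - x| ≤ |Q y - Q x|)
    (hup : ∀ x ∈ Icc (0 : ℝ) 3, ∀ y ∈ Icc (0 : ℝ) 3, |Q y - Q x| ≤ 102 / 100 * |lam| * |y - x|) :
    volume ({H : ℝ | y + j * H ∈ B} ∪
      ({H : ℝ | H ∈ Icc (1 / 10 : ℝ) (4 / 10) ∧ |Real.cos (2 * π * (y + j * H))| < 1 / 99} ∪
       {H : ℝ | H ∈ Icc (1 / 10 : ℝ) (4 / 10) ∧
          |Real.cos (2 * π * (Q (y + j * H)))| < 1 / 100})) ≤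
      ENNReal.ofReal (c0 + 25 / 1000) := by
  have hj0 : 0 < j := by linarith
  have h1 : volume {H : ℝ | y + j * H ∈ B} ≤ ENNReal.ofReal c0 := by
    have e : {H : ℝ | y + j * H ∈ B} = (fun H => j * H) ⁻¹' ((fun x => y + x) ⁻¹' B) := rfl
    rw [e, Real.volume_preimage_mul_left hj0.ne', measure_preimage_add]
    calc ENNReal.ofReal |j⁻¹| * volume B ≤ 1 * ENNReal.ofReal c0 := by
          refine mul_le_mul' ?_ hbad
          rw [abs_of_pos (by positivity)]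
          rw [← ENNReal.ofReal_one]
          exact ENNReal.ofReal_le_ofReal (inv_le_one_of_one_le₀ hj)
      _ = _ := one_mul _
  have h2 : volume {H : ℝ | H ∈ Icc (1 / 10 : ℝ) (4 / 10) ∧
      |Real.cos (2 * π * (y + j * H))| < 1 / 99} ≤ ENNReal.ofReal (15 / 1000) := by
    refine (vol_cos (x0 := y) (lam := j) (a := 1 / 10) (b := 4 / 10) (kap := 1 / 99) hj0.ne'
      (by norm_num) (by norm_num)).trans (ENNReal.ofReal_le_ofReal ?_)
    rw [abs_of_pos hj0]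
    have : 1 / j ≤ 1 := by rw [div_le_one hj0]; exact hj
    linarith
  have h3 : volume {H : ℝ | H ∈ Icc (1 / 10 : ℝ) (4 / 10) ∧
      |Real.cos (2 * π * (Q (y + j * H)))| < 1 / 100} ≤ ENNReal.ofReal (10 / 1000) := by
    have hmem : ∀ H ∈ Icc (1 / 10 : ℝ) (4 / 10), y + j * H ∈ Icc (0 : ℝ) 3 := by
      intro H hH
      constructor
      · nlinarith [hy.1, hH.1]
      · nlinarith [hy.2, hH.2, hH.1]
    have hl0 : 0 < |lam| := by linarith
    have := vol_cos_bi (Q := fun H => Q (y + j * H)) (u := 1 / 10) (v := 4 / 10)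
      (b := 98 / 100 * |lam| * j) (L := 102 / 100 * |lam| * j) (κ := 1 / 100)
      (by norm_num) (by positivity) (by positivity) (by norm_num)
      (fun x hx z hz => by
        have h := hlow _ (hmem x hx) _ (hmem z hz)
        have e : y + j * z - (y + j * x) = j * (z - x) := by ring
        rw [e, abs_mul, abs_of_pos hj0] at h
        calc 98 / 100 * |lam| * j * |z - x| = 98 / 100 * |lam| * (j * |z - x|) := by ring
          _ ≤ _ := h)
      (fun x hx z hz => by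
        have h := hup _ (hmem x hx) _ (hmem z hz)
        have e : y + j * z - (y + j * x) = j * (z - x) := by ring
        rw [e, abs_mul, abs_of_pos hj0] at h
        calc _ ≤ 102 / 100 * |lam| * (j * |z - x|) := h
          _ = 102 / 100 * |lam| * j * |z - x| := by ring)
    refine this.trans (ENNReal.ofReal_le_ofReal ?_)
    obtain ⟨w, hw⟩ : ∃ w, w = |lam| * j := ⟨_, rfl⟩
    have hw4 : 4 ≤ w := by rw [hw]; nlinarith
    have e1 : 102 / 100 * |lam| * j = 102 / 100 * w := by rw [hw]; ring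
    have e2 : 98 / 100 * |lam| * j = 98 / 100 * w := by rw [hw]; ring
    rw [e1, e2, mul_div_assoc', div_le_iff₀ (by positivity)]
    nlinarith
  calc _ ≤ ENNReal.ofReal c0 + (ENNReal.ofReal (15 / 1000) + ENNReal.ofReal (10 / 1000)) :=
        (measure_union_le _ _).trans (add_le_add h1 ((measure_union_le _ _).trans
          (add_le_add h2 h3)))
    _ = _ := by
        rw [← ENNReal.ofReal_add (by positivity) (by positivity),
          ← ENNReal.ofReal_add (by positivity) (by positivity)]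
        congr 1; ring

/-- third differences kill the quadratic content -/
theorem S_bound {P Q g : ℝ → ℝ} {a lam q0 q1 q2 c0 y : ℝ} (hlam : 4 ≤ |lam|) (ha0 : 0 < a)
    (ha : a ≤ 1) (hc0 : 0 ≤ c0) (hc1 : c0 ≤ 1 / 100)
    (hP : ∀ y ∈ Icc (0 : ℝ) 3, |P y - y| ≤ 1 / 10 ^ 8)
    (hlow : ∀ x ∈ Icc (0 : ℝ) 3, ∀ y ∈ Icc (0 : ℝ) 3, 98 / 100 * |lam| * |y - x| ≤ |Q y - Q x|)
    (hup : ∀ x ∈ Icc (0 : ℝ) 3, ∀ y ∈ Icc (0 : ℝ) 3, |Q y - Q x| ≤ 102 / 100 * |lam| * |y - x|)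
    (hg : ∀ y ∈ Icc (0 : ℝ) 3, 1 / 10 ^ 6 ≤ |Real.cos (2 * π * P y)| →
      1 / 10 ^ 6 ≤ |Real.cos (2 * π * Q y)| →
      |g y - (q0 + q1 * y + q2 * y ^ 2 + (sec (P y) + a * sec (Q y)))| ≤ 1 / 4)
    (hbad : volume {y | y ∈ Icc (0 : ℝ) 3 ∧ 1 / 2 < |g y|} ≤ ENNReal.ofReal c0)
    (hy : y ∈ Icc (0 : ℝ) (3 / 2)) (hgy : |g y| ≤ 1 / 2)
    (hgy2 : |g y - (q0 + q1 * y + q2 * y ^ 2 + (sec (P y) + a * sec (Q y)))| ≤ 1 / 4) :
    |sec (P y) + a * sec (Q y)| ≤ 1500 := by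
  have hb := fun (j : ℝ) (hj : 1 ≤ j) (hj3 : j ≤ 3) =>
    vol_badj (y := y) hlam hj hj3 hc0 hy hbad hlow hup
  set U : ℝ → Set ℝ := fun j => ({H : ℝ | y + j * H ∈ {y | y ∈ Icc (0 : ℝ) 3 ∧ 1 / 2 < |g y|}} ∪
      ({H : ℝ | H ∈ Icc (1 / 10 : ℝ) (4 / 10) ∧ |Real.cos (2 * π * (y + j * H))| < 1 / 99} ∪
       {H : ℝ | H ∈ Icc (1 / 10 : ℝ) (4 / 10) ∧
          |Real.cos (2 * π * (Q (y + j * H)))| < 1 / 100})) with hU
  have htot : volume (U 1 ∪ (U 2 ∪ U 3)) ≤ ENNReal.ofReal (3 * (c0 + 25 / 1000)) := by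
    calc _ ≤ ENNReal.ofReal (c0 + 25 / 1000) + (ENNReal.ofReal (c0 + 25 / 1000) +
            ENNReal.ofReal (c0 + 25 / 1000)) := by
          refine (measure_union_le _ _).trans (add_le_add (hb 1 le_rfl (by norm_num)) ?_)
          exact (measure_union_le _ _).trans
            (add_le_add (hb 2 (by norm_num) (by norm_num)) (hb 3 (by norm_num) le_rfl))
      _ = _ := by
          rw [← ENNReal.ofReal_add (by positivity) (by positivity),
            ← ENNReal.ofReal_add (by positivity) (by positivity)]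
          congr 1; ring
  obtain ⟨H, hH, hnot⟩ := exists_good (a := 1 / 10) (b := 4 / 10) htot (by linarith)
    (by positivity)
  have key : ∀ j : ℝ, 1 ≤ j → j ≤ 3 → H ∉ U j →
      |g (y + j * H)| ≤ 1 / 2 ∧ |sec (P (y + j * H)) + a * sec (Q (y + j * H))| ≤ 200 ∧
      |g (y + j * H) - (q0 + q1 * (y + j * H) + q2 * (y + j * H) ^ 2 +
        (sec (P (y + j * H)) + a * sec (Q (y + j * H))))| ≤ 1 / 4 := by
    intro j hj hj3 hHj
    rw [hU] at hHj
    simp only [mem_union, mem_ofPred_eq, not_or, not_and, not_lt] at hHj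
    obtain ⟨g1, g2, g3⟩ := hHj
    have g2' := g2 hH
    have g3' := g3 hH
    have hmem : y + j * H ∈ Icc (0 : ℝ) 3 := by
      constructor
      · nlinarith [hy.1, hH.1]
      · nlinarith [hy.2, hH.2, hH.1]
    have hPy := hP _ hmem
    rw [abs_sub_comm] at hPy
    have hcP : 1 / 100 ≤ |Real.cos (2 * π * P (y + j * H))| := cos_pert hPy g2' (by norm_num)
    have e1 : |sec (P (y + j * H))| ≤ 1 / (1 / 100) := abs_sec_le (by norm_num) hcP
    have e2 : |sec (Q (y + j * H))| ≤ 1 / (1 / 100) := abs_sec_le (by norm_num) g3'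
    have e3 : |a * sec (Q (y + j * H))| ≤ 1 * (1 / (1 / 100)) := by
      rw [abs_mul, abs_of_pos ha0]
      exact mul_le_mul ha e2 (abs_nonneg _) (by norm_num)
    refine ⟨g1 hmem, ?_, hg _ hmem (le_trans (by norm_num) hcP) (le_trans (by norm_num) g3')⟩
    calc _ ≤ |sec (P (y + j * H))| + |a * sec (Q (y + j * H))| := abs_add_le _ _
      _ ≤ 1 / (1 / 100) + 1 * (1 / (1 / 100)) := add_le_add e1 e3
      _ = 200 := by norm_num
  simp only [mem_union, not_or] at hnot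
  obtain ⟨n1, n2, n3⟩ := hnot
  obtain ⟨f1, s1, r1⟩ := key 1 le_rfl (by norm_num) n1
  obtain ⟨f2, s2, r2⟩ := key 2 (by norm_num) (by norm_num) n2
  obtain ⟨f3, s3, r3⟩ := key 3 (by norm_num) le_rfl n3
  clear hb htot key n1 n2 n3 hU hbad hlow hup hP hg
  generalize sec (P y) + a * sec (Q y) = S0 at *
  generalize sec (P (y + 1 * H)) + a * sec (Q (y + 1 * H)) = S1 at *
  generalize sec (P (y + 2 * H)) + a * sec (Q (y + 2 * H)) = S2 at *
  generalize sec (P (y + 3 * H)) + a * sec (Q (y + 3 * H)) = S3 at *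
  generalize g y = G0 at *
  generalize g (y + 1 * H) = G1 at *
  generalize g (y + 2 * H) = G2 at *
  generalize g (y + 3 * H) = G3 at *
  obtain ⟨R0, hR0⟩ : ∃ R0, R0 = G0 - (q0 + q1 * y + q2 * y ^ 2 + S0) := ⟨_, rfl⟩
  obtain ⟨R1, hR1⟩ : ∃ R1, R1 = G1 - (q0 + q1 * (y + 1 * H) + q2 * (y + 1 * H) ^ 2 + S1) := ⟨_, rfl⟩
  obtain ⟨R2, hR2⟩ : ∃ R2, R2 = G2 - (q0 + q1 * (y + 2 * H) + q2 * (y + 2 * H) ^ 2 + S2) := ⟨_, rfl⟩
  obtain ⟨R3, hR3⟩ : ∃ R3, R3 = G3 - (q0 + q1 * (y + 3 * H) + q2 * (y + 3 * H) ^ 2 + S3) := ⟨_, rfl⟩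
  rw [← hR0] at hgy2
  rw [← hR1] at r1
  rw [← hR2] at r2
  rw [← hR3] at r3
  have hid : S0 = (G0 - 3 * G1 + 3 * G2 - G3) - (R0 - 3 * R1 + 3 * R2 - R3)
      + 3 * S1 - 3 * S2 + S3 := by
    rw [hR0, hR1, hR2, hR3]; ring
  have a0 := abs_le.mp hgy
  have a1 := abs_le.mp f1
  have a2 := abs_le.mp f2
  have a3 := abs_le.mp f3
  have b1 := abs_le.mp s1
  have b2 := abs_le.mp s2
  have b3 := abs_le.mp s3
  have c0' := abs_le.mp hgy2
  have c1' := abs_le.mp r1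
  have c2' := abs_le.mp r2
  have c3' := abs_le.mp r3
  rw [abs_le]
  constructor
  · linarith only [hid, a0.1, a0.2, a1.1, a1.2, a2.1, a2.2, a3.1, a3.2, b1.1, b1.2, b2.1, b2.2,
      b3.1, b3.2, c0'.1, c0'.2, c1'.1, c1'.2, c2'.1, c2'.2, c3'.1, c3'.2]
  · linarith only [hid, a0.1, a0.2, a1.1, a1.2, a2.1, a2.2, a3.1, a3.2, b1.1, b1.2, b2.1, b2.2,
      b3.1, b3.2, c0'.1, c0'.2, c1'.1, c1'.2, c2'.1, c2'.2, c3'.1, c3'.2]

/-- **One level alone is rough when the two slopes are very different.** -/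
theorem rough_large {P Q g : ℝ → ℝ} {a lam q0 q1 q2 : ℝ} (hlam : 4 ≤ |lam|) (ha0 : 0 < a)
    (ha : a * lam ^ 2 ≤ 102 / 100)
    (hP : ∀ y ∈ Icc (0 : ℝ) 3, |P y - y| ≤ 1 / 10 ^ 8)
    (hlow : ∀ x ∈ Icc (0 : ℝ) 3, ∀ y ∈ Icc (0 : ℝ) 3, 98 / 100 * |lam| * |y - x| ≤ |Q y - Q x|)
    (hup : ∀ x ∈ Icc (0 : ℝ) 3, ∀ y ∈ Icc (0 : ℝ) 3, |Q y - Q x| ≤ 102 / 100 * |lam| * |y - x|)
    (hg : ∀ y ∈ Icc (0 : ℝ) 3, 1 / 10 ^ 6 ≤ |Real.cos (2 * π * P y)| →
      1 / 10 ^ 6 ≤ |Real.cos (2 * π * Q y)| →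
      |g y - (q0 + q1 * y + q2 * y ^ 2 + (sec (P y) + a * sec (Q y)))| ≤ 1 / 4) :
    ENNReal.ofReal (1 / 10 ^ 6) < volume {y | y ∈ Icc (0 : ℝ) 3 ∧ 1 / 2 < |g y|} := by
  by_contra hcon
  have hbad := not_lt.mp hcon
  have hpi := Real.pi_pos
  have hpi4 : π < 3.15 := Real.pi_lt_d2
  have hl0 : 0 < |lam| := by linarith
  have hsq : 16 ≤ lam ^ 2 := by
    rw [← sq_abs]; nlinarith only [hlam]
  have ha1 : a ≤ 64 / 1000 := by nlinarith only [ha, hsq, ha0]
  -- the window next to the pole `1/4` of `sec y`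
  have hsubW : ∀ x ∈ Icc (1 / 4 + 1 / 800000 : ℝ) (1 / 4 + 1 / 100000), x ∈ Icc (0 : ℝ) 3 := by
    intro x hx
    exact ⟨by linarith only [hx.1], by linarith only [hx.2]⟩
  have hZ := vol_cos_bi (Q := Q) (u := 1 / 4 + 1 / 800000) (v := 1 / 4 + 1 / 100000)
    (b := 98 / 100 * |lam|) (L := 102 / 100 * |lam|) (κ := 1 / 100000) (by norm_num)
    (by positivity) (by positivity) (by norm_num)
    (fun x hx y hy => hlow x (hsubW x hx) y (hsubW y hy))
    (fun x hx y hy => hup x (hsubW x hx) y (hsubW y hy))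
  have hZ' : volume {x : ℝ | x ∈ Icc (1 / 4 + 1 / 800000 : ℝ) (1 / 4 + 1 / 100000) ∧
      |Real.cos (2 * π * Q x)| < 1 / 100000} ≤ ENNReal.ofReal (1 / 500000) := by
    refine hZ.trans (ENNReal.ofReal_le_ofReal ?_)
    rw [mul_div_assoc', div_le_iff₀ (by positivity)]
    nlinarith only [hlam]
  have hU : volume ({y | y ∈ Icc (0 : ℝ) 3 ∧ 1 / 2 < |g y|} ∪
      {x : ℝ | x ∈ Icc (1 / 4 + 1 / 800000 : ℝ) (1 / 4 + 1 / 100000) ∧
      |Real.cos (2 * π * Q x)| < 1 / 100000}) ≤ ENNReal.ofReal (1 / 10 ^ 6 + 1 / 500000) := by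
    rw [ENNReal.ofReal_add (by norm_num) (by norm_num)]
    exact (measure_union_le _ _).trans (add_le_add hbad hZ')
  obtain ⟨y, hy, hyn⟩ := exists_good (a := 1 / 4 + 1 / 800000) (b := 1 / 4 + 1 / 100000) hU
    (by norm_num) (by norm_num)
  simp only [mem_union, mem_ofPred_eq, not_or, not_and, not_lt] at hyn
  have hy3 := hsubW y hy
  have hgy : |g y| ≤ 1 / 2 := hyn.1 hy3
  have hcQ : 1 / 100000 ≤ |Real.cos (2 * π * Q y)| := hyn.2 hy
  have hPy := hP y hy3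
  have hPy' := abs_le.mp hPy
  -- the distance of `P y` to the pole
  obtain ⟨v, hv⟩ : ∃ v, v = P y - 1 / 4 := ⟨_, rfl⟩
  have hPv : P y = 1 / 4 + ((0 : ℤ) : ℝ) / 2 + v := by rw [hv]; push_cast; ring
  have hv1 : 1 / 900000 ≤ v := by
    rw [hv]
    have := hy.1
    norm_num at this hPy' ⊢
    linarith only [this, hPy'.1]
  have hv2 : v ≤ 101 / 10000000 := by
    rw [hv]
    have := hy.2
    norm_num at this hPy' ⊢
    linarith only [this, hPy'.2]
  have hv0 : 0 < v := by linarith only [hv1]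
  have hsecP : 1 / (2 * π * v) ≤ |sec (P y)| := by
    rw [hPv]; exact sec_lower hv0 (by linarith only [hv2])
  have hcP : 1 / 10 ^ 6 ≤ |Real.cos (2 * π * P y)| := by
    rw [hPv, abs_cos_at]
    have hle : |2 * π * v| ≤ π / 2 := by
      rw [abs_of_pos (by positivity)]
      nlinarith only [hv2, hpi]
    have := Real.mul_abs_le_abs_sin hle
    rw [abs_of_pos (by positivity : (0 : ℝ) < 2 * π * v)] at this
    have h3 : 2 / π * (2 * π * v) = 4 * v := by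
      field_simp
      ring
    rw [h3] at this
    refine le_trans ?_ this
    norm_num
    linarith only [hv1]
  have hgy2 := hg y hy3 hcP (le_trans (by norm_num) hcQ)
  have hS := S_bound hlam ha0 (by linarith only [ha1]) (by norm_num) (by norm_num) hP hlow hup hg hbad
    ⟨by linarith only [hy3.1], by linarith only [hy.2]⟩ hgy hgy2
  have hsecQ : |a * sec (Q y)| ≤ 6400 := by
    rw [abs_mul, abs_of_pos ha0]
    have h1 : |sec (Q y)| ≤ 1 / (1 / 100000) := abs_sec_le (by norm_num) hcQ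
    calc a * |sec (Q y)| ≤ 64 / 1000 * (1 / (1 / 100000)) :=
          mul_le_mul ha1 h1 (abs_nonneg _) (by norm_num)
      _ = 6400 := by norm_num
  have hbig : 15000 ≤ 1 / (2 * π * v) := by
    rw [le_div_iff₀ (by positivity)]
    nlinarith only [hv2, hpi4, hpi, hv0]
  have h1 : |sec (P y)| ≤ |sec (P y) + a * sec (Q y)| + |a * sec (Q y)| := by
    have := abs_sub (sec (P y) + a * sec (Q y)) (a * sec (Q y))
    rwa [add_sub_cancel_right] at this
  linarith only [h1, hbig, hsecQ, hS, hsecP]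

end Crest.Agent.R128.RoughL
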