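import Mathlib
import Crest.Agent.R128.Contour

set_option autoImplicit false
set_option linter.unusedVariables false

/-! Row 128, node N6-RUN (helper670): runs of consecutive fresh levels.

`f m = d r m` root contour.  `w` = foot of level `l`, `w'` = foot of level `l - c0`
(`f > l - c0` on `[w, w')`).  If the backward path from `w'` is clean on `[w, w']`
(`(1-b) d w' m' ≤ d w' m` for `m ≤ m'`) and the `n0` steps after `w` go out
(`d w (w+n0)` larger than an explicit constant, e.g. regular digits), then `w' ≤ w + n0`.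
-/

namespace Crest.Agent.R128.Run

open Crest.Agent.R128.Contour

variable {d : ℤ → ℤ → ℝ} {δ B : ℝ}

/-- **Lemma RUN, right side.** -/
theorem run_right (h : HypG d δ) (hB : ∀ m, d m (m + 1) ≤ B) (hB0 : 0 ≤ B) (r w w' : ℤ)
    (n0 : ℤ) (hn0 : 0 < n0) (n : ℕ) (hn : n0 ≤ 2 ^ n) (l c0 b C : ℝ) (hb : 0 ≤ b) (hb1 : b ≤ 1 / 2)
    (hC : 0 ≤ C) (hc0 : 0 ≤ c0) (hww : w < w')
    (hw : d r w ≤ l) (hlow : ∀ m, w ≤ m → m < w' → l - c0 < d r m)
    (hw' : d r w' ≤ l - c0)
    (hgeo : ∀ m, w ≤ m → m ≤ w' → d w' m ≤ d r m - d r w' + C)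
    (hclean : ∀ m m', w ≤ m → m ≤ m' → m' ≤ w' → (1 - b) * d w' m' ≤ d w' m)
    (hgrow : c0 + 2 * b * (c0 + B) + 2 * C + 2 * B + 2 * n * δ < d w (w + n0)) :
    w' ≤ w + n0 := by
  classical
  by_contra hcon
  push Not at hcon
  set p := w + n0 with hp
  -- argmin of f on [w,p]
  obtain ⟨q, hq, hqmin⟩ := Finset.exists_min_image (Finset.Icc w p) (fun m => d r m)
    ⟨w, Finset.mem_Icc.mpr ⟨le_rfl, by omega⟩⟩
  rw [Finset.mem_Icc] at hq
  obtain ⟨hq1, hq2⟩ := hq
  have hg := gp_of_path h hB r w p n (by omega) (by omega) (d r q) (by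
    intro m hm1 hm2
    left
    exact hqmin m (Finset.mem_Icc.mpr ⟨hm1, hm2.le⟩))
  have hd := d_eq h r w p
  have hqw : d r q ≤ d r w := hqmin w (Finset.mem_Icc.mpr ⟨le_rfl, by omega⟩)
  -- level of w'
  have hw'low : l - c0 - B < d r w' := by
    have h1 := hlow (w' - 1) (by omega) (by omega)
    have h2 := hB (w' - 1)
    have h3 := h.tri r w' (w' - 1)
    have h4 := h.symm w' (w' - 1)
    rw [show w' - 1 + 1 = w' by ring] at h2
    rw [h4] at h3
    linarith
  have hqlow := hlow q hq1 (by omega)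
  -- clean
  have hcl := hclean q p hq1 hq2 (by omega)
  have hgq := hgeo q hq1 (by omega)
  have htri : d r p ≤ d r w' + d w' p := h.tri r w' p
  have hnn := h.nonneg w' p
  -- set x = d w' p
  have hx : (1 - b) * d w' p ≤ d r q - d r w' + C := hcl.trans hgq
  have hfq : d r q - d r w' ≤ c0 + B := by linarith
  have hfq0 : 0 ≤ d r q - d r w' + C := le_trans (mul_nonneg (by linarith) hnn) hx
  have hkey : d w' p ≤ d r q - d r w' + 2 * b * (c0 + B) + 2 * C := by
    -- (1-b) x ≤ y + C, y ≤ c0 + B, b ≤ 1/2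
    have hy : d r q - d r w' ≤ c0 + B := hfq
    have hbx : b * d w' p ≤ 2 * b * (c0 + B) + C := by
      have h1 : d w' p ≤ 2 * (d r q - d r w' + C) := by nlinarith
      have h2 : d w' p ≤ 2 * (c0 + B) + 2 * C := by linarith
      have h3 : b * d w' p ≤ b * (2 * (c0 + B) + 2 * C) := mul_le_mul_of_nonneg_left h2 hb
      nlinarith
    nlinarith
  have hpq : d r p - d r q ≤ 2 * b * (c0 + B) + 2 * C := by linarith
  have hfinal : d w p ≤ c0 + 2 * b * (c0 + B) + 2 * C + 2 * B + 2 * n * δ := by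
    rw [hd]
    nlinarith
  linarith

/-- reversing time keeps the hypotheses -/
theorem hyp_neg (h : HypG d δ) : HypG (fun i j => d (-i) (-j)) δ where
  symm i j := h.symm _ _
  self i := h.self _
  nonneg i j := h.nonneg _ _
  tri i j l := h.tri _ _ _
  hyp i j l w := h.hyp (-i) (-j) (-l) (-w)
  δ_nonneg := h.δ_nonneg

/-- **Lemma RUN, left side.** -/
theorem run_left (h : HypG d δ) (hB : ∀ m, d m (m + 1) ≤ B) (hB0 : 0 ≤ B) (r w w' : ℤ)
    (n0 : ℤ) (hn0 : 0 < n0) (n : ℕ) (hn : n0 ≤ 2 ^ n) (l c0 b C : ℝ) (hb : 0 ≤ b) (hb1 : b ≤ 1 / 2)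
    (hC : 0 ≤ C) (hc0 : 0 ≤ c0) (hww : w' < w)
    (hw : d r w ≤ l) (hlow : ∀ m, w' < m → m ≤ w → l - c0 < d r m)
    (hw' : d r w' ≤ l - c0)
    (hgeo : ∀ m, w' ≤ m → m ≤ w → d w' m ≤ d r m - d r w' + C)
    (hclean : ∀ m m', m ≤ w → m' ≤ m → w' ≤ m' → (1 - b) * d w' m' ≤ d w' m)
    (hgrow : c0 + 2 * b * (c0 + B) + 2 * C + 2 * B + 2 * n * δ < d w (w - n0)) :
    w - n0 ≤ w' := by
  have key := run_right (d := fun i j => d (-i) (-j)) (hyp_neg h) (B := B)
    (by
      intro m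
      have h1 := hB (-m - 1)
      have h2 := h.symm (-m - 1) (-m - 1 + 1)
      rw [show -m - 1 + 1 = -m by ring] at h1 h2
      show d (-m) (-(m + 1)) ≤ B
      rw [show -(m + 1) = -m - 1 by ring, ← h2]
      exact h1) hB0 (-r) (-w) (-w') n0 hn0 n hn l c0 b C hb hb1 hC hc0 (by omega)
    (by simpa using hw)
    (by
      intro m hm1 hm2
      have := hlow (-m) (by omega) (by omega)
      simpa using this)
    (by simpa using hw')
    (by
      intro m hm1 hm2
      have := hgeo (-m) (by omega) (by omega)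
      simpa using this)
    (by
      intro m m' hm1 hm2 hm3
      have := hclean (-m) (-m') (by omega) (by omega) (by omega)
      simpa using this)
    (by
      show _ < d (-(-w)) (-(-w + n0))
      rw [show -(-w) = w by ring, show -(-w + n0) = w - n0 by ring]
      exact hgrow)
  omega

end Crest.Agent.R128.Run
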