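import Mathlib

/-! Row 128, node N6-RUNS (helper784): combinatorics of step (6) of 15512.

* `runs`: if at most `2%` of the levels of `[Q, 16 Q)` are bad, at least `2 Q` of the disjoint
  blocks `Q + 6 j, …, Q + 6 j + 5` are free of bad levels;
* `height_le`: a bar of `h` levels is at most `16 Q₀`, or it is "fresh at the scale `Q₀ 16 ^ i`"
  for the largest `i` with `16 Q₀ 16 ^ i ≤ h`, or it is paid by its bad levels;
* `lintegral_height_le`: the integrated form. -/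

set_option autoImplicit false
open Finset MeasureTheory
open scoped ENNReal

namespace Crest.Agent.R128.Runs

/-- indices `j` of the blocks `Q + 6 j, …, Q + 6 j + 5` inside `[Q, 16 Q)` -/
def blocks (Q : ℕ) : Finset ℕ := range (15 * Q / 6)

/-- the blocks without a bad level -/
def good (Q : ℕ) (Bad : Finset ℕ) : Finset ℕ :=
  blocks Q \ (Bad ∩ Ico Q (16 * Q)).image fun b => (b - Q) / 6

theorem mem_good {Q : ℕ} {Bad : Finset ℕ} {j : ℕ} :
    j ∈ good Q Bad ↔ j < 15 * Q / 6 ∧ ∀ i < 6, Q + 6 * j + i ∉ Bad := by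
  unfold good blocks
  rw [mem_sdiff, mem_range, mem_image]
  constructor
  · rintro ⟨h1, h2⟩
    refine ⟨h1, fun i hi hb => h2 ⟨Q + 6 * j + i, ?_, by omega⟩⟩
    rw [mem_inter, mem_Ico]
    exact ⟨hb, by omega, by omega⟩
  · rintro ⟨h1, h2⟩
    refine ⟨h1, ?_⟩
    rintro ⟨b, hb, e⟩
    rw [mem_inter, mem_Ico] at hb
    refine h2 (b - Q - 6 * j) (by omega) ?_
    have : Q + 6 * j + (b - Q - 6 * j) = b := by omega
    rw [this]
    exact hb.1

theorem runs {Q : ℕ} (_hQ : 10 ≤ Q) (Bad : Finset ℕ)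
    (h : 50 * (Bad ∩ Ico Q (16 * Q)).card ≤ 15 * Q) : 2 * Q ≤ (good Q Bad).card := by
  have h1 : ((Bad ∩ Ico Q (16 * Q)).image fun b => (b - Q) / 6).card ≤
      (Bad ∩ Ico Q (16 * Q)).card := card_image_le
  have h2 := le_card_sdiff ((Bad ∩ Ico Q (16 * Q)).image fun b => (b - Q) / 6) (blocks Q)
  have h3 : (blocks Q).card = 15 * Q / 6 := by unfold blocks; rw [card_range]
  unfold good
  omega

/-- fresh at scale `Q`: at most `15 Q / R` of the `15 Q` levels of `[Q, 16 Q)` are bad -/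
def Fresh (R Q : ℕ) (Bad : Finset ℕ) : Prop := R * (Bad ∩ Ico Q (16 * Q)).card ≤ 15 * Q

/-- A bar with `h` levels (levels `1, …, h`), bad levels `Bad`. -/
theorem height_le (R : ℕ) {Q₀ : ℕ} (hQ : 1 ≤ Q₀) (h : ℕ) (Bad : Finset ℕ) :
    h ≤ 16 * Q₀ ∨
    (∃ i, 16 * (Q₀ * 16 ^ i) ≤ h ∧ h ≤ 256 * (Q₀ * 16 ^ i) ∧ Fresh R (Q₀ * 16 ^ i) Bad) ∨
    h ≤ 18 * R * (Bad ∩ Icc 1 h).card := by
  by_cases h0 : h ≤ 16 * Q₀
  · exact Or.inl h0
  right
  push Not at h0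
  -- the largest scale
  obtain ⟨i, hi1, hi2⟩ : ∃ i, 16 * (Q₀ * 16 ^ i) ≤ h ∧ h < 16 * (Q₀ * 16 ^ (i + 1)) := by
    have hex : ∃ i, h < 16 * (Q₀ * 16 ^ (i + 1)) := by
      refine ⟨h, ?_⟩
      have : h < 16 ^ (h + 1) := by
        calc h < 2 ^ h := Nat.lt_two_pow_self
          _ ≤ 16 ^ h := Nat.pow_le_pow_left (by norm_num) h
          _ ≤ 16 ^ (h + 1) := Nat.pow_le_pow_right (by norm_num) (by omega)
      nlinarith [Nat.mul_le_mul_right (16 ^ (h + 1)) hQ]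
    classical
    refine ⟨Nat.find hex, ?_, Nat.find_spec hex⟩
    rcases Nat.eq_zero_or_pos (Nat.find hex) with h' | h'
    · rw [h']
      simp only [pow_zero, mul_one]
      omega
    · have := Nat.find_min hex (m := Nat.find hex - 1) (by omega)
      rw [Nat.sub_add_cancel h'] at this
      omega
  have e : Q₀ * 16 ^ (i + 1) = 16 * (Q₀ * 16 ^ i) := by rw [pow_succ]; ring
  by_cases hf : Fresh R (Q₀ * 16 ^ i) Bad
  · left
    exact ⟨i, hi1, by omega, hf⟩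
  · right
    unfold Fresh at hf
    push Not at hf
    have hsub : Bad ∩ Ico (Q₀ * 16 ^ i) (16 * (Q₀ * 16 ^ i)) ⊆ Bad ∩ Icc 1 h := by
      intro b hb
      rw [mem_inter, mem_Ico] at hb
      rw [mem_inter, mem_Icc]
      have : 1 ≤ Q₀ * 16 ^ i := Nat.one_le_iff_ne_zero.2 (by positivity)
      exact ⟨hb.1, by omega, by omega⟩
    have hc := Nat.mul_le_mul_left R (card_le_card hsub)
    have h3 : 18 * R * (Bad ∩ Icc 1 h).card = 18 * (R * (Bad ∩ Icc 1 h).card) := by ring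
    rw [h3]
    omega

/-- Integrated form. `ht` = (truncated) height, `Bad` = set of the bad levels, `A i` = the bars
which are fresh at the scale `Q₀ 16 ^ i` and have `16 Q₀ 16 ^ i ≤ ht`. -/
theorem lintegral_height_le {Ω : Type*} [MeasurableSpace Ω] (μ : Measure Ω) (R : ℕ) {Q₀ : ℕ}
    (hQ : 1 ≤ Q₀) (ht : Ω → ℕ) (Bad : Ω → Finset ℕ) (E : Set Ω)
    (hE : MeasurableSet E) (hE' : ∀ x, x ∉ E → ht x = 0)
    (A : ℕ → Set Ω) (hA : ∀ i, MeasurableSet (A i))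
    (hA' : ∀ x i, 16 * (Q₀ * 16 ^ i) ≤ ht x → Fresh R (Q₀ * 16 ^ i) (Bad x) → x ∈ A i) :
    ∫⁻ x, (ht x : ℝ≥0∞) ∂μ ≤ 16 * Q₀ * μ E + ∑' i, 256 * (Q₀ * 16 ^ i) * μ (A i) +
      18 * R * ∫⁻ x, ((Bad x ∩ Icc 1 (ht x)).card : ℝ≥0∞) ∂μ := by
  have hpt : ∀ x, (ht x : ℝ≥0∞) ≤ (E.indicator (fun _ => (16 * Q₀ : ℝ≥0∞)) x +
      ∑' i, (A i).indicator (fun _ => (256 * (Q₀ * 16 ^ i) : ℝ≥0∞)) x) +
      18 * R * ((Bad x ∩ Icc 1 (ht x)).card : ℝ≥0∞) := by
    intro x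
    rcases height_le R hQ (ht x) (Bad x) with h | ⟨i, h1, h2, h3⟩ | h
    · by_cases hx : x ∈ E
      · rw [Set.indicator_of_mem hx]
        have : (ht x : ℝ≥0∞) ≤ 16 * Q₀ := by exact_mod_cast h
        exact (this.trans le_self_add).trans le_self_add
      · rw [hE' x hx]
        simp
    · have : (ht x : ℝ≥0∞) ≤ 256 * (Q₀ * 16 ^ i) := by exact_mod_cast h2
      refine this.trans ?_
      refine le_trans ?_ le_self_add
      refine le_trans ?_ le_add_self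
      refine le_trans ?_ (ENNReal.le_tsum i)
      rw [Set.indicator_of_mem (hA' x i h1 h3)]
    · have : (ht x : ℝ≥0∞) ≤ 18 * R * ((Bad x ∩ Icc 1 (ht x)).card : ℝ≥0∞) := by
        exact_mod_cast h
      exact this.trans le_add_self
  have hm : Measurable fun x => E.indicator (fun _ => (16 * Q₀ : ℝ≥0∞)) x +
      ∑' i, (A i).indicator (fun _ => (256 * (Q₀ * 16 ^ i) : ℝ≥0∞)) x :=
    (measurable_const.indicator hE).add
      (Measurable.tsum fun i => measurable_const.indicator (hA i))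
  calc ∫⁻ x, (ht x : ℝ≥0∞) ∂μ ≤ _ := lintegral_mono hpt
    _ = ∫⁻ x, (E.indicator (fun _ => (16 * Q₀ : ℝ≥0∞)) x +
      ∑' i, (A i).indicator (fun _ => (256 * (Q₀ * 16 ^ i) : ℝ≥0∞)) x) ∂μ +
      ∫⁻ x, 18 * R * ((Bad x ∩ Icc 1 (ht x)).card : ℝ≥0∞) ∂μ := lintegral_add_left hm _
    _ = _ := by
      rw [lintegral_add_left (measurable_const.indicator hE), lintegral_indicator_const hE,
        lintegral_tsum fun i => (measurable_const.indicator (hA i)).aemeasurable,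
        lintegral_const_mul' _ _ (ENNReal.mul_ne_top (by norm_num) (by simp))]
      congr 2
      refine tsum_congr fun i => ?_
      rw [lintegral_indicator_const (hA i)]

/-- The series of the fresh bars is small when the first scale is large. -/
theorem exists_scale {θ : ℝ} (h0 : 0 ≤ θ) (h1 : θ < 1) {δ : ℝ≥0∞} (hδ : δ ≠ 0) :
    ∃ Q₁ : ℕ, 1 ≤ Q₁ ∧ ∀ Q₀, Q₁ ≤ Q₀ → ∀ (ν : ℝ≥0∞) (a : ℕ → ℝ≥0∞),
      (∀ i, a i ≤ ν * ENNReal.ofReal (θ ^ (Q₀ * 16 ^ i))) →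
      ∑' i, 256 * ((Q₀ : ℝ≥0∞) * 16 ^ i) * a i ≤ δ * ν := by
  have hs : Summable fun x : ℕ => (256 : ℝ) * ((x : ℝ) * θ ^ x) := by
    have h2 : ‖θ‖ < 1 := by
      rw [Real.norm_eq_abs, abs_of_nonneg h0]
      exact h1
    have h3 := summable_pow_mul_geometric_of_norm_lt_one (R := ℝ) 1 h2
    have h4 : Summable fun x : ℕ => (x : ℝ) * θ ^ x := by
      refine h3.congr fun x => ?_
      rw [pow_one]
    exact h4.mul_left (256 : ℝ)
  obtain ⟨f, hf⟩ : ∃ f : ℕ → ℝ≥0∞, f = fun x : ℕ => ENNReal.ofReal (256 * ((x : ℝ) * θ ^ x)) :=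
    ⟨_, rfl⟩
  have hfin : ∑' x, f x ≠ ∞ := by
    rw [hf]
    exact hs.tsum_ofReal_ne_top
  have ht := ENNReal.tendsto_sum_nat_add f hfin
  have hev := ht.eventually (ge_mem_nhds (pos_iff_ne_zero.2 hδ))
  obtain ⟨Q₁, hQ₁⟩ := (hev.and (Filter.eventually_ge_atTop 1)).exists
  refine ⟨Q₁, hQ₁.2, fun Q₀ hQ ν a ha => ?_⟩
  have hpos : 1 ≤ Q₀ := hQ₁.2.trans hQ
  have hinj : Function.Injective fun i : ℕ => Q₀ * 16 ^ i - Q₁ := by
    have hge : ∀ i : ℕ, Q₁ ≤ Q₀ * 16 ^ i := fun i =>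
      hQ.trans (Nat.le_mul_of_pos_right _ (by positivity))
    intro i j hij
    have h3 : Q₀ * 16 ^ i = Q₀ * 16 ^ j := by
      have := hge i
      have := hge j
      simp only at hij
      omega
    have h4 := Nat.eq_of_mul_eq_mul_left (by omega) h3
    exact Nat.pow_right_injective (by norm_num) h4
  calc ∑' i, 256 * ((Q₀ : ℝ≥0∞) * 16 ^ i) * a i
      ≤ ∑' i, ν * f (Q₀ * 16 ^ i) := by
        refine ENNReal.tsum_le_tsum fun i => ?_
        calc 256 * ((Q₀ : ℝ≥0∞) * 16 ^ i) * a i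
            ≤ 256 * ((Q₀ : ℝ≥0∞) * 16 ^ i) * (ν * ENNReal.ofReal (θ ^ (Q₀ * 16 ^ i))) :=
              mul_le_mul' le_rfl (ha i)
          _ = ν * f (Q₀ * 16 ^ i) := by
              rw [hf]
              simp only
              rw [ENNReal.ofReal_mul (by norm_num), ENNReal.ofReal_mul (by positivity),
                ENNReal.ofReal_natCast]
              push_cast
              rw [show ENNReal.ofReal 256 = 256 by norm_num]
              ring
    _ = ν * ∑' i, f (Q₀ * 16 ^ i) := ENNReal.tsum_mul_left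
    _ ≤ ν * ∑' x, f (x + Q₁) := by
        refine mul_le_mul' le_rfl ?_
        have := ENNReal.tsum_comp_le_tsum_of_injective hinj fun x => f (x + Q₁)
        refine le_trans (le_of_eq ?_) this
        refine tsum_congr fun i => ?_
        have : Q₁ ≤ Q₀ * 16 ^ i := hQ.trans (Nat.le_mul_of_pos_right _ (by positivity))
        rw [Nat.sub_add_cancel this]
    _ ≤ δ * ν := by
        rw [mul_comm]
        exact mul_le_mul' hQ₁.1 le_rfl

/-- **PAY, integrated**: if the bars that are fresh at scale `x` and of height `≥ 16 x` have density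
`≤ ν θ ^ x`, then `∫ ht ≤ 16 Q₀ μ E + δ ν + 18 R ∫ #bad levels`. -/
theorem lintegral_pay {θ : ℝ} (h0 : 0 ≤ θ) (h1 : θ < 1) {δ : ℝ≥0∞} (hδ : δ ≠ 0) :
    ∃ Q₁ : ℕ, 1 ≤ Q₁ ∧ ∀ Q₀, Q₁ ≤ Q₀ → ∀ {Ω : Type} [MeasurableSpace Ω] (μ : Measure Ω) (R : ℕ)
      (ν : ℝ≥0∞) (ht : Ω → ℕ) (Bad : Ω → Finset ℕ) (E : Set Ω),
      MeasurableSet E → (∀ x, x ∉ E → ht x = 0) →
      ∀ A : ℕ → Set Ω, (∀ i, MeasurableSet (A i)) →
      (∀ x i, 16 * (Q₀ * 16 ^ i) ≤ ht x → Fresh R (Q₀ * 16 ^ i) (Bad x) → x ∈ A i) →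
      (∀ i, μ (A i) ≤ ν * ENNReal.ofReal (θ ^ (Q₀ * 16 ^ i))) →
      ∫⁻ x, (ht x : ℝ≥0∞) ∂μ ≤ 16 * Q₀ * μ E + δ * ν +
        18 * R * ∫⁻ x, ((Bad x ∩ Icc 1 (ht x)).card : ℝ≥0∞) ∂μ := by
  obtain ⟨Q₁, hQ₁, h⟩ := exists_scale h0 h1 hδ
  refine ⟨Q₁, hQ₁, ?_⟩
  intro Q₀ hQ Ω _ μ R ν ht Bad E hE hE' A hA hA' hμ
  refine (lintegral_height_le μ R (hQ₁.trans hQ) ht Bad E hE hE' A hA hA').trans ?_
  gcongr
  exact h Q₀ hQ ν _ hμ

end Crest.Agent.R128.Runs
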