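import Mathlib
import Crest.Agent.R128.V4Of
import Crest.Agent.R128.CoreAsm
import Crest.Agent.R128.CoreA
import Crest.Agent.R128.ShxE

/-!
Row 128: `Core.CoreStmt2`, `Lam0.CoreStmt` and `Skel.V4`, proved.
-/

set_option autoImplicit false

namespace Crest.Agent.R128.V4Done

theorem core2 : Core.CoreStmt2 := Core.coreStmt2_of Shx.shadow_stmt CoreA.coh_stmt

theorem core : Lam0.CoreStmt := Core.coreStmt_of Shx.shadow_stmt CoreA.coh_stmt

/-- **V4** -/
theorem v4 : Skel.V4 := V4Of.v4_of_core core2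

end Crest.Agent.R128.V4Done
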