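import Crest.Agent.R128.V5FinX
import Crest.Agent.R128.GMeas
import Crest.Agent.R128.LocG
import Crest.Agent.R128.LocBX2
import Crest.Agent.R128.V4Done
import Crest.Agent.R128.V1
import Crest.Agent.R128.V2Proof
import Crest.Agent.R128.V2L
import Crest.Agent.R128.VM
import Crest.Agent.R128.SkelMeas

/-!
# Row 128 (helper717): the final seam.  `Res` (= S0172) from the three open leaves `Loc.RA`, `LocAC`, `BridgeD`.
-/

set_option autoImplicit false
open MeasureTheory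
open Crest.Agent.R128.Iter

namespace Crest.Agent.R128.Seam717

/-- the local hull bound for `Good.G` -/
theorem locH {C1 : ℝ} {L1 : ℕ} (hRA : Loc.RA) (hA : ∀ L, L1 ≤ L → LocG.LocAC C1 L) :
    V5FinX.LocH Good.G 80 := by
  obtain ⟨c₀, hc0, hc1, h⟩ := LocG.hloc (C1 := C1) (LocBX2.locB_of_RA hRA)
  refine ⟨L1, fun L hL => ⟨1 - c₀, by linarith, by linarith, ?_⟩⟩
  obtain ⟨k1, hk⟩ := h L (hA L hL)
  exact ⟨k1, fun k hk1 c n g m _ hg => hk k hk1 n g hg c m⟩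

theorem v5 {C1 : ℝ} {L1 R0 a : ℕ} (hRA : Loc.RA) (hA : ∀ L, L1 ≤ L → LocG.LocAC C1 L)
    (hBr : V5FinX.BridgeD Good.G R0 a) : Skel.V5 :=
  V5FinX.v5_of (fun k L n => GMeas.measurableSet_G k L n) (locH hRA hA) hBr

theorem res {C1 : ℝ} {L1 R0 a : ℕ} (hRA : Loc.RA) (hA : ∀ L, L1 ≤ L → LocG.LocAC C1 L)
    (hBr : V5FinX.BridgeD Good.G R0 a) : Skel.Res :=
  SkelMeas.v6 V1.v1 V2Proof.v2 V2L.v2l V4Done.v4 (v5 hRA hA hBr) VM.vm

end Crest.Agent.R128.Seam717
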