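import Mathlib
import Crest.Agent.R128.BVP8

/-!
Row 128, node V3-CORE (helper875), part 1: abstract forward shadowing around a base orbit `x`
whose `(0,1)`-field is `p`; everything is controlled by ONE weighted sum.
-/

set_option autoImplicit false

open Finset

namespace Crest.Agent.R128.Shad

open Crest.Agent.R128.BVP

/-- forward comparison of two orbits `y`, `z` with the same left boundary value. -/
theorem shadow_abs {f Vd : ℝ → ℝ} {M : ℝ} (hM : 0 ≤ M) (hNL : NL f Vd M) {N : ℕ}
    {x y z p Wh α : ℕ → ℝ}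
    (hy : ∀ m < N, y (m + 2) + y m = f (y (m + 1)))
    (hz : ∀ m < N, z (m + 2) + z m = f (z (m + 1)))
    (hp0 : p 0 = 0) (hp1 : p 1 = 1)
    (hp : ∀ m < N, p (m + 2) = Vd (x (m + 1)) * p (m + 1) - p m)
    (hW : ∀ m ≤ N + 1, |p m| ≤ Wh m) (h0 : z 0 = y 0) {r : ℝ} (hr : |z 1 - y 1| ≤ r)
    (hα : ∀ m, 1 ≤ m → m ≤ N → |y m - x m| ≤ α m) {η : ℝ} (hη : η ≤ 1 / 4)
    (hsum : ∀ m ≤ N + 1, ∑ j ∈ Ico 1 m, |fund (fun i => Vd (x i)) j m| *
      (M * (α j + 2 * r * Wh j)) * Wh j ≤ η * Wh m) :
    ∀ m ≤ N + 1, |z m - y m| ≤ 2 * |z 1 - y 1| * Wh m := by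
  set a : ℕ → ℝ := fun i => Vd (x i) with ha
  set d1 : ℝ := z 1 - y 1 with hd1
  have hW0 : ∀ m ≤ N + 1, 0 ≤ Wh m := fun m hm => (abs_nonneg _).trans (hW m hm)
  set ρ : ℕ → ℝ := fun m => f (z m) - f (y m) - Vd (x m) * (z m - y m) with hρ
  set b : ℕ → ℝ := fun j => a j + ρ j with hb
  have hv := voc (a := a) (a' := b) (e := fun m => z m - y m - d1 * p m) (s := 0) (N := N) (by
    intro m _ hm
    simp only [hb, hρ, ha]
    have h1 := hy m hm
    have h2 := hz m hm
    have h3 : y (m + 2) = f (y (m + 1)) - y m := by linarith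
    have h4 : z (m + 2) = f (z (m + 1)) - z m := by linarith
    rw [hp m hm, h3, h4]
    ring) (by simp [h0, hp0]) (by simp [hd1, hp1])
  have hrep : ∀ m ≤ N + 1, z m - y m - d1 * p m = ∑ j ∈ Ico 1 m, fund a j m * ρ j := by
    intro m hm
    have key : ∀ j, b j - a j = ρ j := fun j => by simp only [hb]; ring
    rcases Nat.lt_or_ge N m with h1 | h1
    · have e : m = N + 1 := by omega
      subst e
      have := (hv N (Nat.zero_le _) le_rfl).2
      simp only [key] at this
      exact this
    · have := (hv m (Nat.zero_le _) h1).1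
      simp only [key] at this
      exact this
  intro m
  induction m using Nat.strong_induction_on with
  | _ m ih =>
    intro hm
    have h1 : |z m - y m - d1 * p m| ≤ 2 * |d1| * (η * Wh m) := by
      rw [hrep m hm]
      calc |∑ j ∈ Ico 1 m, fund a j m * ρ j| ≤ ∑ j ∈ Ico 1 m, |fund a j m * ρ j| :=
            Finset.abs_sum_le_sum_abs _ _
        _ ≤ ∑ j ∈ Ico 1 m, 2 * |d1| * (|fund a j m| * (M * (α j + 2 * r * Wh j)) * Wh j) := by
            refine Finset.sum_le_sum fun j hj => ?_
            rw [Finset.mem_Ico] at hj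
            have hjN : j ≤ N := by omega
            have i1 := ih j hj.2 (by omega)
            have hWj := hW0 j (by omega)
            have hαj := hα j hj.1 hjN
            have i2 : |z j - y j| ≤ 2 * r * Wh j := by
              refine i1.trans ?_
              have : |d1| * Wh j ≤ r * Wh j := mul_le_mul_of_nonneg_right hr hWj
              linarith
            have h4 := hNL (x j) (z j - x j) (y j - x j)
            have h5 : |ρ j| ≤ M * max |z j - x j| |y j - x j| * |z j - y j| := by
              have e1 : x j + (z j - x j) = z j := by ring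
              have e2 : x j + (y j - x j) = y j := by ring
              have e3 : z j - x j - (y j - x j) = z j - y j := by ring
              rw [e1, e2, e3] at h4
              exact h4
            have h6 : max |z j - x j| |y j - x j| ≤ α j + 2 * r * Wh j := by
              have h7 : |z j - x j| ≤ |z j - y j| + |y j - x j| := by
                have := abs_add_le (z j - y j) (y j - x j)
                rwa [sub_add_sub_cancel] at this
              have h8 : 0 ≤ 2 * r * Wh j := (abs_nonneg _).trans i2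
              exact max_le (by linarith) (by linarith)
            rw [abs_mul]
            have h9 : |ρ j| ≤ M * (α j + 2 * r * Wh j) * (2 * |d1| * Wh j) := by
              refine h5.trans ?_
              have h10 : 0 ≤ α j + 2 * r * Wh j := (le_max_of_le_left (abs_nonneg _)).trans h6
              exact mul_le_mul (mul_le_mul_of_nonneg_left h6 hM) i1 (abs_nonneg _)
                (mul_nonneg hM h10)
            calc |fund a j m| * |ρ j| ≤ |fund a j m| * (M * (α j + 2 * r * Wh j) * (2 * |d1| * Wh j)) :=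
                  mul_le_mul_of_nonneg_left h9 (abs_nonneg _)
              _ = _ := by ring
        _ = 2 * |d1| * ∑ j ∈ Ico 1 m, |fund a j m| * (M * (α j + 2 * r * Wh j)) * Wh j := by
            rw [Finset.mul_sum]
        _ ≤ 2 * |d1| * (η * Wh m) := mul_le_mul_of_nonneg_left (hsum m hm) (by positivity)
    have h2 : |d1 * p m| ≤ |d1| * Wh m := by
      rw [abs_mul]
      exact mul_le_mul_of_nonneg_left (hW m hm) (abs_nonneg _)
    have h3 : |z m - y m| ≤ |z m - y m - d1 * p m| + |d1 * p m| := by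
      have := abs_add_le (z m - y m - d1 * p m) (d1 * p m)
      rwa [sub_add_cancel] at this
    have h4 : 2 * |d1| * (η * Wh m) ≤ |d1| * Wh m := by
      have : 0 ≤ |d1| * Wh m := mul_nonneg (abs_nonneg _) (hW0 m hm)
      nlinarith
    linarith

/-- the `(0,1)`-field of the orbit `z`. -/
theorem field_abs {Vd : ℝ → ℝ} {M : ℝ} (hL : ∀ s t, |Vd s - Vd t| ≤ M * |s - t|)
    {N : ℕ} {x z p p' Wh β : ℕ → ℝ}
    (hp0 : p 0 = 0) (hp1 : p 1 = 1)
    (hp : ∀ m < N, p (m + 2) = Vd (x (m + 1)) * p (m + 1) - p m)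
    (hp0' : p' 0 = 0) (hp1' : p' 1 = 1)
    (hp' : ∀ m < N, p' (m + 2) = Vd (z (m + 1)) * p' (m + 1) - p' m)
    (hM : 0 ≤ M)
    (hW : ∀ m ≤ N + 1, |p m| ≤ Wh m)
    (hβ : ∀ m, 1 ≤ m → m ≤ N → |z m - x m| ≤ β m) {η : ℝ} (hη : η ≤ 1 / 4)
    (hsum : ∀ m ≤ N + 1, ∑ j ∈ Ico 1 m, |fund (fun i => Vd (x i)) j m| * (M * β j) * Wh j ≤ η * Wh m) :
    ∀ m ≤ N + 1, |p' m - p m| ≤ 2 * η * Wh m := by
  refine field_pert (a := fun i => Vd (x i)) (a' := fun i => Vd (z i)) (by linarith) hp0 hp1 hp hp0'
    hp1' hp' hW ?_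
  intro m hm
  refine le_trans (Finset.sum_le_sum fun j hj => ?_) (hsum m hm)
  rw [Finset.mem_Ico] at hj
  have h1 : |Vd (z j) - Vd (x j)| ≤ M * β j :=
    (hL _ _).trans (mul_le_mul_of_nonneg_left (hβ j hj.1 (by omega)) hM)
  have h2 : 0 ≤ Wh j := (abs_nonneg _).trans (hW j (by omega))
  exact mul_le_mul_of_nonneg_right (mul_le_mul_of_nonneg_left h1 (abs_nonneg _)) h2

/-- linearisation of the difference of two orbits `y`, `z` in the box `β` around `x`, with the same
left boundary value. -/
theorem lin_abs {f Vd : ℝ → ℝ} {M : ℝ} (hM : 0 ≤ M) (hNL : NL f Vd M) {N : ℕ}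
    {x y z p Wh β : ℕ → ℝ}
    (hy : ∀ m < N, y (m + 2) + y m = f (y (m + 1)))
    (hz : ∀ m < N, z (m + 2) + z m = f (z (m + 1)))
    (hp0 : p 0 = 0) (hp1 : p 1 = 1)
    (hp : ∀ m < N, p (m + 2) = Vd (x (m + 1)) * p (m + 1) - p m)
    (hW : ∀ m ≤ N + 1, |p m| ≤ Wh m) (h0 : z 0 = y 0)
    (hβy : ∀ m, 1 ≤ m → m ≤ N → |y m - x m| ≤ β m)
    (hβz : ∀ m, 1 ≤ m → m ≤ N → |z m - x m| ≤ β m) {η : ℝ} (hη : η ≤ 1 / 4)
    (hsum : ∀ m ≤ N + 1, ∑ j ∈ Ico 1 m, |fund (fun i => Vd (x i)) j m| * (M * β j) * Wh j ≤ η * Wh m) :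
    ∀ m ≤ N + 1, |z m - y m - (z 1 - y 1) * p m| ≤ 2 * η * (|z 1 - y 1| * Wh m) := by
  set a : ℕ → ℝ := fun i => Vd (x i) with ha
  set d1 : ℝ := z 1 - y 1 with hd1
  have hW0 : ∀ m ≤ N + 1, 0 ≤ Wh m := fun m hm => (abs_nonneg _).trans (hW m hm)
  set ρ : ℕ → ℝ := fun m => f (z m) - f (y m) - Vd (x m) * (z m - y m) with hρ
  set b : ℕ → ℝ := fun j => a j + ρ j with hb
  have hv := voc (a := a) (a' := b) (e := fun m => z m - y m - d1 * p m) (s := 0) (N := N) (by
    intro m _ hm
    simp only [hb, hρ, ha]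
    have h1 := hy m hm
    have h2 := hz m hm
    have h3 : y (m + 2) = f (y (m + 1)) - y m := by linarith
    have h4 : z (m + 2) = f (z (m + 1)) - z m := by linarith
    rw [hp m hm, h3, h4]
    ring) (by simp [h0, hp0]) (by simp [hd1, hp1])
  have hrep : ∀ m ≤ N + 1, z m - y m - d1 * p m = ∑ j ∈ Ico 1 m, fund a j m * ρ j := by
    intro m hm
    have key : ∀ j, b j - a j = ρ j := fun j => by simp only [hb]; ring
    rcases Nat.lt_or_ge N m with h1 | h1
    · have e : m = N + 1 := by omega
      subst e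
      have := (hv N (Nat.zero_le _) le_rfl).2
      simp only [key] at this
      exact this
    · have := (hv m (Nat.zero_le _) h1).1
      simp only [key] at this
      exact this
  intro m
  induction m using Nat.strong_induction_on with
  | _ m ih =>
    intro hm
    rw [hrep m hm]
    calc |∑ j ∈ Ico 1 m, fund a j m * ρ j| ≤ ∑ j ∈ Ico 1 m, |fund a j m * ρ j| :=
          Finset.abs_sum_le_sum_abs _ _
      _ ≤ ∑ j ∈ Ico 1 m, 2 * |d1| * (|fund a j m| * (M * β j) * Wh j) := by
          refine Finset.sum_le_sum fun j hj => ?_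
          rw [Finset.mem_Ico] at hj
          have hjN : j ≤ N := by omega
          have i1 := ih j hj.2 (by omega)
          have hWj := hW0 j (by omega)
          have hpj := hW j (by omega)
          have hy' := hβy j hj.1 hjN
          have hz' := hβz j hj.1 hjN
          have i2 : |z j - y j| ≤ 2 * |d1| * Wh j := by
            have h3 : |z j - y j| ≤ |z j - y j - d1 * p j| + |d1 * p j| := by
              have := abs_add_le (z j - y j - d1 * p j) (d1 * p j)
              rwa [sub_add_cancel] at this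
            have h2 : |d1 * p j| ≤ |d1| * Wh j := by
              rw [abs_mul]
              exact mul_le_mul_of_nonneg_left hpj (abs_nonneg _)
            have h5 : 0 ≤ |d1| * Wh j := mul_nonneg (abs_nonneg _) hWj
            nlinarith
          have h4 := hNL (x j) (z j - x j) (y j - x j)
          have h5 : |ρ j| ≤ M * max |z j - x j| |y j - x j| * |z j - y j| := by
            have e1 : x j + (z j - x j) = z j := by ring
            have e2 : x j + (y j - x j) = y j := by ring
            have e3 : z j - x j - (y j - x j) = z j - y j := by ring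
            rw [e1, e2, e3] at h4
            exact h4
          have h6 : max |z j - x j| |y j - x j| ≤ β j := max_le hz' hy'
          rw [abs_mul]
          have h9 : |ρ j| ≤ M * β j * (2 * |d1| * Wh j) := by
            refine h5.trans ?_
            have h10 : 0 ≤ β j := (le_max_of_le_left (abs_nonneg _)).trans h6
            exact mul_le_mul (mul_le_mul_of_nonneg_left h6 hM) i2 (abs_nonneg _)
              (mul_nonneg hM h10)
          calc |fund a j m| * |ρ j| ≤ |fund a j m| * (M * β j * (2 * |d1| * Wh j)) :=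
                mul_le_mul_of_nonneg_left h9 (abs_nonneg _)
            _ = _ := by ring
      _ = 2 * |d1| * ∑ j ∈ Ico 1 m, |fund a j m| * (M * β j) * Wh j := by
          rw [Finset.mul_sum]
      _ ≤ 2 * |d1| * (η * Wh m) := mul_le_mul_of_nonneg_left (hsum m hm) (by positivity)
      _ = 2 * η * (|d1| * Wh m) := by ring

end Crest.Agent.R128.Shad
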