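import Mathlib
import Crest.Agent.R128.ShadA
import Crest.Agent.R128.ValNum

/-!
Row 128, node V3-CORE (helper875), part 2: the numerical sum for a valid segment `[0,n]` extended up to a
later time `N` (where the field may drop a little).
-/

set_option autoImplicit false

open Finset

namespace Crest.Agent.R128.Shad

open Crest.Agent.R128.TreeSum Crest.Agent.R128.BVP Crest.Agent.R128.Val

/-- a valid segment `[0,n]`, first crossing of the level `b ^ U` at `n`, extended up to `N`. -/
structure Ext (b U : ℝ) (L n N : ℕ) (a p q : ℕ → ℝ) : Prop where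
  V : Valid b L n a p q
  hL60 : 60 ≤ L
  hnN : n < N
  hp : ∀ m < N, p (m + 2) = a (m + 1) * p (m + 1) - p m
  hA : ∀ m, |a m| + 2 ≤ b ^ 2
  hb : (10 : ℝ) ^ 20 ≤ b
  hU : 800 ≤ U
  tip : b ^ U ≤ |p (n + 1)|
  hup : ∀ j ≤ N, ex b p j ≤ U + 5
  w2 : ∀ i j, i ≤ j → j ≤ N → 99 / 100 * ex b p i - 22 / 10 ≤ ex b p j
  w3 : ∑ j ∈ range (N + 1), b ^ (-(1 / 100 * ex b p j)) ≤ 2 * b
  hN : (N : ℝ) ≤ b ^ (U / 100)

variable {b U : ℝ} {L n N : ℕ} {a p q : ℕ → ℝ}

theorem Ext.b0 (E : Ext b U L n N a p q) : 0 < b := lt_of_lt_of_le (by norm_num) E.hb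

theorem Ext.b1 (E : Ext b U L n N a p q) : 1 ≤ b := le_trans (by norm_num) E.hb

theorem Ext.mono (E : Ext b U L n N a p q) {x y : ℝ} (h : x ≤ y) : b ^ x ≤ b ^ y :=
  Real.rpow_le_rpow_of_exponent_le E.b1 h

theorem Ext.fldp (E : Ext b U L n N a p q) :
    ∀ m ≤ N, fld (fun m => a (m + 1)) (0, 1) m = (p m, p (m + 1)) := by
  intro m
  induction m with
  | zero =>
    intro _
    show ((0 : ℝ), (1 : ℝ)) = _
    rw [E.V.J.p0, E.V.J.p1]
  | succ m ih =>
    intro hm
    show stp (a (m + 1)) (fld _ _ m) = _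
    rw [ih (by omega)]
    unfold stp
    simp only [E.hp m (by omega)]

theorem Ext.Wpos (E : Ext b U L n N a p q) {m : ℕ} (hm : m ≤ N) : 0 < W p m := by
  have h := (fld_isField (fun m => a (m + 1)) (0, 1)).pos (Nat.zero_le m) (by
    show 0 < nn ((0 : ℝ), (1 : ℝ))
    unfold nn
    simp)
  rw [E.fldp m hm] at h
  exact h

theorem Ext.W_eq (E : Ext b U L n N a p q) {m : ℕ} (hm : m ≤ N) : W p m = b ^ ex b p m := by
  have hb := E.b1
  have hb' : (1 : ℝ) < b := lt_of_lt_of_le (by norm_num) E.hb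
  unfold ex
  rw [Real.rpow_logb E.b0 (by linarith) (E.Wpos hm)]

theorem Ext.W_step (E : Ext b U L n N a p q) {m : ℕ} (hm : m < N) :
    W p m ≤ b ^ 2 * W p (m + 1) := by
  have h := nn_le_stp (a (m + 1)) (p m, p (m + 1))
  have e : stp (a (m + 1)) (p m, p (m + 1)) = (p (m + 1), p (m + 2)) := by
    unfold stp
    simp only [E.hp m hm]
  rw [e] at h
  exact h.trans (mul_le_mul_of_nonneg_right (E.hA (m + 1)) (W_nonneg p (m + 1)))

theorem wtt_nonneg (a p : ℕ → ℝ) (m n : ℕ) : 0 ≤ wtt a p m n := by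
  unfold wtt
  apply Finset.sum_nonneg
  intro j _
  have := W_nonneg p j
  have := W_nonneg p (j + 1)
  positivity

/-- growth of the fundamental solution -/
theorem Ext.fund_nn (E : Ext b U L n N a p q) {j m : ℕ} (hj : j ≤ m) (hm : m ≤ N) :
    nn (fund a j m, fund a j (m + 1)) ≤
      W p m * (1 / W p j + W p j * wtt a p j m) + W p j / W p m := by
  obtain ⟨i, rfl⟩ := Nat.exists_eq_add_of_le hj
  set c : ℕ → ℝ := fun i => a (j + i + 1) with hc
  set w : ℕ → ℝ × ℝ := fun i => fld (fun m => a (m + 1)) (0, 1) (j + i) with hw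
  set z : ℕ → ℝ × ℝ := fun i => (fund a j (j + i), fund a j (j + i + 1)) with hz
  have hwF : IsField c w := fun i => rfl
  have hzF : IsField c z := by
    intro i
    show (fund a j (j + (i + 1)), fund a j (j + (i + 1) + 1)) = stp (c i) (z i)
    unfold stp
    simp only [hz, hc]
    have h := fund_rec a j (j + i) (by omega)
    rw [show j + (i + 1) = j + i + 1 by omega]
    rw [show j + i + 1 + 1 = j + i + 2 by omega, h]
  have hWj := E.Wpos (by omega : j ≤ N)
  have hWm := E.Wpos hm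
  have ew : ∀ l, j + l ≤ N → w l = (p (j + l), p (j + l + 1)) := fun l hl => E.fldp (j + l) hl
  have hw0 : nn (w 0) = W p j := by rw [ew 0 (by omega)]; rfl
  have hwi : nn (w i) = W p (j + i) := by rw [ew i hm]; rfl
  have h2 := lam_diff hwF hzF (Nat.zero_le i) (by rw [hw0]; exact hWj)
  have hwt : wt c w 0 i = wtt a p j (j + i) := by
    unfold wt wtt
    rw [Finset.sum_Ico_eq_sum_range, Finset.sum_Ico_eq_sum_range]
    rw [show i - 0 = i by omega, show j + i - j = i by omega]
    apply Finset.sum_congr rfl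
    intro l hl
    rw [Finset.mem_range] at hl
    have e1 : w (0 + l) = (p (j + l), p (j + l + 1)) := by rw [Nat.zero_add]; exact ew l (by omega)
    have e2 : w (0 + l + 1) = (p (j + l + 1), p (j + l + 1 + 1)) := by
      rw [Nat.zero_add]; exact ew (l + 1) (by omega)
    rw [e1, e2]
    simp only [hc, Nat.zero_add]
    rfl
  have hz0 : z 0 = (0, 1) := by
    simp only [hz, Nat.add_zero]
    rw [fund_self, fund_succ]
  have hwr : |wr (w 0) (z 0)| ≤ W p j := by
    rw [ew 0 (by omega), hz0]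
    unfold wr
    simp only [mul_one, mul_zero, sub_zero, Nat.add_zero]
    exact abs_le_W p j
  have hlam : |lam (w 0) (z 0)| ≤ 1 / W p j := by
    unfold lam
    rw [hw0, hz0, ew 0 (by omega), abs_div, abs_of_pos (by positivity : 0 < W p j ^ 2),
      div_le_div_iff₀ (by positivity) hWj]
    unfold dt
    simp only [zero_mul, one_mul, zero_add, Nat.add_zero]
    have := abs_succ_le_W p j
    nlinarith
  have h3 := nn_le_lam (w i) (z i) (by rw [hwi]; exact hWm)
  rw [hwi, hwF.wr_eq hzF (Nat.zero_le i)] at h3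
  rw [hwt] at h2
  have hwt0 := wtt_nonneg a p j (j + i)
  have h4 : |lam (w i) (z i)| ≤ 1 / W p j + W p j * wtt a p j (j + i) := by
    have h5 : |lam (w i) (z i)| ≤ |lam (w i) (z i) - lam (w 0) (z 0)| + |lam (w 0) (z 0)| := by
      have := abs_add_le (lam (w i) (z i) - lam (w 0) (z 0)) (lam (w 0) (z 0))
      rwa [sub_add_cancel] at this
    have h6 := mul_le_mul_of_nonneg_right hwr hwt0
    linarith
  calc nn (fund a j (j + i), fund a j (j + i + 1)) = nn (z i) := rfl
    _ ≤ |lam (w i) (z i)| * W p (j + i) + |wr (w 0) (z 0)| / W p (j + i) := h3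
    _ ≤ (1 / W p j + W p j * wtt a p j (j + i)) * W p (j + i) + W p j / W p (j + i) := by
        gcongr
    _ = _ := by ring

theorem Ext.clean (E : Ext b U L n N a p q) {i j : ℕ} (hij : i ≤ j) (hj : j ≤ 60) :
    ex b p i + ((j : ℝ) - i) ≤ ex b p j := by
  induction j, hij using Nat.le_induction with
  | base => simp
  | succ j hij ih =>
    have h1 := ih (by omega)
    have h2 := E.V.clean_ex (by have := E.hL60; omega : j < L)
    push_cast
    linarith

theorem Ext.nonneg (E : Ext b U L n N a p q) {j : ℕ} (hj : j ≤ N) : 0 ≤ ex b p j := by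
  rcases Nat.lt_or_ge j 50 with h | h
  · have h1 := E.clean (Nat.zero_le j) (by omega)
    rw [E.V.ex_zero] at h1
    have : (0 : ℝ) ≤ (j : ℝ) := Nat.cast_nonneg _
    push_cast at h1
    linarith
  · have h1 := E.clean (Nat.zero_le 50) (by omega)
    rw [E.V.ex_zero] at h1
    have h2 := E.w2 50 j h hj
    push_cast at h1
    linarith

theorem Ext.big (E : Ext b U L n N a p q) {j : ℕ} (h30 : 30 ≤ j) (hj : j ≤ N) :
    275 / 10 ≤ ex b p j := by
  have h1 := E.clean (Nat.zero_le 30) (by omega)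
  rw [E.V.ex_zero] at h1
  have h2 := E.w2 30 j h30 hj
  push_cast at h1
  linarith

theorem Ext.ub (E : Ext b U L n N a p q) {j : ℕ} (hj : j ≤ 30) : ex b p j ≤ 60 := by
  have h := E.V.expo.ub (by have := E.V.hLn; have := E.hL60; omega : j ≤ n)
  have : (j : ℝ) ≤ 30 := by exact_mod_cast hj
  linarith

theorem Ext.n_ge (E : Ext b U L n N a p q) : 60 ≤ n := E.hL60.trans E.V.hLn

theorem Ext.hsq (E : Ext b U L n N a p q) (x : ℝ) : (b ^ x) ^ 2 = b ^ (2 * x) := by
  rw [← Real.rpow_natCast (b ^ x) 2, ← Real.rpow_mul E.b0.le]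
  congr 1
  push_cast
  ring

theorem Ext.term_le (E : Ext b U L n N a p q) {j : ℕ} (hj : j < N) :
    (|a (j + 1)| + 2) / (W p j * W p (j + 1)) ≤ b ^ (4 - 2 * ex b p j) := by
  have hb0 := E.b0
  have hWj := E.Wpos hj.le
  have hWj' := E.Wpos (by omega : j + 1 ≤ N)
  have h2 := E.hA (j + 1)
  have h4 := E.W_step hj
  have h5 : b ^ (4 - 2 * ex b p j) = b ^ 4 / W p j ^ 2 := by
    rw [Real.rpow_sub hb0, E.W_eq hj.le, E.hsq]
    congr 1
    exact_mod_cast Real.rpow_natCast b 4
  rw [h5, div_le_div_iff₀ (by positivity) (by positivity)]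
  calc (|a (j + 1)| + 2) * W p j ^ 2 ≤ b ^ 2 * (W p j * (b ^ 2 * W p (j + 1))) := by
        rw [sq (W p j)]
        gcongr
    _ = b ^ 4 * (W p j * W p (j + 1)) := by ring

theorem Ext.small (E : Ext b U L n N a p q) {x : ℝ} (h : x ≤ -1) : b ^ x ≤ 1 / 1000 := by
  refine (E.mono h).trans ?_
  rw [Real.rpow_neg_one, inv_eq_one_div]
  exact one_div_le_one_div_of_le (by norm_num) (le_trans (by norm_num) E.hb)

theorem Ext.big_pow (E : Ext b U L n N a p q) {x : ℝ} (h : 1 / 10 ≤ x) : 100 ≤ b ^ x := by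
  refine le_trans ?_ (E.mono h)
  have h5 : (((10 : ℝ) ^ 20)) ^ (1 / 10 : ℝ) ≤ b ^ (1 / 10 : ℝ) :=
    Real.rpow_le_rpow (by positivity) E.hb (by norm_num)
  have h6 : (((10 : ℝ) ^ 20)) ^ (1 / 10 : ℝ) = 100 := by
    rw [← Real.rpow_natCast, ← Real.rpow_mul (by norm_num)]
    norm_num
  linarith

theorem Ext.sum_sub (E : Ext b U L n N a p q) (s : Finset ℕ) (hs : s ⊆ range (N + 1)) :
    ∑ j ∈ s, b ^ (-(1 / 100 * ex b p j)) ≤ 2 * b := by
  refine le_trans ?_ E.w3
  exact Finset.sum_le_sum_of_subset_of_nonneg hs fun j _ _ => Real.rpow_nonneg E.b0.le _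

/-- weight sum for `j ≤ 30` -/
theorem Ext.wtt_clean (E : Ext b U L n N a p q) {j m : ℕ} (hj : j ≤ 30) (hm : m ≤ N) :
    W p j ^ 2 * wtt a p j m ≤ 2 := by
  have hb0 := E.b0
  have hn := E.n_ge
  have hnN := E.hnN
  have hL := E.hL60
  have hpt : ∀ i ∈ Ico j m, W p j ^ 2 * ((|a (i + 1)| + 2) / (W p i * W p (i + 1))) ≤
      5 / 4 * (if j ≤ i then (b⁻¹) ^ (i - j) else 0) + b ^ (-2 : ℝ) * b ^ (-(1 / 100 * ex b p i)) := by
    intro i hi
    rw [Finset.mem_Ico] at hi
    rw [if_pos hi.1]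
    have hWi := E.Wpos (by omega : i ≤ N)
    have hWi' := E.Wpos (by omega : i + 1 ≤ N)
    rcases Nat.lt_or_ge i 60 with h | h
    · have h2 := E.V.cleanstep (by omega : i < L)
      have h3 : (|a (i + 1)| + 2) / (W p i * W p (i + 1)) ≤ 5 / 4 / W p i ^ 2 := by
        rw [div_le_div_iff₀ (by positivity) (by positivity)]
        nlinarith
      have h4 : W p j ^ 2 * (5 / 4 / W p i ^ 2) = 5 / 4 * b ^ (2 * ex b p j - 2 * ex b p i) := by
        rw [Real.rpow_sub hb0, ← E.hsq, ← E.hsq, ← E.W_eq (by omega), ← E.W_eq (by omega)]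
        ring
      have h5 : b ^ (2 * ex b p j - 2 * ex b p i) ≤ (b⁻¹) ^ (i - j) := by
        rw [inv_pow, ← Real.rpow_natCast, ← Real.rpow_neg hb0.le]
        apply E.mono
        have h6 := E.clean hi.1 h.le
        have h7 : (j : ℝ) ≤ (i : ℝ) := by exact_mod_cast hi.1
        rw [Nat.cast_sub hi.1]
        linarith
      calc W p j ^ 2 * ((|a (i + 1)| + 2) / (W p i * W p (i + 1)))
          ≤ W p j ^ 2 * (5 / 4 / W p i ^ 2) := by gcongr
        _ = 5 / 4 * b ^ (2 * ex b p j - 2 * ex b p i) := h4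
        _ ≤ 5 / 4 * (b⁻¹) ^ (i - j) := by gcongr
        _ ≤ _ := by
          have : 0 ≤ b ^ (-2 : ℝ) * b ^ (-(1 / 100 * ex b p i)) := by positivity
          linarith
    · have h2 := E.term_le (by omega : i < N)
      have h3 := E.w2 60 i h (by omega)
      have h4' := E.clean (by omega : j ≤ 60) le_rfl
      have h5' := E.ub hj
      have h6' : (j : ℝ) ≤ 30 := by exact_mod_cast hj
      have h4 : W p j ^ 2 * b ^ (4 - 2 * ex b p i) ≤ b ^ (-2 : ℝ) * b ^ (-(1 / 100 * ex b p i)) := by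
        rw [E.W_eq (by omega), E.hsq, ← Real.rpow_add hb0, ← Real.rpow_add hb0]
        apply E.mono
        push_cast at h4'
        linarith
      calc W p j ^ 2 * ((|a (i + 1)| + 2) / (W p i * W p (i + 1)))
          ≤ W p j ^ 2 * b ^ (4 - 2 * ex b p i) := by gcongr
        _ ≤ b ^ (-2 : ℝ) * b ^ (-(1 / 100 * ex b p i)) := h4
        _ ≤ _ := by
          have : 0 ≤ 5 / 4 * (b⁻¹) ^ (i - j) := by positivity
          linarith
  unfold wtt
  rw [Finset.mul_sum]
  refine (Finset.sum_le_sum hpt).trans ?_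
  rw [Finset.sum_add_distrib, ← Finset.mul_sum, ← Finset.mul_sum, ← Finset.sum_filter]
  have g1 := geom_le (le_trans (by norm_num) E.hb : (16 : ℝ) ≤ b) (Ico j m) j
  have g2 := E.sum_sub (Ico j m) (by
    intro i hi
    rw [Finset.mem_Ico] at hi
    rw [Finset.mem_range]
    omega)
  have g3 : b ^ (-2 : ℝ) * b = b ^ (-1 : ℝ) := by
    conv_lhs => rw [← Real.rpow_one b, ← Real.rpow_mul hb0.le, ← Real.rpow_add hb0]
    norm_num
  have g4 : b ^ (-1 : ℝ) ≤ 1 / 1000 := E.small le_rfl
  have p2 : 0 ≤ b ^ (-2 : ℝ) := by positivity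
  nlinarith [mul_le_mul_of_nonneg_left g2 p2]

/-- weight sum in general -/
theorem Ext.wtt_gen (E : Ext b U L n N a p q) {j m : ℕ} (_hjN : j ≤ N) (hm : m ≤ N) :
    wtt a p j m ≤ b ^ (95 / 10 - 19701 / 10000 * ex b p j) := by
  have hb0 := E.b0
  have hpt : ∀ i ∈ Ico j m, (|a (i + 1)| + 2) / (W p i * W p (i + 1)) ≤
      b ^ (838 / 100 - 19701 / 10000 * ex b p j) * b ^ (-(1 / 100 * ex b p i)) := by
    intro i hi
    rw [Finset.mem_Ico] at hi
    refine (E.term_le (by omega)).trans ?_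
    rw [← Real.rpow_add hb0]
    apply E.mono
    have := E.w2 j i hi.1 (by omega)
    linarith
  unfold wtt
  refine (Finset.sum_le_sum hpt).trans ?_
  rw [← Finset.mul_sum]
  have g2 := E.sum_sub (Ico j m) (by
    intro i hi
    rw [Finset.mem_Ico] at hi
    rw [Finset.mem_range]
    omega)
  have g3 : 2 * b ≤ b ^ (11 / 10 : ℝ) := by
    have h1 := E.big_pow (x := 1 / 10) le_rfl
    calc 2 * b ≤ b ^ (1 / 10 : ℝ) * b := by gcongr; linarith
      _ = b ^ (1 / 10 : ℝ) * b ^ (1 : ℝ) := by rw [Real.rpow_one]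
      _ = b ^ (11 / 10 : ℝ) := by rw [← Real.rpow_add hb0]; norm_num
  calc b ^ (838 / 100 - 19701 / 10000 * ex b p j) * ∑ i ∈ Ico j m, b ^ (-(1 / 100 * ex b p i))
      ≤ b ^ (838 / 100 - 19701 / 10000 * ex b p j) * b ^ (11 / 10 : ℝ) := by
        gcongr
        exact g2.trans g3
    _ = b ^ (838 / 100 - 19701 / 10000 * ex b p j + 11 / 10) := by rw [← Real.rpow_add hb0]
    _ ≤ _ := by
        apply E.mono
        linarith

/-- growth factor -/
noncomputable def T (b : ℝ) (p : ℕ → ℝ) (j : ℕ) : ℝ :=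
  if j ≤ 30 then 4 else b ^ (10 + 3 / 100 * ex b p j)

theorem Ext.T_nonneg (E : Ext b U L n N a p q) (j : ℕ) : 0 ≤ T b p j := by
  have := E.b0
  unfold T
  split_ifs <;> positivity

theorem Ext.fund_T (E : Ext b U L n N a p q) {j m : ℕ} (hj : j ≤ m) (hm : m ≤ N) :
    nn (fund a j m, fund a j (m + 1)) ≤ T b p j / W p j * W p m := by
  have hb0 := E.b0
  have h := E.fund_nn hj hm
  have hWj := E.Wpos (hj.trans hm)
  have hWm := E.Wpos hm
  refine h.trans ?_
  have e : W p m * (1 / W p j + W p j * wtt a p j m) + W p j / W p m =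
      (1 + W p j ^ 2 * wtt a p j m + W p j ^ 2 / W p m ^ 2) / W p j * W p m := by
    field_simp
  rw [e]
  have hT : 1 + W p j ^ 2 * wtt a p j m + W p j ^ 2 / W p m ^ 2 ≤ T b p j := by
    have hq : W p j ^ 2 / W p m ^ 2 = b ^ (2 * ex b p j - 2 * ex b p m) := by
      rw [Real.rpow_sub hb0, ← E.hsq, ← E.hsq, ← E.W_eq (hj.trans hm), ← E.W_eq hm]
    unfold T
    split_ifs with h30
    · have h1 := E.wtt_clean h30 hm
      have h2 : W p j ^ 2 / W p m ^ 2 ≤ 1 := by
        rw [hq]
        apply Real.rpow_le_one_of_one_le_of_nonpos E.b1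
        rcases Nat.lt_or_ge m 60 with h60 | h60
        · have h3 := E.clean hj h60.le
          have h4 : (j : ℝ) ≤ m := by exact_mod_cast hj
          linarith
        · have h3 := E.clean (by omega : j ≤ 60) le_rfl
          have h4 := E.w2 60 m h60 hm
          have h5 := E.ub h30
          have h6 : (j : ℝ) ≤ 30 := by exact_mod_cast h30
          push_cast at h3
          linarith
      linarith
    · have h1 := E.wtt_gen (hj.trans hm) hm
      have h0 := E.nonneg (hj.trans hm)
      have hx := E.w2 j m hj hm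
      have h2 : W p j ^ 2 * wtt a p j m ≤ b ^ (95 / 10 + 3 / 100 * ex b p j) := by
        calc W p j ^ 2 * wtt a p j m ≤ W p j ^ 2 * b ^ (95 / 10 - 19701 / 10000 * ex b p j) := by gcongr
          _ = b ^ (2 * ex b p j + (95 / 10 - 19701 / 10000 * ex b p j)) := by
              rw [Real.rpow_add hb0, ← E.hsq, ← E.W_eq (hj.trans hm)]
          _ ≤ _ := by
              apply E.mono
              linarith
      have h3 : W p j ^ 2 / W p m ^ 2 ≤ b ^ (95 / 10 + 3 / 100 * ex b p j) := by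
        rw [hq]
        apply E.mono
        linarith
      have h4 : 1 ≤ b ^ (95 / 10 + 3 / 100 * ex b p j) := by
        apply Real.one_le_rpow E.b1
        linarith
      have h5 : 3 * b ^ (95 / 10 + 3 / 100 * ex b p j) ≤ b ^ (10 + 3 / 100 * ex b p j) := by
        have h6 := E.big_pow (x := 1 / 2) (by norm_num)
        calc 3 * b ^ (95 / 10 + 3 / 100 * ex b p j) ≤ b ^ (1 / 2 : ℝ) * b ^ (95 / 10 + 3 / 100 * ex b p j) := by
              gcongr; linarith
          _ = b ^ (10 + 3 / 100 * ex b p j) := by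
              rw [← Real.rpow_add hb0]
              congr 1
              ring
      linarith
  gcongr

/-- the weights `G` -/
noncomputable def G (p : ℕ → ℝ) (N m : ℕ) : ℝ :=
  if m ≤ N then min (W p (m - 1)) (W p m) else W p (m - 1)

theorem G_le_pred (p : ℕ → ℝ) (N m : ℕ) : G p N m ≤ W p (m - 1) := by
  unfold G
  split_ifs
  · exact min_le_left _ _
  · exact le_rfl

theorem G_le (p : ℕ → ℝ) {N m : ℕ} (hm : m ≤ N) : G p N m ≤ W p m := by
  unfold G
  rw [if_pos hm]
  exact min_le_right _ _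

theorem G_nonneg (p : ℕ → ℝ) (N m : ℕ) : 0 ≤ G p N m := by
  have h1 := W_nonneg p (m - 1)
  have h2 := W_nonneg p m
  unfold G
  split_ifs
  · exact le_min h1 h2
  · exact h1

theorem abs_le_G (p : ℕ → ℝ) (hp0 : p 0 = 0) {N m : ℕ} : |p m| ≤ G p N m := by
  have h1 : |p m| ≤ W p (m - 1) := by
    rcases Nat.eq_zero_or_pos m with h | h
    · subst h
      rw [hp0, abs_zero]
      exact W_nonneg _ _
    · exact abs_le_W_pred p h
  have h2 := abs_le_W p m
  unfold G
  split_ifs
  · exact le_min h1 h2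
  · exact h1

theorem Ext.fund_G (E : Ext b U L n N a p q) {j m : ℕ} (hj : j < m) (hm : m ≤ N + 1) :
    |fund a j m| ≤ T b p j / W p j * G p N m := by
  have hT : 0 ≤ T b p j / W p j := div_nonneg (E.T_nonneg j) (W_nonneg p j)
  have h1 : |fund a j m| ≤ T b p j / W p j * W p (m - 1) := by
    have h := E.fund_T (by omega : j ≤ m - 1) (by omega : m - 1 ≤ N)
    have h2 := abs_snd_le (fund a j (m - 1), fund a j (m - 1 + 1))
    simp only at h2
    rw [Nat.sub_add_cancel (by omega : 1 ≤ m)] at h2 h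
    exact h2.trans h
  unfold G
  split_ifs with hmN
  · have h := E.fund_T hj.le hmN
    have h2 := abs_fst_le (fund a j m, fund a j (m + 1))
    simp only at h2
    rw [mul_min_of_nonneg _ _ hT]
    exact le_min h1 (h2.trans h)
  · exact h1

/-- the box -/
noncomputable def A (b U : ℝ) (n : ℕ) (p : ℕ → ℝ) (j : ℕ) : ℝ :=
  if j ≤ 30 then 64 * b ^ (-ex b p j) else if j ≤ n then 64 * b ^ (6 - 97 / 100 * ex b p j)
    else b ^ (20 - 96 / 100 * U)

theorem Ext.A_nonneg (E : Ext b U L n N a p q) (j : ℕ) : 0 ≤ A b U n p j := by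
  have := E.b0
  unfold A
  split_ifs <;> positivity

/-- the scale `r = X^(-3/2)` -/
noncomputable def rr (b U : ℝ) : ℝ := b ^ (-(3 / 2 * U))

theorem Ext.G_clean (E : Ext b U L n N a p q) {j : ℕ} (h1 : 1 ≤ j) (h30 : j ≤ 60) :
    G p N j ≤ b ^ (-1 : ℝ) * W p j := by
  have hb0 := E.b0
  have hn := E.n_ge
  have hnN := E.hnN
  refine (G_le_pred p N j).trans ?_
  rw [E.W_eq (by omega), E.W_eq (by omega), ← Real.rpow_add hb0]
  apply E.mono
  have h := E.clean (by omega : j - 1 ≤ j) h30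
  have h2 : ((j - 1 : ℕ) : ℝ) = (j : ℝ) - 1 := by rw [Nat.cast_sub h1]; simp
  rw [h2] at h
  linarith

/-- **the main sum** -/
theorem Ext.main (E : Ext b U L n N a p q) {M : ℝ} (hM : 0 ≤ M) (hMb : 10 ^ 6 * M ≤ b ^ 2) :
    ∑ j ∈ Icc 1 N, T b p j / W p j * (M * (A b U n p j + 4 * rr b U * G p N j)) * G p N j ≤ 1 / 16 := by
  have hb0 := E.b0
  have hU := E.hU
  have hn := E.n_ge
  have hnN := E.hnN
  have hM2 : M ≤ b ^ (2 : ℝ) := by
    rw [Real.rpow_two]
    nlinarith
  have hr0 : 0 < rr b U := Real.rpow_pos_of_pos hb0 _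
  have hpt : ∀ j ∈ Icc 1 N, T b p j / W p j * (M * (A b U n p j + 4 * rr b U * G p N j)) * G p N j ≤
      (if j ≤ 30 then 272 * M / b ^ 2 else 0) + 70 * b ^ (-7 : ℝ) * b ^ (-(1 / 100 * ex b p j)) := by
    intro j hj
    rw [Finset.mem_Icc] at hj
    have hWj := E.Wpos hj.2
    have hG0 := G_nonneg p N j
    have hA0 := E.A_nonneg j
    have hlast : 0 ≤ 70 * b ^ (-7 : ℝ) * b ^ (-(1 / 100 * ex b p j)) := by positivity
    by_cases h30 : j ≤ 30
    · rw [if_pos h30]
      have hG := E.G_clean hj.1 (by omega : j ≤ 60)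
      have hu1 := E.clean hj.1 (by omega : j ≤ 60)
      have hu0 := E.V.clean_ex (by have := E.hL60; omega : 0 < L)
      rw [E.V.ex_zero] at hu0
      have hj1 : (1 : ℝ) ≤ j := by exact_mod_cast hj.1
      push_cast at hu1
      have hu : 1 ≤ ex b p j := by linarith
      have hub := E.ub h30
      have hA1 : A b U n p j ≤ 64 * b ^ (-1 : ℝ) := by
        unfold A
        rw [if_pos h30]
        have : b ^ (-ex b p j) ≤ b ^ (-1 : ℝ) := E.mono (by linarith)
        linarith
      have hrW : rr b U * G p N j ≤ b ^ (-1 : ℝ) := by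
        calc rr b U * G p N j ≤ rr b U * W p j := by
              have := G_le p hj.2
              gcongr
          _ = b ^ (-(3 / 2 * U) + ex b p j) := by
              unfold rr
              rw [Real.rpow_add hb0, ← E.W_eq hj.2]
          _ ≤ _ := by
              apply E.mono
              linarith
      have hT : T b p j = 4 := by unfold T; rw [if_pos h30]
      rw [hT]
      have h1 : A b U n p j + 4 * rr b U * G p N j ≤ 68 * b ^ (-1 : ℝ) := by linarith
      have e1 : b ^ (-1 : ℝ) = 1 / b := by rw [Real.rpow_neg_one, one_div]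
      calc 4 / W p j * (M * (A b U n p j + 4 * rr b U * G p N j)) * G p N j
          ≤ 4 / W p j * (M * (68 * b ^ (-1 : ℝ))) * (b ^ (-1 : ℝ) * W p j) := by gcongr
        _ = 272 * M / b ^ 2 := by
            rw [e1]
            field_simp
            ring
        _ ≤ _ := by linarith
    · rw [if_neg h30, zero_add]
      have hu := E.big (by omega : 30 ≤ j) hj.2
      have hup := E.hup j hj.2
      have hG := G_le p hj.2
      have hT : T b p j = b ^ (10 + 3 / 100 * ex b p j) := by unfold T; rw [if_neg h30]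
      rw [hT]
      have hrW : b ^ (10 + 3 / 100 * ex b p j) * b ^ (2 : ℝ) * (4 * rr b U * G p N j) ≤
            b ^ (-7 : ℝ) * b ^ (-(1 / 100 * ex b p j)) := by
        have h4 : 4 * rr b U * G p N j ≤ b ^ (1 + (-(3 / 2 * U) + ex b p j)) := by
          have h5 := E.big_pow (x := 1) (by norm_num)
          calc 4 * rr b U * G p N j ≤ 4 * rr b U * W p j := by gcongr
            _ = 4 * b ^ (-(3 / 2 * U) + ex b p j) := by
                unfold rr
                rw [Real.rpow_add hb0, ← E.W_eq hj.2]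
                ring
            _ ≤ b ^ (1 : ℝ) * b ^ (-(3 / 2 * U) + ex b p j) := by gcongr; linarith
            _ = _ := by rw [← Real.rpow_add hb0]
        calc b ^ (10 + 3 / 100 * ex b p j) * b ^ (2 : ℝ) * (4 * rr b U * G p N j)
            ≤ b ^ (10 + 3 / 100 * ex b p j) * b ^ (2 : ℝ) * b ^ (1 + (-(3 / 2 * U) + ex b p j)) := by
              gcongr
          _ = b ^ (10 + 3 / 100 * ex b p j + 2 + (1 + (-(3 / 2 * U) + ex b p j))) := by
              rw [Real.rpow_add hb0 (10 + 3 / 100 * ex b p j + 2), Real.rpow_add hb0 (10 + 3 / 100 * ex b p j)]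
          _ ≤ b ^ (-7 + -(1 / 100 * ex b p j)) := by
              apply E.mono
              linarith
          _ = _ := by rw [Real.rpow_add hb0]
      have hA1 : b ^ (10 + 3 / 100 * ex b p j) * b ^ (2 : ℝ) * A b U n p j ≤
          64 * (b ^ (-7 : ℝ) * b ^ (-(1 / 100 * ex b p j))) := by
        unfold A
        rw [if_neg h30]
        split_ifs with hjn
        · calc b ^ (10 + 3 / 100 * ex b p j) * b ^ (2 : ℝ) * (64 * b ^ (6 - 97 / 100 * ex b p j))
              = 64 * b ^ (10 + 3 / 100 * ex b p j + 2 + (6 - 97 / 100 * ex b p j)) := by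
                rw [Real.rpow_add hb0 (10 + 3 / 100 * ex b p j + 2), Real.rpow_add hb0 (10 + 3 / 100 * ex b p j)]
                ring
            _ ≤ 64 * b ^ (-7 + -(1 / 100 * ex b p j)) := by
                have : b ^ (10 + 3 / 100 * ex b p j + 2 + (6 - 97 / 100 * ex b p j)) ≤
                    b ^ (-7 + -(1 / 100 * ex b p j)) := by
                  apply E.mono
                  linarith
                linarith
            _ = _ := by rw [Real.rpow_add hb0]
        · calc b ^ (10 + 3 / 100 * ex b p j) * b ^ (2 : ℝ) * b ^ (20 - 96 / 100 * U)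
              = b ^ (10 + 3 / 100 * ex b p j + 2 + (20 - 96 / 100 * U)) := by
                rw [Real.rpow_add hb0 (10 + 3 / 100 * ex b p j + 2), Real.rpow_add hb0 (10 + 3 / 100 * ex b p j)]
            _ ≤ b ^ (-7 + -(1 / 100 * ex b p j)) := by
                apply E.mono
                nlinarith
            _ = b ^ (-7 : ℝ) * b ^ (-(1 / 100 * ex b p j)) := by rw [Real.rpow_add hb0]
            _ ≤ _ := by
                have : 0 ≤ b ^ (-7 : ℝ) * b ^ (-(1 / 100 * ex b p j)) := by positivity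
                linarith
      calc b ^ (10 + 3 / 100 * ex b p j) / W p j * (M * (A b U n p j + 4 * rr b U * G p N j)) * G p N j
          ≤ b ^ (10 + 3 / 100 * ex b p j) / W p j * (b ^ (2 : ℝ) * (A b U n p j + 4 * rr b U * G p N j)) * W p j := by
            gcongr
        _ = b ^ (10 + 3 / 100 * ex b p j) * b ^ (2 : ℝ) * A b U n p j +
            b ^ (10 + 3 / 100 * ex b p j) * b ^ (2 : ℝ) * (4 * rr b U * G p N j) := by
            field_simp
        _ ≤ 64 * (b ^ (-7 : ℝ) * b ^ (-(1 / 100 * ex b p j))) + b ^ (-7 : ℝ) * b ^ (-(1 / 100 * ex b p j)) :=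
            add_le_add hA1 hrW
        _ ≤ 70 * b ^ (-7 : ℝ) * b ^ (-(1 / 100 * ex b p j)) := by
            have : 0 ≤ b ^ (-7 : ℝ) * b ^ (-(1 / 100 * ex b p j)) := by positivity
            linarith
  refine (Finset.sum_le_sum hpt).trans ?_
  rw [Finset.sum_add_distrib, ← Finset.mul_sum, ← Finset.sum_filter]
  have g2 := E.sum_sub (Icc 1 N) (by
    intro i hi
    rw [Finset.mem_Icc] at hi
    rw [Finset.mem_range]
    omega)
  have g1 : ∑ j ∈ Icc 1 N with j ≤ 30, 272 * M / b ^ 2 ≤ 30 * (272 * M / b ^ 2) := by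
    rw [Finset.sum_const, nsmul_eq_mul]
    have hc : ((Icc 1 N).filter (fun j => j ≤ 30)).card ≤ 30 := by
      calc ((Icc 1 N).filter (fun j => j ≤ 30)).card ≤ (Icc 1 30).card := by
            apply Finset.card_le_card
            intro j hj
            rw [Finset.mem_filter, Finset.mem_Icc] at hj
            rw [Finset.mem_Icc]
            exact ⟨hj.1.1, hj.2⟩
        _ = 30 := by simp
    have hc' : (((Icc 1 N).filter (fun j => j ≤ 30)).card : ℝ) ≤ 30 := by exact_mod_cast hc
    exact mul_le_mul_of_nonneg_right hc' (by positivity)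
  have g3 : 30 * (272 * M / b ^ 2) ≤ 1 / 32 := by
    rw [← mul_div_assoc, div_le_iff₀ (by positivity)]
    nlinarith
  have g4 : 70 * b ^ (-7 : ℝ) * (2 * b) ≤ 1 / 32 := by
    have h1 : b ^ (-7 : ℝ) * b = b ^ (-6 : ℝ) := by
      conv_lhs => rw [← Real.rpow_one b, ← Real.rpow_mul hb0.le, ← Real.rpow_add hb0]
      norm_num
    have h2 : b ^ (-6 : ℝ) ≤ b ^ (-2 : ℝ) := E.mono (by norm_num)
    have h3 : b ^ (-2 : ℝ) ≤ 1 / 10 ^ 6 := by
      have h4 := E.small (x := -1) le_rfl
      have h5 : b ^ (-2 : ℝ) = b ^ (-1 : ℝ) * b ^ (-1 : ℝ) := by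
        rw [← Real.rpow_add hb0]; norm_num
      rw [h5]
      have h6 : 0 ≤ b ^ (-1 : ℝ) := by positivity
      nlinarith
    calc 70 * b ^ (-7 : ℝ) * (2 * b) = 140 * (b ^ (-7 : ℝ) * b) := by ring
      _ = 140 * b ^ (-6 : ℝ) := by rw [h1]
      _ ≤ 1 / 32 := by linarith
  have g5 : 70 * b ^ (-7 : ℝ) * ∑ i ∈ Icc 1 N, b ^ (-(1 / 100 * ex b p i)) ≤
      70 * b ^ (-7 : ℝ) * (2 * b) := mul_le_mul_of_nonneg_left g2 (by positivity)
  linarith

/-- the hypothesis `hsum` of the abstract lemmas -/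
theorem Ext.hsum (E : Ext b U L n N a p q) {M : ℝ} (hM : 0 ≤ M) (hMb : 10 ^ 6 * M ≤ b ^ 2)
    {m : ℕ} (hm : m ≤ N + 1) :
    ∑ j ∈ Ico 1 m, |fund a j m| * (M * (A b U n p j + 4 * rr b U * G p N j)) * G p N j ≤
      1 / 16 * G p N m := by
  have hb0 := E.b0
  have hr0 : 0 < rr b U := Real.rpow_pos_of_pos hb0 _
  have hGm := G_nonneg p N m
  calc ∑ j ∈ Ico 1 m, |fund a j m| * (M * (A b U n p j + 4 * rr b U * G p N j)) * G p N j
      ≤ ∑ j ∈ Ico 1 m, T b p j / W p j * (M * (A b U n p j + 4 * rr b U * G p N j)) * G p N j * G p N m := by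
        refine Finset.sum_le_sum fun j hj => ?_
        rw [Finset.mem_Ico] at hj
        have h1 := E.fund_G hj.2 hm
        have h2 := G_nonneg p N j
        have h3 := E.A_nonneg j
        calc |fund a j m| * (M * (A b U n p j + 4 * rr b U * G p N j)) * G p N j
            ≤ T b p j / W p j * G p N m * (M * (A b U n p j + 4 * rr b U * G p N j)) * G p N j := by
              gcongr
          _ = _ := by ring
    _ ≤ ∑ j ∈ Icc 1 N, T b p j / W p j * (M * (A b U n p j + 4 * rr b U * G p N j)) * G p N j * G p N m := by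
        apply Finset.sum_le_sum_of_subset_of_nonneg
        · intro j hj
          rw [Finset.mem_Ico] at hj
          rw [Finset.mem_Icc]
          omega
        · intro j _ _
          have h1 := E.T_nonneg j
          have h2 := G_nonneg p N j
          have h3 := E.A_nonneg j
          have h4 := W_nonneg p j
          positivity
    _ = (∑ j ∈ Icc 1 N, T b p j / W p j * (M * (A b U n p j + 4 * rr b U * G p N j)) * G p N j) * G p N m := by
        rw [Finset.sum_mul]
    _ ≤ 1 / 16 * G p N m := mul_le_mul_of_nonneg_right (E.main hM hMb) hGm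

end Crest.Agent.R128.Shad
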