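import Mathlib
import Crest.Agent.R128.ShadB
import Crest.Agent.R128.CoreI

/-!
Row 128, node V3-CORE (helper875), part 3: admissible points give `Ext`.
-/

set_option autoImplicit false

open Finset

namespace Crest.Agent.R128.Shad

open Crest.Agent.R128.TreeSum Crest.Agent.R128.BVP Crest.Agent.R128.Val Crest.Agent.R128.Core
open Crest.Agent.R128.Lam0 (pk nf SV)

variable {k X a c : ℝ} {n' : ℕ}

/-- the base -/
noncomputable def bb (k : ℝ) : ℝ := k ^ (2 / 3 : ℝ) / 2

theorem bb_facts (hk : (10 : ℝ) ^ 45 ≤ k) :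
    (10 : ℝ) ^ 20 ≤ bb k ∧ 10 ^ 9 * k ≤ bb k ^ 2 ∧ bb k ≤ k ^ (2 / 3 : ℝ) := by
  have hk0 : 0 < k := lt_of_lt_of_le (by positivity) hk
  have h30 : (10 : ℝ) ^ 30 ≤ k := le_trans (by norm_num) hk
  obtain ⟨-, h2, -⟩ := base_facts h30
  refine ⟨?_, h2, ?_⟩
  · have h3 : ((10 : ℝ) ^ 45) ^ (2 / 3 : ℝ) ≤ k ^ (2 / 3 : ℝ) :=
      Real.rpow_le_rpow (by positivity) hk (by norm_num)
    have h4 : ((10 : ℝ) ^ 45) ^ (2 / 3 : ℝ) = 10 ^ 30 := by
      rw [← Real.rpow_natCast, ← Real.rpow_natCast, ← Real.rpow_mul (by norm_num)]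
      norm_num
    unfold bb
    rw [h4] at h3
    norm_num at h3 ⊢
    linarith
  · unfold bb
    have : 0 < k ^ (2 / 3 : ℝ) := Real.rpow_pos_of_pos hk0 _
    linarith

theorem ratio (hk : (10 : ℝ) ^ 45 ≤ k) (h : SV k 1000 a c n') :
    ∀ m ≤ 1000, bb k * |pk k a c m| ≤ |pk k a c (m + 1)| := by
  obtain ⟨hb, -, -⟩ := bb_facts hk
  intro m
  induction m with
  | zero =>
    intro _
    show bb k * |(0 : ℝ)| ≤ |(1 : ℝ)|
    simp
  | succ m ih =>
    intro hm
    have h1 := ih (by omega)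
    have h3 := h.cl (m + 1) (Finset.mem_Icc.mpr ⟨by omega, hm⟩)
    have e : pk k a c (m + 2) = Vk k (xorb k a c (m + 1)) * pk k a c (m + 1) - pk k a c m := rfl
    show bb k * |pk k a c (m + 1)| ≤ |pk k a c (m + 2)|
    rw [e]
    have h4 : |Vk k (xorb k a c (m + 1))| * |pk k a c (m + 1)| - |pk k a c m| ≤
        |Vk k (xorb k a c (m + 1)) * pk k a c (m + 1) - pk k a c m| := by
      rw [← abs_mul]
      exact abs_sub_abs_le_abs_sub _ _
    have h3' : 2 * bb k ≤ |Vk k (xorb k a c (m + 1))| := by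
      have : 2 * bb k = k ^ (2 / 3 : ℝ) := by unfold bb; ring
      rw [this]
      exact h3
    have hb1 : (1 : ℝ) ≤ bb k := le_trans (by norm_num) hb
    have h5 : |pk k a c m| ≤ |pk k a c (m + 1)| := by
      have := abs_nonneg (pk k a c m)
      nlinarith
    have h6 := abs_nonneg (pk k a c (m + 1))
    nlinarith

theorem nf_nonneg' (k a c : ℝ) (m : ℕ) : 0 ≤ nf k a c m := (abs_nonneg _).trans (le_max_left _ _)

theorem nf_mono_clean (hk : (10 : ℝ) ^ 45 ≤ k) (h : SV k 1000 a c n') {i j : ℕ} (hij : i ≤ j)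
    (hj : j ≤ 1000) : nf k a c i ≤ nf k a c j := by
  obtain ⟨hb, -, -⟩ := bb_facts hk
  induction j, hij using Nat.le_induction with
  | base => exact le_rfl
  | succ j hij ih =>
    have h1 := ih (by omega)
    refine h1.trans ?_
    have h2 := ratio hk h j (by omega)
    have h3 := ratio hk h (j + 1) hj
    have hb1 : (1 : ℝ) ≤ bb k := le_trans (by norm_num) hb
    unfold nf
    have h4 : |pk k a c j| ≤ |pk k a c (j + 1)| := by
      have := abs_nonneg (pk k a c j)
      nlinarith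
    exact max_le (h4.trans (le_max_left _ _)) (le_max_left _ _)

theorem nf_one_clean (hk : (10 : ℝ) ^ 45 ≤ k) (h : SV k 1000 a c n') {j : ℕ}
    (hj : j ≤ 1000) : 1 ≤ nf k a c j := by
  have h1 := nf_mono_clean hk h (Nat.zero_le j) hj
  rwa [nf_zero] at h1

theorem v2all (hk : (10 : ℝ) ^ 45 ≤ k) (h : SV k 1000 a c n') :
    ∀ i j, i ≤ j → j < n' → nf k a c i ^ 99 ≤ nf k a c j ^ 100 := by
  intro i j hij hj
  rcases Nat.lt_or_ge j 1000 with hj1 | hj1
  · have h1 := nf_mono_clean hk h hij hj1.le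
    have h2 := nf_one_clean hk h hj1.le
    calc nf k a c i ^ 99 ≤ nf k a c j ^ 99 := pow_le_pow_left₀ (nf_nonneg' _ _ _ _) h1 99
      _ ≤ nf k a c j ^ 100 := pow_le_pow_right₀ h2 (by norm_num)
  · rcases Nat.lt_or_ge i 1000 with hi1 | hi1
    · have h1 := nf_mono_clean hk h hi1.le le_rfl
      calc nf k a c i ^ 99 ≤ nf k a c 1000 ^ 99 := pow_le_pow_left₀ (nf_nonneg' _ _ _ _) h1 99
        _ ≤ nf k a c j ^ 100 := h.v2 1000 j le_rfl hj1 hj
    · exact h.v2 i j hi1 hij hj

theorem nf_one (hk : (10 : ℝ) ^ 45 ≤ k) (h : SV k 1000 a c n') {j : ℕ} (hj : j < n') :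
    1 ≤ nf k a c j := by
  have h1 := v2all hk h 0 j (Nat.zero_le j) hj
  rw [nf_zero, one_pow] at h1
  by_contra hlt
  push Not at hlt
  have := pow_lt_one₀ (nf_nonneg' k a c j) hlt (by norm_num : (100 : ℕ) ≠ 0)
  linarith

/-- exponents of `nf` -/
noncomputable def nu (k a c : ℝ) (j : ℕ) : ℝ := Real.logb (bb k) (nf k a c j)

theorem bb_gt (hk : (10 : ℝ) ^ 45 ≤ k) : 1 < bb k :=
  lt_of_lt_of_le (by norm_num) (bb_facts hk).1

theorem bb_root (hk : (10 : ℝ) ^ 45 ≤ k) : 3 / 2 ≤ bb k ^ (1 / 100 : ℝ) := by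
  obtain ⟨hb, -, -⟩ := bb_facts hk
  have h5 : (((10 : ℝ) ^ 20)) ^ (1 / 100 : ℝ) ≤ bb k ^ (1 / 100 : ℝ) :=
    Real.rpow_le_rpow (by positivity) hb (by norm_num)
  refine le_trans ?_ h5
  have h6 : ((3 / 2 : ℝ) ^ (5 : ℕ)) ^ (1 / 5 : ℝ) ≤ (10 : ℝ) ^ (1 / 5 : ℝ) :=
    Real.rpow_le_rpow (by positivity) (by norm_num) (by norm_num)
  have h7 : ((3 / 2 : ℝ) ^ (5 : ℕ)) ^ (1 / 5 : ℝ) = 3 / 2 := by
    rw [← Real.rpow_natCast, ← Real.rpow_mul (by norm_num)]
    norm_num
  have h8 : (((10 : ℝ) ^ 20)) ^ (1 / 100 : ℝ) = (10 : ℝ) ^ (1 / 5 : ℝ) := by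
    rw [← Real.rpow_natCast, ← Real.rpow_mul (by norm_num)]
    norm_num
  rw [h8]
  linarith

theorem nu_le (hk : (10 : ℝ) ^ 45 ≤ k) (h : SV k 1000 a c n') {j : ℕ} (hj : j < n') :
    nu k a c j ≤ ex (bb k) (pk k a c) j ∧ ex (bb k) (pk k a c) j ≤ nu k a c j + 1 / 100 := by
  have h1 := nf_one hk h hj
  have hb := bb_gt hk
  have hW1 : nf k a c j ≤ W (pk k a c) j := N_le_W (pk k a c) j
  have hW2 : W (pk k a c) j ≤ 3 / 2 * nf k a c j := W_le_N (pk k a c) j
  unfold nu ex
  constructor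
  · exact Real.logb_le_logb_of_le hb (by linarith) hW1
  · have h3 : W (pk k a c) j ≤ nf k a c j * bb k ^ (1 / 100 : ℝ) := by
      have := bb_root hk
      nlinarith
    have h4 := Real.logb_le_logb_of_le hb (by linarith) h3
    rw [Real.logb_mul (by linarith) (by
      have := Real.rpow_pos_of_pos (lt_trans one_pos hb) (1 / 100 : ℝ)
      exact this.ne'), Real.logb_rpow (by linarith) hb.ne'] at h4
    exact h4

theorem nu_v2 (hk : (10 : ℝ) ^ 45 ≤ k) (h : SV k 1000 a c n') {i j : ℕ} (hij : i ≤ j)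
    (hj : j < n') : 99 / 100 * nu k a c i ≤ nu k a c j := by
  have h1 := v2all hk h i j hij hj
  have h2 := nf_one hk h hj
  have h3 := nf_one hk h (lt_of_le_of_lt hij hj)
  have h4 := Real.logb_le_logb_of_le (bb_gt hk) (by positivity) h1
  rw [Real.logb_pow, Real.logb_pow] at h4
  unfold nu
  push_cast at h4
  linarith

theorem nu_nonneg (hk : (10 : ℝ) ^ 45 ≤ k) (h : SV k 1000 a c n') {j : ℕ} (hj : j < n') :
    0 ≤ nu k a c j := Real.logb_nonneg (bb_gt hk) (nf_one hk h hj)

theorem logk (hk : (10 : ℝ) ^ 45 ≤ k) :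
    3 / 2 ≤ Real.logb (bb k) k ∧ Real.logb (bb k) k ≤ 2 := by
  obtain ⟨hb, hb2, hb3⟩ := bb_facts hk
  have hk0 : 0 < k := lt_of_lt_of_le (by positivity) hk
  have hb1 := bb_gt hk
  constructor
  · have h1 := Real.logb_le_logb_of_le hb1 (by linarith) hb3
    rw [Real.logb_self_eq_one hb1, Real.logb_rpow_eq_mul_logb_of_pos hk0] at h1
    linarith
  · have h1 : k ≤ bb k ^ 2 := by nlinarith
    have h2 := Real.logb_le_logb_of_le hb1 hk0 h1
    rw [Real.logb_pow, Real.logb_self_eq_one hb1] at h2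
    push_cast at h2
    linarith

theorem ext_of_adm (hk : (10 : ℝ) ^ 45 ≤ k) (hX : k ^ 600 ≤ X) (hadm : Adm k X a c n')
    {n L : ℕ} (S : Seg k X a c n' n L) :
    ∃ L0, Ext (bb k) (Real.logb (bb k) X) L0 n n' (dig k a c) (pk k a c) (qk (dig k a c) n) := by
  obtain ⟨h, hex, hkX⟩ := hadm
  obtain ⟨hb20, hb2, hb3⟩ := bb_facts hk
  have hk30 : (10 : ℝ) ^ 30 ≤ k := le_trans (by norm_num) hk
  have hk10 : (10 : ℝ) ≤ k := le_trans (by norm_num) hk
  have hk0 : 0 < k := by linarith
  have hb1 := bb_gt hk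
  have hb0 : 0 < bb k := by linarith
  have hX0 : 0 < X := lt_of_lt_of_le (by positivity) hX
  obtain ⟨hlk1, hlk2⟩ := logk hk
  set U := Real.logb (bb k) X with hU
  have hUX : bb k ^ U = X := by rw [hU, Real.rpow_logb hb0 hb1.ne' hX0]
  have hU900 : 900 ≤ U := by
    have h1 := Real.logb_le_logb_of_le hb1 (by positivity) hX
    rw [Real.logb_pow] at h1
    push_cast at h1
    linarith
  -- the clean length
  obtain ⟨n0, L0, h1, h2, h3, h4, h5, h6, h7, h8, h9, h10, hV⟩ := cross hk30 hX h hex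
  have hn0 : n0 = n := by
    rcases lt_trichotomy n0 n with hlt | heq | hlt
    · exact absurd h8 (not_le.mpr (S.small n0 hlt))
    · exact heq
    · exact absurd S.big (not_le.mpr (h7 n hlt))
  subst hn0
  have hn60 : 60 ≤ n0 := by
    by_contra hlt
    push Not at hlt
    have g1 := nf_le_pow hk10 a c n0
    have g2 : (8 * k) ^ n0 ≤ (k ^ 2) ^ n0 := pow_le_pow_left₀ (by positivity) (by nlinarith) n0
    have g3 : (k ^ 2) ^ n0 < k ^ 600 := by
      rw [← pow_mul]
      exact pow_lt_pow_right₀ (by linarith) (by omega)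
    linarith
  have hL60 : 60 ≤ L0 := by
    rcases Nat.lt_or_ge n0 1000 with g | g
    · rw [h5 g]; exact hn60
    · rw [h6 g]; norm_num
  have hmono : ∀ {x y : ℝ}, x ≤ y → bb k ^ x ≤ bb k ^ y := fun hxy =>
    Real.rpow_le_rpow_of_exponent_le hb1.le hxy
  have hA : ∀ m, |dig k a c m| + 2 ≤ bb k ^ 2 := by
    intro m
    have g1 := abs_dig_le hk10 a c m
    nlinarith
  have hrec : ∀ m < n', pk k a c (m + 2) = dig k a c (m + 1) * pk k a c (m + 1) - pk k a c m :=
    fun _ _ => rfl
  have hn'1 : 1 ≤ n' := by omega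
  -- last step
  have hWpos : ∀ j < n', 0 < W (pk k a c) j := fun j hj =>
    lt_of_lt_of_le (lt_of_lt_of_le one_pos (nf_one hk h hj)) (N_le_W (pk k a c) j)
  have estp : stp (dig k a c (n' - 1 + 1)) (pk k a c (n' - 1), pk k a c (n' - 1 + 1)) =
      (pk k a c (n' - 1 + 1), pk k a c (n' - 1 + 1 + 1)) := by
    unfold stp
    rfl
  have hup1 : W (pk k a c) n' ≤ bb k ^ 2 * W (pk k a c) (n' - 1) := by
    have g := nn_stp_le (dig k a c (n' - 1 + 1)) (pk k a c (n' - 1), pk k a c (n' - 1 + 1))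
    rw [estp, Nat.sub_add_cancel hn'1] at g
    have g2 : nn (pk k a c n', pk k a c (n' + 1)) ≤ bb k ^ 2 * nn (pk k a c (n' - 1), pk k a c n') :=
      g.trans (mul_le_mul_of_nonneg_right (hA n') (nn_nonneg _))
    have e3 : W (pk k a c) (n' - 1) = nn (pk k a c (n' - 1), pk k a c n') := by
      unfold W
      rw [Nat.sub_add_cancel hn'1]
    rw [e3]
    exact g2
  have hdn1 : W (pk k a c) (n' - 1) ≤ bb k ^ 2 * W (pk k a c) n' := by
    have g := nn_le_stp (dig k a c (n' - 1 + 1)) (pk k a c (n' - 1), pk k a c (n' - 1 + 1))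
    rw [estp, Nat.sub_add_cancel hn'1] at g
    have g2 : nn (pk k a c (n' - 1), pk k a c n') ≤ bb k ^ 2 * nn (pk k a c n', pk k a c (n' + 1)) :=
      g.trans (mul_le_mul_of_nonneg_right (hA n') (nn_nonneg _))
    have e3 : W (pk k a c) (n' - 1) = nn (pk k a c (n' - 1), pk k a c n') := by
      unfold W
      rw [Nat.sub_add_cancel hn'1]
    rw [e3]
    exact g2
  have hWN : 0 < W (pk k a c) n' := by
    have g := hWpos (n' - 1) (by omega)
    by_contra hc
    push Not at hc
    have : bb k ^ 2 * W (pk k a c) n' ≤ 0 := mul_nonpos_of_nonneg_of_nonpos (by positivity) hc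
    linarith
  have hexN1 : ex (bb k) (pk k a c) (n' - 1) ≤ 2 + ex (bb k) (pk k a c) n' := by
    unfold ex
    have g := Real.logb_le_logb_of_le hb1 (hWpos (n' - 1) (by omega)) hdn1
    rw [Real.logb_mul (by positivity) hWN.ne', Real.logb_pow, Real.logb_self_eq_one hb1] at g
    push_cast at g
    linarith
  have hexN2 : ex (bb k) (pk k a c) n' ≤ 2 + ex (bb k) (pk k a c) (n' - 1) := by
    unfold ex
    have g := Real.logb_le_logb_of_le hb1 hWN hup1
    rw [Real.logb_mul (by positivity) (hWpos (n' - 1) (by omega)).ne', Real.logb_pow,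
      Real.logb_self_eq_one hb1] at g
    push_cast at g
    linarith
  have hup' : ∀ j < n', nu k a c j ≤ U + 2 := by
    intro j hj
    have g1 := hkX j hj
    have g2 := nf_one hk h hj
    have g3 := Real.logb_le_logb_of_le hb1 (by linarith) g1
    rw [Real.logb_mul hk0.ne' hX0.ne'] at g3
    unfold nu
    linarith
  have w2' : ∀ i j, i ≤ j → j < n' →
      99 / 100 * ex (bb k) (pk k a c) i - 1 / 100 ≤ ex (bb k) (pk k a c) j := by
    intro i j hij hj
    have g1 := nu_v2 hk h hij hj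
    have g2 := nu_le hk h hj
    have g3 := nu_le hk h (lt_of_le_of_lt hij hj)
    linarith [g2.1, g3.2]
  have ex0 : ∀ j < n', 0 ≤ ex (bb k) (pk k a c) j := by
    intro j hj
    have g1 := nu_nonneg hk h hj
    have g2 := (nu_le hk h hj).1
    linarith
  have exN : -2 ≤ ex (bb k) (pk k a c) n' := by
    have := ex0 (n' - 1) (by omega)
    linarith
  refine ⟨L0, hV, hL60, S.lt, hrec, hA, hb20, by linarith, ?_, ?_, ?_, ?_, ?_⟩
  · rw [hUX]; exact S.pn1
  · intro j hj
    rcases Nat.eq_or_lt_of_le hj with he | hlt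
    · subst he
      have g1 := hup' (j - 1) (by omega)
      have g2 := (nu_le hk h (by omega : j - 1 < j)).2
      linarith
    · have g1 := hup' j hlt
      have g2 := (nu_le hk h hlt).2
      linarith
  · intro i j hij hj
    rcases Nat.eq_or_lt_of_le hj with he | hlt
    · subst he
      rcases Nat.eq_or_lt_of_le hij with he2 | hlt2
      · subst he2
        linarith
      · have := w2' i (j - 1) (by omega) (by omega)
        linarith
    · have := w2' i j hij hlt
      linarith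
  · -- the sum
    have hpt : ∀ j ∈ range (n' + 1), bb k ^ (-(1 / 100 * ex (bb k) (pk k a c) j)) ≤
        (if j < 1000 then 1 else 0) + bb k ^ (1 / 10 : ℝ) * (if 1000 ≤ j then ((j : ℝ) ^ 2)⁻¹ else 0) +
          (if j = n' then bb k ^ (1 / 10 : ℝ) else 0) := by
      intro j hj
      rw [Finset.mem_range] at hj
      have hb10 : 0 < bb k ^ (1 / 10 : ℝ) := Real.rpow_pos_of_pos hb0 _
      by_cases he : j = n'
      · rw [if_pos he]
        have g1 : bb k ^ (-(1 / 100 * ex (bb k) (pk k a c) j)) ≤ bb k ^ (1 / 10 : ℝ) := by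
          apply hmono
          rw [he]
          linarith
        have g2 : (0 : ℝ) ≤ (if j < 1000 then 1 else 0) := by split_ifs <;> norm_num
        have g3 : (0 : ℝ) ≤ bb k ^ (1 / 10 : ℝ) * (if 1000 ≤ j then ((j : ℝ) ^ 2)⁻¹ else 0) := by
          split_ifs <;> positivity
        linarith
      · rw [if_neg he, add_zero]
        have hlt : j < n' := by omega
        have hj0 := ex0 j hlt
        rcases Nat.lt_or_ge j 1000 with g | g
        · rw [if_pos g, if_neg (by omega), mul_zero, add_zero]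
          exact Real.rpow_le_one_of_one_le_of_nonpos hb1.le (by linarith)
        · rw [if_neg (by omega), if_pos g, zero_add]
          obtain ⟨i, hi1, hij, hi⟩ := h.v3 j g hlt
          have hjr : (0 : ℝ) < (j : ℝ) := by
            have : 0 < j := by omega
            exact_mod_cast this
          have g1 := Real.logb_le_logb_of_le hb1 (by positivity) hi
          rw [Real.logb_pow] at g1
          have g2 := w2' i j hij hlt
          have g3 := (nu_le hk h (lt_of_le_of_lt hij hlt)).1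
          have g4 : 0 ≤ Real.logb (bb k) j := Real.logb_nonneg hb1 (by
            have : 1 ≤ j := by omega
            exact_mod_cast this)
          have e1 : ((j : ℝ) ^ 2)⁻¹ = bb k ^ (-(2 * Real.logb (bb k) j)) := by
            rw [Real.rpow_neg hb0.le, mul_comm, Real.rpow_mul hb0.le, Real.rpow_logb hb0 hb1.ne' hjr]
            norm_num
          rw [e1, ← Real.rpow_add hb0]
          apply hmono
          unfold nu at g3
          push_cast at g1
          linarith
    refine (Finset.sum_le_sum hpt).trans ?_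
    rw [Finset.sum_add_distrib, Finset.sum_add_distrib, ← Finset.mul_sum]
    have s1 : ∑ j ∈ range (n' + 1), (if j < 1000 then (1 : ℝ) else 0) ≤ 1000 := by
      rw [← Finset.sum_filter, Finset.sum_const, nsmul_eq_mul, mul_one]
      have : ((range (n' + 1)).filter (fun j => j < 1000)).card ≤ 1000 := by
        calc ((range (n' + 1)).filter (fun j => j < 1000)).card ≤ (range 1000).card := by
              apply Finset.card_le_card
              intro j hj
              rw [Finset.mem_filter] at hj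
              rw [Finset.mem_range]
              exact hj.2
          _ = 1000 := Finset.card_range 1000
      exact_mod_cast this
    have s2 : ∑ j ∈ range (n' + 1), (if 1000 ≤ j then ((j : ℝ) ^ 2)⁻¹ else 0) ≤ 1 := by
      rw [← Finset.sum_filter]
      have g1 : (range (n' + 1)).filter (fun j => 1000 ≤ j) = Ioo 999 (n' + 1) := by
        ext j
        simp only [Finset.mem_filter, Finset.mem_range, Finset.mem_Ioo]
        omega
      rw [g1]
      have g2 := sum_Ioo_inv_sq_le (α := ℝ) 999 (n' + 1)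
      refine g2.trans ?_
      norm_num
    have s3 : ∑ j ∈ range (n' + 1), (if j = n' then bb k ^ (1 / 10 : ℝ) else 0) = bb k ^ (1 / 10 : ℝ) := by
      rw [Finset.sum_ite_eq' (range (n' + 1)) n']
      rw [if_pos (by rw [Finset.mem_range]; omega)]
    rw [s3]
    have hb10 : 0 < bb k ^ (1 / 10 : ℝ) := Real.rpow_pos_of_pos hb0 _
    have s4 : bb k ^ (1 / 10 : ℝ) ≤ bb k / 4 := by
      have g1 : bb k ^ (1 / 10 : ℝ) * bb k ^ (9 / 10 : ℝ) = bb k := by
        rw [← Real.rpow_add hb0]; norm_num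
      have g2 : 4 ≤ bb k ^ (9 / 10 : ℝ) := by
        have g3 : ((10 : ℝ) ^ 20) ^ (9 / 10 : ℝ) ≤ bb k ^ (9 / 10 : ℝ) :=
          Real.rpow_le_rpow (by positivity) hb20 (by norm_num)
        have g4 : ((10 : ℝ) ^ 20) ^ (9 / 10 : ℝ) = 10 ^ 18 := by
          rw [← Real.rpow_natCast, ← Real.rpow_natCast, ← Real.rpow_mul (by norm_num)]
          norm_num
        rw [g4] at g3
        norm_num at g3
        linarith
      nlinarith
    have s5 : (1000 : ℝ) ≤ bb k / 4 := by
      norm_num at hb20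
      linarith
    have s6 := mul_le_mul_of_nonneg_left s2 hb10.le
    linarith
  · -- duration
    have hbU : bb k ≤ bb k ^ (U / 100) := by
      calc bb k = bb k ^ (1 : ℝ) := (Real.rpow_one _).symm
        _ ≤ _ := hmono (by linarith)
    rcases Nat.lt_or_ge 1000 n' with g | g
    · obtain ⟨i, hi1, hij, hi⟩ := h.v3 (n' - 1) (by omega) (by omega)
      have g1 := hi.trans (hkX i (by omega))
      have hjr : (0 : ℝ) < ((n' - 1 : ℕ) : ℝ) := by
        have : 0 < n' - 1 := by omega
        exact_mod_cast this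
      have g2 := Real.logb_le_logb_of_le hb1 (by positivity) g1
      rw [Real.logb_pow, Real.logb_mul hk0.ne' hX0.ne'] at g2
      push_cast at g2
      have g3 : Real.logb (bb k) ((n' - 1 : ℕ) : ℝ) ≤ U / 100 - 1 := by
        linarith
      have g4 : ((n' - 1 : ℕ) : ℝ) ≤ bb k ^ (U / 100 - 1) := by
        rw [← Real.logb_le_iff_le_rpow hb1 hjr]
        exact g3
      have g5 : (n' : ℝ) ≤ 2 * ((n' - 1 : ℕ) : ℝ) := by
        have : n' ≤ 2 * (n' - 1) := by omega
        exact_mod_cast this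
      have g6 : 2 * bb k ^ (U / 100 - 1) ≤ bb k ^ (U / 100) := by
        rw [Real.rpow_sub_one hb0.ne']
        have g7 : 0 < bb k ^ (U / 100) := Real.rpow_pos_of_pos hb0 _
        have g8 : (2 : ℝ) ≤ bb k := le_trans (by norm_num) hb20
        rw [← mul_div_assoc, div_le_iff₀ hb0]
        nlinarith
      linarith
    · have g1 : (n' : ℝ) ≤ 1000 := by exact_mod_cast g
      have g2 : (1000 : ℝ) ≤ bb k := le_trans (by norm_num) hb20
      linarith

end Crest.Agent.R128.Shad
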