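import Mathlib
import Crest.Agent.R128.ShadC

/-!
Row 128, node V3-CORE (helper875), part 4: `Core.ShadowStmt` and `Core.CohStmt`.
-/

set_option autoImplicit false

open Finset

namespace Crest.Agent.R128.Shad

open Crest.Agent.R128.TreeSum Crest.Agent.R128.BVP Crest.Agent.R128.Val Crest.Agent.R128.Core
open Crest.Agent.R128.Lam0 (pk nf SV)

section gen

variable {b U : ℝ} {L n N : ℕ} {a p q : ℕ → ℝ}

theorem Ext.u_n (E : Ext b U L n N a p q) : U ≤ ex b p n := by
  have hb' : (1 : ℝ) < b := lt_of_lt_of_le (by norm_num) E.hb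
  have h1 : b ^ U ≤ b ^ ex b p n := by
    rw [← E.W_eq E.hnN.le]
    exact E.tip.trans (abs_succ_le_W p n)
  exact (Real.rpow_le_rpow_left_iff hb').mp h1

/-- size of the fundamental solutions after `n` -/
theorem Ext.fund_late (E : Ext b U L n N a p q) {j m : ℕ} (hj : n + 1 ≤ j) (hjm : j ≤ m)
    (hm : m ≤ N + 1) : |fund a j m| ≤ b ^ (18 + 4 / 100 * U) := by
  have hb0 := E.b0
  have hn := E.n_ge
  rcases Nat.eq_or_lt_of_le hjm with he | hlt
  · subst he
    rw [fund_self, abs_zero]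
    positivity
  · have h1 := E.fund_G hlt hm
    have h2 := G_le_pred p N m
    have hjN : j ≤ N := by omega
    have hT : T b p j = b ^ (10 + 3 / 100 * ex b p j) := by unfold T; rw [if_neg (by omega)]
    have hWj := E.Wpos hjN
    have hun := E.u_n
    have hw := E.w2 n j (by omega) hjN
    have hup := E.hup (m - 1) (by omega)
    have hU := E.hU
    calc |fund a j m| ≤ T b p j / W p j * G p N m := h1
      _ ≤ T b p j / W p j * W p (m - 1) := by
          have := E.T_nonneg j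
          gcongr
      _ = b ^ (10 + 3 / 100 * ex b p j - ex b p j + ex b p (m - 1)) := by
          rw [hT, Real.rpow_add hb0 (10 + 3 / 100 * ex b p j - ex b p j),
            Real.rpow_sub hb0 (10 + 3 / 100 * ex b p j), ← E.W_eq hjN, ← E.W_eq (by omega)]
      _ ≤ _ := by
          apply E.mono
          linarith

/-- the box for the matched orbit -/
theorem Ext.box (E : Ext b U L n N a p q) {M : ℝ} (hM : 0 ≤ M) (hMb : 10 ^ 6 * M ≤ b ^ 2)
    {f Vd : ℝ → ℝ} (hNL : NL f Vd M) {x y : ℕ → ℝ} (ha : a = fun i => Vd (x i))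
    (hx : ∀ m < N, x (m + 2) + x m = f (x (m + 1)))
    (hy : ∀ m < N, y (m + 2) + y m = f (y (m + 1)))
    (hr : y (n + 1) = x (n + 1))
    (hbox : ∀ m ∈ Icc 1 n, |y m - x m| ≤ 3 / 2 * lw n p q m) :
    ∀ m, 1 ≤ m → m ≤ N → |y m - x m| ≤ 1 / 8 * A b U n p m := by
  have hb0 := E.b0
  have hn := E.n_ge
  have hnN := E.hnN
  have hU := E.hU
  intro m hm1 hmN
  rcases Nat.lt_or_ge n m with h | h
  · -- after `n`
    have hyn : |y n - x n| ≤ b ^ (1 / 10 - U) := by
      have h1 := hbox n (Finset.mem_Icc.mpr ⟨by omega, le_rfl⟩)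
      have h2 : lw n p q n ≤ b ^ (-U) := by
        unfold lw
        have e : W q n = 1 := by
          unfold W nn
          rw [E.V.J.qn, E.V.J.qn1]
          simp
        rw [e, Real.rpow_neg hb0.le, ← one_div]
        exact one_div_le_one_div_of_le (Real.rpow_pos_of_pos hb0 _) E.tip
      have h3 := E.big_pow (x := 1 / 10) le_rfl
      calc |y n - x n| ≤ 3 / 2 * b ^ (-U) := h1.trans (by linarith)
        _ ≤ b ^ (1 / 10 : ℝ) * b ^ (-U) := by
            have : 0 < b ^ (-U) := Real.rpow_pos_of_pos hb0 _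
            nlinarith
        _ = b ^ (1 / 10 - U) := by
            rw [← Real.rpow_add hb0]
            congr 1
    have hB1 : 1 ≤ b ^ (18 + 4 / 100 * U) := Real.one_le_rpow E.b1 (by linarith)
    have hsmall : 4 * (b ^ (18 + 4 / 100 * U)) ^ 2 * M * ((N : ℝ) - n) * |y n - x n| ≤ 1 := by
      have h4M : 4 * M ≤ b ^ (2 : ℝ) := by
        rw [Real.rpow_two]
        nlinarith
      have hNn : (N : ℝ) - n ≤ b ^ (U / 100) := by
        have := E.hN
        have h0 : (0 : ℝ) ≤ n := Nat.cast_nonneg _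
        linarith
      have hNn0 : 0 ≤ (N : ℝ) - n := by
        have : (n : ℝ) ≤ N := by exact_mod_cast hnN.le
        linarith
      calc 4 * (b ^ (18 + 4 / 100 * U)) ^ 2 * M * ((N : ℝ) - n) * |y n - x n|
          = (b ^ (18 + 4 / 100 * U)) ^ 2 * (4 * M) * ((N : ℝ) - n) * |y n - x n| := by ring
        _ ≤ (b ^ (18 + 4 / 100 * U)) ^ 2 * b ^ (2 : ℝ) * b ^ (U / 100) * b ^ (1 / 10 - U) := by
            gcongr
        _ = b ^ (2 * (18 + 4 / 100 * U) + 2 + U / 100 + (1 / 10 - U)) := by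
            rw [E.hsq, ← Real.rpow_add hb0, ← Real.rpow_add hb0, ← Real.rpow_add hb0]
        _ ≤ 1 := by
            apply Real.rpow_le_one_of_one_le_of_nonpos E.b1
            linarith
    have hf := fwd (f := f) (V := Vd) (M := M) (B := b ^ (18 + 4 / 100 * U)) hM hNL (s := n) (N := N)
      (x := x) (z := y) (fun m _ hm => hx m hm) (fun m _ hm => hy m hm) hr hB1
      (by
        intro j i hj hji hi
        rw [← ha]
        exact E.fund_late hj hji hi) hsmall m h.le (by omega)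
    refine hf.trans ?_
    have hA : A b U n p m = b ^ (20 - 96 / 100 * U) := by
      unfold A
      rw [if_neg (by omega), if_neg (by omega)]
    rw [hA]
    have h3 := E.big_pow (x := 1) (by norm_num)
    have h5 : 16 * b ^ (19 - 96 / 100 * U) ≤ b ^ (20 - 96 / 100 * U) := by
      calc 16 * b ^ (19 - 96 / 100 * U) ≤ b ^ (1 : ℝ) * b ^ (19 - 96 / 100 * U) := by
            gcongr; linarith
        _ = b ^ (20 - 96 / 100 * U) := by
            rw [← Real.rpow_add hb0]
            congr 1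
            ring
    calc 2 * b ^ (18 + 4 / 100 * U) * |y n - x n| ≤ 2 * b ^ (18 + 4 / 100 * U) * b ^ (1 / 10 - U) := by
          gcongr
      _ = 2 * b ^ (18 + 4 / 100 * U + (1 / 10 - U)) := by
          rw [Real.rpow_add hb0 (18 + 4 / 100 * U)]
          ring
      _ ≤ 2 * b ^ (19 - 96 / 100 * U) := by
          have : b ^ (18 + 4 / 100 * U + (1 / 10 - U)) ≤ b ^ (19 - 96 / 100 * U) := by
            apply E.mono
            linarith
          linarith
      _ ≤ _ := by linarith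
  · have h1 := hbox m (Finset.mem_Icc.mpr ⟨hm1, h⟩)
    refine h1.trans ?_
    unfold A
    split_ifs with h30
    · have h2 := E.V.lamB.c m h30
      have h3 : 0 ≤ b ^ (-ex b p m) := by positivity
      linarith
    · have h2 := E.V.lamB.g m h
      have h3 : 0 ≤ b ^ (6 - 97 / 100 * ex b p m) := by positivity
      linarith

/-- shadowing: displacement and field -/
theorem Ext.shadow (E : Ext b U L n N a p q) {M : ℝ} (hM : 0 ≤ M) (hMb : 10 ^ 6 * M ≤ b ^ 2)
    {f Vd : ℝ → ℝ} (hNL : NL f Vd M) {x y z : ℕ → ℝ} (ha : a = fun i => Vd (x i))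
    (hx : ∀ m < N, x (m + 2) + x m = f (x (m + 1)))
    (hy : ∀ m < N, y (m + 2) + y m = f (y (m + 1)))
    (hz : ∀ m < N, z (m + 2) + z m = f (z (m + 1)))
    (hr : y (n + 1) = x (n + 1))
    (hbox : ∀ m ∈ Icc 1 n, |y m - x m| ≤ 3 / 2 * lw n p q m)
    (h0 : z 0 = y 0) (h1 : |z 1 - y 1| ≤ 2 * rr b U) :
    (∀ m ≤ N + 1, |z m - y m| ≤ 2 * |z 1 - y 1| * G p N m) ∧
    (∀ m, 1 ≤ m → m ≤ N → |z m - x m| ≤ A b U n p m + 4 * rr b U * G p N m) := by
  have hb0 := E.b0
  have hα : ∀ m, 1 ≤ m → m ≤ N → |y m - x m| ≤ A b U n p m := by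
    intro m hm1 hm2
    have g1 := E.box hM hMb hNL ha hx hy hr hbox m hm1 hm2
    have g2 := E.A_nonneg m
    linarith
  have hs := shadow_abs hM hNL (N := N) (x := x) (y := y) (z := z) (p := p) (Wh := G p N)
    (α := A b U n p) hy hz E.V.J.p0 E.V.J.p1 (by
      intro m hm
      have := E.hp m hm
      rw [ha] at this
      exact this) (fun m _ => abs_le_G p E.V.J.p0) h0 h1 hα (η := 1 / 16) (by norm_num) (by
      intro m hm
      have g := E.hsum hM hMb hm
      rw [ha] at g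
      refine le_trans (le_of_eq ?_) g
      apply Finset.sum_congr rfl
      intro j _
      ring)
  refine ⟨hs, ?_⟩
  intro m hm1 hm2
  have g1 := hs m (by omega)
  have g2 := hα m hm1 hm2
  have g3 := G_nonneg p N m
  have g4 : |z m - x m| ≤ |z m - y m| + |y m - x m| := by
    have := abs_add_le (z m - y m) (y m - x m)
    rwa [sub_add_sub_cancel] at this
  have g5 : 2 * |z 1 - y 1| * G p N m ≤ 4 * rr b U * G p N m := by
    apply mul_le_mul_of_nonneg_right _ g3
    linarith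
  linarith

end gen

theorem rr_eq {k X : ℝ} (hk : (10 : ℝ) ^ 45 ≤ k) (hX0 : 0 < X) :
    rr (bb k) (Real.logb (bb k) X) = X ^ (-(3 / 2) : ℝ) := by
  have hb1 := bb_gt hk
  unfold rr
  have e : -(3 / 2 * Real.logb (bb k) X) = Real.logb (bb k) X * (-(3 / 2)) := by ring
  rw [e, Real.rpow_mul (by linarith), Real.rpow_logb (by linarith) hb1.ne' hX0]

theorem M_facts {k : ℝ} (hk : (10 : ℝ) ^ 45 ≤ k) :
    0 ≤ 4 * Real.pi ^ 2 * k ∧ 10 ^ 6 * (4 * Real.pi ^ 2 * k) ≤ bb k ^ 2 := by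
  have hk0 : 0 < k := lt_of_lt_of_le (by positivity) hk
  obtain ⟨-, h2, -⟩ := bb_facts hk
  have h3 := M_le hk0
  constructor
  · positivity
  · linarith

theorem xorb_rel (k a b : ℝ) (m : ℕ) : xorb k a b (m + 2) + xorb k a b m = fk k (xorb k a b (m + 1)) := by
  show fk k (xorb k a b (m + 1)) - xorb k a b m + xorb k a b m = _
  ring

theorem shadow_stmt : ShadowStmt := by
  refine ⟨(10 : ℝ) ^ 45, ?_⟩
  intro k hk X hX a c n' n L hadm S l s0 hl hmt s hs
  have hk0 : 0 < k := lt_of_lt_of_le (by positivity) hk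
  have hX0 : 0 < X := lt_of_lt_of_le (by positivity) hX
  obtain ⟨hM0, hMb⟩ := M_facts hk
  obtain ⟨L0, E⟩ := ext_of_adm hk hX hadm S
  have hrr := rr_eq hk hX0
  have hsh := E.shadow hM0 hMb (NL_fk hk0.le) (x := xorb k a c) (y := xorb k l s0) (z := xorb k l s)
    rfl (fun m _ => xorb_rel k a c m) (fun m _ => xorb_rel k l s0 m) (fun m _ => xorb_rel k l s m)
    hmt.right hmt.box rfl (by rw [hrr]; exact hs)
  have hfld := field_abs (Vd := Vk k) (M := 4 * Real.pi ^ 2 * k) (fun s t => Vk_lip hk0.le s t)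
    (N := n') (x := xorb k a c) (z := xorb k l s) (p := pk k a c) (p' := pk k l s)
    (Wh := G (pk k a c) n') (β := fun m => A (bb k) (Real.logb (bb k) X) n (pk k a c) m +
      4 * rr (bb k) (Real.logb (bb k) X) * G (pk k a c) n' m) rfl rfl (fun _ _ => rfl) rfl rfl
    (fun _ _ => rfl) hM0 (fun m _ => abs_le_G (pk k a c) rfl) hsh.2 (η := 1 / 16) (by norm_num)
    (fun m hm => E.hsum hM0 hMb hm)
  intro m hm
  have h1 := hfld m (by omega)
  have h2 := hfld (m + 1) (by omega)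
  have g1 := G_le (pk k a c) hm
  have g2 := G_le_pred (pk k a c) n' (m + 1)
  rw [Nat.add_sub_cancel] at g2
  have g3 : W (pk k a c) m ≤ 3 / 2 * nf k a c m := W_le_N (pk k a c) m
  have d1 : |pk k l s m - pk k a c m| ≤ 3 / 16 * nf k a c m := by linarith
  have d2 : |pk k l s (m + 1) - pk k a c (m + 1)| ≤ 3 / 16 * nf k a c m := by linarith
  have n1 : |pk k a c m| ≤ nf k a c m := le_max_left _ _
  have n2 : |pk k a c (m + 1)| ≤ nf k a c m := le_max_right _ _
  have m1 : |pk k l s m| ≤ nf k l s m := le_max_left _ _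
  have m2 : |pk k l s (m + 1)| ≤ nf k l s m := le_max_right _ _
  have hnf0 := nf_nonneg' k a c m
  have t1 : |pk k l s m| ≤ |pk k a c m| + 3 / 16 * nf k a c m := by
    have := abs_add_le (pk k l s m - pk k a c m) (pk k a c m)
    rw [sub_add_cancel] at this
    linarith
  have t2 : |pk k l s (m + 1)| ≤ |pk k a c (m + 1)| + 3 / 16 * nf k a c m := by
    have := abs_add_le (pk k l s (m + 1) - pk k a c (m + 1)) (pk k a c (m + 1))
    rw [sub_add_cancel] at this
    linarith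
  have t3 : |pk k a c m| ≤ |pk k l s m| + 3 / 16 * nf k a c m := by
    have := abs_sub_abs_le_abs_sub (pk k a c m) (pk k l s m)
    rw [abs_sub_comm] at this
    linarith
  have t4 : |pk k a c (m + 1)| ≤ |pk k l s (m + 1)| + 3 / 16 * nf k a c m := by
    have := abs_sub_abs_le_abs_sub (pk k a c (m + 1)) (pk k l s (m + 1))
    rw [abs_sub_comm] at this
    linarith
  constructor
  · have : nf k a c m ≤ nf k l s m + 3 / 16 * nf k a c m := by
      conv_lhs => unfold nf
      exact max_le (by linarith) (by linarith)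
    linarith
  · have : nf k l s m ≤ nf k a c m + 3 / 16 * nf k a c m := by
      conv_lhs => unfold nf
      exact max_le (by linarith) (by linarith)
    linarith

/-- weights of the second orbit in terms of the first one -/
theorem lw_cmp {b U₁ U₂ : ℝ} {L₁ n₁ N₁ L₂ n₂ N₂ : ℕ} {a₁ p₁ q₁ a₂ p₂ q₂ : ℕ → ℝ}
    (E₁ : Ext b U₁ L₁ n₁ N₁ a₁ p₁ q₁) (E₂ : Ext b U₂ L₂ n₂ N₂ a₂ p₂ q₂) {j : ℕ} (hj : j ≤ n₁)
    (hj2 : j ≤ n₂) (hW : W p₁ j ≤ 6 * W p₂ j) : 3 * lw n₂ p₂ q₂ j ≤ 7 / 8 * A b U₁ n₁ p₁ j := by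
  have hb0 := E₁.b0
  have hnN1 := E₁.hnN
  have hnN2 := E₂.hnN
  have hW1 := E₁.Wpos (by omega : j ≤ N₁)
  have hW2 := E₂.Wpos (by omega : j ≤ N₂)
  unfold A
  split_ifs with h30
  · have h1 := E₂.V.lamB.c j h30
    have h2 : b ^ (-ex b p₂ j) ≤ 6 * b ^ (-ex b p₁ j) := by
      rw [Real.rpow_neg hb0.le, Real.rpow_neg hb0.le, ← E₁.W_eq (by omega), ← E₂.W_eq (by omega),
        ← one_div, ← one_div, mul_one_div, div_le_div_iff₀ hW2 hW1]
      linarith
    have h3 : 0 ≤ b ^ (-ex b p₁ j) := by positivity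
    linarith
  · have h1 := E₂.V.lamB.g j hj2
    have h2 : b ^ (6 - 97 / 100 * ex b p₂ j) ≤ 6 * b ^ (6 - 97 / 100 * ex b p₁ j) := by
      have e1 : b ^ (6 - 97 / 100 * ex b p₂ j) = b ^ (6 : ℝ) * (W p₂ j) ^ (-(97 / 100) : ℝ) := by
        rw [E₂.W_eq (by omega), ← Real.rpow_mul hb0.le, ← Real.rpow_add hb0]
        congr 1
        ring
      have e2 : b ^ (6 - 97 / 100 * ex b p₁ j) = b ^ (6 : ℝ) * (W p₁ j) ^ (-(97 / 100) : ℝ) := by
        rw [E₁.W_eq (by omega), ← Real.rpow_mul hb0.le, ← Real.rpow_add hb0]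
        congr 1
        ring
      rw [e1, e2]
      have h4 : (W p₂ j) ^ (-(97 / 100) : ℝ) ≤ (1 / 6 * W p₁ j) ^ (-(97 / 100) : ℝ) :=
        Real.rpow_le_rpow_of_nonpos (by positivity) (by linarith) (by norm_num)
      have h5 : (1 / 6 * W p₁ j) ^ (-(97 / 100) : ℝ) =
          (1 / 6 : ℝ) ^ (-(97 / 100) : ℝ) * (W p₁ j) ^ (-(97 / 100) : ℝ) :=
        Real.mul_rpow (by norm_num) hW1.le
      have h6 : (1 / 6 : ℝ) ^ (-(97 / 100) : ℝ) ≤ 6 := by
        rw [one_div, Real.inv_rpow (by norm_num), Real.rpow_neg (by norm_num), inv_inv]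
        calc (6 : ℝ) ^ (97 / 100 : ℝ) ≤ 6 ^ (1 : ℝ) :=
              Real.rpow_le_rpow_of_exponent_le (by norm_num) (by norm_num)
          _ = 6 := Real.rpow_one _
      have h7 : 0 ≤ (W p₁ j) ^ (-(97 / 100) : ℝ) := by positivity
      rw [h5] at h4
      have h8 : (W p₂ j) ^ (-(97 / 100) : ℝ) ≤ 6 * (W p₁ j) ^ (-(97 / 100) : ℝ) :=
        h4.trans (mul_le_mul_of_nonneg_right h6 h7)
      calc b ^ (6 : ℝ) * (W p₂ j) ^ (-(97 / 100) : ℝ) ≤
            b ^ (6 : ℝ) * (6 * (W p₁ j) ^ (-(97 / 100) : ℝ)) := by gcongr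
        _ = _ := by ring
    have h3 : 0 ≤ b ^ (6 - 97 / 100 * ex b p₁ j) := by positivity
    linarith

theorem coh_stmt : CohStmt := by
  refine ⟨(10 : ℝ) ^ 45, ?_⟩
  intro k hk X hX a1 b1 a2 b2 n1' n2' n1 n2 L1 L2 hadm1 hadm2 S1 S2 hn hcmp l s1 s2 ρ hl1 hl2 hm1 hm2
    hρ1 hρ2 hs _ l' s1' s2' hl1' hl2' hm1' hm2'
  have hk0 : 0 < k := lt_of_lt_of_le (by positivity) hk
  have hX0 : 0 < X := lt_of_lt_of_le (by positivity) hX
  obtain ⟨hM0, hMb⟩ := M_facts hk
  obtain ⟨M1, E1⟩ := ext_of_adm hk hX hadm1 S1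
  obtain ⟨M2, E2⟩ := ext_of_adm hk hX hadm2 S2
  have hrr := rr_eq hk hX0
  set b := bb k with hb
  set U := Real.logb b X with hU
  have hb0 := E1.b0
  have hb1 := bb_gt hk
  have hU800 := E1.hU
  have hUX : b ^ U = X := by rw [hU, Real.rpow_logb hb0 hb1.ne' hX0]
  set p := pk k a1 b1 with hp
  set N := n1' with hN
  have hnN : n1 < N := E1.hnN
  have hnN2 : n2 < n2' := E2.hnN
  have hn60 := E1.n_ge
  -- comparison of the fields
  have hWc : ∀ m ≤ n1, W p m ≤ 6 * W (pk k a2 b2) m := by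
    intro m hm
    have h1 : W p m ≤ 3 / 2 * nf k a1 b1 m := W_le_N p m
    have h2 : nf k a2 b2 m ≤ W (pk k a2 b2) m := N_le_W _ m
    have h3 := (hcmp m hm).1
    linarith
  -- shadowing of `y` by `y2`
  have hsh := E1.shadow hM0 hMb (NL_fk hk0.le) (x := xorb k a1 b1) (y := xorb k l s1)
    (z := xorb k l s2) rfl (fun m _ => xorb_rel k a1 b1 m) (fun m _ => xorb_rel k l s1 m)
    (fun m _ => xorb_rel k l s2 m) hm1.right hm1.box rfl (by
      show |s2 - s1| ≤ 2 * rr b U
      rw [hrr, abs_sub_comm]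
      exact hs.trans hρ2)
  have hd12 : |s2 - s1| ≤ ρ := by rw [abs_sub_comm]; exact hs
  have hyy : ∀ m ≤ N + 1, |xorb k l s2 m - xorb k l s1 m| ≤ 2 * ρ * G p N m := by
    intro m hm
    have h1 := hsh.1 m hm
    have h2 := G_nonneg p N m
    have h3 : |xorb k l s2 1 - xorb k l s1 1| = |s2 - s1| := rfl
    rw [h3] at h1
    have h4 : 2 * |s2 - s1| * G p N m ≤ 2 * ρ * G p N m := by
      apply mul_le_mul_of_nonneg_right _ h2
      linarith
    linarith
  -- boxes for `w` and `w2`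
  have hbw := E1.box hM0 hMb (NL_fk hk0.le) (x := xorb k a1 b1) (y := xorb k l' s1')
    rfl (fun m _ => xorb_rel k a1 b1 m) (fun m _ => xorb_rel k l' s1' m) hm1'.right hm1'.box
  have hby := E1.box hM0 hMb (NL_fk hk0.le) (x := xorb k a1 b1) (y := xorb k l s1)
    rfl (fun m _ => xorb_rel k a1 b1 m) (fun m _ => xorb_rel k l s1 m) hm1.right hm1.box
  -- difference `w2 - y2`
  have hw2y2 : ∀ m, 1 ≤ m → m ≤ n2 → |xorb k l' s2' m - xorb k l s2 m| ≤
      3 * lw n2 (pk k a2 b2) (qk (dig k a2 b2) n2) m := by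
    intro m h1 h2
    have g1 := hm2.box m (Finset.mem_Icc.mpr ⟨h1, h2⟩)
    have g2 := hm2'.box m (Finset.mem_Icc.mpr ⟨h1, h2⟩)
    have g3 : |xorb k l' s2' m - xorb k l s2 m| ≤ |xorb k l' s2' m - xorb k a2 b2 m| +
        |xorb k l s2 m - xorb k a2 b2 m| := by
      have := abs_sub (xorb k l' s2' m - xorb k a2 b2 m) (xorb k l s2 m - xorb k a2 b2 m)
      rwa [sub_sub_sub_cancel_right] at this
    linarith
  have hbw2 : ∀ m, 1 ≤ m → m ≤ n1 → |xorb k l' s2' m - xorb k a1 b1 m| ≤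
      A b U n1 p m + 4 * rr b U * G p N m := by
    intro m h1 h2
    have g1 := hw2y2 m h1 (by omega)
    have g2 := lw_cmp E1 E2 h2 (by omega : m ≤ n2) (hWc m h2)
    have g3 := hyy m (by omega)
    have g4 := hby m h1 (by omega)
    have g5 : |xorb k l' s2' m - xorb k a1 b1 m| ≤ |xorb k l' s2' m - xorb k l s2 m| +
        |xorb k l s2 m - xorb k l s1 m| + |xorb k l s1 m - xorb k a1 b1 m| := by
      have t1 := abs_add_le (xorb k l' s2' m - xorb k l s2 m) (xorb k l s2 m - xorb k l s1 m)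
      have t2 := abs_add_le (xorb k l' s2' m - xorb k l s2 m + (xorb k l s2 m - xorb k l s1 m))
        (xorb k l s1 m - xorb k a1 b1 m)
      have e : xorb k l' s2' m - xorb k l s2 m + (xorb k l s2 m - xorb k l s1 m) +
          (xorb k l s1 m - xorb k a1 b1 m) = xorb k l' s2' m - xorb k a1 b1 m := by ring
      rw [e] at t2
      linarith
    have g6 : 2 * ρ * G p N m ≤ 4 * rr b U * G p N m := by
      apply mul_le_mul_of_nonneg_right _ (G_nonneg p N m)
      rw [hrr]
      linarith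
    linarith
  have hlin := lin_abs hM0 (NL_fk hk0.le) (N := n1) (x := xorb k a1 b1) (y := xorb k l' s1')
    (z := xorb k l' s2') (p := p) (Wh := G p N)
    (β := fun m => A b U n1 p m + 4 * rr b U * G p N m)
    (fun m _ => xorb_rel k l' s1' m) (fun m _ => xorb_rel k l' s2' m) rfl rfl (fun _ _ => rfl)
    (fun m _ => abs_le_G p rfl) rfl (by
      intro m h1 h2
      have g1 := hbw m h1 (by omega)
      have g2 := E1.A_nonneg m
      have g3 := G_nonneg p N m
      have g4 : 0 < rr b U := Real.rpow_pos_of_pos hb0 _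
      have g5 : 0 ≤ 4 * rr b U * G p N m := by positivity
      linarith) hbw2 (η := 1 / 16) (by norm_num)
    (fun m hm => E1.hsum hM0 hMb (by omega)) (n1 + 1) le_rfl
  have hd1 : xorb k l' s2' 1 - xorb k l' s1' 1 = s2' - s1' := rfl
  rw [hd1] at hlin
  -- the end
  have hPn : 0 < |p (n1 + 1)| := lt_of_lt_of_le hX0 S1.pn1
  have hGn : G p N (n1 + 1) ≤ 2 * |p (n1 + 1)| := by
    have h1 := G_le_pred p N (n1 + 1)
    rw [Nat.add_sub_cancel] at h1
    exact h1.trans E1.V.Dge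
  have hwy : xorb k l' s1' (n1 + 1) = xorb k l s1 (n1 + 1) := by rw [hm1'.right, hm1.right]
  have hend : |xorb k l' s2' (n1 + 1) - xorb k l' s1' (n1 + 1)| ≤ 4 * ρ * |p (n1 + 1)| +
      ρ * |p (n1 + 1)| := by
    rw [hwy]
    have g1 := hyy (n1 + 1) (by omega)
    have hρ0 : 0 ≤ ρ := (abs_nonneg _).trans hs
    have g2 : 2 * ρ * G p N (n1 + 1) ≤ 4 * ρ * |p (n1 + 1)| := by
      have := mul_le_mul_of_nonneg_left hGn (by linarith : 0 ≤ 2 * ρ)
      linarith
    have g3 : |xorb k l' s2' (n1 + 1) - xorb k l s2 (n1 + 1)| ≤ ρ * |p (n1 + 1)| := by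
      rcases Nat.eq_or_lt_of_le hn with he | hlt
      · rw [he, hm2'.right, hm2.right, sub_self, abs_zero]
        positivity
      · have h1 := hw2y2 (n1 + 1) (by omega) hlt
        have h2 := E2.V.lamB.g (n1 + 1) hlt
        have h3 := E2.w2 n1 (n1 + 1) (by omega) (by omega)
        -- the exponent at `n1`
        have h4 : U - 1 ≤ ex b (pk k a2 b2) n1 := by
          have g1 : X ≤ 4 * W (pk k a2 b2) n1 := by
            have t1 := S1.big
            have t2 := (hcmp n1 le_rfl).1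
            have t3 : nf k a2 b2 n1 ≤ W (pk k a2 b2) n1 := N_le_W _ n1
            linarith
          have g2 : b ^ (U - 1) ≤ b ^ ex b (pk k a2 b2) n1 := by
            rw [← E2.W_eq (by omega), Real.rpow_sub_one hb0.ne', hUX, div_le_iff₀ hb0]
            have t4 : (4 : ℝ) ≤ b := le_trans (by norm_num) E1.hb
            have t5 := W_nonneg (pk k a2 b2) n1
            nlinarith
          exact (Real.rpow_le_rpow_left_iff hb1).mp g2
        have h5 : 3 * (2 * b ^ (6 - 97 / 100 * ex b (pk k a2 b2) (n1 + 1))) ≤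
            b ^ (-(3 / 2 * U)) / 10 ^ 4 * b ^ U := by
          have t1 : b ^ (6 - 97 / 100 * ex b (pk k a2 b2) (n1 + 1)) ≤ b ^ (-1 + (-(3 / 2 * U) + U)) := by
            apply E1.mono
            linarith
          have t2 : b ^ (-1 + (-(3 / 2 * U) + U)) = b ^ (-1 : ℝ) * (b ^ (-(3 / 2 * U)) * b ^ U) := by
            rw [Real.rpow_add hb0, Real.rpow_add hb0]
          have t3 : b ^ (-1 : ℝ) ≤ 1 / 10 ^ 20 := by
            rw [Real.rpow_neg_one, inv_eq_one_div]
            exact one_div_le_one_div_of_le (by norm_num) E1.hb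
          have t4 : 0 ≤ b ^ (-(3 / 2 * U)) * b ^ U := by positivity
          have t5 := mul_le_mul_of_nonneg_right t3 t4
          rw [t2] at t1
          have t6 : b ^ (-(3 / 2 * U)) / 10 ^ 4 * b ^ U = 1 / 10 ^ 4 * (b ^ (-(3 / 2 * U)) * b ^ U) := by
            ring
          rw [t6]
          have t7 : 6 * (1 / 10 ^ 20 * (b ^ (-(3 / 2 * U)) * b ^ U)) ≤
              1 / 10 ^ 4 * (b ^ (-(3 / 2 * U)) * b ^ U) := by
            have : (6 : ℝ) * (1 / 10 ^ 20) ≤ 1 / 10 ^ 4 := by norm_num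
            nlinarith
          linarith
        have h6 : b ^ (-(3 / 2 * U)) = X ^ (-(3 / 2) : ℝ) := hrr
        rw [h6, hUX] at h5
        have h7 : X ^ (-(3 / 2) : ℝ) / 10 ^ 4 * X ≤ ρ * |p (n1 + 1)| :=
          mul_le_mul hρ1 S1.pn1 hX0.le hρ0
        linarith
    have g4 : |xorb k l' s2' (n1 + 1) - xorb k l s1 (n1 + 1)| ≤
        |xorb k l' s2' (n1 + 1) - xorb k l s2 (n1 + 1)| +
        |xorb k l s2 (n1 + 1) - xorb k l s1 (n1 + 1)| := by
      have := abs_add_le (xorb k l' s2' (n1 + 1) - xorb k l s2 (n1 + 1))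
        (xorb k l s2 (n1 + 1) - xorb k l s1 (n1 + 1))
      rwa [sub_add_sub_cancel] at this
    linarith
  have hfin : |s2' - s1'| * |p (n1 + 1)| ≤ 1 / 4 * (|s2' - s1'| * |p (n1 + 1)|) +
      5 * ρ * |p (n1 + 1)| := by
    have g1 : |(s2' - s1') * p (n1 + 1)| ≤
        |xorb k l' s2' (n1 + 1) - xorb k l' s1' (n1 + 1) - (s2' - s1') * p (n1 + 1)| +
        |xorb k l' s2' (n1 + 1) - xorb k l' s1' (n1 + 1)| := by
      have := abs_sub (xorb k l' s2' (n1 + 1) - xorb k l' s1' (n1 + 1))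
        (xorb k l' s2' (n1 + 1) - xorb k l' s1' (n1 + 1) - (s2' - s1') * p (n1 + 1))
      rw [sub_sub_cancel] at this
      linarith
    rw [abs_mul] at g1
    have g2 : 2 * (1 / 16) * (|s2' - s1'| * G p N (n1 + 1)) ≤ 1 / 4 * (|s2' - s1'| * |p (n1 + 1)|) := by
      have := mul_le_mul_of_nonneg_left hGn (abs_nonneg (s2' - s1'))
      linarith
    linarith
  have hfin2 : |s2' - s1'| * |p (n1 + 1)| ≤ 20 * ρ * |p (n1 + 1)| := by
    have hρ0 : 0 ≤ ρ := (abs_nonneg _).trans hs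
    have : 0 ≤ ρ * |p (n1 + 1)| := by positivity
    linarith
  have := le_of_mul_le_mul_right hfin2 hPn
  rwa [abs_sub_comm] at this

end Crest.Agent.R128.Shad
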