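/-
R128, node N6-SHADOW (helper796): a clean level (backward path from the foot `n` to the tip `0`)
is shadowed linearly on complex discs.  Part 1: sequences.
`q i = ‖A_{i→n}‖`, `R i` = norms of the field started at the tip.
-/
import Crest.Agent.R128.Disp
import Crest.Agent.R128.Chain

set_option autoImplicit false

open Finset

namespace Crest.Agent.R128.Shadow

/-- clean backward path from the foot `n` to time `0`; `q i` is the size of the transfer `i → n`. -/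
structure Clean (n : ℕ) (q : ℕ → ℝ) : Prop where
  one_le : ∀ i ≤ n, 1 ≤ q i
  c2 : ∀ i m, i ≤ m → m ≤ n → (q m) ^ (99 / 100 : ℝ) ≤ q i
  c3 : ∀ i < n, ((n - i : ℕ) : ℝ) ^ 2 ≤ (q i) ^ (1 / 100 : ℝ)

theorem sum_inv_sq_le (N : ℕ) : ∑ j ∈ range N, 1 / ((j : ℝ) + 1) ^ 2 ≤ 2 := by
  have h : ∀ N : ℕ, ∑ j ∈ range (N + 1), 1 / ((j : ℝ) + 1) ^ 2 ≤ 2 - 1 / ((N : ℝ) + 1) := by
    intro N
    induction N with
    | zero => norm_num
    | succ N ih =>
      rw [Finset.sum_range_succ]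
      have hN : (0 : ℝ) < (N : ℝ) + 1 := by positivity
      have h1 : 1 / (((N + 1 : ℕ) : ℝ) + 1) ^ 2 ≤ 1 / ((N : ℝ) + 1) - 1 / (((N + 1 : ℕ) : ℝ) + 1) := by
        push_cast
        rw [div_sub_div _ _ hN.ne' (by positivity), div_le_div_iff₀ (by positivity) (by positivity)]
        nlinarith [hN]
      linarith
  rcases N with _ | N
  · simp
  · have := h N
    have h2 : 0 ≤ 1 / ((N : ℝ) + 1) := by positivity
    linarith

theorem sum_inv_sq_rev_le {n M : ℕ} (hM : M ≤ n) :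
    ∑ i ∈ range M, 1 / (((n - i : ℕ) : ℝ)) ^ 2 ≤ 2 := by
  have h1 : ∑ i ∈ range M, 1 / (((n - i : ℕ) : ℝ)) ^ 2 ≤
      ∑ i ∈ range n, 1 / (((n - i : ℕ) : ℝ)) ^ 2 :=
    Finset.sum_le_sum_of_subset_of_nonneg (Finset.range_subset_range.mpr hM)
      (fun i _ _ => by positivity)
  refine h1.trans ?_
  have h2 := Finset.sum_range_reflect (fun j => 1 / ((j : ℝ) + 1) ^ 2) n
  have h3 : ∑ i ∈ range n, 1 / (((n - i : ℕ) : ℝ)) ^ 2 =
      ∑ j ∈ range n, 1 / (((n - 1 - j : ℕ) : ℝ) + 1) ^ 2 := by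
    refine Finset.sum_congr rfl fun i hi => ?_
    have := Finset.mem_range.1 hi
    have e : ((n - i : ℕ) : ℝ) = ((n - 1 - i : ℕ) : ℝ) + 1 := by
      have : n - i = (n - 1 - i) + 1 := by omega
      rw [this]; push_cast; ring
    rw [e]
  rw [h3, h2]
  exact sum_inv_sq_le n

variable {n : ℕ} {q : ℕ → ℝ}

/-- the basic summation of a clean path -/
theorem Clean.sum_pow (h : Clean n q) {θ : ℝ} (hθ : 0 ≤ θ) {m M : ℕ} (hm : m ≤ n) (hM : M ≤ n)
    (hmM : ∀ i < M, i ≤ m) :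
    ∑ i ∈ range M, (q i) ^ (-(θ + 1 / 100)) ≤ 2 * (q m) ^ (-(99 / 100 * θ)) := by
  have hqm : 1 ≤ q m := h.one_le m hm
  have hterm : ∀ i ∈ range M, (q i) ^ (-(θ + 1 / 100)) ≤
      (q m) ^ (-(99 / 100 * θ)) * (1 / (((n - i : ℕ) : ℝ)) ^ 2) := by
    intro i hi
    have hiM := Finset.mem_range.1 hi
    have hin : i < n := lt_of_lt_of_le hiM hM
    have hqi : 1 ≤ q i := h.one_le i hin.le
    have hqi0 : 0 < q i := by linarith
    have e1 : (q i) ^ (-(θ + 1 / 100)) = ((q i) ^ θ)⁻¹ * ((q i) ^ (1 / 100 : ℝ))⁻¹ := by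
      rw [Real.rpow_neg hqi0.le, Real.rpow_add hqi0, mul_inv]
    rw [e1]
    have hni : (0 : ℝ) < ((n - i : ℕ) : ℝ) := by
      have : 0 < n - i := by omega
      exact_mod_cast this
    have h1 : ((q i) ^ (1 / 100 : ℝ))⁻¹ ≤ 1 / (((n - i : ℕ) : ℝ)) ^ 2 := by
      have h5 := inv_anti₀ (pow_pos hni 2) (h.c3 i hin)
      rwa [← one_div (((n - i : ℕ) : ℝ) ^ 2)] at h5
    have h2 : ((q i) ^ θ)⁻¹ ≤ (q m) ^ (-(99 / 100 * θ)) := by
      rw [Real.rpow_neg (by linarith), Real.rpow_mul (by linarith)]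
      have h3 := h.c2 i m (hmM i hiM) hm
      have h4 : 0 < (q m) ^ (99 / 100 : ℝ) := Real.rpow_pos_of_pos (by linarith) _
      exact inv_anti₀ (Real.rpow_pos_of_pos h4 _) (Real.rpow_le_rpow h4.le h3 hθ)
    exact mul_le_mul h2 h1 (by positivity) (Real.rpow_nonneg (by linarith) _)
  refine (Finset.sum_le_sum hterm).trans ?_
  rw [← Finset.mul_sum, mul_comm]
  exact mul_le_mul_of_nonneg_right (sum_inv_sq_rev_le hM) (Real.rpow_nonneg (by linarith) _)

/-- (S1): the field from the tip decays away from the spine -/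
theorem Clean.R_le (h : Clean n q) {R : ℕ → ℝ} {C1 : ℝ} (hC1 : 1 ≤ C1) (hR0 : R 0 ≤ 1)
    (h1 : ∀ m, 0 < m → m ≤ n → R m ≤ C1 * q 0 * q m * ∑ i ∈ range m, 1 / (q i) ^ 2) :
    ∀ m ≤ n, R m ≤ 2 * C1 * q 0 * (q m) ^ (-(97 / 100) : ℝ) := by
  intro m hm
  have hq0 : 1 ≤ q 0 := h.one_le 0 (Nat.zero_le n)
  have hqm : 1 ≤ q m := h.one_le m hm
  rcases Nat.eq_zero_or_pos m with rfl | hpos
  · refine hR0.trans ?_
    have h2 : 1 ≤ q 0 * (q 0) ^ (-(97 / 100) : ℝ) := by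
      have e : q 0 * (q 0) ^ (-(97 / 100) : ℝ) = (q 0) ^ (3 / 100 : ℝ) := by
        conv_lhs => rw [← Real.rpow_one (q 0)]
        rw [Real.rpow_one, ← Real.rpow_one_add' (by linarith) (by norm_num)]
        norm_num
      rw [e]
      exact Real.one_le_rpow hq0 (by norm_num)
    nlinarith
  · have hs := h.sum_pow (θ := 199 / 100) (by norm_num) hm hm (fun i hi => hi.le)
    have e2 : ∑ i ∈ range m, 1 / (q i) ^ 2 = ∑ i ∈ range m, (q i) ^ (-(199 / 100 + 1 / 100) : ℝ) := by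
      refine Finset.sum_congr rfl fun i hi => ?_
      have hi' : i ≤ n := (Finset.mem_range.1 hi).le.trans hm
      have hqi : 1 ≤ q i := h.one_le i hi'
      rw [show (-(199 / 100 + 1 / 100) : ℝ) = -((2 : ℕ) : ℝ) by norm_num,
        Real.rpow_neg (by linarith), Real.rpow_natCast, one_div]
    have h3 := h1 m hpos hm
    rw [e2] at h3
    refine h3.trans ?_
    have hA : 0 ≤ C1 * q 0 * q m := by positivity
    calc C1 * q 0 * q m * ∑ i ∈ range m, (q i) ^ (-(199 / 100 + 1 / 100) : ℝ)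
        ≤ C1 * q 0 * q m * (2 * (q m) ^ (-(99 / 100 * (199 / 100)) : ℝ)) :=
          mul_le_mul_of_nonneg_left hs hA
      _ = 2 * C1 * q 0 * (q m * (q m) ^ (-(99 / 100 * (199 / 100)) : ℝ)) := by ring
      _ ≤ 2 * C1 * q 0 * (q m) ^ (-(97 / 100) : ℝ) := by
          refine mul_le_mul_of_nonneg_left ?_ (by positivity)
          rw [← Real.rpow_one_add' (by linarith) (by norm_num)]
          exact Real.rpow_le_rpow_of_exponent_le hqm (by norm_num)

/-- (S2): the sum of the displacement lemma -/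
theorem Clean.Sg_le (h : Clean n q) {R : ℕ → ℝ} {C1 β c0 : ℝ} (hC1 : 1 ≤ C1) (hβ : 1 ≤ β)
    (hc0 : 0 < c0) (hR0 : R 0 ≤ 1) (hRn : ∀ i ≤ n, 0 ≤ R i)
    (h1 : ∀ m, 0 < m → m ≤ n → R m ≤ C1 * q 0 * q m * ∑ i ∈ range m, 1 / (q i) ^ 2)
    (h2 : ∀ i ≤ n, c0 * q 0 ≤ q i * R i)
    (h3 : ∀ i < n, R i ≤ β * R (i + 1)) :
    ∀ m ≤ n, ∑ i ∈ range m, (∑ j ∈ range (i + 1), R j ^ 3) / (R i * R (i + 1)) ≤
      32 * C1 ^ 3 * β / c0 ^ 2 * q 0 * (q m) ^ (-(85 / 100) : ℝ) := by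
  intro m hm
  have hq0 : 1 ≤ q 0 := h.one_le 0 (Nat.zero_le n)
  have hRle := h.R_le hC1 hR0 h1
  have hterm : ∀ i ∈ range m, (∑ j ∈ range (i + 1), R j ^ 3) / (R i * R (i + 1)) ≤
      16 * C1 ^ 3 * β / c0 ^ 2 * q 0 * (q i) ^ (-(861 / 1000 + 1 / 100) : ℝ) := by
    intro i hi
    have hin : i < n := lt_of_lt_of_le (Finset.mem_range.1 hi) hm
    have hqi : 1 ≤ q i := h.one_le i hin.le
    have hqi0 : 0 < q i := by linarith
    have hcub : ∑ j ∈ range (i + 1), R j ^ 3 ≤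
        8 * C1 ^ 3 * q 0 ^ 3 * (2 * (q i) ^ (-(99 / 100 * (29 / 10)) : ℝ)) := by
      have hs := h.sum_pow (θ := 29 / 10) (by norm_num) hin.le (by omega : i + 1 ≤ n)
        (fun j hj => by omega)
      calc ∑ j ∈ range (i + 1), R j ^ 3
          ≤ ∑ j ∈ range (i + 1), 8 * C1 ^ 3 * q 0 ^ 3 * (q j) ^ (-(29 / 10 + 1 / 100) : ℝ) := by
            refine Finset.sum_le_sum fun j hj => ?_
            have hjn : j ≤ n := by have := Finset.mem_range.1 hj; omega
            have hqj : 1 ≤ q j := h.one_le j hjn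
            calc R j ^ 3 ≤ (2 * C1 * q 0 * (q j) ^ (-(97 / 100) : ℝ)) ^ 3 :=
                  pow_le_pow_left₀ (hRn j hjn) (hRle j hjn) 3
              _ = 8 * C1 ^ 3 * q 0 ^ 3 * ((q j) ^ (-(97 / 100) : ℝ)) ^ 3 := by ring
              _ = 8 * C1 ^ 3 * q 0 ^ 3 * (q j) ^ (-(29 / 10 + 1 / 100) : ℝ) := by
                  have e5 : ((q j) ^ (-(97 / 100) : ℝ)) ^ 3 = (q j) ^ (-(29 / 10 + 1 / 100) : ℝ) := by
                    rw [← Real.rpow_natCast ((q j) ^ (-(97 / 100) : ℝ)) 3,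
                      ← Real.rpow_mul (by linarith)]
                    norm_num
                  rw [e5]
        _ = 8 * C1 ^ 3 * q 0 ^ 3 * ∑ j ∈ range (i + 1), (q j) ^ (-(29 / 10 + 1 / 100) : ℝ) := by
            rw [Finset.mul_sum]
        _ ≤ _ := mul_le_mul_of_nonneg_left hs (by positivity)
    have hRi : 0 < R i := by
      have := h2 i hin.le
      have h5 : 0 < q i * R i := lt_of_lt_of_le (by positivity) this
      exact (pos_iff_pos_of_mul_pos h5).1 hqi0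
    have hRi1 : 0 < R (i + 1) := by
      have := h3 i hin
      by_contra hcon
      push Not at hcon
      have : R i ≤ 0 := this.trans (mul_nonpos_of_nonneg_of_nonpos (by linarith) hcon)
      linarith
    -- 1/(R i R (i+1)) ≤ β / R i ^ 2 ≤ β q i^2 / (c0 q0)^2
    have hinv : 1 / (R i * R (i + 1)) ≤ β * q i ^ 2 / (c0 * q 0) ^ 2 := by
      rw [div_le_div_iff₀ (by positivity) (by positivity), one_mul]
      have h6 : (c0 * q 0) ^ 2 ≤ (q i * R i) ^ 2 :=
        pow_le_pow_left₀ (by positivity) (h2 i hin.le) 2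
      calc (c0 * q 0) ^ 2 ≤ (q i * R i) ^ 2 := h6
        _ = q i ^ 2 * R i * R i := by ring
        _ ≤ q i ^ 2 * R i * (β * R (i + 1)) := by
            refine mul_le_mul_of_nonneg_left (h3 i hin) (by positivity)
        _ = β * q i ^ 2 * (R i * R (i + 1)) := by ring
    calc (∑ j ∈ range (i + 1), R j ^ 3) / (R i * R (i + 1))
        = (∑ j ∈ range (i + 1), R j ^ 3) * (1 / (R i * R (i + 1))) := by ring
      _ ≤ (8 * C1 ^ 3 * q 0 ^ 3 * (2 * (q i) ^ (-(99 / 100 * (29 / 10)) : ℝ))) *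
          (β * q i ^ 2 / (c0 * q 0) ^ 2) :=
          mul_le_mul hcub hinv (by positivity) (by positivity)
      _ = 16 * C1 ^ 3 * β / c0 ^ 2 * q 0 * (q i ^ 2 * (q i) ^ (-(99 / 100 * (29 / 10)) : ℝ)) := by
          field_simp
          ring
      _ = _ := by
          have e6 : q i ^ 2 * (q i) ^ (-(99 / 100 * (29 / 10)) : ℝ) =
              (q i) ^ (-(861 / 1000 + 1 / 100) : ℝ) := by
            rw [← Real.rpow_natCast (q i) 2, ← Real.rpow_add hqi0]
            norm_num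
          rw [e6]
  have hs := h.sum_pow (θ := 861 / 1000) (by norm_num) hm hm (fun i hi => hi.le)
  calc _ ≤ ∑ i ∈ range m, 16 * C1 ^ 3 * β / c0 ^ 2 * q 0 * (q i) ^ (-(861 / 1000 + 1 / 100) : ℝ) :=
        Finset.sum_le_sum hterm
    _ = 16 * C1 ^ 3 * β / c0 ^ 2 * q 0 * ∑ i ∈ range m, (q i) ^ (-(861 / 1000 + 1 / 100) : ℝ) := by
        rw [Finset.mul_sum]
    _ ≤ 16 * C1 ^ 3 * β / c0 ^ 2 * q 0 * (2 * (q m) ^ (-(99 / 100 * (861 / 1000)) : ℝ)) :=
        mul_le_mul_of_nonneg_left hs (by positivity)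
    _ ≤ 16 * C1 ^ 3 * β / c0 ^ 2 * q 0 * (2 * (q m) ^ (-(85 / 100) : ℝ)) := by
        refine mul_le_mul_of_nonneg_left ?_ (by positivity)
        refine mul_le_mul_of_nonneg_left ?_ (by norm_num)
        exact Real.rpow_le_rpow_of_exponent_le (h.one_le m hm) (by norm_num)
    _ = _ := by ring

end Crest.Agent.R128.Shadow
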