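import Mathlib
import Crest.Agent.R128.AccSeq

/-!
# Row 128: deterministic accounting with shares (helper141)

The down-crossings of a sequence are charged to the record increments (shares) of the excursions
instead of their exact tops.
-/

set_option autoImplicit false
open Finset

namespace Crest.Agent.R128.Share
open Crest.Agent.R128.Acc

/-- running maximum, at least `1/2`, of `y` from `a` on -/
noncomputable def run (y : ℕ → ℝ) (a : ℕ) : ℕ → ℝ
  | 0 => max (1 / 2) (y a)
  | (i + 1) => max (run y a i) (y (a + i + 1))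

theorem run_half (y : ℕ → ℝ) (a i : ℕ) : 1 / 2 ≤ run y a i := by
  induction i with
  | zero => exact le_max_left _ _
  | succ i ih => exact ih.trans (le_max_left _ _)

theorem run_ge (y : ℕ → ℝ) (a i l : ℕ) (h : l ≤ i) : y (a + l) ≤ run y a i := by
  induction i with
  | zero =>
    have : l = 0 := by omega
    subst this
    exact le_max_right _ _
  | succ i ih =>
    rcases Nat.lt_or_ge i l with h' | h'
    · have : l = i + 1 := by omega
      subst this
      exact le_max_right _ _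
    · exact (ih h').trans (le_max_left _ _)

theorem run_le_succ (y : ℕ → ℝ) (a i : ℕ) : run y a i ≤ run y a (i + 1) := le_max_left _ _

theorem run_succ_of_lt (y : ℕ → ℝ) (a i : ℕ) (h : run y a i < run y a (i + 1)) :
    run y a (i + 1) = y (a + i + 1) := by
  rcases max_cases (run y a i) (y (a + i + 1)) with ⟨h1, h2⟩ | ⟨h1, h2⟩
  · have : run y a (i + 1) = run y a i := h1
    linarith
  · exact h1

/-- `m` has a share `s` of an excursion of depth `≥ r κ` -/
def Rec (β : ℕ → ℝ) (κ : ℝ) (N r m : ℕ) (s : ℝ) : Prop :=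
  ∃ (a b : ℕ) (M : ℝ), a < m ∧ m < b ∧ b ≤ N ∧ β a ≤ M - r * κ ∧ β b ≤ M - r * κ ∧
    (∀ l, a ≤ l → l ≤ b → β l ≤ M) ∧ 1 / 2 + s / 2 ≤ Real.exp (β m - M) ∧
    ∀ l, a ≤ l → l < m → Real.exp (β l - M) + s / 2 ≤ Real.exp (β m - M)

/-- the shares of one excursion sum to one -/
theorem one_le_sum {β : ℕ → ℝ} {κ : ℝ} {N r : ℕ} (hκ : Real.log 2 ≤ κ) (hr : 1 ≤ r) {a t n : ℕ}
    (hat : a < t) (htn : t ≤ n) (hnN : n < N)
    (ha : β a ≤ β t - r * κ) (hb : β (n + 1) ≤ β t - r * κ)
    (hm : ∀ m, a ≤ m → m ≤ n + 1 → β m ≤ β t) (g : ℕ → ℝ) (hg0 : ∀ m, 0 ≤ g m)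
    (hg : ∀ m s, Rec β κ N r m s → s ≤ g m) : 1 ≤ ∑ m ∈ Ioc a n, g m := by
  set y : ℕ → ℝ := fun l => Real.exp (β l - β t) with hy
  have h0 : run y a 0 ≤ 1 / 2 := by
    apply max_le le_rfl
    have hl2 : 0 < Real.log 2 := Real.log_pos (by norm_num)
    have hr' : (1 : ℝ) ≤ r := by exact_mod_cast hr
    have h1 : β a - β t ≤ -Real.log 2 := by nlinarith
    have h2 := Real.exp_le_exp.mpr h1
    rw [Real.exp_neg, Real.exp_log (by norm_num)] at h2
    simp only [hy]
    linarith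
  have h1 : 1 ≤ run y a (n - a) := by
    have := run_ge y a (n - a) (t - a) (by omega)
    rw [show a + (t - a) = t by omega] at this
    simp only [hy, sub_self, Real.exp_zero] at this
    exact this
  have h2 : ∀ i < n - a, 2 * (run y a (i + 1) - run y a i) ≤ g (a + i + 1) := by
    intro i hi
    rcases (run_le_succ y a i).eq_or_lt with h3 | h3
    · rw [h3, sub_self, mul_zero]
      exact hg0 _
    · have h4 := run_succ_of_lt y a i h3
      apply hg
      refine ⟨a, n + 1, β t, by omega, by omega, by omega, ha, hb, hm, ?_, ?_⟩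
      · change _ ≤ y (a + i + 1)
        rw [← h4]
        have := run_half y a i
        linarith
      · intro l h5 h6
        change y l + _ ≤ y (a + i + 1)
        rw [← h4]
        have := run_ge y a i (l - a) (by omega)
        rw [show a + (l - a) = l by omega] at this
        linarith
  have h3 : ∑ m ∈ Ioc a n, g m = ∑ i ∈ range (n - a), g (a + i + 1) := by
    have : Ioc a n = (range (n - a)).image (fun i => a + i + 1) := by
      ext m
      simp only [Finset.mem_Ioc, Finset.mem_image, Finset.mem_range]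
      constructor
      · intro h
        exact ⟨m - a - 1, by omega, by omega⟩
      · rintro ⟨i, hi, rfl⟩
        omega
    rw [this, Finset.sum_image]
    intro i _ j _ h
    simp only at h
    omega
  rw [h3]
  calc (1 : ℝ) ≤ 2 * (run y a (n - a) - run y a 0) := by linarith
    _ = ∑ i ∈ range (n - a), 2 * (run y a (i + 1) - run y a i) := by
      rw [← Finset.mul_sum, Finset.sum_range_sub]
    _ ≤ _ := Finset.sum_le_sum fun i hi => h2 i (Finset.mem_range.mp hi)

open Classical in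
theorem crossings_le {β : ℕ → ℝ} {κ : ℝ} (hκ : Real.log 2 ≤ κ) (h0 : β 0 = 0) (N R : ℕ)
    (hR : ∀ t, t < N → β t ≤ R * κ) (g : ℕ → ℕ → ℝ) (hg0 : ∀ r m, 0 ≤ g r m)
    (hg : ∀ r m s, 1 ≤ r → Rec β κ N r m s → s ≤ g r m) :
    ((∑ n ∈ range N, (⌈β n / κ⌉₊ - ⌈β (n + 1) / κ⌉₊) : ℕ) : ℝ) ≤
      (#{t ∈ range N | Top β κ N t 0} : ℝ) + ∑ r ∈ Ico 1 R, ∑ m ∈ range N, g r m := by
  have hκ0 : 0 < κ := (Real.log_pos (by norm_num)).trans_le hκ
  set P := (range N).sigma (fun n => Finset.Ico ⌈β (n + 1) / κ⌉₊ ⌈β n / κ⌉₊) with hP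
  have hcross : ∀ p ∈ P, p.1 < N ∧ β (p.1 + 1) ≤ p.2 * κ ∧ p.2 * κ < β p.1 := by
    rintro ⟨n, j⟩ hp
    rw [hP, Finset.mem_sigma, Finset.mem_Ico, Finset.mem_range] at hp
    obtain ⟨hn, h1, h2⟩ := hp
    refine ⟨hn, ?_, ?_⟩
    · rwa [Nat.ceil_le, div_le_iff₀ hκ0] at h1
    · rwa [Nat.lt_ceil, lt_div_iff₀ hκ0] at h2
  have key : ∀ p : Σ _ : ℕ, ℕ, ∃ q : ℕ × ℕ, p ∈ P →
      q.1 < q.2 ∧ q.2 ≤ p.1 ∧ β q.1 ≤ p.2 * κ ∧ (∀ m, q.1 < m → m ≤ p.1 → p.2 * κ < β m) ∧
      (∀ m, q.1 ≤ m → m ≤ p.1 + 1 → β m ≤ β q.2) ∧ β (q.2 - 1) < β q.2 := by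
    intro p
    by_cases hp : p ∈ P
    · obtain ⟨_, h1, h2⟩ := hcross p hp
      obtain ⟨a, t, H⟩ := exists_top hκ0 h0 h1 h2
      exact ⟨(a, t), fun _ => H⟩
    · exact ⟨(0, 0), fun h => absurd h hp⟩
  choose q hq using key
  set A : (Σ _ : ℕ, ℕ) → ℕ := fun p => (q p).1 with hA
  set t : (Σ _ : ℕ, ℕ) → ℕ := fun p => (q p).2 with ht
  set rr : (Σ _ : ℕ, ℕ) → ℕ := fun p => ⌈β (t p) / κ⌉₊ - 1 - p.2 with hrr
  have hprop : ∀ p ∈ P, A p < t p ∧ t p ≤ p.1 ∧ β (A p) ≤ p.2 * κ ∧
      (∀ m, A p < m → m ≤ p.1 → p.2 * κ < β m) ∧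
      (∀ m, A p ≤ m → m ≤ p.1 + 1 → β m ≤ β (t p)) ∧ β (t p - 1) < β (t p) := fun p hp => hq p hp
  have hrr1 : ∀ p ∈ P, p.2 + rr p + 1 = ⌈β (t p) / κ⌉₊ := by
    intro p hp
    obtain ⟨h1, h2, h3, h4, h5, h6⟩ := hprop p hp
    have : p.2 < ⌈β (t p) / κ⌉₊ := by
      rw [Nat.lt_ceil, lt_div_iff₀ hκ0]
      exact h4 _ h1 h2
    simp only [hrr]
    omega
  have hrrR : ∀ p ∈ P, rr p < R := by
    intro p hp
    obtain ⟨h1, h2, h3, h4, h5, h6⟩ := hprop p hp
    have hcR : ⌈β (t p) / κ⌉₊ ≤ R := by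
      rw [Nat.ceil_le, div_le_iff₀ hκ0]
      exact hR _ (by have := (hcross p hp).1; omega)
    have := hrr1 p hp
    omega
  have hdeep : ∀ p ∈ P, (p.2 : ℝ) * κ ≤ β (t p) - rr p * κ := by
    intro p hp
    have e : ((⌈β (t p) / κ⌉₊ : ℕ) : ℝ) = p.2 + rr p + 1 := by
      have := hrr1 p hp
      exact_mod_cast this.symm
    have hpos : 0 ≤ β (t p) := by
      obtain ⟨h1, h2, h3, h4, h5, h6⟩ := hprop p hp
      have := h4 _ h1 h2
      have h7 : (0:ℝ) ≤ (p.2 : ℝ) * κ := by positivity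
      linarith
    have hcl : (⌈β (t p) / κ⌉₊ : ℝ) < β (t p) / κ + 1 := Nat.ceil_lt_add_one (by positivity)
    rw [e] at hcl
    have h8 : (p.2 : ℝ) + rr p < β (t p) / κ := by linarith
    rw [lt_div_iff₀ hκ0] at h8
    linarith
  -- disjointness
  have hdisj : ∀ p ∈ P, ∀ p' ∈ P, rr p = rr p' → ∀ m, m ∈ Ioc (A p) p.1 → m ∈ Ioc (A p') p'.1 →
      p = p' := by
    have aux : ∀ p ∈ P, ∀ p' ∈ P, rr p = rr p' → ∀ m, m ∈ Ioc (A p) p.1 → m ∈ Ioc (A p') p'.1 →
        ¬ p.2 < p'.2 := by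
      intro p hp p' hp' hr m hm hm' hlt
      rw [Finset.mem_Ioc] at hm hm'
      obtain ⟨h1, h2, h3, h4, h5, h6⟩ := hprop p hp
      obtain ⟨h1', h2', h3', h4', h5', h6'⟩ := hprop p' hp'
      have hc := hcross p hp
      have hjj : (p.2 : ℝ) * κ < p'.2 * κ := by
        apply mul_lt_mul_of_pos_right _ hκ0
        exact_mod_cast hlt
      have e1 : A p ≤ A p' := by
        by_contra hcon
        push Not at hcon
        have := h4' (A p) hcon (by omega)
        linarith
      have e2 : p'.1 < p.1 + 1 := by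
        by_contra hcon
        push Not at hcon
        have := h4' (p.1 + 1) (by omega) hcon
        linarith [hc.2.1]
      have e3 := h5 (t p') (by omega) (by omega)
      have e4 : ⌈β (t p') / κ⌉₊ ≤ ⌈β (t p) / κ⌉₊ :=
        Nat.ceil_mono (div_le_div_of_nonneg_right e3 hκ0.le)
      have e5 := hrr1 p hp
      have e6 := hrr1 p' hp'
      omega
    intro p hp p' hp' hr m hm hm'
    have hj : p.2 = p'.2 := by
      have a1 := aux p hp p' hp' hr m hm hm'
      have a2 := aux p' hp' p hp hr.symm m hm' hm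
      omega
    rw [Finset.mem_Ioc] at hm hm'
    obtain ⟨h1, h2, h3, h4, h5, h6⟩ := hprop p hp
    obtain ⟨h1', h2', h3', h4', h5', h6'⟩ := hprop p' hp'
    have hc := hcross p hp
    have hc' := hcross p' hp'
    have en : p.1 = p'.1 := by
      rcases lt_trichotomy p.1 p'.1 with hlt | heq | hlt
      · have := h4' (p.1 + 1) (by omega) (by omega)
        rw [← hj] at this
        linarith [hc.2.1]
      · exact heq
      · have := h4 (p'.1 + 1) (by omega) (by omega)
        rw [hj] at this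
        linarith [hc'.2.1]
    exact Sigma.ext en (heq_of_eq hj)
  have hcard : ∑ n ∈ range N, (⌈β n / κ⌉₊ - ⌈β (n + 1) / κ⌉₊) = #P := by
    rw [hP, Finset.card_sigma]
    simp
  have hfib : #P = ∑ r ∈ range R, #{p ∈ P | rr p = r} :=
    Finset.card_eq_sum_card_fiberwise (fun p hp => by
      have := hrrR p hp
      exact Finset.mem_coe.mpr (Finset.mem_range.mpr this))
  rw [hcard, hfib]
  push_cast
  have hzero : (#{p ∈ P | rr p = 0} : ℝ) ≤ #{t ∈ range N | Top β κ N t 0} := by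
    have : #{p ∈ P | rr p = 0} ≤ #{t ∈ range N | Top β κ N t 0} := by
      apply Finset.card_le_card_of_injOn t
      · intro p hp
        rw [Finset.mem_coe, Finset.mem_filter] at hp
        obtain ⟨h1, h2, h3, h4, h5, h6⟩ := hprop p hp.1
        have hc := hcross p hp.1
        have hd := hdeep p hp.1
        rw [hp.2] at hd
        rw [Finset.mem_coe, Finset.mem_filter, Finset.mem_range]
        exact ⟨by omega, A p, p.1 + 1, h1, by omega, by omega, by linarith, by linarith [hc.2.1],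
          h5, h6⟩
      · intro p hp p' hp' h
        rw [Finset.mem_coe, Finset.mem_filter] at hp hp'
        obtain ⟨h1, h2, h3, h4, h5, h6⟩ := hprop p hp.1
        obtain ⟨h1', h2', h3', h4', h5', h6'⟩ := hprop p' hp'.1
        refine hdisj p hp.1 p' hp'.1 (by rw [hp.2, hp'.2]) (t p) ?_ ?_
        · rw [Finset.mem_Ioc]
          exact ⟨h1, h2⟩
        · rw [Finset.mem_Ioc, h]
          exact ⟨h1', h2'⟩
    exact_mod_cast this
  have hpos : ∀ r, 1 ≤ r → (#{p ∈ P | rr p = r} : ℝ) ≤ ∑ m ∈ range N, g r m := by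
    intro r hr
    have h1 : ∀ p ∈ P.filter (fun p => rr p = r), (1 : ℝ) ≤ ∑ m ∈ Ioc (A p) p.1, g r m := by
      intro p hp
      rw [Finset.mem_filter] at hp
      obtain ⟨h1, h2, h3, h4, h5, h6⟩ := hprop p hp.1
      have hc := hcross p hp.1
      have hd := hdeep p hp.1
      rw [hp.2] at hd
      exact one_le_sum hκ hr h1 h2 hc.1 (by linarith) (by linarith [hc.2.1]) h5 (g r) (hg0 r)
        (fun m s => hg r m s hr)
    have h2 : (#{p ∈ P | rr p = r} : ℝ) ≤
        ∑ p ∈ P.filter (fun p => rr p = r), ∑ m ∈ Ioc (A p) p.1, g r m := by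
      have := Finset.sum_le_sum h1
      simpa using this
    refine h2.trans ?_
    rw [← Finset.sum_biUnion]
    · apply Finset.sum_le_sum_of_subset_of_nonneg
      · intro m hm
        rw [Finset.mem_biUnion] at hm
        obtain ⟨p, hp, hm⟩ := hm
        rw [Finset.mem_filter] at hp
        rw [Finset.mem_Ioc] at hm
        rw [Finset.mem_range]
        have := (hcross p hp.1).1
        omega
      · intro m _ _
        exact hg0 r m
    · intro p hp p' hp' hne
      rw [Finset.mem_coe, Finset.mem_filter] at hp hp'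
      rw [Function.onFun, Finset.disjoint_left]
      intro m hm hm'
      exact hne (hdisj p hp.1 p' hp'.1 (by rw [hp.2, hp'.2]) m hm hm')
  rcases Nat.eq_zero_or_pos R with h | h
  · subst h
    simp only [Finset.range_zero, Finset.sum_empty]
    rw [Finset.Ico_eq_empty (by omega), Finset.sum_empty]
    positivity
  · rw [Finset.sum_range_eq_add_Ico _ h]
    have := Finset.sum_le_sum fun r (hr : r ∈ Ico 1 R) => hpos r (Finset.mem_Ico.mp hr).1
    linarith

end Crest.Agent.R128.Share
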