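import Mathlib
import Crest.Agent.R128.ShareSeq

/-!
# Row 128: deterministic accounting with shares, second part (helper141; proofs of helper485 with the
tops replaced by shares)
-/

set_option autoImplicit false
open Finset

namespace Crest.Agent.R128.Share
open Crest.Agent.R128.Acc

open Classical in
/-- total descent -/
theorem down_le {β : ℕ → ℝ} {κ L D : ℝ} (hκ : 0 < κ) (hβ : ∀ n, 0 ≤ β n)
    (hL0 : 0 ≤ L) (N : ℕ)
    (hD : ((∑ n ∈ range N, (⌈β n / κ⌉₊ - ⌈β (n + 1) / κ⌉₊) : ℕ) : ℝ) ≤ D) (bad : ℕ → Prop)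
    (hL : ∀ n, β n - β (n + 1) ≤ L)
    (hgood : ∀ n, ¬ bad n → β (n + 1) < β n → κ ≤ β n - β (n + 1)) :
    ∑ n ∈ range N, max 0 (β n - β (n + 1)) ≤
      2 * κ * D + L * #{n ∈ range N | bad n} := by
  have h1 : (∑ n ∈ range N, ((⌈β n / κ⌉₊ - ⌈β (n + 1) / κ⌉₊ : ℕ) : ℝ)) ≤ D := by
    exact_mod_cast hD
  have h2 : ∀ n, max 0 (β n - β (n + 1)) ≤
      2 * κ * ((⌈β n / κ⌉₊ - ⌈β (n + 1) / κ⌉₊ : ℕ) : ℝ) + L * (if bad n then 1 else 0) := by
    intro n
    have hc0 : (0 : ℝ) ≤ ((⌈β n / κ⌉₊ - ⌈β (n + 1) / κ⌉₊ : ℕ) : ℝ) := Nat.cast_nonneg _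
    have hκc : 0 ≤ 2 * κ * ((⌈β n / κ⌉₊ - ⌈β (n + 1) / κ⌉₊ : ℕ) : ℝ) := by positivity
    by_cases hb : bad n
    · simp only [hb, if_true]
      refine max_le (by linarith) ?_
      linarith [hL n]
    · simp only [hb, if_false]
      rcases le_or_gt (β n) (β (n + 1)) with h | h
      · refine max_le (by linarith) (by linarith)
      · have h3 := hgood n hb h
        have hle : ⌈β (n + 1) / κ⌉₊ + 1 ≤ ⌈β n / κ⌉₊ := by
          rw [← Nat.ceil_add_one (div_nonneg (hβ _) hκ.le)]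
          apply Nat.ceil_mono
          rw [← div_self hκ.ne', ← add_div]
          exact div_le_div_of_nonneg_right (by linarith) hκ.le
        have e : (((⌈β n / κ⌉₊ - ⌈β (n + 1) / κ⌉₊ : ℕ)) : ℝ) =
            (⌈β n / κ⌉₊ : ℝ) - ⌈β (n + 1) / κ⌉₊ := by
          rw [Nat.cast_sub (by omega)]
        have c1 : β n / κ ≤ ⌈β n / κ⌉₊ := Nat.le_ceil _
        have c2 : (⌈β (n + 1) / κ⌉₊ : ℝ) < β (n + 1) / κ + 1 :=
          Nat.ceil_lt_add_one (div_nonneg (hβ _) hκ.le)
        have c3 : (1 : ℝ) ≤ (⌈β n / κ⌉₊ : ℝ) - ⌈β (n + 1) / κ⌉₊ := by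
          have : ((⌈β (n + 1) / κ⌉₊ + 1 : ℕ) : ℝ) ≤ ⌈β n / κ⌉₊ := by exact_mod_cast hle
          push_cast at this
          linarith
        have c4 : (β n - β (n + 1)) ≤ κ * ((⌈β n / κ⌉₊ : ℝ) - ⌈β (n + 1) / κ⌉₊ + 1) := by
          have : (β n - β (n + 1)) / κ ≤ (⌈β n / κ⌉₊ : ℝ) - ⌈β (n + 1) / κ⌉₊ + 1 := by
            rw [sub_div]
            linarith
          rw [div_le_iff₀ hκ] at this
          linarith
        rw [e]
        refine max_le (by nlinarith) ?_
        nlinarith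
  calc ∑ n ∈ range N, max 0 (β n - β (n + 1)) ≤
      ∑ n ∈ range N, (2 * κ * ((⌈β n / κ⌉₊ - ⌈β (n + 1) / κ⌉₊ : ℕ) : ℝ) +
        L * (if bad n then 1 else 0)) := Finset.sum_le_sum fun n _ => h2 n
    _ = 2 * κ * (∑ n ∈ range N, ((⌈β n / κ⌉₊ - ⌈β (n + 1) / κ⌉₊ : ℕ) : ℝ)) +
        L * #{n ∈ range N | bad n} := by
      rw [Finset.sum_add_distrib, ← Finset.mul_sum, ← Finset.mul_sum]
      congr 2
      simp
    _ ≤ _ := by
      have : 0 ≤ 2 * κ := by positivity
      nlinarith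

variable {ρ V : ℕ → ℝ} {L κ : ℝ}

open Classical in
/-- **deterministic accounting with shares** -/
theorem accounting (hV : ∀ n, 0 ≤ V n) (hρ : ∀ n, 0 < ρ n)
    (h1 : ∀ n, V n * ρ (n + 1) ≤ ρ (n + 2) + ρ n)
    (h2 : ∀ n, ρ (n + 2) ≤ V n * ρ (n + 1) + ρ n)
    (h3 : ∀ n, ρ n ≤ V n * ρ (n + 1) + ρ (n + 2))
    (h4 : ∀ n, 1 ≤ ρ n * ρ (n + 1)) (h00 : ρ 0 = 1) (h01 : ρ 1 = 1)
    (hL : ∀ n, Real.log (1 + V n) ≤ L) (hκ2 : Real.log 2 ≤ κ) (N R : ℕ) (hR : N * L ≤ R * κ)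
    (g : ℕ → ℕ → ℝ) (hg0 : ∀ r m, 0 ≤ g r m)
    (hg : ∀ r m s, 1 ≤ r → Rec (bt ρ) κ N r m s → s ≤ g r m) :
    (∑ n ∈ range N, gn (V n)) - (5 * L + 4 * κ) * #{n ∈ range N | V n < Real.exp κ + 1}
      - 4 * κ * ∑ r ∈ Ico 1 R, ∑ m ∈ range N, g r m ≤ bt ρ N := by
  have hκ : 0 < κ := (Real.log_pos (by norm_num)).trans_le hκ2
  have hL0 : 0 ≤ L := (Real.log_nonneg (by linarith [hV 0])).trans (hL 0)
  have hb0 : bt ρ 0 = 0 := by
    unfold bt
    rw [zero_add, h00, h01]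
    simp
  have hbn := bt_nonneg hρ h4
  have hbL : ∀ n, bt ρ n ≤ n * L := by
    intro n
    induction n with
    | zero => rw [hb0]; simp
    | succ n ih =>
      have := bt_succ_le hV hρ h2 hL n
      push_cast
      linarith
  have hRt : ∀ t, t < N → bt ρ t ≤ R * κ := by
    intro t ht
    refine (hbL t).trans (le_trans ?_ hR)
    have : (t : ℝ) ≤ N := by exact_mod_cast ht.le
    nlinarith
  have he2 : (2 : ℝ) ≤ Real.exp κ + 1 := by linarith [Real.add_one_le_exp κ]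
  -- counting
  set B : ℝ := (#{n ∈ range N | V n < Real.exp κ + 1} : ℝ) with hB
  have hB2 : (#{n ∈ range N | V n < 2} : ℝ) ≤ B := by
    rw [hB]
    have : #{n ∈ range N | V n < 2} ≤ #{n ∈ range N | V n < Real.exp κ + 1} := by
      apply Finset.card_le_card
      intro n hn
      rw [Finset.mem_filter] at hn ⊢
      exact ⟨hn.1, by linarith [hn.2]⟩
    exact_mod_cast this
  have hVal := (valleys_le hρ h1 (by rw [h00, h01]) N).trans hB2
  -- bad steps
  have hbad : ∀ bad : ℕ → Prop, (∀ n, bad n → V n < Real.exp κ + 1 ∨ Val ρ n) →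
      (#{n ∈ range N | bad n} : ℝ) ≤ 2 * B := by
    intro bad hb
    have : #{n ∈ range N | bad n} ≤
        #{n ∈ range N | V n < Real.exp κ + 1} + #{n ∈ range N | Val ρ n} := by
      refine le_trans (Finset.card_le_card ?_) (Finset.card_union_le _ _)
      intro n hn
      rw [Finset.mem_filter] at hn
      rw [Finset.mem_union, Finset.mem_filter, Finset.mem_filter]
      rcases hb n hn.2 with h | h
      · exact Or.inl ⟨hn.1, h⟩
      · exact Or.inr ⟨hn.1, h⟩
    have h' : (#{n ∈ range N | bad n} : ℝ) ≤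
        B + #{n ∈ range N | Val ρ n} := by
      rw [hB]
      exact_mod_cast this
    linarith
  have htop0 : (#{t ∈ range N | Top (bt ρ) κ N t 0} : ℝ) ≤ B := by
    refine le_trans ?_ hB2
    have : #{t ∈ range N | Top (bt ρ) κ N t 0} ≤ #{n ∈ range N | V n < 2} := by
      apply Finset.card_le_card
      intro n hn
      rw [Finset.mem_filter] at hn ⊢
      exact ⟨hn.1, top_zero hρ h1 hn.2⟩
    exact_mod_cast this
  have hcr := crossings_le hκ2 hb0 N R hRt g hg0 hg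
  have hdown := down_le (β := bt ρ) (L := L)
    (D := B + ∑ r ∈ Ico 1 R, ∑ m ∈ range N, g r m) hκ hbn hL0 N (by linarith)
    (fun n => V n < Real.exp κ + 1 ∨ Val ρ n)
    (fun n => by linarith [bt_le_succ hV hρ h3 hL n])
    (by
      intro n hn hlt
      push Not at hn
      have h5 := step_abs hρ h1 (by linarith [hn.1]) hn.2
      have h6 : κ ≤ Real.log (V n - 1) := by
        rw [Real.le_log_iff_exp_le (by linarith [Real.exp_pos κ, hn.1])]
        linarith [hn.1]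
      rw [abs_of_neg (by linarith)] at h5
      linarith)
  -- total variation
  have hvar : ∀ n, gn (V n) - L * (if Val ρ n then 1 else 0) ≤ |bt ρ (n + 1) - bt ρ n| := by
    intro n
    unfold gn
    by_cases h5 : V n < 2
    · rw [if_pos h5]
      have : 0 ≤ L * (if Val ρ n then (1 : ℝ) else 0) := by
        apply mul_nonneg hL0
        split_ifs <;> norm_num
      linarith [abs_nonneg (bt ρ (n + 1) - bt ρ n)]
    · rw [if_neg h5]
      push Not at h5
      by_cases h6 : Val ρ n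
      · rw [if_pos h6]
        have : Real.log (V n - 1) ≤ L :=
          (Real.log_le_log (by linarith) (by linarith)).trans (hL n)
        linarith [abs_nonneg (bt ρ (n + 1) - bt ρ n)]
      · rw [if_neg h6]
        linarith [step_abs hρ h1 h5 h6]
  have hvar2 := Finset.sum_le_sum fun n (_ : n ∈ range N) => hvar n
  rw [Finset.sum_sub_distrib, ← Finset.mul_sum, Finset.sum_boole] at hvar2
  have hid : bt ρ N = ∑ n ∈ range N, |bt ρ (n + 1) - bt ρ n| -
      2 * ∑ n ∈ range N, max 0 (bt ρ n - bt ρ (n + 1)) := by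
    have : bt ρ N = ∑ n ∈ range N, (bt ρ (n + 1) - bt ρ n) := by
      rw [Finset.sum_range_sub, hb0, sub_zero]
    rw [this, Finset.mul_sum, ← Finset.sum_sub_distrib]
    refine Finset.sum_congr rfl fun n _ => ?_
    rcases le_total (bt ρ n) (bt ρ (n + 1)) with h | h
    · rw [abs_of_nonneg (by linarith), max_eq_left (by linarith)]
      ring
    · rw [abs_of_nonpos (by linarith), max_eq_right (by linarith)]
      ring
  have hmul2 := mul_le_mul_of_nonneg_left (hbad (fun n => V n < Real.exp κ + 1 ∨ Val ρ n)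
    fun n h => h) hL0
  have hmul3 := mul_le_mul_of_nonneg_left hVal hL0
  rw [hid]
  nlinarith

end Crest.Agent.R128.Share
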