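import Mathlib
import Crest.Agent.R128.ShareDef
import Crest.Agent.R128.ShareAcc

/-!
# Row 128, part A with shares (helper141)

`result_of_weights`: S0172 follows from `∑ l, ∫ W k (l log k) N ≤ 1/10`.
-/

set_option autoImplicit false
open MeasureTheory Filter Topology Finset
open Crest.AnalysisR.StandardFamily
open Crest.Agent.R128.Acc

namespace Crest.Agent.R128.Share

/-! ## Measurability -/

theorem continuous_act_Mn (k : ℝ) (m : ℕ) :
    Continuous fun q : Tor × (ℝ × ℝ) => act (Mn k m q.1) q.2 := by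
  have h : ∀ i j, Continuous fun q : Tor × (ℝ × ℝ) => Mn k m q.1 i j := fun i j =>
    ((continuous_Mn k m).comp continuous_fst).matrix_elem i j
  unfold act
  fun_prop (disch := assumption)

/-- the pairs (start of the window, vector) -/
def PS (k h s : ℝ) (i j : ℕ) : Set (Tor × (ℝ × ℝ)) :=
  {q | ‖q.2‖ ≤ Real.exp (-h) ∧ (∀ m, m ≤ i + j → ‖act (Mn k m q.1) q.2‖ ≤ 1) ∧
    ‖act (Mn k (i + j) q.1) q.2‖ ≤ Real.exp (-h) ∧
    1 / 2 + s / 2 ≤ ‖act (Mn k i q.1) q.2‖ ∧
    (∀ m, m < i → ‖act (Mn k m q.1) q.2‖ + s / 2 ≤ ‖act (Mn k i q.1) q.2‖)}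

theorem isClosed_PS (k h s : ℝ) (i j : ℕ) : IsClosed (PS k h s i j) := by
  have hc : ∀ m, Continuous fun q : Tor × (ℝ × ℝ) => ‖act (Mn k m q.1) q.2‖ :=
    fun m => (continuous_act_Mn k m).norm
  have h1 : IsClosed {q : Tor × (ℝ × ℝ) | ‖q.2‖ ≤ Real.exp (-h)} :=
    isClosed_le continuous_snd.norm continuous_const
  have h2 : IsClosed {q : Tor × (ℝ × ℝ) | ∀ m, m ≤ i + j → ‖act (Mn k m q.1) q.2‖ ≤ 1} := by
    have : {q : Tor × (ℝ × ℝ) | ∀ m, m ≤ i + j → ‖act (Mn k m q.1) q.2‖ ≤ 1} =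
        ⋂ m : ℕ, ⋂ _ : m ≤ i + j, {q : Tor × (ℝ × ℝ) | ‖act (Mn k m q.1) q.2‖ ≤ 1} := by
      ext q
      simp
    rw [this]
    exact isClosed_iInter fun m => isClosed_iInter fun _ => isClosed_le (hc m) continuous_const
  have h3 : IsClosed {q : Tor × (ℝ × ℝ) | ‖act (Mn k (i + j) q.1) q.2‖ ≤ Real.exp (-h)} :=
    isClosed_le (hc _) continuous_const
  have h4 : IsClosed {q : Tor × (ℝ × ℝ) | 1 / 2 + s / 2 ≤ ‖act (Mn k i q.1) q.2‖} :=
    isClosed_le continuous_const (hc _)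
  have h5 : IsClosed {q : Tor × (ℝ × ℝ) | ∀ m, m < i →
      ‖act (Mn k m q.1) q.2‖ + s / 2 ≤ ‖act (Mn k i q.1) q.2‖} := by
    have : {q : Tor × (ℝ × ℝ) | ∀ m, m < i →
        ‖act (Mn k m q.1) q.2‖ + s / 2 ≤ ‖act (Mn k i q.1) q.2‖} =
        ⋂ m : ℕ, ⋂ _ : m < i, {q : Tor × (ℝ × ℝ) |
          ‖act (Mn k m q.1) q.2‖ + s / 2 ≤ ‖act (Mn k i q.1) q.2‖} := by
      ext q
      simp
    rw [this]
    exact isClosed_iInter fun m => isClosed_iInter fun _ =>
      isClosed_le ((hc m).add continuous_const) (hc _)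
  exact h1.inter (h2.inter (h3.inter (h4.inter h5)))

theorem isCompact_PS (k h s : ℝ) (i j : ℕ) : IsCompact (PS k h s i j) := by
  apply IsCompact.of_isClosed_subset
    (isCompact_univ.prod (isCompact_closedBall (0 : ℝ × ℝ) (Real.exp (-h)))) (isClosed_PS k h s i j)
  intro q hq
  refine ⟨Set.mem_univ _, ?_⟩
  rw [mem_closedBall_zero_iff]
  exact hq.1

theorem isClosed_SH (k h : ℝ) (N : ℕ) (s : ℝ) : IsClosed {z | SH k h N z s} := by
  have e : {z | SH k h N z s} = ⋃ i ∈ Set.Icc 1 N, ⋃ j ∈ Set.Icc 1 N,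
      (fun q : Tor × (ℝ × ℝ) => (T k)^[i] q.1) '' PS k h s i j := by
    ext z
    simp only [Set.mem_iUnion, Set.mem_image, Set.mem_Icc]
    constructor
    · rintro ⟨i, j, h1, h2, h3, h4, z', w, h5, h6, h7, h8, h9, h10⟩
      exact ⟨i, ⟨h1, h2⟩, j, ⟨h3, h4⟩, (z', w), ⟨h6, h7, h8, h9, h10⟩, h5⟩
    · rintro ⟨i, ⟨h1, h2⟩, j, ⟨h3, h4⟩, ⟨z', w⟩, ⟨h6, h7, h8, h9, h10⟩, h5⟩
      exact ⟨i, j, h1, h2, h3, h4, z', w, h5, h6, h7, h8, h9, h10⟩
  rw [e]
  refine (Set.finite_Icc 1 N).isClosed_biUnion fun i _ =>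
    (Set.finite_Icc 1 N).isClosed_biUnion fun j _ => ?_
  exact ((isCompact_PS k h s i j).image (((continuous_T k).iterate i).comp continuous_fst)).isClosed

theorem lt_W_iff {k h : ℝ} {N : ℕ} {z : Tor} {s : ℝ} (hs : 0 ≤ s) :
    s < W k h N z ↔ ∃ s', s < s' ∧ SH k h N z s' := by
  constructor
  · intro H
    unfold W at H
    obtain ⟨s', hs', H'⟩ := exists_lt_of_lt_csSup ⟨(0:ℝ), Or.inl rfl⟩ H
    rcases hs' with rfl | hs'
    · exact absurd H' (not_lt.mpr hs)
    · exact ⟨s', H', hs'.2⟩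
  · rintro ⟨s', h1, h2⟩
    exact h1.trans_le h2.le_W

theorem measurable_W (k h : ℝ) (N : ℕ) : Measurable (W k h N) := by
  apply measurable_of_Ioi
  intro s
  rcases lt_or_ge s 0 with hs | hs
  · have : W k h N ⁻¹' Set.Ioi s = Set.univ := by
      ext z
      simp only [Set.mem_preimage, Set.mem_Ioi, Set.mem_univ, iff_true]
      exact hs.trans_le (W_nonneg _ _ _ _)
    rw [this]
    exact MeasurableSet.univ
  · have : W k h N ⁻¹' Set.Ioi s = ⋃ n : ℕ, {z | SH k h N z (s + 1 / ((n : ℝ) + 1))} := by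
      ext z
      simp only [Set.mem_preimage, Set.mem_Ioi, Set.mem_iUnion]
      rw [lt_W_iff hs]
      constructor
      · rintro ⟨s', h1, h2⟩
        obtain ⟨n, hn⟩ := exists_nat_one_div_lt (sub_pos.2 h1)
        exact ⟨n, h2.mono le_rfl le_rfl (by linarith)⟩
      · rintro ⟨n, hn⟩
        exact ⟨_, by have : (0:ℝ) < 1 / ((n : ℝ) + 1) := by positivity
                     linarith, hn⟩
    rw [this]
    exact MeasurableSet.iUnion fun n => (isClosed_SH k h N _).measurableSet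

theorem integrable_W (k h : ℝ) (N : ℕ) : Integrable (W k h N) (volume : Measure Tor) := by
  apply Integrable.of_bound (measurable_W k h N).aestronglyMeasurable 1
  refine Filter.Eventually.of_forall fun z => ?_
  rw [Real.norm_of_nonneg (W_nonneg _ _ _ _)]
  exact W_le_one _ _ _ _

theorem W_anti {k h h' : ℝ} (hh : h' ≤ h) (N : ℕ) (z : Tor) : W k h N z ≤ W k h' N z := by
  unfold W
  refine csSup_le_csSup (bdd k h' N z) ⟨0, Or.inl rfl⟩ ?_
  rintro s (rfl | ⟨h0, hs⟩)
  · exact Or.inl rfl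
  · exact Or.inr ⟨h0, hs.mono hh le_rfl le_rfl⟩

theorem W_mono_N {k h : ℝ} {N N' : ℕ} (hN : N ≤ N') (z : Tor) : W k h N z ≤ W k h N' z := by
  unfold W
  refine csSup_le_csSup (bdd k h N' z) ⟨0, Or.inl rfl⟩ ?_
  rintro s (rfl | ⟨h0, hs⟩)
  · exact Or.inl rfl
  · exact Or.inr ⟨h0, hs.mono le_rfl hN le_rfl⟩

/-- total weight -/
noncomputable def NW (k h : ℝ) (N : ℕ) : ℝ := ∫ z : Tor, W k h N z

theorem NW_nonneg (k h : ℝ) (N : ℕ) : 0 ≤ NW k h N := integral_nonneg fun _ => W_nonneg _ _ _ _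

theorem NW_anti {k h h' : ℝ} (hh : h' ≤ h) (N : ℕ) : NW k h N ≤ NW k h' N :=
  integral_mono (integrable_W _ _ _) (integrable_W _ _ _) fun z => W_anti hh N z

theorem NW_le {k : ℝ} (hk : 1 ≤ k) (h : ℝ) (N : ℕ) : NW k h N ≤ 3 / k := by
  have hB : MeasurableSet {z : Tor | |V k z.2| ≤ 3} :=
    (isClosed_le ((continuous_V k).comp continuous_snd).abs continuous_const).measurableSet
  have h1 : NW k h N ≤ ∫ z : Tor, ({z : Tor | |V k z.2| ≤ 3}).indicator (fun _ => (1:ℝ)) z := by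
    apply integral_mono (integrable_W _ _ _) ((integrable_const (1:ℝ)).indicator hB)
    intro z
    rw [Set.indicator_apply]
    split_ifs with hz
    · exact W_le_one _ _ _ _
    · exact (W_eq_zero (not_le.mp hz)).le
  rw [integral_indicator hB] at h1
  simp only [integral_const, smul_eq_mul, mul_one, measureReal_restrict_apply_univ] at h1
  exact h1.trans (volumeReal_V_le hk (by norm_num))

/-! ## Shares of the norm sequence are shares of vectors -/

theorem SH_of_Rec {k κ : ℝ} {z : Tor} {N m r : ℕ} {s : ℝ} (h : Rec (bt (rr k z)) κ N r m s) :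
    SH k (r * κ) N ((T k)^[m] z) s := by
  obtain ⟨a, b, M, ham, hmb, hbN, ha, hb, hM, hs, hp⟩ := h
  obtain ⟨e, he1, he2⟩ := exists_max (Mn k m z)
  have hnm : max (rn (Mn k m z) 0) (rn (Mn k m z) 1) = nm k m z := by
    unfold nm
    rw [rr_succ]
    rfl
  rw [hnm] at he2
  have hp' := nm_pos k m z
  have he3 : ‖act (Mn k m z) e‖ = nm k m z := by
    apply le_antisymm _ he2
    refine (norm_act_Mn_le k m z e).trans ?_
    nlinarith
  have hpM : 0 < Real.exp M := Real.exp_pos M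
  have key : ∀ l, ‖act (Mn k l z) ((Real.exp M)⁻¹ • e)‖ ≤
      Real.exp (bt (rr k z) l - M) := by
    intro l
    rw [act_smul, norm_smul, Real.exp_sub, exp_bt, norm_inv, Real.norm_of_nonneg hpM.le,
      div_eq_inv_mul]
    apply mul_le_mul_of_nonneg_left _ (inv_nonneg.mpr hpM.le)
    refine (norm_act_Mn_le k l z e).trans ?_
    have := (nm_pos k l z)
    nlinarith
  have keym : ‖act (Mn k m z) ((Real.exp M)⁻¹ • e)‖ = Real.exp (bt (rr k z) m - M) := by
    rw [act_smul, norm_smul, Real.exp_sub, exp_bt, norm_inv, Real.norm_of_nonneg hpM.le,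
      div_eq_inv_mul, he3]
  refine ⟨m - a, b - m, by omega, by omega, by omega, by omega, (T k)^[a] z,
    act (Mn k a z) ((Real.exp M)⁻¹ • e), ?_, ?_, ?_, ?_, ?_, ?_⟩
  · rw [← Function.iterate_add_apply]
    congr 1
    omega
  · exact (key a).trans (Real.exp_le_exp.mpr (by linarith))
  · intro l hl
    rw [← act_mul, ← Mn_add]
    refine (key (l + a)).trans ?_
    rw [← Real.exp_zero]
    apply Real.exp_le_exp.mpr
    have := hM (l + a) (by omega) (by omega)
    linarith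
  · rw [← act_mul, ← Mn_add, show m - a + (b - m) + a = b by omega]
    exact (key b).trans (Real.exp_le_exp.mpr (by linarith))
  · rw [← act_mul, ← Mn_add, show m - a + a = m by omega, keym]
    exact hs
  · intro l hl
    rw [← act_mul, ← Mn_add, ← act_mul, ← Mn_add, show m - a + a = m by omega, keym]
    have := hp (l + a) (by omega) (by omega)
    linarith [key (l + a)]

open Classical in
theorem pointwise {k κ : ℝ} (hk : 0 ≤ k) (hκ : Real.log 2 ≤ κ) (z : Tor) (N R : ℕ)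
    (hR : N * Real.log (3 + 2 * Real.pi * k) ≤ R * κ) :
    (∑ n ∈ range N, (lm k 1 ((T k)^[n] z) - Real.log 2)) -
      (5 * Real.log (3 + 2 * Real.pi * k) + 4 * κ) *
        #{n ∈ range N | dg k z n < Real.exp κ + 1}
      - 4 * κ * ∑ r ∈ Ico 1 R, ∑ t ∈ range N, W k (r * κ) N ((T k)^[t] z)
      ≤ lm k N z + Real.log 2 := by
  have h := accounting (ρ := rr k z) (V := dg k z) (L := Real.log (3 + 2 * Real.pi * k)) (κ := κ)
    (fun n => abs_nonneg _) (rr_pos k z) (rr_h1 k z) (rr_h2 k z) (rr_h3 k z) (rr_h4 k z)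
    (rr_zero k z) (rr_one k z)
    (fun n => Real.log_le_log (by have := abs_nonneg (V k ((T k)^[n] z).2); unfold dg; linarith)
      (by linarith [dg_le k hk z n])) hκ N R hR
    (fun r m => W k (r * κ) N ((T k)^[m] z)) (fun r m => W_nonneg _ _ _ _)
    (fun r m s _ hs => (SH_of_Rec hs).le_W)
  have h1 := bt_le_lm k N z
  have h2 : (∑ n ∈ range N, (lm k 1 ((T k)^[n] z) - Real.log 2)) ≤
      ∑ n ∈ range N, gn (dg k z n) := Finset.sum_le_sum fun n _ => gn_ge k _
  linarith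

/-- **integrated accounting** -/
theorem integrated {k κ : ℝ} (hk : 1 ≤ k) (hκ : Real.log 2 ≤ κ) (N R : ℕ)
    (hR : N * Real.log (3 + 2 * Real.pi * k) ≤ R * κ) :
    N * (Real.log k - 3 - Real.log 2
      - (5 * Real.log (3 + 2 * Real.pi * k) + 4 * κ) * ((Real.exp κ + 1) / k)
      - 4 * κ * ∑ r ∈ Ico 1 R, NW k (r * κ) N) - Real.log 2 ≤ ∫ z : Tor, lm k N z := by
  classical
  have hκ0 : 0 < κ := (Real.log_pos (by norm_num)).trans_le hκ
  set c1 := 5 * Real.log (3 + 2 * Real.pi * k) + 4 * κ with hc1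
  have hc1n : 0 ≤ c1 := by
    have : 0 ≤ Real.log (3 + 2 * Real.pi * k) := Real.log_nonneg (by
      have : 0 ≤ 2 * Real.pi * k := by positivity
      linarith)
    positivity
  set B : Set Tor := {z | |V k z.2| ≤ Real.exp κ + 1} with hB
  have hBm : MeasurableSet B :=
    (isClosed_le ((continuous_V k).comp continuous_snd).abs continuous_const).measurableSet
  have hBI : Integrable (B.indicator (fun _ => (1:ℝ))) (volume : Measure Tor) :=
    (integrable_const (1:ℝ)).indicator hBm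
  have hlI : Integrable (fun z => lm k 1 z - Real.log 2) (volume : Measure Tor) :=
    (integrable_lm k 1).sub (integrable_const _)
  have hpt : ∀ z : Tor, (∑ n ∈ range N, (lm k 1 ((T k)^[n] z) - Real.log 2)) -
      c1 * (∑ n ∈ range N, B.indicator (fun _ => (1:ℝ)) ((T k)^[n] z))
      - 4 * κ * (∑ r ∈ Ico 1 R, ∑ n ∈ range N, W k (r * κ) N ((T k)^[n] z))
      ≤ lm k N z + Real.log 2 := by
    intro z
    refine le_trans ?_ (pointwise (by linarith) hκ z N R hR)
    have e1 : (#{n ∈ range N | dg k z n < Real.exp κ + 1} : ℝ) ≤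
        ∑ n ∈ range N, B.indicator (fun _ => (1:ℝ)) ((T k)^[n] z) := by
      rw [Finset.card_filter]
      push_cast
      refine Finset.sum_le_sum fun n _ => ?_
      rw [Set.indicator_apply]
      split_ifs with h1 h2 h2
      · exact le_rfl
      · exact absurd h1.le h2
      · norm_num
      · exact le_rfl
    have e3 := mul_le_mul_of_nonneg_left e1 hc1n
    linarith
  have i1 : Integrable (fun z : Tor => ∑ n ∈ range N, (lm k 1 ((T k)^[n] z) - Real.log 2)) volume :=
    integrable_finsetSum _ fun n _ => integrable_comp_iter n hlI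
  have i2 : Integrable (fun z : Tor => c1 * ∑ n ∈ range N, B.indicator (fun _ => (1:ℝ))
      ((T k)^[n] z)) volume :=
    (integrable_finsetSum _ fun n _ => integrable_comp_iter n hBI).const_mul _
  have i3 : Integrable (fun z : Tor => 4 * κ * ∑ r ∈ Ico 1 R, ∑ n ∈ range N,
      W k (r * κ) N ((T k)^[n] z)) volume :=
    (integrable_finsetSum _ fun (r : ℕ) _ => integrable_finsetSum _ fun n _ =>
      integrable_comp_iter (k := k) n (integrable_W k ((r : ℝ) * κ) N)).const_mul _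
  have hI : ∫ z : Tor, ((∑ n ∈ range N, (lm k 1 ((T k)^[n] z) - Real.log 2)) -
      c1 * (∑ n ∈ range N, B.indicator (fun _ => (1:ℝ)) ((T k)^[n] z))
      - 4 * κ * (∑ r ∈ Ico 1 R, ∑ n ∈ range N, W k (r * κ) N ((T k)^[n] z)))
      ≤ ∫ z : Tor, (lm k N z + Real.log 2) :=
    integral_mono ((i1.sub i2).sub i3) ((integrable_lm k N).add (integrable_const _)) hpt
  have j1 : ∫ z : Tor, ∑ n ∈ range N, (lm k 1 ((T k)^[n] z) - Real.log 2) =
      N * ((∫ z : Tor, lm k 1 z) - Real.log 2) := by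
    rw [integral_finsetSum _ fun n _ => integrable_comp_iter n hlI]
    have : ∀ n, ∫ z : Tor, (lm k 1 ((T k)^[n] z) - Real.log 2) =
        (∫ z : Tor, lm k 1 z) - Real.log 2 := by
      intro n
      rw [integral_comp_iter (f := fun z => lm k 1 z - Real.log 2) n hlI.aestronglyMeasurable,
        integral_sub (integrable_lm k 1) (integrable_const _)]
      simp
    rw [Finset.sum_congr rfl fun n _ => this n]
    simp only [Finset.sum_const, Finset.card_range, nsmul_eq_mul]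
  have j2 : ∫ z : Tor, c1 * ∑ n ∈ range N, B.indicator (fun _ => (1:ℝ)) ((T k)^[n] z) =
      c1 * (N * (volume : Measure Tor).real B) := by
    rw [integral_const_mul, integral_finsetSum _ fun n _ => integrable_comp_iter n hBI]
    have : ∀ n, ∫ z : Tor, B.indicator (fun _ => (1:ℝ)) ((T k)^[n] z) =
        (volume : Measure Tor).real B := by
      intro n
      rw [integral_comp_iter (f := B.indicator (fun _ => (1:ℝ))) n hBI.aestronglyMeasurable,
        integral_indicator hBm]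
      simp
    rw [Finset.sum_congr rfl fun n _ => this n]
    simp
  have j3 : ∫ z : Tor, 4 * κ * ∑ r ∈ Ico 1 R, ∑ n ∈ range N, W k (r * κ) N ((T k)^[n] z) =
      4 * κ * (N * ∑ r ∈ Ico 1 R, NW k (r * κ) N) := by
    rw [integral_const_mul, integral_finsetSum _ fun (r : ℕ) _ => integrable_finsetSum _ fun n _ =>
      integrable_comp_iter (k := k) n (integrable_W k ((r : ℝ) * κ) N)]
    congr 1
    rw [Finset.mul_sum]
    refine Finset.sum_congr rfl fun r _ => ?_
    rw [integral_finsetSum _ fun n _ => integrable_comp_iter (k := k) n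
      (integrable_W k ((r : ℝ) * κ) N)]
    have : ∀ n, ∫ z : Tor, W k (r * κ) N ((T k)^[n] z) = NW k (r * κ) N := by
      intro n
      rw [integral_comp_iter (f := W k (r * κ) N) n (integrable_W k (r * κ) N).aestronglyMeasurable]
      rfl
    rw [Finset.sum_congr rfl fun n _ => this n]
    simp
  have k1 := integral_sub (i1.sub i2) i3
  have k2 := integral_sub i1 i2
  simp only [Pi.sub_apply] at k1 k2
  rw [k1, k2, j1, j2, j3, integral_add (integrable_lm k N) (integrable_const _)] at hI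
  simp only [integral_const, probReal_univ, smul_eq_mul, one_mul] at hI
  have hl := log_sub_le_integral_lm_one hk
  have hBv : (volume : Measure Tor).real B ≤ (Real.exp κ + 1) / k :=
    volumeReal_V_le hk (by positivity)
  have hN : (0 : ℝ) ≤ N := Nat.cast_nonneg N
  have a1 := mul_le_mul_of_nonneg_left hl hN
  have a2 := mul_le_mul_of_nonneg_left (mul_le_mul_of_nonneg_left hBv hc1n) hN
  nlinarith

theorem sum_NW_half {k : ℝ} (hk : 1 ≤ k) (N R : ℕ) :
    ∑ r ∈ Ico 1 (2 * (R + 1)), NW k (r * (Real.log k / 2)) N ≤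
      3 / k + 2 * ∑ l ∈ Ico 1 (R + 1), NW k (l * Real.log k) N := by
  have hl : 0 ≤ Real.log k := Real.log_nonneg hk
  induction R with
  | zero =>
    simp only [zero_add, mul_one, Finset.Ico_self, Finset.sum_empty, mul_zero, add_zero]
    rw [show Ico 1 2 = {1} from rfl, Finset.sum_singleton]
    exact NW_le hk _ _
  | succ R ih =>
    rw [show 2 * (R + 1 + 1) = 2 * (R + 1) + 1 + 1 by ring,
      Finset.sum_Ico_succ_top (by omega), Finset.sum_Ico_succ_top (by omega),
      Finset.sum_Ico_succ_top (by omega : 1 ≤ R + 1)]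
    have a : NW k (((2 * (R + 1) : ℕ) : ℝ) * (Real.log k / 2)) N ≤
        NW k (((R + 1 : ℕ) : ℝ) * Real.log k) N := by
      apply le_of_eq
      congr 1
      push_cast
      ring
    have b : NW k (((2 * (R + 1) + 1 : ℕ) : ℝ) * (Real.log k / 2)) N ≤
        NW k (((R + 1 : ℕ) : ℝ) * Real.log k) N := by
      apply NW_anti
      push_cast
      nlinarith
    linarith

/-- **Part A.** It is enough to bound the total weight by `1/10`. -/
theorem torus_of_weights
    (H : ∃ k₁ : ℝ, ∀ k : ℝ, k₁ ≤ k → ∃ᶠ N : ℕ in atTop, ∀ R : ℕ,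
      ∑ l ∈ Ico 1 R, NW k (l * Real.log k) N ≤ 1 / 10) :
    ∃ k₀ : ℝ, 0 < k₀ ∧ ∀ k : ℝ, k₀ ≤ k → ∃ c : ℝ, 0 < c ∧
      ∃ᶠ n : ℕ in atTop, c * n ≤ ∫ z : Tor, lm k n z := by
  obtain ⟨k₁, H⟩ := H
  refine ⟨max k₁ (Real.exp 100), lt_max_of_lt_right (Real.exp_pos _), fun k hk => ?_⟩
  have hk1 : k₁ ≤ k := (le_max_left _ _).trans hk
  have hk2 : Real.exp 100 ≤ k := (le_max_right _ _).trans hk
  have hk0 : 0 < k := (Real.exp_pos _).trans_le hk2
  set x := Real.log k with hx
  have hx100 : 100 ≤ x := by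
    rw [hx, Real.le_log_iff_exp_le hk0]
    exact hk2
  have hk' : 1 ≤ k := by
    have := Real.add_one_le_exp 100
    linarith
  have hkx : k = Real.exp x := (Real.exp_log hk0).symm
  refine ⟨1, one_pos, ((H k hk1).and_eventually (eventually_ge_atTop 1)).mono ?_⟩
  rintro N ⟨hN, hN1⟩
  have hlog2 : Real.log 2 ≤ 1 := by
    have := Real.log_le_sub_one_of_pos (by norm_num : (0:ℝ) < 2)
    linarith
  set κ := x / 2 with hκ
  have hκ0 : 0 < κ := by linarith
  have hκ2 : Real.log 2 ≤ κ := by linarith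
  obtain ⟨R, hR⟩ := exists_nat_ge (N * Real.log (3 + 2 * Real.pi * k) / κ)
  have hR2 : N * Real.log (3 + 2 * Real.pi * k) ≤ ((2 * (R + 1) : ℕ) : ℝ) * κ := by
    rw [div_le_iff₀ hκ0] at hR
    push_cast
    have : (0 : ℝ) ≤ R := Nat.cast_nonneg R
    nlinarith
  have h := integrated hk' hκ2 N (2 * (R + 1)) hR2
  have h1 := sum_NW_half hk' N R
  have h2 := hN (R + 1)
  rw [← hx] at h1 h2 h
  rw [← hκ] at h1
  set Sg := ∑ r ∈ Ico 1 (2 * (R + 1)), NW k (r * κ) N
  have hSg : Sg ≤ 3 / k + 1 / 5 := by linarith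
  have hNr : (1 : ℝ) ≤ N := by exact_mod_cast hN1
  have hpi := Real.pi_lt_d2
  have hpi0 := Real.pi_pos
  have hL : Real.log (3 + 2 * Real.pi * k) ≤ x + 9 := by
    have a : 3 + 2 * Real.pi * k ≤ 10 * k := by nlinarith
    have b := Real.log_le_log (by positivity) a
    rw [Real.log_mul (by norm_num) hk0.ne'] at b
    have c := Real.log_le_sub_one_of_pos (by norm_num : (0:ℝ) < 10)
    linarith
  have hL0 : 0 ≤ Real.log (3 + 2 * Real.pi * k) := Real.log_nonneg (by
    have : 0 ≤ 2 * Real.pi * k := by positivity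
    linarith)
  have he : x ^ 2 / 8 ≤ Real.exp κ := by
    have := Real.quadratic_le_exp_of_nonneg hκ0.le
    rw [hκ] at this ⊢
    nlinarith
  have hkk : k = Real.exp κ * Real.exp κ := by
    rw [← Real.exp_add, hκ, add_halves]
    exact hkx
  have heκ : 0 < Real.exp κ := Real.exp_pos κ
  have he1 : 1 ≤ Real.exp κ := by nlinarith
  have hB : (Real.exp κ + 1) / k ≤ 16 / x ^ 2 := by
    rw [div_le_div_iff₀ hk0 (by positivity)]
    nlinarith
  have hB2 : (5 * Real.log (3 + 2 * Real.pi * k) + 4 * κ) * ((Real.exp κ + 1) / k) ≤ 2 := by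
    have a : 5 * Real.log (3 + 2 * Real.pi * k) + 4 * κ ≤ 7 * x + 45 := by linarith
    have b : 0 ≤ (Real.exp κ + 1) / k := by positivity
    have c : (7 * x + 45) * (16 / x ^ 2) ≤ 2 := by
      rw [mul_div_assoc', div_le_iff₀ (by positivity)]
      nlinarith
    calc _ ≤ (7 * x + 45) * ((Real.exp κ + 1) / k) := mul_le_mul_of_nonneg_right a b
      _ ≤ (7 * x + 45) * (16 / x ^ 2) := mul_le_mul_of_nonneg_left hB (by linarith)
      _ ≤ 2 := c
  have hC : 4 * κ * Sg ≤ 1 + 2 * x / 5 := by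
    have a : 4 * κ * Sg ≤ 4 * κ * (3 / k + 1 / 5) := mul_le_mul_of_nonneg_left hSg (by positivity)
    have b : 4 * κ * (3 / k) ≤ 1 := by
      rw [mul_div_assoc', div_le_iff₀ hk0]
      nlinarith
    linarith
  have hfin : (1 : ℝ) + 1 ≤ x - 3 - Real.log 2
      - (5 * Real.log (3 + 2 * Real.pi * k) + 4 * κ) * ((Real.exp κ + 1) / k) - 4 * κ * Sg := by
    linarith
  have := mul_le_mul_of_nonneg_left hfin (by linarith : (0:ℝ) ≤ N)
  linarith

/-- **S0172 from the weights.** -/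
theorem result_of_weights
    (H : ∃ k₁ : ℝ, ∀ k : ℝ, k₁ ≤ k → ∃ᶠ N : ℕ in atTop, ∀ R : ℕ,
      ∑ l ∈ Ico 1 R, NW k (l * Real.log k) N ≤ 1 / 10) :
    ∃ k₀ : ℝ, 0 < k₀ ∧ ∀ k : ℝ, k₀ ≤ k →
      0 < MeasureTheory.volume ({p : ℝ × ℝ | ∃ c : ℝ, 0 < c ∧
          ∃ᶠ n : ℕ in Filter.atTop, c * n ≤ Real.log ‖fderiv ℝ (standardMapLift k)^[n] p‖} ∩
        Set.Ico (0 : ℝ) 1 ×ˢ Set.Ico (0 : ℝ) 1) :=
  result_of_torus (torus_of_weights H)

end Crest.Agent.R128.Share
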