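import Crest.Agent.R128.CleanNum
import Crest.Agent.R128.Shadow
import Crest.Agent.R128.CleanDisc
import Crest.Agent.R128.Good

/-!
# Row 128, node V5 (helper398): clean side data in sequence form

`F` = reversed Dirichlet field at the foot (`F 0 = (0,1)`), `P` = tip field of `(0,1)`, `X` = real
tip vector.  `n + 1` = foot.
-/

set_option autoImplicit false
open Finset
open Crest.Agent.R128.TreeSum

namespace Crest.Agent.R128.SideClean

theorem norm_eq (v : ℝ × ℝ) : ‖v‖ = max |v.1| |v.2| := by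
  rw [Prod.norm_def, Real.norm_eq_abs, Real.norm_eq_abs]

theorem norm_le_nn (v : ℝ × ℝ) : ‖v‖ ≤ nn v := by
  rw [norm_eq]; exact max_le (abs_fst_le v) (abs_snd_le v)

theorem nn_le_norm (v : ℝ × ℝ) : nn v ≤ 2 * ‖v‖ := by
  have h1 : |v.1| ≤ ‖v‖ := by rw [norm_eq]; exact le_max_left _ _
  have h2 : |v.2| ≤ ‖v‖ := by rw [norm_eq]; exact le_max_right _ _
  linarith [nn_le_add v]

theorem nn_swap (v : ℝ × ℝ) : nn v.swap = nn v := by
  unfold nn; simp [add_comm]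

/-- reversed field -/
theorem rev_field {α b : ℕ → ℝ} {E F : ℕ → ℝ × ℝ} {n : ℕ} (hE : IsField α E) (hF : IsField b F)
    (hab : ∀ m < n, α m = b (n - 1 - m)) (h0 : E 0 = (F n).swap) :
    ∀ m ≤ n, E m = (F (n - m)).swap := by
  intro m
  induction m with
  | zero => intro _; simpa using h0
  | succ m ih =>
    intro hm
    have h1 := ih (by omega)
    have h2 := hF (n - (m + 1))
    have e1 : n - (m + 1) + 1 = n - m := by omega
    rw [e1] at h2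
    rw [hE m, h1, h2, hab m (by omega)]
    have e2 : n - 1 - m = n - (m + 1) := by omega
    rw [e2]
    unfold stp
    ext
    · simp
    · simp

/-- cone growth over regular digits -/
theorem cone {b : ℕ → ℝ} {F : ℕ → ℝ × ℝ} (hF : IsField b F) {κ : ℝ} (hκ : 2 ≤ κ) {i n : ℕ}
    (h0 : |(F i).1| ≤ |(F i).2|) (hb : ∀ j, i ≤ j → j < n → κ ≤ |b j|) :
    ∀ j, i ≤ j → j ≤ n → |(F j).1| ≤ |(F j).2| ∧
      (j < n → (κ - 1) * |(F j).2| ≤ |(F (j + 1)).2| ∧ (F (j + 1)).1 = (F j).2) := by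
  have key : ∀ j, i ≤ j → j < n → |(F j).1| ≤ |(F j).2| →
      (κ - 1) * |(F j).2| ≤ |(F (j + 1)).2| ∧ (F (j + 1)).1 = (F j).2 := by
    intro j hij hjn hj
    have h1 := hF j
    have h2 : (F (j + 1)).2 = b j * (F j).2 - (F j).1 := by rw [h1]; rfl
    have h3 : (F (j + 1)).1 = (F j).2 := by rw [h1]; rfl
    refine ⟨?_, h3⟩
    rw [h2]
    have h4 : |b j * (F j).2| - |(F j).1| ≤ |b j * (F j).2 - (F j).1| := abs_sub_abs_le_abs_sub _ _
    rw [abs_mul] at h4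
    have h5 := mul_le_mul_of_nonneg_right (hb j hij hjn) (abs_nonneg (F j).2)
    linarith
  have main : ∀ j, i ≤ j → j ≤ n → |(F j).1| ≤ |(F j).2| := by
    intro j hij
    induction j, hij using Nat.le_induction with
    | base => intro _; exact h0
    | succ j hij ih =>
      intro hjn
      have h1 := ih (by omega)
      obtain ⟨h2, h3⟩ := key j hij (by omega) h1
      rw [h3]
      have : 0 ≤ |(F j).2| := abs_nonneg _
      nlinarith
  exact fun j hij hjn => ⟨main j hij hjn, fun hlt => key j hij hlt (main j hij hjn)⟩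

theorem norm_of_cone {v : ℝ × ℝ} (h : |v.1| ≤ |v.2|) : ‖v‖ = |v.2| := by
  rw [norm_eq]; exact max_eq_right h

/-- clean reversed start in sequence form -/
structure Rev (κ : ℝ) (L n : ℕ) (b : ℕ → ℝ) (F : ℕ → ℝ × ℝ) : Prop where
  hκ : (2 : ℝ) ^ 201 ≤ κ
  hL : 20 ≤ L
  hLn : L ≤ n
  hF : IsField b F
  F0 : F 0 = (0, 1)
  cl : ∀ m < L, κ ≤ |b m|
  v2 : ∀ i j, L ≤ i → i ≤ j → j ≤ n → ‖F i‖ ^ 99 ≤ ‖F j‖ ^ 100
  v3 : ∀ j, L ≤ j → j ≤ n → ∃ i, L ≤ i ∧ i ≤ j ∧ (j : ℝ) ^ 400 ≤ ‖F i‖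

variable {κ : ℝ} {L n : ℕ} {b : ℕ → ℝ} {F : ℕ → ℝ × ℝ}

theorem Rev.cone' (h : Rev κ L n b F) : ∀ j ≤ L, |(F j).1| ≤ |(F j).2| ∧
      (j < L → (κ - 1) * |(F j).2| ≤ |(F (j + 1)).2| ∧ (F (j + 1)).1 = (F j).2) := by
  intro j hj
  have h2 : (2:ℝ) ≤ κ := le_trans (by norm_num) h.hκ
  exact cone h.hF h2 (i := 0) (n := L) (by rw [h.F0]; simp) (fun j _ hj => h.cl j hj) j
    (Nat.zero_le j) hj

theorem Rev.step (h : Rev κ L n b F) {j : ℕ} (hj : j < L) : (κ - 1) * ‖F j‖ ≤ ‖F (j + 1)‖ := by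
  rw [norm_of_cone (h.cone' j hj.le).1, norm_of_cone (h.cone' (j + 1) hj).1]
  exact ((h.cone' j hj.le).2 hj).1

theorem Rev.pow_le (h : Rev κ L n b F) : ∀ j ≤ L, (κ - 1) ^ j ≤ ‖F j‖ := by
  intro j
  induction j with
  | zero => intro _; rw [h.F0]; simp [Prod.norm_def]
  | succ j ih =>
    intro hj
    have h1 := ih (by omega)
    have h2 := h.step (j := j) (by omega)
    have h3 : (0:ℝ) ≤ κ - 1 := by
      have : (2:ℝ) ≤ κ := le_trans (by norm_num) h.hκ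
      linarith
    calc (κ - 1) ^ (j + 1) = (κ - 1) * (κ - 1) ^ j := by ring
      _ ≤ (κ - 1) * ‖F j‖ := mul_le_mul_of_nonneg_left h1 h3
      _ ≤ _ := h2

theorem Rev.km1 (h : Rev κ L n b F) : (2 : ℝ) ^ 200 ≤ κ - 1 := by
  have := h.hκ
  have h2 : (2 : ℝ) ^ 201 = 2 ^ 200 + 2 ^ 200 := by norm_num
  have h3 : (1 : ℝ) ≤ 2 ^ 200 := by norm_num
  linarith

theorem Rev.one_le_low (h : Rev κ L n b F) {j : ℕ} (hj : j ≤ L) : 1 ≤ ‖F j‖ := by
  have h1 := h.pow_le j hj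
  have h2 : (1:ℝ) ≤ κ - 1 := le_trans (by norm_num) h.km1
  exact (one_le_pow₀ h2).trans h1

theorem Rev.one_le (h : Rev κ L n b F) {j : ℕ} (hj : j ≤ n) : 1 ≤ ‖F j‖ := by
  rcases le_total j L with h1 | h1
  · exact h.one_le_low h1
  · have h2 := h.v2 L j le_rfl h1 hj
    have h3 : 1 ≤ ‖F L‖ ^ 99 := one_le_pow₀ (h.one_le_low le_rfl)
    by_contra hcon
    push Not at hcon
    have : ‖F j‖ ^ 100 < 1 := pow_lt_one₀ (norm_nonneg _) hcon (by norm_num)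
    linarith

theorem Rev.mono (h : Rev κ L n b F) {i j : ℕ} (hij : i ≤ j) (hj : j ≤ L) : ‖F i‖ ≤ ‖F j‖ := by
  induction j, hij using Nat.le_induction with
  | base => exact le_rfl
  | succ j hij ih =>
    have h1 := ih (by omega)
    have h2 := h.step (j := j) (by omega)
    have h3 : (1:ℝ) ≤ κ - 1 := le_trans (by norm_num) h.km1
    have h4 : 0 ≤ ‖F j‖ := norm_nonneg _
    nlinarith

theorem rpow_of_pow {a c : ℝ} (ha : 0 ≤ a) (hc : 0 ≤ c) (h : a ^ 99 ≤ c ^ 100) :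
    a ^ (99 / 100 : ℝ) ≤ c := by
  have ha99 : 0 ≤ a ^ 99 := pow_nonneg ha 99
  have h1 : (a ^ 99) ^ (1 / 100 : ℝ) ≤ (c ^ 100) ^ (1 / 100 : ℝ) :=
    Real.rpow_le_rpow ha99 h (by norm_num)
  have e1 : (a ^ 99) ^ (1 / 100 : ℝ) = a ^ (99 / 100 : ℝ) := by
    rw [← Real.rpow_natCast a 99, ← Real.rpow_mul ha]
    norm_num
  have e2 : (c ^ 100) ^ (1 / 100 : ℝ) = c := by
    rw [← Real.rpow_natCast c 100, ← Real.rpow_mul hc]
    norm_num
  rwa [e1, e2] at h1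

theorem Rev.big (h : Rev κ L n b F) {j : ℕ} (hj1 : 1 ≤ j) (hjn : j ≤ n) :
    (2:ℝ) ^ 198 ≤ ‖F j‖ := by
  rcases le_total j L with h1 | h1
  · have h2 := h.pow_le j h1
    have h3 : (1:ℝ) ≤ κ - 1 := le_trans (by norm_num) h.km1
    calc (2:ℝ) ^ 198 ≤ 2 ^ 200 := by norm_num
      _ ≤ κ - 1 := h.km1
      _ = (κ - 1) ^ 1 := (pow_one _).symm
      _ ≤ (κ - 1) ^ j := pow_le_pow_right₀ h3 hj1
      _ ≤ _ := h2
  · have h2 := h.v2 L j le_rfl h1 hjn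
    have h3 := h.pow_le L le_rfl
    have hL := h.hL
    have h4 : (1:ℝ) ≤ κ - 1 := le_trans (by norm_num) h.km1
    have h5 : (2:ℝ) ^ 200 ≤ ‖F L‖ := by
      calc (2:ℝ) ^ 200 ≤ κ - 1 := h.km1
        _ = (κ - 1) ^ 1 := (pow_one _).symm
        _ ≤ (κ - 1) ^ L := pow_le_pow_right₀ h4 (by omega)
        _ ≤ _ := h3
    have h6 : ((2:ℝ) ^ 198) ^ 100 ≤ ‖F j‖ ^ 100 := by
      calc ((2:ℝ) ^ 198) ^ 100 = ((2:ℝ) ^ 200) ^ 99 := by rw [← pow_mul, ← pow_mul]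
        _ ≤ ‖F L‖ ^ 99 := pow_le_pow_left₀ (pow_nonneg (by norm_num) 200) h5 99
        _ ≤ _ := h2
    exact le_of_pow_le_pow_left₀ (by norm_num) (norm_nonneg _) h6

theorem Rev.val (h : Rev κ L n b F) {i j : ℕ} (hij : i ≤ j) (hj : j ≤ n) :
    (2 * ‖F i‖) ^ (1 - 1 / 60 : ℝ) ≤ ‖F j‖ ∨ i = 0 := by
  rcases Nat.eq_zero_or_pos i with hi | hi
  · exact Or.inr hi
  left
  have hbig := h.big (j := i) hi (by omega)
  have h1 : ‖F i‖ ^ (99 / 100 : ℝ) ≤ ‖F j‖ := by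
    have hi1 : 1 ≤ ‖F i‖ := h.one_le (by omega)
    rcases le_total j L with h1 | h1
    · refine le_trans ?_ (h.mono hij h1)
      calc ‖F i‖ ^ (99 / 100 : ℝ) ≤ ‖F i‖ ^ (1 : ℝ) :=
            Real.rpow_le_rpow_of_exponent_le hi1 (by norm_num)
        _ = _ := Real.rpow_one _
    · rcases le_total L i with h2 | h2
      · exact rpow_of_pow (norm_nonneg _) (norm_nonneg _) (h.v2 _ _ h2 hij hj)
      · have h3 := h.mono (i := i) (j := L) h2 le_rfl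
        have h4 := rpow_of_pow (norm_nonneg _) (norm_nonneg _) (h.v2 L j le_rfl h1 hj)
        exact (Real.rpow_le_rpow (norm_nonneg _) h3 (by norm_num)).trans h4
  refine le_trans ?_ h1
  have hpos : 0 < ‖F i‖ := lt_of_lt_of_le (pow_pos (by norm_num) 198) hbig
  have e : ‖F i‖ ^ (99 / 100 : ℝ) = ‖F i‖ ^ (1 - 1 / 60 : ℝ) * ‖F i‖ ^ (1 / 150 : ℝ) := by
    rw [← Real.rpow_add hpos]; norm_num
  rw [e, Real.mul_rpow (by norm_num) hpos.le, mul_comm]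
  apply mul_le_mul_of_nonneg_left _ (Real.rpow_nonneg hpos.le _)
  calc (2:ℝ) ^ (1 - 1 / 60 : ℝ) ≤ 2 ^ (1 : ℝ) :=
        Real.rpow_le_rpow_of_exponent_le (by norm_num) (by norm_num)
    _ ≤ (2:ℝ) ^ ((198:ℝ) / 150) := Real.rpow_le_rpow_of_exponent_le (by norm_num) (by norm_num)
    _ = ((2:ℝ) ^ 198) ^ (1 / 150 : ℝ) := by
        rw [← Real.rpow_natCast 2 198, ← Real.rpow_mul (by norm_num)]
        norm_num
    _ ≤ ‖F i‖ ^ (1 / 150 : ℝ) :=
        Real.rpow_le_rpow (pow_nonneg (by norm_num) 198) hbig (by norm_num)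

theorem Rev.dur (h : Rev κ L n b F) {j : ℕ} (hj1 : 1 ≤ j) (hjn : j ≤ n) :
    (j : ℝ) ^ 200 ≤ ‖F j‖ := by
  rcases lt_or_ge j L with h1 | h1
  · have h2 := h.pow_le j h1.le
    have h3 : ((2:ℝ) ^ 200) ^ j ≤ (κ - 1) ^ j :=
      pow_le_pow_left₀ (pow_nonneg (by norm_num) 200) h.km1 j
    have h4 : (j : ℝ) ≤ 2 ^ j := by
      exact_mod_cast (Nat.lt_two_pow_self (n := j)).le
    calc (j : ℝ) ^ 200 ≤ (2 ^ j) ^ 200 := pow_le_pow_left₀ (Nat.cast_nonneg j) h4 200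
      _ = ((2:ℝ) ^ 200) ^ j := by rw [← pow_mul, ← pow_mul, mul_comm]
      _ ≤ _ := h3.trans h2
  · obtain ⟨i', h2, h3, h4⟩ := h.v3 j h1 hjn
    have h5 := h.v2 i' j h2 h3 hjn
    have hjr : (1:ℝ) ≤ j := by exact_mod_cast hj1
    have h6 : ((j : ℝ) ^ 200) ^ 100 ≤ ‖F j‖ ^ 100 := by
      calc ((j : ℝ) ^ 200) ^ 100 = (j : ℝ) ^ 20000 := by rw [← pow_mul]
        _ ≤ (j : ℝ) ^ 39600 := pow_le_pow_right₀ hjr (by norm_num)
        _ = ((j : ℝ) ^ 400) ^ 99 := by rw [← pow_mul]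
        _ ≤ ‖F i'‖ ^ 99 := pow_le_pow_left₀ (pow_nonneg (Nat.cast_nonneg j) 400) h4 99
        _ ≤ _ := h5
    exact le_of_pow_le_pow_left₀ (by norm_num) (norm_nonneg _) h6

/-! ### `CleanNum.Clean` -/

section toClean

variable {α : ℕ → ℝ} {E P X : ℕ → ℝ × ℝ} {A : ℝ}

theorem wr_P0 {P : ℕ → ℝ × ℝ} (hP0 : P 0 = (0, 1)) (v : ℝ × ℝ) : wr (P 0) v = -v.1 := by
  rw [hP0]; unfold wr; simp

theorem E0_le (h : Rev κ L n b F) (hE : IsField α E) (hX : IsField α X)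
    (hab : ∀ m < n, α m = b (n - 1 - m)) (hE0 : E 0 = (F n).swap) (hX0 : |(X 0).1| = 1)
    (hX1 : |(X 0).2| ≤ 1) (hXn : |(X n).2| ≤ 1) :
    nn (E 0) ≤ 4 * |(E 0).1| ∧ ‖F n‖ ≤ 2 * |(E 0).1| := by
  have hrev := rev_field hE h.hF hab hE0
  have hEn : E n = (1, 0) := by
    rw [hrev n le_rfl, Nat.sub_self, h.F0]; rfl
  have hw : wr (X n) (E n) = wr (X 0) (E 0) := hX.wr_eq hE (Nat.zero_le n)
  rw [hEn] at hw
  unfold wr at hw
  simp only [mul_zero, mul_one, zero_sub] at hw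
  have h1 : |(E 0).2| ≤ |(E 0).1| + 1 := by
    have e : (X 0).1 * (E 0).2 = (X 0).2 * (E 0).1 - (X n).2 := by linarith
    have h2 : |(X 0).1 * (E 0).2| ≤ |(X 0).2 * (E 0).1| + |(X n).2| := by
      rw [e]; exact abs_sub _ _
    rw [abs_mul, abs_mul, hX0, one_mul] at h2
    have h3 : |(X 0).2| * |(E 0).1| ≤ 1 * |(E 0).1| :=
      mul_le_mul_of_nonneg_right hX1 (abs_nonneg _)
    linarith
  have hn1 : 1 ≤ n := by have := h.hL; have := h.hLn; omega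
  have hbig : (2:ℝ) ^ 198 ≤ ‖F n‖ := h.big hn1 le_rfl
  have hnorm : ‖F n‖ = max |(E 0).2| |(E 0).1| := by
    rw [hE0, norm_eq]; rfl
  have h4 : ‖F n‖ ≤ |(E 0).1| + 1 := by
    rw [hnorm]; exact max_le h1 (by linarith)
  have h5 : (2:ℝ) ≤ 2 ^ 198 := by norm_num
  have h6 : ‖F n‖ ≤ 2 * |(E 0).1| := by linarith
  refine ⟨?_, h6⟩
  have h7 : nn (E 0) ≤ 2 * ‖F n‖ := by
    rw [hE0, nn_swap]; exact nn_le_norm _
  linarith

theorem Rev.toClean (h : Rev κ L n b F) (hE : IsField α E) (hP : IsField α P) (hX : IsField α X)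
    (hab : ∀ m < n, α m = b (n - 1 - m)) (hE0 : E 0 = (F n).swap) (hP0 : P 0 = (0, 1))
    (hX0 : |(X 0).1| = 1) (hX1 : |(X 0).2| ≤ 1) (hXn : |(X n).2| ≤ 1)
    (hA : ∀ j, |α j| + 2 ≤ A) : CleanNum.Clean α P E n (1 / 60) 3 A 4 := by
  have hrev := rev_field hE h.hF hab hE0
  have hnnE : ∀ m ≤ n, nn (E m) = nn (F (n - m)) := fun m hm => by rw [hrev m hm, nn_swap]
  refine ⟨hP, hE, ?_, ?_, hA, by norm_num, le_rfl, by norm_num, by norm_num, ?_, ?_, ?_, ?_⟩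
  · rw [hP0]; unfold nn; norm_num
  · have := hA 0; have := abs_nonneg (α 0); linarith
  · intro m hm
    rw [hnnE m hm]
    exact (h.one_le (by omega)).trans (norm_le_nn _)
  · intro i j hij hj
    rw [hnnE j hj, hnnE i (hij.trans hj)]
    rcases h.val (i := n - j) (j := n - i) (by omega) (by omega) with h1 | h1
    · refine le_trans ?_ (h1.trans (norm_le_nn _))
      exact Real.rpow_le_rpow (nn_nonneg _) (nn_le_norm _) (by norm_num)
    · rw [h1, h.F0]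
      have : nn ((0:ℝ), (1:ℝ)) = 1 := by unfold nn; norm_num
      rw [this, Real.one_rpow]
      exact (h.one_le (by omega)).trans (norm_le_nn _)
  · rw [← Finset.sum_range_reflect, Finset.sum_range_succ']
    have hz : nn (E (n + 1 - 1 - 0)) ^ (-(1 / 60 : ℝ)) = 1 := by
      have e : E (n + 1 - 1 - 0) = (1, 0) := by
        have : n + 1 - 1 - 0 = n := by omega
        rw [this, hrev n le_rfl, Nat.sub_self, h.F0]; rfl
      rw [e]
      have : nn ((1:ℝ), (0:ℝ)) = 1 := by unfold nn; norm_num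
      rw [this, Real.one_rpow]
    rw [hz]
    have hsum : ∑ k ∈ range n, nn (E (n + 1 - 1 - (k + 1))) ^ (-(1 / 60 : ℝ)) ≤ 2 := by
      refine le_trans (Finset.sum_le_sum fun j hj => ?_) (Shadow.sum_inv_sq_le n)
      have hjn := Finset.mem_range.1 hj
      rw [hnnE _ (by omega)]
      have e : n - (n + 1 - 1 - (j + 1)) = j + 1 := by omega
      rw [e]
      have h1 := (h.dur (j := j + 1) (by omega) (by omega)).trans (norm_le_nn _)
      push_cast at h1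
      have hj0 : (0:ℝ) < (j : ℝ) + 1 := by positivity
      have hj1 : (1:ℝ) ≤ (j : ℝ) + 1 := by
        have : (0:ℝ) ≤ j := Nat.cast_nonneg j
        linarith
      have h200 : 0 < ((j : ℝ) + 1) ^ 200 := pow_pos hj0 200
      calc nn (F (j + 1)) ^ (-(1 / 60 : ℝ)) ≤ (((j : ℝ) + 1) ^ 200) ^ (-(1 / 60 : ℝ)) :=
            Real.rpow_le_rpow_of_nonpos h200 h1 (by norm_num)
        _ = ((j : ℝ) + 1) ^ (-(200 / 60) : ℝ) := by
            rw [← Real.rpow_natCast ((j : ℝ) + 1) 200, ← Real.rpow_mul hj0.le]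
            norm_num
        _ ≤ ((j : ℝ) + 1) ^ (-(2:ℝ)) := Real.rpow_le_rpow_of_exponent_le hj1 (by norm_num)
        _ = 1 / ((j : ℝ) + 1) ^ 2 := by
            rw [Real.rpow_neg hj0.le, one_div]
            norm_num
    linarith
  · have h1 := (E0_le h hE hX hab hE0 hX0 hX1 hXn).1
    have h2 : nn (P 0) = 1 := by rw [hP0]; unfold nn; norm_num
    rw [h2, one_mul, wr_P0 hP0, abs_neg]
    exact h1

end toClean

end Crest.Agent.R128.SideClean
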