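import Crest.Agent.R128.StartNum
import Crest.Agent.R128.LocA2
import Crest.Agent.R128.Good

/-!
# Row 128, node V5-START (helper475)

The data at the foot of a very fresh level (398's `SideClean`, 816's `CleanStart`/`StartNum`) give
595's `LocA.Start` on both sides (vocabulary `Loc.Y`, `LocA.Ds`), start index `n0 = w - 1` (the foot).
-/

set_option autoImplicit false

open MeasureTheory Metric Set
open Crest.Agent.R128 Crest.Agent.R128.Cell Crest.Agent.R128.CellB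
open Crest.Agent.R128.TreeSum Crest.Agent.R128.Disp Crest.Agent.R128.CleanNum
open Crest.Agent.R128.CleanDisc Crest.Agent.R128.CleanCont

namespace Crest.Agent.R128.SideStart

/-! ### both sides -/

theorem Y_true (k c : ℝ) : Loc.Y k c true = y k c := by
  funext n z
  simp [Loc.Y, Loc.sdC]

theorem Y_false (k c : ℝ) :
    Loc.Y k c false = fun n t => y k c n (((CellDy.kap k c : ℝ) : ℂ) - t) := by
  funext n z
  simp [Loc.Y, Loc.sdC]

theorem Ds_true (k c : ℝ) : LocA.Ds k c true = yd k c := by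
  funext n z
  simp [LocA.Ds, Loc.D, Loc.sdC]

theorem Ds_false (k c : ℝ) :
    LocA.Ds k c false = fun n t => -yd k c n (((CellDy.kap k c : ℝ) : ℂ) - t) := by
  funext n z
  simp [LocA.Ds, Loc.D, Loc.sdC]

/-- the real starting coordinate of the side -/
noncomputable def tt (k c : ℝ) (s : Bool) (t : ℝ) : ℝ := if s then t else CellDy.kap k c - t

@[simp] theorem tt_true (k c t : ℝ) : tt k c true t = t := rfl

@[simp] theorem tt_false (k c t : ℝ) : tt k c false t = CellDy.kap k c - t := rfl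

theorem tb_eq (k c t : ℝ) : DictY.tb k c t = CellDy.kap k c - t := rfl

theorem sdC_tt (k c : ℝ) (s : Bool) (t : ℝ) : Loc.sdC k c s (t : ℂ) = (tt k c s t : ℂ) := by
  unfold Loc.sdC tt
  cases s <;> simp

theorem norm_Ds_tt (k c : ℝ) (s : Bool) (n : ℕ) (t : ℝ) :
    ‖LocA.Ds k c s n (t : ℂ)‖ = ‖yd k c n (tt k c s t : ℂ)‖ := by
  rw [LocA.norm_Ds, Loc.D, sdC_tt]

theorem Y_tt (k c : ℝ) (s : Bool) (n : ℕ) (t : ℝ) :
    Loc.Y k c s n (t : ℂ) = y k c n (tt k c s t : ℂ) := by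
  rw [Loc.Y, sdC_tt]

/-- `Start` for `y`, `yd` at the real starting point gives `Start` on the side `s` -/
theorem start_side {k c : ℝ} {s : Bool} {n0 : ℕ} {t0 r η A : ℝ} {J : ℕ}
    (h : LocA.Start k (y k c) (yd k c) n0 (tt k c s t0) r η A J) :
    LocA.Start k (Loc.Y k c s) (LocA.Ds k c s) n0 t0 r η A J := by
  cases s with
  | true =>
    rw [Y_true, Ds_true]
    simpa [tt] using h
  | false =>
    rw [Y_false, Ds_false]
    have h1 := CleanStart.start_flip (CellDy.kap k c) h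
    have e : CellDy.kap k c - tt k c false t0 = t0 := by
      unfold tt
      simp
    rw [e] at h1
    exact h1

/-! ### one side, at the foot -/

/-- one clean side in the vocabulary of `y`, `yd` (output of 398's `SideClean`) -/
structure Foot (k c t : ℝ) (w M : ℕ) (E : ℕ → ℝ × ℝ) : Prop where
  w1 : 1 ≤ w
  clean : Clean (ra k c t) (wf k c t) E (w - 1) (1 / 60) 3 (8 * k) 4
  nnE : nn (E (w - 1)) = 1
  X_eq : XX (wf k c t) E = |(wf k c t (w - 1)).2|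
  cone : 2 * |(wf k c t (w - 1)).1| ≤ |(wf k c t (w - 1)).2|
  run : ∀ j ≤ M, k ^ ((2 : ℝ) / 3) ≤ ‖cV k (y k c (w + j) t)‖

/-- the radius of the disc at the foot -/
noncomputable def r0 (k X : ℝ) : ℝ := rho0 k (8 * k) 3 4 / (5000 * X)

theorem r0_pos {k X : ℝ} (hk : 4 ≤ k) (hX : 0 < X) : 0 < r0 k X := by
  have := StartNum.rho0_pos' hk
  unfold r0
  positivity

theorem X_mul_r0 {k X : ℝ} (hX : 0 < X) : X * r0 k X = rho0 k (8 * k) 3 4 / 5000 := by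
  unfold r0
  field_simp

theorem X_mul_r0_ge {k X : ℝ} (hk : 4 ≤ k) (hX : 0 < X) : 1 / (2 ^ 71 * k ^ 9) ≤ X * r0 k X := by
  rw [X_mul_r0 hX, le_div_iff₀ (by norm_num)]
  refine le_trans ?_ (StartNum.rho0_ge hk)
  rw [div_mul_eq_mul_div, one_mul, div_le_div_iff₀ (by positivity) (by positivity)]
  have : 0 < k ^ 9 := by positivity
  nlinarith

variable {k c t : ℝ} {w M : ℕ} {E : ℕ → ℝ × ℝ}

theorem Foot.w_eq (h : Foot k c t w M E) : w - 1 + 1 = w := Nat.sub_add_cancel h.w1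

theorem Foot.yd_w (h : Foot k c t w M E) : ‖yd k c w (t : ℂ)‖ = XX (wf k c t) E := by
  have e := wf_snd k c t (w - 1)
  rw [h.w_eq] at e
  rw [h.X_eq, ← e, Complex.norm_real, Real.norm_eq_abs]

theorem Foot.X_pos (h : Foot k c t w M E) : 0 < XX (wf k c t) E := h.clean.Xpos

theorem pow35 {k : ℝ} (hk : 2 ^ 200 ≤ k) : (10 : ℝ) ^ 9 ≤ k ^ (3 / 5 : ℝ) := by
  have h1 : ((2 : ℝ) ^ (200 : ℕ)) ^ (3 / 5 : ℝ) ≤ k ^ (3 / 5 : ℝ) :=
    Real.rpow_le_rpow (by positivity) hk (by norm_num)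
  have h2 : ((2 : ℝ) ^ (200 : ℕ)) ^ (3 / 5 : ℝ) = 2 ^ (120 : ℕ) := by
    rw [← Real.rpow_natCast, ← Real.rpow_mul (by norm_num), ← Real.rpow_natCast]
    norm_num
  rw [h2] at h1
  refine le_trans ?_ h1
  norm_num

theorem pow35_le {k : ℝ} (hk : 1 ≤ k) : k ^ (3 / 5 : ℝ) ≤ k ^ ((2 : ℝ) / 3) :=
  Real.rpow_le_rpow_of_exponent_le hk (by norm_num)

/-- **`Start` at the foot** (one side, for `y`, `yd`) -/
theorem Foot.start (h : Foot k c t w M E) (hk : 2 ^ 200 ≤ k) :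
    LocA.Start k (y k c) (yd k c) (w - 1) t (2 * r0 k (XX (wf k c t) E)) (1 / 2500)
      (k ^ (3 / 5 : ℝ)) (M + 1) := by
  have hk4 : (4 : ℝ) ≤ k := le_trans (by norm_num) hk
  have hX := h.X_pos
  have hr := r0_pos hk4 hX
  refine CleanStart.start_of_clean h.clean (by linarith) le_rfl h.cone (by linarith) (by norm_num)
    (by norm_num) ?_ (pow35 hk) ?_
  · unfold r0
    rw [← mul_div_assoc, div_le_iff₀ (by positivity)]
    apply le_of_eq
    field_simp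
    ring
  · intro j hj
    rw [h.w_eq]
    exact (pow35_le (by linarith)).trans (h.run j (by omega))

/-- the previous index is in the cone on the whole disc -/
theorem Foot.prev (h : Foot k c t w M E) (hk : 2 ^ 200 ≤ k) {u : ℂ}
    (hu : u ∈ ball (t : ℂ) (2 * r0 k (XX (wf k c t) E))) :
    ‖yd k c (w - 1) u‖ ≤ 99 / 100 * ‖yd k c w (t : ℂ)‖ := by
  have hk4 : (4 : ℝ) ≤ k := le_trans (by norm_num) hk
  have hX := h.X_pos
  have hρ := StartNum.rho0_pos' hk4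
  rw [h.yd_w]
  rw [mem_ball, dist_eq_norm] at hu
  set X := XX (wf k c t) E with hXd
  set ρ := rho0 k (8 * k) 3 4 with hρd
  have hu1 : ‖u - t‖ * X / ρ ≤ 1 / 2500 := by
    rw [div_le_iff₀ hρ]
    have h1 : ‖u - t‖ * X ≤ 2 * r0 k X * X := mul_le_mul_of_nonneg_right hu.le hX.le
    have h2 := X_mul_r0 (k := k) hX
    rw [← hρd] at h2
    linarith
  have hu2 : ‖u - t‖ ≤ ρ / X * nn (E (w - 1)) ^ (1 - 15 * (1 / 60 : ℝ)) := by
    rw [h.nnE, Real.one_rpow, mul_one, le_div_iff₀ hX]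
    rw [div_le_iff₀ hρ] at hu1
    linarith
  obtain ⟨_, _, _, _, _, g1, _, _, _⟩ := fields h.clean (by linarith) le_rfl hu2 (w - 1) le_rfl
  rw [h.nnE, Real.one_rpow, mul_one] at g1
  have hc := h.cone
  have hXe := h.X_eq
  rw [← hXd] at hXe
  rw [← hXe] at hc
  have hnn := nn_le_add (wf k c t (w - 1))
  rw [← hXe] at hnn
  have g2 : ‖yd k c (w - 1) u‖ ≤ ‖yd k c (w - 1) u - (wf k c t (w - 1)).1‖ +
      |(wf k c t (w - 1)).1| := by
    calc ‖yd k c (w - 1) u‖ = ‖(yd k c (w - 1) u - (wf k c t (w - 1)).1) +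
          (wf k c t (w - 1)).1‖ := by ring_nf
      _ ≤ ‖yd k c (w - 1) u - (wf k c t (w - 1)).1‖ + ‖(((wf k c t (w - 1)).1 : ℝ) : ℂ)‖ :=
          norm_add_le _ _
      _ = _ := by rw [Complex.norm_real, Real.norm_eq_abs]
  have g3 : 1 / 10 * (‖u - t‖ * X / ρ) * nn (wf k c t (w - 1)) ≤ 1 / 10 * (1 / 2500) * (2 * X) := by
    have h0 : 0 ≤ ‖u - t‖ * X / ρ := by positivity
    have h5 : nn (wf k c t (w - 1)) ≤ 2 * X := by linarith
    have h6 := nn_nonneg (wf k c t (w - 1))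
    gcongr
  linarith

/-- the smallness of the cell of length `ρ` -/
theorem Foot.old (h : Foot k c t w M E) (hk : 2 ^ 200 ≤ k) {ρ : ℝ}
    (hρ : ‖yd k c w (t : ℂ)‖ * ρ ≤ 1 / k ^ 40) :
    10 ^ 11 * k * (‖yd k c w (t : ℂ)‖ * ρ) ≤
      (‖yd k c w (t : ℂ)‖ * r0 k (XX (wf k c t) E)) ^ 3 := by
  have hk4 : (4 : ℝ) ≤ k := le_trans (by norm_num) hk
  have hX := h.X_pos
  rw [h.yd_w] at hρ ⊢
  have h1 := X_mul_r0_ge hk4 hX
  have hk0 : (0 : ℝ) < k := by linarith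
  calc 10 ^ 11 * k * (XX (wf k c t) E * ρ) ≤ 10 ^ 11 * k * (1 / k ^ 40) := by gcongr
    _ ≤ (1 / (2 ^ 71 * k ^ 9)) ^ 3 := by
        rw [mul_one_div, div_pow, one_pow, div_le_div_iff₀ (by positivity) (by positivity)]
        have h2 : (10 : ℝ) ^ 11 * (2 ^ 71) ^ 3 ≤ k ^ 2 :=
          le_trans (by norm_num) (pow_le_pow_left₀ (by norm_num) hk 2)
        calc 10 ^ 11 * k * (2 ^ 71 * k ^ 9) ^ 3 = (10 ^ 11 * (2 ^ 71) ^ 3) * k ^ 28 := by ring
          _ ≤ k ^ 2 * k ^ 28 := by gcongr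
          _ = 1 * k ^ 30 := by ring
          _ ≤ 1 * k ^ 40 := by
              have : k ^ 30 ≤ k ^ 40 := pow_le_pow_right₀ (by linarith) (by norm_num)
              linarith
    _ ≤ _ := by gcongr

/-! ### both sides, at the foot -/

/-- the input of the nice points, one side `s` of the real point `t0`, cell length `ρ`
(`n0 = w - 1`, disc radius `2 r`). -/
structure SD (k c t0 : ℝ) (s : Bool) (w M : ℕ) (r ρ : ℝ) : Prop where
  w1 : 1 ≤ w
  start : LocA.Start k (Loc.Y k c s) (LocA.Ds k c s) (w - 1) t0 (2 * r) (1 / 2500)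
    (k ^ (3 / 5 : ℝ)) (M + 1)
  r_pos : 0 < r
  prev : ∀ u ∈ ball (t0 : ℂ) (2 * r),
    ‖LocA.Ds k c s (w - 1) u‖ ≤ 99 / 100 * ‖LocA.Ds k c s w (t0 : ℂ)‖
  old : 10 ^ 11 * k * (‖LocA.Ds k c s w (t0 : ℂ)‖ * ρ) ≤ (‖LocA.Ds k c s w (t0 : ℂ)‖ * r) ^ 3
  dr : 1 / (2 ^ 71 * k ^ 9) ≤ ‖LocA.Ds k c s w (t0 : ℂ)‖ * r
  run : ∀ j ≤ M, k ^ ((2 : ℝ) / 3) ≤ LocA.vv k (Loc.Y k c s) (w + j) (t0 : ℂ)

theorem ball_tt {k c : ℝ} {s : Bool} {t0 r : ℝ} {u : ℂ} (hu : u ∈ ball (t0 : ℂ) r) :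
    Loc.sdC k c s u ∈ ball ((tt k c s t0 : ℝ) : ℂ) r := by
  rw [mem_ball, dist_eq_norm] at hu ⊢
  rw [← sdC_tt]
  cases s with
  | true => simpa [Loc.sdC] using hu
  | false =>
    have e : Loc.sdC k c false u - Loc.sdC k c false (t0 : ℂ) = -(u - t0) := by
      simp only [Loc.sdC, Bool.false_eq_true, if_false]
      ring
    rw [e, norm_neg]
    exact hu

/-- **both sides**: a `Foot` at `tt k c s t0` gives `SD` on the side `s` -/
theorem Foot.sd {s : Bool} {t0 : ℝ} (h : Foot k c (tt k c s t0) w M E) (hk : 2 ^ 200 ≤ k) {ρ : ℝ}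
    (hρ : ‖yd k c w (tt k c s t0 : ℂ)‖ * ρ ≤ 1 / k ^ 40) :
    SD k c t0 s w M (r0 k (XX (wf k c (tt k c s t0)) E)) ρ := by
  have hk4 : (4 : ℝ) ≤ k := le_trans (by norm_num) hk
  refine ⟨h.w1, start_side (h.start hk), r0_pos hk4 h.X_pos, ?_, ?_, ?_, ?_⟩
  · intro u hu
    have h1 := h.prev hk (ball_tt (s := s) (k := k) (c := c) hu)
    rw [norm_Ds_tt, LocA.norm_Ds, Loc.D]
    exact h1
  · rw [norm_Ds_tt]
    exact h.old hk hρ
  · rw [norm_Ds_tt, h.yd_w]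
    exact X_mul_r0_ge hk4 h.X_pos
  · intro j hj
    unfold LocA.vv
    rw [Y_tt]
    exact h.run j hj

/-- the old content cut at the two feet is a real quadratic polynomial -/
theorem content {t0 : ℝ} {w' M' : ℕ} {E' : ℕ → ℝ × ℝ} (h : Foot k c (tt k c true t0) w M E)
    (h' : Foot k c (tt k c false t0) w' M' E') (hk : 2 ^ 200 ≤ k) {r : ℝ} (hr : 0 ≤ r)
    (hr1 : 2 ^ 59 * k ^ 9 * r * ‖LocA.Ds k c true w (t0 : ℂ)‖ ≤ 1)
    (hr2 : 2 ^ 59 * k ^ 9 * r * ‖LocA.Ds k c false w' (t0 : ℂ)‖ ≤ 1) (mc : ℝ) :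
    ∃ q0 q1 q2 : ℝ, ∀ u ∈ closedBall (t0 : ℂ) r,
      ‖Loc.cont k c true w w' u - (q0 + q1 * (u - mc) + q2 * (u - mc) ^ 2)‖ ≤
        k ^ 32 * r ^ 3 * (‖LocA.Ds k c true w (t0 : ℂ)‖ + ‖LocA.Ds k c false w' (t0 : ℂ)‖) := by
  rw [norm_Ds_tt, h.yd_w] at *
  rw [norm_Ds_tt, h'.yd_w] at *
  exact StartNum.content_foot hk h.w1 h'.w1 h.clean h'.clean h.nnE h'.nnE
    h.cone h'.cone hr hr1 hr2 mc

end Crest.Agent.R128.SideStart
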