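import Mathlib
import Crest.Agent.R128.Tips

/-!
# Row 128, node SC-ROOT (helper533): single cover for the ROOT contour

Peak / valley dichotomy: an excursion seen from a start `n` (with tip `T`, both ends `i < T < j` at the
same distance from `n`) produces in the contour `f ≈ d 0 ·` of ONE root either a peak or a valley of
prominence `≥ (D - D1) / 4 - O(1)`; valleys are at most one more than peaks; peaks are paid by closed
integer components of the root contour.
-/

set_option autoImplicit false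
open Finset

namespace Crest.Agent.R128.Single

open Crest.Agent.R128.Tips

variable {d : ℕ → ℕ → ℝ} {δ B : ℝ}

/-- one step -/
theorem gp_step (h : IsHyp d δ B) (r m : ℕ) :
    d r m - B ≤ gp d m (m + 1) r ∧ d r (m + 1) - B ≤ gp d m (m + 1) r := by
  have h1 := h.step m
  have h2 := h.tri r m (m + 1)
  have h3 := h.tri r (m + 1) m
  have h4 := h.symm m (m + 1)
  unfold gp
  rw [h.symm m r, h.symm (m + 1) r]
  constructor <;> linarith

theorem gp_of_path (h : IsHyp d δ B) (r p q : ℕ) (n : ℕ) (hpq : p < q)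
    (hn : q - p ≤ 2 ^ n) (y : ℝ) (hy : ∀ m, p ≤ m → m < q → y ≤ d r m ∨ y ≤ d r (m + 1)) :
    y - B - n * δ ≤ gp d p q r := by
  refine le_of_forall_pos_lt_add fun ε hε => ?_
  have h1 := chain h r (y - B - ε) n (q - p) (fun i => p + i) hn (by omega) (by
    intro i hi
    have h2 := gp_step h r (p + i)
    rcases hy (p + i) (by omega) (by omega) with h3 | h3
    · have := h2.1
      have e : p + (i + 1) = p + i + 1 := by ring
      simp only [e]
      linarith
    · have := h2.2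
      have e : p + (i + 1) = p + i + 1 := by ring
      simp only [e]
      linarith)
  have e1 : p + 0 = p := by ring
  have e2 : p + (q - p) = q := by omega
  simp only [e1, e2] at h1
  linarith

/-- peak of prominence `x` inside the window `[0, N]`; `w` is the first argmax on `[i, j]` -/
def Pk (f : ℕ → ℝ) (N : ℕ) (x : ℝ) (w : ℕ) : Prop :=
  ∃ i j, i < w ∧ w < j ∧ j ≤ N ∧ f i + x ≤ f w ∧ f j + x ≤ f w ∧
    (∀ m, i ≤ m → m < w → f m < f w) ∧ (∀ m, w ≤ m → m ≤ j → f m ≤ f w)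

theorem Pk.mono {f : ℕ → ℝ} {N w : ℕ} {x y : ℝ} (h : Pk f N x w) (hyx : y ≤ x) : Pk f N y w := by
  obtain ⟨i, j, h1, h2, h3, h4, h5, h6, h7⟩ := h
  exact ⟨i, j, h1, h2, h3, by linarith, by linarith, h6, h7⟩

/-- first argmax on an interval -/
theorem exists_first_argmax (f : ℕ → ℝ) {i j : ℕ} (hij : i ≤ j) :
    ∃ w, i ≤ w ∧ w ≤ j ∧ (∀ m, i ≤ m → m < w → f m < f w) ∧ (∀ m, i ≤ m → m ≤ j → f m ≤ f w) := by
  classical
  obtain ⟨t0, ht0, hmax⟩ := (Finset.Icc i j).exists_max_image f ⟨i, Finset.mem_Icc.mpr ⟨le_rfl, hij⟩⟩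
  rw [Finset.mem_Icc] at ht0
  have hex : ∃ t, i ≤ t ∧ t ≤ j ∧ ∀ m, i ≤ m → m ≤ j → f m ≤ f t :=
    ⟨t0, ht0.1, ht0.2, fun m h3 h4 => hmax m (Finset.mem_Icc.mpr ⟨h3, h4⟩)⟩
  obtain ⟨h1, h2, h3⟩ := Nat.find_spec hex
  refine ⟨Nat.find hex, h1, h2, fun m h4 h5 => ?_, h3⟩
  by_contra hc
  push Not at hc
  exact Nat.find_min hex h5 ⟨h4, by omega, fun m' h6 h7 => (h3 m' h6 h7).trans hc⟩

theorem pk_of_argmax {f : ℕ → ℝ} {N i j u : ℕ} {x : ℝ} (hx : 0 < x) (hiu : i ≤ u) (huj : u ≤ j)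
    (hjN : j ≤ N) (h1 : f i + x ≤ f u) (h2 : f j + x ≤ f u) :
    ∃ w, i < w ∧ w < j ∧ Pk f N x w ∧ f u ≤ f w := by
  obtain ⟨w, h3, h4, h5, h6⟩ := exists_first_argmax f (hiu.trans huj)
  have h7 := h6 u hiu huj
  have h8 : w ≠ i := by
    rintro rfl
    linarith
  have h9 : w ≠ j := by
    rintro rfl
    linarith
  refine ⟨w, by omega, by omega, ⟨i, j, by omega, by omega, hjN, by linarith, by linarith, h5,
    fun m h10 h11 => h6 m (by omega) h11⟩, h7⟩

/-- **Peak / valley dichotomy.** -/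
theorem dich (h : IsHyp d δ B) (hB : 0 ≤ B) {f : ℕ → ℝ} {c0 : ℝ} (hf : ∀ m, |f m - d 0 m| ≤ c0)
    {n i T j p N : ℕ} {D D1 : ℝ} (hiT : i < T) (hTj : T < j) (hjN : j ≤ N) (hp : j - i ≤ 2 ^ p)
    (hT : D ≤ d n T) (hi : d n i ≤ D1) (hj : d n j ≤ D1)
    (hmid : ∀ m, i < m → m < j → D1 ≤ d n m)
    (hx : 0 < (D - D1) / 4 - 4 * c0 - 3 * B - 3 * (p * δ)) :
    ∃ w, i < w ∧ w < j ∧
      (Pk f N ((D - D1) / 4 - 4 * c0 - 3 * B - 3 * (p * δ)) w ∨
        Pk (fun m => - f m) N ((D - D1) / 4 - 4 * c0 - 3 * B - 3 * (p * δ)) w) := by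
  have hc0 : 0 ≤ c0 := (abs_nonneg _).trans (hf 0)
  have hpδ : 0 ≤ p * δ := mul_nonneg (Nat.cast_nonneg _) h.δ_nonneg
  -- `i` and `j` are close
  have h1 := gp_of_path h n i j p (by omega) hp D1 (by
    intro m hm1 hm2
    by_cases hm : m = i
    · right
      exact hmid (m + 1) (by omega) (by omega)
    · left
      exact hmid m (by omega) hm2)
  have h2 : d i j ≤ 2 * B + 2 * (p * δ) := by
    unfold gp at h1
    rw [h.symm i n, h.symm j n] at h1
    linarith
  have hi0 := abs_le.mp (hf i)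
  have hj0 := abs_le.mp (hf j)
  have hT0 := abs_le.mp (hf T)
  have h3 := h.tri 0 i j
  have h4 := h.tri 0 j i
  rw [h.symm j i] at h4
  -- the tip is far from `i`
  have h5 : D - D1 ≤ d i T := by
    have := h.tri n i T
    linarith
  by_cases hc : f i + (D - D1) / 4 ≤ f T
  · obtain ⟨w, h6, h7, h8, -⟩ := pk_of_argmax (f := f) (N := N) (i := i) (j := j) (u := T) hx hiT.le
      hTj.le hjN (by linarith) (by linarith)
    exact ⟨w, h6, h7, Or.inl h8⟩
  · push Not at hc
    have h6 : ∃ m, i ≤ m ∧ m < T ∧ d 0 m < f i - 3 * (D - D1) / 8 + c0 + B + p * δ := by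
      by_contra hcon
      push Not at hcon
      have h7 := gp_of_path h 0 i T p hiT (by omega) (f i - 3 * (D - D1) / 8 + c0 + B + p * δ)
        (fun m hm1 hm2 => Or.inl (hcon m hm1 hm2))
      unfold gp at h7
      rw [h.symm i 0, h.symm T 0] at h7
      linarith
    obtain ⟨m, hm1, hm2, hm3⟩ := h6
    have hm0 := abs_le.mp (hf m)
    obtain ⟨w, h6, h7, h8, -⟩ := pk_of_argmax (f := fun m => - f m) (N := N) (i := i) (j := j)
      (u := m) hx hm1 (by omega) hjN (by linarith) (by linarith)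
    exact ⟨w, h6, h7, Or.inr h8⟩

/-- two peaks are separated by a valley -/
theorem sep {g : ℕ → ℝ} {N : ℕ} {x : ℝ} {w w' : ℕ} (hww : w < w') (h : Pk g N x w)
    (h' : Pk g N x w') : ∃ u, w ≤ u ∧ u ≤ w' ∧ g u + x ≤ g w ∧ g u + x ≤ g w' := by
  obtain ⟨i, j, h1, h2, h3, h4, h5, h6, h7⟩ := h
  obtain ⟨i', j', h1', h2', h3', h4', h5', h6', h7'⟩ := h'
  by_cases hc : g w' ≤ g w
  · have hi' : w < i' := by
      by_contra hcon
      push Not at hcon
      have := h6' w hcon hww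
      linarith
    exact ⟨i', hi'.le, h1'.le, by linarith, h4'⟩
  · push Not at hc
    have hj : j < w' := by
      by_contra hcon
      push Not at hcon
      have := h7 w' hww.le hcon
      linarith
    exact ⟨j, h2.le, hj.le, h5, by linarith⟩

open Classical in
/-- the finset of peaks -/
noncomputable def pks (f : ℕ → ℝ) (N : ℕ) (x : ℝ) : Finset ℕ := {w ∈ range (N + 1) | Pk f N x w}

theorem mem_pks {f : ℕ → ℝ} {N : ℕ} {x : ℝ} {w : ℕ} : w ∈ pks f N x ↔ Pk f N x w := by
  classical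
  unfold pks
  rw [Finset.mem_filter, Finset.mem_range]
  constructor
  · exact fun h => h.2
  · intro h
    refine ⟨?_, h⟩
    obtain ⟨i, j, h1, h2, h3, -⟩ := h
    omega

/-- **duality**: valleys are at most one more than peaks -/
theorem card_valleys_le (f : ℕ → ℝ) (N : ℕ) {x : ℝ} (hx : 0 < x) :
    #(pks (fun m => - f m) N x) ≤ #(pks f N x) + 1 := by
  classical
  set V := pks (fun m => - f m) N x with hV
  rcases Nat.eq_zero_or_pos (#V) with h0 | h0
  · omega
  let e := V.orderEmbOfFin (rfl : #V = #V)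
  have hmem : ∀ a, Pk (fun m => - f m) N x (e a) := fun a =>
    mem_pks.mp (V.orderEmbOfFin_mem rfl a)
  -- a peak of `f` between consecutive valleys
  have hex : ∀ a : Fin (#V - 1), ∃ t, e ⟨a, by omega⟩ < t ∧ t < e ⟨a + 1, by omega⟩ ∧ Pk f N x t := by
    intro a
    have hlt : e ⟨a, by omega⟩ < e ⟨a + 1, by omega⟩ := e.strictMono (by
      rw [Fin.lt_def]
      simp)
    obtain ⟨u, h1, h2, h3, h4⟩ := sep hlt (hmem _) (hmem _)
    obtain ⟨i', j', h1', h2', h3', -⟩ := hmem ⟨a + 1, by omega⟩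
    obtain ⟨w, h5, h6, h7, -⟩ := pk_of_argmax (f := f) (N := N) (i := e ⟨a, by omega⟩)
      (j := e ⟨a + 1, by omega⟩) (u := u) hx h1 h2 (by omega) (by linarith)
      (by linarith)
    exact ⟨w, h5, h6, h7⟩
  choose t ht1 ht2 ht3 using hex
  have hinj : StrictMono t := by
    intro a b hab
    have h1 : e ⟨a + 1, by omega⟩ ≤ e ⟨b, by omega⟩ := e.monotone (by
      rw [Fin.le_def]
      simp
      omega)
    have := ht2 a
    have := ht1 b
    omega
  have h2 : #V - 1 ≤ #(pks f N x) := by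
    have := Finset.card_le_card_of_injOn (s := (Finset.univ : Finset (Fin (#V - 1))))
      (t := pks f N x) t (fun a _ => mem_pks.mpr (ht3 a)) (hinj.injective.injOn)
    simpa using this
  omega

end Crest.Agent.R128.Single
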