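import Mathlib
import Crest.Agent.R128.Lam0U

/-!
# Row 128, node V2-SMALLD (helper917)

Violations of small size `≤ k ^ (300 D₀)` are charged to near critical times: a top of the field
of a start is a near critical time, and for one near critical time there are at most
`L (D₀ + 1)` valid starts which see it at a size `≤ k ^ (300 D₀)`.
Forward and backward (reversed) version.
-/

set_option autoImplicit false
open MeasureTheory Filter Topology Finset
open scoped ENNReal

namespace Crest.Agent.R128.SmallD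

open Crest.Agent.R128.TreeSum Crest.Agent.R128.Acc Crest.Agent.R128.Lam0

/-- at a top of the field the digit is near critical -/
theorem abs_V_le_two {k : ℝ} {z : Tor} {a : ℕ} (h0 : 0 < ‖fld k z (a + 1)‖) (h1' : ‖fld k z a‖ < ‖fld k z (a + 1)‖ ∨
      |(fld k z (a + 1)).1| ≤ |(fld k z (a + 1)).2|)
    (h2 : ‖fld k z (a + 2)‖ ≤ ‖fld k z (a + 1)‖) :
    |V k ((T k)^[a + 1] z).2| ≤ 2 := by
  have e1 : (fld k z (a + 1)).1 = (fld k z a).2 := by rw [fld_succ]; rfl
  have e2 : (fld k z (a + 2)).2 =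
      V k ((T k)^[a + 1] z).2 * (fld k z (a + 1)).2 - (fld k z (a + 1)).1 := by
    rw [fld_succ]; rfl
  set W := fld k z (a + 1) with hW
  have hmax : ‖W‖ = |W.2| := by
    rw [Prod.norm_def, Real.norm_eq_abs, Real.norm_eq_abs]
    apply max_eq_right
    rcases h1' with h | h
    · by_contra hc
      push Not at hc
      have h3 : ‖W‖ = |W.1| := by
        rw [Prod.norm_def, Real.norm_eq_abs, Real.norm_eq_abs]
        exact max_eq_left hc.le
      have h4 : |W.1| ≤ ‖fld k z a‖ := by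
        rw [e1]
        simpa using norm_snd_le (fld k z a)
      linarith
    · exact h
  have h5 : |W.1| ≤ |W.2| := by
    rw [← hmax]
    simpa using norm_fst_le W
  have h6 : |V k ((T k)^[a + 1] z).2 * W.2 - W.1| ≤ |W.2| := by
    rw [← e2, ← hmax]
    refine le_trans ?_ h2
    simpa using norm_snd_le (fld k z (a + 2))
  have hp : 0 < |W.2| := hmax ▸ h0
  have h7 : |V k ((T k)^[a + 1] z).2| * |W.2| ≤ 2 * |W.2| := by
    rw [← abs_mul]
    calc |V k ((T k)^[a + 1] z).2 * W.2|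
        = |(V k ((T k)^[a + 1] z).2 * W.2 - W.1) + W.1| := by ring_nf
      _ ≤ |V k ((T k)^[a + 1] z).2 * W.2 - W.1| + |W.1| := abs_add_le _ _
      _ ≤ 2 * |W.2| := by linarith
  exact le_of_mul_le_mul_right h7 hp

/-- two valid starts which see one time at comparable sizes are close -/
theorem sub_lt {k : ℝ} {L : ℕ} {z : Tor} {n₁ n₂ a : ℕ} (hk : 100 ≤ k) (hL : 3 ≤ L)
    (h12 : n₁ ≤ n₂) (h2a : n₂ ≤ a) {i : ℕ}
    (hv : RV k L ((T k)^[n₁] z) (a - n₁))
    (hlo : k ^ (300 * i) ≤ ‖fld k ((T k)^[n₂] z) (a - n₂)‖)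
    (hhi : ‖fld k ((T k)^[n₁] z) (a - n₁)‖ < k ^ (300 * (i + 1))) : n₂ < n₁ + L := by
  by_contra hc
  push Not at hc
  have hk0 : (0:ℝ) < k := by linarith
  obtain ⟨m, rfl⟩ := Nat.exists_eq_add_of_le h12
  obtain ⟨n, rfl⟩ := Nat.exists_eq_add_of_le h2a
  have e1 : n₁ + m + n - n₁ = m + n := by omega
  have e2 : n₁ + m + n - (n₁ + m) = n := by omega
  rw [e1] at hv hhi
  rw [e2] at hlo
  have e3 : (T k)^[n₁ + m] z = (T k)^[m] ((T k)^[n₁] z) := by
    rw [add_comm, Function.iterate_add_apply]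
  rw [e3] at hlo
  have hs := sep (κ := k ^ 400) hk hL (by omega) hv (by positivity) le_rfl
  have h1 : k ^ 400 * k ^ (300 * i) ≤ 2 * k ^ (300 * (i + 1)) := by
    calc k ^ 400 * k ^ (300 * i) ≤ k ^ 400 * ‖fld k ((T k)^[m] ((T k)^[n₁] z)) n‖ := by
          gcongr
      _ ≤ 2 * ‖fld k ((T k)^[n₁] z) (m + n)‖ := hs
      _ ≤ 2 * k ^ (300 * (i + 1)) := by linarith
  have h2 : k ^ 400 * k ^ (300 * i) = k ^ 100 * k ^ (300 * (i + 1)) := by
    rw [← pow_add, ← pow_add]
    congr 1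
    ring
  rw [h2] at h1
  have h3 : k ^ 100 ≤ 2 := le_of_mul_le_mul_right h1 (by positivity)
  have h4 : k ≤ k ^ 100 := le_self_pow₀ (by linarith) (by norm_num)
  linarith

/-- the size class of a start -/
theorem exists_class {k x : ℝ} (hk : 1 < k) (hx : 1 ≤ x) {D₀ : ℕ} (hD : x ≤ k ^ (300 * D₀)) :
    ∃ i ≤ D₀, k ^ (300 * i) ≤ x ∧ x < k ^ (300 * (i + 1)) := by
  have hk1 : (1:ℝ) < k ^ 300 := one_lt_pow₀ hk (by norm_num)
  obtain ⟨i, hi1, hi2⟩ := exists_nat_pow_near hx hk1
  rw [← pow_mul] at hi1 hi2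
  refine ⟨i, ?_, hi1, hi2⟩
  by_contra hc
  push Not at hc
  have h1 : k ^ (300 * (D₀ + 1)) ≤ k ^ (300 * i) :=
    pow_le_pow_right₀ hk.le (by omega)
  have h2 : k ^ (300 * D₀) < k ^ (300 * (D₀ + 1)) :=
    pow_lt_pow_right₀ hk (by omega)
  linarith

open Classical in
/-- **counting**: valid starts of small size are paid by near critical times. -/
theorem count_small {k : ℝ} {L : ℕ} {z : Tor} {N D₀ : ℕ} (hk : 100 ≤ k) (hL : 3 ≤ L)
    (S : Finset ℕ) (a : ℕ → ℕ) (Cr : ℕ → Prop)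
    (hle : ∀ n ∈ S, n ≤ a n) (haN : ∀ n ∈ S, a n < N)
    (hv : ∀ n ∈ S, RV k L ((T k)^[n] z) (a n - n))
    (h1 : ∀ n ∈ S, 1 ≤ ‖fld k ((T k)^[n] z) (a n - n)‖)
    (h2 : ∀ n ∈ S, ‖fld k ((T k)^[n] z) (a n - n)‖ ≤ k ^ (300 * D₀))
    (hc : ∀ n ∈ S, Cr (a n)) :
    S.card ≤ L * (D₀ + 1) * ((range N).filter Cr).card := by
  have hcl : ∀ n ∈ S, ∃ i ≤ D₀, k ^ (300 * i) ≤ ‖fld k ((T k)^[n] z) (a n - n)‖ ∧
      ‖fld k ((T k)^[n] z) (a n - n)‖ < k ^ (300 * (i + 1)) := fun n hn =>
    exists_class (by linarith) (h1 n hn) (h2 n hn)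
  choose! cl hcl1 hcl2 hcl3 using hcl
  set B : Finset (ℕ × ℕ) := ((range N).filter Cr) ×ˢ (range (D₀ + 1)) with hB
  have hmaps : ∀ n ∈ S, (a n, cl n) ∈ B := by
    intro n hn
    rw [hB, Finset.mem_product, Finset.mem_filter, Finset.mem_range, Finset.mem_range]
    exact ⟨⟨haN n hn, hc n hn⟩, by have := hcl1 n hn; omega⟩
  have hfib : ∀ b ∈ B, (S.filter (fun n => (a n, cl n) = b)).card ≤ L := by
    intro b _
    by_cases hne : (S.filter (fun n => (a n, cl n) = b)).Nonempty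
    · set n₀ := (S.filter (fun n => (a n, cl n) = b)).min' hne with hn0
      have hm0 : n₀ ∈ S.filter (fun n => (a n, cl n) = b) := Finset.min'_mem _ _
      rw [Finset.mem_filter] at hm0
      have hsub : S.filter (fun n => (a n, cl n) = b) ⊆ Ico n₀ (n₀ + L) := by
        intro n hn
        have hle' : n₀ ≤ n := Finset.min'_le _ _ hn
        rw [Finset.mem_filter] at hn
        rw [Finset.mem_Ico]
        refine ⟨hle', ?_⟩
        have e : (a n, cl n) = (a n₀, cl n₀) := hn.2.trans hm0.2.symm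
        have ea : a n = a n₀ := (Prod.ext_iff.1 e).1
        have ec : cl n = cl n₀ := (Prod.ext_iff.1 e).2
        refine sub_lt (i := cl n₀) hk hL hle' (a := a n₀) ?_ (hv n₀ hm0.1) ?_ (hcl3 n₀ hm0.1)
        · rw [← ea]; exact hle n hn.1
        · rw [← ea, ← ec]; exact hcl2 n hn.1
      calc _ ≤ (Ico n₀ (n₀ + L)).card := Finset.card_le_card hsub
        _ = L := by simp
    · rw [Finset.not_nonempty_iff_eq_empty] at hne
      rw [hne]
      simp
  have h := Finset.card_le_mul_card_image_of_maps_to hmaps L hfib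
  calc S.card ≤ L * B.card := h
    _ = L * (D₀ + 1) * ((range N).filter Cr).card := by
      rw [hB, Finset.card_product, Finset.card_range]
      ring

/-! ## time reversal -/

theorem T_swap_T (k : ℝ) (z : Tor) : T k (T k z).swap = z.swap := by
  unfold T
  ext <;> simp

theorem iterate_swap (k : ℝ) (z : Tor) {N n : ℕ} (hn : n ≤ N) :
    (T k)^[n] ((T k)^[N] z).swap = ((T k)^[N - n] z).swap := by
  induction n with
  | zero => simp
  | succ n ih =>
    rw [Function.iterate_succ_apply', ih (by omega)]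
    have e : N - n = (N - (n + 1)) + 1 := by omega
    rw [e, Function.iterate_succ_apply', T_swap_T]

/-- the digits of the reversed orbit -/
theorem V_swap (k : ℝ) (z : Tor) {N n : ℕ} (hn : n < N) :
    V k ((T k)^[n] ((T k)^[N] z).swap).2 = V k ((T k)^[N - 1 - n] z).2 := by
  rw [iterate_swap k z hn.le]
  have e : N - n = (N - 1 - n) + 1 := by omega
  rw [e, Function.iterate_succ_apply']
  rfl

open Classical in
/-- the number of near critical times of the reversed orbit -/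
theorem card_crit_swap (k : ℝ) (z : Tor) (N : ℕ) (P : ℝ → Prop) :
    ((range N).filter (fun n => P (V k ((T k)^[n] ((T k)^[N] z).swap).2))).card =
      ((range N).filter (fun n => P (V k ((T k)^[n] z).2))).card := by
  apply Finset.card_bij (fun n _ => N - 1 - n)
  · intro n hn
    rw [Finset.mem_filter, Finset.mem_range] at hn ⊢
    exact ⟨by omega, by rw [← V_swap k z hn.1]; exact hn.2⟩
  · intro n hn m hm h
    rw [Finset.mem_filter, Finset.mem_range] at hn hm
    omega
  · intro n hn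
    rw [Finset.mem_filter, Finset.mem_range] at hn
    refine ⟨N - 1 - n, ?_, by omega⟩
    rw [Finset.mem_filter, Finset.mem_range]
    refine ⟨by omega, ?_⟩
    rw [V_swap k z (by omega)]
    have e : N - 1 - (N - 1 - n) = n := by omega
    rw [e]
    exact hn.2

/-- a start `n` of `z` (forward) which has a top of size `≤ k ^ (300 D₀)` before time `N`
followed by a decrease, and which is relaxed valid up to this top -/
def SmallStart (k : ℝ) (L D₀ N : ℕ) (z : Tor) (n : ℕ) : Prop :=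
  ∃ t : ℕ, 1 ≤ t ∧ n + t < N ∧ RV k L ((T k)^[n] z) t ∧ L ≤ t ∧
    (∀ j < t, ‖fld k ((T k)^[n] z) j‖ < ‖fld k ((T k)^[n] z) t‖) ∧
    ‖fld k ((T k)^[n] z) (t + 1)‖ ≤ ‖fld k ((T k)^[n] z) t‖ ∧
    ‖fld k ((T k)^[n] z) t‖ ≤ k ^ (300 * D₀)

theorem fld_iterate_V (k : ℝ) (z : Tor) (n t : ℕ) :
    V k ((T k)^[t] ((T k)^[n] z)).2 = V k ((T k)^[n + t] z).2 := by
  rw [← Function.iterate_add_apply, add_comm]

open Classical in
/-- **NC, forward.** -/
theorem card_small_le {k : ℝ} {L : ℕ} (hk : 100 ≤ k) (hL : 3 ≤ L) (z : Tor) (N D₀ : ℕ) :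
    ((range N).filter (fun n => SmallStart k L D₀ N z n)).card ≤
      L * (D₀ + 1) * ((range N).filter (fun n => |V k ((T k)^[n] z).2| ≤ 2)).card := by
  have hex : ∀ n ∈ (range N).filter (fun n => SmallStart k L D₀ N z n),
      ∃ t : ℕ, 1 ≤ t ∧ n + t < N ∧ RV k L ((T k)^[n] z) t ∧ L ≤ t ∧
    (∀ j < t, ‖fld k ((T k)^[n] z) j‖ < ‖fld k ((T k)^[n] z) t‖) ∧
    ‖fld k ((T k)^[n] z) (t + 1)‖ ≤ ‖fld k ((T k)^[n] z) t‖ ∧
    ‖fld k ((T k)^[n] z) t‖ ≤ k ^ (300 * D₀) := by
    intro n hn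
    rw [Finset.mem_filter] at hn
    exact hn.2
  choose! t ht1 htN htv htL htf htd htD using hex
  refine count_small (z := z) hk hL _ (fun n => n + t n) (fun n => |V k ((T k)^[n] z).2| ≤ 2)
    (fun n _ => Nat.le_add_right _ _) (fun n hn => htN n hn) ?_ ?_ ?_ ?_
  · intro n hn
    simp only [Nat.add_sub_cancel_left]
    exact htv n hn
  · intro n hn
    simp only [Nat.add_sub_cancel_left]
    have h := (htv n hn).big' hk (htL n hn) le_rfl
    have : (1:ℝ) ≤ k ^ 494 := one_le_pow₀ (by linarith)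
    linarith
  · intro n hn
    simp only [Nat.add_sub_cancel_left]
    exact htD n hn
  · intro n hn
    have ht := ht1 n hn
    have hb := (htv n hn).big' hk (htL n hn) le_rfl
    have hf := htf n hn (t n - 1) (by omega)
    have hd := htd n hn
    have key : |V k ((T k)^[t n] ((T k)^[n] z)).2| ≤ 2 := by
      obtain ⟨a, ha⟩ : ∃ a, t n = a + 1 := ⟨t n - 1, by omega⟩
      rw [ha] at hb hf hd ⊢
      simp only [Nat.add_sub_cancel] at hf
      exact abs_V_le_two (lt_of_lt_of_le (by positivity) hb) (Or.inl hf) hd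
    rw [fld_iterate_V] at key
    exact key

open Classical in
/-- **NC, backward**: starts of the reversed orbit (the start at the time `w ≤ N` of `z` is the
start `N - w` of `((T k)^[N] z).swap`). -/
theorem card_small_swap_le {k : ℝ} {L : ℕ} (hk : 100 ≤ k) (hL : 3 ≤ L) (z : Tor) (N D₀ : ℕ) :
    ((range N).filter (fun n => SmallStart k L D₀ N ((T k)^[N] z).swap n)).card ≤
      L * (D₀ + 1) * ((range N).filter (fun n => |V k ((T k)^[n] z).2| ≤ 2)).card := by
  refine (card_small_le hk hL _ N D₀).trans (le_of_eq ?_)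
  rw [card_crit_swap k z N (fun x => |x| ≤ 2)]

/-! ## from a violation to a small start -/

/-- the first maximum of a finite sequence -/
theorem exists_first_argmax (g : ℕ → ℝ) (n : ℕ) :
    ∃ t ≤ n, (∀ j < t, g j < g t) ∧ ∀ j ≤ n, g j ≤ g t := by
  classical
  obtain ⟨t₀, ht₀, hmax⟩ := Finset.exists_max_image (range (n + 1)) g ⟨0, by simp⟩
  have hP : ∃ t, t ≤ n ∧ ∀ j ≤ n, g j ≤ g t :=
    ⟨t₀, by have := Finset.mem_range.1 ht₀; omega, fun j hj => hmax j (Finset.mem_range.2 (by omega))⟩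
  refine ⟨Nat.find hP, (Nat.find_spec hP).1, ?_, (Nat.find_spec hP).2⟩
  intro j hj
  by_contra hc
  push Not at hc
  have := (Nat.find_min hP hj)
  apply this
  have h1 := Nat.find_spec hP
  exact ⟨by omega, fun i hi => (h1.2 i hi).trans hc⟩

/-- a start with a violation (drop) at `n'`, relaxed valid before, with all sizes
`≤ k ^ (300 D₀)`, is a small start. -/
theorem smallStart_of_drop {k : ℝ} {L D₀ N : ℕ} {z : Tor} {n n' : ℕ}
    (hN : n + n' ≤ N) (hLn : 1 ≤ L)
    (hv : ∀ m < n', RV k L ((T k)^[n] z) m)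
    (hreg : ∀ j < L, ‖fld k ((T k)^[n] z) j‖ < ‖fld k ((T k)^[n] z) L‖)
    (hL' : L < n')
    {i : ℕ} (hi : i ≤ n') (hdrop : ‖fld k ((T k)^[n] z) n'‖ < ‖fld k ((T k)^[n] z) i‖)
    (hD : ∀ m < n', ‖fld k ((T k)^[n] z) m‖ ≤ k ^ (300 * D₀)) :
    SmallStart k L D₀ N z n := by
  set g : ℕ → ℝ := fun j => ‖fld k ((T k)^[n] z) j‖ with hg
  obtain ⟨t, htn, hfirst, hmax⟩ := exists_first_argmax g n'
  have htn' : t ≠ n' := by
    rintro rfl
    have := hmax i hi
    have : g i ≤ g t := this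
    have h2 : g t < g i := hdrop
    linarith
  have htlt : t < n' := lt_of_le_of_ne htn htn'
  have hLt : L ≤ t := by
    by_contra hc
    push Not at hc
    have h1 := hreg t hc
    have h2 := hmax L hL'.le
    have : g t < g L := h1
    linarith
  exact ⟨t, by omega, by omega, hv t htlt, hLt, hfirst, hmax (t + 1) (by omega), hD t htlt⟩

end Crest.Agent.R128.SmallD
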