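import Mathlib
import Crest.Agent.R128.Fin

/-!
Row 128 (helper229): root version of Part A, `N`-free form.
`RT k κ N r` = `∫ #{t < N | Top (bt (rr k z)) κ N t r} dz` (number of exact tops of the root contour
on `[0, N]` with both ends at least `r κ` lower), `LR k N H` = mean number of pairs (top, level).
-/

set_option autoImplicit false
open MeasureTheory Filter Topology Finset
open scoped ENNReal
open Crest.AnalysisR.StandardFamily

namespace Crest.Agent.R128.StepRoot

open Crest.Agent.R128 Crest.Agent.R128.Acc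

theorem continuous_rr (k : ℝ) (n : ℕ) : Continuous fun z => rr k z n := by
  unfold rr rn
  have h := continuous_Mn k n
  have e : ∀ i j, Continuous (fun z => Mn k n z i j) := fun i j => h.matrix_elem i j
  exact (e 0 0).abs.add (e 0 1).abs

theorem continuous_bt (k : ℝ) (n : ℕ) : Continuous fun z => bt (rr k z) n := by
  unfold bt
  refine Continuous.log ((continuous_rr k n).max (continuous_rr k (n + 1))) fun z => ?_
  exact (lt_max_of_lt_left (rr_pos k z n)).ne'

theorem measurableSet_Top (k κ : ℝ) (N t r : ℕ) :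
    MeasurableSet {z : Tor | Top (bt (rr k z)) κ N t r} := by
  have e : {z : Tor | Top (bt (rr k z)) κ N t r} = ⋃ (a : ℕ) (b : ℕ) (_ : a < t ∧ t < b ∧ b ≤ N),
      ({z | bt (rr k z) a ≤ bt (rr k z) t - r * κ} ∩ {z | bt (rr k z) b ≤ bt (rr k z) t - r * κ} ∩
      (⋂ (m : ℕ) (_ : a ≤ m) (_ : m ≤ b), {z | bt (rr k z) m ≤ bt (rr k z) t}) ∩
      {z | bt (rr k z) (t - 1) < bt (rr k z) t}) := by
    ext z
    simp only [Set.mem_iUnion, Set.mem_inter_iff, Set.mem_iInter, Set.mem_ofPred_eq, Acc.Top]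
    constructor
    · rintro ⟨a, b, h1, h2, h3, h4, h5, h6, h7⟩
      exact ⟨a, b, ⟨h1, h2, h3⟩, ⟨⟨h4, h5⟩, h6⟩, h7⟩
    · rintro ⟨a, b, ⟨h1, h2, h3⟩, ⟨⟨h4, h5⟩, h6⟩, h7⟩
      exact ⟨a, b, h1, h2, h3, h4, h5, h6, h7⟩
  rw [e]
  have c := fun n => continuous_bt k n
  refine MeasurableSet.iUnion fun a => MeasurableSet.iUnion fun b => MeasurableSet.iUnion fun _ => ?_
  refine (((isClosed_le (c a) ((c t).sub continuous_const)).measurableSet.inter
    (isClosed_le (c b) ((c t).sub continuous_const)).measurableSet).inter ?_).inter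
    (isOpen_lt (c (t - 1)) (c t)).measurableSet
  exact MeasurableSet.iInter fun m => MeasurableSet.iInter fun _ => MeasurableSet.iInter fun _ =>
    (isClosed_le (c m) (c t)).measurableSet

open Classical in
/-- mean number of exact tops of height `≥ r κ` -/
noncomputable def RT (k κ : ℝ) (N r : ℕ) : ℝ :=
  ∫ z : Tor, (#{t ∈ range N | Top (bt (rr k z)) κ N t r} : ℝ)

theorem Top_anti {β : ℕ → ℝ} {κ : ℝ} (hκ : 0 ≤ κ) {N t r r' : ℕ} (h : r' ≤ r)
    (H : Top β κ N t r) : Top β κ N t r' := by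
  obtain ⟨a, b, h1, h2, h3, h4, h5, h6, h7⟩ := H
  have : (r' : ℝ) * κ ≤ r * κ := mul_le_mul_of_nonneg_right (by exact_mod_cast h) hκ
  exact ⟨a, b, h1, h2, h3, by linarith, by linarith, h6, h7⟩

theorem Top_half {β : ℕ → ℝ} {κ : ℝ} {N t r : ℕ} : Top β (κ / 2) N t (2 * r) ↔ Top β κ N t r := by
  have e : ((2 * r : ℕ) : ℝ) * (κ / 2) = r * κ := by push_cast; ring
  unfold Acc.Top
  rw [e]

open Classical in
theorem card_eq_sum (k κ : ℝ) (N r : ℕ) (z : Tor) :
    (#{t ∈ range N | Top (bt (rr k z)) κ N t r} : ℝ) =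
      ∑ t ∈ range N, {z : Tor | Top (bt (rr k z)) κ N t r}.indicator (fun _ => (1:ℝ)) z := by
  rw [Finset.card_filter]
  push_cast
  refine Finset.sum_congr rfl fun t _ => ?_
  rw [Set.indicator_apply]
  simp only [Set.mem_ofPred_eq]

theorem integrable_ind (k κ : ℝ) (N t r : ℕ) :
    Integrable ({z : Tor | Top (bt (rr k z)) κ N t r}.indicator (fun _ => (1:ℝ)))
      (volume : Measure Tor) :=
  (integrable_const (1:ℝ)).indicator (measurableSet_Top k κ N t r)

open Classical in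
theorem integrable_card (k κ : ℝ) (N r : ℕ) :
    Integrable (fun z : Tor => (#{t ∈ range N | Top (bt (rr k z)) κ N t r} : ℝ)) volume := by
  have : (fun z : Tor => (#{t ∈ range N | Top (bt (rr k z)) κ N t r} : ℝ)) = fun z =>
      ∑ t ∈ range N, {z : Tor | Top (bt (rr k z)) κ N t r}.indicator (fun _ => (1:ℝ)) z := by
    ext z
    exact card_eq_sum k κ N r z
  rw [this]
  exact integrable_finsetSum _ fun t _ => integrable_ind k κ N t r

theorem RT_nonneg (k κ : ℝ) (N r : ℕ) : 0 ≤ RT k κ N r :=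
  integral_nonneg fun z => Nat.cast_nonneg _

theorem RT_anti {k κ : ℝ} (hκ : 0 ≤ κ) (N : ℕ) {r r' : ℕ} (h : r' ≤ r) :
    RT k κ N r ≤ RT k κ N r' := by
  classical
  refine integral_mono (integrable_card k κ N r) (integrable_card k κ N r') fun z => ?_
  have : #{t ∈ range N | Top (bt (rr k z)) κ N t r} ≤
      #{t ∈ range N | Top (bt (rr k z)) κ N t r'} :=
    Finset.card_le_card (Finset.monotone_filter_right _ fun t _ H => Top_anti hκ h H)
  exact Nat.cast_le.2 this

open Classical in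
theorem RT_half (k κ : ℝ) (N r : ℕ) : RT k (κ / 2) N (2 * r) = RT k κ N r := by
  unfold RT
  refine integral_congr_ae (Filter.Eventually.of_forall fun z => ?_)
  have : {t ∈ range N | Acc.Top (bt (rr k z)) (κ / 2) N t (2 * r)} =
      {t ∈ range N | Acc.Top (bt (rr k z)) κ N t r} :=
    Finset.filter_congr fun t _ => Top_half
  exact congrArg (fun s : Finset ℕ => (s.card : ℝ)) this

theorem RT_le {k κ : ℝ} (hk : 1 ≤ k) (N r : ℕ) : RT k κ N r ≤ N * (2 / k) := by
  classical
  unfold RT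
  calc ∫ z : Tor, (#{t ∈ range N | Top (bt (rr k z)) κ N t r} : ℝ)
      = ∫ z : Tor, ∑ t ∈ range N,
          {z : Tor | Top (bt (rr k z)) κ N t r}.indicator (fun _ => (1:ℝ)) z := by
        congr 1
        ext z
        exact card_eq_sum k κ N r z
    _ = ∑ t ∈ range N, (volume : Measure Tor).real {z : Tor | Top (bt (rr k z)) κ N t r} := by
        rw [integral_finsetSum _ fun t _ => integrable_ind k κ N t r]
        refine Finset.sum_congr rfl fun t _ => ?_
        rw [integral_indicator (measurableSet_Top k κ N t r)]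
        simp
    _ ≤ ∑ t ∈ range N, 2 / k := by
        refine Finset.sum_le_sum fun t _ => ?_
        refine le_trans ?_ (NT_le hk (r * κ) N)
        have h1 : {z : Tor | Top (bt (rr k z)) κ N t r} ⊆
            (T k)^[t] ⁻¹' {z | TIP k (r * κ) N z} := fun z hz => TIP_of_Top hz
        have h2 := measureReal_mono (μ := (volume : Measure Tor)) h1
        refine h2.trans (le_of_eq ?_)
        unfold NT
        rw [measureReal_def, measureReal_def,
          (mp_iter k t).measure_preimage (Fin.measurableSet_TIP k _ N).nullMeasurableSet]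
    _ = N * (2 / k) := by
        rw [Finset.sum_const, card_range, nsmul_eq_mul]

/-- mean number of pairs (exact top, level `≤ H`) of the root contour -/
noncomputable def LR (k : ℝ) (N H : ℕ) : ℝ := (∑ l ∈ Icc 1 H, RT k (Real.log k) N l) / N

theorem LR_nonneg (k : ℝ) (N H : ℕ) : 0 ≤ LR k N H :=
  div_nonneg (Finset.sum_nonneg fun l _ => RT_nonneg _ _ _ _) (Nat.cast_nonneg N)

theorem LR_le {k : ℝ} (hk : 1 ≤ k) (N H : ℕ) : LR k N H ≤ 2 * H / k := by
  unfold LR
  have hk0 : (0:ℝ) < k := by linarith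
  rcases Nat.eq_zero_or_pos N with rfl | hN
  · simp
    positivity
  · have hN' : (0:ℝ) < N := by exact_mod_cast hN
    rw [div_le_iff₀ hN']
    calc ∑ l ∈ Icc 1 H, RT k (Real.log k) N l ≤ ∑ _l ∈ Icc 1 H, (N : ℝ) * (2 / k) :=
          Finset.sum_le_sum fun l _ => RT_le hk N l
      _ = 2 * H / k * N := by
          rw [Finset.sum_const, Nat.card_Icc, nsmul_eq_mul]
          simp
          ring

theorem LR_mono {k : ℝ} (N : ℕ) {H H' : ℕ} (h : H ≤ H') : LR k N H ≤ LR k N H' := by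
  unfold LR
  refine div_le_div_of_nonneg_right ?_ (Nat.cast_nonneg N)
  refine Finset.sum_le_sum_of_subset_of_nonneg (Finset.Icc_subset_Icc_right h) fun l _ _ =>
    RT_nonneg _ _ _ _

/-- the levels cost less and less: `LR (a H) ≤ a LR H` -/
theorem LR_mul_le {k : ℝ} (hk : 1 ≤ k) (N H a : ℕ) : LR k N (a * H) ≤ a * LR k N H := by
  unfold LR
  rw [mul_div_assoc']
  refine div_le_div_of_nonneg_right ?_ (Nat.cast_nonneg N)
  have hl : 0 ≤ Real.log k := Real.log_nonneg hk
  induction a with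
  | zero => simp
  | succ a ih =>
    have e : Icc 1 ((a + 1) * H) = Icc 1 (a * H) ∪ Icc (a * H + 1) (a * H + H) := by
      ext x
      simp only [mem_Icc, mem_union]
      have : (a + 1) * H = a * H + H := by ring
      omega
    have hd : Disjoint (Icc 1 (a * H)) (Icc (a * H + 1) (a * H + H)) := by
      rw [Finset.disjoint_left]
      intro x hx hy
      simp only [mem_Icc] at hx hy
      omega
    rw [e, Finset.sum_union hd]
    have h2 : ∑ l ∈ Icc (a * H + 1) (a * H + H), RT k (Real.log k) N l ≤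
        ∑ l ∈ Icc 1 H, RT k (Real.log k) N l := by
      have e2 : Icc (a * H + 1) (a * H + H) = (Icc 1 H).image (fun l => a * H + l) := by
        ext x
        simp only [mem_Icc, mem_image]
        constructor
        · intro hx
          exact ⟨x - a * H, by omega, by omega⟩
        · rintro ⟨l, hl, rfl⟩
          omega
      rw [e2, Finset.sum_image (by intro x _ y _ hxy; simpa using hxy)]
      exact Finset.sum_le_sum fun l _ => RT_anti hl N (by omega)
    push_cast
    linarith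

open Classical in
/-- **integrated accounting**, root version -/
theorem integrated_root {k κ : ℝ} (hk : 1 ≤ k) (hκ : 0 < κ) (N R : ℕ)
    (hR : N * Real.log (3 + 2 * Real.pi * k) ≤ R * κ) :
    N * (Real.log k - 3 - Real.log 2
      - (5 * Real.log (3 + 2 * Real.pi * k) + 4 * κ) * ((Real.exp κ + 1) / k))
      - 4 * κ * ∑ r ∈ Ico 1 R, RT k κ N r - Real.log 2 ≤ ∫ z : Tor, lm k N z := by
  set c1 := 5 * Real.log (3 + 2 * Real.pi * k) + 4 * κ with hc1
  have hc1n : 0 ≤ c1 := by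
    have : 0 ≤ Real.log (3 + 2 * Real.pi * k) := Real.log_nonneg (by
      have : 0 ≤ 2 * Real.pi * k := by positivity
      linarith)
    positivity
  set B : Set Tor := {z | |V k z.2| ≤ Real.exp κ + 1} with hB
  have hBm : MeasurableSet B :=
    (isClosed_le ((continuous_V k).comp continuous_snd).abs continuous_const).measurableSet
  have hBI : Integrable (B.indicator (fun _ => (1:ℝ))) (volume : Measure Tor) :=
    (integrable_const (1:ℝ)).indicator hBm
  have hlI : Integrable (fun z => lm k 1 z - Real.log 2) (volume : Measure Tor) :=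
    (integrable_lm k 1).sub (integrable_const _)
  have hpt : ∀ z : Tor, (∑ n ∈ range N, (lm k 1 ((T k)^[n] z) - Real.log 2)) -
      c1 * (∑ n ∈ range N, B.indicator (fun _ => (1:ℝ)) ((T k)^[n] z))
      - 4 * κ * (∑ r ∈ Ico 1 R, (#{t ∈ range N | Top (bt (rr k z)) κ N t r} : ℝ))
      ≤ lm k N z + Real.log 2 := by
    intro z
    have h := accounting (ρ := rr k z) (V := dg k z) (L := Real.log (3 + 2 * Real.pi * k)) (κ := κ)
      (fun n => abs_nonneg _) (rr_pos k z) (rr_h1 k z) (rr_h2 k z) (rr_h3 k z) (rr_h4 k z)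
      (rr_zero k z) (rr_one k z)
      (fun n => Real.log_le_log (by have := abs_nonneg (V k ((T k)^[n] z).2); unfold dg; linarith)
        (by linarith [dg_le k (by linarith) z n])) hκ N R hR
    have h1 := bt_le_lm k N z
    have h2 : (∑ n ∈ range N, (lm k 1 ((T k)^[n] z) - Real.log 2)) ≤
        ∑ n ∈ range N, gn (dg k z n) := Finset.sum_le_sum fun n _ => gn_ge k _
    have e1 : (#{n ∈ range N | dg k z n < Real.exp κ + 1} : ℝ) ≤
        ∑ n ∈ range N, B.indicator (fun _ => (1:ℝ)) ((T k)^[n] z) := by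
      rw [Finset.card_filter]
      push_cast
      refine Finset.sum_le_sum fun n _ => ?_
      rw [Set.indicator_apply]
      split_ifs with h1 h2 h2
      · exact le_rfl
      · exact absurd h1.le h2
      · norm_num
      · exact le_rfl
    have e3 := mul_le_mul_of_nonneg_left e1 hc1n
    linarith
  have i1 : Integrable (fun z : Tor => ∑ n ∈ range N, (lm k 1 ((T k)^[n] z) - Real.log 2)) volume :=
    integrable_finsetSum _ fun n _ => integrable_comp_iter n hlI
  have i2 : Integrable (fun z : Tor => c1 * ∑ n ∈ range N, B.indicator (fun _ => (1:ℝ))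
      ((T k)^[n] z)) volume :=
    (integrable_finsetSum _ fun n _ => integrable_comp_iter n hBI).const_mul _
  have i3 : Integrable (fun z : Tor => 4 * κ * ∑ r ∈ Ico 1 R,
      (#{t ∈ range N | Top (bt (rr k z)) κ N t r} : ℝ)) volume :=
    (integrable_finsetSum _ fun r _ => integrable_card k κ N r).const_mul _
  have hI : ∫ z : Tor, ((∑ n ∈ range N, (lm k 1 ((T k)^[n] z) - Real.log 2)) -
      c1 * (∑ n ∈ range N, B.indicator (fun _ => (1:ℝ)) ((T k)^[n] z))
      - 4 * κ * (∑ r ∈ Ico 1 R, (#{t ∈ range N | Top (bt (rr k z)) κ N t r} : ℝ)))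
      ≤ ∫ z : Tor, (lm k N z + Real.log 2) :=
    integral_mono ((i1.sub i2).sub i3) ((integrable_lm k N).add (integrable_const _)) hpt
  have j1 : ∫ z : Tor, ∑ n ∈ range N, (lm k 1 ((T k)^[n] z) - Real.log 2) =
      N * ((∫ z : Tor, lm k 1 z) - Real.log 2) := by
    rw [integral_finsetSum _ fun n _ => integrable_comp_iter n hlI]
    have : ∀ n, ∫ z : Tor, (lm k 1 ((T k)^[n] z) - Real.log 2) =
        (∫ z : Tor, lm k 1 z) - Real.log 2 := by
      intro n
      rw [integral_comp_iter (f := fun z => lm k 1 z - Real.log 2) n hlI.aestronglyMeasurable,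
        integral_sub (integrable_lm k 1) (integrable_const _)]
      simp
    rw [Finset.sum_congr rfl fun n _ => this n]
    simp only [Finset.sum_const, Finset.card_range, nsmul_eq_mul]
  have j2 : ∫ z : Tor, c1 * ∑ n ∈ range N, B.indicator (fun _ => (1:ℝ)) ((T k)^[n] z) =
      c1 * (N * (volume : Measure Tor).real B) := by
    rw [integral_const_mul, integral_finsetSum _ fun n _ => integrable_comp_iter n hBI]
    have : ∀ n, ∫ z : Tor, B.indicator (fun _ => (1:ℝ)) ((T k)^[n] z) =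
        (volume : Measure Tor).real B := by
      intro n
      rw [integral_comp_iter (f := B.indicator (fun _ => (1:ℝ))) n hBI.aestronglyMeasurable,
        integral_indicator hBm]
      simp
    rw [Finset.sum_congr rfl fun n _ => this n]
    simp
  have j3 : ∫ z : Tor, 4 * κ * ∑ r ∈ Ico 1 R,
      (#{t ∈ range N | Top (bt (rr k z)) κ N t r} : ℝ) =
      4 * κ * (∑ r ∈ Ico 1 R, RT k κ N r) := by
    rw [integral_const_mul, integral_finsetSum _ fun r _ => integrable_card k κ N r]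
    rfl
  have k1 := integral_sub (i1.sub i2) i3
  have k2 := integral_sub i1 i2
  simp only [Pi.sub_apply] at k1 k2
  rw [k1, k2, j1, j2, j3, integral_add (integrable_lm k N) (integrable_const _)] at hI
  simp only [integral_const, probReal_univ, smul_eq_mul, one_mul] at hI
  have hl := log_sub_le_integral_lm_one hk
  have hBv : (volume : Measure Tor).real B ≤ (Real.exp κ + 1) / k :=
    volumeReal_V_le hk (by positivity)
  have hN : (0 : ℝ) ≤ N := Nat.cast_nonneg N
  have a1 := mul_le_mul_of_nonneg_left hl hN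
  have a2 := mul_le_mul_of_nonneg_left (mul_le_mul_of_nonneg_left hBv hc1n) hN
  nlinarith

theorem sum_RT_half {k : ℝ} (hk : 1 ≤ k) (N R : ℕ) :
    ∑ r ∈ Ico 1 (2 * (R + 1)), RT k (Real.log k / 2) N r ≤
      N * (2 / k) + 2 * ∑ l ∈ Ico 1 (R + 1), RT k (Real.log k) N l := by
  have hl : 0 ≤ Real.log k := Real.log_nonneg hk
  induction R with
  | zero =>
    simp only [zero_add, mul_one, Finset.Ico_self, Finset.sum_empty, mul_zero, add_zero]
    rw [show Ico 1 2 = {1} from rfl, Finset.sum_singleton]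
    exact RT_le hk _ _
  | succ R ih =>
    rw [show 2 * (R + 1 + 1) = 2 * (R + 1) + 1 + 1 by ring,
      Finset.sum_Ico_succ_top (by omega), Finset.sum_Ico_succ_top (by omega),
      Finset.sum_Ico_succ_top (by omega : 1 ≤ R + 1)]
    have a : RT k (Real.log k / 2) N (2 * (R + 1)) = RT k (Real.log k) N (R + 1) :=
      RT_half k (Real.log k) N (R + 1)
    have b : RT k (Real.log k / 2) N (2 * (R + 1) + 1) ≤ RT k (Real.log k / 2) N (2 * (R + 1)) :=
      RT_anti (by positivity) N (by omega)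
    linarith

/-- **Part A**, root version: it is enough to bound the mean number of pairs (top, level). -/
theorem torus_of_root_tops
    (H : ∃ k₁ : ℝ, ∀ k : ℝ, k₁ ≤ k → ∃ᶠ N : ℕ in atTop, ∀ R : ℕ, LR k N R ≤ 1 / 10) :
    ∃ k₀ : ℝ, 0 < k₀ ∧ ∀ k : ℝ, k₀ ≤ k → ∃ c : ℝ, 0 < c ∧
      ∃ᶠ n : ℕ in atTop, c * n ≤ ∫ z : Tor, lm k n z := by
  obtain ⟨k₁, H⟩ := H
  refine ⟨max k₁ (Real.exp 100), lt_max_of_lt_right (Real.exp_pos _), fun k hk => ?_⟩
  have hk1 : k₁ ≤ k := (le_max_left _ _).trans hk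
  have hk2 : Real.exp 100 ≤ k := (le_max_right _ _).trans hk
  have hk0 : 0 < k := (Real.exp_pos _).trans_le hk2
  set x := Real.log k with hx
  have hx100 : 100 ≤ x := by
    rw [hx, Real.le_log_iff_exp_le hk0]
    exact hk2
  have hk' : 1 ≤ k := by
    have := Real.add_one_le_exp 100
    linarith
  have hkx : k = Real.exp x := (Real.exp_log hk0).symm
  refine ⟨1, one_pos, ((H k hk1).and_eventually (eventually_ge_atTop 1)).mono ?_⟩
  rintro N ⟨hN, hN1⟩
  set κ := x / 2 with hκ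
  have hκ0 : 0 < κ := by linarith
  obtain ⟨R, hR⟩ := exists_nat_ge (N * Real.log (3 + 2 * Real.pi * k) / κ)
  have hR2 : N * Real.log (3 + 2 * Real.pi * k) ≤ ((2 * (R + 1) : ℕ) : ℝ) * κ := by
    rw [div_le_iff₀ hκ0] at hR
    push_cast
    have : (0 : ℝ) ≤ R := Nat.cast_nonneg R
    nlinarith
  have h := integrated_root hk' hκ0 N (2 * (R + 1)) hR2
  have h1 := sum_RT_half hk' N R
  have h2 := hN R
  have hNr : (1 : ℝ) ≤ N := by exact_mod_cast hN1
  have hNr0 : (0 : ℝ) < N := by linarith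
  unfold LR at h2
  rw [div_le_iff₀ hNr0] at h2
  have eI : Ico 1 (R + 1) = Icc 1 R := by
    ext l
    simp only [mem_Ico, mem_Icc]
    omega
  rw [eI] at h1
  rw [← hx] at h1 h2 h
  rw [← hκ] at h1
  set Sg := ∑ r ∈ Ico 1 (2 * (R + 1)), RT k κ N r
  have hSg : Sg ≤ N * (2 / k + 1 / 5) := by linarith
  have hlog2 : Real.log 2 ≤ 1 := by
    have := Real.log_le_sub_one_of_pos (by norm_num : (0:ℝ) < 2)
    linarith
  have hpi := Real.pi_lt_d2
  have hpi0 := Real.pi_pos
  have hL : Real.log (3 + 2 * Real.pi * k) ≤ x + 9 := by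
    have a : 3 + 2 * Real.pi * k ≤ 10 * k := by nlinarith
    have b := Real.log_le_log (by positivity) a
    rw [Real.log_mul (by norm_num) hk0.ne'] at b
    have c := Real.log_le_sub_one_of_pos (by norm_num : (0:ℝ) < 10)
    linarith
  have hL0 : 0 ≤ Real.log (3 + 2 * Real.pi * k) := Real.log_nonneg (by
    have : 0 ≤ 2 * Real.pi * k := by positivity
    linarith)
  have he : x ^ 2 / 8 ≤ Real.exp κ := by
    have := Real.quadratic_le_exp_of_nonneg hκ0.le
    rw [hκ] at this ⊢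
    nlinarith
  have hkk : k = Real.exp κ * Real.exp κ := by
    rw [← Real.exp_add, hκ, add_halves]
    exact hkx
  have heκ : 0 < Real.exp κ := Real.exp_pos κ
  have he1 : 1 ≤ Real.exp κ := by nlinarith
  have hB : (Real.exp κ + 1) / k ≤ 16 / x ^ 2 := by
    rw [div_le_div_iff₀ hk0 (by positivity)]
    nlinarith
  have hB2 : (5 * Real.log (3 + 2 * Real.pi * k) + 4 * κ) * ((Real.exp κ + 1) / k) ≤ 2 := by
    have a : 5 * Real.log (3 + 2 * Real.pi * k) + 4 * κ ≤ 7 * x + 45 := by linarith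
    have b : 0 ≤ (Real.exp κ + 1) / k := by positivity
    have c : (7 * x + 45) * (16 / x ^ 2) ≤ 2 := by
      rw [mul_div_assoc', div_le_iff₀ (by positivity)]
      nlinarith
    calc _ ≤ (7 * x + 45) * ((Real.exp κ + 1) / k) := mul_le_mul_of_nonneg_right a b
      _ ≤ (7 * x + 45) * (16 / x ^ 2) := mul_le_mul_of_nonneg_left hB (by linarith)
      _ ≤ 2 := c
  have hC : 4 * κ * Sg ≤ N * (1 + 2 * x / 5) := by
    have a : 4 * κ * Sg ≤ 4 * κ * (N * (2 / k + 1 / 5)) :=
      mul_le_mul_of_nonneg_left hSg (by positivity)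
    have b : 4 * κ * (2 / k) ≤ 1 := by
      rw [mul_div_assoc', div_le_iff₀ hk0]
      nlinarith
    have c : 4 * κ * (2 / k + 1 / 5) ≤ 1 + 2 * x / 5 := by linarith
    have d := mul_le_mul_of_nonneg_left c hNr0.le
    linarith
  have hfin : (1 : ℝ) + 1 ≤ x - 3 - Real.log 2
      - (5 * Real.log (3 + 2 * Real.pi * k) + 4 * κ) * ((Real.exp κ + 1) / k) - (1 + 2 * x / 5) := by
    linarith
  have := mul_le_mul_of_nonneg_left hfin (by linarith : (0:ℝ) ≤ N)
  linarith

/-- **S0172 from the root tops**, `LR` bounded for frequently many `N`. -/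
theorem result_of_root_tops
    (H : ∃ k₁ : ℝ, ∀ k : ℝ, k₁ ≤ k → ∃ᶠ N : ℕ in atTop, ∀ R : ℕ, LR k N R ≤ 1 / 10) :
    ∃ k₀ : ℝ, 0 < k₀ ∧ ∀ k : ℝ, k₀ ≤ k →
      0 < MeasureTheory.volume ({p : ℝ × ℝ | ∃ c : ℝ, 0 < c ∧
          ∃ᶠ n : ℕ in Filter.atTop, c * n ≤ Real.log ‖fderiv ℝ (standardMapLift k)^[n] p‖} ∩
        Set.Ico (0 : ℝ) 1 ×ˢ Set.Ico (0 : ℝ) 1) :=
  result_of_torus (torus_of_root_tops H)

/-- bootstrap on `H`, uniformly in `N` -/
theorem bootstrap_root {k d : ℝ} (hk : 1 ≤ k) {h0 : ℕ} (hh0 : 1 ≤ h0) (hb : 2 * (h0 : ℝ) / k ≤ d)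
    (hstep : ∀ H : ℕ, h0 ≤ H → (∀ N, LR k N H ≤ d) → ∀ N, LR k N H ≤ d / 2) :
    ∀ H N, LR k N H ≤ d / 2 := by
  have key : ∀ n, ∀ N, LR k N (h0 + n) ≤ d / 2 := by
    intro n
    induction n with
    | zero => exact hstep h0 le_rfl fun N => (LR_le hk N h0).trans hb
    | succ n ih =>
      apply hstep _ (by omega)
      intro N
      have h1 : LR k N (h0 + (n + 1)) ≤ LR k N (2 * (h0 + n)) := LR_mono N (by omega)
      have h2 := LR_mul_le hk N (h0 + n) 2
      have h3 := ih N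
      push_cast at h2
      linarith
  intro H N
  rcases le_total h0 H with h | h
  · obtain ⟨n, rfl⟩ := Nat.exists_eq_add_of_le h
    exact key n N
  · exact (LR_mono N h).trans (key 0 N)

/-- **Final glue**, root version, `N`-free: the bootstrap step for all `N` together. -/
theorem result_of_step_root
    (HS : ∃ k₁ : ℝ, ∀ k : ℝ, k₁ ≤ k → ∃ d : ℝ, ∃ h0 : ℕ, d ≤ 1 / 5 ∧ 1 ≤ h0 ∧ 2 * (h0 : ℝ) / k ≤ d ∧
      ∀ H : ℕ, h0 ≤ H → (∀ N, LR k N H ≤ d) → ∀ N, LR k N H ≤ d / 2) :
    ∃ k₀ : ℝ, 0 < k₀ ∧ ∀ k : ℝ, k₀ ≤ k →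
      0 < MeasureTheory.volume ({p : ℝ × ℝ | ∃ c : ℝ, 0 < c ∧
          ∃ᶠ n : ℕ in Filter.atTop, c * n ≤ Real.log ‖fderiv ℝ (standardMapLift k)^[n] p‖} ∩
        Set.Ico (0 : ℝ) 1 ×ˢ Set.Ico (0 : ℝ) 1) := by
  apply result_of_root_tops
  obtain ⟨k₁, hk₁⟩ := HS
  refine ⟨max k₁ 1, fun k hk => ?_⟩
  have hk1 : k₁ ≤ k := le_trans (le_max_left _ _) hk
  have hk2 : 1 ≤ k := le_trans (le_max_right _ _) hk
  obtain ⟨d, h0, hd, hh0, hb, hstep⟩ := hk₁ k hk1
  refine Filter.Eventually.frequently (Filter.Eventually.of_forall fun N R => ?_)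
  have := bootstrap_root hk2 hh0 hb hstep R N
  linarith

/-- Variant with a closing inequality `LR ≤ a + (1/2) sup LR`. -/
theorem result_of_closing_root
    (HS : ∃ k₁ : ℝ, ∀ k : ℝ, k₁ ≤ k → ∃ d a : ℝ, ∃ h0 : ℕ, d ≤ 1 / 5 ∧ 4 * a ≤ d ∧ 1 ≤ h0 ∧
      2 * (h0 : ℝ) / k ≤ d ∧
      ∀ H : ℕ, h0 ≤ H → ∀ L : ℝ, L ≤ d → (∀ N, LR k N H ≤ L) → ∀ N, LR k N H ≤ a + L / 4) :
    ∃ k₀ : ℝ, 0 < k₀ ∧ ∀ k : ℝ, k₀ ≤ k →
      0 < MeasureTheory.volume ({p : ℝ × ℝ | ∃ c : ℝ, 0 < c ∧
          ∃ᶠ n : ℕ in Filter.atTop, c * n ≤ Real.log ‖fderiv ℝ (standardMapLift k)^[n] p‖} ∩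
        Set.Ico (0 : ℝ) 1 ×ˢ Set.Ico (0 : ℝ) 1) := by
  apply result_of_step_root
  obtain ⟨k₁, hk₁⟩ := HS
  refine ⟨k₁, fun k hk => ?_⟩
  obtain ⟨d, a, h0, hd, ha, hh0, hb, hN⟩ := hk₁ k hk
  refine ⟨d, h0, hd, hh0, hb, fun H hH hL N => ?_⟩
  have := hN H hH d le_rfl hL N
  linarith

end Crest.Agent.R128.StepRoot
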