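import Mathlib
import Crest.Agent.R128.CellB
import Crest.Agent.R128.TaylorTwo
import Crest.Agent.R128.Align

/-!
Row 128 (helper754), node V5 / N6: the TAIL of a fresh cell.

`y, yd` of `CellB` (orbit `x_0 = c`, `x_1 = t` and its `t`-derivative).  From a start at the index `b + 1`
(`Start`: `yd (b+1)`, `yd b` are Lipschitz with relative constant `Λ` on the complex disc of radius `1/Λ`),
after `p` macroscopic digits `κ k ≤ |V(y_(b+1+j))|`, `j < p`:
* `yd (b+1+j)` is Lipschitz with relative constant `lam j ≤ 2 Λ + 4 K1 |yd (b+j)|` on the corresponding disc;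
* the content `∑ 1/(yd_i yd_(i+1))` is quadratic up to a small error.
-/

set_option autoImplicit false
open MeasureTheory Filter Topology Metric Finset
open Crest.Agent.R128 Crest.Agent.R128.Cell Crest.Agent.R128.CellB

namespace Crest.Agent.R128.Tail

/-- slope at the index `b + 1 + j` -/
noncomputable def q (k c m0 : ℝ) (b j : ℕ) : ℝ := ‖yd k c (b + 1 + j) m0‖

/-- size of the digit at the index `b + 1 + j` -/
noncomputable def vv (k c m0 : ℝ) (b j : ℕ) : ℝ := ‖cV k (y k c (b + 1 + j) m0)‖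

noncomputable def K1 (k κ : ℝ) : ℝ := 8 * CL k / (κ * k)

noncomputable def G (k κ c m0 : ℝ) (b : ℕ) (Λ : ℝ) (j : ℕ) : ℝ :=
  Λ + K1 k κ * ∑ i ∈ range j, q k c m0 b i

noncomputable def lam (k κ c m0 : ℝ) (b : ℕ) (Λ : ℝ) (j : ℕ) : ℝ :=
  (1 + 4 / (κ * k)) ^ j * G k κ c m0 b Λ j

structure Start (k c m0 : ℝ) (b : ℕ) (Λ : ℝ) : Prop where
  hΛ : 0 < Λ
  hq : 0 < ‖yd k c (b + 1) m0‖
  hprev : ‖yd k c b m0‖ ≤ ‖yd k c (b + 1) m0‖
  hcur : ∀ z : ℂ, Λ * ‖z - m0‖ ≤ 1 →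
    ‖yd k c (b + 1) z - yd k c (b + 1) m0‖ ≤ Λ * ‖yd k c (b + 1) m0‖ * ‖z - m0‖
  hpre : ∀ z : ℂ, Λ * ‖z - m0‖ ≤ 1 →
    ‖yd k c b z - yd k c b m0‖ ≤ Λ * ‖yd k c (b + 1) m0‖ * ‖z - m0‖

variable {k κ c m0 Λ : ℝ} {b p : ℕ}

theorem q_nonneg (j : ℕ) : 0 ≤ q k c m0 b j := norm_nonneg _

theorem K1_nonneg (h : 0 ≤ κ * k) : 0 ≤ K1 k κ := by
  unfold K1
  have := CL_nonneg k
  positivity

theorem yd_step (j : ℕ) (z : ℂ) : yd k c (b + 1 + (j + 1)) z =
    cV k (y k c (b + 1 + j) z) * yd k c (b + 1 + j) z - yd k c (b + j) z := by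
  have h := yd_add_two k c (b + j) z
  rw [show b + 1 + (j + 1) = b + j + 2 by ring, show b + 1 + j = b + j + 1 by ring]
  exact h

/-- growth of the slopes -/
theorem growth (hS : Start k c m0 b Λ) (hκ : 4 ≤ κ * k) (hV : ∀ j < p, κ * k ≤ vv k c m0 b j) :
    ∀ j ≤ p, 0 < q k c m0 b j ∧ ‖yd k c (b + j) m0‖ ≤ q k c m0 b j := by
  intro j
  induction j with
  | zero => intro _; exact ⟨hS.hq, hS.hprev⟩
  | succ j ih =>
    intro hj
    obtain ⟨h1, h2⟩ := ih (by omega)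
    have hv := hV j (by omega)
    have h3 : vv k c m0 b j * q k c m0 b j - ‖yd k c (b + j) m0‖ ≤ q k c m0 b (j + 1) := by
      unfold q vv
      rw [yd_step, ← norm_mul]
      exact norm_sub_norm_le _ _
    have h4 : (4:ℝ) ≤ vv k c m0 b j := hκ.trans hv
    have h5 : q k c m0 b j ≤ q k c m0 b (j + 1) := by nlinarith
    refine ⟨h1.trans_le h5, ?_⟩
    have e : b + (j + 1) = b + 1 + j := by ring
    rw [e]
    exact h5

theorem growth' (hS : Start k c m0 b Λ) (hκ : 4 ≤ κ * k) (hV : ∀ j < p, κ * k ≤ vv k c m0 b j)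
    {j : ℕ} (hj : j < p) : (vv k c m0 b j - 1) * q k c m0 b j ≤ q k c m0 b (j + 1) := by
  obtain ⟨h1, h2⟩ := growth hS hκ hV j hj.le
  have h3 : vv k c m0 b j * q k c m0 b j - ‖yd k c (b + j) m0‖ ≤ q k c m0 b (j + 1) := by
    unfold q vv
    rw [yd_step, ← norm_mul]
    exact norm_sub_norm_le _ _
  linarith

theorem growth2 (hS : Start k c m0 b Λ) (hκ : 4 ≤ κ * k) (hV : ∀ j < p, κ * k ≤ vv k c m0 b j)
    {j : ℕ} (hj : j < p) : κ * k / 2 * q k c m0 b j ≤ q k c m0 b (j + 1) := by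
  have h1 := growth' hS hκ hV hj
  have h2 := (growth hS hκ hV j hj.le).1
  have h3 := hV j hj
  nlinarith

/-- `∑_{i<j+1} q_i ≤ 2 q_j` -/
theorem sum_q_le (hS : Start k c m0 b Λ) (hκ : 4 ≤ κ * k) (hV : ∀ j < p, κ * k ≤ vv k c m0 b j) :
    ∀ j ≤ p, ∑ i ∈ range (j + 1), q k c m0 b i ≤ 2 * q k c m0 b j := by
  intro j
  induction j with
  | zero => intro _; simp; linarith [q_nonneg (k := k) (c := c) (m0 := m0) (b := b) 0]
  | succ j ih =>
    intro hj
    rw [sum_range_succ]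
    have h1 := ih (by omega)
    have h2 := growth2 hS hκ hV (j := j) (by omega)
    have h3 := (growth hS hκ hV j (by omega)).1
    nlinarith

theorem G_nonneg (hΛ : 0 ≤ Λ) (hκ : 0 ≤ κ * k) (j : ℕ) : 0 ≤ G k κ c m0 b Λ j := by
  unfold G
  have := K1_nonneg hκ
  have h2 : 0 ≤ ∑ i ∈ range j, q k c m0 b i := sum_nonneg fun i _ => q_nonneg i
  positivity

theorem lam_nonneg (hΛ : 0 ≤ Λ) (hκ : 0 ≤ κ * k) (j : ℕ) : 0 ≤ lam k κ c m0 b Λ j := by
  unfold lam
  have := G_nonneg (c := c) (m0 := m0) (b := b) hΛ hκ j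
  positivity

theorem lam_mono (hΛ : 0 ≤ Λ) (hκ : 0 ≤ κ * k) (j : ℕ) :
    (1 + 4 / (κ * k)) * lam k κ c m0 b Λ j + K1 k κ * q k c m0 b j ≤ lam k κ c m0 b Λ (j + 1) := by
  unfold lam G
  rw [sum_range_succ, pow_succ]
  have h1 := K1_nonneg hκ
  have h2 : 0 ≤ ∑ i ∈ range j, q k c m0 b i := sum_nonneg fun i _ => q_nonneg i
  have h3 := q_nonneg (k := k) (c := c) (m0 := m0) (b := b) j
  have h4 : 0 ≤ 4 / (κ * k) := by positivity
  have h5 : 1 ≤ (1 + 4 / (κ * k)) ^ j := one_le_pow₀ (by linarith)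
  have h6 : 1 ≤ (1 + 4 / (κ * k)) ^ j * (1 + 4 / (κ * k)) := by nlinarith
  have h7 : 0 ≤ K1 k κ * q k c m0 b j := by positivity
  nlinarith

/-- **Lipschitz bounds of the slopes along macroscopic digits.** -/
theorem lip (hS : Start k c m0 b Λ) (hκ : 4 ≤ κ * k) (hV : ∀ j < p, κ * k ≤ vv k c m0 b j) :
    ∀ j ≤ p, ∀ z : ℂ, Λ * ‖z - m0‖ ≤ 1 →
      (∀ i < j, lam k κ c m0 b Λ i * ‖z - m0‖ ≤ 1 ∧ 2 * q k c m0 b i * ‖z - m0‖ ≤ 1) →
      ‖yd k c (b + 1 + j) z - yd k c (b + 1 + j) m0‖ ≤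
          lam k κ c m0 b Λ j * q k c m0 b j * ‖z - m0‖ ∧
        ‖yd k c (b + j) z - yd k c (b + j) m0‖ ≤
          lam k κ c m0 b Λ j * q k c m0 b j * ‖z - m0‖ := by
  have hκ0 : 0 < κ * k := by linarith
  intro j
  induction j with
  | zero =>
    intro _ z hz _
    have e : lam k κ c m0 b Λ 0 = Λ := by simp [lam, G]
    rw [e]
    exact ⟨hS.hcur z hz, hS.hpre z hz⟩
  | succ j ih =>
    intro hj z hz hi
    have ih' := ih (by omega)
    set s := ‖z - m0‖ with hs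
    set L := lam k κ c m0 b Λ j with hL
    set Q := q k c m0 b j with hQ
    have hLj := (hi j (by omega)).1
    have hQj := (hi j (by omega)).2
    rw [← hL] at hLj
    rw [← hQ] at hQj
    have hs0 : 0 ≤ s := norm_nonneg _
    have hL0 : 0 ≤ L := lam_nonneg hS.hΛ.le hκ0.le j
    obtain ⟨hQ0, hPQ⟩ := growth hS hκ hV j (by omega)
    rw [← hQ] at hQ0 hPQ
    -- the bounds on the closed ball of radius `s`
    have hball : ∀ w ∈ closedBall (m0 : ℂ) s,
        ‖yd k c (b + 1 + j) w - yd k c (b + 1 + j) m0‖ ≤ L * Q * ‖w - m0‖ ∧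
          ‖yd k c (b + j) w - yd k c (b + j) m0‖ ≤ L * Q * ‖w - m0‖ := by
      intro w hw
      rw [mem_closedBall, dist_eq_norm] at hw
      refine ih' w ?_ ?_
      · exact (mul_le_mul_of_nonneg_left hw hS.hΛ.le).trans hz
      · intro i hij
        have h1 := hi i (by omega)
        refine ⟨(mul_le_mul_of_nonneg_left hw (lam_nonneg hS.hΛ.le hκ0.le i)).trans h1.1, ?_⟩
        refine (mul_le_mul_of_nonneg_left hw ?_).trans h1.2
        have := q_nonneg (k := k) (c := c) (m0 := m0) (b := b) i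
        positivity
    have hydle : ∀ w ∈ closedBall (m0 : ℂ) s, ‖yd k c (b + 1 + j) w‖ ≤ 2 * Q := by
      intro w hw
      have h1 := (hball w hw).1
      rw [mem_closedBall, dist_eq_norm] at hw
      have h2 : L * Q * ‖w - m0‖ ≤ Q := by
        calc L * Q * ‖w - m0‖ ≤ L * Q * s := by gcongr
          _ = (L * s) * Q := by ring
          _ ≤ 1 * Q := by gcongr
          _ = Q := one_mul _
      have h3 := norm_sub_norm_le (yd k c (b + 1 + j) w) (yd k c (b + 1 + j) m0)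
      have h4 : ‖yd k c (b + 1 + j) (m0 : ℂ)‖ = Q := rfl
      linarith
    have hzmem : z ∈ closedBall (m0 : ℂ) s := by
      rw [mem_closedBall, dist_eq_norm]
    have hm0mem : (m0 : ℂ) ∈ closedBall (m0 : ℂ) s := mem_closedBall_self hs0
    have hydiff : ‖y k c (b + 1 + j) z - y k c (b + 1 + j) m0‖ ≤ 2 * Q * s := by
      have := (convex_closedBall (m0 : ℂ) s).norm_image_sub_le_of_norm_hasDerivWithin_le
        (f := y k c (b + 1 + j)) (f' := yd k c (b + 1 + j))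
        (fun x _ => (hasDerivAt_y k c (b + 1 + j) x).hasDerivWithinAt) hydle hm0mem hzmem
      exact this
    have him0 : (y k c (b + 1 + j) (m0 : ℂ)).im = 0 := im_y_ofReal k c _ m0
    have himz : |(y k c (b + 1 + j) z).im| ≤ 1 := by
      have h1 : |(y k c (b + 1 + j) z - y k c (b + 1 + j) m0).im| ≤ 2 * Q * s :=
        (Complex.abs_im_le_norm _).trans hydiff
      rw [Complex.sub_im, him0, sub_zero] at h1
      exact h1.trans hQj
    have hVdiff : ‖cV k (y k c (b + 1 + j) z) - cV k (y k c (b + 1 + j) m0)‖ ≤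
        CL k * (2 * Q * s) := by
      refine (norm_cV_sub_le k himz (by rw [him0]; simp)).trans ?_
      have := CL_nonneg k
      gcongr
    have hb := hball z hzmem
    have hstep : yd k c (b + 1 + (j + 1)) z - yd k c (b + 1 + (j + 1)) m0 =
        (cV k (y k c (b + 1 + j) z) - cV k (y k c (b + 1 + j) m0)) * yd k c (b + 1 + j) z +
          cV k (y k c (b + 1 + j) m0) * (yd k c (b + 1 + j) z - yd k c (b + 1 + j) m0) -
          (yd k c (b + j) z - yd k c (b + j) m0) := by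
      rw [yd_step, yd_step]
      ring
    have hv := hV j (by omega)
    set v := vv k c m0 b j with hvdef
    have hn : ‖yd k c (b + 1 + (j + 1)) z - yd k c (b + 1 + (j + 1)) m0‖ ≤
        (4 * CL k * Q ^ 2 + (v + 1) * (L * Q)) * s := by
      rw [hstep]
      refine (norm_sub_le _ _).trans ?_
      refine (add_le_add (norm_add_le _ _) le_rfl).trans ?_
      rw [norm_mul, norm_mul]
      have h1 := mul_le_mul hVdiff (hydle z hzmem) (norm_nonneg _)
        (by have := CL_nonneg k; positivity)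
      have h2 : ‖cV k (y k c (b + 1 + j) (m0:ℂ))‖ *
          ‖yd k c (b + 1 + j) z - yd k c (b + 1 + j) m0‖ ≤ v * (L * Q * s) := by
        have hv0 : 0 ≤ v := by linarith
        exact mul_le_mul le_rfl hb.1 (norm_nonneg _) hv0
      have h3 := hb.2
      nlinarith
    have hQ' := growth' hS hκ hV (j := j) (by omega)
    rw [← hvdef, ← hQ] at hQ'
    have hmono := lam_mono (c := c) (m0 := m0) (b := b) hS.hΛ.le hκ0.le j
    rw [← hL, ← hQ] at hmono
    set L' := lam k κ c m0 b Λ (j + 1) with hL'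
    set Q' := q k c m0 b (j + 1) with hQ'def
    have hkey : 4 * CL k * Q ^ 2 + (v + 1) * (L * Q) ≤ L' * Q' := by
      have hCL := CL_nonneg k
      have h1 : (v + 1) ≤ (1 + 4 / (κ * k)) * (v - 1) := by
        have : 4 / (κ * k) * (v - 1) ≥ 2 := by
          rw [ge_iff_le, div_mul_eq_mul_div, le_div_iff₀ hκ0]
          nlinarith
        nlinarith
      have h2 : 4 * CL k ≤ K1 k κ * (v - 1) := by
        unfold K1
        rw [div_mul_eq_mul_div, le_div_iff₀ hκ0]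
        nlinarith
      have h3 : 0 ≤ K1 k κ := K1_nonneg hκ0.le
      have hη : 0 ≤ 4 / (κ * k) := by positivity
      have hv1 : 0 ≤ v - 1 := by linarith
      calc 4 * CL k * Q ^ 2 + (v + 1) * (L * Q)
          ≤ K1 k κ * (v - 1) * Q ^ 2 + (1 + 4 / (κ * k)) * (v - 1) * (L * Q) := by gcongr
        _ = ((1 + 4 / (κ * k)) * L + K1 k κ * Q) * ((v - 1) * Q) := by ring
        _ ≤ L' * Q' := by
            apply mul_le_mul hmono hQ' (by positivity)
            exact lam_nonneg hS.hΛ.le hκ0.le _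
    have hcurle : ‖yd k c (b + 1 + (j + 1)) z - yd k c (b + 1 + (j + 1)) m0‖ ≤ L' * Q' * s :=
      hn.trans (by gcongr)
    refine ⟨hcurle, ?_⟩
    have e : b + (j + 1) = b + 1 + j := by ring
    rw [e]
    refine hb.1.trans ?_
    have hLL : L ≤ L' := by
      have h1 := K1_nonneg hκ0.le
      have hη : 0 ≤ 4 / (κ * k) := by positivity
      nlinarith [mul_nonneg h1 hQ0.le, mul_nonneg hη hL0]
    have hQQ : Q ≤ Q' := by nlinarith
    have hL'0 : 0 ≤ L' := hL0.trans hLL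
    gcongr

theorem lam_le_succ (hΛ : 0 ≤ Λ) (hκ : 0 ≤ κ * k) (j : ℕ) :
    lam k κ c m0 b Λ j ≤ lam k κ c m0 b Λ (j + 1) := by
  have h := lam_mono (c := c) (m0 := m0) (b := b) hΛ hκ j
  have h1 := lam_nonneg (c := c) (m0 := m0) (b := b) hΛ hκ j
  have h2 := K1_nonneg hκ
  have h3 := q_nonneg (k := k) (c := c) (m0 := m0) (b := b) j
  have h4 : 0 ≤ 4 / (κ * k) := by positivity
  nlinarith [mul_nonneg h2 h3, mul_nonneg h4 h1]

theorem pow_le_two (hκ : 0 < κ * k) (hp : 8 * (p : ℝ) ≤ κ * k) {j : ℕ} (hj : j ≤ p) :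
    (1 + 4 / (κ * k)) ^ j ≤ 2 := by
  have h4 : 0 ≤ 4 / (κ * k) := by positivity
  have hjp : (j : ℝ) ≤ p := by exact_mod_cast hj
  have h1 : (1 + 4 / (κ * k)) ^ j ≤ Real.exp (4 / (κ * k)) ^ j := by
    have := Real.add_one_le_exp (4 / (κ * k))
    gcongr
    linarith
  have h2 : Real.exp (4 / (κ * k)) ^ j ≤ Real.exp (1 / 2) := by
    rw [← Real.exp_nat_mul]
    apply Real.exp_le_exp.2
    rw [mul_div_assoc', div_le_iff₀ hκ]
    linarith
  have h3 : Real.exp (1 / 2) ≤ 2 := by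
    have h5 : Real.exp (1 / 2) ^ 2 = Real.exp 1 := by
      rw [← Real.exp_nat_mul]; norm_num
    have h6 := Real.exp_one_lt_d9
    have h7 : 0 < Real.exp (1 / 2) := Real.exp_pos _
    nlinarith
  linarith

theorem lam_succ_le (hS : Start k c m0 b Λ) (hκ : 4 ≤ κ * k) (hV : ∀ j < p, κ * k ≤ vv k c m0 b j)
    (hp : 8 * (p : ℝ) ≤ κ * k) {j : ℕ} (hj : j < p) :
    lam k κ c m0 b Λ (j + 1) ≤ 2 * Λ + 4 * K1 k κ * q k c m0 b j := by
  have hκ0 : 0 < κ * k := by linarith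
  have h1 := pow_le_two hκ0 hp (j := j + 1) (by omega)
  have h2 := sum_q_le hS hκ hV j hj.le
  have h3 := K1_nonneg hκ0.le
  have h4 : 0 ≤ G k κ c m0 b Λ (j + 1) := G_nonneg hS.hΛ.le hκ0.le _
  have h5 : G k κ c m0 b Λ (j + 1) ≤ Λ + 2 * K1 k κ * q k c m0 b j := by
    unfold G
    have := mul_le_mul_of_nonneg_left h2 h3
    linarith
  calc lam k κ c m0 b Λ (j + 1) ≤ 2 * G k κ c m0 b Λ (j + 1) := by
        unfold lam
        gcongr
    _ ≤ _ := by linarith

/-- the disc of the step `j` -/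
theorem disc (hS : Start k c m0 b Λ) (hκ : 4 ≤ κ * k) (hV : ∀ j < p, κ * k ≤ vv k c m0 b j)
    (hp : 8 * (p : ℝ) ≤ κ * k) (hK : 1 ≤ K1 k κ) {j : ℕ} (hj : j < p) {z : ℂ}
    (hz : (20 * Λ + 40 * K1 k κ * q k c m0 b j) * ‖z - m0‖ ≤ 1) :
    (‖yd k c (b + 1 + (j + 1)) z - yd k c (b + 1 + (j + 1)) m0‖ ≤
        lam k κ c m0 b Λ (j + 1) * q k c m0 b (j + 1) * ‖z - m0‖) ∧
      ‖yd k c (b + 1 + (j + 1)) z - yd k c (b + 1 + (j + 1)) m0‖ ≤ q k c m0 b (j + 1) / 10 ∧
      ‖yd k c (b + 1 + j) z - yd k c (b + 1 + j) m0‖ ≤ q k c m0 b j / 10 := by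
  have hκ0 : 0 < κ * k := by linarith
  set s := ‖z - m0‖ with hs
  have hs0 : 0 ≤ s := norm_nonneg _
  have hΛ := hS.hΛ
  have hqj := (growth hS hκ hV j hj.le).1
  have hqj1 := (growth hS hκ hV (j + 1) hj).1
  have hKq : 0 ≤ K1 k κ * q k c m0 b j := by positivity
  have hΛs : Λ * s ≤ 1 := by
    have : Λ ≤ 20 * Λ + 40 * K1 k κ * q k c m0 b j := by nlinarith
    exact (mul_le_mul_of_nonneg_right this hs0).trans hz
  have hlam : lam k κ c m0 b Λ (j + 1) * s ≤ 1 / 10 := by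
    have h1 := lam_succ_le hS hκ hV hp hj
    have h2 := mul_le_mul_of_nonneg_right h1 hs0
    nlinarith
  -- monotonicity
  have hlm : ∀ i ≤ j + 1, lam k κ c m0 b Λ i ≤ lam k κ c m0 b Λ (j + 1) := by
    intro i hi
    exact monotone_nat_of_le_succ (f := fun i => lam k κ c m0 b Λ i)
      (fun i => lam_le_succ hΛ.le hκ0.le i) hi
  have hqm : ∀ i ≤ j, q k c m0 b i ≤ q k c m0 b j := by
    intro i hi
    induction j, hi using Nat.le_induction with
    | base => exact le_rfl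
    | succ n hin ihn =>
      have h1 := growth2 hS hκ hV (j := n) (by omega)
      have h2 := (growth hS hκ hV n (by omega)).1
      have h3 : q k c m0 b i ≤ q k c m0 b n := by
        have hsum := sum_q_le hS hκ hV n (by omega)
        by_contra hcon
        push Not at hcon
        exact absurd (Nat.le_induction (m := i) (P := fun n _ => n ≤ p → q k c m0 b i ≤ q k c m0 b n)
          (fun _ => le_rfl) (fun n hn ih hnp => (ih (by omega)).trans (by
            have h1 := growth2 hS hκ hV (j := n) (by omega)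
            have h2 := (growth hS hκ hV n (by omega)).1
            nlinarith)) n hin (by omega)) (not_le.2 hcon)
      nlinarith
  have hcond : ∀ i < j + 1, lam k κ c m0 b Λ i * s ≤ 1 ∧ 2 * q k c m0 b i * s ≤ 1 := by
    intro i hi
    constructor
    · have := mul_le_mul_of_nonneg_right (hlm i (by omega)) hs0
      linarith
    · have h1 := hqm i (by omega)
      have h2 : 2 * q k c m0 b i ≤ 20 * Λ + 40 * K1 k κ * q k c m0 b j := by nlinarith
      exact (mul_le_mul_of_nonneg_right h2 hs0).trans hz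
  have hL1 := (lip hS hκ hV (j + 1) hj z hΛs hcond).1
  have hL0 := (lip hS hκ hV j hj.le z hΛs (fun i hi => hcond i (by omega))).1
  refine ⟨hL1, ?_, ?_⟩
  · refine hL1.trans ?_
    have e : lam k κ c m0 b Λ (j + 1) * q k c m0 b (j + 1) * s =
      (lam k κ c m0 b Λ (j + 1) * s) * q k c m0 b (j + 1) := by ring
    rw [e]
    nlinarith
  · refine hL0.trans ?_
    have e : lam k κ c m0 b Λ j * q k c m0 b j * s = (lam k κ c m0 b Λ j * s) * q k c m0 b j := by ring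
    rw [e]
    have := mul_le_mul_of_nonneg_right (hlm j (by omega)) hs0
    nlinarith

/-- real value of the slope -/
noncomputable def Qr (k c : ℝ) (i : ℕ) (u : ℝ) : ℝ := (yd k c i (u : ℂ)).re

theorem yd_real (k c : ℝ) (i : ℕ) (u : ℝ) : yd k c i (u : ℂ) = ((Qr k c i u : ℝ) : ℂ) := by
  unfold Qr
  rw [yd_ofReal, Complex.ofReal_re]

theorem differentiable_yd (k : ℝ) (c : ℂ) (n : ℕ) : Differentiable ℂ (yd k c n) := by
  have h : yd k c n = deriv (y k c n) := by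
    funext t
    exact (deriv_y k c n t).symm
  rw [h]
  exact (differentiable_y k c n).deriv

/-- one term of the content is quadratic -/
theorem term_quad (hS : Start k c m0 b Λ) (hκ : 4 ≤ κ * k) (hV : ∀ j < p, κ * k ≤ vv k c m0 b j)
    (hp : 8 * (p : ℝ) ≤ κ * k) (hK : 1 ≤ K1 k κ) {j : ℕ} (hj : j < p) :
    ∃ A0 A1 A2 : ℝ, ∀ u : ℝ, |u - m0| * (20 * Λ + 40 * K1 k κ * q k c m0 b j) ≤ 1 / 2 →
      |1 / (Qr k c (b + 1 + j) u * Qr k c (b + 1 + (j + 1)) u) -
          (A0 + A1 * (u - m0) + A2 * (u - m0) ^ 2)| ≤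
        6 / (q k c m0 b j * q k c m0 b (j + 1)) *
          (|u - m0| * (20 * Λ + 40 * K1 k κ * q k c m0 b j)) ^ 3 := by
  have hκ0 : 0 < κ * k := by linarith
  have hqj := (growth hS hκ hV j hj.le).1
  have hqj1 := (growth hS hκ hV (j + 1) hj).1
  set D : ℝ := 20 * Λ + 40 * K1 k κ * q k c m0 b j with hD
  have hD0 : 0 < D := by
    have := hS.hΛ
    have h1 : 0 ≤ K1 k κ * q k c m0 b j := by positivity
    nlinarith
  set x := q k c m0 b j with hx
  set x' := q k c m0 b (j + 1) with hx'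
  have hlow : ∀ w : ℂ, w ∈ ball (m0 : ℂ) (1 / D) →
      9 / 10 * x ≤ ‖yd k c (b + 1 + j) w‖ ∧ 9 / 10 * x' ≤ ‖yd k c (b + 1 + (j + 1)) w‖ := by
    intro w hw
    rw [mem_ball, dist_eq_norm, lt_div_iff₀ hD0, mul_comm] at hw
    obtain ⟨-, h1, h2⟩ := disc hS hκ hV hp hK hj (z := w) hw.le
    have e1 : ‖yd k c (b + 1 + j) (m0 : ℂ)‖ = x := rfl
    have e2 : ‖yd k c (b + 1 + (j + 1)) (m0 : ℂ)‖ = x' := rfl
    have h3 := norm_sub_norm_le (yd k c (b + 1 + j) (m0 : ℂ)) (yd k c (b + 1 + j) w)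
    have h4 := norm_sub_norm_le (yd k c (b + 1 + (j + 1)) (m0 : ℂ)) (yd k c (b + 1 + (j + 1)) w)
    rw [norm_sub_rev] at h3 h4
    constructor <;> linarith
  set f : ℂ → ℂ := fun w => 1 / (yd k c (b + 1 + j) w * yd k c (b + 1 + (j + 1)) w) with hf
  have hρ : 0 < 1 / D := by positivity
  have hfd : DifferentiableOn ℂ f (ball (m0 : ℂ) (1 / D)) := by
    intro w hw
    obtain ⟨h1, h2⟩ := hlow w hw
    have h1' : yd k c (b + 1 + j) w ≠ 0 := by
      intro h
      rw [h, norm_zero] at h1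
      linarith
    have h2' : yd k c (b + 1 + (j + 1)) w ≠ 0 := by
      intro h
      rw [h, norm_zero] at h2
      linarith
    exact ((differentiableAt_const _).div ((differentiable_yd k c _ w).mul
      (differentiable_yd k c _ w)) (mul_ne_zero h1' h2')).differentiableWithinAt
  have hfb : ∀ w ∈ ball (m0 : ℂ) (1 / D), ‖f w‖ ≤ 3 / 2 / (x * x') := by
    intro w hw
    obtain ⟨h1, h2⟩ := hlow w hw
    simp only [hf]
    rw [norm_div, norm_one, norm_mul, div_le_div_iff₀ (by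
      have : 0 < 9 / 10 * x := by positivity
      have : 0 < 9 / 10 * x' := by positivity
      have h3 : 0 < ‖yd k c (b + 1 + j) w‖ := by linarith
      have h4 : 0 < ‖yd k c (b + 1 + (j + 1)) w‖ := by linarith
      positivity) (by positivity)]
    have := mul_le_mul h1 h2 (by positivity) (norm_nonneg _)
    have hxx : 0 < x * x' := by positivity
    nlinarith
  have hfB : ∀ w ∈ ball (m0 : ℂ) (1 / D), ‖f w - f m0‖ ≤ 3 / (x * x') := by
    intro w hw
    have h1 := hfb w hw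
    have h2 := hfb m0 (mem_ball_self hρ)
    have h3 := norm_sub_le (f w) (f m0)
    have e : 3 / (x * x') = 3 / 2 / (x * x') + 3 / 2 / (x * x') := by ring
    linarith
  obtain ⟨a, a', -, -, h⟩ := TaylorTwo.taylor_two_real
    (F := fun u => 1 / (Qr k c (b + 1 + j) u * Qr k c (b + 1 + (j + 1)) u)) hρ hfd hfB (by
      intro u _
      simp only [hf]
      rw [yd_real, yd_real]
      push_cast
      rfl)
  refine ⟨1 / (Qr k c (b + 1 + j) m0 * Qr k c (b + 1 + (j + 1)) m0), a, a', fun u hu => ?_⟩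
  have h1 : |u - m0| ≤ 1 / D / 2 := by
    rw [div_div, le_div_iff₀ (by positivity)]
    linarith
  have h2 := h u h1
  have e : 2 * (3 / (x * x')) * (|u - m0| / (1 / D)) ^ 3 = 6 / (x * x') * (|u - m0| * D) ^ 3 := by
    field_simp
    ring
  rw [e] at h2
  exact h2

theorem q_mono (hS : Start k c m0 b Λ) (hκ : 4 ≤ κ * k) (hV : ∀ j < p, κ * k ≤ vv k c m0 b j)
    {i : ℕ} : ∀ {j : ℕ}, i ≤ j → j ≤ p → q k c m0 b i ≤ q k c m0 b j := by
  intro j hij
  induction j, hij using Nat.le_induction with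
  | base => intro _; exact le_rfl
  | succ n hin ihn =>
    intro hn
    have h1 := growth2 hS hκ hV (j := n) (by omega)
    have h2 := (growth hS hκ hV n (by omega)).1
    have h3 := ihn (by omega)
    nlinarith

theorem cube_add_le {x y : ℝ} (hx : 0 ≤ x) (hy : 0 ≤ y) : (x + y) ^ 3 ≤ 4 * (x ^ 3 + y ^ 3) := by
  nlinarith [mul_nonneg (add_nonneg hx hy) (sq_nonneg (x - y))]

/-- **The content of the macroscopic digits is quadratic on the 3-lap cell.** -/
theorem tail_quad (hS : Start k c m0 b Λ) (hκ : 4 ≤ κ * k) (hV : ∀ j < p, κ * k ≤ vv k c m0 b j)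
    (hp : 8 * (p : ℝ) ≤ κ * k) (hK : 1 ≤ K1 k κ) (hk : 0 < k) (hκ0 : 0 < κ) (hp1 : 1 ≤ p)
    (hR : 640 * K1 k κ ≤ κ * k) (hR2 : 160 * Λ ≤ q k c m0 b p) :
    ∃ A0 A1 A2 : ℝ, ∀ u : ℝ, |u - m0| ≤ 2 / q k c m0 b p →
      |2 * Real.pi * k * q k c m0 b p ^ 2 *
          ∑ j ∈ range p, 1 / (Qr k c (b + 1 + j) u * Qr k c (b + 1 + (j + 1)) u) -
          (A0 + A1 * (u - m0) + A2 * (u - m0) ^ 2)| ≤
        10 ^ 7 * k * p * Λ ^ 3 / (q k c m0 b 0 ^ 2 * q k c m0 b p) +
          10 ^ 9 * K1 k κ ^ 3 / (κ ^ 2 * k) := by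
  have hκk : 0 < κ * k := by linarith
  have hΛ := hS.hΛ
  have hK0 : 0 ≤ K1 k κ := by linarith
  set R := q k c m0 b p with hRdef
  have hR0 : 0 < R := (growth hS hκ hV p le_rfl).1
  obtain ⟨p', rfl⟩ : ∃ p', p = p' + 1 := ⟨p - 1, by omega⟩
  have hlast : κ * k / 2 * q k c m0 b p' ≤ R := growth2 hS hκ hV (j := p') (by omega)
  have hq0 : 0 < q k c m0 b 0 := hS.hq
  have hqp : ∀ j < p' + 1, q k c m0 b j ≤ 2 * R / (κ * k) := by
    intro j hj
    have h1 := q_mono hS hκ hV (i := j) (j := p') (by omega) (by omega)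
    rw [le_div_iff₀ hκk]
    nlinarith
  have hD : ∀ j < p' + 1, 2 / R * (20 * Λ + 40 * K1 k κ * q k c m0 b j) ≤ 1 / 2 := by
    intro j hj
    have h1 := hqp j hj
    have h2 : 40 * K1 k κ * q k c m0 b j ≤ R / 8 := by
      calc 40 * K1 k κ * q k c m0 b j ≤ 40 * K1 k κ * (2 * R / (κ * k)) := by gcongr
        _ = (640 * K1 k κ) * (R / 8) / (κ * k) := by ring
        _ ≤ (κ * k) * (R / 8) / (κ * k) := by gcongr
        _ = R / 8 := by field_simp
    rw [div_mul_eq_mul_div, div_le_iff₀ hR0]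
    linarith
  have hterm : ∀ j, ∃ A0 A1 A2 : ℝ, j < p' + 1 → ∀ u : ℝ, |u - m0| ≤ 2 / R →
      |1 / (Qr k c (b + 1 + j) u * Qr k c (b + 1 + (j + 1)) u) -
          (A0 + A1 * (u - m0) + A2 * (u - m0) ^ 2)| ≤
        6 / (q k c m0 b j * q k c m0 b (j + 1)) *
          (2 / R * (20 * Λ + 40 * K1 k κ * q k c m0 b j)) ^ 3 := by
    intro j
    by_cases hj : j < p' + 1
    · obtain ⟨A0, A1, A2, h⟩ := term_quad hS hκ hV hp hK hj
      refine ⟨A0, A1, A2, fun _ u hu => ?_⟩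
      have hDj : 0 ≤ 20 * Λ + 40 * K1 k κ * q k c m0 b j := by
        have := q_nonneg (k := k) (c := c) (m0 := m0) (b := b) j
        positivity
      have h1 : |u - m0| * (20 * Λ + 40 * K1 k κ * q k c m0 b j) ≤
          2 / R * (20 * Λ + 40 * K1 k κ * q k c m0 b j) := mul_le_mul_of_nonneg_right hu hDj
      refine (h u (h1.trans (hD j hj))).trans ?_
      have h2 := q_nonneg (k := k) (c := c) (m0 := m0) (b := b) j
      have h3 := q_nonneg (k := k) (c := c) (m0 := m0) (b := b) (j + 1)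
      gcongr
    · exact ⟨0, 0, 0, fun h => absurd h hj⟩
  choose a0 a1 a2 hA using hterm
  set W : ℝ := 2 * Real.pi * k * R ^ 2 with hW
  have hW0 : 0 < W := by positivity
  refine ⟨W * ∑ j ∈ range (p' + 1), a0 j, W * ∑ j ∈ range (p' + 1), a1 j,
    W * ∑ j ∈ range (p' + 1), a2 j, fun u hu => ?_⟩
  have e1 : W * ∑ j ∈ range (p' + 1), 1 / (Qr k c (b + 1 + j) u * Qr k c (b + 1 + (j + 1)) u) -
      (W * ∑ j ∈ range (p' + 1), a0 j + W * (∑ j ∈ range (p' + 1), a1 j) * (u - m0) +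
        W * (∑ j ∈ range (p' + 1), a2 j) * (u - m0) ^ 2) =
      W * ∑ j ∈ range (p' + 1), (1 / (Qr k c (b + 1 + j) u * Qr k c (b + 1 + (j + 1)) u) -
        (a0 j + a1 j * (u - m0) + a2 j * (u - m0) ^ 2)) := by
    rw [sum_sub_distrib, sum_add_distrib, sum_add_distrib, ← sum_mul, ← sum_mul]
    ring
  rw [e1, abs_mul, abs_of_pos hW0]
  have hsum : |∑ j ∈ range (p' + 1), (1 / (Qr k c (b + 1 + j) u * Qr k c (b + 1 + (j + 1)) u) -
        (a0 j + a1 j * (u - m0) + a2 j * (u - m0) ^ 2))| ≤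
      ∑ j ∈ range (p' + 1), (1536000 * Λ ^ 3 / (R ^ 3 * q k c m0 b 0 ^ 2) +
        24576000 * K1 k κ ^ 3 / (R ^ 3 * (κ * k)) * q k c m0 b j) := by
    refine (abs_sum_le_sum_abs _ _).trans (sum_le_sum fun j hj => ?_)
    rw [mem_range] at hj
    refine (hA j hj u hu).trans ?_
    have hqj := (growth hS hκ hV j hj.le).1
    have hqj1 := (growth hS hκ hV (j + 1) hj).1
    have hg := growth2 hS hκ hV hj
    have h0j := q_mono hS hκ hV (i := 0) (j := j) (by omega) (by omega)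
    have h0j1 := q_mono hS hκ hV (i := 0) (j := j + 1) (by omega) (by omega)
    set x := q k c m0 b j with hx
    set x' := q k c m0 b (j + 1) with hx'
    set x0 := q k c m0 b 0 with hx0
    have hcube : (20 * Λ + 40 * K1 k κ * x) ^ 3 ≤
        32000 * Λ ^ 3 + 256000 * (K1 k κ ^ 3 * x ^ 3) := by
      have := cube_add_le (x := 20 * Λ) (y := 40 * K1 k κ * x) (by positivity) (by positivity)
      nlinarith
    have h1 : 6 / (x * x') * (2 / R * (20 * Λ + 40 * K1 k κ * x)) ^ 3 ≤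
        6 / (x * x') * (8 / R ^ 3 * (32000 * Λ ^ 3 + 256000 * (K1 k κ ^ 3 * x ^ 3))) := by
      have e8 : (2 : ℝ) ^ 3 = 8 := by norm_num
      rw [mul_pow, div_pow, e8]
      gcongr
    refine h1.trans ?_
    have e2 : 6 / (x * x') * (8 / R ^ 3 * (32000 * Λ ^ 3 + 256000 * (K1 k κ ^ 3 * x ^ 3))) =
        1536000 * Λ ^ 3 / (R ^ 3 * (x * x')) +
          12288000 * K1 k κ ^ 3 / R ^ 3 * (x ^ 2 / x') := by
      field_simp
      ring
    rw [e2]
    have h2 : x0 ^ 2 ≤ x * x' := by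
      rw [pow_two]
      exact mul_le_mul h0j h0j1 hq0.le hqj.le
    have h3 : x ^ 2 / x' ≤ 2 / (κ * k) * x := by
      rw [div_le_iff₀ hqj1]
      have h4 : 2 / (κ * k) * x * (κ * k / 2 * x) ≤ 2 / (κ * k) * x * x' := by gcongr
      have e3 : 2 / (κ * k) * x * (κ * k / 2 * x) = x ^ 2 := by
        field_simp
      linarith
    have h4 : 1536000 * Λ ^ 3 / (R ^ 3 * (x * x')) ≤ 1536000 * Λ ^ 3 / (R ^ 3 * x0 ^ 2) := by
      gcongr
    have h5 : 12288000 * K1 k κ ^ 3 / R ^ 3 * (x ^ 2 / x') ≤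
        12288000 * K1 k κ ^ 3 / R ^ 3 * (2 / (κ * k) * x) := by gcongr
    have e4 : 12288000 * K1 k κ ^ 3 / R ^ 3 * (2 / (κ * k) * x) =
        24576000 * K1 k κ ^ 3 / (R ^ 3 * (κ * k)) * x := by
      field_simp
      ring
    linarith
  refine (mul_le_mul_of_nonneg_left hsum hW0.le).trans ?_
  rw [sum_add_distrib, ← mul_sum, sum_const, card_range, nsmul_eq_mul, mul_add]
  have hs := sum_q_le hS hκ hV p' (by omega)
  have hs2 : ∑ j ∈ range (p' + 1), q k c m0 b j ≤ 4 * R / (κ * k) := by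
    refine hs.trans ?_
    have := hqp p' (by omega)
    have e : 4 * R / (κ * k) = 2 * (2 * R / (κ * k)) := by ring
    linarith
  have hpi : 2 * Real.pi ≤ 629 / 100 := by
    have := Real.pi_lt_d4
    norm_num at this ⊢
    linarith
  apply add_le_add
  · have e : 10 ^ 7 * k * ((p' + 1 : ℕ) : ℝ) * Λ ^ 3 / (q k c m0 b 0 ^ 2 * R) =
        10 ^ 7 * (k * R ^ 2 * (((p' + 1 : ℕ) : ℝ) * (Λ ^ 3 / (R ^ 3 * q k c m0 b 0 ^ 2)))) := by
      field_simp
    have e' : W * (((p' + 1 : ℕ) : ℝ) * (1536000 * Λ ^ 3 / (R ^ 3 * q k c m0 b 0 ^ 2))) =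
        (2 * Real.pi * 1536000) *
          (k * R ^ 2 * (((p' + 1 : ℕ) : ℝ) * (Λ ^ 3 / (R ^ 3 * q k c m0 b 0 ^ 2)))) := by
      rw [hW]
      ring
    rw [e, e']
    have : 0 ≤ k * R ^ 2 * (((p' + 1 : ℕ) : ℝ) * (Λ ^ 3 / (R ^ 3 * q k c m0 b 0 ^ 2))) := by
      positivity
    apply mul_le_mul_of_nonneg_right _ this
    nlinarith
  · have h1 : W * (24576000 * K1 k κ ^ 3 / (R ^ 3 * (κ * k)) * ∑ j ∈ range (p' + 1), q k c m0 b j) ≤
        W * (24576000 * K1 k κ ^ 3 / (R ^ 3 * (κ * k)) * (4 * R / (κ * k))) := by gcongr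
    refine h1.trans ?_
    have e : W * (24576000 * K1 k κ ^ 3 / (R ^ 3 * (κ * k)) * (4 * R / (κ * k))) =
        (2 * Real.pi * 98304000) * (K1 k κ ^ 3 / (κ ^ 2 * k)) := by
      rw [hW]
      field_simp
      ring
    have e' : 10 ^ 9 * K1 k κ ^ 3 / (κ ^ 2 * k) = 10 ^ 9 * (K1 k κ ^ 3 / (κ ^ 2 * k)) := by ring
    rw [e, e']
    apply mul_le_mul_of_nonneg_right _ (by positivity)
    nlinarith

/-- **(H1) on the 3-lap cell**: the exit slope is nearly constant, the previous slope is small. -/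
theorem exit_data (hS : Start k c m0 b Λ) (hκ : 4 ≤ κ * k) (hV : ∀ j < p, κ * k ≤ vv k c m0 b j)
    (hp : 8 * (p : ℝ) ≤ κ * k) (hK : 1 ≤ K1 k κ) (hp1 : 1 ≤ p)
    (hR : 640 * K1 k κ ≤ κ * k) (hR2 : 160 * Λ ≤ q k c m0 b p) {z : ℂ}
    (hz : ‖z - m0‖ ≤ 2 / q k c m0 b p) :
    ‖yd k c (b + 1 + p) z - yd k c (b + 1 + p) m0‖ ≤ 4 * Λ + 16 * K1 k κ * q k c m0 b p / (κ * k) ∧
      ‖yd k c (b + p) z‖ ≤ 3 * q k c m0 b p / (κ * k) := by
  have hκk : 0 < κ * k := by linarith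
  have hΛ := hS.hΛ
  have hK0 : 0 ≤ K1 k κ := by linarith
  set R := q k c m0 b p with hRdef
  have hR0 : 0 < R := (growth hS hκ hV p le_rfl).1
  obtain ⟨p', rfl⟩ : ∃ p', p = p' + 1 := ⟨p - 1, by omega⟩
  have hlast : κ * k / 2 * q k c m0 b p' ≤ R := growth2 hS hκ hV (j := p') (by omega)
  have hqp : q k c m0 b p' ≤ 2 * R / (κ * k) := by
    rw [le_div_iff₀ hκk]
    nlinarith
  have hqp0 := (growth hS hκ hV p' (by omega)).1
  have h2 : 40 * K1 k κ * q k c m0 b p' ≤ R / 8 := by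
    calc 40 * K1 k κ * q k c m0 b p' ≤ 40 * K1 k κ * (2 * R / (κ * k)) := by gcongr
      _ = (640 * K1 k κ) * (R / 8) / (κ * k) := by ring
      _ ≤ (κ * k) * (R / 8) / (κ * k) := by gcongr
      _ = R / 8 := by rw [mul_comm (κ * k), mul_div_assoc, div_self hκk.ne', mul_one]
  have hD : (20 * Λ + 40 * K1 k κ * q k c m0 b p') * ‖z - m0‖ ≤ 1 := by
    have h0 : 0 ≤ 20 * Λ + 40 * K1 k κ * q k c m0 b p' := by positivity
    refine (mul_le_mul_of_nonneg_left hz h0).trans ?_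
    rw [mul_div_assoc', div_le_iff₀ hR0]
    linarith
  obtain ⟨h3, -, h4⟩ := disc hS hκ hV hp hK (j := p') (by omega) hD
  constructor
  · refine h3.trans ?_
    have h5 := lam_succ_le hS hκ hV hp (j := p') (by omega)
    have h6 : 0 ≤ lam k κ c m0 b Λ (p' + 1) := lam_nonneg hΛ.le hκk.le _
    calc lam k κ c m0 b Λ (p' + 1) * R * ‖z - m0‖ ≤ lam k κ c m0 b Λ (p' + 1) * R * (2 / R) := by
          gcongr
      _ = 2 * lam k κ c m0 b Λ (p' + 1) := by field_simp
      _ ≤ 2 * (2 * Λ + 4 * K1 k κ * q k c m0 b p') := by gcongr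
      _ ≤ 2 * (2 * Λ + 4 * K1 k κ * (2 * R / (κ * k))) := by gcongr
      _ = 4 * Λ + 16 * K1 k κ * R / (κ * k) := by ring
  · have e : b + (p' + 1) = b + 1 + p' := by ring
    rw [e]
    have h5 := norm_sub_norm_le (yd k c (b + 1 + p') z) (yd k c (b + 1 + p') (m0 : ℂ))
    have e2 : ‖yd k c (b + 1 + p') (m0 : ℂ)‖ = q k c m0 b p' := rfl
    have h6 : 3 * R / (κ * k) = 3 / 2 * (2 * R / (κ * k)) := by ring
    rw [h6]
    linarith

/-- the digit sequence of the real orbit -/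
noncomputable def dg (k c u : ℝ) (i : ℕ) : ℝ := (cV k (y k c i (u : ℂ))).re

theorem cV_real (k c u : ℝ) (i : ℕ) : cV k (y k c i (u : ℂ)) = ((dg k c u i : ℝ) : ℂ) := by
  unfold dg
  apply Complex.ext
  · simp
  · have h : (y k c i (u : ℂ)) = (((y k c i (u : ℂ)).re : ℝ) : ℂ) := by
      apply Complex.ext
      · simp
      · simp [im_y_ofReal]
    rw [Complex.ofReal_im, h]
    unfold cV
    rw [show (2 : ℂ) * Real.pi * (((y k c i (u : ℂ)).re : ℝ) : ℂ) =
      ((2 * Real.pi * (y k c i (u : ℂ)).re : ℝ) : ℂ) by push_cast; ring, ← Complex.ofReal_cos,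
      show (2 : ℂ) + 2 * Real.pi * k * ((Real.cos (2 * Real.pi * (y k c i (u : ℂ)).re) : ℝ) : ℂ) =
      ((2 + 2 * Real.pi * k * Real.cos (2 * Real.pi * (y k c i (u : ℂ)).re) : ℝ) : ℂ) by
        push_cast; ring, Complex.ofReal_im]

/-- `Align.Q` of the digit sequence is the slope -/
theorem Q_dg (k c u : ℝ) : ∀ n, Align.Q (dg k c u) n = Qr k c n u ∧
    Align.Q (dg k c u) (n + 1) = Qr k c (n + 1) u := by
  intro n
  induction n with
  | zero => simp [Qr]
  | succ n ih =>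
    refine ⟨ih.2, ?_⟩
    have h := yd_add_two k c n u
    rw [cV_real, yd_real, yd_real, yd_real] at h
    rw [Align.Q_add_two, ih.1, ih.2]
    have h2 : ((Qr k c (n + 2) u : ℝ) : ℂ) =
      ((dg k c u (n + 1) * Qr k c (n + 1) u - Qr k c n u : ℝ) : ℂ) := by
      rw [h]; push_cast; ring
    exact (Complex.ofReal_injective h2).symm

theorem mu_tail {u : ℝ} {b p : ℕ} (h : ∀ j ≤ p, Qr k c (b + 1 + j) u ≠ 0) :
    Align.mu (dg k c u) (b + 1 + p) - Align.mu (dg k c u) (b + 1) =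
      ∑ j ∈ range p, 1 / (Qr k c (b + 1 + j) u * Qr k c (b + 1 + (j + 1)) u) := by
  have h1 := Align.mu_sub (a := dg k c u) (m := b + 1) (n := b + 1 + p) (by omega) (by
    intro i hi hi'
    obtain ⟨j, rfl⟩ := Nat.exists_eq_add_of_le hi
    rw [(Q_dg k c u _).1]
    exact h j (by omega))
  rw [h1, sum_Ico_eq_sum_range, Nat.add_sub_cancel_left]
  refine sum_congr rfl fun j _ => ?_
  rw [(Q_dg k c u _).1, (Q_dg k c u _).1]
  ring_nf

end Crest.Agent.R128.Tail
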