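import Mathlib
import Crest.Agent.R128.CellB
import Crest.Agent.R128.TaylorTwo
import Crest.Agent.R128.Align

/-!
Row 128 (helper754), node V5-LOC / LocA: the TAIL of a fresh cell, digits of variable size.

`y, yd` of `CellB` (orbit `x_0 = c`, `x_1 = t` and its `t`-derivative), real base point `m0`.  From a start
at the index `b + 1` (`Start`: `yd (b+1)`, `yd b` are Lipschitz with relative constant `Λ` on the complex
disc of radius `1/Λ`), after `p` digits `A ≤ v_j = |V(y_(b+1+j))| ≤ M`, `4 M ≤ A ^ 2`, `8 p ≤ A`,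
`M ≤ 8 CL`; `K_j = 8 CL / v_j`:
* `lip_disc`: on the complex disc of radius `1/(20 Λ + 40 K_j q_j)` the slopes number `b+1+j`, `b+2+j` are
  constant up to `1/10`, and `yd (b+2+j)` is Lipschitz with relative constant `2 Λ + 4 K_j q_j`;
* `term`: the content term `1/(yd yd')` is holomorphic there and bounded by `3/2/(q_j q_(j+1))`.
-/

set_option autoImplicit false
open MeasureTheory Filter Topology Metric Finset
open Crest.Agent.R128 Crest.Agent.R128.Cell Crest.Agent.R128.CellB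

namespace Crest.Agent.R128.TailG

/-- slope at the index `b + 1 + j` -/
noncomputable def q (k c m0 : ℝ) (b j : ℕ) : ℝ := ‖yd k c (b + 1 + j) m0‖

/-- size of the digit at the index `b + 1 + j` -/
noncomputable def vv (k c m0 : ℝ) (b j : ℕ) : ℝ := ‖cV k (y k c (b + 1 + j) m0)‖

/-- relative Lipschitz constant of the digit number `j` with respect to `q_j * (z - m0)` -/
noncomputable def K (k c m0 : ℝ) (b j : ℕ) : ℝ := 8 * CL k / vv k c m0 b j

noncomputable def G (k c m0 : ℝ) (b : ℕ) (Λ : ℝ) (j : ℕ) : ℝ :=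
  Λ + ∑ i ∈ range j, K k c m0 b i * q k c m0 b i

noncomputable def lam (k A c m0 : ℝ) (b : ℕ) (Λ : ℝ) (j : ℕ) : ℝ :=
  (1 + 4 / A) ^ j * G k c m0 b Λ j

structure Start (k c m0 : ℝ) (b : ℕ) (Λ : ℝ) : Prop where
  hΛ : 0 < Λ
  hq : 0 < ‖yd k c (b + 1) m0‖
  hprev : ‖yd k c b m0‖ ≤ ‖yd k c (b + 1) m0‖
  hcur : ∀ z : ℂ, Λ * ‖z - m0‖ ≤ 1 →
    ‖yd k c (b + 1) z - yd k c (b + 1) m0‖ ≤ Λ * ‖yd k c (b + 1) m0‖ * ‖z - m0‖
  hpre : ∀ z : ℂ, Λ * ‖z - m0‖ ≤ 1 →
    ‖yd k c b z - yd k c b m0‖ ≤ Λ * ‖yd k c (b + 1) m0‖ * ‖z - m0‖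

variable {k A M c m0 Λ : ℝ} {b p : ℕ}

theorem q_nonneg (j : ℕ) : 0 ≤ q k c m0 b j := norm_nonneg _

theorem K_nonneg (j : ℕ) : 0 ≤ K k c m0 b j := by
  unfold K vv
  have := CL_nonneg k
  positivity

theorem Kq_nonneg (j : ℕ) : 0 ≤ K k c m0 b j * q k c m0 b j :=
  mul_nonneg (K_nonneg j) (q_nonneg j)

theorem yd_step (j : ℕ) (z : ℂ) : yd k c (b + 1 + (j + 1)) z =
    cV k (y k c (b + 1 + j) z) * yd k c (b + 1 + j) z - yd k c (b + j) z := by
  have h := yd_add_two k c (b + j) z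
  rw [show b + 1 + (j + 1) = b + j + 2 by ring, show b + 1 + j = b + j + 1 by ring]
  exact h

/-- growth of the slopes -/
theorem growth (hS : Start k c m0 b Λ) (hA : 4 ≤ A) (hV : ∀ j < p, A ≤ vv k c m0 b j) :
    ∀ j ≤ p, 0 < q k c m0 b j ∧ ‖yd k c (b + j) m0‖ ≤ q k c m0 b j := by
  intro j
  induction j with
  | zero => intro _; exact ⟨hS.hq, hS.hprev⟩
  | succ j ih =>
    intro hj
    obtain ⟨h1, h2⟩ := ih (by omega)
    have hv := hV j (by omega)
    have h3 : vv k c m0 b j * q k c m0 b j - ‖yd k c (b + j) m0‖ ≤ q k c m0 b (j + 1) := by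
      unfold q vv
      rw [yd_step, ← norm_mul]
      exact norm_sub_norm_le _ _
    have h4 : (4:ℝ) ≤ vv k c m0 b j := hA.trans hv
    have h5 : q k c m0 b j ≤ q k c m0 b (j + 1) := by nlinarith
    refine ⟨h1.trans_le h5, ?_⟩
    have e : b + (j + 1) = b + 1 + j := by ring
    rw [e]
    exact h5

theorem growth' (hS : Start k c m0 b Λ) (hA : 4 ≤ A) (hV : ∀ j < p, A ≤ vv k c m0 b j)
    {j : ℕ} (hj : j < p) : (vv k c m0 b j - 1) * q k c m0 b j ≤ q k c m0 b (j + 1) := by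
  obtain ⟨h1, h2⟩ := growth hS hA hV j hj.le
  have h3 : vv k c m0 b j * q k c m0 b j - ‖yd k c (b + j) m0‖ ≤ q k c m0 b (j + 1) := by
    unfold q vv
    rw [yd_step, ← norm_mul]
    exact norm_sub_norm_le _ _
  linarith

theorem growth2 (hS : Start k c m0 b Λ) (hA : 4 ≤ A) (hV : ∀ j < p, A ≤ vv k c m0 b j)
    {j : ℕ} (hj : j < p) : vv k c m0 b j / 2 * q k c m0 b j ≤ q k c m0 b (j + 1) := by
  have h1 := growth' hS hA hV hj
  have h2 := (growth hS hA hV j hj.le).1
  have h3 := hV j hj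
  nlinarith

theorem q_mono (hS : Start k c m0 b Λ) (hA : 4 ≤ A) (hV : ∀ j < p, A ≤ vv k c m0 b j)
    {i : ℕ} : ∀ {j : ℕ}, i ≤ j → j ≤ p → q k c m0 b i ≤ q k c m0 b j := by
  intro j hij
  induction j, hij using Nat.le_induction with
  | base => intro _; exact le_rfl
  | succ n hin ihn =>
    intro hn
    have h1 := growth2 hS hA hV (j := n) (by omega)
    have h2 := (growth hS hA hV n (by omega)).1
    have h3 := ihn (by omega)
    have h4 := hV n (by omega)
    nlinarith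

theorem Kq_eq (j : ℕ) (h : 0 < vv k c m0 b j) :
    K k c m0 b j * vv k c m0 b j = 8 * CL k := by
  unfold K
  field_simp

/-- `2 K_j q_j ≤ K_(j+1) q_(j+1)` -/
theorem Kq_growth (hS : Start k c m0 b Λ) (hA : 4 ≤ A) (hV : ∀ j < p, A ≤ vv k c m0 b j)
    (hM : ∀ j < p, vv k c m0 b j ≤ M) (hMA : 4 * M ≤ A ^ 2) {j : ℕ} (hj : j + 1 < p) :
    2 * (K k c m0 b j * q k c m0 b j) ≤ K k c m0 b (j + 1) * q k c m0 b (j + 1) := by
  have h1 := growth2 hS hA hV (j := j) (by omega)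
  have h2 := (growth hS hA hV j (by omega)).1
  have h3 := hV j (by omega)
  have h4 := hV (j + 1) hj
  have h5 := hM (j + 1) hj
  have hv0 : 0 < vv k c m0 b j := by linarith
  have hv1 : 0 < vv k c m0 b (j + 1) := by linarith
  have hCL := CL_nonneg k
  unfold K
  rw [div_mul_eq_mul_div, div_mul_eq_mul_div, mul_div_assoc', div_le_div_iff₀ hv0 hv1]
  have h6 : 4 * vv k c m0 b (j + 1) ≤ vv k c m0 b j ^ 2 := by nlinarith
  have h7 : 2 * q k c m0 b j * vv k c m0 b (j + 1) ≤ q k c m0 b (j + 1) * vv k c m0 b j := by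
    have h8 : 2 * q k c m0 b j * vv k c m0 b (j + 1) ≤
        vv k c m0 b j / 2 * q k c m0 b j * vv k c m0 b j := by nlinarith
    refine h8.trans ?_
    exact mul_le_mul_of_nonneg_right h1 hv0.le
  nlinarith

/-- `∑_{i<j+1} K_i q_i ≤ 2 K_j q_j` -/
theorem sum_Kq_le (hS : Start k c m0 b Λ) (hA : 4 ≤ A) (hV : ∀ j < p, A ≤ vv k c m0 b j)
    (hM : ∀ j < p, vv k c m0 b j ≤ M) (hMA : 4 * M ≤ A ^ 2) :
    ∀ j < p, ∑ i ∈ range (j + 1), K k c m0 b i * q k c m0 b i ≤ 2 * (K k c m0 b j * q k c m0 b j) := by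
  intro j
  induction j with
  | zero =>
    intro _
    have := Kq_nonneg (k := k) (c := c) (m0 := m0) (b := b) 0
    simp only [zero_add, range_one, sum_singleton]
    linarith
  | succ j ih =>
    intro hj
    rw [sum_range_succ]
    have h1 := ih (by omega)
    have h2 := Kq_growth hS hA hV hM hMA hj
    linarith

theorem G_nonneg (hΛ : 0 ≤ Λ) (j : ℕ) : 0 ≤ G k c m0 b Λ j := by
  unfold G
  have h2 : 0 ≤ ∑ i ∈ range j, K k c m0 b i * q k c m0 b i := sum_nonneg fun i _ => Kq_nonneg i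
  positivity

theorem lam_nonneg (hΛ : 0 ≤ Λ) (hA : 0 ≤ A) (j : ℕ) : 0 ≤ lam k A c m0 b Λ j := by
  unfold lam
  have := G_nonneg (k := k) (c := c) (m0 := m0) (b := b) hΛ j
  positivity

theorem lam_mono (hA : 0 ≤ A) (j : ℕ) :
    (1 + 4 / A) * lam k A c m0 b Λ j + K k c m0 b j * q k c m0 b j ≤ lam k A c m0 b Λ (j + 1) := by
  unfold lam G
  rw [sum_range_succ, pow_succ]
  have h4 : 0 ≤ 4 / A := by positivity
  have h5 : 1 ≤ (1 + 4 / A) ^ j := one_le_pow₀ (by linarith)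
  have h6 : 1 ≤ (1 + 4 / A) ^ j * (1 + 4 / A) := by nlinarith
  have h7 := Kq_nonneg (k := k) (c := c) (m0 := m0) (b := b) j
  nlinarith

/-- **Lipschitz bounds of the slopes along the digits.** -/
theorem lip (hS : Start k c m0 b Λ) (hA : 4 ≤ A) (hV : ∀ j < p, A ≤ vv k c m0 b j) :
    ∀ j ≤ p, ∀ z : ℂ, Λ * ‖z - m0‖ ≤ 1 →
      (∀ i < j, lam k A c m0 b Λ i * ‖z - m0‖ ≤ 1 ∧ 2 * q k c m0 b i * ‖z - m0‖ ≤ 1) →
      ‖yd k c (b + 1 + j) z - yd k c (b + 1 + j) m0‖ ≤
          lam k A c m0 b Λ j * q k c m0 b j * ‖z - m0‖ ∧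
        ‖yd k c (b + j) z - yd k c (b + j) m0‖ ≤
          lam k A c m0 b Λ j * q k c m0 b j * ‖z - m0‖ := by
  have hA0 : 0 < A := by linarith
  intro j
  induction j with
  | zero =>
    intro _ z hz _
    have e : lam k A c m0 b Λ 0 = Λ := by simp [lam, G]
    rw [e]
    exact ⟨hS.hcur z hz, hS.hpre z hz⟩
  | succ j ih =>
    intro hj z hz hi
    have ih' := ih (by omega)
    set s := ‖z - m0‖ with hs
    set L := lam k A c m0 b Λ j with hL
    set Q := q k c m0 b j with hQ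
    have hLj := (hi j (by omega)).1
    have hQj := (hi j (by omega)).2
    rw [← hL] at hLj
    rw [← hQ] at hQj
    have hs0 : 0 ≤ s := norm_nonneg _
    have hL0 : 0 ≤ L := lam_nonneg hS.hΛ.le hA0.le j
    obtain ⟨hQ0, hPQ⟩ := growth hS hA hV j (by omega)
    rw [← hQ] at hQ0 hPQ
    -- the bounds on the closed ball of radius `s`
    have hball : ∀ w ∈ closedBall (m0 : ℂ) s,
        ‖yd k c (b + 1 + j) w - yd k c (b + 1 + j) m0‖ ≤ L * Q * ‖w - m0‖ ∧
          ‖yd k c (b + j) w - yd k c (b + j) m0‖ ≤ L * Q * ‖w - m0‖ := by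
      intro w hw
      rw [mem_closedBall, dist_eq_norm] at hw
      refine ih' w ?_ ?_
      · exact (mul_le_mul_of_nonneg_left hw hS.hΛ.le).trans hz
      · intro i hij
        have h1 := hi i (by omega)
        refine ⟨(mul_le_mul_of_nonneg_left hw (lam_nonneg hS.hΛ.le hA0.le i)).trans h1.1, ?_⟩
        refine (mul_le_mul_of_nonneg_left hw ?_).trans h1.2
        have := q_nonneg (k := k) (c := c) (m0 := m0) (b := b) i
        positivity
    have hydle : ∀ w ∈ closedBall (m0 : ℂ) s, ‖yd k c (b + 1 + j) w‖ ≤ 2 * Q := by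
      intro w hw
      have h1 := (hball w hw).1
      rw [mem_closedBall, dist_eq_norm] at hw
      have h2 : L * Q * ‖w - m0‖ ≤ Q := by
        calc L * Q * ‖w - m0‖ ≤ L * Q * s := by gcongr
          _ = (L * s) * Q := by ring
          _ ≤ 1 * Q := by gcongr
          _ = Q := one_mul _
      have h3 := norm_sub_norm_le (yd k c (b + 1 + j) w) (yd k c (b + 1 + j) m0)
      have h4 : ‖yd k c (b + 1 + j) (m0 : ℂ)‖ = Q := rfl
      linarith
    have hzmem : z ∈ closedBall (m0 : ℂ) s := by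
      rw [mem_closedBall, dist_eq_norm]
    have hm0mem : (m0 : ℂ) ∈ closedBall (m0 : ℂ) s := mem_closedBall_self hs0
    have hydiff : ‖y k c (b + 1 + j) z - y k c (b + 1 + j) m0‖ ≤ 2 * Q * s := by
      have := (convex_closedBall (m0 : ℂ) s).norm_image_sub_le_of_norm_hasDerivWithin_le
        (f := y k c (b + 1 + j)) (f' := yd k c (b + 1 + j))
        (fun x _ => (hasDerivAt_y k c (b + 1 + j) x).hasDerivWithinAt) hydle hm0mem hzmem
      exact this
    have him0 : (y k c (b + 1 + j) (m0 : ℂ)).im = 0 := im_y_ofReal k c _ m0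
    have himz : |(y k c (b + 1 + j) z).im| ≤ 1 := by
      have h1 : |(y k c (b + 1 + j) z - y k c (b + 1 + j) m0).im| ≤ 2 * Q * s :=
        (Complex.abs_im_le_norm _).trans hydiff
      rw [Complex.sub_im, him0, sub_zero] at h1
      exact h1.trans hQj
    have hVdiff : ‖cV k (y k c (b + 1 + j) z) - cV k (y k c (b + 1 + j) m0)‖ ≤
        CL k * (2 * Q * s) := by
      refine (norm_cV_sub_le k himz (by rw [him0]; simp)).trans ?_
      have := CL_nonneg k
      gcongr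
    have hb := hball z hzmem
    have hstep : yd k c (b + 1 + (j + 1)) z - yd k c (b + 1 + (j + 1)) m0 =
        (cV k (y k c (b + 1 + j) z) - cV k (y k c (b + 1 + j) m0)) * yd k c (b + 1 + j) z +
          cV k (y k c (b + 1 + j) m0) * (yd k c (b + 1 + j) z - yd k c (b + 1 + j) m0) -
          (yd k c (b + j) z - yd k c (b + j) m0) := by
      rw [yd_step, yd_step]
      ring
    have hv := hV j (by omega)
    set v := vv k c m0 b j with hvdef
    have hn : ‖yd k c (b + 1 + (j + 1)) z - yd k c (b + 1 + (j + 1)) m0‖ ≤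
        (4 * CL k * Q ^ 2 + (v + 1) * (L * Q)) * s := by
      rw [hstep]
      refine (norm_sub_le _ _).trans ?_
      refine (add_le_add (norm_add_le _ _) le_rfl).trans ?_
      rw [norm_mul, norm_mul]
      have h1 := mul_le_mul hVdiff (hydle z hzmem) (norm_nonneg _)
        (by have := CL_nonneg k; positivity)
      have h2 : ‖cV k (y k c (b + 1 + j) (m0:ℂ))‖ *
          ‖yd k c (b + 1 + j) z - yd k c (b + 1 + j) m0‖ ≤ v * (L * Q * s) := by
        have hv0 : 0 ≤ v := by linarith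
        exact mul_le_mul le_rfl hb.1 (norm_nonneg _) hv0
      have h3 := hb.2
      nlinarith
    have hQ' := growth' hS hA hV (j := j) (by omega)
    rw [← hvdef, ← hQ] at hQ'
    have hmono := lam_mono (k := k) (c := c) (m0 := m0) (b := b) (Λ := Λ) hA0.le j
    rw [← hL, ← hQ] at hmono
    set L' := lam k A c m0 b Λ (j + 1) with hL'
    set Q' := q k c m0 b (j + 1) with hQ'def
    have hkey : 4 * CL k * Q ^ 2 + (v + 1) * (L * Q) ≤ L' * Q' := by
      have hCL := CL_nonneg k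
      have h1 : (v + 1) ≤ (1 + 4 / A) * (v - 1) := by
        have : 4 / A * (v - 1) ≥ 2 := by
          rw [ge_iff_le, div_mul_eq_mul_div, le_div_iff₀ hA0]
          nlinarith
        nlinarith
      have h2 : 4 * CL k ≤ K k c m0 b j * (v - 1) := by
        have h0 : K k c m0 b j * v = 8 * CL k := Kq_eq j (by linarith)
        have h00 := K_nonneg (k := k) (c := c) (m0 := m0) (b := b) j
        nlinarith
      have h3 : 0 ≤ K k c m0 b j := K_nonneg j
      have hη : 0 ≤ 4 / A := by positivity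
      have hv1 : 0 ≤ v - 1 := by linarith
      calc 4 * CL k * Q ^ 2 + (v + 1) * (L * Q)
          ≤ K k c m0 b j * (v - 1) * Q ^ 2 + (1 + 4 / A) * (v - 1) * (L * Q) := by gcongr
        _ = ((1 + 4 / A) * L + K k c m0 b j * Q) * ((v - 1) * Q) := by ring
        _ ≤ L' * Q' := by
            apply mul_le_mul hmono hQ' (by positivity)
            exact lam_nonneg hS.hΛ.le hA0.le _
    have hcurle : ‖yd k c (b + 1 + (j + 1)) z - yd k c (b + 1 + (j + 1)) m0‖ ≤ L' * Q' * s :=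
      hn.trans (by gcongr)
    refine ⟨hcurle, ?_⟩
    have e : b + (j + 1) = b + 1 + j := by ring
    rw [e]
    refine hb.1.trans ?_
    have hLL : L ≤ L' := by
      have h1 := K_nonneg (k := k) (c := c) (m0 := m0) (b := b) j
      have hη : 0 ≤ 4 / A := by positivity
      nlinarith [mul_nonneg h1 hQ0.le, mul_nonneg hη hL0]
    have hQQ : Q ≤ Q' := by nlinarith
    have hL'0 : 0 ≤ L' := hL0.trans hLL
    gcongr

theorem lam_le_succ (hΛ : 0 ≤ Λ) (hA : 0 ≤ A) (j : ℕ) :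
    lam k A c m0 b Λ j ≤ lam k A c m0 b Λ (j + 1) := by
  have h := lam_mono (k := k) (c := c) (m0 := m0) (b := b) (Λ := Λ) hA j
  have h1 := lam_nonneg (k := k) (c := c) (m0 := m0) (b := b) hΛ hA j
  have h2 := Kq_nonneg (k := k) (c := c) (m0 := m0) (b := b) j
  have h4 : 0 ≤ 4 / A := by positivity
  nlinarith [mul_nonneg h4 h1]

theorem pow_le_two (hA : 0 < A) (hp : 8 * (p : ℝ) ≤ A) {j : ℕ} (hj : j ≤ p) :
    (1 + 4 / A) ^ j ≤ 2 := by
  have h4 : 0 ≤ 4 / A := by positivity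
  have hjp : (j : ℝ) ≤ p := by exact_mod_cast hj
  have h1 : (1 + 4 / A) ^ j ≤ Real.exp (4 / A) ^ j := by
    have := Real.add_one_le_exp (4 / A)
    gcongr
    linarith
  have h2 : Real.exp (4 / A) ^ j ≤ Real.exp (1 / 2) := by
    rw [← Real.exp_nat_mul]
    apply Real.exp_le_exp.2
    rw [mul_div_assoc', div_le_iff₀ hA]
    linarith
  have h3 : Real.exp (1 / 2) ≤ 2 := by
    have h5 : Real.exp (1 / 2) ^ 2 = Real.exp 1 := by
      rw [← Real.exp_nat_mul]; norm_num
    have h6 := Real.exp_one_lt_d9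
    have h7 : 0 < Real.exp (1 / 2) := Real.exp_pos _
    nlinarith
  linarith

theorem lam_succ_le (hS : Start k c m0 b Λ) (hA : 4 ≤ A) (hV : ∀ j < p, A ≤ vv k c m0 b j)
    (hM : ∀ j < p, vv k c m0 b j ≤ M) (hMA : 4 * M ≤ A ^ 2) (hp : 8 * (p : ℝ) ≤ A)
    {j : ℕ} (hj : j < p) :
    lam k A c m0 b Λ (j + 1) ≤ 2 * Λ + 4 * (K k c m0 b j * q k c m0 b j) := by
  have hA0 : 0 < A := by linarith
  have h1 := pow_le_two hA0 hp (j := j + 1) (by omega)
  have h2 := sum_Kq_le hS hA hV hM hMA j hj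
  have h4 : 0 ≤ G k c m0 b Λ (j + 1) := G_nonneg hS.hΛ.le _
  have h5 : G k c m0 b Λ (j + 1) ≤ Λ + 2 * (K k c m0 b j * q k c m0 b j) := by
    unfold G
    linarith
  calc lam k A c m0 b Λ (j + 1) ≤ 2 * G k c m0 b Λ (j + 1) := by
        unfold lam
        gcongr
    _ ≤ _ := by linarith

/-- the disc of the step `j` -/
theorem lip_disc (hS : Start k c m0 b Λ) (hA : 4 ≤ A) (hV : ∀ j < p, A ≤ vv k c m0 b j)
    (hM : ∀ j < p, vv k c m0 b j ≤ M) (hMA : 4 * M ≤ A ^ 2) (hMC : M ≤ 8 * CL k)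
    (hp : 8 * (p : ℝ) ≤ A) {j : ℕ} (hj : j < p) {z : ℂ}
    (hz : (20 * Λ + 40 * (K k c m0 b j * q k c m0 b j)) * ‖z - m0‖ ≤ 1) :
    (‖yd k c (b + 1 + (j + 1)) z - yd k c (b + 1 + (j + 1)) m0‖ ≤
        (2 * Λ + 4 * (K k c m0 b j * q k c m0 b j)) * q k c m0 b (j + 1) * ‖z - m0‖) ∧
      ‖yd k c (b + 1 + (j + 1)) z - yd k c (b + 1 + (j + 1)) m0‖ ≤ q k c m0 b (j + 1) / 10 ∧
      ‖yd k c (b + 1 + j) z - yd k c (b + 1 + j) m0‖ ≤ q k c m0 b j / 10 := by
  have hA0 : 0 < A := by linarith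
  set s := ‖z - m0‖ with hs
  have hs0 : 0 ≤ s := norm_nonneg _
  have hΛ := hS.hΛ
  have hqj := (growth hS hA hV j hj.le).1
  have hqj1 := (growth hS hA hV (j + 1) hj).1
  have hv0 : 0 < vv k c m0 b j := hA0.trans_le (hV j hj)
  have hK1 : 1 ≤ K k c m0 b j := by
    unfold K
    rw [le_div_iff₀ hv0, one_mul]
    exact (hM j hj).trans hMC
  have hKq : 0 ≤ K k c m0 b j * q k c m0 b j := Kq_nonneg j
  have hqK : q k c m0 b j ≤ K k c m0 b j * q k c m0 b j := by nlinarith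
  have hΛs : Λ * s ≤ 1 := by
    have : Λ ≤ 20 * Λ + 40 * (K k c m0 b j * q k c m0 b j) := by nlinarith
    exact (mul_le_mul_of_nonneg_right this hs0).trans hz
  have hlam : lam k A c m0 b Λ (j + 1) * s ≤ 1 / 10 := by
    have h1 := lam_succ_le hS hA hV hM hMA hp hj
    have h2 := mul_le_mul_of_nonneg_right h1 hs0
    nlinarith
  have hlm : ∀ i ≤ j + 1, lam k A c m0 b Λ i ≤ lam k A c m0 b Λ (j + 1) := by
    intro i hi
    exact monotone_nat_of_le_succ (f := fun i => lam k A c m0 b Λ i)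
      (fun i => lam_le_succ hΛ.le hA0.le i) hi
  have hcond : ∀ i < j + 1, lam k A c m0 b Λ i * s ≤ 1 ∧ 2 * q k c m0 b i * s ≤ 1 := by
    intro i hi
    constructor
    · have := mul_le_mul_of_nonneg_right (hlm i (by omega)) hs0
      linarith
    · have h1 := q_mono hS hA hV (i := i) (j := j) (by omega) (by omega)
      have h2 : 2 * q k c m0 b i ≤ 20 * Λ + 40 * (K k c m0 b j * q k c m0 b j) := by nlinarith
      exact (mul_le_mul_of_nonneg_right h2 hs0).trans hz
  have hL1 := (lip hS hA hV (j + 1) hj z hΛs hcond).1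
  have hL0 := (lip hS hA hV j hj.le z hΛs (fun i hi => hcond i (by omega))).1
  refine ⟨?_, ?_, ?_⟩
  · refine hL1.trans ?_
    have h1 := lam_succ_le hS hA hV hM hMA hp hj
    gcongr
  · refine hL1.trans ?_
    have e : lam k A c m0 b Λ (j + 1) * q k c m0 b (j + 1) * s =
      (lam k A c m0 b Λ (j + 1) * s) * q k c m0 b (j + 1) := by ring
    rw [e]
    nlinarith
  · refine hL0.trans ?_
    have e : lam k A c m0 b Λ j * q k c m0 b j * s = (lam k A c m0 b Λ j * s) * q k c m0 b j := by ring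
    rw [e]
    have := mul_le_mul_of_nonneg_right (hlm j (by omega)) hs0
    nlinarith

theorem differentiable_yd (k : ℝ) (c : ℂ) (n : ℕ) : Differentiable ℂ (yd k c n) := by
  have h : yd k c n = deriv (y k c n) := by
    funext t
    exact (deriv_y k c n t).symm
  rw [h]
  exact (differentiable_y k c n).deriv

/-- **one term of the content**: holomorphic and bounded on the disc of the step `j` -/
theorem term (hS : Start k c m0 b Λ) (hA : 4 ≤ A) (hV : ∀ j < p, A ≤ vv k c m0 b j)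
    (hM : ∀ j < p, vv k c m0 b j ≤ M) (hMA : 4 * M ≤ A ^ 2) (hMC : M ≤ 8 * CL k)
    (hp : 8 * (p : ℝ) ≤ A) {j : ℕ} (hj : j < p) :
    (∀ w ∈ ball (m0 : ℂ) (1 / (20 * Λ + 40 * (K k c m0 b j * q k c m0 b j))),
      yd k c (b + 1 + j) w ≠ 0 ∧ yd k c (b + 1 + (j + 1)) w ≠ 0 ∧
      ‖1 / (yd k c (b + 1 + j) w * yd k c (b + 1 + (j + 1)) w)‖ ≤
        3 / 2 / (q k c m0 b j * q k c m0 b (j + 1))) ∧
    DifferentiableOn ℂ (fun w => 1 / (yd k c (b + 1 + j) w * yd k c (b + 1 + (j + 1)) w))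
      (ball (m0 : ℂ) (1 / (20 * Λ + 40 * (K k c m0 b j * q k c m0 b j)))) := by
  have hqj := (growth hS hA hV j hj.le).1
  have hqj1 := (growth hS hA hV (j + 1) hj).1
  set D : ℝ := 20 * Λ + 40 * (K k c m0 b j * q k c m0 b j) with hD
  have hD0 : 0 < D := by
    have := hS.hΛ
    have h1 : 0 ≤ K k c m0 b j * q k c m0 b j := Kq_nonneg j
    nlinarith
  set x := q k c m0 b j with hx
  set x' := q k c m0 b (j + 1) with hx'
  have hlow : ∀ w : ℂ, w ∈ ball (m0 : ℂ) (1 / D) →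
      9 / 10 * x ≤ ‖yd k c (b + 1 + j) w‖ ∧ 9 / 10 * x' ≤ ‖yd k c (b + 1 + (j + 1)) w‖ := by
    intro w hw
    rw [mem_ball, dist_eq_norm, lt_div_iff₀ hD0, mul_comm] at hw
    obtain ⟨-, h1, h2⟩ := lip_disc hS hA hV hM hMA hMC hp hj (z := w) hw.le
    have e1 : ‖yd k c (b + 1 + j) (m0 : ℂ)‖ = x := rfl
    have e2 : ‖yd k c (b + 1 + (j + 1)) (m0 : ℂ)‖ = x' := rfl
    have h3 := norm_sub_norm_le (yd k c (b + 1 + j) (m0 : ℂ)) (yd k c (b + 1 + j) w)
    have h4 := norm_sub_norm_le (yd k c (b + 1 + (j + 1)) (m0 : ℂ)) (yd k c (b + 1 + (j + 1)) w)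
    rw [norm_sub_rev] at h3 h4
    constructor <;> linarith
  have hne : ∀ w : ℂ, w ∈ ball (m0 : ℂ) (1 / D) →
      yd k c (b + 1 + j) w ≠ 0 ∧ yd k c (b + 1 + (j + 1)) w ≠ 0 := by
    intro w hw
    obtain ⟨h1, h2⟩ := hlow w hw
    constructor
    · intro h
      rw [h, norm_zero] at h1
      linarith
    · intro h
      rw [h, norm_zero] at h2
      linarith
  constructor
  · intro w hw
    obtain ⟨h1, h2⟩ := hlow w hw
    refine ⟨(hne w hw).1, (hne w hw).2, ?_⟩
    rw [norm_div, norm_one, norm_mul, div_le_div_iff₀ (by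
      have h3 : 0 < ‖yd k c (b + 1 + j) w‖ := norm_pos_iff.2 (hne w hw).1
      have h4 : 0 < ‖yd k c (b + 1 + (j + 1)) w‖ := norm_pos_iff.2 (hne w hw).2
      positivity) (by positivity)]
    have := mul_le_mul h1 h2 (by positivity) (norm_nonneg _)
    have hxx : 0 < x * x' := by positivity
    nlinarith
  · intro w hw
    obtain ⟨h1, h2⟩ := hne w hw
    exact ((differentiableAt_const _).div ((differentiable_yd k c _ w).mul
      (differentiable_yd k c _ w)) (mul_ne_zero h1 h2)).differentiableWithinAt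

end Crest.Agent.R128.TailG
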