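import Mathlib

/-!
Row 128, node LAM0-U3 (helper379's note 15417, item (U3)): the threshold pigeonhole.
Abstract lemma: among the `M` thresholds `θ_i = a * ((1+ε)/(1-ε))^i` there is one such that the
ambiguous first crossings (with tolerance `1 ± ε`) have total measure at most `(1 + T/M) * μ B`.
-/

open MeasureTheory
open scoped ENNReal

namespace Crest.Agent.R128.Thr

variable {α : Type*} [MeasurableSpace α]

/-- `t` may be the first time at which `|P|` passes `θ`, with relative tolerance `ε`. -/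
def cross (P : ℕ → α → ℝ) (ε θ : ℝ) (t : ℕ) : Set α :=
  {z | θ * (1 - ε) ≤ |P t z| ∧ ∀ s < t, |P s z| < θ * (1 + ε)}

/-- `t` is exactly the first time at which `|P|` is at least `θ`. -/
def first (P : ℕ → α → ℝ) (θ : ℝ) (t : ℕ) : Set α :=
  {z | θ ≤ |P t z| ∧ ∀ s < t, |P s z| < θ}

/-- at time `t` the value lies in the ambiguous window. -/
def win (P : ℕ → α → ℝ) (ε θ : ℝ) (t : ℕ) : Set α :=
  {z | θ * (1 - ε) ≤ |P t z| ∧ |P t z| < θ * (1 + ε)}

theorem cross_subset (P : ℕ → α → ℝ) (ε θ : ℝ) (t : ℕ) :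
    cross P ε θ t ⊆ win P ε θ t ∪ first P (θ * (1 + ε)) t := by
  intro z hz
  rcases lt_or_ge (|P t z|) (θ * (1 + ε)) with h | h
  · exact Or.inl ⟨hz.1, h⟩
  · exact Or.inr ⟨h, hz.2⟩

theorem measurableSet_first {P : ℕ → α → ℝ} (hP : ∀ t, Measurable (P t)) (θ : ℝ) (t : ℕ) :
    MeasurableSet (first P θ t) := by
  have h1 : MeasurableSet {z | θ ≤ |P t z|} :=
    measurableSet_le measurable_const (hP t).abs
  have h2 : MeasurableSet {z | ∀ s < t, |P s z| < θ} := by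
    have : {z | ∀ s < t, |P s z| < θ} = ⋂ s, ⋂ (_ : s < t), {z | |P s z| < θ} := by
      ext z; simp
    rw [this]
    exact MeasurableSet.iInter fun s => MeasurableSet.iInter fun _ =>
      measurableSet_lt (hP s).abs measurable_const
  exact h1.inter h2

theorem measurableSet_win {P : ℕ → α → ℝ} (hP : ∀ t, Measurable (P t)) (ε θ : ℝ) (t : ℕ) :
    MeasurableSet (win P ε θ t) :=
  (measurableSet_le measurable_const (hP t).abs).inter
    (measurableSet_lt (hP t).abs measurable_const)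

theorem first_disjoint (P : ℕ → α → ℝ) (θ : ℝ) {s t : ℕ} (h : s ≠ t) :
    Disjoint (first P θ s) (first P θ t) := by
  rw [Set.disjoint_left]
  rintro z ⟨h1, h2⟩ ⟨h3, h4⟩
  rcases lt_or_gt_of_ne h with h5 | h5
  · exact absurd (h4 s h5) (not_lt.mpr h1)
  · exact absurd (h2 t h5) (not_lt.mpr h3)

theorem sum_first_le (μ : Measure α) {B : Set α} (hB : MeasurableSet B)
    {P : ℕ → α → ℝ} (hP : ∀ t, Measurable (P t)) (θ : ℝ) (T : ℕ) :
    ∑ t ∈ Finset.range T, μ (B ∩ first P θ t) ≤ μ B := by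
  rw [← measure_biUnion_finset]
  · exact measure_mono (Set.iUnion₂_subset fun t _ => Set.inter_subset_left)
  · intro s _ t _ hst
    exact (first_disjoint P θ hst).mono Set.inter_subset_right Set.inter_subset_right
  · intro t _
    exact hB.inter (measurableSet_first hP θ t)

/-- the thresholds -/
noncomputable def grid (a ε : ℝ) (i : ℕ) : ℝ := a * ((1 + ε) / (1 - ε)) ^ i

theorem grid_step {a ε : ℝ} (hε1 : ε < 1) (i : ℕ) :
    grid a ε (i + 1) * (1 - ε) = grid a ε i * (1 + ε) := by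
  have : (1 - ε) ≠ 0 := by linarith
  unfold grid
  rw [pow_succ]
  field_simp

theorem grid_mono {a ε : ℝ} (ha : 0 ≤ a) (hε : 0 ≤ ε) (hε1 : ε < 1) : Monotone (grid a ε) := by
  intro i j hij
  unfold grid
  have : 1 ≤ (1 + ε) / (1 - ε) := by
    rw [one_le_div (by linarith)]; linarith
  exact mul_le_mul_of_nonneg_left (pow_le_pow_right₀ this hij) ha

theorem win_disjoint {P : ℕ → α → ℝ} {a ε : ℝ} (ha : 0 ≤ a) (hε : 0 ≤ ε) (hε1 : ε < 1) (t : ℕ)
    {i j : ℕ} (h : i ≠ j) :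
    Disjoint (win P ε (grid a ε i) t) (win P ε (grid a ε j) t) := by
  have key : ∀ i j : ℕ, i < j →
      Disjoint (win P ε (grid a ε i) t) (win P ε (grid a ε j) t) := by
    intro i j hij
    rw [Set.disjoint_left]
    rintro z ⟨_, h2⟩ ⟨h3, _⟩
    have h5 : grid a ε (i + 1) * (1 - ε) ≤ grid a ε j * (1 - ε) :=
      mul_le_mul_of_nonneg_right (grid_mono ha hε hε1 hij) (by linarith)
    rw [grid_step hε1] at h5
    linarith
  rcases lt_or_gt_of_ne h with h5 | h5
  · exact key i j h5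
  · exact (key j i h5).symm

theorem sum_win_le (μ : Measure α) {B : Set α} (hB : MeasurableSet B)
    {P : ℕ → α → ℝ} (hP : ∀ t, Measurable (P t)) {a ε : ℝ} (ha : 0 ≤ a) (hε : 0 ≤ ε)
    (hε1 : ε < 1) (t M : ℕ) :
    ∑ i ∈ Finset.range M, μ (B ∩ win P ε (grid a ε i) t) ≤ μ B := by
  rw [← measure_biUnion_finset]
  · exact measure_mono (Set.iUnion₂_subset fun t _ => Set.inter_subset_left)
  · intro s _ t' _ hst
    exact (win_disjoint ha hε hε1 t hst).mono Set.inter_subset_right Set.inter_subset_right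
  · intro i _
    exact hB.inter (measurableSet_win hP ε _ t)

/-- **Threshold pigeonhole.** -/
theorem exists_threshold (μ : Measure α) {B : Set α} (hB : MeasurableSet B)
    {P : ℕ → α → ℝ} (hP : ∀ t, Measurable (P t)) (T : ℕ) {M : ℕ} (hM : 0 < M) {ε a : ℝ}
    (ha : 0 ≤ a) (hε : 0 ≤ ε) (hε1 : ε < 1) :
    ∃ i < M, ∑ t ∈ Finset.range T, μ (B ∩ cross P ε (grid a ε i) t)
      ≤ (1 + (T : ℝ≥0∞) / M) * μ B := by
  classical
  rcases eq_or_ne (μ B) ⊤ with htop | htop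
  · refine ⟨0, hM, ?_⟩
    rw [htop, ENNReal.mul_top]
    · exact le_top
    · have : (1 : ℝ≥0∞) ≤ 1 + (T : ℝ≥0∞) / M := le_self_add
      intro h0
      rw [h0] at this
      simp at this
  have hM0 : (M : ℝ≥0∞) ≠ 0 := by exact_mod_cast hM.ne'
  have hMt : (M : ℝ≥0∞) ≠ ⊤ := ENNReal.natCast_ne_top M
  -- pigeonhole over the windows
  obtain ⟨i, hi, hle⟩ : ∃ i < M, ∑ t ∈ Finset.range T, μ (B ∩ win P ε (grid a ε i) t)
      ≤ (T : ℝ≥0∞) / M * μ B := by
    by_contra hcon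
    push Not at hcon
    have h1 : ∑ _i ∈ Finset.range M, (T : ℝ≥0∞) / M * μ B
        < ∑ i ∈ Finset.range M, ∑ t ∈ Finset.range T, μ (B ∩ win P ε (grid a ε i) t) :=
      ENNReal.sum_lt_sum_of_nonempty ⟨0, Finset.mem_range.mpr hM⟩
        (fun i hi => hcon i (Finset.mem_range.mp hi))
    have h2 : ∑ i ∈ Finset.range M, ∑ t ∈ Finset.range T, μ (B ∩ win P ε (grid a ε i) t)
        ≤ T * μ B := by
      rw [Finset.sum_comm]
      calc _ ≤ ∑ _t ∈ Finset.range T, μ B :=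
            Finset.sum_le_sum fun t _ => sum_win_le μ hB hP ha hε hε1 t M
        _ = T * μ B := by simp
    have h3 : ∑ _i ∈ Finset.range M, (T : ℝ≥0∞) / M * μ B = T * μ B := by
      rw [Finset.sum_const, Finset.card_range, nsmul_eq_mul, ← mul_assoc,
        ENNReal.mul_div_cancel hM0 hMt]
    rw [h3] at h1
    exact absurd (lt_of_lt_of_le h1 h2) (lt_irrefl _)
  refine ⟨i, hi, ?_⟩
  calc ∑ t ∈ Finset.range T, μ (B ∩ cross P ε (grid a ε i) t)
      ≤ ∑ t ∈ Finset.range T, (μ (B ∩ win P ε (grid a ε i) t)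
          + μ (B ∩ first P (grid a ε i * (1 + ε)) t)) := by
        refine Finset.sum_le_sum fun t _ => ?_
        refine le_trans (measure_mono ?_) (measure_union_le _ _)
        rw [← Set.inter_union_distrib_left]
        exact Set.inter_subset_inter_right _ (cross_subset P ε _ t)
    _ = ∑ t ∈ Finset.range T, μ (B ∩ win P ε (grid a ε i) t)
          + ∑ t ∈ Finset.range T, μ (B ∩ first P (grid a ε i * (1 + ε)) t) :=
        Finset.sum_add_distrib
    _ ≤ (T : ℝ≥0∞) / M * μ B + μ B := add_le_add hle (sum_first_le μ hB hP _ T)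
    _ = (1 + (T : ℝ≥0∞) / M) * μ B := by ring

theorem exists_threshold_two (μ : Measure α) {B : Set α} (hB : MeasurableSet B)
    {P : ℕ → α → ℝ} (hP : ∀ t, Measurable (P t)) {T M : ℕ} (hM : 0 < M) (hTM : T ≤ M) {ε a : ℝ}
    (ha : 0 ≤ a) (hε : 0 ≤ ε) (hε1 : ε < 1) :
    ∃ i < M, ∑ t ∈ Finset.range T, μ (B ∩ cross P ε (grid a ε i) t) ≤ 2 * μ B := by
  obtain ⟨i, hi, h⟩ := exists_threshold μ hB hP T hM ha hε hε1
  refine ⟨i, hi, h.trans ?_⟩
  gcongr
  have : (T : ℝ≥0∞) / M ≤ 1 := by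
    apply ENNReal.div_le_of_le_mul
    rw [one_mul]
    exact_mod_cast hTM
  calc (1 : ℝ≥0∞) + T / M ≤ 1 + 1 := by gcongr
    _ = 2 := by norm_num

/-- the grid stays below `b` for `M` steps as soon as `M ≤ log (b/a) / (4 ε)`. -/
theorem grid_le {a b ε : ℝ} (ha : 0 < a) (hb : 0 < b) (hε : 0 < ε) (hε1 : ε ≤ 1 / 4) {M i : ℕ}
    (hM : 4 * ε * M ≤ Real.log (b / a)) (hi : i ≤ M) : grid a ε i ≤ b := by
  have h1 : Real.log ((1 + ε) / (1 - ε)) ≤ 4 * ε := by
    have h2 : (1 + ε) / (1 - ε) ≤ 1 + 4 * ε := by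
      rw [div_le_iff₀ (by linarith)]
      nlinarith
    have h3 : 0 < (1 + ε) / (1 - ε) := div_pos (by linarith) (by linarith)
    calc Real.log ((1 + ε) / (1 - ε)) ≤ Real.log (1 + 4 * ε) := Real.log_le_log h3 h2
      _ ≤ (1 + 4 * ε) - 1 := Real.log_le_sub_one_of_pos (by linarith)
      _ = 4 * ε := by ring
  have hr : 0 < (1 + ε) / (1 - ε) := div_pos (by linarith) (by linarith)
  have h4 : Real.log (((1 + ε) / (1 - ε)) ^ i) ≤ Real.log (b / a) := by
    rw [Real.log_pow]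
    calc (i : ℝ) * Real.log ((1 + ε) / (1 - ε)) ≤ i * (4 * ε) := by gcongr
      _ ≤ M * (4 * ε) := by gcongr
      _ = 4 * ε * M := by ring
      _ ≤ _ := hM
  have h5 : ((1 + ε) / (1 - ε)) ^ i ≤ b / a :=
    (Real.log_le_log_iff (pow_pos hr i) (div_pos hb ha)).mp h4
  unfold grid
  rw [le_div_iff₀ ha] at h5
  linarith

theorem le_grid {a ε : ℝ} (ha : 0 ≤ a) (hε : 0 ≤ ε) (hε1 : ε < 1) (i : ℕ) : a ≤ grid a ε i := by
  have := grid_mono ha hε hε1 (Nat.zero_le i)
  simpa [grid] using this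

/-- Final form: a threshold `θ ∈ [a, b]` with total ambiguous crossing measure `≤ 2 μ B`,
whenever the number of times satisfies `8 ε T ≤ log (b/a)`. -/
theorem threshold (μ : Measure α) {B : Set α} (hB : MeasurableSet B)
    {P : ℕ → α → ℝ} (hP : ∀ t, Measurable (P t)) (T : ℕ) {a b ε : ℝ} (ha : 0 < a) (hab : a ≤ b)
    (hε : 0 < ε) (hε1 : ε ≤ 1 / 4) (hT : 4 * ε * T ≤ Real.log (b / a)) :
    ∃ θ, a ≤ θ ∧ θ ≤ b ∧ ∑ t ∈ Finset.range T, μ (B ∩ cross P ε θ t) ≤ 2 * μ B := by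
  rcases Nat.eq_zero_or_pos T with h0 | h0
  · subst h0
    exact ⟨a, le_rfl, hab, by simp⟩
  obtain ⟨i, hi, h⟩ := exists_threshold_two μ hB hP h0 le_rfl ha.le hε.le (by linarith)
    (P := P) (T := T) (ε := ε) (a := a)
  exact ⟨grid a ε i, le_grid ha.le hε.le (by linarith) i,
    grid_le ha (ha.trans_le hab) hε hε1 hT hi.le, h⟩

end Crest.Agent.R128.Thr
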