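/-
R128, node V5-TILE (helper796): from a dead fraction on an interval around every good point to the
hull estimate on a dyadic cell.
-/
import Crest.Agent.R128.Iter

set_option autoImplicit false

open MeasureTheory Set Metric
open scoped ENNReal

namespace Crest.Agent.R128.Tile

open Crest.Agent.R128.Iter

/-- One dimensional Vitali argument on the dead part: if every ball of a family contained in `J`
has a fraction `c0` outside `H ⊆ J` and the doubled balls cover `H`, then
`(1 + c0/8) |H| ≤ |J|`. -/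
theorem dead_cover' {J H H1 : Set ℝ} (hH : MeasurableSet H) {ι : Type*} (s : Set ι)
    (x : ι → ℝ) (r : ι → ℝ) {R c0 : ℝ} (hc0 : 0 ≤ c0) (hr : ∀ i ∈ s, 0 < r i)
    (hR : ∀ i ∈ s, r i ≤ R) (hIJ : ∀ i ∈ s, closedBall (x i) (r i) ⊆ J)
    (hdead : ∀ i ∈ s, ENNReal.ofReal (c0 * (2 * r i)) ≤ volume (closedBall (x i) (r i) \ H))
    (hcov : H1 ⊆ ⋃ i ∈ s, closedBall (x i) (2 * r i)) :
    ENNReal.ofReal (c0 / 8) * volume H1 ≤ volume (J \ H) := by
  obtain ⟨u, hus, hdisj, hcover⟩ := Vitali.exists_disjoint_subfamily_covering_enlargement_closedBall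
    s x (fun i => 2 * r i) (2 * R) (fun a ha => by have := hR a ha; linarith) 4 (by norm_num)
  have hdisj1 : u.PairwiseDisjoint fun i => closedBall (x i) (r i) := by
    intro a ha b hb hab
    have h1 := hdisj ha hb hab
    refine Disjoint.mono ?_ ?_ h1
    · exact closedBall_subset_closedBall (by have := hr a (hus ha); linarith)
    · exact closedBall_subset_closedBall (by have := hr b (hus hb); linarith)
  have hcount : u.Countable := by
    refine hdisj1.countable_of_nonempty_interior fun i hi => ?_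
    rw [interior_closedBall _ (hr i (hus hi)).ne']
    exact nonempty_ball.2 (hr i (hus hi))
  -- volume of H
  have hvol : ∀ (y ρ : ℝ), volume (closedBall y ρ) = ENNReal.ofReal (2 * ρ) := fun y ρ =>
    Real.volume_closedBall y ρ
  have hH8 : volume H1 ≤ ∑' i : u, 8 * ENNReal.ofReal (2 * r i) := by
    have h1 : H1 ⊆ ⋃ i ∈ u, closedBall (x i) (4 * (2 * r i)) := by
      intro t ht
      obtain ⟨i, hi, hti⟩ := mem_iUnion₂.1 (hcov ht)
      obtain ⟨b, hb, hsub⟩ := hcover i hi
      exact mem_iUnion₂.2 ⟨b, hb, hsub hti⟩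
    have := hcount.to_subtype
    calc volume H1 ≤ volume (⋃ i ∈ u, closedBall (x i) (4 * (2 * r i))) := measure_mono h1
      _ = volume (⋃ i : u, closedBall (x i) (4 * (2 * r i))) := by rw [biUnion_eq_iUnion]
      _ ≤ ∑' i : u, volume (closedBall (x (i : ι)) (4 * (2 * r i))) := measure_iUnion_le _
      _ = ∑' i : u, 8 * ENNReal.ofReal (2 * r i) := by
          congr 1
          funext i
          rw [hvol]
          have e : 2 * (4 * (2 * r (i : ι))) = 8 * (2 * r i) := by ring
          rw [e, ENNReal.ofReal_mul (by norm_num)]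
          congr 1
          norm_num
  have hdeadsum : ∑' i : u, ENNReal.ofReal (c0 * (2 * r i)) ≤ volume (J \ H) := by
    have := hcount.to_subtype
    have h2 : volume (⋃ i : u, (closedBall (x (i : ι)) (r i) \ H)) =
        ∑' i : u, volume (closedBall (x (i : ι)) (r i) \ H) := by
      refine measure_iUnion ?_ (fun i => measurableSet_closedBall.diff hH)
      intro a b hab
      have hab' : (a : ι) ≠ b := fun h => hab (Subtype.ext h)
      have h3 := hdisj1 a.2 b.2 hab'
      exact Disjoint.mono sdiff_subset sdiff_subset h3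
    calc ∑' i : u, ENNReal.ofReal (c0 * (2 * r i))
        ≤ ∑' i : u, volume (closedBall (x (i : ι)) (r i) \ H) :=
          ENNReal.tsum_le_tsum fun i => hdead i (hus i.2)
      _ = volume (⋃ i : u, (closedBall (x (i : ι)) (r i) \ H)) := h2.symm
      _ ≤ volume (J \ H) := by
          refine measure_mono (iUnion_subset fun i => ?_)
          exact sdiff_subset_sdiff_left (hIJ i (hus i.2))
  calc ENNReal.ofReal (c0 / 8) * volume H1
      ≤ ENNReal.ofReal (c0 / 8) * ∑' i : u, 8 * ENNReal.ofReal (2 * r i) :=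
        mul_le_mul_right hH8 _
    _ = ∑' i : u, ENNReal.ofReal (c0 * (2 * r i)) := by
        rw [← ENNReal.tsum_mul_left]
        congr 1
        funext i
        have h8 : (8 : ℝ≥0∞) = ENNReal.ofReal 8 := by norm_num
        rw [h8, ← mul_assoc, ← ENNReal.ofReal_mul (by positivity), ← ENNReal.ofReal_mul
          (by positivity)]
        congr 1
        ring
    _ ≤ volume (J \ H) := hdeadsum

theorem dead_cover {J H : Set ℝ} (hH : MeasurableSet H) (hHJ : H ⊆ J) {ι : Type*} (s : Set ι)
    (x : ι → ℝ) (r : ι → ℝ) {R c0 : ℝ} (hc0 : 0 ≤ c0) (hr : ∀ i ∈ s, 0 < r i)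
    (hR : ∀ i ∈ s, r i ≤ R) (hIJ : ∀ i ∈ s, closedBall (x i) (r i) ⊆ J)
    (hdead : ∀ i ∈ s, ENNReal.ofReal (c0 * (2 * r i)) ≤ volume (closedBall (x i) (r i) \ H))
    (hcov : H ⊆ ⋃ i ∈ s, closedBall (x i) (2 * r i)) :
    ENNReal.ofReal (1 + c0 / 8) * volume H ≤ volume J := by
  have hkey := dead_cover' (J := J) hH s x r hc0 hr hR hIJ hdead hcov
  calc ENNReal.ofReal (1 + c0 / 8) * volume H
      = volume H + ENNReal.ofReal (c0 / 8) * volume H := by
        rw [ENNReal.ofReal_add (by norm_num) (by positivity), ENNReal.ofReal_one, add_mul, one_mul]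
    _ ≤ volume H + volume (J \ H) := by gcongr
    _ = volume (H ∪ (J \ H)) := by
        rw [measure_union' disjoint_sdiff_right hH]
    _ ≤ volume J := measure_mono (union_subset hHJ sdiff_subset)

theorem measurableSet_hull_inter_cell (E : Set ℝ) (n g : ℕ) (m : ℤ) :
    MeasurableSet (hull (n + g) E ∩ cell n m) := by
  rw [hull_inter_cell]
  exact Finset.measurableSet_biUnion _ fun m' _ => measurableSet_cell _ _

/-- **V5-TILE**: the hull estimate on the dyadic cell from a dead fraction `c0` on some interval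
around every good point. -/
theorem hull_le_of_local {E : Set ℝ} {n g : ℕ} {m : ℤ} {c0 : ℝ} (hc0 : 0 < c0)
    (h : ∀ t ∈ E ∩ cell n m, ∃ u v : ℝ, u < v ∧ t ∈ Icc u v ∧
      Icc u v ⊆ Icc ((m : ℝ) / 2 ^ n) (((m : ℝ) + 1) / 2 ^ n) ∧ 2 / 2 ^ (n + g) ≤ v - u ∧
      ENNReal.ofReal (c0 * (v - u)) ≤ volume (Icc u v \ (hull (n + g) E ∩ cell n m))) :
    volume (hull (n + g) E ∩ cell n m) ≤ ENNReal.ofReal (1 / (1 + c0 / 8)) * volume (cell n m) := by
  classical
  choose! u v huv htuv hsub hlen hdead using h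
  set J : Set ℝ := Icc ((m : ℝ) / 2 ^ n) (((m : ℝ) + 1) / 2 ^ n) with hJ
  set H : Set ℝ := hull (n + g) E ∩ cell n m with hHdef
  have hHm : MeasurableSet H := measurableSet_hull_inter_cell E n g m
  have hcJ : cell n m ⊆ J := Ico_subset_Icc_self
  have hvJ : volume J = volume (cell n m) := by
    rw [hJ, Real.volume_Icc]
    unfold cell
    rw [Real.volume_Ico]
  have hball : ∀ t, Icc (u t) (v t) = closedBall ((u t + v t) / 2) ((v t - u t) / 2) := by
    intro t
    rw [Real.closedBall_eq_Icc]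
    congr 1 <;> ring
  have hmain := dead_cover (J := J) (H := H) hHm (inter_subset_right.trans hcJ) (E ∩ cell n m)
    (fun t => (u t + v t) / 2) (fun t => (v t - u t) / 2)
    (R := 1 / 2 ^ n) (c0 := c0) hc0.le
    (fun t ht => by have := huv t ht; linarith)
    (fun t ht => by
      have h1 := hsub t ht (left_mem_Icc.2 (huv t ht).le)
      have h2 := hsub t ht (right_mem_Icc.2 (huv t ht).le)
      have h3 : ((m : ℝ) + 1) / 2 ^ n - (m : ℝ) / 2 ^ n = 1 / 2 ^ n := by ring
      have h4 : (0 : ℝ) < 1 / 2 ^ n := by positivity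
      have := h2.2
      have := h1.1
      show (v t - u t) / 2 ≤ 1 / 2 ^ n
      linarith)
    (fun t ht => by rw [← hball]; exact hsub t ht)
    (fun t ht => by
      rw [← hball]
      have e : c0 * (2 * ((v t - u t) / 2)) = c0 * (v t - u t) := by ring
      rw [e]
      exact hdead t ht)
    (by
      rintro y ⟨hy1, hy2⟩
      obtain ⟨t, htc, htE⟩ := hy1
      have hyc := mem_cell_idx (n + g) y
      -- t is in the same small cell as y, hence in the same big cell
      have htn : t ∈ cell n m := by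
        have hb := idx_bounds (g := g) hy2
        exact cell_subset hb.1 hb.2 htc
      have htmem : t ∈ E ∩ cell n m := ⟨htE, htn⟩
      refine mem_iUnion₂.2 ⟨t, htmem, ?_⟩
      have hl := hlen t htmem
      have htu := htuv t htmem
      have hdist : |y - t| ≤ 1 / 2 ^ (n + g) := by
        have h2 : ((idx (n + g) y : ℝ) + 1) / 2 ^ (n + g) - (idx (n + g) y : ℝ) / 2 ^ (n + g)
            = 1 / 2 ^ (n + g) := by ring
        rw [abs_le]
        constructor
        · linarith [hyc.1, htc.2]
        · linarith [hyc.2, htc.1]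
      rw [Real.closedBall_eq_Icc]
      have h5 : (2 : ℝ) / 2 ^ (n + g) = 2 * (1 / 2 ^ (n + g)) := by ring
      rw [h5] at hl
      rw [abs_le] at hdist
      constructor
      · linarith [hdist.1, htu.1]
      · linarith [hdist.2, htu.2])
  rw [hvJ] at hmain
  have hpos : (0 : ℝ) < 1 + c0 / 8 := by positivity
  calc volume H = ENNReal.ofReal (1 / (1 + c0 / 8)) * (ENNReal.ofReal (1 + c0 / 8) * volume H) := by
        rw [← mul_assoc, ← ENNReal.ofReal_mul (by positivity)]
        have : 1 / (1 + c0 / 8) * (1 + c0 / 8) = 1 := by field_simp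
        rw [this, ENNReal.ofReal_one, one_mul]
    _ ≤ ENNReal.ofReal (1 / (1 + c0 / 8)) * volume (cell n m) := mul_le_mul_right hmain _

/-- version with a superset `K t` of the hull on the interval -/
theorem hull_le_of_local' {E : Set ℝ} {n g : ℕ} {m : ℤ} {c0 : ℝ} (hc0 : 0 < c0)
    (hc1 : c0 ≤ 1)
    (h : ∀ t ∈ E ∩ cell n m, ∃ (u v : ℝ) (K : Set ℝ), u < v ∧ t ∈ Icc u v ∧
      Icc u v ⊆ Icc ((m : ℝ) / 2 ^ n) (((m : ℝ) + 1) / 2 ^ n) ∧ 2 / 2 ^ (n + g) ≤ v - u ∧
      (hull (n + g) E ∩ cell n m) ∩ Icc u v ⊆ K ∧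
      volume (K ∩ Icc u v) ≤ ENNReal.ofReal ((1 - c0) * (v - u))) :
    volume (hull (n + g) E ∩ cell n m) ≤ ENNReal.ofReal (1 / (1 + c0 / 8)) * volume (cell n m) := by
  refine hull_le_of_local hc0 fun t ht => ?_
  obtain ⟨u, v, K, huv, htuv, hsub, hlen, hK, hvol⟩ := h t ht
  refine ⟨u, v, huv, htuv, hsub, hlen, ?_⟩
  set H : Set ℝ := hull (n + g) E ∩ cell n m with hHdef
  have hHm : MeasurableSet H := measurableSet_hull_inter_cell E n g m
  have h1 : volume (Icc u v ∩ H) + volume (Icc u v \ H) = volume (Icc u v) :=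
    measure_inter_add_sdiff _ hHm
  have h2 : volume (Icc u v ∩ H) ≤ ENNReal.ofReal ((1 - c0) * (v - u)) := by
    refine le_trans (measure_mono ?_) hvol
    intro y hy
    exact ⟨hK ⟨hy.2, hy.1⟩, hy.1⟩
  have h3 : volume (Icc u v) = ENNReal.ofReal (v - u) := Real.volume_Icc
  have h4 : ENNReal.ofReal (v - u) ≤
      ENNReal.ofReal ((1 - c0) * (v - u)) + volume (Icc u v \ H) := by
    rw [← h3, ← h1]
    gcongr
  have h5 : ENNReal.ofReal (v - u) =
      ENNReal.ofReal ((1 - c0) * (v - u)) + ENNReal.ofReal (c0 * (v - u)) := by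
    rw [← ENNReal.ofReal_add (mul_nonneg (by linarith) (by linarith))
      (mul_nonneg hc0.le (by linarith))]
    congr 1
    ring
  rw [h5] at h4
  exact (ENNReal.add_le_add_iff_left ENNReal.ofReal_ne_top).1 h4

/-- **V5-TILE with an exceptional set**: `E2` (bad cosines) has a hull of relative measure `≤ 1/2`,
around every point of `E1` there is an interval with a dead fraction `c0` (dead = outside the hull
of the whole of `E`). -/
theorem hull_le_of_local_exc {E E1 E2 : Set ℝ} {n g : ℕ} {m : ℤ} {c0 : ℝ} (hc0 : 0 < c0)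
    (hc1 : c0 ≤ 1) (hE : E ∩ cell n m ⊆ E1 ∪ E2)
    (h2 : volume (hull (n + g) (E2 ∩ cell n m) ∩ cell n m) ≤
      ENNReal.ofReal (1 / 2) * volume (cell n m))
    (h : ∀ t ∈ E1 ∩ cell n m, ∃ u v : ℝ, u < v ∧ t ∈ Icc u v ∧
      Icc u v ⊆ Icc ((m : ℝ) / 2 ^ n) (((m : ℝ) + 1) / 2 ^ n) ∧ 2 / 2 ^ (n + g) ≤ v - u ∧
      ENNReal.ofReal (c0 * (v - u)) ≤ volume (Icc u v \ (hull (n + g) E ∩ cell n m))) :
    volume (hull (n + g) E ∩ cell n m) ≤ ENNReal.ofReal (1 - c0 / 32) * volume (cell n m) := by
  classical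
  choose! u v huv htuv hsub hlen hdead using h
  set J : Set ℝ := Icc ((m : ℝ) / 2 ^ n) (((m : ℝ) + 1) / 2 ^ n) with hJ
  set H : Set ℝ := hull (n + g) E ∩ cell n m with hHdef
  set H1 : Set ℝ := hull (n + g) (E1 ∩ cell n m) ∩ cell n m with hH1def
  set H2 : Set ℝ := hull (n + g) (E2 ∩ cell n m) ∩ cell n m with hH2def
  have hHm : MeasurableSet H := measurableSet_hull_inter_cell E n g m
  have hcJ : cell n m ⊆ J := Ico_subset_Icc_self
  have hvJ : volume J = volume (cell n m) := by
    rw [hJ, Real.volume_Icc]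
    unfold cell
    rw [Real.volume_Ico]
  have hH12 : H ⊆ H1 ∪ H2 := by
    rintro y ⟨hy1, hy2⟩
    obtain ⟨t, htc, htE⟩ := hy1
    have htn : t ∈ cell n m := by
      have hb := idx_bounds (g := g) hy2
      exact cell_subset hb.1 hb.2 htc
    rcases hE ⟨htE, htn⟩ with h1 | h1
    · exact Or.inl ⟨⟨t, htc, h1, htn⟩, hy2⟩
    · exact Or.inr ⟨⟨t, htc, h1, htn⟩, hy2⟩
  have hball : ∀ t, Icc (u t) (v t) = closedBall ((u t + v t) / 2) ((v t - u t) / 2) := by
    intro t
    rw [Real.closedBall_eq_Icc]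
    congr 1 <;> ring
  have hmain := dead_cover' (J := J) (H := H) (H1 := H1) hHm (E1 ∩ cell n m)
    (fun t => (u t + v t) / 2) (fun t => (v t - u t) / 2)
    (R := 1 / 2 ^ n) (c0 := c0) hc0.le
    (fun t ht => by have := huv t ht; linarith)
    (fun t ht => by
      have h1 := hsub t ht (left_mem_Icc.2 (huv t ht).le)
      have h2 := hsub t ht (right_mem_Icc.2 (huv t ht).le)
      have h3 : ((m : ℝ) + 1) / 2 ^ n - (m : ℝ) / 2 ^ n = 1 / 2 ^ n := by ring
      have h4 : (0 : ℝ) < 1 / 2 ^ n := by positivity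
      have := h2.2
      have := h1.1
      show (v t - u t) / 2 ≤ 1 / 2 ^ n
      linarith)
    (fun t ht => by rw [← hball]; exact hsub t ht)
    (fun t ht => by
      rw [← hball]
      have e : c0 * (2 * ((v t - u t) / 2)) = c0 * (v t - u t) := by ring
      rw [e]
      exact hdead t ht)
    (by
      rintro y ⟨hy1, hy2⟩
      obtain ⟨t, htc, htmem⟩ := hy1
      have hyc := mem_cell_idx (n + g) y
      refine mem_iUnion₂.2 ⟨t, htmem, ?_⟩
      have hl := hlen t htmem
      have htu := htuv t htmem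
      have hdist : |y - t| ≤ 1 / 2 ^ (n + g) := by
        have h2 : ((idx (n + g) y : ℝ) + 1) / 2 ^ (n + g) - (idx (n + g) y : ℝ) / 2 ^ (n + g)
            = 1 / 2 ^ (n + g) := by ring
        rw [abs_le]
        constructor
        · linarith [hyc.1, htc.2]
        · linarith [hyc.2, htc.1]
      rw [Real.closedBall_eq_Icc]
      have h5 : (2 : ℝ) / 2 ^ (n + g) = 2 * (1 / 2 ^ (n + g)) := by ring
      rw [h5] at hl
      rw [abs_le] at hdist
      constructor
      · linarith [hdist.1, htu.1]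
      · linarith [hdist.2, htu.2])
  -- arithmetic in `ℝ`
  have hcfin : volume (cell n m) ≠ ⊤ := volume_cell_ne_top n m
  have hJfin : volume J ≠ ⊤ := by rw [hvJ]; exact hcfin
  have hHJ : H ⊆ J := inter_subset_right.trans hcJ
  have hH1J : H1 ⊆ J := inter_subset_right.trans hcJ
  have hH2J : H2 ⊆ J := inter_subset_right.trans hcJ
  have hHfin : volume H ≠ ⊤ := measure_ne_top_of_subset hHJ hJfin
  have hH1fin : volume H1 ≠ ⊤ := measure_ne_top_of_subset hH1J hJfin
  have hH2fin : volume H2 ≠ ⊤ := measure_ne_top_of_subset hH2J hJfin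
  have hDfin : volume (J \ H) ≠ ⊤ := measure_ne_top_of_subset sdiff_subset hJfin
  set a : ℝ := (volume (cell n m)).toReal with ha
  have ha0 : 0 ≤ a := ENNReal.toReal_nonneg
  have e1 : (volume H).toReal + (volume (J \ H)).toReal = a := by
    rw [← ENNReal.toReal_add hHfin hDfin, ha, ← hvJ]
    congr 1
    have := measure_inter_add_sdiff (μ := volume) J hHm
    rw [inter_eq_right.2 hHJ] at this
    exact this
  have e2 : (volume H).toReal ≤ (volume H1).toReal + (volume H2).toReal := by
    rw [← ENNReal.toReal_add hH1fin hH2fin]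
    exact ENNReal.toReal_mono (ENNReal.add_ne_top.2 ⟨hH1fin, hH2fin⟩)
      ((measure_mono hH12).trans (measure_union_le _ _))
  have e3 : (volume H2).toReal ≤ 1 / 2 * a := by
    have := ENNReal.toReal_mono (ENNReal.mul_ne_top ENNReal.ofReal_ne_top hcfin) h2
    rwa [ENNReal.toReal_mul, ENNReal.toReal_ofReal (by norm_num)] at this
  have e4 : c0 / 8 * (volume H1).toReal ≤ (volume (J \ H)).toReal := by
    have := ENNReal.toReal_mono hDfin hmain
    rwa [ENNReal.toReal_mul, ENNReal.toReal_ofReal (by positivity)] at this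
  have hgoal : (volume H).toReal ≤ (1 - c0 / 32) * a := by
    by_cases hcase : (volume H1).toReal ≤ a / 4
    · have : (volume H).toReal ≤ 3 / 4 * a := by linarith
      nlinarith
    · push Not at hcase
      have : c0 / 8 * (a / 4) ≤ (volume (J \ H)).toReal := by
        refine le_trans ?_ e4
        exact mul_le_mul_of_nonneg_left hcase.le (by positivity)
      nlinarith
  rw [← ENNReal.ofReal_toReal hHfin, ← ENNReal.ofReal_toReal hcfin, ← ha,
    ← ENNReal.ofReal_mul (by linarith)]
  exact ENNReal.ofReal_le_ofReal hgoal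

end Crest.Agent.R128.Tile
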