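import Crest.Agent.R128.Acc

/-!
# Row 128 (helper90): the STRICT form of TOPCRIT

At a first top `t` of the root contour `bt (rr k z)` the digit satisfies `|V k (T^t z).2| < 2`
(strictly, as `Good.G` asks).
-/

set_option autoImplicit false

namespace Crest.Agent.R128.TopCritS

open Crest.Agent.R128.Acc

/-- **first top, strict**: `bt (t-1) < bt t` and `bt (t+1) ≤ bt t` give `|V at t| < 2` -/
theorem first_top_lt {k : ℝ} {z : Tor} {t : ℕ} (ht : 1 ≤ t)
    (hl : bt (rr k z) (t - 1) < bt (rr k z) t) (hr : bt (rr k z) (t + 1) ≤ bt (rr k z) t) :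
    |V k ((T k)^[t] z).2| < 2 := by
  obtain ⟨s, rfl⟩ : ∃ s, t = s + 1 := ⟨t - 1, by omega⟩
  simp only [Nat.add_sub_cancel] at hl
  have p0 := rr_pos k z s
  have p1 := rr_pos k z (s + 1)
  have p2 := rr_pos k z (s + 2)
  have p3 := rr_pos k z (s + 3)
  unfold bt at hl hr
  rw [show s + 1 + 1 = s + 2 from rfl] at hl hr
  rw [show s + 2 + 1 = s + 3 from rfl] at hr
  have a1 : max (rr k z s) (rr k z (s + 1)) < max (rr k z (s + 1)) (rr k z (s + 2)) :=
    (Real.log_lt_log_iff (lt_max_of_lt_left p0) (lt_max_of_lt_left p1)).mp hl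
  have a2 : max (rr k z (s + 2)) (rr k z (s + 3)) ≤ max (rr k z (s + 1)) (rr k z (s + 2)) :=
    (Real.log_le_log_iff (lt_max_of_lt_left p2) (lt_max_of_lt_left p1)).mp hr
  have h : rr k z (s + 1) < rr k z (s + 2) := by
    by_contra hc
    push Not at hc
    rw [max_eq_left hc] at a1
    exact absurd (le_max_right _ _) (not_le.mpr a1)
  rw [max_eq_right h.le] at a2
  have b1 := (le_max_right _ _).trans a2
  have b2 := rr_h1 k z (s + 1)
  rw [show s + 1 + 2 = s + 3 from rfl, show s + 1 + 1 = s + 2 from rfl] at b2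
  unfold dg at b2
  by_contra hc
  push Not at hc
  nlinarith

end Crest.Agent.R128.TopCritS
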