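import Mathlib

/-!
# Row 128, double cover by translates of leaves (helper287)

`B` is a set of points of the plane (coordinates `(a, x)`), every point `z` of `B` carries a leaf
`ell z`, a `κ`-Lipschitz graph over `[a0, a0 + 1]` whose `r`-neighbourhood lies in the relaxed set
`B'`; two leaves which are `2r`-close somewhere are close at the points of `B` (coherence).  If `R`
has measure at most `lam` on every `κ`-Lipschitz graph, then `vol (B ∩ R) ≤ 4 C lam vol B'`.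
No measurability of `B` or of the leaves is needed.
-/

set_option autoImplicit false
open MeasureTheory Set
open scoped ENNReal

namespace Crest.Agent.R128.Trans

/-- the clamp to `[a0, a0+1]` -/
noncomputable def cl (a0 a : ℝ) : ℝ := max a0 (min (a0 + 1) a)

theorem cl_mem (a0 a : ℝ) : cl a0 a ∈ Icc a0 (a0 + 1) := by
  unfold cl
  refine ⟨le_max_left _ _, max_le (by linarith) (min_le_left _ _)⟩

theorem cl_of_mem {a0 a : ℝ} (h : a ∈ Icc a0 (a0 + 1)) : cl a0 a = a := by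
  unfold cl
  rw [min_eq_right h.2, max_eq_right h.1]

theorem cl_lip (a0 a b : ℝ) : |cl a0 a - cl a0 b| ≤ |a - b| := by
  unfold cl
  have h1 : |max a0 (min (a0 + 1) a) - max a0 (min (a0 + 1) b)| ≤
      |min (a0 + 1) a - min (a0 + 1) b| := by
    have := abs_max_sub_max_le_max a0 (min (a0 + 1) a) a0 (min (a0 + 1) b)
    simpa using this
  have h2 : |min (a0 + 1) a - min (a0 + 1) b| ≤ |a - b| := by
    have := abs_min_sub_min_le_max (a0 + 1) a (a0 + 1) b
    simpa using this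
  exact h1.trans h2

/-- strip around a graph: the intersection with `R` is small -/
theorem strip_le {κ δ a0 : ℝ} {lam : ℝ≥0∞} {R : Set (ℝ × ℝ)} (hR : MeasurableSet R)
    (hlam : ∀ σ : ℝ → ℝ, (∀ y z, |σ y - σ z| ≤ κ * |y - z|) →
      volume {a : ℝ | a ∈ Icc a0 (a0 + 1) ∧ (a, σ a) ∈ R} ≤ lam)
    {σ : ℝ → ℝ} (hσ : ∀ y z, |σ y - σ z| ≤ κ * |y - z|) (hκ : 0 ≤ κ) :
    volume ({p : ℝ × ℝ | p.1 ∈ Icc a0 (a0 + 1) ∧ |p.2 - σ p.1| ≤ δ} ∩ R) ≤
      ENNReal.ofReal (2 * δ) * lam := by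
  have hc : Continuous σ := by
    have : LipschitzWith ⟨κ, hκ⟩ σ := LipschitzWith.of_dist_le_mul fun y z => by
      rw [Real.dist_eq, Real.dist_eq]
      exact hσ y z
    exact this.continuous
  set E : Set (ℝ × ℝ) := {p : ℝ × ℝ | p.1 ∈ Icc a0 (a0 + 1) ∧ |p.2 - σ p.1| ≤ δ} ∩ R with hE
  have hEm : MeasurableSet E := by
    refine MeasurableSet.inter ?_ hR
    have h1 : MeasurableSet {p : ℝ × ℝ | p.1 ∈ Icc a0 (a0 + 1)} := measurable_fst measurableSet_Icc
    have h2 : MeasurableSet {p : ℝ × ℝ | |p.2 - σ p.1| ≤ δ} := by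
      apply measurableSet_le
      · exact (continuous_snd.sub (hc.comp continuous_fst)).abs.measurable
      · exact measurable_const
    exact h1.inter h2
  set φ : ℝ × ℝ → ℝ × ℝ := fun p => (p.1, σ p.1 + p.2) with hφ
  have hφc : Continuous φ := by
    rw [hφ]
    exact continuous_fst.prodMk ((hc.comp continuous_fst).add continuous_snd)
  have hφE : MeasurableSet (φ ⁻¹' E) := hφc.measurable hEm
  have h1 : volume E = volume (φ ⁻¹' E) := by
    rw [Measure.volume_eq_prod, Measure.prod_apply hEm, Measure.prod_apply hφE]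
    refine lintegral_congr fun a => ?_
    have : Prod.mk a ⁻¹' (φ ⁻¹' E) = (fun τ => σ a + τ) ⁻¹' (Prod.mk a ⁻¹' E) := rfl
    rw [this, measure_preimage_add]
  rw [h1, Measure.volume_eq_prod, Measure.prod_apply_symm hφE]
  have h2 : ∀ τ : ℝ, volume ((fun x => (x, τ)) ⁻¹' (φ ⁻¹' E)) ≤
      (Icc (-δ) δ).indicator (fun _ => lam) τ := by
    intro τ
    by_cases hτ : τ ∈ Icc (-δ) δ
    · rw [indicator_of_mem hτ]
      refine le_trans (measure_mono ?_) (hlam (fun a => σ a + τ) ?_)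
      · intro a ha
        have ha' : φ (a, τ) ∈ E := ha
        rw [hE] at ha'
        exact ⟨ha'.1.1, ha'.2⟩
      · intro y z
        have : σ y + τ - (σ z + τ) = σ y - σ z := by ring
        rw [this]
        exact hσ y z
    · rw [indicator_of_notMem hτ]
      have : (fun x => (x, τ)) ⁻¹' (φ ⁻¹' E) = ∅ := by
        ext a
        simp only [mem_preimage, mem_empty_iff_false, iff_false]
        intro ha
        rw [hE] at ha
        have h3 := ha.1.2
        simp only [hφ, add_sub_cancel_left] at h3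
        exact hτ (abs_le.mp h3)
      rw [this, measure_empty]
  refine (lintegral_mono h2).trans ?_
  rw [lintegral_indicator measurableSet_Icc, setLIntegral_const, Real.volume_Icc, mul_comm]
  apply le_of_eq
  congr 2
  ring

/-- grid counting: representatives of the grid cells of length `r` hit by `T` -/
theorem sum_le_of_reps {r : ℝ} (hr : 0 < r) {A : Set ℤ} {t : ℤ → ℝ}
    (ht : ∀ m ∈ A, t m ∈ Ico (m * r) ((m + 1) * r)) {S : Set ℝ}
    (hS : ∀ m ∈ A, ∀ s, |s - t m| < r / 2 → s ∈ S) :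
    (∑' _m : A, ENNReal.ofReal r) ≤ 2 * volume S := by
  have key : ∀ ε : ℤ, (∑' _m : {m : ℤ // m ∈ A ∧ m % 2 = ε}, ENNReal.ofReal r) ≤ volume S := by
    intro ε
    have hdisj : Pairwise (Function.onFun Disjoint
        (fun m : {m : ℤ // m ∈ A ∧ m % 2 = ε} => Ioo (t m - r / 2) (t m + r / 2))) := by
      have hlt : ∀ m m' : {m : ℤ // m ∈ A ∧ m % 2 = ε}, (m : ℤ) < m' →
          Disjoint (Ioo (t m - r / 2) (t m + r / 2)) (Ioo (t m' - r / 2) (t m' + r / 2)) := by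
        intro m m' hlt
        have h2 : (m : ℤ) + 2 ≤ m' := by
          have a := m.2.2
          have b := m'.2.2
          omega
        have h3 : ((m : ℤ) : ℝ) + 2 ≤ ((m' : ℤ) : ℝ) := by exact_mod_cast h2
        have h4 := (ht m m.2.1).2
        have h5 := (ht m' m'.2.1).1
        rw [Set.disjoint_left]
        intro s hs hs'
        have h6 := hs.2
        have h7 := hs'.1
        nlinarith
      intro m m' hne
      rcases lt_trichotomy (m : ℤ) (m' : ℤ) with h | h | h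
      · exact hlt m m' h
      · exact absurd (Subtype.ext h) hne
      · exact (hlt m' m h).symm
    have hsub : (⋃ m : {m : ℤ // m ∈ A ∧ m % 2 = ε}, Ioo (t m - r / 2) (t m + r / 2)) ⊆ S := by
      intro s hs
      obtain ⟨m, hm⟩ := mem_iUnion.mp hs
      refine hS m m.2.1 s ?_
      rw [abs_lt]
      exact ⟨by linarith [hm.1], by linarith [hm.2]⟩
    have h1 := measure_mono (μ := (volume : Measure ℝ)) hsub
    rw [measure_iUnion hdisj (fun m => measurableSet_Ioo)] at h1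
    refine le_trans (le_of_eq ?_) h1
    refine tsum_congr fun m => ?_
    rw [Real.volume_Ioo]
    congr 1
    ring
  have hsplit : (∑' _m : A, ENNReal.ofReal r) ≤
      (∑' _m : {m : ℤ // m ∈ A ∧ m % 2 = 0}, ENNReal.ofReal r) +
      (∑' _m : {m : ℤ // m ∈ A ∧ m % 2 = 1}, ENNReal.ofReal r) := by
    have e0 : ∀ (P : Set ℤ), (∑' _m : P, ENNReal.ofReal r) =
        ∑' m : ℤ, P.indicator (fun _ => ENNReal.ofReal r) m := fun P =>
      tsum_subtype P (fun _ => ENNReal.ofReal r)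
    have e1 := e0 A
    have e2 := e0 {m : ℤ | m ∈ A ∧ m % 2 = 0}
    have e3 := e0 {m : ℤ | m ∈ A ∧ m % 2 = 1}
    change (∑' _m : A, ENNReal.ofReal r) ≤
      (∑' _m : ({m : ℤ | m ∈ A ∧ m % 2 = 0} : Set ℤ), ENNReal.ofReal r) +
      (∑' _m : ({m : ℤ | m ∈ A ∧ m % 2 = 1} : Set ℤ), ENNReal.ofReal r)
    rw [e1, e2, e3, ← ENNReal.tsum_add]
    refine ENNReal.tsum_le_tsum fun m => ?_
    by_cases hm : m ∈ A
    · rw [indicator_of_mem hm]
      rcases Int.emod_two_eq_zero_or_one m with h | h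
      · rw [indicator_of_mem (show m ∈ {m : ℤ | m ∈ A ∧ m % 2 = 0} from ⟨hm, h⟩)]
        exact le_self_add
      · rw [indicator_of_mem (show m ∈ {m : ℤ | m ∈ A ∧ m % 2 = 1} from ⟨hm, h⟩)]
        exact le_add_self
    · rw [indicator_of_notMem hm]
      exact bot_le
  calc (∑' _m : A, ENNReal.ofReal r) ≤ _ := hsplit
    _ ≤ volume S + volume S := add_le_add (key 0) (key 1)
    _ = 2 * volume S := (two_mul _).symm

/-- the estimate on one line `l` -/
theorem trans_line {κ r C a0 : ℝ} (hκ : 0 ≤ κ) (hr : 0 < r) {lam : ℝ≥0∞}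
    {B R : Set (ℝ × ℝ)} {ell : ℝ × ℝ → ℝ → ℝ} (hR : MeasurableSet R)
    (hlam : ∀ σ : ℝ → ℝ, (∀ y z, |σ y - σ z| ≤ κ * |y - z|) →
      volume {a : ℝ | a ∈ Icc a0 (a0 + 1) ∧ (a, σ a) ∈ R} ≤ lam)
    (hB : ∀ z ∈ B, z.1 ∈ Icc a0 (a0 + 1))
    (hell : ∀ z ∈ B, ∀ l ∈ Icc a0 (a0 + 1), ∀ l' ∈ Icc a0 (a0 + 1),
      |ell z l - ell z l'| ≤ κ * |l - l'|)
    {l : ℝ} {S : Set ℝ} (hrel : ∀ z ∈ B, ∀ s, |s - ell z l| ≤ r → s ∈ S)
    (hcoh : ∀ z ∈ B, ∀ w ∈ B, |ell z l - ell w l| ≤ 2 * r → |z.2 - ell w z.1| ≤ C * r) :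
    volume (B ∩ R) ≤ ENNReal.ofReal (4 * C) * lam * volume S := by
  classical
  set A : Set ℤ := {m | ∃ z ∈ B, ell z l ∈ Ico (m * r) ((m + 1) * r)} with hA
  have hch : ∀ m : A, ∃ z ∈ B, ell z l ∈ Ico (((m : ℤ) : ℝ) * r) ((((m : ℤ) : ℝ) + 1) * r) :=
    fun m => m.2
  choose z hzB hzm using hch
  set N : A → Set (ℝ × ℝ) := fun m =>
    {p : ℝ × ℝ | p.1 ∈ Icc a0 (a0 + 1) ∧ |p.2 - ell (z m) (cl a0 p.1)| ≤ C * r} with hN
  have hcov : B ∩ R ⊆ ⋃ m : A, (N m ∩ R) := by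
    rintro w ⟨hwB, hwR⟩
    have hfl : ell w l ∈ Ico (((⌊ell w l / r⌋ : ℤ) : ℝ) * r) ((((⌊ell w l / r⌋ : ℤ) : ℝ) + 1) * r) := by
      constructor
      · rw [← le_div_iff₀ hr]
        exact Int.floor_le _
      · rw [← div_lt_iff₀ hr]
        exact Int.lt_floor_add_one _
    have hmA : ⌊ell w l / r⌋ ∈ A := ⟨w, hwB, hfl⟩
    refine mem_iUnion.mpr ⟨⟨_, hmA⟩, ⟨hB w hwB, ?_⟩, hwR⟩
    rw [cl_of_mem (hB w hwB)]
    apply hcoh w hwB _ (hzB _)
    have h1 := hzm ⟨_, hmA⟩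
    rw [abs_le]
    have h2 := hfl.1
    have h3 := hfl.2
    have h4 := h1.1
    have h5 := h1.2
    simp only at h4 h5
    constructor <;> nlinarith
  have hstrip : ∀ m : A, volume (N m ∩ R) ≤ ENNReal.ofReal (2 * (C * r)) * lam := by
    intro m
    have hσ : ∀ y y' : ℝ, |ell (z m) (cl a0 y) - ell (z m) (cl a0 y')| ≤ κ * |y - y'| := by
      intro y y'
      refine (hell _ (hzB m) _ (cl_mem a0 y) _ (cl_mem a0 y')).trans ?_
      exact mul_le_mul_of_nonneg_left (cl_lip a0 y y') hκ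
    exact strip_le (σ := fun a => ell (z m) (cl a0 a)) hR hlam hσ hκ
  have hsum : (∑' _m : A, ENNReal.ofReal r) ≤ 2 * volume S := by
    refine sum_le_of_reps (t := fun m => if h : m ∈ A then ell (z ⟨m, h⟩) l else 0) hr ?_ ?_
    · intro m hm
      simp only [hm, dif_pos]
      exact hzm ⟨m, hm⟩
    · intro m hm s hs
      simp only [hm, dif_pos] at hs
      exact hrel _ (hzB ⟨m, hm⟩) s (by linarith)
  calc volume (B ∩ R) ≤ volume (⋃ m : A, (N m ∩ R)) := measure_mono hcov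
    _ ≤ ∑' m : A, volume (N m ∩ R) := measure_iUnion_le _
    _ ≤ ∑' _m : A, ENNReal.ofReal (2 * (C * r)) * lam := ENNReal.tsum_le_tsum hstrip
    _ = ∑' _m : A, ENNReal.ofReal r * (ENNReal.ofReal (2 * C) * lam) := by
        refine tsum_congr fun m => ?_
        have e : ENNReal.ofReal (2 * (C * r)) = ENNReal.ofReal r * ENNReal.ofReal (2 * C) := by
          rw [← ENNReal.ofReal_mul hr.le]
          congr 1
          ring
        rw [e, mul_assoc]
    _ = (∑' _m : A, ENNReal.ofReal r) * (ENNReal.ofReal (2 * C) * lam) := ENNReal.tsum_mul_right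
    _ ≤ (2 * volume S) * (ENNReal.ofReal (2 * C) * lam) := by gcongr
    _ = ENNReal.ofReal (4 * C) * lam * volume S := by
        have e : ENNReal.ofReal (4 * C) = 2 * ENNReal.ofReal (2 * C) := by
          rw [show (4 : ℝ) * C = 2 * (2 * C) by ring, ENNReal.ofReal_mul (by norm_num : (0:ℝ) ≤ 2),
            ENNReal.ofReal_ofNat]
        rw [e]
        ring

/-- **Double cover by translates of leaves.** -/
theorem trans {κ r C a0 : ℝ} (hκ : 0 ≤ κ) (hr : 0 < r) {lam : ℝ≥0∞}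
    {B B' R : Set (ℝ × ℝ)} {ell : ℝ × ℝ → ℝ → ℝ} (hR : MeasurableSet R) (hB' : MeasurableSet B')
    (hlam : ∀ σ : ℝ → ℝ, (∀ y z, |σ y - σ z| ≤ κ * |y - z|) →
      volume {a : ℝ | a ∈ Icc a0 (a0 + 1) ∧ (a, σ a) ∈ R} ≤ lam)
    (hB : ∀ z ∈ B, z.1 ∈ Icc a0 (a0 + 1))
    (hell : ∀ z ∈ B, ∀ l ∈ Icc a0 (a0 + 1), ∀ l' ∈ Icc a0 (a0 + 1),
      |ell z l - ell z l'| ≤ κ * |l - l'|)
    (hrel : ∀ z ∈ B, ∀ l ∈ Icc a0 (a0 + 1), ∀ s, |s - ell z l| ≤ r → (l, s) ∈ B')
    (hcoh : ∀ z ∈ B, ∀ w ∈ B, ∀ l ∈ Icc a0 (a0 + 1), |ell z l - ell w l| ≤ 2 * r →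
      |z.2 - ell w z.1| ≤ C * r) :
    volume (B ∩ R) ≤ ENNReal.ofReal (4 * C) * lam * volume B' := by
  have hline : ∀ l ∈ Icc a0 (a0 + 1), volume (B ∩ R) ≤
      ENNReal.ofReal (4 * C) * lam * volume (Prod.mk l ⁻¹' B') := fun l hl =>
    trans_line hκ hr hR hlam hB hell (fun z hz s hs => hrel z hz l hl s hs)
      (fun z hz w hw h => hcoh z hz w hw l hl h)
  have h1 : ∫⁻ _l in Icc a0 (a0 + 1), volume (B ∩ R) = volume (B ∩ R) := by
    rw [setLIntegral_const, Real.volume_Icc]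
    simp
  rw [← h1]
  calc ∫⁻ _l in Icc a0 (a0 + 1), volume (B ∩ R)
      ≤ ∫⁻ l in Icc a0 (a0 + 1), ENNReal.ofReal (4 * C) * lam * volume (Prod.mk l ⁻¹' B') :=
        setLIntegral_mono' measurableSet_Icc hline
    _ ≤ ∫⁻ l, ENNReal.ofReal (4 * C) * lam * volume (Prod.mk l ⁻¹' B') :=
        setLIntegral_le_lintegral _ _
    _ = ENNReal.ofReal (4 * C) * lam * ∫⁻ l, volume (Prod.mk l ⁻¹' B') :=
        lintegral_const_mul _ (measurable_measure_prodMk_left hB')
    _ = ENNReal.ofReal (4 * C) * lam * volume B' := by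
        rw [Measure.volume_eq_prod, Measure.prod_apply hB']

end Crest.Agent.R128.Trans
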