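import Crest.Agent.R128.TreeSum

/-! Row 128 (V2), helper430 for helper89: reverse tree inequality for Jacobi fields. -/

set_option autoImplicit false
open Finset

namespace Crest.Agent.R128.TreeRev

open Crest.Agent.R128.TreeSum

/-- the field with initial value `v` -/
noncomputable def fieldOf (a : ℕ → ℝ) (v : ℝ × ℝ) : ℕ → ℝ × ℝ
  | 0 => v
  | n + 1 => stp (a n) (fieldOf a v n)

theorem isField_fieldOf (a : ℕ → ℝ) (v : ℝ × ℝ) : IsField a (fieldOf a v) := fun _ => rfl

theorem wt_shift (a : ℕ → ℝ) (w : ℕ → ℝ × ℝ) (m d : ℕ) :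
    wt (fun j => a (m + j)) (fun j => w (m + j)) 0 d = wt a w m (m + d) := by
  unfold wt
  rw [Finset.sum_Ico_eq_sum_range, Finset.sum_Ico_eq_sum_range]
  simp only [Nat.sub_zero, zero_add, Nat.add_sub_cancel_left]
  refine Finset.sum_congr rfl fun j _ => ?_
  rw [show m + (j + 1) = m + j + 1 by omega]

/-- **reverse tree inequality** -/
theorem tree_ineq_rev {a : ℕ → ℝ} {w z : ℕ → ℝ × ℝ} (hw : IsField a w) (hz : IsField a z)
    {m n : ℕ} (hmn : m ≤ n) (h0 : 0 < nn (w m)) :
    nn (z m) ≤ nn (z n) * (nn (w n) / nn (w m) + nn (w m) / nn (w n) +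
      nn (w m) * nn (w n) * wt a w m n) := by
  obtain ⟨d, rfl⟩ := Nat.exists_eq_add_of_le hmn
  set a' : ℕ → ℝ := fun j => a (m + j) with ha'
  set w' : ℕ → ℝ × ℝ := fun j => w (m + j) with hw'
  set z' : ℕ → ℝ × ℝ := fun j => z (m + j) with hz'
  have fw : IsField a' w' := fun n => hw (m + n)
  have fz : IsField a' z' := fun n => hz (m + n)
  set y : ℕ → ℝ × ℝ := fieldOf a' (-(z m).2, (z m).1) with hy
  have fy : IsField a' y := isField_fieldOf _ _
  have hy0 : y 0 = (-(z m).2, (z m).1) := rfl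
  have h1 := tree_ineq fw fy (Nat.zero_le d) (by simpa [hw'] using h0)
  have h2 := fz.wr_eq fy (Nat.zero_le d)
  have h3 : wr (z' 0) (y 0) = nn (z m) ^ 2 := by
    rw [nn_sq, hy0]
    simp only [hz', add_zero, wr]
    ring
  have h4 : nn (y 0) = nn (z m) := by
    unfold nn
    rw [hy0]
    congr 1
    simp only
    ring
  have h5 := abs_wr_le (z' d) (y d)
  rw [h2, h3, abs_of_nonneg (sq_nonneg _)] at h5
  rw [h4, wt_shift] at h1
  simp only [hw', add_zero] at h1
  simp only [hz'] at h5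
  set Q := nn (w (m + d)) / nn (w m) + nn (w m) / nn (w (m + d)) +
    nn (w m) * nn (w (m + d)) * wt a w m (m + d) with hQ
  rcases eq_or_lt_of_le (nn_nonneg (z m)) with h6 | h6
  · rw [← h6]
    have hQ0 : 0 ≤ Q := by
      have := nn_nonneg (w m)
      have := nn_nonneg (w (m + d))
      have := wt_nonneg a w m (m + d)
      positivity
    exact mul_nonneg (nn_nonneg _) hQ0
  · have h7 : nn (z m) ^ 2 ≤ nn (z (m + d)) * (nn (z m) * Q) :=
      h5.trans (mul_le_mul_of_nonneg_left h1 (nn_nonneg _))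
    have h8 : nn (z m) * nn (z m) ≤ nn (z m) * (nn (z (m + d)) * Q) := by nlinarith
    exact le_of_mul_le_mul_left h8 h6

end Crest.Agent.R128.TreeRev
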