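import Crest.Agent.R128.AlignMn
import Crest.Agent.R128.TreeSum

/-!
# Row 128: the content identity at an exit (helper556)

For a tip the alignment quantity, truncated at the exits of the two sides, equals the first
fresh term of each side up to a small error:
`|V(c) - mu⁺ - mu⁻ - 1/(α Q²) - 1/(β Q'²)| ≤ …`.
-/

set_option autoImplicit false
open Crest.Agent.R128 Crest.Agent.R128.Two Crest.Agent.R128.Acc Crest.Agent.R128.AlignMn

namespace Crest.Agent.R128.Trunc

open TreeSum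

section side

variable {a : ℕ → ℝ}

/-- the pair field of a solution -/
noncomputable def pr (a : ℕ → ℝ) (u v : ℝ) (n : ℕ) : ℝ × ℝ :=
  (Align.sol a u v n, Align.sol a u v (n + 1))

theorem isField_pr (a : ℕ → ℝ) (u v : ℝ) : IsField (fun n => a (n + 1)) (pr a u v) := by
  intro n
  unfold pr stp
  simp only
  rw [Align.sol_add_two]

theorem wr_pr (a : ℕ → ℝ) (u v : ℝ) (n : ℕ) : wr (pr a 0 1 n) (pr a u v n) = -u := by
  have h := Align.wronskian_Q a u v n
  unfold Align.Q at h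
  unfold wr pr
  simp only
  linarith

theorem nn_pos_of_wr {v u : ℝ × ℝ} (h : wr v u ≠ 0) : 0 < nn v := by
  by_contra hc
  have h0 : nn v = 0 := le_antisymm (not_lt.mp hc) (nn_nonneg _)
  have := abs_wr_le v u
  rw [h0, zero_mul] at this
  exact h (abs_nonpos_iff.mp this)

theorem abs_lam_le (w z : ℝ × ℝ) (hw : 0 < nn w) : |lam w z| ≤ nn z / nn w := by
  unfold lam
  rw [abs_div, abs_of_pos (by positivity : 0 < nn w ^ 2), div_le_div_iff₀ (by positivity) hw]
  have := abs_dt_le z w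
  nlinarith [nn_nonneg z]

/-- decay of the contracted field, in terms of the weight sum of the growing field;
only `|s J|, |s (J+1)| ≤ e` and `E ≤ ‖w_J‖` at some later index `J` are used -/
theorem nn_le_of_end {u v : ℝ} (hu : |u| = 1) {m J : ℕ} (hmJ : m ≤ J) {e E S : ℝ} (hE : 0 < E)
    (h0 : |Align.sol a u v J| ≤ e) (h1 : |Align.sol a u v (J + 1)| ≤ e)
    (hJ : E ≤ nn (pr a 0 1 J))
    (hS : nn (pr a 0 1 m) ^ 2 * wt (fun n => a (n + 1)) (pr a 0 1) m J ≤ S) :
    nn (pr a u v m) ≤ nn (pr a 0 1 m) * (2 * e / E) + (S + 1) / nn (pr a 0 1 m) := by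
  have hu0 : u ≠ 0 := by
    intro h
    rw [h, abs_zero] at hu
    exact zero_ne_one hu
  have hw := isField_pr a 0 1
  have hz := isField_pr a u v
  have hwr : ∀ n, wr (pr a 0 1 n) (pr a u v n) = -u := wr_pr a u v
  have hpos : ∀ n, 0 < nn (pr a 0 1 n) := fun n =>
    nn_pos_of_wr (u := pr a u v n) (by rw [hwr]; exact neg_ne_zero.mpr hu0)
  have he : 0 ≤ e := (abs_nonneg _).trans h0
  have hzJ : nn (pr a u v J) ≤ 2 * e := by
    refine (nn_le_add _).trans ?_
    have : |(pr a u v J).1| + |(pr a u v J).2| =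
      |Align.sol a u v J| + |Align.sol a u v (J + 1)| := rfl
    rw [this]
    linarith
  have hlJ : |lam (pr a 0 1 J) (pr a u v J)| ≤ 2 * e / E := by
    refine (abs_lam_le _ _ (hpos J)).trans ?_
    exact div_le_div₀ (by positivity) hzJ hE hJ
  have hd := lam_diff hw hz hmJ (hpos m)
  rw [hwr, abs_neg, hu, one_mul] at hd
  have hlm : |lam (pr a 0 1 m) (pr a u v m)| ≤
      2 * e / E + wt (fun n => a (n + 1)) (pr a 0 1) m J := by
    have h4 : lam (pr a 0 1 m) (pr a u v m) = lam (pr a 0 1 J) (pr a u v J) -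
        (lam (pr a 0 1 J) (pr a u v J) - lam (pr a 0 1 m) (pr a u v m)) := by ring
    rw [h4]
    exact (abs_sub _ _).trans (add_le_add hlJ hd)
  have hfin := nn_le_lam (pr a 0 1 m) (pr a u v m) (hpos m)
  rw [hwr, abs_neg, hu] at hfin
  have h5 : wt (fun n => a (n + 1)) (pr a 0 1) m J * nn (pr a 0 1 m) ≤ S / nn (pr a 0 1 m) := by
    rw [le_div_iff₀ (hpos m)]
    nlinarith
  calc nn (pr a u v m) ≤ |lam (pr a 0 1 m) (pr a u v m)| * nn (pr a 0 1 m) +
        1 / nn (pr a 0 1 m) := hfin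
    _ ≤ (2 * e / E + wt (fun n => a (n + 1)) (pr a 0 1) m J) * nn (pr a 0 1 m) +
        1 / nn (pr a 0 1 m) := by
        have := mul_le_mul_of_nonneg_right hlm (nn_nonneg (pr a 0 1 m))
        linarith
    _ = nn (pr a 0 1 m) * (2 * e / E) + (wt (fun n => a (n + 1)) (pr a 0 1) m J *
        nn (pr a 0 1 m) + 1 / nn (pr a 0 1 m)) := by ring
    _ ≤ nn (pr a 0 1 m) * (2 * e / E) + (S / nn (pr a 0 1 m) + 1 / nn (pr a 0 1 m)) := by
        linarith
    _ = _ := by rw [add_div]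

/-- **one side of the content identity.** `m+1` is the exit, `α = a (m+1)` the exit digit,
`Q = Q (m+1)` the exit derivative; the next digit `a (m+2)` is large. -/
theorem side {u v : ℝ} (hu : |u| = 1) {m J : ℕ} (hmJ : m + 2 ≤ J) {e E S δ A A2 K : ℝ}
    (hE : 0 < E) (h0 : |Align.sol a u v J| ≤ e) (h1 : |Align.sol a u v (J + 1)| ≤ e)
    (hJ : E ≤ nn (pr a 0 1 J))
    (hQ : Align.Q a (m + 1) ≠ 0) (hδ : |Align.Q a m| ≤ δ * |Align.Q a (m + 1)|)
    (hδA : 2 * δ ≤ A) (hA : 2 ≤ A) (hα : A ≤ |a (m + 1)|)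
    (hA2 : 2 ≤ A2) (hα2 : A2 ≤ |a (m + 2)|) (hK : |a (m + 2)| ≤ K) (hS0 : 0 ≤ S)
    (hS : nn (pr a 0 1 (m + 2)) ^ 2 * wt (fun n => a (n + 1)) (pr a 0 1) (m + 2) J ≤ S) :
    |(v - u * Align.mu a (m + 1)) - u * (1 / (a (m + 1) * Align.Q a (m + 1) ^ 2))| ≤
      (K + 2) * (2 * e / E) +
        (2 * δ + 8 * (S + 1) / A2) * (1 / (A ^ 2 * Align.Q a (m + 1) ^ 2)) := by
  set q := Align.Q a (m + 1) with hq
  set α := a (m + 1) with hαdef
  have hq0 : 0 < |q| := abs_pos.mpr hQ
  have hδ0 : 0 ≤ δ := by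
    by_contra hc
    have := abs_nonneg (Align.Q a m)
    nlinarith
  have hA0 : 0 < A := by linarith
  have hα0 : α ≠ 0 := by
    intro h
    rw [h, abs_zero] at hα
    linarith
  -- the next two values of `Q`
  set q2 := Align.Q a (m + 2) with hq2
  have e2 : q2 = α * q - Align.Q a m := Align.Q_add_two a m
  have hq2l : A / 2 * |q| ≤ |q2| := by
    have h3 : |α * q| ≤ |q2| + |Align.Q a m| := by
      have : α * q = q2 + Align.Q a m := by rw [e2]; ring
      rw [this]
      exact abs_add_le _ _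
    rw [abs_mul] at h3
    have h4 := mul_le_mul_of_nonneg_right hα hq0.le
    have h5 : δ * |q| ≤ A / 2 * |q| := mul_le_mul_of_nonneg_right (by linarith) hq0.le
    linarith
  have hq20 : 0 < |q2| := lt_of_lt_of_le (by positivity) hq2l
  have hqq2 : |q| ≤ |q2| := by
    have : 1 * |q| ≤ A / 2 * |q| := mul_le_mul_of_nonneg_right (by linarith) hq0.le
    linarith
  set q3 := Align.Q a (m + 3) with hq3
  have e3 : q3 = a (m + 2) * q2 - q := Align.Q_add_two a (m + 1)
  have hq3l : A2 / 2 * |q2| ≤ |q3| := by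
    have h3 : |a (m + 2) * q2| ≤ |q3| + |q| := by
      have : a (m + 2) * q2 = q3 + q := by rw [e3]; ring
      rw [this]
      exact abs_add_le _ _
    rw [abs_mul] at h3
    have h4 := mul_le_mul_of_nonneg_right hα2 hq20.le
    have h5 : 1 * |q2| ≤ A2 / 2 * |q2| := mul_le_mul_of_nonneg_right (by linarith) hq20.le
    linarith
  have hq3u : |q3| ≤ (K + 1) * |q2| := by
    rw [e3]
    refine (abs_sub _ _).trans ?_
    rw [abs_mul]
    have := mul_le_mul_of_nonneg_right hK hq20.le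
    linarith
  -- the pair at `m + 2`
  have hw1 : A2 / 2 * |q2| ≤ nn (pr a 0 1 (m + 2)) := hq3l.trans (abs_snd_le (pr a 0 1 (m + 2)))
  have hw2 : nn (pr a 0 1 (m + 2)) ≤ (K + 2) * |q2| := by
    refine (nn_le_add _).trans ?_
    have : |(pr a 0 1 (m + 2)).1| + |(pr a 0 1 (m + 2)).2| = |q2| + |q3| := rfl
    rw [this]
    linarith
  have hwpos : 0 < nn (pr a 0 1 (m + 2)) := lt_of_lt_of_le (by positivity) hw1
  have hz := nn_le_of_end (a := a) hu hmJ hE h0 h1 hJ hS
  have hs2 : |Align.sol a u v (m + 2)| ≤ nn (pr a u v (m + 2)) := abs_fst_le (pr a u v (m + 2))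
  have he : 0 ≤ e := (abs_nonneg _).trans h0
  -- the tail
  have htail : |Align.sol a u v (m + 2) / q2| ≤
      (K + 2) * (2 * e / E) + 8 * (S + 1) / A2 * (1 / (A ^ 2 * q ^ 2)) := by
    rw [abs_div, div_le_iff₀ hq20]
    have h6 : (S + 1) / nn (pr a 0 1 (m + 2)) ≤ (S + 1) / (A2 / 2 * |q2|) := by
      apply div_le_div_of_nonneg_left (by linarith) (by positivity) hw1
    have h7 : (S + 1) / (A2 / 2 * |q2|) ≤ 8 * (S + 1) / A2 * (1 / (A ^ 2 * q ^ 2)) * |q2| := by
      have h8 : (A / 2 * |q|) ^ 2 ≤ |q2| ^ 2 := by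
        apply pow_le_pow_left₀ (by positivity) hq2l
      have h9 : (A / 2 * |q|) ^ 2 = A ^ 2 * q ^ 2 / 4 := by
        rw [mul_pow, sq_abs]
        ring
      rw [h9] at h8
      have hq2' : 0 < q ^ 2 := by positivity
      rw [div_le_iff₀ (by positivity)]
      have : 8 * (S + 1) / A2 * (1 / (A ^ 2 * q ^ 2)) * |q2| * (A2 / 2 * |q2|) =
          (S + 1) * (|q2| ^ 2 / (A ^ 2 * q ^ 2 / 4)) := by
        field_simp
        ring
      rw [this]
      have h10 : 1 ≤ |q2| ^ 2 / (A ^ 2 * q ^ 2 / 4) := by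
        rw [one_le_div (by positivity)]
        exact h8
      nlinarith
    have h11 : nn (pr a 0 1 (m + 2)) * (2 * e / E) ≤ (K + 2) * |q2| * (2 * e / E) :=
      mul_le_mul_of_nonneg_right hw2 (by positivity)
    calc |Align.sol a u v (m + 2)| ≤ nn (pr a u v (m + 2)) := hs2
      _ ≤ _ := hz
      _ ≤ (K + 2) * |q2| * (2 * e / E) + 8 * (S + 1) / A2 * (1 / (A ^ 2 * q ^ 2)) * |q2| := by
        linarith
      _ = _ := by ring
  -- the first fresh term
  have hid : (v - u * Align.mu a (m + 1)) = u / (q * q2) + Align.sol a u v (m + 2) / q2 := by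
    rw [Align.sub_mu u v hQ]
    have hw := Align.wronskian_Q a u v (m + 1)
    rw [← hq] at hw
    change _ * q2 - _ * q = u at hw
    have hq2n : q2 ≠ 0 := abs_pos.mp hq20
    rw [← hq]
    field_simp
    linarith
  have hterm : |u / (q * q2) - u * (1 / (α * q ^ 2))| ≤ 2 * δ * (1 / (A ^ 2 * q ^ 2)) := by
    have hq2n : q2 ≠ 0 := abs_pos.mp hq20
    have hqn : q ≠ 0 := hQ
    have h12 : u / (q * q2) - u * (1 / (α * q ^ 2)) = u * (Align.Q a m / (q2 * α * q ^ 2)) := by
      have : Align.Q a m = α * q - q2 := by rw [e2]; ring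
      rw [this]
      field_simp
    rw [h12, abs_mul, hu, one_mul, abs_div, abs_mul, abs_mul, abs_of_nonneg (sq_nonneg q)]
    have hq2' : 0 < q ^ 2 := by positivity
    rw [div_le_iff₀ (by positivity)]
    have h13 : A / 2 * |q| * A ≤ |q2| * |α| := mul_le_mul hq2l hα hA0.le (abs_nonneg _)
    have h14 : 2 * δ * (1 / (A ^ 2 * q ^ 2)) * (|q2| * |α| * q ^ 2) =
        2 * δ / A ^ 2 * (|q2| * |α|) := by
      field_simp
    rw [h14]
    have h15 : 2 * δ / A ^ 2 * (A / 2 * |q| * A) ≤ 2 * δ / A ^ 2 * (|q2| * |α|) :=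
      mul_le_mul_of_nonneg_left h13 (by positivity)
    have h16 : 2 * δ / A ^ 2 * (A / 2 * |q| * A) = δ * |q| := by
      field_simp
    linarith
  rw [hid]
  have h17 : u / (q * q2) + Align.sol a u v (m + 2) / q2 - u * (1 / (α * q ^ 2)) =
      (u / (q * q2) - u * (1 / (α * q ^ 2))) + Align.sol a u v (m + 2) / q2 := by ring
  rw [h17]
  refine (abs_add_le _ _).trans ?_
  have := add_le_add hterm htail
  refine this.trans (le_of_eq ?_)
  ring

end side

/-- side data: the exit is `m + 1`, the digits there are large, and the weight sum of the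
growing field from `m + 2` to the index `J` (first index of size `E`) is bounded -/
structure Exit (a : ℕ → ℝ) (m J : ℕ) (E S δ A A2 K : ℝ) : Prop where
  mJ : m + 2 ≤ J
  big : E ≤ nn (pr a 0 1 J)
  first : ∀ n < J, nn (pr a 0 1 n) < E
  Q0 : Align.Q a (m + 1) ≠ 0
  del : |Align.Q a m| ≤ δ * |Align.Q a (m + 1)|
  dig : A ≤ |a (m + 1)|
  dig2 : A2 ≤ |a (m + 2)|
  digK : |a (m + 2)| ≤ K
  sum : nn (pr a 0 1 (m + 2)) ^ 2 * wt (fun n => a (n + 1)) (pr a 0 1) (m + 2) J ≤ S

/-- the content truncated at the exits `m + 1` (right) and `m' + 1` (left) -/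
noncomputable def cont (k : ℝ) (z : Tor) (m m' : ℕ) : ℝ :=
  V k z.2 - Align.mu (ap k z) (m + 1) - Align.mu (am k z) (m' + 1)

/-- **content identity** -/
theorem content {k h : ℝ} {N : ℕ} {z : Tor} (H : TIP k h N z) {m m' J J' : ℕ}
    {E S δ A A2 K : ℝ} (hE : 0 < E) (hEh : E ≤ Real.exp h / 2) (hδA : 2 * δ ≤ A) (hA : 2 ≤ A)
    (hA2 : 2 ≤ A2) (hS : 0 ≤ S)
    (R : Exit (ap k z) m J E S δ A A2 K) (L : Exit (am k z) m' J' E S δ A A2 K) :
    |cont k z m m' - 1 / (ap k z (m + 1) * Align.Q (ap k z) (m + 1) ^ 2)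
        - 1 / (am k z (m' + 1) * Align.Q (am k z) (m' + 1) ^ 2)| ≤
      4 * (K + 2) / E + (2 * δ + 8 * (S + 1) / A2) * (1 / (A ^ 2 * Align.Q (ap k z) (m + 1) ^ 2)
        + 1 / (A ^ 2 * Align.Q (am k z) (m' + 1) ^ 2)) := by
  obtain ⟨x, hx, hx0, hm1, hm2, i, j, hi, hiN, hj, hjN, hall, ha, hb, hc, hd⟩ := TIP_iff.mp H
  have hrec : x 1 + x (-1) = V k z.2 * x 0 := by
    have := hx 0
    rw [dz_zero] at this
    norm_num at this
    linarith
  have hu0 : x 0 ≠ 0 := by
    intro h'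
    rw [h', abs_zero] at hx0
    exact zero_ne_one hx0
  have hexp : 0 < Real.exp (-h) := Real.exp_pos _
  -- size at the ends of the window
  have hend : ∀ (a : ℕ → ℝ) (v : ℝ) (n : ℕ), |Align.sol a (x 0) v n| ≤ Real.exp (-h) →
      |Align.sol a (x 0) v (n + 1)| ≤ Real.exp (-h) → Real.exp h / 2 ≤ nn (pr a 0 1 n) := by
    intro a v n h1 h2
    have h3 := abs_wr_le (pr a 0 1 n) (pr a (x 0) v n)
    rw [wr_pr, abs_neg, hx0] at h3
    have h4 : nn (pr a (x 0) v n) ≤ 2 * Real.exp (-h) := by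
      refine (nn_le_add _).trans ?_
      have : |(pr a (x 0) v n).1| + |(pr a (x 0) v n).2| =
        |Align.sol a (x 0) v n| + |Align.sol a (x 0) v (n + 1)| := rfl
      rw [this]
      linarith
    have h5 : 1 ≤ nn (pr a 0 1 n) * (2 * Real.exp (-h)) :=
      h3.trans (mul_le_mul_of_nonneg_left h4 (nn_nonneg _))
    have h6 : Real.exp h * Real.exp (-h) = 1 := by rw [← Real.exp_add]; simp
    nlinarith [Real.exp_pos h]
  -- right
  have ej : ((j - 1 : ℕ) : ℤ) = (j : ℤ) - 1 := by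
    push_cast [Nat.cast_sub hj]
    ring
  have hj1 : j - 1 + 1 = j := by omega
  have r1 := right_sol hx (j - 1)
  have r2 := right_sol hx (j - 1 + 1)
  have hR := hend (ap k z) (x 1) (j - 1) (by rw [← r1, ej]; exact hc)
    (by rw [← r2, hj1]; exact hd)
  have hJj : J ≤ j - 1 := by
    by_contra hcon
    have := R.first (j - 1) (by omega)
    linarith
  have hRs := side (a := ap k z) (u := x 0) (v := x 1) hx0 R.mJ (e := 1) (E := E) (S := S)
    (δ := δ) (A := A) (A2 := A2) (K := K) hE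
    (by rw [← right_sol hx J]; exact hall _ (by omega) (by omega))
    (by rw [← right_sol hx (J + 1)]; exact hall _ (by omega) (by push_cast; omega))
    R.big R.Q0 R.del hδA hA R.dig hA2 R.dig2 R.digK hS R.sum
  -- left
  have l1 := left_sol hx i
  have l2 := left_sol hx (i + 1)
  have hL := hend (am k z) (x (-1)) i (by rw [← l1]; exact hb)
    (by
      rw [← l2]
      convert ha using 3
      push_cast
      ring)
  have hJi : J' ≤ i := by
    by_contra hcon
    have := L.first i (by omega)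
    linarith
  have hLs := side (a := am k z) (u := x 0) (v := x (-1)) hx0 L.mJ (e := 1) (E := E) (S := S)
    (δ := δ) (A := A) (A2 := A2) (K := K) hE
    (by rw [← left_sol hx J']; exact hall _ (by omega) (by omega))
    (by rw [← left_sol hx (J' + 1)]; exact hall _ (by push_cast; omega) (by push_cast; omega))
    L.big L.Q0 L.del hδA hA L.dig hA2 L.dig2 L.digK hS L.sum
  have hsum : x 0 * (cont k z m m' - 1 / (ap k z (m + 1) * Align.Q (ap k z) (m + 1) ^ 2)
        - 1 / (am k z (m' + 1) * Align.Q (am k z) (m' + 1) ^ 2)) =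
      ((x 1 - x 0 * Align.mu (ap k z) (m + 1)) -
          x 0 * (1 / (ap k z (m + 1) * Align.Q (ap k z) (m + 1) ^ 2))) +
        ((x (-1) - x 0 * Align.mu (am k z) (m' + 1)) -
          x 0 * (1 / (am k z (m' + 1) * Align.Q (am k z) (m' + 1) ^ 2))) := by
    unfold cont
    linear_combination -hrec
  have habs : |cont k z m m' - 1 / (ap k z (m + 1) * Align.Q (ap k z) (m + 1) ^ 2)
        - 1 / (am k z (m' + 1) * Align.Q (am k z) (m' + 1) ^ 2)| =
      |x 0 * (cont k z m m' - 1 / (ap k z (m + 1) * Align.Q (ap k z) (m + 1) ^ 2)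
        - 1 / (am k z (m' + 1) * Align.Q (am k z) (m' + 1) ^ 2))| := by
    rw [abs_mul, hx0, one_mul]
  rw [habs, hsum]
  refine (abs_add_le _ _).trans ((add_le_add hRs hLs).trans (le_of_eq ?_))
  ring

end Crest.Agent.R128.Trunc
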