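import Mathlib
import Crest.Agent.R128.ValClean

/-!
# Row 128 (helper340): the seam lemmas for the validity of `Skel.lean`

`VS k L z n` has literally the fields of `Skel.Val k L z n` (only digits at times `< n` are tested).
-/

set_option autoImplicit false
open scoped Matrix.Norms.L2Operator
open Matrix Finset
open Crest.AnalysisR.StandardFamily

namespace Crest.Agent.R128.ValNorm

open Crest.Agent.R128 Crest.Agent.R128.TreeSum Crest.Agent.R128.Acc Crest.Agent.R128.Lam0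
open Crest.Agent.R128.Hyp

/-- same fields as `Skel.Val` -/
structure VS (k : ℝ) (L : ℕ) (z : Tor) (n : ℕ) : Prop where
  cl : ∀ m, m < L → m < n → k ^ ((2 : ℝ) / 3) ≤ |V k ((T k)^[m] z).2|
  v2 : ∀ i j, L ≤ i → i ≤ j → j ≤ n → ‖fld k z i‖ ^ 99 ≤ ‖fld k z j‖ ^ 100
  v3 : ∀ j, L ≤ j → j ≤ n → ∃ i, L ≤ i ∧ i ≤ j ∧ (j : ℝ) ^ 400 ≤ ‖fld k z i‖

theorem nn_le_three_half (v : ℝ × ℝ) : nn v ≤ 3 / 2 * ‖v‖ := by
  unfold nn
  rw [Real.sqrt_le_left (by positivity)]
  have h1 : |v.1| ≤ ‖v‖ := by simpa using norm_fst_le v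
  have h2 : |v.2| ≤ ‖v‖ := by simpa using norm_snd_le v
  have h3 : v.1 ^ 2 ≤ ‖v‖ ^ 2 := by
    rw [← sq_abs v.1]
    exact pow_le_pow_left₀ (abs_nonneg _) h1 2
  have h4 : v.2 ^ 2 ≤ ‖v‖ ^ 2 := by
    rw [← sq_abs v.2]
    exact pow_le_pow_left₀ (abs_nonneg _) h2 2
  nlinarith [sq_nonneg ‖v‖]

section vs

variable {k : ℝ} {L n : ℕ} {z y : Tor}

theorem VS.mono (h : VS k L z n) {m : ℕ} (hm : m ≤ n) : VS k L z m where
  cl := fun i hi him => h.cl i hi (him.trans_le hm)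
  v2 := fun i j hi hij hj => h.v2 i j hi hij (hj.trans hm)
  v3 := fun j hL hj => h.v3 j hL (hj.trans hm)

theorem VS.val (h : VS k L z n) (hLn : L ≤ n) : ValD k (1 / 100) L n z where
  c1 := fun m hm => h.cl m hm (hm.trans_le hLn)
  c2 := by
    intro i j hi hij hj
    have h1 := h.v2 i j hi hij hj
    have hi0 : 0 ≤ W k z i := W_nonneg _ _ _
    have hj0 : 0 ≤ W k z j := W_nonneg _ _ _
    have e1 : W k z i ^ (1 - 1 / 100 : ℝ) = (W k z i ^ 99) ^ (1 / 100 : ℝ) := by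
      rw [← Real.rpow_natCast (W k z i) 99, ← Real.rpow_mul hi0]
      norm_num
    have e2 : W k z j = (W k z j ^ 100) ^ (1 / 100 : ℝ) := by
      rw [← Real.rpow_natCast (W k z j) 100, ← Real.rpow_mul hj0]
      norm_num
    rw [e1, e2]
    exact Real.rpow_le_rpow (pow_nonneg hi0 99) h1 (by norm_num)
  c3 := by
    intro j hL hj
    obtain ⟨i, h1, h2, h3⟩ := h.v3 j hL hj
    refine ⟨i, h2, ?_⟩
    have hj0 : (0:ℝ) ≤ j := Nat.cast_nonneg j
    have e : ((j : ℝ) ^ 400) ^ (1 / 100 / 4 : ℝ) = (j : ℝ) := by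
      rw [← Real.rpow_natCast (j:ℝ) 400, ← Real.rpow_mul hj0]
      have : (((400 : ℕ) : ℝ) * (1 / 100 / 4 : ℝ)) = 1 := by norm_num
      rw [this, Real.rpow_one]
    have h4 : ((j : ℝ) ^ 400) ^ (1 / 100 / 4 : ℝ) ≤ W k z i ^ (1 / 100 / 4 : ℝ) :=
      Real.rpow_le_rpow (pow_nonneg hj0 400) h3 (by norm_num)
    rw [e] at h4
    exact h4

/-- early times: only `n ≤ L` clean digits are needed, bound up to time `n + 1` -/
theorem early {β : ℝ} (hβ : 3 ≤ β) (c1 : ∀ m, m < n → β ≤ |V k ((T k)^[m] z).2|) {m : ℕ}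
    (hm : m ≤ n + 1) :
    wt (fun m => V k ((T k)^[m] z).2) (fld k z) 0 m ≤ 13 / 2 ∧ 1 ≤ W k z m := by
  have one : ∀ m ≤ n, 1 ≤ W k z m := by
    intro m hm
    exact (one_le_pow₀ (by linarith)).trans (W_pow hβ c1 hm)
  rcases Nat.lt_or_ge n m with hlt | hge
  · obtain rfl : m = n + 1 := by omega
    have h1 := wt_early hβ c1 (le_refl n)
    have hc := clean_cone hβ c1 n le_rfl
    have hW := W_eq_snd hβ c1 (le_refl n)
    have hWn := one n le_rfl
    set a := V k ((T k)^[n] z).2 with ha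
    have e1 : (fld k z (n + 1)).1 = (fld k z n).2 := by
      rw [fld_succ]
      rfl
    have e2 : (fld k z (n + 1)).2 = a * (fld k z n).2 - (fld k z n).1 := by
      rw [fld_succ]
      rfl
    have b1 : W k z n ≤ W k z (n + 1) := by
      rw [hW, ← e1]
      have := norm_fst_le (fld k z (n + 1))
      rw [Real.norm_eq_abs] at this
      exact this
    have b2 : (|a| - 1 / 2) * W k z n ≤ W k z (n + 1) := by
      have h2 : |(fld k z (n + 1)).2| ≤ W k z (n + 1) := by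
        have := norm_snd_le (fld k z (n + 1))
        rw [Real.norm_eq_abs] at this
        exact this
      rw [e2] at h2
      have h3 := abs_sub_abs_le_abs_sub (a * (fld k z n).2) ((fld k z n).1)
      rw [abs_mul] at h3
      rw [hW]
      linarith
    refine ⟨?_, hWn.trans b1⟩
    have e : wt (fun m => V k ((T k)^[m] z).2) (fld k z) 0 (n + 1) =
        wt (fun m => V k ((T k)^[m] z).2) (fld k z) 0 n +
        (|a| + 2) / (nn (fld k z n) * nn (fld k z (n + 1))) := by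
      unfold wt
      rw [Finset.sum_Ico_succ_top (Nat.zero_le _)]
    rw [e]
    have a1 : W k z n ≤ nn (fld k z n) := norm_le_nn _
    have a2 : W k z (n + 1) ≤ nn (fld k z (n + 1)) := norm_le_nn _
    have hp : 0 < nn (fld k z n) * nn (fld k z (n + 1)) :=
      mul_pos (by linarith) (by linarith)
    have h6 : (|a| + 2) / (nn (fld k z n) * nn (fld k z (n + 1))) ≤ 7 / 2 := by
      rw [div_le_iff₀ hp]
      have h7 : W k z (n + 1) ≤ nn (fld k z n) * nn (fld k z (n + 1)) := by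
        calc W k z (n + 1) = 1 * W k z (n + 1) := (one_mul _).symm
          _ ≤ nn (fld k z n) * nn (fld k z (n + 1)) :=
            mul_le_mul (by linarith) a2 (W_nonneg _ _ _) (nn_nonneg _)
      rcases le_total |a| (3 / 2) with h8 | h8
      · linarith
      · have h9 : (|a| - 1 / 2) * 1 ≤ (|a| - 1 / 2) * W k z n :=
          mul_le_mul_of_nonneg_left hWn (by linarith)
        linarith
    linarith
  · have h1 := wt_early hβ c1 hge
    exact ⟨by linarith, one m hge⟩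

theorem log_l2_of {m : ℕ}
    (h : wt (fun m => V k ((T k)^[m] z).2) (fld k z) 0 m ≤ 13 / 2 ∧ 1 ≤ W k z m) :
    Real.log (W k z m) ≤ Real.log ‖Mn k m z‖ ∧
      Real.log ‖Mn k m z‖ ≤ Real.log (W k z m) + 3 := by
  obtain ⟨w5, hW1⟩ := h
  have n0 : nn (fld k z 0) = 1 := by
    rw [fld_zero]
    exact nn_e2
  have u0 : nn (act (Mn k 0 z) (1, 0)) = 1 := by
    have : act (Mn k 0 z) (1, 0) = (1, 0) := by simp [act]
    rw [this]
    exact nn_e1
  have t := tree_ineq (isField_fld k z) (field_e1 k z) (Nat.zero_le m) (by rw [n0]; norm_num)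
  simp only [n0, u0] at t
  have a1 : W k z m ≤ nn (fld k z m) := norm_le_nn _
  have a3 : 1 / nn (fld k z m) ≤ 1 := by
    rw [div_le_one (by linarith)]
    linarith
  have a6 : 1 * nn (fld k z m) * wt (fun m => V k ((T k)^[m] z).2) (fld k z) 0 m ≤
      nn (fld k z m) * (13 / 2) := by
    rw [one_mul]
    exact mul_le_mul_of_nonneg_left w5 (nn_nonneg _)
  have a7 : nn (act (Mn k m z) (1, 0)) ≤ 15 / 2 * nn (fld k z m) + 1 := by
    calc nn (act (Mn k m z) (1, 0)) ≤ _ := t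
      _ ≤ _ := by
        rw [one_mul, div_one]
        linarith
  have a8 := l2_le_add (Mn k m z)
  have e : act (Mn k m z) (0, 1) = fld k z m := rfl
  rw [e] at a8
  have a9 : nn (fld k z m) ≤ 3 / 2 * W k z m := nn_le_three_half _
  have h2 : ‖Mn k m z‖ ≤ 16 * W k z m := by linarith
  refine ⟨Real.log_le_log (by linarith) (W_le_l2 k z m), ?_⟩
  have h3 : Real.log ‖Mn k m z‖ ≤ Real.log (16 * W k z m) :=
    Real.log_le_log (lt_of_lt_of_le (by linarith) (W_le_l2 k z m)) h2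
  rw [Real.log_mul (by norm_num) (by linarith)] at h3
  have h4 : Real.log 16 ≤ 3 := by
    have h0 : Real.log 16 = 4 * Real.log 2 := by
      rw [show (16:ℝ) = 2 ^ 4 by norm_num, Real.log_pow]
      norm_num
    have := Real.log_two_lt_d9
    linarith
  linarith

/-- operator norm versus field for a `Skel` valid start, up to time `n + 1` -/
theorem VS.wt_W (h : VS k L z n) (hk : 100 ≤ k) (hL : 10 ≤ L) {m : ℕ} (hm : m ≤ n + 1) :
    wt (fun m => V k ((T k)^[m] z).2) (fld k z) 0 m ≤ 13 / 2 ∧ 1 ≤ W k z m := by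
  rcases Nat.lt_or_ge n L with hnL | hnL
  · exact early (ValD.three hk) (fun i hi => h.cl i (hi.trans hnL) hi) hm
  · have := (h.val hnL).wt_succ hk hL (by norm_num) (by norm_num) hm
    exact ⟨by linarith [this.1], this.2⟩

theorem VS.log_l2 (h : VS k L z n) (hk : 100 ≤ k) (hL : 10 ≤ L) {m : ℕ} (hm : m ≤ n + 1) :
    Real.log (W k z m) ≤ Real.log ‖Mn k m z‖ ∧
      Real.log ‖Mn k m z‖ ≤ Real.log (W k z m) + 3 :=
  log_l2_of (h.wt_W hk hL hm)

theorem VS.cleanF_of (h : VS k L y n) (hk : 100 ≤ k) (hL : 10 ≤ L) {D : ℕ → ℕ → ℝ} {v : ℕ}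
    (hD : ∀ m ≤ n, D v (v + m) = Real.log ‖Mn k m y‖) {c : ℝ} (hc : 3 ≤ c) :
    V1.CleanF D (1 / 100) (1 / 400) c (Real.log k * (L / 2)) L v (v + n) := by
  rcases Nat.lt_or_ge n L with hnL | hnL
  · exact ⟨fun h => by omega, fun _ _ _ _ _ _ => by omega, fun _ _ _ => by omega⟩
  · have := (h.val hnL).cleanF_of hk hL (by norm_num) (by norm_num) hD hc
    have e : (1 / 100 / 4 : ℝ) = 1 / 400 := by norm_num
    rwa [e] at this

/-- **(P2) forward, Skel form** -/
theorem VS.cleanF_forward {v : ℕ} (h : VS k L ((T k)^[v] z) n) (hk : 100 ≤ k) (hL : 10 ≤ L)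
    {c : ℝ} (hc : 3 ≤ c) :
    V1.CleanF (Hyp.dist (fun n => Mn k n z)) (1 / 100) (1 / 400) c (Real.log k * (L / 2)) L v
      (v + n) := by
  rw [← Dd_eq]
  exact h.cleanF_of hk hL (fun m _ => Dd_add k z v m) hc

theorem VS.dist_forward {v : ℕ} (h : VS k L ((T k)^[v] z) n) (hk : 100 ≤ k) (hL : 10 ≤ L)
    {m : ℕ} (hm : m ≤ n + 1) :
    Real.log (W k ((T k)^[v] z) m) ≤ Hyp.dist (fun n => Mn k n z) v (v + m) ∧
      Hyp.dist (fun n => Mn k n z) v (v + m) ≤ Real.log (W k ((T k)^[v] z) m) + 3 := by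
  rw [← Dd_eq, Dd_add]
  exact h.log_l2 hk hL hm

/-- **(P2) backward, Skel form** -/
theorem VS.cleanF_backward {N j : ℕ} (h : VS k L ((T k)^[j] z).swap n) (hnj : n ≤ j)
    (hjN : j ≤ N) (hk : 100 ≤ k) (hL : 10 ≤ L) {c : ℝ} (hc : 3 ≤ c) :
    V1.CleanF (fun i i' => Hyp.dist (fun n => Mn k n z) (N - i) (N - i')) (1 / 100) (1 / 400) c
      (Real.log k * (L / 2)) L (N - j) (N - j + n) := by
  rw [← Dd_eq]
  refine h.cleanF_of hk hL (fun m hm => ?_) hc
  show Dd k z (N - (N - j)) (N - (N - j + m)) = _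
  rw [show N - (N - j) = j by omega, show N - (N - j + m) = j - m by omega]
  exact Dd_sub k z (hm.trans hnj)

theorem VS.dist_backward {j : ℕ} (h : VS k L ((T k)^[j] z).swap n) (hk : 100 ≤ k)
    (hL : 10 ≤ L) {m : ℕ} (hm : m ≤ n + 1) (hmj : m ≤ j) :
    Real.log (W k ((T k)^[j] z).swap m) ≤ Hyp.dist (fun n => Mn k n z) j (j - m) ∧
      Hyp.dist (fun n => Mn k n z) j (j - m) ≤ Real.log (W k ((T k)^[j] z).swap m) + 3 := by
  rw [← Dd_eq, Dd_sub k z hmj]
  exact h.log_l2 hk hL hm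

/-- **first failure of a `Skel` valid start**: `n` minimal with `¬ VS n`; then either the digit at
time `n - 1 < L` is irregular, or `(v2)` fails with second index `n`, or `(v3)` fails at `n`. -/
theorem VS.first_failure (hn : ¬ VS k L z n) :
    ∃ n' ≤ n, (∀ m < n', VS k L z m) ∧ ¬ VS k L z n' ∧
      ((1 ≤ n' ∧ n' - 1 < L ∧ |V k ((T k)^[n' - 1] z).2| < k ^ ((2 : ℝ) / 3)) ∨
       (L ≤ n' ∧ ∃ i, L ≤ i ∧ i ≤ n' ∧ ‖fld k z n'‖ ^ 100 < ‖fld k z i‖ ^ 99) ∨
       (L ≤ n' ∧ (∀ i j, L ≤ i → i ≤ j → j ≤ n' → ‖fld k z i‖ ^ 99 ≤ ‖fld k z j‖ ^ 100) ∧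
         ∀ i, L ≤ i → i ≤ n' → ‖fld k z i‖ < (n' : ℝ) ^ 400)) := by
  classical
  have hex : ∃ n', ¬ VS k L z n' := ⟨n, hn⟩
  refine ⟨Nat.find hex, Nat.find_min' hex hn, fun m hm => ?_, Nat.find_spec hex, ?_⟩
  · exact not_not.mp (Nat.find_min hex hm)
  · set n' := Nat.find hex with hn'
    have hmin : ∀ m < n', VS k L z m := fun m hm => not_not.mp (Nat.find_min hex hm)
    have hspec : ¬ VS k L z n' := Nat.find_spec hex
    by_cases A : ∀ m, m < L → m < n' → k ^ ((2 : ℝ) / 3) ≤ |V k ((T k)^[m] z).2|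
    · by_cases B : ∀ i j, L ≤ i → i ≤ j → j ≤ n' → ‖fld k z i‖ ^ 99 ≤ ‖fld k z j‖ ^ 100
      · right; right
        by_cases C : ∀ j, L ≤ j → j ≤ n' → ∃ i, L ≤ i ∧ i ≤ j ∧ (j : ℝ) ^ 400 ≤ ‖fld k z i‖
        · exact absurd ⟨A, B, C⟩ hspec
        · push Not at C
          obtain ⟨j, hLj, hj, hC⟩ := C
          have hjn : j = n' := by
            by_contra hne
            obtain ⟨i, h1, h2, h3⟩ := (hmin j (by omega)).v3 j hLj le_rfl
            exact absurd h3 (not_le.mpr (hC i h1 h2))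
          subst hjn
          exact ⟨hLj, B, hC⟩
      · right; left
        push Not at B
        obtain ⟨i, j, hi, hij, hj, hB⟩ := B
        have hjn : j = n' := by
          by_contra hne
          exact absurd ((hmin j (by omega)).v2 i j hi hij le_rfl) (not_le.mpr hB)
        subst hjn
        exact ⟨hi.trans hij, i, hi, hij, hB⟩
    · left
      push Not at A
      obtain ⟨m, hmL, hmn, hA⟩ := A
      have hmn' : m = n' - 1 := by
        by_contra hne
        exact absurd ((hmin (m + 1) (by omega)).cl m hmL (Nat.lt_succ_self m)) (not_le.mpr hA)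
      refine ⟨by omega, by omega, ?_⟩
      rw [← hmn']
      exact hA

end vs

end Crest.Agent.R128.ValNorm
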