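import Mathlib
import Crest.Agent.R128.ValSkel
import Crest.Agent.R128.Skel

/-!
# Row 128 (helper340): seam lemmas for the frozen `Skel.Val k P L0 z n`

* `cleanF_forward`, `cleanF_backward`, `dist_forward`, `dist_backward` : a valid start has a clean
  profile (`V1.CleanF`, `b = 1/P`, `b' = 1/P/4`, `G = log k * (L0/2)`), distances `= log W ± 3` up to
  time `n + 1`;
* `val_of_clean` : up to time `L0` a start with `L0` regular digits is valid;
* `first_drop` : a start outside `C1 ∪ LG` which is not valid has a first violation by a drawdown.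
-/

set_option autoImplicit false
open scoped Matrix.Norms.L2Operator
open Matrix Finset
open Crest.AnalysisR.StandardFamily

namespace Crest.Agent.R128.ValFin

open Crest.Agent.R128 Crest.Agent.R128.TreeSum Crest.Agent.R128.Acc Crest.Agent.R128.Lam0
open Crest.Agent.R128.Hyp Crest.Agent.R128.ValNorm

variable {k : ℝ} {P L0 n : ℕ} {z y : Tor}

theorem anti (h : Skel.Val k P L0 z n) {m : ℕ} (hm : m ≤ n) : Skel.Val k P L0 z m where
  cl := fun i hi him => h.cl i hi (him.trans_le hm)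
  v2 := fun i j hi hij hj => h.v2 i j hi hij (hj.trans hm)
  v3 := fun j hL hj => h.v3 j hL (hj.trans hm)

theorem pow_P {x u : ℝ} (hx : 0 ≤ x) (hu : 0 ≤ u) (hP : 1 ≤ P) (h : x ^ (P - 1) ≤ u ^ P) :
    x ^ (1 - 1 / (P : ℝ)) ≤ u := by
  have hP0 : (P : ℝ) ≠ 0 := by
    have : 0 < P := by omega
    exact_mod_cast this.ne'
  have hc : ((P - 1 : ℕ) : ℝ) = (P : ℝ) - 1 := by
    rw [Nat.cast_sub hP, Nat.cast_one]
  have e1 : (x ^ (P - 1)) ^ (1 / (P : ℝ)) = x ^ (1 - 1 / (P : ℝ)) := by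
    rw [← Real.rpow_natCast x (P - 1), ← Real.rpow_mul hx, hc]
    congr 1
    field_simp
  have e2 : (u ^ P) ^ (1 / (P : ℝ)) = u := by
    rw [← Real.rpow_natCast u P, ← Real.rpow_mul hu]
    rw [mul_one_div_cancel hP0, Real.rpow_one]
  rw [← e1, ← e2]
  exact Real.rpow_le_rpow (pow_nonneg hx _) h (by positivity)

theorem root_P {j : ℕ} {u : ℝ} (hP : 1 ≤ P) (h : (j : ℝ) ^ (4 * P) ≤ u) :
    (j : ℝ) ≤ u ^ (1 / (P : ℝ) / 4) := by
  have hP0 : (P : ℝ) ≠ 0 := by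
    have : 0 < P := by omega
    exact_mod_cast this.ne'
  have hj0 : (0:ℝ) ≤ j := Nat.cast_nonneg j
  have e : ((j : ℝ) ^ (4 * P)) ^ (1 / (P : ℝ) / 4) = (j : ℝ) := by
    rw [← Real.rpow_natCast (j:ℝ) (4 * P), ← Real.rpow_mul hj0]
    have : (((4 * P : ℕ) : ℝ) * (1 / (P : ℝ) / 4)) = 1 := by
      push_cast
      field_simp
    rw [this, Real.rpow_one]
  have h4 : ((j : ℝ) ^ (4 * P)) ^ (1 / (P : ℝ) / 4) ≤ u ^ (1 / (P : ℝ) / 4) :=
    Real.rpow_le_rpow (pow_nonneg hj0 _) h (by positivity)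
  rw [e] at h4
  exact h4

/-- from `Skel.Val` to `ValD` -/
theorem valD (h : Skel.Val k P L0 z n) (hP : 1 ≤ P) (hL : 1000 ≤ L0) (hLn : L0 ≤ n) :
    ValD k (1 / (P : ℝ)) L0 n z where
  c1 := fun m hm => h.cl m hm (hm.trans_le hLn)
  c2 := fun i j hi hij hj => pow_P (W_nonneg _ _ _) (W_nonneg _ _ _) hP
    (h.v2 i j (hL.trans hi) hij hj)
  c3 := by
    intro j hLj hj
    obtain ⟨i, h1, h2, h3⟩ := h.v3 j (hL.trans hLj) hj
    exact ⟨i, h2, root_P hP h3⟩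

theorem inv_P_le (hP : 4 ≤ P) : 0 < 1 / (P : ℝ) ∧ 1 / (P : ℝ) ≤ 1 / 4 := by
  have h4 : (4:ℝ) ≤ P := by exact_mod_cast hP
  refine ⟨by positivity, ?_⟩
  exact one_div_le_one_div_of_le (by norm_num) h4

theorem wt_W (h : Skel.Val k P L0 z n) (hk : 100 ≤ k) (hP : 4 ≤ P) (hL : 1000 ≤ L0) {m : ℕ}
    (hm : m ≤ n + 1) :
    wt (fun m => V k ((T k)^[m] z).2) (fld k z) 0 m ≤ 13 / 2 ∧ 1 ≤ W k z m := by
  rcases Nat.lt_or_ge n L0 with hnL | hnL
  · exact early (ValD.three hk) (fun i hi => h.cl i (hi.trans hnL) hi) hm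
  · have := (valD h (by omega) hL hnL).wt_succ hk (by omega) (inv_P_le hP).1 (inv_P_le hP).2 hm
    exact ⟨by linarith [this.1], this.2⟩

theorem one_le (h : Skel.Val k P L0 z n) (hk : 100 ≤ k) (hP : 4 ≤ P) (hL : 1000 ≤ L0) {m : ℕ}
    (hm : m ≤ n + 1) : 1 ≤ ‖fld k z m‖ := (wt_W h hk hP hL hm).2

/-- **operator norm versus field, up to time `n + 1`** -/
theorem log_l2 (h : Skel.Val k P L0 z n) (hk : 100 ≤ k) (hP : 4 ≤ P) (hL : 1000 ≤ L0) {m : ℕ}
    (hm : m ≤ n + 1) :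
    Real.log (W k z m) ≤ Real.log ‖Mn k m z‖ ∧
      Real.log ‖Mn k m z‖ ≤ Real.log (W k z m) + 3 :=
  log_l2_of (wt_W h hk hP hL hm)

theorem cleanF_of (h : Skel.Val k P L0 y n) (hk : 100 ≤ k) (hP : 4 ≤ P) (hL : 1000 ≤ L0)
    {D : ℕ → ℕ → ℝ} {v : ℕ} (hD : ∀ m ≤ n, D v (v + m) = Real.log ‖Mn k m y‖) {c : ℝ}
    (hc : 3 ≤ c) :
    V1.CleanF D (1 / (P : ℝ)) (1 / (P : ℝ) / 4) c (Real.log k * (L0 / 2)) L0 v (v + n) := by
  rcases Nat.lt_or_ge n L0 with hnL | hnL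
  · exact ⟨fun h => by omega, fun _ _ _ _ _ _ => by omega, fun _ _ _ => by omega⟩
  · exact (valD h (by omega) hL hnL).cleanF_of hk (by omega) (inv_P_le hP).1 (inv_P_le hP).2 hD hc

/-- **(P2) forward** -/
theorem cleanF_forward {v : ℕ} (h : Skel.Val k P L0 ((T k)^[v] z) n) (hk : 100 ≤ k) (hP : 4 ≤ P)
    (hL : 1000 ≤ L0) {c : ℝ} (hc : 3 ≤ c) :
    V1.CleanF (Hyp.dist (fun n => Mn k n z)) (1 / (P : ℝ)) (1 / (P : ℝ) / 4) c
      (Real.log k * (L0 / 2)) L0 v (v + n) := by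
  rw [← Dd_eq]
  exact cleanF_of h hk hP hL (fun m _ => Dd_add k z v m) hc

theorem dist_forward {v : ℕ} (h : Skel.Val k P L0 ((T k)^[v] z) n) (hk : 100 ≤ k) (hP : 4 ≤ P)
    (hL : 1000 ≤ L0) {m : ℕ} (hm : m ≤ n + 1) :
    Real.log (W k ((T k)^[v] z) m) ≤ Hyp.dist (fun n => Mn k n z) v (v + m) ∧
      Hyp.dist (fun n => Mn k n z) v (v + m) ≤ Real.log (W k ((T k)^[v] z) m) + 3 := by
  rw [← Dd_eq, Dd_add]
  exact log_l2 h hk hP hL hm

/-- **(P2) backward** -/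
theorem cleanF_backward {N j : ℕ} (h : Skel.Val k P L0 ((T k)^[j] z).swap n) (hnj : n ≤ j)
    (hjN : j ≤ N) (hk : 100 ≤ k) (hP : 4 ≤ P) (hL : 1000 ≤ L0) {c : ℝ} (hc : 3 ≤ c) :
    V1.CleanF (fun i i' => Hyp.dist (fun n => Mn k n z) (N - i) (N - i')) (1 / (P : ℝ))
      (1 / (P : ℝ) / 4) c (Real.log k * (L0 / 2)) L0 (N - j) (N - j + n) := by
  rw [← Dd_eq]
  refine cleanF_of h hk hP hL (fun m hm => ?_) hc
  show Dd k z (N - (N - j)) (N - (N - j + m)) = _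
  rw [show N - (N - j) = j by omega, show N - (N - j + m) = j - m by omega]
  exact Dd_sub k z (hm.trans hnj)

theorem dist_backward {j : ℕ} (h : Skel.Val k P L0 ((T k)^[j] z).swap n) (hk : 100 ≤ k)
    (hP : 4 ≤ P) (hL : 1000 ≤ L0) {m : ℕ} (hm : m ≤ n + 1) (hmj : m ≤ j) :
    Real.log (W k ((T k)^[j] z).swap m) ≤ Hyp.dist (fun n => Mn k n z) j (j - m) ∧
      Hyp.dist (fun n => Mn k n z) j (j - m) ≤ Real.log (W k ((T k)^[j] z).swap m) + 3 := by
  rw [← Dd_eq, Dd_sub k z hmj]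
  exact log_l2 h hk hP hL hm

/-! ### clean starts -/

theorem regular_of_notMem (h : z ∉ Skel.C1 k L0) :
    ∀ m, m < L0 → k ^ (2 / 3 : ℝ) ≤ |V k ((T k)^[m] z).2| := by
  intro m hm
  by_contra hc
  push Not at hc
  exact h ⟨m, hm, hc⟩

theorem clean_W (hc1 : z ∉ Skel.C1 k L0) (hk : 100 ≤ k) {m : ℕ} (hm : m ≤ L0) :
    (k ^ (1/2 : ℝ)) ^ m ≤ ‖fld k z m‖ := by
  have h1 := W_pow (ValD.three hk) (regular_of_notMem hc1) hm
  refine le_trans ?_ h1
  have h2 := beta_ge hk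
  have h3 := ten_le hk
  exact pow_le_pow_left₀ (by linarith) (by linarith) m

theorem clean_one (hc1 : z ∉ Skel.C1 k L0) (hk : 100 ≤ k) {m : ℕ} (hm : m ≤ L0) :
    1 ≤ ‖fld k z m‖ := by
  have h3 := ten_le hk
  exact (one_le_pow₀ (by linarith)).trans (clean_W hc1 hk hm)

theorem clean_mono (hc1 : z ∉ Skel.C1 k L0) (hk : 100 ≤ k) {i j : ℕ} (hij : i ≤ j) (hj : j ≤ L0) :
    ‖fld k z i‖ ≤ ‖fld k z j‖ := by
  have h1 := W_mono (ValD.three hk) (regular_of_notMem hc1) hij hj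
  have h2 := beta_ge hk
  have h3 := ten_le hk
  have h4 : (1:ℝ) ≤ (k ^ (2/3 : ℝ) - 1 / 2) ^ (j - i) := one_le_pow₀ (by linarith)
  have h5 : 0 ≤ W k z i := W_nonneg _ _ _
  have h6 : W k z i ≤ W k z j := by nlinarith
  exact h6

/-- up to time `L0` a start with `L0` regular digits is valid -/
theorem val_of_clean (hc1 : z ∉ Skel.C1 k L0) (hk : 100 ≤ k) (hkP : 8 * (P : ℝ) ≤ Real.log k)
    (hn : n ≤ L0) : Skel.Val k P L0 z n where
  cl := fun m hm _ => regular_of_notMem hc1 m hm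
  v2 := by
    intro i j hi hij hj
    have h1 := clean_mono hc1 hk hij (hj.trans hn)
    have h2 := clean_one hc1 hk (hj.trans hn)
    calc ‖fld k z i‖ ^ (P - 1) ≤ ‖fld k z j‖ ^ (P - 1) :=
          pow_le_pow_left₀ (norm_nonneg _) h1 _
      _ ≤ ‖fld k z j‖ ^ P := pow_le_pow_right₀ h2 (Nat.sub_le P 1)
  v3 := by
    intro j hj hjn
    refine ⟨j, hj, le_rfl, ?_⟩
    refine le_trans ?_ (clean_W hc1 hk (hjn.trans hn))
    have hk0 : 0 < k := by linarith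
    have hj0 : (0:ℝ) < j := by
      have : 0 < j := by omega
      exact_mod_cast this
    rw [← Real.exp_log (pow_pos hj0 (4 * P)),
      ← Real.exp_log (pow_pos (Real.rpow_pos_of_pos hk0 (1/2 : ℝ)) j)]
    apply Real.exp_le_exp.mpr
    rw [Real.log_pow, Real.log_pow, Real.log_rpow hk0]
    have h1 : Real.log j ≤ j := (Real.log_le_sub_one_of_pos hj0).trans (by linarith)
    have hP0 : (0:ℝ) ≤ P := Nat.cast_nonneg P
    have h2 : ((4 * P : ℕ) : ℝ) * Real.log j ≤ ((4 * P : ℕ) : ℝ) * j :=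
      mul_le_mul_of_nonneg_left h1 (Nat.cast_nonneg _)
    have h3 : (j : ℝ) * (8 * (P : ℝ)) ≤ j * Real.log k := mul_le_mul_of_nonneg_left hkP hj0.le
    push_cast at h2 ⊢
    nlinarith

/-- relaxed validity of a valid start -/
theorem RV_of_val (h : Skel.Val k P L0 z n) (hc1 : z ∉ Skel.C1 k L0) (hk : 100 ≤ k)
    (hP : 100 ≤ P) (hL : 1000 ≤ L0) : RV k 1000 z n where
  big := by
    refine le_trans ?_ (clean_W hc1 hk hL)
    have hk0 : 0 < k := by linarith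
    rw [← Real.rpow_natCast (k ^ (1/2 : ℝ)) 1000, ← Real.rpow_mul hk0.le,
      ← Real.rpow_natCast k 500]
    apply le_of_eq
    congr 1
    norm_num
  v2 := by
    intro i j hi hij hj
    have h1 := h.v2 i j hi hij hj
    have hi1 : 1 ≤ ‖fld k z i‖ := one_le h hk (by omega) hL (by omega)
    have hj1 : 1 ≤ ‖fld k z j‖ := one_le h hk (by omega) hL (by omega)
    have hi0 : 0 ≤ ‖fld k z i‖ := norm_nonneg _
    have hj0 : 0 ≤ ‖fld k z j‖ := norm_nonneg _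
    have h2 : ‖fld k z i‖ ^ (1 - 1 / (P : ℝ)) ≤ ‖fld k z j‖ := pow_P hi0 hj0 (by omega) h1
    have hP' : (90:ℝ) ≤ P := by exact_mod_cast (show 90 ≤ P by omega)
    have h3 : ‖fld k z i‖ ^ (89 / 90 : ℝ) ≤ ‖fld k z i‖ ^ (1 - 1 / (P : ℝ)) := by
      apply Real.rpow_le_rpow_of_exponent_le hi1
      have : 1 / (P : ℝ) ≤ 1 / 90 := one_div_le_one_div_of_le (by norm_num) hP'
      linarith
    have h4 : (‖fld k z i‖ ^ (89 / 90 : ℝ)) ^ 90 ≤ ‖fld k z j‖ ^ 90 :=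
      pow_le_pow_left₀ (Real.rpow_nonneg hi0 _) (h3.trans h2) 90
    have e : (‖fld k z i‖ ^ (89 / 90 : ℝ)) ^ 90 = ‖fld k z i‖ ^ 89 := by
      rw [← Real.rpow_natCast (‖fld k z i‖ ^ (89 / 90 : ℝ)) 90, ← Real.rpow_mul hi0,
        ← Real.rpow_natCast ‖fld k z i‖ 89]
      congr 1
      norm_num
    rwa [e] at h4
  v3 := by
    intro j hj hjn
    obtain ⟨i, h1, h2, h3⟩ := h.v3 j hj hjn
    refine ⟨i, h1, h2, ?_⟩
    have hj1 : (1:ℝ) ≤ j := by
      have : 1 ≤ j := by omega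
      exact_mod_cast this
    have h4 : (j : ℝ) ^ 400 ≤ (j : ℝ) ^ (4 * P) := pow_le_pow_right₀ hj1 (by omega)
    have h5 : 0 ≤ ‖fld k z i‖ := norm_nonneg _
    linarith

/-- **first violation**: a start outside `C1 ∪ LG` which is not valid up to `n` has a first
violation at some `n' ∈ (L0, n]`, and it is a drawdown with respect to some `i ∈ [L0, n')`. -/
theorem first_drop (hc1 : z ∉ Skel.C1 k L0) (hlg : z ∉ Skel.LG k L0)
    (hn : ¬ Skel.Val k P L0 z n) (hk : 100 ≤ k) (hkP : 8 * (P : ℝ) ≤ Real.log k)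
    (hP : 100 ≤ P) (hP' : P ≤ 1000) (hL : 1000 ≤ L0) :
    ∃ n', L0 < n' ∧ n' ≤ n ∧ (∀ m < n', Skel.Val k P L0 z m) ∧ ¬ Skel.Val k P L0 z n' ∧
      ∃ i, L0 ≤ i ∧ i < n' ∧ ‖fld k z n'‖ ^ P < ‖fld k z i‖ ^ (P - 1) := by
  classical
  have hex : ∃ n', ¬ Skel.Val k P L0 z n' := ⟨n, hn⟩
  set n' := Nat.find hex with hn'
  have hmin : ∀ m < n', Skel.Val k P L0 z m := fun m hm => not_not.mp (Nat.find_min hex hm)
  have hspec : ¬ Skel.Val k P L0 z n' := Nat.find_spec hex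
  have hLn : L0 < n' := by
    by_contra hc
    exact hspec (val_of_clean hc1 hk hkP (by omega))
  have hv := hmin (n' - 1) (by omega)
  have one : ∀ m, m ≤ n' → 1 ≤ ‖fld k z m‖ := fun m hm =>
    one_le hv hk (by omega) hL (by omega)
  refine ⟨n', hLn, Nat.find_min' hex hn, hmin, hspec, ?_⟩
  have A : ∀ m, m < L0 → m < n' → k ^ ((2 : ℝ) / 3) ≤ |V k ((T k)^[m] z).2| :=
    fun m hm _ => regular_of_notMem hc1 m hm
  by_cases B : ∀ i j, 1000 ≤ i → i ≤ j → j ≤ n' → ‖fld k z i‖ ^ (P - 1) ≤ ‖fld k z j‖ ^ P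
  · exfalso
    by_cases C : ∀ j, 1000 ≤ j → j ≤ n' →
        ∃ i, 1000 ≤ i ∧ i ≤ j ∧ (j : ℝ) ^ (4 * P) ≤ ‖fld k z i‖
    · exact hspec ⟨A, B, C⟩
    · push Not at C
      obtain ⟨j, hLj, hj, hC⟩ := C
      have hjn : j = n' := by
        by_contra hne
        obtain ⟨i, h1, h2, h3⟩ := (hmin j (by omega)).v3 j hLj le_rfl
        exact absurd h3 (not_le.mpr (hC i h1 h2))
      refine hlg ⟨hc1, n', hLn, RV_of_val hv hc1 hk hP hL, fun i hi hin => ?_⟩
      have h1 := hC i hi (by omega)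
      rw [hjn] at h1
      have hn1 : (1:ℝ) ≤ n' := by
        have : 1 ≤ n' := by omega
        exact_mod_cast this
      have h2 : (n' : ℝ) ^ (4 * P) ≤ (n' : ℝ) ^ 4000 := pow_le_pow_right₀ hn1 (by omega)
      have h3 : (0:ℝ) ≤ (n' : ℝ) ^ 4000 := pow_nonneg (Nat.cast_nonneg _) _
      linarith
  · push Not at B
    obtain ⟨i, j, hi, hij, hj, hB⟩ := B
    have hjn : j = n' := by
      by_contra hne
      exact absurd ((hmin j (by omega)).v2 i j hi hij le_rfl) (not_le.mpr hB)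
    rw [hjn] at hB hij
    have hin : i < n' := by
      rcases Nat.lt_or_ge i n' with h | h
      · exact h
      · exfalso
        have e : i = n' := le_antisymm hij h
        rw [e] at hB
        have := pow_le_pow_right₀ (one n' le_rfl) (Nat.sub_le P 1)
        linarith
    rcases Nat.lt_or_ge i L0 with hiL | hiL
    · refine ⟨L0, le_rfl, hLn, hB.trans_le ?_⟩
      exact pow_le_pow_left₀ (norm_nonneg _) (clean_mono hc1 hk hiL.le le_rfl) _
    · exact ⟨i, hiL, hin, hB⟩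

/-- the drawdown in logarithmic form -/
theorem log_drop {i n' : ℕ} (hP : 1 ≤ P) (hi : 1 ≤ ‖fld k z i‖) (hn : 1 ≤ ‖fld k z n'‖)
    (h : ‖fld k z n'‖ ^ P < ‖fld k z i‖ ^ (P - 1)) :
    Real.log (W k z n') ≤ (1 - 1 / (P : ℝ)) * Real.log (W k z i) := by
  have h1 := Real.log_le_log (pow_pos (by linarith) P) h.le
  rw [Real.log_pow, Real.log_pow] at h1
  have hP0 : (0:ℝ) < P := by
    have : 0 < P := by omega
    exact_mod_cast this
  have hc : ((P - 1 : ℕ) : ℝ) = (P : ℝ) - 1 := by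
    rw [Nat.cast_sub hP, Nat.cast_one]
  rw [hc] at h1
  have e : (1 - 1 / (P : ℝ)) * Real.log (W k z i) =
      (((P : ℝ) - 1) * Real.log ‖fld k z i‖) / P := by
    unfold W
    field_simp
  rw [e, le_div_iff₀ hP0]
  unfold W
  linarith

/-- **first violation seen in the distances, forward** (`337`'s `hdrop`) -/
theorem first_drop_forward {v N : ℕ} (hc1 : (T k)^[v] z ∉ Skel.C1 k L0)
    (hlg : (T k)^[v] z ∉ Skel.LG k L0) (hn : ¬ Skel.Val k P L0 ((T k)^[v] z) n) (hk : 100 ≤ k)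
    (hkP : 8 * (P : ℝ) ≤ Real.log k) (hP : 100 ≤ P) (hP' : P ≤ 1000) (hL : 1000 ≤ L0) {c : ℝ}
    (hc : 3 ≤ c) :
    ∃ e i, L0 ≤ e ∧ e + 1 ≤ n ∧ L0 ≤ i ∧ i ≤ e ∧
      V1.CleanF (Hyp.dist (fun n => Mn k n z)) (1 / (P : ℝ)) (1 / (P : ℝ) / 4) c
        (Real.log k * (L0 / 2)) L0 v (v + e) ∧
      Hyp.dist (fun n => Mn k n z) v (v + e + 1) ≤
        (1 - 1 / (P : ℝ)) * Hyp.dist (fun n => Mn k n z) v (v + i) + c := by
  obtain ⟨n', h1, h2, h3, -, i, h5, h6, h7⟩ := first_drop hc1 hlg hn hk hkP hP hP' hL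
  have hv := h3 (n' - 1) (by omega)
  refine ⟨n' - 1, i, by omega, by omega, h5, by omega,
    cleanF_forward hv hk (by omega) hL hc, ?_⟩
  have e : v + (n' - 1) + 1 = v + n' := by omega
  rw [e]
  have d1 := (dist_forward hv hk (by omega) hL (m := n') (by omega)).2
  have d2 := (dist_forward hv hk (by omega) hL (m := i) (by omega)).1
  have o1 := one_le hv hk (by omega) hL (m := n') (by omega)
  have o2 := one_le hv hk (by omega) hL (m := i) (by omega)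
  have d3 := log_drop (by omega) o2 o1 h7
  have d4 : (1 - 1 / (P : ℝ)) * Real.log (W k ((T k)^[v] z) i) ≤
      (1 - 1 / (P : ℝ)) * Hyp.dist (fun n => Mn k n z) v (v + i) :=
    mul_le_mul_of_nonneg_left d2 (by linarith [(inv_P_le (P := P) (by omega)).2])
  linarith

/-- **first violation seen in the distances, backward** -/
theorem first_drop_backward {j N : ℕ} (hc1 : ((T k)^[j] z).swap ∉ Skel.C1 k L0)
    (hlg : ((T k)^[j] z).swap ∉ Skel.LG k L0) (hn : ¬ Skel.Val k P L0 ((T k)^[j] z).swap n)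
    (hnj : n ≤ j) (hjN : j ≤ N) (hk : 100 ≤ k)
    (hkP : 8 * (P : ℝ) ≤ Real.log k) (hP : 100 ≤ P) (hP' : P ≤ 1000) (hL : 1000 ≤ L0) {c : ℝ}
    (hc : 3 ≤ c) :
    ∃ e i, L0 ≤ e ∧ e + 1 ≤ n ∧ L0 ≤ i ∧ i ≤ e ∧
      V1.CleanF (fun i i' => Hyp.dist (fun n => Mn k n z) (N - i) (N - i')) (1 / (P : ℝ))
        (1 / (P : ℝ) / 4) c (Real.log k * (L0 / 2)) L0 (N - j) (N - j + e) ∧
      Hyp.dist (fun n => Mn k n z) j (j - (e + 1)) ≤
        (1 - 1 / (P : ℝ)) * Hyp.dist (fun n => Mn k n z) j (j - i) + c := by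
  obtain ⟨n', h1, h2, h3, -, i, h5, h6, h7⟩ := first_drop hc1 hlg hn hk hkP hP hP' hL
  have hv := h3 (n' - 1) (by omega)
  refine ⟨n' - 1, i, by omega, by omega, h5, by omega,
    cleanF_backward hv (by omega) hjN hk (by omega) hL hc, ?_⟩
  have e : n' - 1 + 1 = n' := by omega
  rw [e]
  have d1 := (dist_backward hv hk (by omega) hL (m := n') (by omega) (by omega)).2
  have d2 := (dist_backward hv hk (by omega) hL (m := i) (by omega) (by omega)).1
  have o1 := one_le hv hk (by omega) hL (m := n') (by omega)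
  have o2 := one_le hv hk (by omega) hL (m := i) (by omega)
  have d3 := log_drop (by omega) o2 o1 h7
  have d4 : (1 - 1 / (P : ℝ)) * Real.log (W k ((T k)^[j] z).swap i) ≤
      (1 - 1 / (P : ℝ)) * Hyp.dist (fun n => Mn k n z) j (j - i) :=
    mul_le_mul_of_nonneg_left d2 (by linarith [(inv_P_le (P := P) (by omega)).2])
  linarith

end Crest.Agent.R128.ValFin
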