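import Crest.Agent.R128.Skel
import Crest.Agent.R128.FootW
import Crest.Agent.R128.V1Core
import Crest.Agent.R128.ValFin
import Crest.Agent.R128.HypInst

set_option autoImplicit false

/-!
# Row 128: `Skel.V1` (helper668)

Inputs: 434 `Charge.charge`, 337 `V1Core` (`Data.h4L`, `Data.h4R`), 340 `ValSkel`, 550 `HypInst`,
668 `FootG`, `FootW`.
-/

open scoped Matrix.Norms.L2Operator
open Matrix Finset MeasureTheory
open Crest.AnalysisR.StandardFamily

namespace Crest.Agent.R128.V1F668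

open Crest.Agent.R128.Hyp Crest.Agent.R128.Chain Crest.Agent.R128.Acc Crest.Agent.R128.AccRoot
  Crest.Agent.R128.Lam0 Crest.Agent.R128.TreeSum Crest.Agent.R128.FootW Crest.Agent.R128.Skel

/-! ## growth of the field on the regular digits -/

/-- regular digits up to time `J` -/
theorem reg {k : ℝ} {z : Tor} {J : ℕ} (hk : 64 ≤ k)
    (h : ∀ m, m < J → k ^ ((2 : ℝ) / 3) ≤ |V k ((T k)^[m] z).2|) {m : ℕ} (hm : m ≤ J) :
    (k ^ (1 / 2 : ℝ)) ^ m ≤ |(fld k z m).2| ∧ |(fld k z m).1| ≤ |(fld k z m).2| :=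
  OnePerX.base (B := k ^ (1 / 2 : ℝ)) (Real.one_le_rpow (by linarith) (by norm_num))
    (fun m hm => (OnePerX.half_le hk).trans (h m hm)) m hm

theorem norm_reg {k : ℝ} {z : Tor} {J : ℕ} (hk : 64 ≤ k)
    (h : ∀ m, m < J → k ^ ((2 : ℝ) / 3) ≤ |V k ((T k)^[m] z).2|) {m : ℕ} (hm : m ≤ J) :
    ‖fld k z m‖ = |(fld k z m).2| := by
  obtain ⟨-, h2⟩ := reg hk h hm
  rw [Prod.norm_def]
  exact max_eq_right h2

theorem le_reg {k : ℝ} {z : Tor} {J : ℕ} (hk : 64 ≤ k)
    (h : ∀ m, m < J → k ^ ((2 : ℝ) / 3) ≤ |V k ((T k)^[m] z).2|) {m : ℕ} (hm : m ≤ J) :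
    k ^ ((m : ℝ) / 2) ≤ ‖fld k z m‖ := by
  rw [norm_reg hk h hm]
  have h1 := (reg hk h hm).1
  have e : k ^ ((m:ℝ) / 2) = (k ^ (1 / 2 : ℝ)) ^ m := by
    rw [← Real.rpow_natCast, ← Real.rpow_mul (by linarith)]
    congr 1; ring
  rw [e]
  exact h1

theorem mono_reg {k : ℝ} {z : Tor} {J : ℕ} (hk : 64 ≤ k)
    (h : ∀ m, m < J → k ^ ((2 : ℝ) / 3) ≤ |V k ((T k)^[m] z).2|) {i j : ℕ} (hij : i ≤ j)
    (hj : j ≤ J) : ‖fld k z i‖ ≤ ‖fld k z j‖ := by
  induction j, hij using Nat.le_induction with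
  | base => exact le_rfl
  | succ j hij ih =>
    refine (ih (by omega)).trans ?_
    rw [norm_reg hk h (by omega : j ≤ J)]
    have e : (fld k z (j + 1)).1 = (fld k z j).2 := by
      rw [fld_succ]; rfl
    rw [← e]
    simpa using norm_fst_le (fld k z (j + 1))

theorem one_le_reg {k : ℝ} {z : Tor} {J : ℕ} (hk : 64 ≤ k)
    (h : ∀ m, m < J → k ^ ((2 : ℝ) / 3) ≤ |V k ((T k)^[m] z).2|) {m : ℕ} (hm : m ≤ J) :
    1 ≤ ‖fld k z m‖ :=
  (Real.one_le_rpow (by linarith) (by positivity)).trans (le_reg hk h hm)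

/-- change of exponents -/
theorem pow_change {x y : ℝ} {P a b : ℕ} (hx : 1 ≤ x) (hy : 0 ≤ y) (hP : 1 ≤ P)
    (hab : a * P ≤ b * (P - 1)) (h : x ^ (P - 1) ≤ y ^ P) : x ^ a ≤ y ^ b := by
  have h1 : (x ^ a) ^ P ≤ (y ^ b) ^ P := by
    calc (x ^ a) ^ P = x ^ (a * P) := (pow_mul x a P).symm
      _ ≤ x ^ (b * (P - 1)) := pow_le_pow_right₀ hx hab
      _ = (x ^ (P - 1)) ^ b := by rw [mul_comm, pow_mul]
      _ ≤ (y ^ P) ^ b := pow_le_pow_left₀ (by positivity) h b
      _ = (y ^ b) ^ P := pow_right_comm y P b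
  exact le_of_pow_le_pow_left₀ (by omega) (pow_nonneg hy b) h1

/-- clean at all times `< n`, exponent `P` -/
structure PreP (k : ℝ) (P L : ℕ) (z : Tor) (n : ℕ) : Prop where
  cl : ∀ m, m < L → k ^ ((2 : ℝ) / 3) ≤ |V k ((T k)^[m] z).2|
  v2 : ∀ i j, 1000 ≤ i → i ≤ j → j < n → ‖fld k z i‖ ^ (P - 1) ≤ ‖fld k z j‖ ^ P
  v3 : ∀ j, 1000 ≤ j → j < n → ∃ i, 1000 ≤ i ∧ i ≤ j ∧ (j : ℝ) ^ (4 * P) ≤ ‖fld k z i‖

theorem PreP.one_le {k : ℝ} {P L : ℕ} {z : Tor} {n : ℕ} (hk : 64 ≤ k) (hP : 100 ≤ P)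
    (hL : 1000 ≤ L) (h : PreP k P L z n) {m : ℕ} (hm : m < n) : 1 ≤ ‖fld k z m‖ := by
  rcases Nat.lt_or_ge L m with h1 | h1
  · have h2 := h.v2 L m hL h1.le hm
    have h3 := one_le_reg hk h.cl le_rfl
    have h4 : 1 ≤ ‖fld k z m‖ ^ P := (one_le_pow₀ h3).trans h2
    by_contra hc
    push Not at hc
    have h5 := pow_lt_one₀ (norm_nonneg _) hc (by omega : P ≠ 0)
    linarith
  · exact one_le_reg hk h.cl h1

theorem PreP.toPre {k : ℝ} {P L : ℕ} {z : Tor} {n : ℕ} (hk : 64 ≤ k) (hP : 100 ≤ P)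
    (hL : 1000 ≤ L) (h : PreP k P L z n) : Pre k L z n where
  cl := h.cl
  v2 := fun i j h1 h2 h3 => by
    refine pow_change (P := P) (h.one_le hk hP hL (by omega)) (norm_nonneg _) (by omega) ?_
      (h.v2 i j (by omega) h2 h3)
    have : 100 * (P - 1) = 100 * P - 100 := by omega
    omega
  v3 := fun j h1 h2 => by
    obtain ⟨i, h3, h4, h5⟩ := h.v3 j (by omega) h2
    have hj1 : (1:ℝ) ≤ j := by exact_mod_cast (by omega : 1 ≤ j)
    have h6 : (j : ℝ) ^ 400 ≤ (j : ℝ) ^ (4 * P) := pow_le_pow_right₀ hj1 (by omega)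
    rcases Nat.lt_or_ge i L with h7 | h7
    · exact ⟨L, le_rfl, h1, h6.trans (h5.trans (mono_reg hk h.cl h7.le le_rfl))⟩
    · exact ⟨i, h7, h4, h6.trans h5⟩

theorem PreP.toRV {k : ℝ} {P L : ℕ} {z : Tor} {n : ℕ} (hk : 64 ≤ k) (hP : 100 ≤ P)
    (hL : 1000 ≤ L) (h : PreP k P L z n) : RV k 1000 z (n - 1) where
  big := by
    refine le_trans ?_ (le_reg hk h.cl hL)
    rw [← Real.rpow_natCast]
    apply Real.rpow_le_rpow_of_exponent_le (by linarith)
    push_cast
    norm_num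
  v2 := fun i j h1 h2 h3 => by
    have h4 : j < n ∨ n = 0 := by omega
    rcases h4 with h4 | h4
    · refine pow_change (P := P) (h.one_le hk hP hL (by omega)) (norm_nonneg _) (by omega) ?_
        (h.v2 i j h1 h2 h4)
      have : 90 * (P - 1) = 90 * P - 90 := by omega
      omega
    · omega
  v3 := fun j h1 h2 => by
    obtain ⟨i, h3, h4, h5⟩ := h.v3 j h1 (by omega)
    have hj1 : (1:ℝ) ≤ j := by exact_mod_cast (by omega : 1 ≤ j)
    have h6 : (j : ℝ) ^ 400 ≤ (j : ℝ) ^ (4 * P) := pow_le_pow_right₀ hj1 (by omega)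
    refine ⟨i, h3, h4, ?_⟩
    have := norm_nonneg (fld k z i)
    linarith

/-! ## the first violation of `Skel.Val` -/

/-- no violation at times `≤ J` when the digits up to `J` are regular -/
theorem no_viol {k : ℝ} {P L : ℕ} {z : Tor} {J : ℕ} (hk : 64 ≤ k) (hP1 : 1 ≤ P) (hP : P ≤ 1000)
    (hkL : (L : ℝ) ^ 8 ≤ k) (hJL : J ≤ L)
    (h : ∀ m, m < J → k ^ ((2 : ℝ) / 3) ≤ |V k ((T k)^[m] z).2|) :
    (∀ i j, 1000 ≤ i → i ≤ j → j ≤ J → ‖fld k z i‖ ^ (P - 1) ≤ ‖fld k z j‖ ^ P) ∧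
    (∀ j, 1000 ≤ j → j ≤ J → ∃ i, 1000 ≤ i ∧ i ≤ j ∧ (j : ℝ) ^ (4 * P) ≤ ‖fld k z i‖) := by
  constructor
  · intro i j _ hij hj
    have h1 := mono_reg hk h hij hj
    have h2 := one_le_reg hk h hj
    calc ‖fld k z i‖ ^ (P - 1) ≤ ‖fld k z j‖ ^ (P - 1) := pow_le_pow_left₀ (norm_nonneg _) h1 _
      _ ≤ ‖fld k z j‖ ^ P := pow_le_pow_right₀ h2 (by omega)
  · intro j hj1 hj
    refine ⟨j, hj1, le_rfl, ?_⟩
    have h1 := le_reg hk h hj
    have hj0 : (1:ℝ) ≤ j := by exact_mod_cast (by omega : 1 ≤ j)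
    calc (j : ℝ) ^ (4 * P) ≤ (j : ℝ) ^ 4000 := pow_le_pow_right₀ hj0 (by omega)
      _ = ((j : ℝ) ^ 8) ^ 500 := pow_mul (j : ℝ) 8 500
      _ ≤ ((L : ℝ) ^ 8) ^ 500 := by
          apply pow_le_pow_left₀ (by positivity)
          exact pow_le_pow_left₀ (by positivity) (by exact_mod_cast (hj.trans hJL)) 8
      _ ≤ k ^ 500 := pow_le_pow_left₀ (by positivity) hkL 500
      _ ≤ k ^ ((j : ℝ) / 2) := by
          rw [← Real.rpow_natCast]
          apply Real.rpow_le_rpow_of_exponent_le (by linarith)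
          have : (1000:ℝ) ≤ j := by exact_mod_cast hj1
          push_cast
          linarith
      _ ≤ ‖fld k z j‖ := h1

theorem viol {k : ℝ} {P L : ℕ} {y : Tor} {M : ℕ} (hk : 64 ≤ k) (hP : 100 ≤ P) (hP2 : P ≤ 1000)
    (hL : 1000 ≤ L) (hkL : (L : ℝ) ^ 8 ≤ k) (h : ¬ Val k P L y M) :
    y ∈ C1 k L ∨ y ∈ LG k L ∨
    (∃ n p, L ≤ p ∧ p < n ∧ n ≤ M ∧ PreP k P L y n ∧ ‖fld k y n‖ ^ P < ‖fld k y p‖ ^ (P - 1)) := by
  classical
  by_cases hc : ∃ m, m < L ∧ |V k ((T k)^[m] y).2| < k ^ ((2 : ℝ) / 3)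
  · exact Or.inl hc
  right
  push Not at hc
  have hnv := no_viol (P := P) hk (by omega) hP2 hkL le_rfl hc
  have hex : ∃ n, 1000 ≤ n ∧ n ≤ M ∧ ((∃ i, 1000 ≤ i ∧ i ≤ n ∧
      ‖fld k y n‖ ^ P < ‖fld k y i‖ ^ (P - 1)) ∨
      (∀ i, 1000 ≤ i → i ≤ n → ‖fld k y i‖ < (n : ℝ) ^ (4 * P))) := by
    by_contra hno
    push Not at hno
    apply h
    refine ⟨fun m h1 _ => hc m h1, fun i j h1 h2 h3 => (hno j (by omega) h3).1 i h1 h2,
      fun j h1 h2 => ?_⟩
    obtain ⟨i, h3, h4, h5⟩ := (hno j h1 h2).2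
    exact ⟨i, h3, h4, h5⟩
  obtain ⟨hn1000, hnM, hn⟩ := Nat.find_spec hex
  have hmin := fun m (hm : m < Nat.find hex) => Nat.find_min hex hm
  set n := Nat.find hex with hndef
  have hLn : L < n := by
    by_contra hle
    push Not at hle
    rcases hn with ⟨i, h1, h2, h3⟩ | hn
    · exact absurd (hnv.1 i n h1 h2 hle) (not_le.mpr h3)
    · obtain ⟨i, h1, h2, h3⟩ := hnv.2 n hn1000 hle
      exact absurd (hn i h1 h2) (not_lt.mpr h3)
  have hpre : PreP k P L y n := by
    refine ⟨hc, ?_, ?_⟩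
    · intro i j h1 h2 h3
      have h4 := hmin j h3
      push Not at h4
      exact (h4 (by omega) (by omega)).1 i h1 h2
    · intro j h1 h2
      have h4 := hmin j h2
      push Not at h4
      obtain ⟨i, h5, h6, h7⟩ := (h4 h1 (by omega)).2
      exact ⟨i, h5, h6, h7⟩
  rcases hn with ⟨p, hp1, hp2, hp3⟩ | hn
  · right
    have hone := two_le_fld hk (by omega) (hpre.toPre hk hP hL) hLn.le le_rfl
    rcases Nat.lt_or_ge p L with h1 | h1
    · refine ⟨n, L, le_rfl, hLn, hnM, hpre, hp3.trans_le ?_⟩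
      exact pow_le_pow_left₀ (norm_nonneg _) (mono_reg hk hc h1.le le_rfl) _
    · refine ⟨n, p, h1, ?_, hnM, hpre, hp3⟩
      rcases Nat.lt_or_ge p n with h2 | h2
      · exact h2
      · exfalso
        have h3 : p = n := by omega
        rw [h3] at hp3
        have h4 : ‖fld k y n‖ ^ (P - 1) ≤ ‖fld k y n‖ ^ P := pow_le_pow_right₀ hone (by omega)
        linarith
  · left
    refine ⟨?_, n, hLn, hpre.toRV hk hP hL, ?_⟩
    · rintro ⟨m, h1, h2⟩
      exact absurd (hc m h1) (not_le.mpr h2)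
    · intro i h1 h2
      have h3 := hn i h1 h2.le
      have hn0 : (1:ℝ) ≤ n := by exact_mod_cast (by omega : 1 ≤ n)
      have h4 : (n : ℝ) ^ (4 * P) ≤ (n : ℝ) ^ 4000 := pow_le_pow_right₀ hn0 (by omega)
      have h5 : 0 ≤ (n : ℝ) ^ 4000 := by positivity
      linarith

/-! ## the feet, `P = 1000` -/

theorem viol_rpow' {x y : ℝ} (hx : 0 < x) (h : y ^ 1000 < x ^ 999) :
    y ≤ x ^ (1 - (1 / 1000 : ℝ)) := by
  have h1 : (x ^ (1 - (1 / 1000 : ℝ))) ^ 1000 = x ^ 999 := by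
    rw [← Real.rpow_natCast, ← Real.rpow_mul hx.le, ← Real.rpow_natCast]
    norm_num
  have h2 : y ^ 1000 ≤ (x ^ (1 - (1 / 1000 : ℝ))) ^ 1000 := by rw [h1]; exact h.le
  exact le_of_pow_le_pow_left₀ (by norm_num) (Real.rpow_nonneg hx.le _) h2

theorem numerics' {k : ℝ} {L : ℕ} {y : Tor} {n p : ℕ} (hk : (10:ℝ) ^ 6 ≤ k) (hL : 40000 ≤ L)
    (hkL : 8 * (L : ℝ) ≤ k) (h : Pre k L y n) (hp : L ≤ p) (hpn : p < n) :
    (L / 4 * Real.log k) + FootG.C0 (AA k) (Real.log 2) L ≤ Real.log ‖fld k y p‖ ∧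
    (1 - (1 / 1000 : ℝ)) * FootG.C0 (AA k) (Real.log 2) L + Real.log 12 + 2 * Real.log 2 ≤
      1 / 1000 / 2 * (Real.log ‖fld k y p‖ - FootG.C0 (AA k) (Real.log 2) L) := by
  have hk64 : (64:ℝ) ≤ k := by linarith [show (64:ℝ) ≤ 10 ^ 6 by norm_num]
  have hk0 : 0 < k := by linarith
  have h1 := C0_le hk hkL
  have h2 : (49 : ℝ) / 100 * L * Real.log k ≤ Real.log ‖fld k y p‖ := by
    rw [← Real.log_rpow hk0]
    exact Real.log_le_log (by positivity) (big hk64 h hp hpn)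
  have hL' : (40000:ℝ) ≤ L := by exact_mod_cast hL
  have hkap : 0 < Real.log k := Real.log_pos (by linarith)
  have h3 : Real.log 12 + 2 * Real.log 2 ≤ Real.log k := by
    rw [show Real.log 12 + 2 * Real.log 2 = Real.log (12 * 2 ^ 2) by
      rw [Real.log_mul (by norm_num) (by norm_num), Real.log_pow]; push_cast; ring]
    exact Real.log_le_log (by norm_num) (by linarith)
  have h4 : (40000:ℝ) * Real.log k ≤ L * Real.log k := mul_le_mul_of_nonneg_right hL' hkap.le
  constructor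
  · linarith
  · linarith

/-- **right foot** -/
theorem footR {k : ℝ} {L : ℕ} (hk : (10:ℝ) ^ 6 ≤ k) (hL : 40000 ≤ L) (hkL : (L : ℝ) ^ 8 ≤ k)
    (z : Tor) {N i j t : ℕ} {l : ℤ} (hc : Charge.Cmp (bt (rr k z)) (Real.log k) N i j l)
    (hit : i < t)
    (htj : t < j) (hmax : ∀ m, i < m → m < j → bt (rr k z) m ≤ bt (rr k z) t)
    (h : ¬ Val k 1000 L ((T k)^[j] z).swap (j - t)) :
    ((T k)^[j] z).swap ∈ C1 k L ∨ ((T k)^[j] z).swap ∈ LG k L ∨
    Charge.ValR (bt (rr k z)) (Real.log k) (1 / 1000 / 2) (L / 4 * Real.log k) t j l := by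
  have hk64 : (64:ℝ) ≤ k := by linarith [show (64:ℝ) ≤ 10 ^ 6 by norm_num]
  have hk0 : 0 < k := by linarith
  have hkap : 0 < Real.log k := Real.log_pos (by linarith)
  have hL1 : (40000:ℝ) ≤ L := by exact_mod_cast hL
  have hkL' : 8 * (L : ℝ) ≤ k := by
    refine le_trans ?_ hkL
    calc 8 * (L : ℝ) ≤ (L : ℝ) ^ 7 * L := by
          apply mul_le_mul_of_nonneg_right _ (by linarith)
          calc (8:ℝ) ≤ 40000 ^ 7 := by norm_num
            _ ≤ (L : ℝ) ^ 7 := pow_le_pow_left₀ (by norm_num) hL1 7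
      _ = (L : ℝ) ^ 8 := by ring
  rcases viol hk64 (by norm_num) le_rfl (by omega) hkL h with
    h1 | h1 | ⟨n, p, hp1, hpn, hnM, hpre', hv⟩
  · exact Or.inl h1
  · exact Or.inr (Or.inl h1)
  · right; right
    have hpre := hpre'.toPre hk64 (by norm_num) (by omega)
    have hnj : n ≤ j := by omega
    have key : ∀ m, m ≤ j → ‖Mn k j z * (Mn k (j - m) z)⁻¹‖ = ‖Mn k m ((T k)^[j] z).swap‖ := by
      intro m hm
      rw [transfer k z (by omega : j - m ≤ j), show j - (j - m) = m by omega]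
      have := Rev.norm_Mn_rev' k (j - m) m z
      rw [show j - m + m = j by omega] at this
      rw [this]
    obtain ⟨n1, n2⟩ := numerics' hk hL hkL' hpre hp1 hpn
    have hLpos : (0:ℝ) < L := by exact_mod_cast (by omega : 0 < L)
    refine FootG.valR (g := fun m => Mn k m z) (fun m => det_Mn k m z) (c0 := Real.log 2)
      (A := AA k) (fun m _ => contour_near k z m) (fun m _ => step_le hk0.le z m) hc hit htj hmax
      (M0 := L) (n := n) (p := p) (by omega) hnM ?_ (W := fun m => ‖fld k ((T k)^[j] z).swap m‖)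
      (C2 := 12) (by omega) hpn.le ?_ ?_ ?_ (by norm_num) ?_ (by norm_num) (by norm_num) ?_ ?_ n1 n2
    · refine hsum_le hk hkL' ?_
      refine le_trans (le_of_eq ?_) (sum_norm_le hk64 (by omega) hpre)
      apply Finset.sum_congr rfl
      intro m hm
      rw [Finset.mem_Ico] at hm
      rw [key m (by omega)]
    · rw [key p (by omega)]
      exact fld_le_norm _ _ _
    · exact two_le_fld hk64 (by omega) hpre hp1 hpn.le
    · exact norm_fld_pos _ _ _
    · rw [key n hnj]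
      exact norm_le hk64 (by omega) hpre le_rfl
    · exact viol_rpow' (norm_fld_pos _ _ _) hv
    · positivity

/-- **left foot** -/
theorem footL {k : ℝ} {L : ℕ} (hk : (10:ℝ) ^ 6 ≤ k) (hL : 40000 ≤ L) (hkL : (L : ℝ) ^ 8 ≤ k)
    (z : Tor) {N i j t : ℕ} {l : ℤ} (hc : Charge.Cmp (bt (rr k z)) (Real.log k) N i j l)
    (hit : i < t)
    (htj : t < j) (hmax : ∀ m, i < m → m < j → bt (rr k z) m ≤ bt (rr k z) t)
    (h : ¬ Val k 1000 L ((T k)^[i] z) (t - i)) :
    (T k)^[i] z ∈ C1 k L ∨ (T k)^[i] z ∈ LG k L ∨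
    Charge.ValL (bt (rr k z)) (Real.log k) (1 / 1000 / 2) (L / 4 * Real.log k) t i l := by
  have hk64 : (64:ℝ) ≤ k := by linarith [show (64:ℝ) ≤ 10 ^ 6 by norm_num]
  have hk0 : 0 < k := by linarith
  have hkap : 0 < Real.log k := Real.log_pos (by linarith)
  have hL1 : (40000:ℝ) ≤ L := by exact_mod_cast hL
  have hkL' : 8 * (L : ℝ) ≤ k := by
    refine le_trans ?_ hkL
    calc 8 * (L : ℝ) ≤ (L : ℝ) ^ 7 * L := by
          apply mul_le_mul_of_nonneg_right _ (by linarith)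
          calc (8:ℝ) ≤ 40000 ^ 7 := by norm_num
            _ ≤ (L : ℝ) ^ 7 := pow_le_pow_left₀ (by norm_num) hL1 7
      _ = (L : ℝ) ^ 8 := by ring
  rcases viol hk64 (by norm_num) le_rfl (by omega) hkL h with
    h1 | h1 | ⟨n, p, hp1, hpn, hnM, hpre', hv⟩
  · exact Or.inl h1
  · exact Or.inr (Or.inl h1)
  · right; right
    have hpre := hpre'.toPre hk64 (by norm_num) (by omega)
    have key : ∀ m, ‖Mn k (i + m) z * (Mn k i z)⁻¹‖ = ‖Mn k m ((T k)^[i] z)‖ := by
      intro m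
      rw [transfer k z (by omega : i ≤ i + m), show i + m - i = m by omega]
    obtain ⟨n1, n2⟩ := numerics' hk hL hkL' hpre hp1 hpn
    have hLpos : (0:ℝ) < L := by exact_mod_cast (by omega : 0 < L)
    refine FootG.valL (g := fun m => Mn k m z) (fun m => det_Mn k m z) (c0 := Real.log 2)
      (A := AA k) (fun m _ => contour_near k z m) (fun m _ => step_le hk0.le z m) hc hit htj hmax
      (M0 := L) (n := n) (p := p) (by omega) hnM ?_ (W := fun m => ‖fld k ((T k)^[i] z) m‖)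
      (C2 := 12) (by omega) hpn.le ?_ ?_ ?_ (by norm_num) ?_ (by norm_num) (by norm_num) ?_ ?_ n1 n2
    · refine hsum_le hk hkL' ?_
      refine le_trans (le_of_eq ?_) (sum_norm_le hk64 (by omega) hpre)
      apply Finset.sum_congr rfl
      intro m hm
      rw [key m]
    · rw [key p]
      exact fld_le_norm _ _ _
    · exact two_le_fld hk64 (by omega) hpre hp1 hpn.le
    · exact norm_fld_pos _ _ _
    · rw [key n]
      exact norm_le hk64 (by omega) hpre le_rfl
    · exact viol_rpow' (norm_fld_pos _ _ _) hv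
    · positivity

/-! ## (4) the feet of nested components, `P = 100` -/

/-- near critical time -/
def cr (k : ℝ) (z : Tor) (m : ℕ) : Prop := |V k ((T k)^[m] z).2| < k ^ ((2 : ℝ) / 3)

theorem top_cr {k : ℝ} (hk : 64 ≤ k) {z : Tor} {κ : ℝ} {N i j T' : ℕ} {l : ℤ}
    (h : Charge.Cmp (bt (rr k z)) κ N i j l) (h1 : i < T') (h2 : T' < j)
    (hmax : ∀ m, i < m → m < j → bt (rr k z) m ≤ bt (rr k z) T') :
    cr k z T' ∨ (i + 1 < T' ∧ cr k z (T' - 1)) := by
  obtain ⟨hm1, hm2⟩ := NestedInst.max_local h h1 h2 hmax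
  have hX : (2:ℝ) < k ^ ((2 : ℝ) / 3) := by
    have a1 := OnePerX.half_le hk
    have a2 := sqrt_ge hk
    have e : ((2:ℝ) / 3) = (2 / 3 : ℝ) := rfl
    linarith
  obtain ⟨t, rfl⟩ : ∃ t, T' = t + 1 := ⟨T' - 1, by omega⟩
  simp only [Nat.add_sub_cancel] at hm2 ⊢
  unfold bt at hm1 hm2
  have p0 := rr_pos k z t
  have p1 := rr_pos k z (t + 1)
  have p2 := rr_pos k z (t + 1 + 1)
  have p3 := rr_pos k z (t + 1 + 1 + 1)
  have a1 := (Real.log_le_log_iff (lt_max_of_lt_left p2) (lt_max_of_lt_left p1)).mp hm1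
  have a2 := (Real.log_le_log_iff (lt_max_of_lt_left p0) (lt_max_of_lt_left p1)).mp hm2
  have d0 := rr_h1 k z t
  have d1 := rr_h1 k z (t + 1)
  unfold dg at d0 d1
  rw [show t + 2 = t + 1 + 1 from rfl] at d0
  rw [show t + 1 + 2 = t + 1 + 1 + 1 from rfl] at d1
  rcases le_total (rr k z (t + 1)) (rr k z (t + 1 + 1)) with h3 | h3
  · left
    rw [max_eq_right h3] at a1
    have a3 := (le_max_right _ _).trans a1
    unfold cr
    by_contra hc
    push Not at hc
    nlinarith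
  · right
    have hne : i ≠ t := by
      intro he
      have b1 := h.fi
      have b2 := h.mid (t + 1) h1 h2
      rw [he] at b1
      have b3 : bt (rr k z) (t + 1) ≤ bt (rr k z) t := by
        unfold bt
        apply Real.log_le_log (lt_max_of_lt_left p1)
        rw [max_eq_left h3]
        exact le_max_right _ _
      linarith
    refine ⟨by omega, ?_⟩
    rw [max_eq_left h3] at a2
    have a3 := (le_max_left _ _).trans a2
    unfold cr
    by_contra hc
    push Not at hc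
    nlinarith

theorem abs_step_le {k : ℝ} (hk : 64 ≤ k) (z : Tor) (n : ℕ) :
    |bt (rr k z) (n + 1) - bt (rr k z) n| ≤ 2 * Real.log k := by
  have hk0 : 0 < k := by linarith
  have hL : ∀ n, Real.log (1 + dg k z n) ≤ 2 * Real.log k := by
    intro n
    have h1 := dg_le k hk0.le z n
    have h2 : 0 ≤ dg k z n := abs_nonneg _
    rw [show 2 * Real.log k = Real.log (k ^ 2) by rw [Real.log_pow]; push_cast; ring]
    apply Real.log_le_log (by linarith)
    have := Real.pi_lt_d2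
    nlinarith
  have h1 := bt_succ_le (V := dg k z) (fun n => abs_nonneg _) (rr_pos k z) (rr_h2 k z) hL n
  have h2 := bt_le_succ (V := dg k z) (fun n => abs_nonneg _) (rr_pos k z) (rr_h3 k z) hL n
  rw [abs_le]
  constructor <;> linarith

theorem log_le_quarter {k : ℝ} (hk : (10:ℝ) ^ 6 ≤ k) : Real.log (8 * k) ≤ 2 * Real.log k ∧
    13 ≤ Real.log k := by
  have hk0 : 0 < k := by linarith [show (0:ℝ) < 10 ^ 6 by norm_num]
  constructor
  · rw [show 2 * Real.log k = Real.log (k ^ 2) by rw [Real.log_pow]; push_cast; ring]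
    apply Real.log_le_log (by positivity)
    nlinarith [show (8:ℝ) ≤ 10 ^ 6 by norm_num]
  · rw [Real.le_log_iff_exp_le hk0]
    refine le_trans ?_ hk
    have h1 := Real.exp_one_lt_d9
    have h2 : Real.exp 13 = Real.exp 1 ^ 13 := by
      rw [← Real.exp_nat_mul]
      norm_num
    rw [h2]
    calc Real.exp 1 ^ 13 ≤ 2.7182818286 ^ 13 := pow_le_pow_left₀ (Real.exp_pos 1).le h1.le 13
      _ ≤ 10 ^ 6 := by norm_num

theorem data {k : ℝ} {L : ℕ} (hk : (10:ℝ) ^ 6 ≤ k) (hL : 40000 ≤ L) (z : Tor) (N : ℕ) :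
    V1.Data (Hyp.dist (fun n => Mn k n z)) (bt (rr k z)) N L (Real.log (8 * k)) (1 / (100 : ℕ))
      (1 / (100 : ℕ) / 4) 3 (Real.log 2) (Real.log k * (L / 2)) (Real.log k) (2 * Real.log k)
      (cr k z) (fun _ => True) (fun v n => Val k 100 L ((T k)^[v] z) n)
      (fun v n => Val k 100 L ((T k)^[v] z).swap n) := by
  have hk64 : (64:ℝ) ≤ k := by linarith [show (64:ℝ) ≤ 10 ^ 6 by norm_num]
  have hk0 : 0 < k := by linarith
  obtain ⟨n1, n2⟩ := log_le_quarter hk
  have hL1 : (40000:ℝ) ≤ L := by exact_mod_cast hL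
  have hl2 : Real.log 2 ≤ 1 := by
    have := Real.log_two_lt_d9
    linarith
  have hl20 : 0 ≤ Real.log 2 := Real.log_nonneg one_le_two
  have hLk : 40000 * Real.log k ≤ L * Real.log k := mul_le_mul_of_nonneg_right hL1 (by linarith)
  exact
  { hyp := HypInst.hyp_inst (by linarith) z
    near := HypInst.bt_dist k z
    f0 := fun m => bt_nonneg (rr_pos k z) (rr_h4 k z) m
    step := abs_step_le hk64 z
    hκ := by linarith
    hB := Real.log_nonneg (by linarith)
    hc0 := hl20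
    hb0 := by norm_num
    hb := by norm_num
    hb'0 := by norm_num
    hb' := by norm_num
    hc := by norm_num
    hG := by
      push_cast
      linarith
    hGκ := by
      push_cast
      linarith
    hL := by omega
    top := fun i j l T' h h1 h2 hmax => top_cr hk64 h h1 h2 hmax
    f1 := fun v n _ h => ValFin.cleanF_forward h (by linarith) (by norm_num) (by omega) le_rfl
    f2 := fun v n _ h m h1 h2 h3 => by
      have h4 := h.cl (m - v) (by omega) (by omega)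
      rw [← Function.iterate_add_apply, show m - v + v = m by omega] at h4
      unfold cr
      exact not_lt.mpr h4
    fm := fun v n m h1 h => ValFin.anti h h1
    f3 := fun v n _ _ => Or.inl trivial
    b1 := fun v n h1 h2 h => ValFin.cleanF_backward h h1 h2 (by linarith) (by norm_num) (by omega)
      le_rfl
    b2 := fun v n _ _ h m h1 h2 h3 => by
      have h4 := h.cl (v - 1 - m) (by omega) (by omega)
      rw [Rev.digit_rev k (by omega : v - 1 - m ≤ v) z, show v - (v - 1 - m) = m + 1 by omega,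
        Rev.fst_iter_succ] at h4
      unfold cr
      exact not_lt.mpr h4
    bm := fun v n m h1 h => ValFin.anti h h1
    b3 := fun v n _ _ _ => Or.inl trivial }

/-! ## the final count -/

open Classical in
/-- the triple of a closed component -/
noncomputable def tri (k : ℝ) (N : ℕ) (z : Tor) (p : ℕ × ℕ) : ℕ × ℕ × ℤ :=
  if h : Close.Comp (Close.bz k z) (Real.log k) N p.1 p.2 then
    (h.choose, h.choose_spec.choose, (p.2 : ℤ)) else (0, 0, 0)

theorem tri_spec {k : ℝ} {N : ℕ} {z : Tor} {p : ℕ × ℕ}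
    (h : Close.Comp (Close.bz k z) (Real.log k) N p.1 p.2) :
    Close.Cmp (Close.bz k z) (Real.log k) N (tri k N z p).1 p.1 (tri k N z p).2.1 p.2 ∧
      (tri k N z p).2.2 = p.2 := by
  unfold tri
  rw [dif_pos h]
  exact ⟨h.choose_spec.choose_spec, rfl⟩

theorem top_unique {β : ℕ → ℝ} {κ : ℝ} {N i j t t' l l' : ℕ} (h : Close.Cmp β κ N i t j l)
    (h' : Close.Cmp β κ N i t' j l') : t = t' := by
  rcases Nat.lt_trichotomy t t' with h1 | h1 | h1
  · exact absurd (h'.first t h.it h1) (not_lt.mpr (h.top t' h'.it h'.tj))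
  · exact h1
  · exact absurd (h.first t' h'.it h1) (not_lt.mpr (h'.top t h.it h.tj))

theorem tri_inj {k : ℝ} {N : ℕ} {z : Tor} {p q : ℕ × ℕ}
    (hp : Close.Comp (Close.bz k z) (Real.log k) N p.1 p.2)
    (hq : Close.Comp (Close.bz k z) (Real.log k) N q.1 q.2) (h : tri k N z p = tri k N z q) :
    p = q := by
  obtain ⟨a1, a2⟩ := tri_spec hp
  obtain ⟨b1, b2⟩ := tri_spec hq
  rw [h] at a1 a2
  have h2 : p.2 = q.2 := by
    have : (p.2 : ℤ) = q.2 := a2.symm.trans b2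
    exact_mod_cast this
  exact Prod.ext (top_unique a1 b1) h2

/-- **V1** -/
theorem v1 : Skel.V1 := by
  classical
  refine ⟨40000, fun L hL => ⟨0, 50000, (L:ℝ) ^ 8 + 10 ^ 6, fun k hk N z S hS => ?_⟩⟩
  have hL8 : (0:ℝ) ≤ (L:ℝ) ^ 8 := by positivity
  have hk6 : (10:ℝ) ^ 6 ≤ k := by linarith
  have hkL : (L:ℝ) ^ 8 ≤ k := by linarith [show (0:ℝ) ≤ 10 ^ 6 by norm_num]
  have hk64 : (64:ℝ) ≤ k := by linarith [show (64:ℝ) ≤ 10 ^ 6 by norm_num]
  have hk0 : 0 < k := by linarith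
  obtain ⟨-, n2⟩ := log_le_quarter hk6
  have hkap : 0 < Real.log k := by linarith
  have hL1 : (40000:ℝ) ≤ L := by exact_mod_cast hL
  have X := data hk6 hL z N
  set Pn : ℕ → Prop := fun v => (T k)^[v] z ∈ Rc k L (N - v) ∩ bw (Rc k L v) ∨
    (T k)^[v] z ∈ Ng k L with hPn
  set Bn : ℕ → Prop := fun v => (T k)^[v] z ∈ Ng k L with hBn
  have hdbl : ∀ v, ¬ Val k 100 L ((T k)^[v] z) (N - v) ∧ ¬ Val k 100 L ((T k)^[v] z).swap v →
      Pn v := by
    intro v hv
    by_cases hng : (T k)^[v] z ∈ Ng k L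
    · exact Or.inr hng
    · left
      unfold Ng at hng
      simp only [Set.mem_union, not_or] at hng
      obtain ⟨⟨g1, g2⟩, g3, g4⟩ := hng
      exact ⟨⟨g1, g3, hv.1⟩, ⟨g2, g4, hv.2⟩⟩
  have hf0 : ∀ m, 0 ≤ bt (rr k z) m := X.f0
  have key := Charge.charge (f := bt (rr k z)) (κ := Real.log k) (J := 2 * Real.log k)
    (b := 1 / 1000 / 2) (D := L / 4 * Real.log k) (H := ∑ m ∈ range (N + 1), bt (rr k z) m)
    (N := N) hkap X.step (by norm_num) (by
      have : (40000:ℝ) * Real.log k ≤ L * Real.log k := mul_le_mul_of_nonneg_right hL1 hkap.le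
      linarith) Pn Bn (fun i j l h => hdbl i (X.h4L h)) (fun i j l h => hdbl j (X.h4R h))
    (S.image (tri k N z)) (by
      intro c hc
      rw [Finset.mem_image] at hc
      obtain ⟨p, hp, rfl⟩ := hc
      obtain ⟨hComp, -, hnf⟩ := hS p hp
      obtain ⟨h1, h2⟩ := tri_spec hComp
      have hfr := hnf _ _ h1
      have hC : Charge.Cmp (bt (rr k z)) (Real.log k) N (tri k N z p).1 (tri k N z p).2.1
          (tri k N z p).2.2 := by
        rw [h2]
        refine ⟨?_, h1.jN, ?_, ?_, ?_⟩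
        · have := h1.it
          have := h1.tj
          omega
        · have := h1.left
          push_cast
          exact this
        · intro m hm1 hm2
          have := h1.above m hm1 hm2
          push_cast
          exact this
        · have := h1.right
          push_cast
          exact this
      refine ⟨hC, ?_⟩
      have hH : bt (rr k z) p.1 - (tri k N z p).2.2 * Real.log k ≤
          ∑ m ∈ range (N + 1), bt (rr k z) m := by
        have h5 : bt (rr k z) p.1 ≤ ∑ m ∈ range (N + 1), bt (rr k z) m :=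
          Finset.single_le_sum (f := bt (rr k z)) (fun m _ => hf0 m)
            (mem_range.mpr (by have := h1.tj; have := h1.jN; omega))
        have h6 : 0 ≤ (tri k N z p).2.2 * Real.log k := (hf0 _).trans hC.fi
        linarith
      unfold Fresh at hfr
      rw [not_and_or] at hfr
      rcases hfr with hfr | hfr
      · rcases footL hk6 hL hkL z hC h1.it h1.tj h1.top hfr with h3 | h3 | h3
        · exact Or.inl (Or.inl (Or.inl h3))
        · exact Or.inl (Or.inr (Or.inl h3))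
        · exact Or.inr (Or.inr ⟨p.1, h1.it, h1.tj, h1.top, hH, Or.inl h3⟩)
      · rcases footR hk6 hL hkL z hC h1.it h1.tj h1.top hfr with h3 | h3 | h3
        · exact Or.inr (Or.inl (Or.inl (Or.inr h3)))
        · exact Or.inr (Or.inl (Or.inr (Or.inr h3)))
        · exact Or.inr (Or.inr ⟨p.1, h1.it, h1.tj, h1.top, hH, Or.inr h3⟩))
  have hcard : (S.image (tri k N z)).card = S.card := by
    apply Finset.card_image_of_injOn
    intro p hp q hq h
    exact tri_inj (hS p hp).1 (hS q hq).1 h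
  rw [hcard] at key
  have hP : ((range (N + 1)).filter Pn).card ≤
      vs k N z (fun v => Rc k L (N - v) ∩ bw (Rc k L v)) + vs k N z (fun _ => Ng k L) := by
    unfold vs
    refine le_trans (Finset.card_le_card ?_) (Finset.card_union_le _ _)
    intro v hv
    obtain ⟨hv1, hv2⟩ := Finset.mem_filter.1 hv
    rcases hv2 with h | h
    · exact Finset.mem_union_left _
        ((@Finset.mem_filter ℕ _ (fun _ => Classical.propDecidable _) _ _).2 ⟨hv1, h⟩)
    · exact Finset.mem_union_right _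
        ((@Finset.mem_filter ℕ _ (fun _ => Classical.propDecidable _) _ _).2 ⟨hv1, h⟩)
  have hB : ((range (N + 1)).filter Bn).card = vs k N z (fun _ => Ng k L) := rfl
  rw [hB] at key
  have hP' : (((range (N + 1)).filter Pn).card : ℝ) ≤
      (vs k N z (fun v => Rc k L (N - v) ∩ bw (Rc k L v)) : ℝ) + vs k N z (fun _ => Ng k L) := by
    exact_mod_cast hP
  have e1 : 2 * Real.log k / Real.log k + 1 = 3 := by
    field_simp
    norm_num
  rw [e1] at key
  have h7 : (0:ℝ) ≤ (vs k N z (fun v => Rc k L (N - v) ∩ bw (Rc k L v)) : ℝ) := Nat.cast_nonneg _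
  have h8 : (0:ℝ) ≤ (vs k N z (fun _ => Ng k L) : ℝ) := Nat.cast_nonneg _
  have h9 : (S.card : ℝ) ≤ ((50000 * (vs k N z (fun v => Rc k L (N - v) ∩ bw (Rc k L v)) +
      vs k N z (fun _ => Ng k L)) : ℕ) : ℝ) := by
    push_cast
    linarith
  exact_mod_cast h9

end Crest.Agent.R128.V1F668
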