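import Mathlib
import Crest.Agent.R128.FootSkel
import Crest.Agent.R128.NestedInst

/-!
# Row 128, V1 (CHARGE) for the frozen `Skel` (helper676)

`FootSkel.valL/valR` (first violation at a foot => valley), `NestedInst.h4L/h4R` (helper550: nested feet
are clean on neither side), `Charge.charge` (helper434: counting).
-/

set_option autoImplicit false

open Finset
open scoped Matrix.Norms.L2Operator

namespace Crest.Agent.R128.V1F676

open Crest.Agent.R128.TreeSum Crest.Agent.R128.Acc Crest.Agent.R128.Lam0 Crest.Agent.R128.FootL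
open Crest.Agent.R128.Skel Crest.Agent.R128.Close Crest.Agent.R128.FootSkel Crest.Agent.R128.Hyp
open Crest.Agent.R128.NestedInst Crest.Agent.R128.Two

variable {k : ℝ} {P L0 : ℕ} {y : Tor}

theorem nn_act_le (M : M2) (v : ℝ × ℝ) : nn (act M v) ≤ ‖M‖ * nn v := by
  have h := norm_ap_le M (!₂[v.1, v.2] : E2)
  have e1 : ‖(!₂[v.1, v.2] : E2)‖ = nn v := by
    rw [EuclideanSpace.norm_eq]
    unfold nn
    simp [Fin.sum_univ_two]
  have e2 : ‖ap M (!₂[v.1, v.2] : E2)‖ = nn (act M v) := by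
    rw [EuclideanSpace.norm_eq]
    unfold nn act
    simp [Fin.sum_univ_two, ap_apply]
  rw [e1, e2] at h
  exact h

theorem norm_le_of_act {M : M2} {C : ℝ} (hC : 0 ≤ C) (h : ∀ v : ℝ × ℝ, nn (act M v) ≤ C * nn v) :
    ‖M‖ ≤ C := by
  apply norm_le_of_ap hC
  intro v
  have e1 : ‖v‖ = nn (v 0, v 1) := by
    rw [EuclideanSpace.norm_eq]
    unfold nn
    simp [Fin.sum_univ_two]
  have e2 : ‖ap M v‖ = nn (act M (v 0, v 1)) := by
    rw [EuclideanSpace.norm_eq]
    unfold nn act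
    simp [Fin.sum_univ_two, ap_apply]
  rw [e1, e2]
  exact h _

theorem fld_le_norm (k : ℝ) (y : Tor) (n : ℕ) : ‖fld k y n‖ ≤ ‖Mn k n y‖ := by
  refine (norm_le_nn _).trans ?_
  have h := nn_act_le (Mn k n y) (0, 1)
  have e : nn ((0:ℝ), (1:ℝ)) = 1 := by unfold nn; simp
  rw [e, mul_one] at h
  exact h

/-- operator norm versus field at valid times -/
theorem norm_le_fld (H : Nm k P L0) (hy : y ∉ C1 k L0) {n : ℕ} (h : Val k P L0 y n) :
    ‖Mn k n y‖ ≤ 10 * ‖fld k y n‖ := by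
  have D := dt_of H hy
  obtain ⟨h1, h2, h3⟩ := reg H hy
  have hwt : wt (fun m => V k ((T k)^[m] y).2) (fld k y) 0 n ≤ 3 := by
    rcases Nat.lt_or_ge n L0 with hn | hn
    · have h4 := D.wt0_le le_rfl (fun m hm => Vg.of_lt hm)
      refine le_trans ?_ h4
      unfold wt
      apply Finset.sum_le_sum_of_subset_of_nonneg (Finset.Ico_subset_Ico_right hn.le)
      intro j _ _
      have := nn_nonneg (fld k y j)
      have := nn_nonneg (fld k y (j + 1))
      positivity
    · exact D.wt0_le hn (fun m hm => (vg_of_val H hy h).mono hm.le)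
  have hone : 1 ≤ nn (fld k y n) := by
    rcases Nat.lt_or_ge n L0 with hn | hn
    · exact (h1 n hn.le).2.trans (norm_le_nn _)
    · have := D.one_le hn (fun m hm => (vg_of_val H hy h).mono hm.le)
      linarith
  have hk0 := nn_le_norm (fld k y n)
  refine le_trans ?_ (by linarith : 5 * nn (fld k y n) ≤ 10 * ‖fld k y n‖)
  apply norm_le_of_act (by linarith)
  intro v
  have hz := isField_act k y v
  have t1 := tree_ineq D.hW hz (Nat.zero_le n) (by rw [D.nn0]; norm_num)
  rw [D.nn0] at t1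
  have e0 : nn (act (Mn k 0 y) v) = nn v := by
    rw [Mn_zero]
    unfold act
    simp
  simp only [e0] at t1
  have h4 : 1 / nn (fld k y n) ≤ nn (fld k y n) := by
    rw [div_le_iff₀ (by linarith)]
    nlinarith
  have h5 : nn (fld k y n) * wt (fun m => V k ((T k)^[m] y).2) (fld k y) 0 n ≤
      nn (fld k y n) * 3 := mul_le_mul_of_nonneg_left hwt (by linarith)
  have h6 : nn (fld k y n) / 1 + 1 / nn (fld k y n) +
      1 * nn (fld k y n) * wt (fun m => V k ((T k)^[m] y).2) (fld k y) 0 n ≤ 5 * nn (fld k y n) := by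
    rw [div_one, one_mul]
    linarith
  calc nn (act (Mn k n y) v) ≤ nn v * (nn (fld k y n) / 1 + 1 / nn (fld k y n) +
      1 * nn (fld k y n) * wt (fun m => V k ((T k)^[m] y).2) (fld k y) 0 n) := t1
    _ ≤ nn v * (5 * nn (fld k y n)) := mul_le_mul_of_nonneg_left h6 (nn_nonneg _)
    _ = _ := by ring

theorem log_ten : Real.log 10 ≤ 5 / 2 := by
  rw [Real.log_le_iff_le_exp (by norm_num)]
  have h9 : Real.exp (5 / 2) = Real.exp 1 ^ (5 / 2 : ℝ) := by
    rw [← Real.exp_mul]; norm_num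
  have h10 := Real.exp_one_gt_d9
  have h11 : (10:ℝ) ^ 2 ≤ Real.exp (5 / 2) ^ 2 := by
    rw [← Real.exp_nat_mul]
    have : ((2:ℕ):ℝ) * (5 / 2) = ((5:ℕ):ℝ) * 1 := by norm_num
    rw [this, Real.exp_nat_mul]
    calc (10:ℝ) ^ 2 ≤ (2.7182818283:ℝ) ^ 5 := by norm_num
      _ ≤ Real.exp 1 ^ 5 := by gcongr
  exact le_of_pow_le_pow_left₀ (by norm_num) (Real.exp_pos _).le h11

/-- logarithms of the field at valid times: large, and no drop below the power `99/100` -/
theorem log_fld (H : Nm k 100 L0) (hk : 200 ≤ Real.log k) (hy : y ∉ C1 k L0) {n : ℕ}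
    (h : Val k 100 L0 y n) :
    (∀ m, 1 ≤ m → m ≤ n → Real.log k / 2 ≤ Real.log ‖fld k y m‖) ∧
    (∀ m' m, 1 ≤ m' → m' ≤ m → m ≤ n →
      99 / 100 * Real.log ‖fld k y m'‖ ≤ Real.log ‖fld k y m‖) := by
  have D := dt_of H hy
  obtain ⟨h1, h2, h3⟩ := reg H hy
  have hL := H.hL
  have hk0 : (0:ℝ) < k := lt_of_lt_of_le (by norm_num) H.hk
  have hpos : ∀ m, 0 < ‖fld k y m‖ := D.wpos
  have g1 : ∀ m, 1 ≤ m → m ≤ n → Real.log k / 2 ≤ Real.log ‖fld k y m‖ := by
    intro m hm hmn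
    rcases Nat.lt_or_ge m L0 with hmL | hmL
    · obtain ⟨t, ht, ht3, ht2⟩ := exists_t H.hk
      have ht0 : (0:ℝ) < t := lt_of_lt_of_le (by norm_num) ht
      have hb := (base D.hW D.hW0 (B := t ^ 2 / 2) (by nlinarith) (D.dig ht ht2) 1 (by omega)).1
      rw [pow_one, ← (h1 1 (by omega)).1] at hb
      have h5 := hb.trans (h2 1 m hm hmL.le)
      have h6 := Real.log_le_log (by positivity) h5
      rw [Real.log_div (by positivity) (by norm_num), Real.log_pow] at h6
      have h7 : Real.log k = 3 * Real.log t := by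
        rw [← ht3, Real.log_pow]; norm_num
      have hl2 : Real.log 2 ≤ 1 := by
        have := Real.log_two_lt_d9
        linarith
      push_cast at h6
      linarith
    · have h4 := D.big (vg_of_val H hy h) hmL hmn
      have h5 := Real.log_le_log (by positivity) h4
      rw [Real.log_pow] at h5
      push_cast at h5
      linarith
  refine ⟨g1, ?_⟩
  have g2 : ∀ m' m, 1000 ≤ m' → m' ≤ m → m ≤ n →
      99 / 100 * Real.log ‖fld k y m'‖ ≤ Real.log ‖fld k y m‖ := by
    intro m' m hm' hmm hmn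
    have h4 := Real.log_le_log (pow_pos (hpos m') _) (h.v2 m' m hm' hmm hmn)
    rw [Real.log_pow, Real.log_pow] at h4
    push_cast at h4
    linarith
  intro m' m hm' hmm hmn
  have h5 := g1 m' hm' (hmm.trans hmn)
  rcases Nat.lt_or_ge m' 1000 with ha | ha
  · rcases Nat.lt_or_ge m L0 with hb | hb
    · have h6 := Real.log_le_log (hpos m') (h2 m' m hmm hb.le)
      linarith
    · have h6 := Real.log_le_log (hpos m') (h2 m' 1000 ha.le (by omega))
      have h7 := g2 1000 m le_rfl (by omega) hmn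
      linarith
  · exact g2 m' m ha hmm hmn

/-- **Val => FClean** -/
theorem fclean (H : Nm k 100 L0) (hk : 200 ≤ Real.log k) (hy : y ∉ C1 k L0) {n : ℕ}
    (h : Val k 100 L0 y n) : FClean k (k ^ (2 / 3 : ℝ)) 100 (1 / 20) (1 / 50) y n := by
  have D := dt_of H hy
  obtain ⟨g1, g2⟩ := log_fld H hk hy h
  have hL := H.hL
  have hk0 : (0:ℝ) < k := lt_of_lt_of_le (by norm_num) H.hk
  have hpos : ∀ m, 0 < ‖fld k y m‖ := D.wpos
  have hM1 : ∀ m, 1 ≤ ‖Mn k m y‖ := fun m => one_le_norm (det_Mn k m y)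
  have hlow : ∀ m, Real.log ‖fld k y m‖ ≤ Real.log ‖Mn k m y‖ := fun m =>
    Real.log_le_log (hpos m) (fld_le_norm k y m)
  have hup : ∀ m, m ≤ n → Real.log ‖Mn k m y‖ ≤ 5 / 2 + Real.log ‖fld k y m‖ := by
    intro m hm
    have h4 := Real.log_le_log (by linarith [hM1 m]) (norm_le_fld H hy (val_anti h hm))
    rw [Real.log_mul (by norm_num) (hpos m).ne'] at h4
    have := log_ten
    linarith
  refine ⟨?_, ?_, ?_⟩
  · intro m hm _ hc
    exact hy ⟨m, by omega, hc⟩
  · intro m hm m' hm'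
    show (1 - 1 / 20) * Real.log ‖Mn k m' y‖ ≤ Real.log ‖Mn k m y‖
    rcases Nat.eq_zero_or_pos m' with h0 | h0
    · rw [h0, Mn_zero]
      have h5 : Real.log ‖(1 : M2)‖ ≤ 0 := Real.log_nonpos (norm_nonneg _) norm_one_le
      have h6 : 0 ≤ Real.log ‖Mn k m y‖ := Real.log_nonneg (hM1 m)
      nlinarith
    · have h5 := g1 m' h0 (hm'.trans hm)
      have h6 := g2 m' m h0 hm' hm
      have h7 := hup m' (hm'.trans hm)
      have h8 := hlow m
      linarith
  · intro m hm
    show (m:ℝ) ≤ Real.exp (1 / 50 * Real.log ‖Mn k m y‖)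
    rcases Nat.eq_zero_or_pos m with h0 | h0
    · rw [h0]
      simp only [Nat.cast_zero]
      exact (Real.exp_pos _).le
    · have hm0 : (0:ℝ) < (m:ℝ) := by exact_mod_cast h0
      rw [← Real.log_le_iff_le_exp hm0]
      have h8 := hlow m
      have h5 := g1 m h0 hm
      rcases Nat.lt_or_ge m L0 with hmL | hmL
      · have h9 : (m:ℝ) ^ (4 * 100) ≤ k := by
          refine le_trans ?_ H.hk2
          have : (m:ℝ) ≤ (L0:ℝ) := by exact_mod_cast hmL.le
          gcongr
        have h10 := Real.log_le_log (by positivity) h9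
        rw [Real.log_pow] at h10
        push_cast at h10
        linarith
      · obtain ⟨i, hi1, hi2, hi3⟩ := h.v3 m (by omega) hm
        have h9 := g2 i m (by omega) hi2 hm
        have h10 := Real.log_le_log (by positivity) hi3
        rw [Real.log_pow] at h10
        push_cast at h10
        linarith

/-- **BClean is FClean of the swapped point** -/
theorem bclean_swap {X : ℝ} {h0 : ℕ} {b b' : ℝ} {y : Tor} {n : ℕ} :
    BClean k X h0 b b' y n ↔ FClean k X h0 b b' y.swap n := by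
  unfold BClean FClean
  have e1 : ∀ m : ℕ, ‖Mn k m (Tz k (-m) y)‖ = ‖Mn k m y.swap‖ := by
    intro m
    have h := Rev.norm_Mn_rev k m (Tz k (-m) y)
    rw [← Tz_natCast, Tz_neg_cancel'] at h
    exact h.symm
  have e2 : ∀ m : ℕ, (Tz k (-m - 1) y).2 = ((T k)^[m] y.swap).2 := by
    intro m
    rw [Rev.iter_swap, Prod.snd_swap]
    have h1 : T k (Tz k (-m - 1) y) = Tz k (-m) y := by
      rw [← Tz_one, ← Tz_add]
      congr 1
      ring
    have h2 : Tz k (-m) y = (Tinv k)^[m] y := by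
      rw [Rev.Tz_neg_nat, Rev.iter_swap, Prod.swap_swap]
    rw [← h2, ← h1]
    rfl
  simp only [e1, e2]

theorem not_val_of_fclean (H : Nm k 100 L0) (hk : 200 ≤ Real.log k) (hC : y ∉ C1 k L0)
    (hG : y ∉ LG k L0) {n : ℕ} (h : ¬ FClean k (k ^ (2 / 3 : ℝ)) 100 (1 / 20) (1 / 50) y n) :
    y ∈ Rc k L0 n := ⟨hC, hG, fun hv => h (fclean H hk hC hv)⟩

/-- a point which is clean on neither side is in `Rc ∩ bw Rc` or in `Ng` -/
theorem both (H : Nm k 100 L0) (hk : 200 ≤ Real.log k) {n n' : ℕ}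
    (h : ¬ FClean k (k ^ (2 / 3 : ℝ)) 100 (1 / 20) (1 / 50) y n)
    (h' : ¬ BClean k (k ^ (2 / 3 : ℝ)) 100 (1 / 20) (1 / 50) y n') :
    y ∈ Rc k L0 n ∩ bw (Rc k L0 n') ∨ y ∈ Ng k L0 := by
  rw [bclean_swap] at h'
  by_cases c1 : y ∈ C1 k L0
  · exact Or.inr (Or.inl (Or.inl c1))
  by_cases c2 : y.swap ∈ C1 k L0
  · exact Or.inr (Or.inl (Or.inr c2))
  by_cases c3 : y ∈ LG k L0
  · exact Or.inr (Or.inr (Or.inl c3))
  by_cases c4 : y.swap ∈ LG k L0
  · exact Or.inr (Or.inr (Or.inr c4))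
  exact Or.inl ⟨not_val_of_fclean H hk c1 c3 h, not_val_of_fclean H hk c2 c4 h'⟩

theorem step_bz {k : ℝ} (hk : 16 ≤ k) (z : Tor) (n : ℕ) :
    |bz k z (n + 1) - bz k z n| ≤ 2 * Real.log k := by
  have h1 := RootT.abs_bt_sub_le k z n 1
  have hk0 : (0:ℝ) < k := by linarith
  have h2 : lm k 1 ((T k)^[n] z) ≤ Real.log (8 * k) := by
    unfold lm
    have hp := mx_pos (det_Mn k 1 ((T k)^[n] z))
    apply Real.log_le_log hp
    have hV := abs_V_le (k := k) (by linarith) ((T k)^[n] z)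
    have hV0 := abs_nonneg (V k ((T k)^[n] z).2)
    have e : Mn k 1 ((T k)^[n] z) = Am k ((T k)^[n] z) := by
      rw [show (1:ℕ) = 0 + 1 from rfl, Mn_succ, Mn_zero, one_mul]
    rw [e]
    unfold mx Am
    simp only [Matrix.of_apply, Matrix.cons_val', Matrix.cons_val_zero, Matrix.cons_val_one,
      Matrix.cons_val_fin_one, abs_zero, abs_one, abs_neg]
    refine max_le (max_le ?_ ?_) (max_le ?_ ?_) <;> linarith
  have h3 : Real.log (8 * k) + Real.log 2 ≤ 2 * Real.log k := by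
    rw [← Real.log_mul (by positivity) (by norm_num)]
    have : 2 * Real.log k = Real.log (k ^ 2) := by rw [Real.log_pow]; norm_num
    rw [this]
    apply Real.log_le_log (by positivity)
    nlinarith
  unfold bz
  linarith

theorem cmp_of {f : ℕ → ℝ} {κ : ℝ} {N i t j l : ℕ} (h : Close.Cmp f κ N i t j l) :
    Charge.Cmp f κ N i j (l:ℤ) where
  lt := by have := h.it; have := h.tj; omega
  le := h.jN
  fi := by simpa using h.left
  mid := by simpa using h.above
  fj := by simpa using h.right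

theorem top_unique {f : ℕ → ℝ} {κ : ℝ} {N i t t' j l : ℕ} (h : Close.Cmp f κ N i t j l)
    (h' : Close.Cmp f κ N i t' j l) : t = t' := by
  rcases lt_trichotomy t t' with h1 | h1 | h1
  · exact absurd (h.top t' h'.it h'.tj) (not_le.mpr (h'.first t h.it h1))
  · exact h1
  · exact absurd (h'.top t h.it h.tj) (not_le.mpr (h.first t' h'.it h1))

/-- **V1** -/
theorem v1 : Skel.V1 := by
  classical
  refine ⟨32000, fun L0 hL0 => ⟨0, 50000, max (Real.exp 200) ((L0:ℝ) ^ 4000), fun k hk N z S hS => ?_⟩⟩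
  have hk1 : Real.exp 200 ≤ k := (le_max_left _ _).trans hk
  have hk2 : (L0:ℝ) ^ 4000 ≤ k := (le_max_right _ _).trans hk
  have hk0 : (0:ℝ) < k := lt_of_lt_of_le (Real.exp_pos _) hk1
  have hκ200 : 200 ≤ Real.log k := by rwa [Real.le_log_iff_exp_le hk0]
  have hκ0 : 0 < Real.log k := by linarith
  have hkbig : (10:ℝ) ^ 12 ≤ k := by
    refine le_trans ?_ hk1
    have h10 := Real.exp_one_gt_d9
    have e : Real.exp 200 = Real.exp 1 ^ 200 := by rw [← Real.exp_nat_mul]; norm_num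
    rw [e]
    calc (10:ℝ) ^ 12 ≤ (2:ℝ) ^ 200 := by norm_num
      _ ≤ Real.exp 1 ^ 200 := by gcongr; linarith
  have hk16 : (16:ℝ) ≤ k := le_trans (by norm_num) hkbig
  have hL1 : (1:ℝ) ≤ (L0:ℝ) := by exact_mod_cast (by omega : 1 ≤ L0)
  have H : Nm k 1000 L0 := ⟨hkbig, by norm_num, le_rfl, by omega, by simpa using hk2⟩
  have H' : Nm k 100 L0 := ⟨hkbig, le_rfl, by norm_num, by omega, by
    refine le_trans ?_ hk2
    exact pow_le_pow_right₀ hL1 (by norm_num)⟩
  set f := bz k z with hf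
  set κ := Real.log k with hκ
  -- the constants of 550
  set X := k ^ (2 / 3 : ℝ) with hX
  have hXhalf : k ^ (1 / 2 : ℝ) + 1 ≤ X := OnePerX.half_le (by linarith)
  have hX2 : 2 < X := by
    have : (4:ℝ) ≤ k ^ (1 / 2 : ℝ) := by
      have e : (4:ℝ) = (16:ℝ) ^ (1 / 2 : ℝ) := by
        rw [show (16:ℝ) = 4 ^ (2:ℝ) by norm_num, ← Real.rpow_mul (by norm_num)]
        norm_num
      rw [e]
      exact Real.rpow_le_rpow (by norm_num) hk16 (by norm_num)
    linarith
  have hbig : 50 * Bk k ≤ (100:ℕ) * (2 * Real.log (X - 1)) := by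
    have h1 : κ / 2 ≤ Real.log (X - 1) := by
      have h2 : k ^ (1 / 2 : ℝ) ≤ X - 1 := by linarith
      have h3 := Real.log_le_log (Real.rpow_pos_of_pos hk0 _) h2
      rw [Real.log_rpow hk0] at h3
      linarith
    have h2 : Bk k ≤ 2 * κ := by
      unfold Bk
      have : 2 * κ = Real.log (k ^ 2) := by rw [Real.log_pow]; norm_num; rfl
      rw [this]
      apply Real.log_le_log (by positivity)
      have hpi := Real.pi_lt_d2
      nlinarith
    push_cast
    linarith
  -- predicates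
  set Pp : ℕ → Prop := fun v => (T k)^[v] z ∈ Rc k L0 (N - v) ∩ bw (Rc k L0 v) ∨
    (T k)^[v] z ∈ Ng k L0 with hPp
  set Bb : ℕ → Prop := fun v => (T k)^[v] z ∈ Ng k L0 with hBb
  set Hh : ℝ := ∑ t ∈ range (N + 1), |f t| with hHh
  have h4L : ∀ i j l, Charge.NestL f κ N Hh i j l → Pp i := by
    intro i j l h
    obtain ⟨a1, a2⟩ := NestedInst.h4L (X := X) (h0 := 100) (b := 1 / 20) (b' := 1 / 50) hk0.le hX2 hbig
      (by norm_num) le_rfl (by norm_num) le_rfl h
    exact both H' hκ200 a1 a2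
  have h4R : ∀ i j l, Charge.NestR f κ N Hh i j l → Pp j := by
    intro i j l h
    obtain ⟨a1, a2⟩ := NestedInst.h4R (X := X) (h0 := 100) (b := 1 / 20) (b' := 1 / 50) hk0.le hX2 hbig
      (by norm_num) le_rfl (by norm_num) le_rfl h
    exact both H' hκ200 a1 a2
  -- the components
  have hcomp : ∀ p ∈ S, ∃ ij : ℕ × ℕ, Close.Cmp f κ N ij.1 p.1 ij.2 p.2 := by
    intro p hp
    obtain ⟨i, j, h⟩ := (hS p hp).1
    exact ⟨(i, j), h⟩
  choose! g hg using hcomp
  set G : ℕ × ℕ → ℕ × ℕ × ℤ := fun p => ((g p).1, (g p).2, (p.2 : ℤ)) with hG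
  have hinj : Set.InjOn G S := by
    intro p hp q hq hpq
    simp only [hG, Prod.mk.injEq] at hpq
    obtain ⟨e1, e2, e3⟩ := hpq
    have e3' : p.2 = q.2 := by exact_mod_cast e3
    have h1 := hg p hp
    have h2 := hg q hq
    rw [← e1, ← e2, ← e3'] at h2
    exact Prod.ext (top_unique h1 h2) e3'
  have hcard : (S.image G).card = S.card := Finset.card_image_of_injOn hinj
  have hmain := Charge.charge (f := f) (κ := κ) (J := 2 * κ) (b := 1 / (1000:ℝ) / 2)
    (D := (L0:ℝ) * κ / 4) (H := Hh) (N := N) hκ0 (step_bz hk16 z) (by norm_num)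
    (by
      have : (32000:ℝ) ≤ (L0:ℝ) := by exact_mod_cast hL0
      nlinarith) Pp Bb h4L h4R (S.image G)
    (by
      intro c hc
      rw [Finset.mem_image] at hc
      obtain ⟨p, hp, rfl⟩ := hc
      have hcmp := hg p hp
      refine ⟨cmp_of hcmp, ?_⟩
      have hnf := (hS p hp).2.2 (g p).1 (g p).2 hcmp
      unfold Fresh at hnf
      rw [not_and_or] at hnf
      have hHb : f p.1 - ((p.2 : ℤ) : ℝ) * κ ≤ Hh := by
        have h1 : f p.1 ≤ |f p.1| := le_abs_self _
        have h2 : |f p.1| ≤ Hh := Finset.single_le_sum (f := fun t => |f t|)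
          (fun t _ => abs_nonneg (f t)) (Finset.mem_range.mpr (by
            have := hcmp.tj; have := hcmp.jN; omega))
        have h3 : (0:ℝ) ≤ ((p.2 : ℤ) : ℝ) * κ := by positivity
        linarith
      rcases hnf with hnf | hnf
      · by_cases c1 : (T k)^[(g p).1] z ∈ Ng k L0
        · exact Or.inl c1
        · have c2 : (T k)^[(g p).1] z ∉ C1 k L0 := fun h => c1 (Or.inl (Or.inl h))
          have c3 : (T k)^[(g p).1] z ∉ LG k L0 := fun h => c1 (Or.inr (Or.inl h))
          have hv := FootSkel.valL H hcmp c2 c3 hnf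
          refine Or.inr (Or.inr ⟨p.1, hcmp.it, hcmp.tj, hcmp.top, hHb, Or.inl ?_⟩)
          exact_mod_cast hv
      · by_cases c1 : (T k)^[(g p).2] z ∈ Ng k L0
        · exact Or.inr (Or.inl c1)
        · have c2 : ((T k)^[(g p).2] z).swap ∉ C1 k L0 := fun h => c1 (Or.inl (Or.inr h))
          have c3 : ((T k)^[(g p).2] z).swap ∉ LG k L0 := fun h => c1 (Or.inr (Or.inr h))
          have hv := FootSkel.valR H hcmp c2 c3 hnf
          refine Or.inr (Or.inr ⟨p.1, hcmp.it, hcmp.tj, hcmp.top, hHb, Or.inr ?_⟩)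
          exact_mod_cast hv)
  rw [hcard] at hmain
  -- counting
  have hBc : (((range (N + 1)).filter Bb).card : ℝ) = (vs k N z (fun _ => Ng k L0) : ℝ) := by
    unfold vs
    congr 2
  have hPc : (((range (N + 1)).filter Pp).card : ℝ) ≤
      (vs k N z (fun v => Rc k L0 (N - v) ∩ bw (Rc k L0 v)) : ℝ) +
        (vs k N z (fun _ => Ng k L0) : ℝ) := by
    have h1 : (range (N + 1)).filter Pp ⊆
        (range (N + 1)).filter (fun v => (T k)^[v] z ∈ Rc k L0 (N - v) ∩ bw (Rc k L0 v)) ∪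
        (range (N + 1)).filter (fun v => (T k)^[v] z ∈ Ng k L0) := by
      intro v hv
      rw [Finset.mem_filter] at hv
      rw [Finset.mem_union, Finset.mem_filter, Finset.mem_filter]
      rcases hv.2 with h | h
      · exact Or.inl ⟨hv.1, h⟩
      · exact Or.inr ⟨hv.1, h⟩
    have h2 := (Finset.card_le_card h1).trans (Finset.card_union_le _ _)
    unfold vs
    have h3 : ∀ (S1 S2 : ℕ), S1 = S2 → (S1:ℝ) = (S2:ℝ) := fun _ _ h => by rw [h]
    refine (Nat.cast_le (α := ℝ).mpr h2).trans (le_of_eq ?_)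
    push_cast
    congr 1
  rw [hBc] at hmain
  set A := (vs k N z (fun v => Rc k L0 (N - v) ∩ bw (Rc k L0 v)) : ℝ) with hA
  set Bv := (vs k N z (fun _ => Ng k L0) : ℝ) with hBv
  have hA0 : 0 ≤ A := Nat.cast_nonneg _
  have hB0 : 0 ≤ Bv := Nat.cast_nonneg _
  have e1 : 2 * κ / κ = 2 := by field_simp
  rw [e1] at hmain
  have e2 : 4 / (1 / (1000:ℝ) / 2) = 8000 := by norm_num
  rw [e2] at hmain
  have hfin : (S.card : ℝ) ≤ 50000 * (A + Bv) := by nlinarith
  have : ((S.card : ℕ) : ℝ) ≤ ((50000 * (vs k N z (fun v => Rc k L0 (N - v) ∩ bw (Rc k L0 v)) +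
      vs k N z (fun _ => Ng k L0)) : ℕ) : ℝ) := by
    push_cast
    exact hfin
  exact_mod_cast this

end Crest.Agent.R128.V1F676
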