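import Crest.Agent.R128.Charge

/-!
Row 128, node V1 (helper434), abstract form: from the two facts (triangle inequality and chain
inequality `(I2)` for the root contour and for the contours rooted at a point) to the pointwise
charging inequality: the number of components of the root contour which are not fresh is bounded
by the number of base violations and the number of doubly covered times.
-/

namespace Crest.Agent.R128.V1Two

open Crest.Agent.R128.Charge Finset

/-- validity of a profile `P` up to index `n` -/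
def Val (L : ℕ) (b : ℝ) (c : ℕ → Prop) (P : ℕ → ℝ) (n : ℕ) : Prop :=
  c n ∧ (∀ i j, L ≤ i → i ≤ j → j ≤ n → (1 - b) * P i ≤ P j) ∧
    (∀ j, L ≤ j → j ≤ n → ∃ i, L ≤ i ∧ i ≤ j ∧ Real.log j ≤ b / 4 * P i)

/-- antitone predicate -/
def Anti (c : ℕ → Prop) : Prop := ∀ m n, m ≤ n → c n → c m

theorem Val.mono {L : ℕ} {b : ℝ} {c : ℕ → Prop} {P : ℕ → ℝ} {n m : ℕ} (hc : Anti c)
    (h : Val L b c P n) (hm : m ≤ n) : Val L b c P m :=
  ⟨hc m n hm h.1, fun i j h1 h2 h3 => h.2.1 i j h1 h2 (h3.trans hm),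
    fun j h1 h2 => h.2.2 j h1 (h2.trans hm)⟩

/-- growth on the first `L` steps -/
def Grow (L : ℕ) (A1 : ℝ) (P : ℕ → ℝ) : Prop :=
  0 ≤ P 0 ∧ A1 ≤ P L ∧ ∀ i i', i ≤ i' → i' ≤ L → P i ≤ P i'

theorem Val.sup {L : ℕ} {b A1 : ℝ} {c : ℕ → Prop} {P : ℕ → ℝ} {n : ℕ} (h : Val L b c P n)
    (hg : Grow L A1 P) (hb : 0 ≤ b) (hb1 : b ≤ 1) {i j : ℕ} (hij : i ≤ j) (hj : j ≤ n) :
    (1 - b) * P i ≤ P j := by
  have h0 : ∀ i, i ≤ L → 0 ≤ P i := fun i hi => hg.1.trans (hg.2.2 0 i (Nat.zero_le _) hi)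
  rcases le_or_gt j L with h1 | h1
  · have := hg.2.2 i j hij h1
    have h2 := h0 i (hij.trans h1)
    nlinarith
  · rcases le_or_gt L i with h2 | h2
    · exact h.2.1 i j h2 hij hj
    · have h3 := h.2.1 L j le_rfl h1.le hj
      have h4 := hg.2.2 i L h2.le le_rfl
      nlinarith

theorem Val.low {L : ℕ} {b A1 : ℝ} {c : ℕ → Prop} {P : ℕ → ℝ} {n : ℕ} (h : Val L b c P n)
    (hg : Grow L A1 P) (hLn : L ≤ n) : (1 - b) * A1 ≤ P n ∨ b ≥ 1 := by
  rcases lt_or_ge b 1 with hb | hb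
  · left
    have h1 := h.2.1 L n le_rfl hLn le_rfl
    have h2 := hg.2.1
    nlinarith
  · exact Or.inr hb

theorem Val.low' {L : ℕ} {b A1 : ℝ} {c : ℕ → Prop} {P : ℕ → ℝ} {n : ℕ} (h : Val L b c P n)
    (hg : Grow L A1 P) (hb0 : 0 ≤ b) (hb : b ≤ 1 / 20) (hA : 0 ≤ A1) (hLn : L ≤ n) :
    19 / 20 * A1 ≤ P n := by
  rcases h.low hg hLn with h1 | h1
  · nlinarith
  · linarith

theorem log_succ_le {n : ℕ} (hn : 1 ≤ n) : Real.log ((n : ℝ) + 1) ≤ Real.log n + 1 := by
  have h1 : (1 : ℝ) ≤ n := by exact_mod_cast hn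
  have h2 : (n : ℝ) + 1 ≤ n * Real.exp 1 := by
    have := Real.add_one_le_exp (1 : ℝ)
    nlinarith
  calc Real.log ((n : ℝ) + 1) ≤ Real.log (n * Real.exp 1) :=
        Real.log_le_log (by positivity) h2
    _ = Real.log n + 1 := by
        rw [Real.log_mul (by positivity) (Real.exp_pos 1).ne', Real.log_exp]

theorem Val.log_le {L : ℕ} {b A1 : ℝ} {c : ℕ → Prop} {P : ℕ → ℝ} {n : ℕ} (h : Val L b c P n)
    (hg : Grow L A1 P) (hb0 : 0 ≤ b) (hb : b ≤ 1 / 20) (hL1 : 1 ≤ L) (hLn : L ≤ n) :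
    Real.log ((n : ℝ) + 1) ≤ 1 + b / 3 * P n := by
  obtain ⟨i, -, hi, hlog⟩ := h.2.2 n hLn le_rfl
  have h1 := h.sup hg hb0 (by linarith) hi le_rfl
  have h2 := log_succ_le (hL1.trans hLn)
  have h3 : b / 4 * P i ≤ b / 3 * P n := by
    have h4 : 3 / 4 * P i ≤ P n ∨ P i < 0 := by
      rcases lt_or_ge (P i) 0 with h5 | h5
      · exact Or.inr h5
      · left; nlinarith
    rcases h4 with h5 | h5
    · nlinarith
    · have h6 : 0 ≤ P n := by
        have h7 := h.sup hg hb0 (by linarith) (Nat.zero_le n) le_rfl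
        have h8 := hg.1
        nlinarith
      have h9 : b / 4 * P i ≤ 0 := mul_nonpos_of_nonneg_of_nonpos (by positivity) h5.le
      have h10 : 0 ≤ b / 3 * P n := by positivity
      linarith
  linarith

/-- the data of the abstract statement -/
structure Sys (N L : ℕ) (κ J C0 A1 : ℝ) (f : ℕ → ℝ) (d F G : ℕ → ℕ → ℝ)
    (cF cB : ℕ → ℕ → Prop) : Prop where
  κpos : 0 < κ
  L1 : 1 ≤ L
  Jnn : 0 ≤ J
  Cnn : 0 ≤ C0
  Ann : 0 ≤ A1
  step : ∀ n, |f (n + 1) - f n| ≤ J
  tri : ∀ m n, m ≤ N → n ≤ N → f m - f n ≤ d m n + C0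
  symm : ∀ m n, d m n = d n m
  chain : ∀ m n μ, m ≤ n → n ≤ N → (∀ x, m ≤ x → x ≤ n → μ ≤ f x) →
    d m n ≤ f m + f n - 2 * μ + C0 + Real.log (((n - m : ℕ) : ℝ) + 1)
  chainR : ∀ v m n μ, m ≤ n → n ≤ v → v ≤ N → (∀ x, m ≤ x → x ≤ n → μ ≤ d v x) →
    d m n ≤ d v m + d v n - 2 * μ + C0 + Real.log (((n - m : ℕ) : ℝ) + 1)
  chainL : ∀ v m n μ, v ≤ m → m ≤ n → n ≤ N → (∀ x, m ≤ x → x ≤ n → μ ≤ d v x) →
    d m n ≤ d v m + d v n - 2 * μ + C0 + Real.log (((n - m : ℕ) : ℝ) + 1)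
  antiF : ∀ v, Anti (cF v)
  antiB : ∀ v, Anti (cB v)
  maxF : ∀ v a n, cF v n → v < a → a < v + n → a < v + L → a < N →
    f (a - 1) ≤ f a → f (a + 1) ≤ f a → False
  maxB : ∀ v a n, cB v n → a < v → v < a + n → v < a + L → v ≤ N → 0 < a →
    f (a - 1) ≤ f a → f (a + 1) ≤ f a → False
  growF : ∀ v, cF v L → v + L ≤ N → Grow L A1 (F v)
  growB : ∀ v, cB v L → L ≤ v → v ≤ N → Grow L A1 (G v)

/-- comparability of the forward profile with the distance, up to the first violation -/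
def CompF (N L : ℕ) (C0 b : ℝ) (d F : ℕ → ℕ → ℝ) (cF : ℕ → ℕ → Prop) : Prop :=
  ∀ v n, L < n → Val L b (cF v) (F v) (n - 1) → v + n ≤ N →
    ∀ m, m ≤ n → |F v m - d v (v + m)| ≤ C0

def CompB (N L : ℕ) (C0 b : ℝ) (d G : ℕ → ℕ → ℝ) (cB : ℕ → ℕ → Prop) : Prop :=
  ∀ v n, L < n → Val L b (cB v) (G v) (n - 1) → n ≤ v → v ≤ N →
    ∀ m, m ≤ n → |G v m - d v (v - m)| ≤ C0

variable {N L : ℕ} {κ J C0 A1 b H : ℝ} {f : ℕ → ℝ} {d F G : ℕ → ℕ → ℝ} {cF cB : ℕ → ℕ → Prop}

/-- an interior maximum of a component -/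
theorem exists_max {i j : ℕ} {l : ℤ} (h : Cmp f κ N i j l) :
    ∃ a, i < a ∧ a < j ∧ ∀ m, i < m → m < j → f m ≤ f a := by
  obtain ⟨a, ha, hmax⟩ := Finset.exists_max_image (Finset.Ioo i j) f
    ⟨i + 1, Finset.mem_Ioo.mpr ⟨by omega, h.lt⟩⟩
  rw [Finset.mem_Ioo] at ha
  exact ⟨a, ha.1, ha.2, fun m h1 h2 => hmax m (Finset.mem_Ioo.mpr ⟨h1, h2⟩)⟩

/-- an interior maximum of a component is a local maximum -/
theorem localmax {i j a : ℕ} {l : ℤ} (h : Cmp f κ N i j l) (h1 : i < a) (h2 : a < j)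
    (hmax : ∀ m, i < m → m < j → f m ≤ f a) : f (a - 1) ≤ f a ∧ f (a + 1) ≤ f a := by
  have ha := h.mid a h1 h2
  constructor
  · rcases Nat.lt_or_ge i (a - 1) with h3 | h3
    · exact hmax _ h3 (by omega)
    · have : a - 1 = i := by omega
      rw [this]
      exact h.fi.trans ha.le
  · rcases Nat.lt_or_ge (a + 1) j with h3 | h3
    · exact hmax _ (by omega) h3
    · have : a + 1 = j := by omega
      rw [this]
      exact h.fj.trans ha.le

/-- on a component, feet included, `f ≥ l κ - J` -/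
theorem Cmp.low (S : Sys N L κ J C0 A1 f d F G cF cB) {i j x : ℕ} {l : ℤ} (h : Cmp f κ N i j l)
    (h1 : i ≤ x) (h2 : x ≤ j) : (l : ℝ) * κ - J ≤ f x := by
  have hJ := S.Jnn
  rcases eq_or_lt_of_le h1 with rfl | h1'
  · have h3 := h.mid (i + 1) (by omega) h.lt
    have h4 := (abs_le.mp (S.step i)).2
    linarith
  rcases eq_or_lt_of_le h2 with rfl | h2'
  · have h3 := h.mid (x - 1) (by have := h.lt; omega) (by omega)
    have h4 := (abs_le.mp (S.step (x - 1))).1
    rw [show x - 1 + 1 = x by omega] at h4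
    linarith
  · have := h.mid x h1' h2'
    linarith

/-- **the left foot of every component is violated forward.** -/
theorem foot_fwd (S : Sys N L κ J C0 A1 f d F G cF cB) (hC : CompF N L C0 b d F cF)
    (hb0 : 0 ≤ b) (hb : b ≤ 1 / 20) (hA : 40 * (J + C0 + 1) ≤ A1) {i j : ℕ} {l : ℤ}
    (h : Cmp f κ N i j l) : ¬ Val L b (cF i) (F i) (j - i) := by
  intro hV
  have hJ := S.Jnn
  have hC0 := S.Cnn
  have hlt := h.lt
  have hle := h.le
  rcases le_or_gt (j - i) L with hn | hn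
  · obtain ⟨a, h1, h2, hmax⟩ := exists_max h
    obtain ⟨h3, h4⟩ := localmax h h1 h2 hmax
    exact S.maxF i a (j - i) hV.1 h1 (by omega) (by omega) (by omega) h3 h4
  · set n := j - i with hndef
    have hg := S.growF i (S.antiF i _ _ hn.le hV.1) (by omega)
    have h1 := hC i n hn (hV.mono (S.antiF i) (by omega)) (by omega) n le_rfl
    rw [show i + n = j by omega] at h1
    have h2 := S.chain i j ((l : ℝ) * κ - J) (by omega) hle (fun x hx1 hx2 => Cmp.low S h hx1 hx2)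
    rw [← hndef] at h2
    have h3 := h.fi
    have h4 := h.fj
    have h5 := (abs_le.mp h1).2
    have h6 := hV.log_le hg hb0 hb S.L1 hn.le
    have h7 := hV.low' hg hb0 hb S.Ann hn.le
    have h8 : b / 3 * F i n ≤ F i n / 60 := by
      have : 0 ≤ F i n := by linarith [S.Ann]
      nlinarith
    linarith

/-- **the right foot of every component is violated backward.** -/
theorem foot_bwd (S : Sys N L κ J C0 A1 f d F G cF cB) (hC : CompB N L C0 b d G cB)
    (hb0 : 0 ≤ b) (hb : b ≤ 1 / 20) (hA : 40 * (J + C0 + 1) ≤ A1) {i j : ℕ} {l : ℤ}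
    (h : Cmp f κ N i j l) : ¬ Val L b (cB j) (G j) (j - i) := by
  intro hV
  have hJ := S.Jnn
  have hC0 := S.Cnn
  have hlt := h.lt
  have hle := h.le
  rcases le_or_gt (j - i) L with hn | hn
  · obtain ⟨a, h1, h2, hmax⟩ := exists_max h
    obtain ⟨h3, h4⟩ := localmax h h1 h2 hmax
    exact S.maxB j a (j - i) hV.1 (by omega) (by omega) (by omega) (by omega) (by omega) h3 h4
  · set n := j - i with hndef
    have hg := S.growB j (S.antiB j _ _ hn.le hV.1) (by omega) hle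
    have h1 := hC j n hn (hV.mono (S.antiB j) (by omega)) (by omega) hle n le_rfl
    rw [show j - n = i by omega] at h1
    have h2 := S.chain i j ((l : ℝ) * κ - J) (by omega) hle (fun x hx1 hx2 => Cmp.low S h hx1 hx2)
    rw [← hndef, S.symm i j] at h2
    have h3 := h.fi
    have h4 := h.fj
    have h5 := (abs_le.mp h1).2
    have h6 := hV.log_le hg hb0 hb S.L1 hn.le
    have h7 := hV.low' hg hb0 hb S.Ann hn.le
    have h8 : b / 3 * G j n ≤ G j n / 60 := by
      have : 0 ≤ G j n := by linarith [S.Ann]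
      nlinarith
    linarith

/-- the geometry to the left of a nested component -/
theorem left_data (S : Sys N L κ J C0 A1 f d F G cF cB) {i j : ℕ} {l : ℤ}
    (h : NestL f κ N H i j l) :
    ∃ s T u l', s < T ∧ T < u ∧ u ≤ i ∧ (l' : ℤ) * κ < f u ∧ (l' : ℤ) * κ < f i ∧ f T - l' * κ ≤ H ∧
      f i < f T ∧ f u ≤ f i ∧ f (T - 1) ≤ f T ∧ f (T + 1) ≤ f T ∧
      (∀ x, s ≤ x → x ≤ i → f u - J ≤ f x) ∧ f s ≤ f u ∧ (∀ x, s ≤ x → x ≤ j → f x ≤ f T) := by
  obtain ⟨hc, i', j', l', T, hc', h1, h2, h3, h4, h5⟩ := h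
  have hlt := hc.lt
  have hJ := S.Jnn
  obtain ⟨a, ha1, ha2, -⟩ := exists_max hc
  have hfa := hc.mid a ha1 ha2
  have hTa := h4 a (by omega) (by omega)
  have hfi := hc.fi
  have hiT : f i < f T := by linarith
  obtain ⟨u, hu, hmin⟩ := Finset.exists_min_image (Finset.Icc T i) f
    ⟨T, Finset.mem_Icc.mpr ⟨le_rfl, h2.le⟩⟩
  rw [Finset.mem_Icc] at hu
  have hui : f u ≤ f i := hmin i (Finset.mem_Icc.mpr ⟨h2.le, le_rfl⟩)
  have hTu : T < u := by
    rcases eq_or_lt_of_le hu.1 with he | h6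
    · rw [← he] at hui; linarith
    · exact h6
  have hlu : (l' : ℝ) * κ < f u := hc'.mid u (by omega) (by omega)
  have hli : (l' : ℝ) * κ < f i := hc'.mid i (by omega) (by omega)
  obtain ⟨s, hs1, hs2, hs3, hs4⟩ := exists_left_foot (f := f) (v := i') (a := T) (y := f u) h1
    (hc'.fi.trans hlu.le) (by linarith)
  obtain ⟨h7, h8⟩ := localmax hc' h1 (by omega) h4
  refine ⟨s, T, u, l', hs2, hTu, hu.2, hlu, hli, h5, hiT, hui, h7, h8, ?_, hs3, ?_⟩
  · intro x hx1 hx2
    rcases le_or_gt T x with h9 | h9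
    · have := hmin x (Finset.mem_Icc.mpr ⟨h9, hx2⟩)
      linarith
    · rcases eq_or_lt_of_le hx1 with rfl | h10
      · have h11 := hs4 (s + 1) (by omega) (by omega)
        have h12 := (abs_le.mp (S.step s)).2
        linarith
      · have := hs4 x h10 h9.le
        linarith
  · intro x hx1 hx2
    rcases Nat.lt_or_ge i' x with h9 | h9
    · rcases Nat.lt_or_ge x j' with h10 | h10
      · exact h4 x h9 h10
      · have : x = j' := by omega
        rw [this]
        exact hc'.fj.trans (by linarith)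
    · have : x = i' := by omega
      rw [this]
      exact hc'.fi.trans (by linarith)

/-- **the left foot of a component nested to the right of a maximum is violated backward.** -/
theorem nestL_bwd (S : Sys N L κ J C0 A1 f d F G cF cB) (hC : CompB N L C0 b d G cB)
    (hb0 : 0 ≤ b) (hb : b ≤ 1 / 20) (hA : 40 * (J + C0 + 1) ≤ A1) {i s T u : ℕ}
    (hiN : i ≤ N) (hsT : s < T) (hTu : T < u) (hui : u ≤ i)
    (hiT : f i < f T) (hfui : f u ≤ f i) (hm1 : f (T - 1) ≤ f T) (hm2 : f (T + 1) ≤ f T)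
    (hlow : ∀ x, s ≤ x → x ≤ i → f u - J ≤ f x) (hfs : f s ≤ f u) :
    ¬ Val L b (cB i) (G i) (i - s) := by
  intro hV
  have hJ := S.Jnn
  have hC0 := S.Cnn
  rcases le_or_gt (i - s) L with hn | hn
  · exact S.maxB i T (i - s) hV.1 (by omega) (by omega) (by omega) hiN (by omega) hm1 hm2
  set n := i - s with hndef
  have hg := S.growB i (S.antiB i _ _ hn.le hV.1) (by omega) hiN
  have hcmp := hC i n hn (hV.mono (S.antiB i) (by omega)) (by omega) hiN
  set X := G i n with hX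
  have hXlow := hV.low' hg hb0 hb S.Ann hn.le
  have hX0 : 0 ≤ X := by rw [hX]; linarith [S.Ann]
  have hlog := hV.log_le hg hb0 hb S.L1 hn.le
  rw [← hX] at hXlow hlog
  -- upper bound for `X`
  have h1 := S.chain s i (f u - J) (by omega) hiN hlow
  rw [← hndef, S.symm s i] at h1
  have h2 := (abs_le.mp (hcmp n le_rfl)).2
  rw [show i - n = s by omega, ← hX] at h2
  have hbX : b * X ≤ X / 20 := by nlinarith
  have hbX0 : 0 ≤ b * X := by positivity
  have hXup : X ≤ (f i - f u) + 2 * J + 2 * C0 + 1 + X / 60 := by linarith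
  set e := f i - f u with he
  have he0 : 0 ≤ e := by linarith
  -- the value at `u`
  have h3 : e ≤ d i u + C0 := S.tri i u hiN (by omega)
  have h4 := (abs_le.mp (hcmp (i - u) (by omega))).1
  rw [show i - (i - u) = u by omega] at h4
  -- lower bound on `[T, u]`
  have h5 : ∀ x, T ≤ x → x ≤ u → e - e / 20 - 3 * C0 ≤ d i x := by
    intro x hx1 hx2
    have h6 := hV.sup hg hb0 (by linarith) (i := i - u) (j := i - x) (by omega) (by omega)
    have h7 := (abs_le.mp (hcmp (i - x) (by omega))).2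
    rw [show i - (i - x) = x by omega] at h7
    have h8 : e - 2 * C0 ≤ G i (i - u) := by linarith
    have h9 : (1 - b) * (e - 2 * C0) ≤ (1 - b) * G i (i - u) :=
      mul_le_mul_of_nonneg_left h8 (by linarith)
    have h10 : e - e / 20 - 2 * C0 ≤ (1 - b) * (e - 2 * C0) := by nlinarith
    linarith
  have h6 := S.chainR i T u (e - e / 20 - 3 * C0) hTu.le hui hiN h5
  -- upper bounds for the values at `T` and `u`
  have hup : ∀ p, p ≤ n → G i p ≤ X + X / 10 := by
    intro p hp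
    have h7 := hV.sup hg hb0 (by linarith) hp le_rfl
    rw [← hX] at h7
    by_contra hcon
    push Not at hcon
    nlinarith
  have h7 := (abs_le.mp (hcmp (i - T) (by omega))).1
  rw [show i - (i - T) = T by omega] at h7
  have h8 := hup (i - T) (by omega)
  have h9 := hup (i - u) (by omega)
  have h10 := S.tri T u (by omega) (by omega)
  have h11 : Real.log (((u - T : ℕ) : ℝ) + 1) ≤ Real.log ((n : ℝ) + 1) := by
    apply Real.log_le_log (by positivity)
    have : ((u - T : ℕ) : ℝ) ≤ (n : ℝ) := by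
      exact_mod_cast (show u - T ≤ n by omega)
    linarith
  have h12 : b / 3 * X ≤ X / 60 := by nlinarith
  linarith


/-- the geometry to the right of a nested component -/
theorem right_data (S : Sys N L κ J C0 A1 f d F G cF cB) {i j : ℕ} {l : ℤ}
    (h : NestR f κ N H i j l) :
    ∃ s T u, T < s ∧ s ≤ N ∧ u < T ∧ j ≤ u ∧ f j < f T ∧ f u ≤ f j ∧ f (T - 1) ≤ f T ∧
      f (T + 1) ≤ f T ∧ (∀ x, j ≤ x → x ≤ s → f u - J ≤ f x) ∧ f s ≤ f u := by
  obtain ⟨hc, i', j', l', T, hc', h1, h2, h3, h4, h5⟩ := h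
  have hlt := hc.lt
  have hJ := S.Jnn
  obtain ⟨a, ha1, ha2, -⟩ := exists_max hc
  have hfa := hc.mid a ha1 ha2
  have hTa := h4 a (by omega) (by omega)
  have hfj := hc.fj
  have hjT : f j < f T := by linarith
  obtain ⟨u, hu, hmin⟩ := Finset.exists_min_image (Finset.Icc j T) f
    ⟨T, Finset.mem_Icc.mpr ⟨h2.le, le_rfl⟩⟩
  rw [Finset.mem_Icc] at hu
  have huj : f u ≤ f j := hmin j (Finset.mem_Icc.mpr ⟨le_rfl, h2.le⟩)
  have huT : u < T := by
    rcases eq_or_lt_of_le hu.2 with he | h6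
    · rw [he] at huj; linarith
    · exact h6
  have hlu : (l' : ℝ) * κ < f u := hc'.mid u (by omega) (by omega)
  obtain ⟨s, hs1, hs2, hs3, hs4⟩ := exists_right_foot (f := f) (a := T) (j := j') (y := f u) h3
    (hc'.fj.trans hlu.le) (by linarith)
  obtain ⟨h7, h8⟩ := localmax hc' (by omega) h3 h4
  refine ⟨s, T, u, hs1, hs2.trans hc'.le, huT, hu.1, hjT, huj, h7, h8, ?_, hs3⟩
  intro x hx1 hx2
  rcases le_or_gt x T with h9 | h9
  · have := hmin x (Finset.mem_Icc.mpr ⟨hx1, h9⟩)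
    linarith
  · rcases eq_or_lt_of_le hx2 with rfl | h10
    · have h11 := hs4 (x - 1) (by omega) (by omega)
      have h12 := (abs_le.mp (S.step (x - 1))).1
      rw [show x - 1 + 1 = x by omega] at h12
      linarith
    · have := hs4 x h9.le h10
      linarith

/-- **the right foot of a component nested to the left of a maximum is violated forward.** -/
theorem nestR_fwd (S : Sys N L κ J C0 A1 f d F G cF cB) (hC : CompF N L C0 b d F cF)
    (hb0 : 0 ≤ b) (hb : b ≤ 1 / 20) (hA : 40 * (J + C0 + 1) ≤ A1) {j s T u : ℕ}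
    (hsN : s ≤ N) (hsT : T < s) (hTu : u < T) (hui : j ≤ u)
    (hiT : f j < f T) (hfui : f u ≤ f j) (hm1 : f (T - 1) ≤ f T) (hm2 : f (T + 1) ≤ f T)
    (hlow : ∀ x, j ≤ x → x ≤ s → f u - J ≤ f x) (hfs : f s ≤ f u) :
    ¬ Val L b (cF j) (F j) (s - j) := by
  intro hV
  have hJ := S.Jnn
  have hC0 := S.Cnn
  rcases le_or_gt (s - j) L with hn | hn
  · exact S.maxF j T (s - j) hV.1 (by omega) (by omega) (by omega) (by omega) hm1 hm2
  set n := s - j with hndef
  have hg := S.growF j (S.antiF j _ _ hn.le hV.1) (by omega)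
  have hcmp := hC j n hn (hV.mono (S.antiF j) (by omega)) (by omega)
  set X := F j n with hX
  have hXlow := hV.low' hg hb0 hb S.Ann hn.le
  have hX0 : 0 ≤ X := by rw [hX]; linarith [S.Ann]
  have hlog := hV.log_le hg hb0 hb S.L1 hn.le
  rw [← hX] at hXlow hlog
  -- upper bound for `X`
  have h1 := S.chain j s (f u - J) (by omega) hsN hlow
  rw [← hndef] at h1
  have h2 := (abs_le.mp (hcmp n le_rfl)).2
  rw [show j + n = s by omega, ← hX] at h2
  have hbX : b * X ≤ X / 20 := by nlinarith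
  have hbX0 : 0 ≤ b * X := by positivity
  have hXup : X ≤ (f j - f u) + 2 * J + 2 * C0 + 1 + X / 60 := by linarith
  set e := f j - f u with he
  have he0 : 0 ≤ e := by linarith
  -- the value at `u`
  have h3 : e ≤ d j u + C0 := S.tri j u (by omega) (by omega)
  have h4 := (abs_le.mp (hcmp (u - j) (by omega))).1
  rw [show j + (u - j) = u by omega] at h4
  -- lower bound on `[u, T]`
  have h5 : ∀ x, u ≤ x → x ≤ T → e - e / 20 - 3 * C0 ≤ d j x := by
    intro x hx1 hx2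
    have h6 := hV.sup hg hb0 (by linarith) (i := u - j) (j := x - j) (by omega) (by omega)
    have h7 := (abs_le.mp (hcmp (x - j) (by omega))).2
    rw [show j + (x - j) = x by omega] at h7
    have h8 : e - 2 * C0 ≤ F j (u - j) := by linarith
    have h9 : (1 - b) * (e - 2 * C0) ≤ (1 - b) * F j (u - j) :=
      mul_le_mul_of_nonneg_left h8 (by linarith)
    have h10 : e - e / 20 - 2 * C0 ≤ (1 - b) * (e - 2 * C0) := by nlinarith
    linarith
  have h6 := S.chainL j u T (e - e / 20 - 3 * C0) hui hTu.le (by omega) h5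
  -- upper bounds for the values at `T` and `u`
  have hup : ∀ p, p ≤ n → F j p ≤ X + X / 10 := by
    intro p hp
    have h7 := hV.sup hg hb0 (by linarith) hp le_rfl
    rw [← hX] at h7
    by_contra hcon
    push Not at hcon
    nlinarith
  have h7 := (abs_le.mp (hcmp (T - j) (by omega))).1
  rw [show j + (T - j) = T by omega] at h7
  have h8 := hup (T - j) (by omega)
  have h9 := hup (u - j) (by omega)
  have h10 := S.tri T u (by omega) (by omega)
  rw [S.symm T u] at h10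
  have h11 : Real.log (((T - u : ℕ) : ℝ) + 1) ≤ Real.log ((n : ℝ) + 1) := by
    apply Real.log_le_log (by positivity)
    have : ((T - u : ℕ) : ℝ) ≤ (n : ℝ) := by
      exact_mod_cast (show T - u ≤ n by omega)
    linarith
  have h12 : b / 3 * X ≤ X / 60 := by nlinarith
  linarith

/-- first violation of the duration clause -/
def LongV (L : ℕ) (b : ℝ) (c : ℕ → Prop) (P : ℕ → ℝ) (n : ℕ) : Prop :=
  L ≤ n ∧ c n ∧ Val L b c P (n - 1) ∧ ∀ i, L ≤ i → i ≤ n → b / 4 * P i < Real.log n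

/-- the first violation -/
theorem first_violation {L : ℕ} (hL : 1 ≤ L) {b : ℝ} (hb : 0 < b) (hb1 : b ≤ 1) {c : ℕ → Prop}
    {P : ℕ → ℝ} (hP : c L → 0 < P L)
    {n : ℕ} (hc : Anti c) (h : ¬ Val L b c P n) :
    (∃ m, m ≤ n ∧ ¬ c m) ∨ (∃ m, m ≤ n ∧ LongV L b c P m) ∨
      ∃ m p, m ≤ n ∧ L ≤ p ∧ p < m ∧ c m ∧ Val L b c P (m - 1) ∧ P m < (1 - b) * P p ∧
        ∀ q, L ≤ q → q < m → P q ≤ P p := by
  classical
  have hex : ∃ m, ¬ Val L b c P m := ⟨n, h⟩
  set m := Nat.find hex with hm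
  have hmn : m ≤ n := Nat.find_min' hex h
  have hnot : ¬ Val L b c P m := Nat.find_spec hex
  have hbefore : ∀ q, q < m → Val L b c P q := fun q hq => not_not.mp (Nat.find_min hex hq)
  by_cases hcm : c m
  swap
  · exact Or.inl ⟨m, hmn, hcm⟩
  right
  have hm1 : 1 ≤ m := by
    rcases Nat.eq_zero_or_pos m with h0 | h0
    · exfalso
      apply hnot
      rw [h0] at hcm ⊢
      exact ⟨hcm, fun i j h1 h2 h3 => by omega, fun j h1 h2 => by omega⟩
    · exact h0
  have hV := hbefore (m - 1) (by omega)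
  by_cases h3 : ∀ j, L ≤ j → j ≤ m → ∃ i, L ≤ i ∧ i ≤ j ∧ Real.log j ≤ b / 4 * P i
  · right
    have h2 : ¬ ∀ i j, L ≤ i → i ≤ j → j ≤ m → (1 - b) * P i ≤ P j :=
      fun h2 => hnot ⟨hcm, h2, h3⟩
    push Not at h2
    obtain ⟨i, j, hi, hij, hj, hlt⟩ := h2
    have hjm : j = m := by
      by_contra hne
      exact absurd (hV.2.1 i j hi hij (by omega)) (not_le.mpr hlt)
    subst hjm
    have hLm : L < m := by
      rcases eq_or_lt_of_le (hi.trans hij) with he | h5
      · exfalso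
        have hii : i = L := by omega
        rw [hii, ← he] at hlt
        have h6 := hP (hc _ _ (by omega) hcm)
        nlinarith
      · exact h5
    obtain ⟨p, hp, hpmax⟩ := Finset.exists_max_image (Finset.Ico L m) P
      ⟨L, Finset.mem_Ico.mpr ⟨le_rfl, hLm⟩⟩
    rw [Finset.mem_Ico] at hp
    have hPL := hpmax L (Finset.mem_Ico.mpr ⟨le_rfl, hLm⟩)
    have hPL0 := hP (hc _ _ hLm.le hcm)
    refine ⟨m, p, hmn, hp.1, hp.2, hcm, hV, ?_, fun q h5 h6 => hpmax q (Finset.mem_Ico.mpr ⟨h5, h6⟩)⟩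
    rcases Nat.lt_or_ge i m with h5 | h5
    · have h6 := hpmax i (Finset.mem_Ico.mpr ⟨hi, h5⟩)
      nlinarith
    · have : i = m := by omega
      rw [this] at hlt
      have h6 : P m < 0 := by nlinarith
      have h7 : 0 ≤ (1 - b) * P p := mul_nonneg (by linarith) (by linarith)
      linarith
  · left
    push Not at h3
    obtain ⟨j, hLj, hj, h4⟩ := h3
    have hjm : j = m := by
      by_contra hne
      obtain ⟨i, h5, h6, h7⟩ := hV.2.2 j hLj (by omega)
      exact absurd h7 (not_le.mpr (h4 i h5 h6))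
    subst hjm
    exact ⟨m, hmn, hLj, hcm, hV, fun i h5 h6 => h4 i h5 h6⟩

/-- **(5), right foot**: base violation, long duration, or a valley. -/
theorem valley_bwd (S : Sys N L κ J C0 A1 f d F G cF cB) (hC : CompB N L C0 b d G cB)
    (hb0 : 0 < b) (hb : b ≤ 1 / 20) (hA : 40 * (J + C0 + 1) ≤ A1)
    (hA2 : 40 * (J + C0 + 1) ≤ b * A1) {i j T : ℕ} {l : ℤ}
    (h : Cmp f κ N i j l) (h1 : i < T) (h2 : T < j)
    (hmax : ∀ m, i < m → m < j → f m ≤ f T)
    (hn : ¬ Val L b (cB j) (G j) (j - T)) :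
    (∃ m, m ≤ j - T ∧ ¬ cB j m) ∨ (∃ m, m ≤ j - T ∧ LongV L b (cB j) (G j) m) ∨
      ValR f κ (b / 2) (A1 / 4) T j l := by
  have hL1 := S.L1
  have hJ := S.Jnn
  have hC0 := S.Cnn
  have hlt := h.lt
  have hle := h.le
  by_cases hLj : L ≤ j
  swap
  · -- window shorter than `L`: only the digits can be violated
    left
    refine ⟨j - T, le_rfl, fun hc => hn ⟨hc, ?_, ?_⟩⟩
    · intro a c h3 h4 h5; omega
    · intro a h3 h4; omega
  have hA0 : 0 < A1 := by nlinarith
  rcases first_violation S.L1 hb0 (by linarith)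
    (fun hc => lt_of_lt_of_le hA0 (S.growB j hc hLj hle).2.1) (S.antiB j) hn with h3 | h3 | h3
  · exact Or.inl h3
  · exact Or.inr (Or.inl h3)
  right; right
  obtain ⟨n, p, hnT, hLp, hpn, hcn, hV, hviol, hpmax⟩ := h3
  have hg := S.growB j (S.antiB j _ _ (by omega) hcn) hLj hle
  have hcmp := hC j n (by omega) hV (by omega) hle
  set Dm := G j p with hDm
  have hDA : A1 ≤ Dm := hg.2.1.trans (hpmax L le_rfl (by omega))
  have hall : ∀ q, q ≤ n → G j q ≤ Dm := by
    intro q hq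
    rcases Nat.lt_or_ge q L with h4 | h4
    · exact (hg.2.2 q L h4.le le_rfl).trans (hpmax L le_rfl (by omega))
    · rcases Nat.lt_or_ge q n with h5 | h5
      · exact hpmax q h4 h5
      · have : q = n := by omega
        rw [this]
        nlinarith
  -- the time `m` of the violation and the time `m'` of the maximum
  have hm := (abs_le.mp (hcmp n le_rfl)).1
  have hfm : f (j - n) - l * κ ≤ (1 - b) * Dm + 2 * C0 := by
    have h4 := S.tri (j - n) j (by omega) hle
    rw [S.symm] at h4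
    have h5 := h.fj
    linarith
  have hm' := (abs_le.mp (hcmp p hpn.le)).2
  have hVp : Val L b (cB j) (G j) p := hV.mono (S.antiB j) (by omega)
  have hlog := hVp.log_le hg hb0.le hb S.L1 hLp
  rw [← hDm] at hlog hm'
  have hfm' : (1 - b / 3) * Dm - (2 * J + 2 * C0 + 1) ≤ f (j - p) - l * κ := by
    have h4 := S.chain (j - p) j ((l : ℝ) * κ - J) (by omega) hle
      (fun x hx1 hx2 => Cmp.low S h (by omega) hx2)
    rw [show j - (j - p) = p by omega, S.symm] at h4
    have h5 := h.fj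
    linarith
  -- the maximum of `f` on `[m, j)`
  obtain ⟨a, ha, hamax⟩ := Finset.exists_max_image (Finset.Ico (j - n) j) f
    ⟨j - n, Finset.mem_Ico.mpr ⟨le_rfl, by omega⟩⟩
  rw [Finset.mem_Ico] at ha
  have ham' := hamax (j - p) (Finset.mem_Ico.mpr ⟨by omega, by omega⟩)
  have hbD : b * Dm ≤ Dm / 20 := by nlinarith
  have hbD2 : 40 * (J + C0 + 1) ≤ b * Dm := by nlinarith
  have hTm : T < j - n := by
    rcases Nat.lt_or_ge T (j - n) with h4 | h4
    · exact h4
    · exfalso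
      have : j - n = T := by omega
      have h5 := hmax (j - p) (by omega) (by omega)
      rw [this] at hfm
      nlinarith
  have hE : f a - l * κ ≤ Dm + 2 * C0 := by
    have h4 := S.tri a j (by omega) hle
    rw [S.symm] at h4
    have h5 := (abs_le.mp (hcmp (j - a) (by omega))).1
    rw [show j - (j - a) = a by omega] at h5
    have h6 := hall (j - a) (by omega)
    have h7 := h.fj
    linarith
  refine ⟨j - n, a, hTm, ha.1, ha.2, fun x hx1 hx2 => hamax x (Finset.mem_Ico.mpr ⟨hx1, hx2⟩), ?_, ?_⟩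
  · linarith
  · have h4 : (b / 2) * (f a - l * κ) ≤ (b / 2) * (Dm + 2 * C0) :=
      mul_le_mul_of_nonneg_left hE (by linarith)
    have h5 : b * C0 ≤ C0 / 20 := by nlinarith
    nlinarith

/-- **(5), left foot**: base violation, long duration, or a valley. -/
theorem valley_fwd (S : Sys N L κ J C0 A1 f d F G cF cB) (hC : CompF N L C0 b d F cF)
    (hb0 : 0 < b) (hb : b ≤ 1 / 20) (hA : 40 * (J + C0 + 1) ≤ A1)
    (hA2 : 40 * (J + C0 + 1) ≤ b * A1) {i j T : ℕ} {l : ℤ}
    (h : Cmp f κ N i j l) (h1 : i < T) (h2 : T < j)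
    (hmax : ∀ m, i < m → m < j → f m ≤ f T)
    (hn : ¬ Val L b (cF i) (F i) (T - i)) :
    (∃ m, m ≤ T - i ∧ ¬ cF i m) ∨ (∃ m, m ≤ T - i ∧ LongV L b (cF i) (F i) m) ∨
      ValL f κ (b / 2) (A1 / 4) T i l := by
  have hJ := S.Jnn
  have hC0 := S.Cnn
  have hlt := h.lt
  have hle := h.le
  by_cases hLj : i + L ≤ N
  swap
  · left
    refine ⟨T - i, le_rfl, fun hc => hn ⟨hc, ?_, ?_⟩⟩
    · intro a c h3 h4 h5; omega
    · intro a h3 h4; omega
  have hA0 : 0 < A1 := by nlinarith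
  rcases first_violation S.L1 hb0 (by linarith)
    (fun hc => lt_of_lt_of_le hA0 (S.growF i hc hLj).2.1) (S.antiF i) hn with h3 | h3 | h3
  · exact Or.inl h3
  · exact Or.inr (Or.inl h3)
  right; right
  obtain ⟨n, p, hnT, hLp, hpn, hcn, hV, hviol, hpmax⟩ := h3
  have hg := S.growF i (S.antiF i _ _ (by omega) hcn) hLj
  have hcmp := hC i n (by omega) hV (by omega)
  set Dm := F i p with hDm
  have hDA : A1 ≤ Dm := hg.2.1.trans (hpmax L le_rfl (by omega))
  have hall : ∀ q, q ≤ n → F i q ≤ Dm := by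
    intro q hq
    rcases Nat.lt_or_ge q L with h4 | h4
    · exact (hg.2.2 q L h4.le le_rfl).trans (hpmax L le_rfl (by omega))
    · rcases Nat.lt_or_ge q n with h5 | h5
      · exact hpmax q h4 h5
      · have : q = n := by omega
        rw [this]
        nlinarith
  have hm := (abs_le.mp (hcmp n le_rfl)).1
  have hfm : f (i + n) - l * κ ≤ (1 - b) * Dm + 2 * C0 := by
    have h4 := S.tri (i + n) i (by omega) (by omega)
    rw [S.symm] at h4
    have h5 := h.fi
    linarith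
  have hm' := (abs_le.mp (hcmp p hpn.le)).2
  have hVp : Val L b (cF i) (F i) p := hV.mono (S.antiF i) (by omega)
  have hlog := hVp.log_le hg hb0.le hb S.L1 hLp
  rw [← hDm] at hlog hm'
  have hfm' : (1 - b / 3) * Dm - (2 * J + 2 * C0 + 1) ≤ f (i + p) - l * κ := by
    have h4 := S.chain i (i + p) ((l : ℝ) * κ - J) (by omega) (by omega)
      (fun x hx1 hx2 => Cmp.low S h hx1 (by omega))
    rw [show i + p - i = p by omega] at h4
    have h5 := h.fi
    linarith
  obtain ⟨a, ha, hamax⟩ := Finset.exists_max_image (Finset.Ioc i (i + n)) f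
    ⟨i + n, Finset.mem_Ioc.mpr ⟨by omega, le_rfl⟩⟩
  rw [Finset.mem_Ioc] at ha
  have ham' := hamax (i + p) (Finset.mem_Ioc.mpr ⟨by have := S.L1; omega, by omega⟩)
  have hbD : b * Dm ≤ Dm / 20 := by nlinarith
  have hbD2 : 40 * (J + C0 + 1) ≤ b * Dm := by nlinarith
  have hTm : i + n < T := by
    rcases Nat.lt_or_ge (i + n) T with h4 | h4
    · exact h4
    · exfalso
      have : i + n = T := by omega
      have h5 := hmax (i + p) (by have := S.L1; omega) (by omega)
      rw [this] at hfm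
      nlinarith
  have hE : f a - l * κ ≤ Dm + 2 * C0 := by
    have h4 := S.tri a i (by omega) (by omega)
    rw [S.symm] at h4
    have h5 := (abs_le.mp (hcmp (a - i) (by omega))).1
    rw [show i + (a - i) = a by omega] at h5
    have h6 := hall (a - i) (by omega)
    have h7 := h.fi
    linarith
  refine ⟨i + n, a, hTm, ha.2, ha.1, fun x hx1 hx2 => hamax x (Finset.mem_Ioc.mpr ⟨hx1, hx2⟩), ?_, ?_⟩
  · linarith
  · have h4 : (b / 2) * (f a - l * κ) ≤ (b / 2) * (Dm + 2 * C0) :=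
      mul_le_mul_of_nonneg_left hE (by linarith)
    have h5 : b * C0 ≤ C0 / 20 := by nlinarith
    nlinarith

/-- doubly covered times -/
def Dbl (N L : ℕ) (b : ℝ) (F G : ℕ → ℕ → ℝ) (cF cB : ℕ → ℕ → Prop) (v : ℕ) : Prop :=
  ¬ Val L b (cF v) (F v) (N - v) ∧ ¬ Val L b (cB v) (G v) v

/-- base violations -/
def Base (N L : ℕ) (b : ℝ) (F G : ℕ → ℕ → ℝ) (cF cB : ℕ → ℕ → Prop) (v : ℕ) : Prop :=
  (∃ m, v + m ≤ N ∧ (¬ cF v m ∨ LongV L b (cF v) (F v) m)) ∨
    ∃ m, m ≤ v ∧ (¬ cB v m ∨ LongV L b (cB v) (G v) m)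

/-- **V1, abstract form** (`b` for freshness, `b₄` for the double cover). -/
theorem v1_abs {b₄ : ℝ} (S : Sys N L κ J C0 A1 f d F G cF cB) (hCF : CompF N L C0 b d F cF)
    (hCB : CompB N L C0 b d G cB) (hCF4 : CompF N L C0 b₄ d F cF)
    (hCB4 : CompB N L C0 b₄ d G cB) (hb0 : 0 < b) (hb : b ≤ 1 / 20) (hb40 : 0 ≤ b₄)
    (hb4 : b₄ ≤ 1 / 20)
    (hA : 40 * (J + C0 + 1) ≤ A1) (hA2 : 40 * (J + C0 + 1) ≤ b * A1) (hA3 : 32 * κ ≤ b * A1)
    (B : ℕ → Prop) [DecidablePred B] (hB : ∀ v, v ≤ N → Base N L b F G cF cB v → B v)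
    [DecidablePred (Dbl N L b₄ F G cF cB)]
    (S' : Finset (ℕ × ℕ × ℤ))
    (hS : ∀ c ∈ S', Cmp f κ N c.1 c.2.1 c.2.2 ∧ (B c.1 ∨ B c.2.1 ∨ ∃ T, c.1 < T ∧ T < c.2.1 ∧
      (∀ m, c.1 < m → m < c.2.1 → f m ≤ f T) ∧
      (¬ Val L b (cF c.1) (F c.1) (T - c.1) ∨ ¬ Val L b (cB c.2.1) (G c.2.1) (c.2.1 - T)))) :
    (S'.card : ℝ) ≤ 2 * (J / κ + 1) * ((range (N + 1)).filter B).card +
      2 * (4 / (b / 2) + 2) * (J / κ + 1) *
        ((range (N + 1)).filter (Dbl N L b₄ F G cF cB)).card := by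
  classical
  set M := ∑ m ∈ range (N + 1), |f m| with hM
  have hfM : ∀ m, m ≤ N → |f m| ≤ M := fun m hm =>
    Finset.single_le_sum (f := fun m => |f m|) (fun i _ => abs_nonneg _)
      (Finset.mem_range.mpr (by omega))
  refine charge (H := 2 * M) S.κpos S.step (by linarith) (D := A1 / 4) (by linarith) _ _ ?_ ?_ S' ?_
  · intro i j l hn
    have hle := hn.1.le
    have hlt := hn.1.lt
    refine ⟨fun hV => ?_, fun hV => ?_⟩
    · exact foot_fwd S hCF4 hb40 hb4 hA hn.1 (hV.mono (S.antiF i) (by omega))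
    · obtain ⟨s, T, u, l', h1, h2, h3, h4, h5, h6, h7, h8, h9, h10, h11, h12, h13⟩ := left_data S hn
      exact nestL_bwd S hCB4 hb40 hb4 hA (by omega) h1 h2 h3 h7 h8 h9 h10 h11 h12
        (hV.mono (S.antiB i) (by omega))
  · intro i j l hn
    have hle := hn.1.le
    have hlt := hn.1.lt
    refine ⟨fun hV => ?_, fun hV => ?_⟩
    · obtain ⟨s, T, u, h1, h2, h3, h4, h5, h6, h7, h8, h9, h10⟩ := right_data S hn
      exact nestR_fwd S hCF4 hb40 hb4 hA h2 h1 h3 h4 h5 h6 h7 h8 h9 h10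
        (hV.mono (S.antiF j) (by omega))
    · exact foot_bwd S hCB4 hb40 hb4 hA hn.1 (hV.mono (S.antiB j) (by omega))
  · intro c hc
    obtain ⟨hC, h0⟩ := hS c hc
    have hle := hC.le
    have hlt := hC.lt
    refine ⟨hC, ?_⟩
    rcases h0 with h0 | h0 | ⟨T, h1, h2, h3, h4⟩
    · exact Or.inl h0
    · exact Or.inr (Or.inl h0)
    have hH : f T - c.2.2 * κ ≤ 2 * M := by
      have h5 := (le_abs_self (f T)).trans (hfM T (by omega))
      have h6 := (neg_le_of_abs_le (hfM c.1 (by omega)))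
      have h7 := hC.fi
      linarith
    rcases h4 with h4 | h4
    · rcases valley_fwd S hCF hb0 hb hA hA2 hC h1 h2 h3 h4 with ⟨m, h5, h6⟩ | ⟨m, h5, h6⟩ | h5
      · exact Or.inl (hB _ (by omega) (Or.inl ⟨m, by omega, Or.inl h6⟩))
      · exact Or.inl (hB _ (by omega) (Or.inl ⟨m, by omega, Or.inr h6⟩))
      · exact Or.inr (Or.inr ⟨T, h1, h2, h3, hH, Or.inl h5⟩)
    · rcases valley_bwd S hCB hb0 hb hA hA2 hC h1 h2 h3 h4 with ⟨m, h5, h6⟩ | ⟨m, h5, h6⟩ | h5
      · exact Or.inr (Or.inl (hB _ hle (Or.inr ⟨m, by omega, Or.inl h6⟩)))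
      · exact Or.inr (Or.inl (hB _ hle (Or.inr ⟨m, by omega, Or.inr h6⟩)))
      · exact Or.inr (Or.inr ⟨T, h1, h2, h3, hH, Or.inr h5⟩)

end Crest.Agent.R128.V1Two
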