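import Mathlib
import Crest.Agent.R128.V1Two
import Crest.Agent.R128.NestedInst
import Crest.Agent.R128.ValNorm
import Crest.Agent.R128.TopCrit
import Crest.Agent.R128.Skel

/-!
Row 128, V1 (helper434): the concrete instance of `V1Two.Sys` for the standard map and
`Skel.V1`.
-/

set_option autoImplicit false

open Crest.AnalysisR.StandardFamily
open scoped Matrix.Norms.L2Operator

namespace Crest.Agent.R128.V1Inst

open Finset Crest.Agent.R128.Acc Crest.Agent.R128.NestedInst Crest.Agent.R128.Contour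
  Crest.Agent.R128.V1Two Crest.Agent.R128.Two Crest.Agent.R128.Lam0

/-- dyadic length -/
theorem exists_dyadic (p : ℕ) : ∃ n : ℕ, p ≤ 2 ^ n ∧
    (n : ℝ) * Real.log 2 ≤ Real.log ((p : ℝ) + 1) + Real.log 2 := by
  rcases Nat.eq_zero_or_pos p with h0 | h0
  · subst h0
    refine ⟨0, by norm_num, ?_⟩
    have := Real.log_nonneg (one_le_two (α := ℝ))
    simp [this]
  · refine ⟨Nat.log 2 p + 1, (Nat.lt_pow_succ_log_self (by norm_num) p).le, ?_⟩
    have h1 : 2 ^ Nat.log 2 p ≤ p := Nat.pow_log_le_self 2 (by omega)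
    have h2 : ((2:ℝ) ^ Nat.log 2 p) ≤ (p : ℝ) + 1 := by
      have : ((2 ^ Nat.log 2 p : ℕ) : ℝ) ≤ (p : ℝ) := by exact_mod_cast h1
      push_cast at this
      linarith
    have h3 := Real.log_le_log (by positivity) h2
    rw [Real.log_pow] at h3
    push_cast
    linarith

/-- chain inequality rooted at any time -/
theorem chain_any {k : ℝ} (hk : 0 ≤ k) (z : Tor) (r : ℤ) {m n : ℕ} {μ : ℝ} (hmn : m ≤ n)
    (h : ∀ x : ℕ, m ≤ x → x ≤ n → μ ≤ dd k z r x) :
    dd k z m n ≤ dd k z r m + dd k z r n - 2 * μ + (2 * Bk k + Real.log 2) +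
      Real.log (((n - m : ℕ) : ℝ) + 1) := by
  have hB := log_two_le_Bk hk
  rcases eq_or_lt_of_le hmn with rfl | hlt
  · have h1 := h m le_rfl le_rfl
    rw [(dd_hyp k z).self]
    have h2 := Real.log_nonneg (one_le_two (α := ℝ))
    simp only [Nat.sub_self, Nat.cast_zero, zero_add, Real.log_one]
    linarith [hB.1]
  · obtain ⟨p, hp1, hp2⟩ := exists_dyadic (n - m)
    have h1 := gp_of_path (dd_hyp k z) (dd_step hk z) r (m:ℤ) (n:ℤ) p (by exact_mod_cast hlt) (by
      have h3 : ((n - m : ℕ) : ℤ) ≤ ((2 ^ p : ℕ) : ℤ) := by exact_mod_cast hp1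
      have h4 : ((n - m : ℕ) : ℤ) = (n:ℤ) - m := by omega
      push_cast at h3
      omega) μ (by
      intro x hx1 hx2
      left
      obtain ⟨y, rfl⟩ : ∃ y : ℕ, (y:ℤ) = x := ⟨x.toNat, Int.toNat_of_nonneg (by omega)⟩
      exact h y (by exact_mod_cast hx1) (by exact_mod_cast hx2.le))
    have h2 := d_eq (dd_hyp k z) r (m:ℤ) (n:ℤ)
    have h3 : 2 * ((p:ℝ) * (Real.log 2 / 2)) = p * Real.log 2 := by ring
    rw [h2]
    linarith

theorem near0 (k : ℝ) (z : Tor) (n : ℕ) : |bt (rr k z) n - dd k z 0 n| ≤ Real.log 2 := by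
  have h := near_bt k n z
  rwa [← dd_nat] at h

/-- the forward digits -/
def cF (k : ℝ) (L0 : ℕ) (z : Tor) (v n : ℕ) : Prop :=
  ∀ m, m < L0 → m < n → k ^ ((2 : ℝ) / 3) ≤ |V k ((T k)^[m] ((T k)^[v] z)).2|

/-- the backward digits -/
def cB (k : ℝ) (L0 : ℕ) (z : Tor) (v n : ℕ) : Prop :=
  ∀ m, m < L0 → m < n → k ^ ((2 : ℝ) / 3) ≤ |V k ((T k)^[m] ((T k)^[v] z).swap).2|

/-- forward profile -/
noncomputable def FF (k : ℝ) (z : Tor) (v m : ℕ) : ℝ := Real.log ‖fld k ((T k)^[v] z) m‖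

/-- backward profile -/
noncomputable def GG (k : ℝ) (z : Tor) (v m : ℕ) : ℝ := Real.log ‖fld k ((T k)^[v] z).swap m‖

theorem Tinv_iter (k : ℝ) (m n : ℕ) (z : Tor) : (Tinv k)^[m] ((T k)^[m + n] z) = (T k)^[n] z := by
  induction m with
  | zero => simp
  | succ m ih =>
    rw [show m + 1 + n = (m + n) + 1 by ring, Function.iterate_succ_apply' (T k),
      Function.iterate_succ_apply, Tinv_T, ih]

theorem swap_digit (k : ℝ) (z : Tor) {v m : ℕ} (h : m < v) :
    ((T k)^[m] ((T k)^[v] z).swap).2 = ((T k)^[v - 1 - m] z).2 := by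
  rw [ValNorm.T_iter_swap]
  obtain ⟨n, rfl⟩ : ∃ n, v = m + (n + 1) := ⟨v - m - 1, by omega⟩
  rw [Tinv_iter, show m + (n + 1) - 1 - m = n by omega, Function.iterate_succ_apply']
  rfl

theorem nm_eq_exp (k : ℝ) (n : ℕ) (z : Tor) : Real.log (nm k n z) = bt (rr k z) n := rfl

/-- norm of the cocycle and distance, forward -/
theorem nm_dd (k : ℝ) (z : Tor) (v n : ℕ) :
    |Real.log (nm k n ((T k)^[v] z)) - dd k z v (v + n : ℕ)| ≤ Real.log 2 := by
  have h1 := near_bt k n ((T k)^[v] z)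
  have h2 := dd_fwd k z v n
  rw [Tz_natCast] at h2
  push_cast
  rw [h2]
  exact h1

theorem nm_dd_back (k : ℝ) (z : Tor) {v n : ℕ} (h : n ≤ v) :
    |Real.log (nm k n ((Tinv k)^[n] ((T k)^[v] z))) - dd k z v (v - n : ℕ)| ≤ Real.log 2 := by
  obtain ⟨m, rfl⟩ : ∃ m, v = n + m := ⟨v - n, by omega⟩
  rw [Tinv_iter, (dd_hyp k z).symm, show n + m - n = m by omega, add_comm n m]
  exact nm_dd k z m n

/-- validity gives `ValD` -/
theorem toValD {k : ℝ} {L n : ℕ} {b : ℝ} {y : Tor} (hL : L ≤ n) {c : ℕ → Prop}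
    (hc : c n → ∀ m, m < L → m < n → k ^ ((2 : ℝ) / 3) ≤ |V k ((T k)^[m] y).2|)
    (hpos : ∀ m, 0 < ‖fld k y m‖)
    (h : V1Two.Val L b c (fun m => Real.log ‖fld k y m‖) n) : ValNorm.ValD k b L n y where
  c1 := fun m hm => hc h.1 m hm (lt_of_lt_of_le hm hL)
  c2 := by
    intro i j hi hij hj
    have h1 := h.2.1 i j hi hij hj
    unfold ValNorm.W
    rw [← Real.log_le_log_iff (Real.rpow_pos_of_pos (hpos i) _) (hpos j), Real.log_rpow (hpos i)]
    exact h1
  c3 := by
    intro j hLj hj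
    obtain ⟨i, -, hi, hlog⟩ := h.2.2 j hLj hj
    refine ⟨i, hi, ?_⟩
    unfold ValNorm.W
    rcases Nat.eq_zero_or_pos j with h0 | h0
    · rw [h0]; push_cast
      exact (Real.rpow_pos_of_pos (hpos i) _).le
    · have hj0 : (0:ℝ) < j := by exact_mod_cast h0
      rw [← Real.log_le_log_iff hj0 (Real.rpow_pos_of_pos (hpos i) _), Real.log_rpow (hpos i)]
      exact hlog

theorem fld_pos (k : ℝ) (y : Tor) (m : ℕ) : 0 < ‖fld k y m‖ := by
  rw [norm_pos_iff]
  intro h
  have h1 : ∀ m, fld k y m ≠ 0 := by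
    intro m
    induction m with
    | zero =>
      rw [fld_zero]
      intro h
      have := congrArg Prod.snd h
      norm_num at this
    | succ m ih =>
      rw [fld_succ]
      intro h
      apply ih
      have h2 := congrArg Prod.fst h
      have h3 := congrArg Prod.snd h
      unfold TreeSum.stp at h2 h3
      simp only [Prod.fst_zero, Prod.snd_zero] at h2 h3
      rw [h2] at h3
      ext
      · simp only [Prod.fst_zero]; linarith
      · exact h2
  exact h1 m h

/-- comparability of the field and of the operator norm on a valid piece -/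
theorem comp_field {k b : ℝ} {L n : ℕ} {y : Tor} (hk : 100 ≤ k) (hL : 10 ≤ L) (hb0 : 0 < b)
    (hb : b ≤ 1 / 4) (h : ValNorm.ValD k b L (n - 1) y) {m : ℕ} (hm : m ≤ n) :
    |Real.log ‖fld k y m‖ - Real.log (nm k m y)| ≤ Real.log 16 := by
  have h1 := ValNorm.W_le_nm k y m
  have h2 := h.nm_le hk hL hb0 hb (m := m) (by omega)
  unfold ValNorm.W at h1 h2
  have hp := fld_pos k y m
  have h3 := Real.log_le_log hp h1
  have h4 := Real.log_le_log (nm_pos k m y) h2
  rw [Real.log_mul (by norm_num) hp.ne'] at h4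
  have h5 : 0 ≤ Real.log 16 := Real.log_nonneg (by norm_num)
  rw [abs_le]
  constructor <;> linarith

theorem compF {k b : ℝ} {L N : ℕ} (hk : 100 ≤ k) (hL : 10 ≤ L) (hb0 : 0 < b) (hb : b ≤ 1 / 4)
    (z : Tor) {C0 : ℝ} (hC : Real.log 16 + 2 * Real.log 2 ≤ C0) :
    CompF N L C0 b (fun m n => dd k z m n) (FF k z) (cF k L z) := by
  intro v n hLn hV hvn m hm
  have hD : ValNorm.ValD k b L (n - 1) ((T k)^[v] z) :=
    toValD (by omega) (fun hc => hc) (fld_pos k _) hV
  have h1 := comp_field hk hL hb0 hb hD hm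
  have h2 := nm_dd k z v m
  have h3 := Real.log_nonneg (one_le_two (α := ℝ))
  unfold FF
  rw [abs_le] at h1 h2 ⊢
  constructor <;> linarith [h1.1, h1.2, h2.1, h2.2]

theorem compB {k b : ℝ} {L N : ℕ} (hk : 100 ≤ k) (hL : 10 ≤ L) (hb0 : 0 < b) (hb : b ≤ 1 / 4)
    (z : Tor) {C0 : ℝ} (hC : Real.log 16 + 2 * Real.log 2 ≤ C0) :
    CompB N L C0 b (fun m n => dd k z m n) (GG k z) (cB k L z) := by
  intro v n hLn hV hvn hvN m hm
  have hD : ValNorm.ValD k b L (n - 1) ((T k)^[v] z).swap :=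
    toValD (by omega) (fun hc => hc) (fld_pos k _) hV
  have h1 := comp_field hk hL hb0 hb hD hm
  have h2 := nm_dd_back k z (v := v) (n := m) (by omega)
  have h4 := ValNorm.nm_swap_le k m ((T k)^[v] z)
  have h5 := ValNorm.le_nm_swap k m ((T k)^[v] z)
  have h6 := Real.log_le_log (nm_pos _ _ _) h4
  have h7 := Real.log_le_log (nm_pos _ _ _) h5
  rw [Real.log_mul (by norm_num) (nm_pos _ _ _).ne'] at h6 h7
  unfold GG
  rw [abs_le] at h1 h2 ⊢
  constructor <;> linarith [h1.1, h1.2, h2.1, h2.2]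

/-- growth on the clean start -/
theorem grow {k : ℝ} {L : ℕ} {y : Tor} (hk : 100 ≤ k)
    (hc : ∀ m, m < L → k ^ ((2 : ℝ) / 3) ≤ |V k ((T k)^[m] y).2|) :
    Grow L ((L : ℝ) * (Real.log k / 2)) (fun m => Real.log ‖fld k y m‖) := by
  have hk0 : 0 < k := by linarith
  have h3 : (3:ℝ) ≤ k ^ ((2 : ℝ) / 3) := ValNorm.ValD.three hk
  have h4 := ValNorm.beta_ge hk
  have h10 := ValNorm.ten_le hk
  refine ⟨?_, ?_, ?_⟩
  · show 0 ≤ Real.log ‖fld k y 0‖
    rw [fld_zero]
    simp [Prod.norm_def]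
  · have h1 := ValNorm.W_pow h3 hc (m := L) le_rfl
    unfold ValNorm.W at h1
    have h2 : (k ^ ((1:ℝ)/2)) ^ L ≤ (k ^ ((2 : ℝ) / 3) - 1 / 2) ^ L :=
      pow_le_pow_left₀ (by linarith) (by linarith) L
    have h5 := Real.log_le_log (by positivity) (h2.trans h1)
    rw [Real.log_pow, Real.log_rpow hk0] at h5
    calc (L : ℝ) * (Real.log k / 2) = L * (1 / 2 * Real.log k) := by ring
      _ ≤ _ := h5
  · intro i i' hii hiL
    have h1 := ValNorm.W_mono h3 hc hii hiL
    unfold ValNorm.W at h1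
    have h2 : (1:ℝ) ≤ (k ^ ((2 : ℝ) / 3) - 1 / 2) ^ (i' - i) := one_le_pow₀ (by linarith)
    have h5 : ‖fld k y i‖ ≤ ‖fld k y i'‖ := by
      have := norm_nonneg (fld k y i)
      nlinarith
    exact Real.log_le_log (fld_pos k y i) h5

/-- **the instance** -/
theorem sys {k : ℝ} {L N : ℕ} (hk : 100 ≤ k) (hL : 10 ≤ L) (z : Tor) :
    Sys N L (Real.log k) (Bk k + 2 * Real.log 2) (2 * Bk k + 9 * Real.log 2)
      ((L : ℝ) * (Real.log k / 2)) (bt (rr k z)) (fun m n => dd k z m n) (FF k z) (GG k z)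
      (cF k L z) (cB k L z) := by
  have hk0 : 0 ≤ k := by linarith
  have hB := log_two_le_Bk hk0
  have hl2 := Real.log_nonneg (one_le_two (α := ℝ))
  have hlk : 0 < Real.log k := Real.log_pos (by linarith)
  have h23 : (3:ℝ) ≤ k ^ ((2 : ℝ) / 3) := ValNorm.ValD.three hk
  refine ⟨hlk, by omega, by linarith, by linarith, by positivity, ?_, ?_, ?_, ?_, ?_, ?_, ?_, ?_,
    ?_, ?_, ?_, ?_⟩
  · -- step
    intro n
    have h1 := abs_le.mp (near0 k z n)
    have h2 := abs_le.mp (near0 k z (n + 1))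
    have h3 := (dd_hyp k z).tri 0 n (n + 1)
    have h4 := (dd_hyp k z).tri 0 (n + 1) n
    have h5 := dd_step hk0 z n
    have h6 := (dd_hyp k z).symm n (n + 1)
    push_cast at h2
    rw [abs_le]
    constructor <;> linarith [h1.1, h1.2, h2.1, h2.2]
  · -- tri
    intro m n _ _
    have h1 := abs_le.mp (near0 k z m)
    have h2 := abs_le.mp (near0 k z n)
    have h3 := (dd_hyp k z).tri 0 n m
    have h4 := (dd_hyp k z).symm n m
    linarith [h1.1, h1.2, h2.1, h2.2, hB.1]
  · -- symm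
    intro m n
    exact (dd_hyp k z).symm m n
  · -- chain
    intro m n μ hmn _ h
    have h1 := chain_any hk0 z 0 (μ := μ - Real.log 2) hmn (fun x hx1 hx2 => by
      have := abs_le.mp (near0 k z x)
      linarith [h x hx1 hx2, this.1, this.2])
    have h2 := abs_le.mp (near0 k z m)
    have h3 := abs_le.mp (near0 k z n)
    linarith [h2.1, h2.2, h3.1, h3.2]
  · intro v m n μ hmn _ _ h
    have h1 := chain_any hk0 z v (μ := μ) hmn h
    linarith
  · intro v m n μ _ hmn _ h
    have h1 := chain_any hk0 z v (μ := μ) hmn h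
    linarith
  · intro v m n hmn h a h1 h2
    exact h a h1 (by omega)
  · intro v m n hmn h a h1 h2
    exact h a h1 (by omega)
  · -- maxF
    intro v a n hc h1 h2 h3 h4 h5 h6
    rcases TopCrit.topcrit_seq (D := dg k z) (rr_pos k z) (rr_h1 k z) (t := a) (by omega) h5 h6
      with h7 | ⟨-, h7⟩
    · have h8 := hc (a - v) (by omega) (by omega)
      rw [← Function.iterate_add_apply, show a - v + v = a by omega] at h8
      unfold dg at h7
      linarith
    · have h8 := hc (a - 1 - v) (by omega) (by omega)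
      rw [← Function.iterate_add_apply, show a - 1 - v + v = a - 1 by omega] at h8
      unfold dg at h7
      linarith
  · -- maxB
    intro v a n hc h1 h2 h3 h4 h0 h5 h6
    rcases TopCrit.topcrit_seq (D := dg k z) (rr_pos k z) (rr_h1 k z) (t := a) (by omega) h5 h6
      with h7 | ⟨-, h7⟩
    · have h8 := hc (v - 1 - a) (by omega) (by omega)
      rw [swap_digit k z (by omega), show v - 1 - (v - 1 - a) = a by omega] at h8
      unfold dg at h7
      linarith
    · have h8 := hc (v - a) (by omega) (by omega)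
      rw [swap_digit k z (by omega), show v - 1 - (v - a) = a - 1 by omega] at h8
      unfold dg at h7
      linarith
  · intro v hc _
    exact grow hk (fun m hm => hc m hm hm)
  · intro v hc _ _
    exact grow hk (fun m hm => hc m hm hm)

/-! ### conversions between `Skel.Val` and the abstract validity -/

theorem pow_of_log {a b : ℝ} (ha : 0 < a) (hb : 0 < b) {m n : ℕ}
    (h : (m : ℝ) * Real.log a ≤ n * Real.log b) : a ^ m ≤ b ^ n := by
  rw [← Real.log_le_log_iff (by positivity) (by positivity), Real.log_pow, Real.log_pow]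
  exact h

theorem log_of_pow {a b : ℝ} (ha : 0 < a) {m n : ℕ} (h : a ^ m ≤ b ^ n) :
    (m : ℝ) * Real.log a ≤ n * Real.log b := by
  have := Real.log_le_log (by positivity) h
  rwa [Real.log_pow, Real.log_pow] at this

/-- digits up to `L` are regular -/
theorem not_C1 {k : ℝ} {L : ℕ} {y : Tor} (h : y ∉ Skel.C1 k L) {m : ℕ} (hm : m < L) :
    k ^ ((2 : ℝ) / 3) ≤ |V k ((T k)^[m] y).2| := by
  by_contra hcon
  exact h ⟨m, hm, not_le.mp hcon⟩

section conv

variable {k : ℝ} {L : ℕ} {y : Tor}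

theorem big_1000 (hk : 100 ≤ k) (hL : 1000 ≤ L) (hy : y ∉ Skel.C1 k L) :
    k ^ 500 ≤ ‖fld k y 1000‖ := by
  have hk0 : 0 < k := by linarith
  have h3 : (3:ℝ) ≤ k ^ ((2 : ℝ) / 3) := ValNorm.ValD.three hk
  have h4 := ValNorm.beta_ge hk
  have h10 := ValNorm.ten_le hk
  have h1 := ValNorm.W_pow (m := 1000) h3 (fun m hm => not_C1 hy hm) hL
  unfold ValNorm.W at h1
  have h2 : (k ^ ((1:ℝ)/2)) ^ 1000 ≤ (k ^ ((2 : ℝ) / 3) - 1 / 2) ^ 1000 :=
    pow_le_pow_left₀ (by linarith) (by linarith) 1000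
  refine le_trans (le_of_eq ?_) (h2.trans h1)
  rw [← Real.rpow_natCast (k ^ ((1:ℝ)/2)) 1000, ← Real.rpow_mul hk0.le, ← Real.rpow_natCast k 500]
  norm_num

theorem pow_L_le (hk : (L : ℝ) ^ 8 ≤ k) (hk1 : 100 ≤ k) (hL : 1000 ≤ L) (hy : y ∉ Skel.C1 k L)
    {j : ℕ} (hj : j ≤ L) : (j : ℝ) ^ 4000 ≤ ‖fld k y 1000‖ := by
  refine le_trans ?_ (big_1000 hk1 hL hy)
  calc (j : ℝ) ^ 4000 ≤ (L : ℝ) ^ 4000 := pow_le_pow_left₀ (by positivity) (by exact_mod_cast hj) _
    _ = ((L : ℝ) ^ 8) ^ 500 := by rw [← pow_mul]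
    _ ≤ k ^ 500 := pow_le_pow_left₀ (by positivity) hk _

theorem fld_log_nonneg (hk : 100 ≤ k) (hy : y ∉ Skel.C1 k L) {n : ℕ} {b : ℝ} (hb0 : 0 ≤ b)
    (hb : b ≤ 1 / 20) {c : ℕ → Prop}
    (h : V1Two.Val L b c (fun m => Real.log ‖fld k y m‖) n) {i : ℕ} (hi : i ≤ n) :
    0 ≤ Real.log ‖fld k y i‖ := by
  have hg := grow hk (fun m hm => not_C1 hy hm)
  have h1 := h.sup hg hb0 (by linarith) (Nat.zero_le i) hi
  have h2 := hg.1
  simp only at h1 h2
  nlinarith

/-- abstract validity and regular digits give `Skel.Val` -/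
theorem toSkel (hk : (L : ℝ) ^ 8 ≤ k) (hk1 : 100 ≤ k) (hL : 1000 ≤ L) (hy : y ∉ Skel.C1 k L)
    {n : ℕ} {c : ℕ → Prop}
    (h : V1Two.Val L (1 / 1000) c (fun m => Real.log ‖fld k y m‖) n) :
    Skel.Val k 1000 L y n where
  cl := fun m hm _ => not_C1 hy hm
  v2 := by
    intro i j hi hij hj
    have hg := grow hk1 (fun m hm => not_C1 hy hm)
    have h1 := h.sup hg (by norm_num) (by norm_num) hij hj
    apply pow_of_log (fld_pos k y i) (fld_pos k y j)
    push_cast
    linarith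
  v3 := by
    intro j hj1 hj
    rcases Nat.lt_or_ge j L with hjL | hjL
    · exact ⟨1000, le_rfl, hj1, pow_L_le hk hk1 hL hy hjL.le⟩
    · obtain ⟨i, hLi, hij, hlog⟩ := h.2.2 j hjL hj
      refine ⟨i, hL.trans hLi, hij, ?_⟩
      have hj0 : (0:ℝ) < j := by
        exact_mod_cast (show 0 < j by omega)
      have h2 : ((4 * 1000 : ℕ) : ℝ) * Real.log j ≤ ((1 : ℕ) : ℝ) * Real.log ‖fld k y i‖ := by
        push_cast
        linarith
      have h3 := pow_of_log hj0 (fld_pos k y i) h2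
      rwa [pow_one] at h3

/-- `Skel.Val` gives abstract validity -/
theorem ofSkel (hk1 : 100 ≤ k) (hL : 1000 ≤ L) (hy : y ∉ Skel.C1 k L)
    {n : ℕ} {c : ℕ → Prop}
    (hc : (∀ m, m < L → m < n → k ^ ((2 : ℝ) / 3) ≤ |V k ((T k)^[m] y).2|) → c n)
    (h : Skel.Val k 100 L y n) :
    V1Two.Val L (1 / 100) c (fun m => Real.log ‖fld k y m‖) n := by
  refine ⟨hc h.cl, ?_, ?_⟩
  · intro i j hi hij hj
    have h1 := log_of_pow (fld_pos k y i) (h.v2 i j (hL.trans hi) hij hj)
    push_cast at h1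
    show (1 - 1 / 100) * Real.log ‖fld k y i‖ ≤ Real.log ‖fld k y j‖
    linarith
  · intro j hLj hj
    obtain ⟨i, hi1, hij, hpow⟩ := h.v3 j (hL.trans hLj) hj
    have hj0 : (0:ℝ) < j := by
      exact_mod_cast (show 0 < j by omega)
    have h1 : (400 : ℝ) * Real.log j ≤ Real.log ‖fld k y i‖ := by
      have := Real.log_le_log (by positivity) hpow
      rw [Real.log_pow] at this
      push_cast at this
      linarith
    rcases Nat.lt_or_ge i L with hiL | hiL
    · have hg := grow hk1 (fun m hm => not_C1 hy hm)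
      have h2 := hg.2.2 i L hiL.le le_rfl
      simp only at h2
      refine ⟨L, le_rfl, hLj, ?_⟩
      show Real.log j ≤ 1 / 100 / 4 * Real.log ‖fld k y L‖
      linarith
    · refine ⟨i, hiL, hij, ?_⟩
      show Real.log j ≤ 1 / 100 / 4 * Real.log ‖fld k y i‖
      linarith

/-- first duration violation -/
theorem long_mem (hk : (L : ℝ) ^ 8 ≤ k) (hk1 : 100 ≤ k) (hL : 1000000 ≤ L)
    {n : ℕ} {c : ℕ → Prop}
    (h : V1Two.LongV L (1 / 1000) c (fun m => Real.log ‖fld k y m‖) n) :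
    y ∈ Skel.C1 k L ∨ y ∈ Skel.LG k L := by
  by_cases hy : y ∈ Skel.C1 k L
  · exact Or.inl hy
  right
  obtain ⟨hLn, hcn, hV, hsmall⟩ := h
  have hg := grow hk1 (fun m hm => not_C1 hy hm)
  have hL0 : (1:ℝ) ≤ L := by
    have : (1000000:ℝ) ≤ L := by exact_mod_cast hL
    linarith
  have hn0 : (0:ℝ) < n := by exact_mod_cast (show 0 < n by omega)
  have hLlt : L < n := by
    rcases eq_or_lt_of_le hLn with he | h1
    · exfalso
      have h2 := hsmall L le_rfl hLn
      have h3 := hg.2.1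
      simp only at h2 h3
      rw [← he] at h2
      have h4 : 8 * Real.log L ≤ Real.log k := by
        have := Real.log_le_log (by positivity) hk
        rw [Real.log_pow] at this
        push_cast at this
        exact this
      have h5 : 0 ≤ Real.log L := Real.log_nonneg hL0
      have h6 : (1000000:ℝ) ≤ L := by exact_mod_cast hL
      have h7 : (1000000:ℝ) * (Real.log k / 2) ≤ L * (Real.log k / 2) :=
        mul_le_mul_of_nonneg_right h6 (by linarith)
      linarith
    · exact h1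
  have hup : ∀ i, L ≤ i → i ≤ n → ‖fld k y i‖ ≤ (n : ℝ) ^ 4000 := by
    intro i hi1 hi2
    have h2 := hsmall i hi1 hi2
    simp only at h2
    have h3 : ((1 : ℕ) : ℝ) * Real.log ‖fld k y i‖ ≤ ((4000 : ℕ) : ℝ) * Real.log n := by
      push_cast
      linarith
    have h4 := pow_of_log (fld_pos k y i) hn0 h3
    rwa [pow_one] at h4
  refine ⟨hy, n, hLlt, ⟨big_1000 hk1 (by omega) hy, ?_, ?_⟩, ?_⟩
  · intro i j hi hij hj
    have h1 := hV.sup hg (by norm_num) (by norm_num) hij hj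
    have h2 := fld_log_nonneg hk1 hy (by norm_num) (by norm_num) hV (i := i) (by omega)
    apply pow_of_log (fld_pos k y i) (fld_pos k y j)
    push_cast
    linarith
  · intro j hj1 hj
    have hjp : (1:ℝ) ≤ j := by exact_mod_cast (show 1 ≤ j by omega)
    have hpw : (j : ℝ) ^ 400 ≤ (j : ℝ) ^ 4000 := pow_le_pow_right₀ hjp (by norm_num)
    rcases Nat.lt_or_ge j L with hjL | hjL
    · refine ⟨1000, le_rfl, hj1, ?_⟩
      have h1 := pow_L_le hk hk1 (by omega) hy hjL.le
      have h2 := norm_nonneg (fld k y 1000)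
      linarith
    · obtain ⟨i, hLi, hij, hlog⟩ := hV.2.2 j hjL hj
      refine ⟨i, by omega, hij, ?_⟩
      simp only at hlog
      have h2 : ((4000 : ℕ) : ℝ) * Real.log j ≤ ((1 : ℕ) : ℝ) * Real.log ‖fld k y i‖ := by
        push_cast
        linarith
      have h3 := pow_of_log (by linarith) (fld_pos k y i) h2
      rw [pow_one] at h3
      have h4 := norm_nonneg (fld k y i)
      linarith
  · intro i hi1 hi2
    have hn1 : (0:ℝ) ≤ (n:ℝ) ^ 4000 := by positivity
    rcases Nat.lt_or_ge i L with hiL | hiL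
    · have h1 := hg.2.2 i L hiL.le le_rfl
      have h2 := (Real.log_le_log_iff (fld_pos k y i) (fld_pos k y L)).mp h1
      have h3 := hup L le_rfl hLn
      linarith
    · have h3 := hup i hiL (by omega)
      linarith

end conv

/-- **V1** of the skeleton -/
theorem v1 : Skel.V1 := by
  classical
  refine ⟨1000000, fun L0 hL0 => ?_⟩
  -- threshold for `k`
  obtain ⟨k₁, hk₁⟩ : ∃ k₁ : ℝ, ∀ k, k₁ ≤ k → 100 ≤ k ∧ (L0 : ℝ) ^ 8 ≤ k ∧ 20 ≤ Real.log k ∧
      Bk k ≤ 2 * Real.log k := by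
    refine ⟨max (max 100 ((L0 : ℝ) ^ 8)) (Real.exp 20), fun k hk => ?_⟩
    have h1 : 100 ≤ k := le_trans (le_max_left _ _) (le_trans (le_max_left _ _) hk)
    have h2 : (L0 : ℝ) ^ 8 ≤ k := le_trans (le_max_right _ _) (le_trans (le_max_left _ _) hk)
    have h3 : Real.exp 20 ≤ k := le_trans (le_max_right _ _) hk
    have h4 : 20 ≤ Real.log k := by
      rw [Real.le_log_iff_exp_le (by linarith)]
      exact h3
    refine ⟨h1, h2, h4, ?_⟩
    unfold Bk
    have h5 : 2 * (3 + 2 * Real.pi * k) ≤ k ^ 2 := by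
      have := Real.pi_lt_d2
      nlinarith
    have h6 := Real.log_le_log (by positivity) h5
    rw [Real.log_pow] at h6
    push_cast at h6
    exact h6
  refine ⟨0, 64024, k₁, fun k hk N z S hS => ?_⟩
  obtain ⟨hk1, hk8, hk20, hBk⟩ := hk₁ k hk
  have hk0 : 0 ≤ k := by linarith
  have hlk : 0 < Real.log k := by linarith
  have hl2 : Real.log 2 ≤ 1 := by
    have := Real.log_two_lt_d9
    linarith
  have hl2' := Real.log_nonneg (one_le_two (α := ℝ))
  have hl16 : Real.log 16 = 4 * Real.log 2 := by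
    rw [show (16:ℝ) = 2 ^ 4 by norm_num, Real.log_pow]
    norm_num
  have hB1 := log_two_le_Bk hk0
  have hLr : (1000000:ℝ) ≤ L0 := by exact_mod_cast hL0
  set A1 : ℝ := (L0 : ℝ) * (Real.log k / 2) with hA1
  have hA1b : 500000 * Real.log k ≤ A1 := by
    rw [hA1]
    nlinarith
  have hsys := sys (N := N) (L := L0) hk1 (by omega) z
  -- bad times
  set B : ℕ → Prop := fun v => (T k)^[v] z ∈ Skel.Ng k L0 with hBdef
  have hB : ∀ v, v ≤ N → Base N L0 (1 / 1000) (FF k z) (GG k z) (cF k L0 z) (cB k L0 z) v → B v := by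
    intro v _ hbase
    rcases hbase with ⟨m, -, h | h⟩ | ⟨m, -, h | h⟩
    · unfold cF at h
      push Not at h
      obtain ⟨m', h1, -, h2⟩ := h
      exact Or.inl (Or.inl ⟨m', h1, h2⟩)
    · rcases long_mem hk8 hk1 hL0 h with h1 | h1
      · exact Or.inl (Or.inl h1)
      · exact Or.inr (Or.inl h1)
    · unfold cB at h
      push Not at h
      obtain ⟨m', h1, -, h2⟩ := h
      exact Or.inl (Or.inr ⟨m', h1, h2⟩)
    · rcases long_mem hk8 hk1 hL0 h with h1 | h1
      · exact Or.inl (Or.inr h1)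
      · exact Or.inr (Or.inr h1)
  -- the components
  have hch : ∀ p ∈ S, ∃ ij : ℕ × ℕ, Close.Cmp (Close.bz k z) (Real.log k) N ij.1 p.1 ij.2 p.2 := by
    intro p hp
    obtain ⟨i, j, h⟩ := (hS p hp).1
    exact ⟨(i, j), h⟩
  choose! ij hij using hch
  set g : ℕ × ℕ → ℕ × ℕ × ℤ := fun p => ((ij p).1, (ij p).2, (p.2 : ℤ)) with hg
  have hinj : Set.InjOn g S := by
    rintro ⟨t, l⟩ hp ⟨t', l'⟩ hp' he
    rw [Finset.mem_coe] at hp hp'
    have h1 := hij _ hp
    have h2 := hij _ hp'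
    simp only [hg, Prod.mk.injEq, Nat.cast_inj] at he
    obtain ⟨e1, e2, e3⟩ := he
    subst e3
    rw [e1, e2] at h1
    have htt : t = t' := by
      rcases lt_trichotomy t t' with h3 | h3 | h3
      · have h4 := h2.first t h1.it h3
        have h5 := h1.top t' h2.it h2.tj
        simp only at h4 h5
        linarith
      · exact h3
      · have h4 := h1.first t' h2.it h3
        have h5 := h2.top t h1.it h1.tj
        simp only at h4 h5
        linarith
    rw [htt]
  have hcard : S.card = (S.image g).card := (Finset.card_image_of_injOn hinj).symm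
  have hmain := v1_abs (b := 1 / 1000) (b₄ := 1 / 100) hsys
    (compF hk1 (by omega) (by norm_num) (by norm_num) z (by rw [hl16]; linarith))
    (compB hk1 (by omega) (by norm_num) (by norm_num) z (by rw [hl16]; linarith))
    (compF hk1 (by omega) (by norm_num) (by norm_num) z (by rw [hl16]; linarith))
    (compB hk1 (by omega) (by norm_num) (by norm_num) z (by rw [hl16]; linarith))
    (by norm_num) (by norm_num) (by norm_num) (by norm_num)
    (by linarith) (by linarith) (by linarith) B hB (S.image g) (by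
      intro c hc
      rw [Finset.mem_image] at hc
      obtain ⟨p, hp, rfl⟩ := hc
      have h1 := hij p hp
      have hnf := (hS p hp).2.2 _ _ h1
      refine ⟨⟨?_, h1.jN, ?_, ?_, ?_⟩, ?_⟩
      · have := h1.it
        have := h1.tj
        simp only [hg]
        omega
      · have := h1.left
        simp only [hg]
        push_cast
        exact this
      · intro m hm1 hm2
        have := h1.above m hm1 hm2
        simp only [hg]
        push_cast
        exact this
      · have := h1.right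
        simp only [hg]
        push_cast
        exact this
      · simp only [hg]
        by_cases hi : (T k)^[(ij p).1] z ∈ Skel.C1 k L0
        · exact Or.inl (Or.inl (Or.inl hi))
        by_cases hj : ((T k)^[(ij p).2] z).swap ∈ Skel.C1 k L0
        · exact Or.inr (Or.inl (Or.inl (Or.inr hj)))
        refine Or.inr (Or.inr ⟨p.1, h1.it, h1.tj, h1.top, ?_⟩)
        by_contra hcon
        push Not at hcon
        exact hnf ⟨toSkel hk8 hk1 (by omega) hi hcon.1, toSkel hk8 hk1 (by omega) hj hcon.2⟩)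
  -- doubly covered times
  have hdbl : ((((range (N + 1)).filter
      (Dbl N L0 (1 / 100) (FF k z) (GG k z) (cF k L0 z) (cB k L0 z))).card : ℕ) : ℝ) ≤
      (Skel.vs k N z (fun v => Skel.Rc k L0 (N - v) ∩ Skel.bw (Skel.Rc k L0 v)) : ℝ) +
      (Skel.vs k N z (fun _ => Skel.Ng k L0) : ℝ) := by
    have e1 : Skel.vs k N z (fun v => Skel.Rc k L0 (N - v) ∩ Skel.bw (Skel.Rc k L0 v)) =
        ((range (N + 1)).filter (fun v => (T k)^[v] z ∈
          Skel.Rc k L0 (N - v) ∩ Skel.bw (Skel.Rc k L0 v))).card := by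
      unfold Skel.vs
      congr!
    have e2 : Skel.vs k N z (fun _ => Skel.Ng k L0) =
        ((range (N + 1)).filter (fun v => (T k)^[v] z ∈ Skel.Ng k L0)).card := by
      unfold Skel.vs
      congr!
    rw [e1, e2]
    have hsub : (range (N + 1)).filter
        (Dbl N L0 (1 / 100) (FF k z) (GG k z) (cF k L0 z) (cB k L0 z)) ⊆
        (range (N + 1)).filter (fun v => (T k)^[v] z ∈
          Skel.Rc k L0 (N - v) ∩ Skel.bw (Skel.Rc k L0 v)) ∪
        (range (N + 1)).filter (fun v => (T k)^[v] z ∈ Skel.Ng k L0) := by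
      intro v hv
      rw [mem_filter] at hv
      rw [mem_union, mem_filter, mem_filter]
      by_cases hng : (T k)^[v] z ∈ Skel.Ng k L0
      · exact Or.inr ⟨hv.1, hng⟩
      left
      have hn1 : (T k)^[v] z ∉ Skel.C1 k L0 := fun h => hng (Or.inl (Or.inl h))
      have hn2 : ((T k)^[v] z).swap ∉ Skel.C1 k L0 := fun h => hng (Or.inl (Or.inr h))
      have hn3 : (T k)^[v] z ∉ Skel.LG k L0 := fun h => hng (Or.inr (Or.inl h))
      have hn4 : ((T k)^[v] z).swap ∉ Skel.LG k L0 := fun h => hng (Or.inr (Or.inr h))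
      refine ⟨hv.1, ⟨hn1, hn3, fun h => hv.2.1 ?_⟩, ⟨hn2, hn4, fun h => hv.2.2 ?_⟩⟩
      · exact ofSkel hk1 (by omega) hn1 (fun h => h) h
      · exact ofSkel hk1 (by omega) hn2 (fun h => h) h
    have h9 := (Finset.card_le_card hsub).trans (Finset.card_union_le _ _)
    have h10 : (((((range (N + 1)).filter
        (Dbl N L0 (1 / 100) (FF k z) (GG k z) (cF k L0 z) (cB k L0 z))).card : ℕ)) : ℝ) ≤
        ((((range (N + 1)).filter (fun v => (T k)^[v] z ∈
          Skel.Rc k L0 (N - v) ∩ Skel.bw (Skel.Rc k L0 v))).card : ℕ) : ℝ) +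
        ((((range (N + 1)).filter (fun v => (T k)^[v] z ∈ Skel.Ng k L0)).card : ℕ) : ℝ) := by
      exact_mod_cast h9
    exact h10
  have hBcard : ((((range (N + 1)).filter B).card : ℕ) : ℝ) =
      (Skel.vs k N z (fun _ => Skel.Ng k L0) : ℝ) := by
    unfold Skel.vs
    rfl
  rw [hBcard] at hmain
  have hJκ : (Bk k + 2 * Real.log 2) / Real.log k + 1 ≤ 4 := by
    have : (Bk k + 2 * Real.log 2) / Real.log k ≤ 3 := by
      rw [div_le_iff₀ hlk]
      linarith
    linarith
  set X := (Skel.vs k N z (fun _ => Skel.Ng k L0) : ℝ) with hX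
  set Y := (Skel.vs k N z (fun v => Skel.Rc k L0 (N - v) ∩ Skel.bw (Skel.Rc k L0 v)) : ℝ) with hY
  have hX0 : 0 ≤ X := Nat.cast_nonneg _
  have hY0 : 0 ≤ Y := Nat.cast_nonneg _
  have hfin : (S.card : ℝ) ≤ 64024 * (Y + X) := by
    rw [hcard]
    refine hmain.trans ?_
    have h1 : 2 * ((Bk k + 2 * Real.log 2) / Real.log k + 1) * X ≤ 8 * X :=
      mul_le_mul_of_nonneg_right (by linarith) hX0
    have h2 : 2 * (4 / ((1:ℝ) / 1000 / 2) + 2) * ((Bk k + 2 * Real.log 2) / Real.log k + 1) *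
        ((((range (N + 1)).filter
          (Dbl N L0 (1 / 100) (FF k z) (GG k z) (cF k L0 z) (cB k L0 z))).card : ℕ) : ℝ) ≤
        64016 * (Y + X) := by
      have h3 : 2 * (4 / ((1:ℝ) / 1000 / 2) + 2) * ((Bk k + 2 * Real.log 2) / Real.log k + 1) ≤
          64016 := by
        have h4 : 2 * (4 / ((1:ℝ) / 1000 / 2) + 2) = 16004 := by norm_num
        rw [h4]
        linarith
      exact mul_le_mul h3 hdbl (Nat.cast_nonneg _) (by norm_num)
    linarith
  have hfin' : (S.card : ℝ) ≤ ((64024 * (Skel.vs k N z (fun v => Skel.Rc k L0 (N - v) ∩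
      Skel.bw (Skel.Rc k L0 v)) + Skel.vs k N z (fun _ => Skel.Ng k L0)) : ℕ) : ℝ) := by
    push_cast
    exact hfin
  exact_mod_cast hfin'

end Crest.Agent.R128.V1Inst
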