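import Mathlib
import Crest.Agent.R128.Skel
import Crest.Agent.R128.DDRootA
import Crest.Agent.R128.HypInst
import Crest.Agent.R128.RootTip
import Crest.Agent.R128.ValNorm2

/-!
# Row 128, V2 (single cover), independent implementation (helper609)
-/

set_option autoImplicit false
open MeasureTheory Filter Topology Finset
open scoped Matrix.Norms.L2Operator

namespace Crest.Agent.R128.V2X

open Crest.Agent.R128.Acc Crest.Agent.R128.AccRoot Crest.Agent.R128.Lam0 Crest.Agent.R128.TreeSum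
open Crest.Agent.R128.DDRoot Crest.Agent.R128.ValNorm

/-- completed drawdown event with all its times -/
structure EV (k : ℝ) (x : Tor) (D σ n e : ℕ) : Prop where
  sn : σ < n
  ne : n < e
  hn : 1000 ≤ n
  top : ∀ j, j ≤ e → ‖fld k x j‖ ≤ ‖fld k x n‖
  lo : k ^ D ≤ ‖fld k x n‖
  hi : ‖fld k x n‖ ≤ k ^ 2 * k ^ D
  ds : ‖fld k x σ‖ ^ 102 ≤ ‖fld k x n‖ ^ 101
  de : ‖fld k x e‖ ^ 102 ≤ ‖fld k x n‖ ^ 101
  mid : ∀ j, σ < j → j < e → ‖fld k x n‖ ^ 101 < ‖fld k x j‖ ^ 102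
  rv : RV k 1000 x (e - 1)

theorem norm_fld_zero (k : ℝ) (x : Tor) : ‖fld k x 0‖ = 1 := by
  rw [fld_zero]
  simp [Prod.norm_def]

theorem exists_ev {k : ℝ} (hk : 2 ≤ k) {x : Tor} {D M : ℕ} (hD : 1 ≤ D)
    (h : x ∈ Skel.RD k D M) : ∃ σ n e, e ≤ M ∧ EV k x D σ n e := by
  classical
  obtain ⟨n, n', d, hrv⟩ := h
  have hX1 : 1 < ‖fld k x n‖ := by
    refine lt_of_lt_of_le ?_ d.lo
    exact one_lt_pow₀ (by linarith) (by omega)
  have hlt : ‖fld k x n‖ ^ 101 < ‖fld k x n‖ ^ 102 := pow_lt_pow_right₀ hX1 (by norm_num)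
  -- first drop time
  have hex : ∃ e, n < e ∧ ‖fld k x e‖ ^ 102 ≤ ‖fld k x n‖ ^ 101 := ⟨n', d.lt, d.drop⟩
  obtain ⟨he1, he2⟩ := Nat.find_spec hex
  have hemin : ∀ j, n < j → j < Nat.find hex → ‖fld k x n‖ ^ 101 < ‖fld k x j‖ ^ 102 := by
    intro j hj hj2
    by_contra hc
    push Not at hc
    exact Nat.find_min hex hj2 ⟨hj, hc⟩
  have hele : Nat.find hex ≤ n' := Nat.find_min' hex ⟨d.lt, d.drop⟩
  set e := Nat.find hex
  -- last small time before n
  set P : ℕ → Prop := fun j => ‖fld k x j‖ ^ 102 ≤ ‖fld k x n‖ ^ 101 with hP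
  have hn0 : 0 < n := by have := d.hLn; omega
  have hP0 : P 0 := by
    simp only [hP]
    rw [norm_fld_zero, one_pow]
    exact one_le_pow₀ hX1.le
  have hσ := Nat.findGreatest_spec (P := P) (n := n - 1) (Nat.zero_le _) hP0
  have hσle := Nat.findGreatest_le (P := P) (n - 1)
  have hσmax : ∀ j, Nat.findGreatest P (n - 1) < j → j ≤ n - 1 → ¬ P j := fun j h1 h2 =>
    Nat.findGreatest_is_greatest h1 h2
  set σ := Nat.findGreatest P (n - 1)
  refine ⟨σ, n, e, hele.trans d.le, by omega, he1, d.hLn, fun j hj => d.max j (by omega), d.lo, d.hi,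
    hσ, he2, ?_, ?_⟩
  · intro j hj1 hj2
    rcases lt_trichotomy j n with h1 | h1 | h1
    · have := hσmax j hj1 (by omega)
      simp only [hP] at this
      exact not_le.mp this
    · rw [h1]; exact hlt
    · exact hemin j h1 hj2
  · exact ⟨hrv.big, fun i j h1 h2 h3 => hrv.v2 i j h1 h2 (by omega), fun j h1 h2 => hrv.v3 j h1 (by omega)⟩

theorem fld_add (k : ℝ) (x : Tor) (s j : ℕ) :
    fld k x (s + j) = act (Mn k j ((T k)^[s] x)) (fld k x s) := by
  induction j with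
  | zero => simp [Mn, act]
  | succ j ih =>
    rw [← add_assoc, fld_succ, ih, Mn_succ', act_mul, act_Am]
    congr 3
    rw [← Function.iterate_add_apply, add_comm j s]

theorem isField_act (k : ℝ) (x : Tor) (s : ℕ) (u : ℝ × ℝ) :
    IsField (fun j => V k ((T k)^[s + j] x).2) (fun j => act (Mn k j ((T k)^[s] x)) u) := by
  intro j
  simp only
  rw [Mn_succ', act_mul, act_Am]
  congr 2
  rw [← Function.iterate_add_apply, add_comm j s]

theorem nn_pos_of {v : ℝ × ℝ} (h : 0 < ‖v‖) : 0 < nn v := lt_of_lt_of_le h (norm_le_nn v)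

/-- upper bound of the cocycle on the window -/
theorem EV.upper {k : ℝ} (hk : 100 ≤ k) {x : Tor} {D σ n e : ℕ} (h : EV k x D σ n e) :
    ‖Mn k (e - σ) ((T k)^[σ] x)‖ ≤ 2 * (k ^ 5 * ((e - σ : ℕ) : ℝ)) := by
  have hk0 : (0:ℝ) < k := by linarith
  have hsn := h.sn
  have hne := h.ne
  set X := ‖fld k x n‖ with hX
  have hX0 : 0 < X := lt_of_lt_of_le (by positivity) h.lo
  obtain ⟨B, hB0, hB⟩ : ∃ B : ℝ, 0 < B ∧ B ^ 102 = X ^ 101 := by
    refine ⟨X ^ ((101:ℝ) / 102), Real.rpow_pos_of_pos hX0 _, ?_⟩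
    rw [← Real.rpow_natCast (X ^ ((101:ℝ) / 102)) 102, ← Real.rpow_mul hX0.le, ← Real.rpow_natCast X 101]
    norm_num
  have hσB : ‖fld k x σ‖ ≤ B := by
    have := h.ds
    rw [← hB] at this
    exact le_of_pow_le_pow_left₀ (by norm_num) hB0.le this
  have heB : ‖fld k x e‖ ≤ B := by
    have := h.de
    rw [← hB] at this
    exact le_of_pow_le_pow_left₀ (by norm_num) hB0.le this
  have hmid : ∀ j, σ < j → j < e → B ≤ ‖fld k x j‖ := by
    intro j h1 h2
    have := h.mid j h1 h2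
    rw [← hB] at this
    exact (lt_of_pow_lt_pow_left₀ 102 (norm_nonneg _) this).le
  obtain ⟨q, hq⟩ : ∃ q, e = σ + q := ⟨e - σ, by omega⟩
  have hq2 : 2 ≤ q := by omega
  have hA : ∀ j, |V k ((T k)^[σ + j] x).2| + 2 ≤ 8 * k := fun j => abs_V_le (by linarith) _
  set w : ℕ → ℝ × ℝ := fun j => fld k x (σ + j) with hw
  have hwF : IsField (fun j => V k ((T k)^[σ + j] x).2) w := isField_shift k x σ
  set b := B / (8 * k) with hb
  have hb0 : 0 < b := by positivity
  have hbB : b ≤ B := by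
    rw [hb, div_le_iff₀ (by positivity)]
    nlinarith
  have hin : ∀ j, 0 < j → j < q → B ≤ nn (w j) := fun j h1 h2 =>
    (hmid (σ + j) (by omega) (by omega)).trans (norm_le_nn _)
  have h8 : 8 * k * b = B := by rw [hb]; field_simp
  have hw0 : b ≤ nn (w 0) := by
    have h1 := nn_stp_le (V k ((T k)^[σ + 0] x).2) (w 0)
    rw [← hwF 0] at h1
    have h2 := hin 1 (by norm_num) (by omega)
    have h3 : nn (w 1) ≤ 8 * k * nn (w 0) :=
      h1.trans (mul_le_mul_of_nonneg_right (hA 0) (nn_nonneg _))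
    have h4 : 8 * k * b ≤ 8 * k * nn (w 0) := by linarith
    exact le_of_mul_le_mul_left h4 (by positivity)
  have hwq : b ≤ nn (w q) := by
    have h1 := nn_le_stp (V k ((T k)^[σ + (q - 1)] x).2) (w (q - 1))
    rw [← hwF (q - 1), Nat.sub_add_cancel (by omega)] at h1
    have h2 := hin (q - 1) (by omega) (by omega)
    have h3 : nn (w (q - 1)) ≤ 8 * k * nn (w q) :=
      h1.trans (mul_le_mul_of_nonneg_right (hA (q - 1)) (nn_nonneg _))
    have h4 : 8 * k * b ≤ 8 * k * nn (w q) := by linarith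
    exact le_of_mul_le_mul_left h4 (by positivity)
  have hall : ∀ j, j ≤ q → b ≤ nn (w j) := by
    intro j hj
    rcases Nat.eq_zero_or_pos j with h1 | h1
    · rw [h1]; exact hw0
    · rcases Nat.lt_or_ge j q with h2 | h2
      · exact hbB.trans (hin j h1 h2)
      · have : j = q := by omega
        rw [this]; exact hwq
  have hu0 : nn (w 0) ≤ 2 * B := by
    have := nn_le_norm (w 0)
    simp only [hw, add_zero] at this ⊢
    linarith
  have huq : nn (w q) ≤ 2 * B := by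
    have := nn_le_norm (w q)
    simp only [hw] at this ⊢
    rw [← hq] at this ⊢
    linarith
  have hwt : wt (fun j => V k ((T k)^[σ + j] x).2) w 0 q ≤ q * (8 * k / b ^ 2) := by
    unfold wt
    calc ∑ j ∈ Ico 0 q, (|V k ((T k)^[σ + j] x).2| + 2) / (nn (w j) * nn (w (j + 1)))
        ≤ ∑ j ∈ Ico 0 q, (8 * k) / b ^ 2 := by
          apply Finset.sum_le_sum
          intro j hj
          rw [Finset.mem_Ico] at hj
          have h1 := hall j (by omega)
          have h2 := hall (j + 1) (by omega)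
          apply div_le_div₀ (by positivity) (hA j) (by positivity)
          rw [pow_two]
          exact mul_le_mul h1 h2 hb0.le (nn_nonneg _)
      _ = q * (8 * k / b ^ 2) := by
          rw [Finset.sum_const, Nat.card_Ico, nsmul_eq_mul]
          simp
  have hmain : ∀ u : ℝ × ℝ, nn u = 1 → nn (act (Mn k q ((T k)^[σ] x)) u) ≤ k ^ 5 * q := by
    intro u hu
    have ht := tree_ineq hwF (isField_act k x σ u) (Nat.zero_le q) (lt_of_lt_of_le hb0 hw0)
    have e0 : act (Mn k 0 ((T k)^[σ] x)) u = u := by simp [Mn, act]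
    simp only [e0, hu, one_mul] at ht
    refine ht.trans ?_
    have p0 : 0 < nn (w 0) := lt_of_lt_of_le hb0 hw0
    have pq : 0 < nn (w q) := lt_of_lt_of_le hb0 hwq
    have t1 : nn (w q) / nn (w 0) ≤ 16 * k := by
      rw [div_le_iff₀ p0]
      nlinarith
    have t2 : nn (w 0) / nn (w q) ≤ 16 * k := by
      rw [div_le_iff₀ pq]
      nlinarith
    have t3 : nn (w 0) * nn (w q) * wt (fun j => V k ((T k)^[σ + j] x).2) w 0 q ≤
        (2 * B) * (2 * B) * (q * (8 * k / b ^ 2)) := by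
      gcongr
      exact wt_nonneg _ _ _ _
    have t4 : (2 * B) * (2 * B) * (q * (8 * k / b ^ 2)) = 2048 * k ^ 3 * q := by
      rw [← h8]
      field_simp
      ring
    have hq1 : (1:ℝ) ≤ q := by exact_mod_cast (by omega : 1 ≤ q)
    have h5 : 32 * k + 2048 * k ^ 3 ≤ k ^ 5 := by
      have h6 : (100:ℝ) ^ 2 ≤ k ^ 2 := pow_le_pow_left₀ (by norm_num) hk 2
      have h7 : k ≤ k ^ 3 := by
        calc k = k * 1 := (mul_one k).symm
          _ ≤ k * k ^ 2 := mul_le_mul_of_nonneg_left (by linarith) hk0.le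
          _ = k ^ 3 := by ring
      have h8' : 0 < k ^ 3 := by positivity
      calc 32 * k + 2048 * k ^ 3 ≤ 2080 * k ^ 3 := by linarith
        _ ≤ k ^ 2 * k ^ 3 := mul_le_mul_of_nonneg_right (by linarith) h8'.le
        _ = k ^ 5 := by ring
    calc nn (w q) / nn (w 0) + nn (w 0) / nn (w q) +
          nn (w 0) * nn (w q) * wt (fun j => V k ((T k)^[σ + j] x).2) w 0 q
        ≤ 16 * k + 16 * k + 2048 * k ^ 3 * q := by linarith
      _ ≤ (32 * k + 2048 * k ^ 3) * q := by nlinarith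
      _ ≤ k ^ 5 * q := mul_le_mul_of_nonneg_right h5 (by linarith)
  have hfin := l2_le_add (Mn k q ((T k)^[σ] x))
  have m1 := hmain (1, 0) nn_e1
  have m2 := hmain (0, 1) nn_e2
  rw [show e - σ = q by omega]
  linarith

/-- lower bound of the cocycle up to the tip -/
theorem EV.lower {k : ℝ} (hk : 100 ≤ k) {x : Tor} {D σ n e : ℕ} (h : EV k x D σ n e) :
    Real.log ‖fld k x n‖ / 102 - Real.log 2 ≤ Real.log ‖Mn k (n - σ) ((T k)^[σ] x)‖ := by
  have hk0 : (0:ℝ) < k := by linarith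
  have hsn := h.sn
  set X := ‖fld k x n‖ with hX
  have hX0 : 0 < X := lt_of_lt_of_le (by positivity) h.lo
  have e1 := fld_add k x σ (n - σ)
  rw [show σ + (n - σ) = n by omega] at e1
  have e2 := nn_act_le (Mn k (n - σ) ((T k)^[σ] x)) (fld k x σ).1 (fld k x σ).2
  rw [Prod.mk.eta, ← e1] at e2
  have e3 : X ≤ nn (fld k x n) := norm_le_nn _
  have e4 := nn_le_norm (fld k x σ)
  set A := ‖Mn k (n - σ) ((T k)^[σ] x)‖ with hA
  have hA0 : 0 ≤ A := norm_nonneg _
  have e5 : X ≤ A * (2 * ‖fld k x σ‖) := e3.trans (e2.trans (mul_le_mul_of_nonneg_left e4 hA0))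
  have hA1 : 0 < A := by
    rcases hA0.lt_or_eq with h1 | h1
    · exact h1
    · rw [← h1] at e5; linarith
  have hs0 : 0 < ‖fld k x σ‖ := by
    rcases (norm_nonneg (fld k x σ)).lt_or_eq with h1 | h1
    · exact h1
    · rw [← h1] at e5; linarith
  have l1 := Real.log_le_log hX0 e5
  rw [Real.log_mul hA1.ne' (by positivity), Real.log_mul (by norm_num) hs0.ne'] at l1
  have l2 := Real.log_le_log (by positivity) h.ds
  rw [Real.log_pow, Real.log_pow] at l2
  push_cast at l2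
  linarith

/-- duration of the window -/
theorem EV.dur {k : ℝ} (hk : 100 ≤ k) {x : Tor} {D σ n e : ℕ} (h : EV k x D σ n e) :
    Real.log ((e - σ : ℕ) : ℝ) ≤ Real.log 2 + (Real.log 2 + Real.log ‖fld k x n‖) / 400 := by
  have hk0 : (0:ℝ) < k := by linarith
  have hsn := h.sn
  have hne := h.ne
  have hn := h.hn
  have hX0 : 0 < ‖fld k x n‖ := lt_of_lt_of_le (by positivity) h.lo
  obtain ⟨i, hi1, hi2, hi3⟩ := h.rv.v3 (e - 1) (by omega) le_rfl
  have h1 : ((e - 1 : ℕ) : ℝ) ^ 400 ≤ 2 * ‖fld k x n‖ :=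
    hi3.trans (mul_le_mul_of_nonneg_left (h.top i (by omega)) (by norm_num))
  have h0 : (0:ℝ) < ((e - 1 : ℕ) : ℝ) := by exact_mod_cast (by omega : 0 < e - 1)
  have h2 := Real.log_le_log (by positivity) h1
  rw [Real.log_pow, Real.log_mul (by norm_num) hX0.ne'] at h2
  push_cast at h2
  have h3 : ((e - σ : ℕ) : ℝ) ≤ 2 * ((e - 1 : ℕ) : ℝ) := by exact_mod_cast (by omega : e - σ ≤ 2 * (e - 1))
  have h4 := Real.log_le_log (by exact_mod_cast (by omega : 0 < e - σ)) h3
  rw [Real.log_mul (by norm_num) h0.ne'] at h4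
  have h5 : 400 * Real.log ((e - 1 : ℕ) : ℝ) ≤ Real.log 2 + Real.log ‖fld k x n‖ := h2
  linarith

/-- the root contour in units of `log k` -/
noncomputable def ff (k : ℝ) (z : Tor) (n : ℕ) : ℝ := bt (rr k z) n / Real.log k

theorem ff_nonneg {k : ℝ} (hk : 100 ≤ k) (z : Tor) (n : ℕ) : 0 ≤ ff k z n := by
  apply div_nonneg _ (Real.log_nonneg (by linarith))
  unfold bt
  apply Real.log_nonneg
  have h := rr_h4 k z n
  by_contra hc
  push Not at hc
  rw [max_lt_iff] at hc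
  have p1 := rr_pos k z n
  have p2 := rr_pos k z (n + 1)
  nlinarith [hc.1, hc.2]

theorem EV.turn {k : ℝ} (hk : 100 ≤ k) {z : Tor} {v D σ n e : ℕ}
    (hD : 10000 ≤ D) (h : EV k ((T k)^[v] z) D σ n e) :
    (∃ t, Pk (ff k z) (v + σ) (v + e) t ((D : ℝ) / 1000)) ∨
      ∃ t, Vl (ff k z) (v + σ) (v + e) t ((D : ℝ) / 1000) := by
  have hk0 : (0:ℝ) < k := by linarith
  have hsn := h.sn
  have hne := h.ne
  have hn := h.hn
  set x := (T k)^[v] z with hx
  set ℓ := Real.log ‖fld k x n‖ with hℓ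
  set κ := Real.log k with hκ
  have hX0 : 0 < ‖fld k x n‖ := lt_of_lt_of_le (by positivity) h.lo
  have hD' : (10000:ℝ) ≤ D := by exact_mod_cast hD
  have hκ1 : 1 ≤ κ := by
    rw [hκ, Real.le_log_iff_exp_le hk0]
    have := Real.exp_one_lt_d9
    linarith
  have hlℓ : D * κ ≤ ℓ := by
    have := Real.log_le_log (by positivity) h.lo
    rw [Real.log_pow] at this
    exact this
  have hl2 : Real.log 2 < 0.6931471808 := Real.log_two_lt_d9
  have hl2' : 0 < Real.log 2 := Real.log_pos (by norm_num)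
  have H := HypInst.hyp_inst (by linarith : (4:ℝ) ≤ k) z
  set d := Hyp.dist (fun n => Mn k n z) with hd
  have hT : ∀ j, (T k)^[v + j] z = (T k)^[j] x := by
    intro j
    rw [hx, ← Function.iterate_add_apply, add_comm]
  have d1 : d (v + σ) (v + n) = Real.log ‖Mn k (n - σ) ((T k)^[σ] x)‖ := by
    have := HypInst.dist_fwd k z (v + σ) (n - σ)
    rw [show v + σ + (n - σ) = v + n by omega, hT] at this
    exact this
  have d2 : d (v + σ) (v + e) = Real.log ‖Mn k (e - σ) ((T k)^[σ] x)‖ := by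
    have := HypInst.dist_fwd k z (v + σ) (e - σ)
    rw [show v + σ + (e - σ) = v + e by omega, hT] at this
    exact this
  have lo := h.lower hk
  rw [← d1] at lo
  have hq0 : (0:ℝ) < ((e - σ : ℕ) : ℝ) := by exact_mod_cast (by omega : 0 < e - σ)
  have up : d (v + σ) (v + e) ≤ Real.log 2 + 5 * κ + Real.log ((e - σ : ℕ) : ℝ) := by
    rw [d2]
    have h1 : (1:ℝ) ≤ ‖Mn k (e - σ) ((T k)^[σ] x)‖ := Hyp.one_le_norm (det_Mn k _ _)
    have h2 := Real.log_le_log (by linarith) (h.upper hk)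
    rw [Real.log_mul (by norm_num) (by positivity), Real.log_mul (by positivity) hq0.ne',
      Real.log_pow] at h2
    push_cast at h2
    linarith
  have du := h.dur hk
  -- dyadic length
  set q := e - σ with hq
  set a := Nat.clog 2 q with ha
  have ha1 : n - σ ≤ 2 ^ a := (by omega : n - σ ≤ q).trans (Nat.le_pow_clog (by norm_num) q)
  have ha2 : (a : ℝ) * Real.log 2 ≤ Real.log (q : ℝ) + Real.log 2 := by
    have h1 : 2 ^ (a - 1) < q := Nat.pow_pred_clog_lt_self (by norm_num) (by omega)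
    have h2 : (2:ℝ) ^ (a - 1) ≤ q := by exact_mod_cast h1.le
    have h3 := Real.log_le_log (by positivity) h2
    rw [Real.log_pow] at h3
    have h4 : (a : ℝ) ≤ ((a - 1 : ℕ) : ℝ) + 1 := by exact_mod_cast (by omega : a ≤ a - 1 + 1)
    nlinarith
  have hl8 : Real.log (8 * k) = 3 * Real.log 2 + κ := by
    rw [Real.log_mul (by norm_num) hk0.ne', show (8:ℝ) = 2 ^ 3 by norm_num, Real.log_pow]
    push_cast
    ring
  set X := (D : ℝ) * κ / 1000 + 2 * Real.log 2 with hX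
  have hosc := RootTip.osc_hyp H (by rw [hl8]; linarith) (s := v + σ) (p := v + n) (m := v + e)
    (n := a) (x := X) (D := ℓ / 102 - Real.log 2)
    (y := ℓ / 102 - Real.log 2 - (Real.log 2 + 5 * κ + Real.log (q : ℝ))) (by omega) (by omega)
    (by rw [show v + n - (v + σ) = n - σ by omega]; exact ha1) lo (by linarith) (by
      rw [hl8, hX]
      have e1 : 2 * ((a : ℝ) * (Real.log 2 / 2)) = a * Real.log 2 := by ring
      rw [e1]
      have e2 : (10000:ℝ) * κ ≤ D * κ := mul_le_mul_of_nonneg_right hD' (by linarith)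
      linarith)
  -- transfer to the contour
  have hκ0 : 0 < κ := by linarith
  have tr : ∀ i j, d 0 i + X ≤ d 0 j → ff k z i + (D : ℝ) / 1000 ≤ ff k z j := by
    intro i j hij
    have b1 := HypInst.bt_dist k z i
    have b2 := HypInst.bt_dist k z j
    rw [abs_le] at b1 b2
    unfold ff
    rw [div_add' _ _ _ hκ0.ne', div_le_div_iff_of_pos_right hκ0]
    have b3 := b1.2
    have b4 := b2.1
    rw [← hd] at b3 b4
    linarith
  have hx0 : (0:ℝ) < (D : ℝ) / 1000 := by positivity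
  rcases hosc with hp | hv
  · left
    obtain ⟨u, m, w, h1, h2, h3, h4, h5, h6⟩ := hp
    have g1 := tr _ _ h5
    have g2 := tr _ _ h6
    have n1 : u ≠ m := by rintro rfl; linarith
    have n2 : w ≠ m := by rintro rfl; linarith
    exact exists_Pk hx0 h1 (by omega) (by omega) h4 g1 g2
  · right
    obtain ⟨u, m, w, h1, h2, h3, h4, h5, h6⟩ := hv
    have g1 := tr _ _ h5
    have g2 := tr _ _ h6
    have n1 : u ≠ m := by rintro rfl; linarith
    have n2 : w ≠ m := by rintro rfl; linarith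
    exact exists_Vl hx0 h1 (by omega) (by omega) h4 g1 g2

/-- **multiplicity**: two starts of the same class which see the same time are close -/
theorem EV.mult {k : ℝ} (hk : 100 ≤ k) {z : Tor} {v₁ v₂ D σ₁ n₁ e₁ σ₂ n₂ e₂ t : ℕ}
    (h1 : EV k ((T k)^[v₁] z) D σ₁ n₁ e₁) (h2 : EV k ((T k)^[v₂] z) D σ₂ n₂ e₂)
    (hv : v₁ + 1000 ≤ v₂) (ht1 : t < v₁ + e₁) (ht2 : v₂ + σ₂ < t) : False := by
  have hk0 : (0:ℝ) < k := by linarith
  obtain ⟨m, rfl⟩ : ∃ m, v₂ = v₁ + m := ⟨v₂ - v₁, by omega⟩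
  set x := (T k)^[v₁] z with hx
  have hy : (T k)^[v₁ + m] z = (T k)^[m] x := by
    rw [hx, ← Function.iterate_add_apply, add_comm]
  rw [hy] at h2
  set y := (T k)^[m] x with hy'
  have hm : 1000 ≤ m := by omega
  have hX0 : (0:ℝ) < k ^ D := by positivity
  -- separation at lag j
  have hsep : ∀ j, m + j ≤ e₁ - 1 → k ^ 400 * ‖fld k y j‖ ≤ 2 * ‖fld k x (m + j)‖ := by
    intro j hj
    exact sep hk (L := 1000) (by norm_num) hm ⟨h1.rv.big, fun a b ha hab hb => h1.rv.v2 a b ha hab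
      (by omega), fun a ha hb => h1.rv.v3 a ha (by omega)⟩ (by positivity) le_rfl
  have hkk : 2 * k ^ 2 < k ^ 400 := by
    calc 2 * k ^ 2 < k * k ^ 2 := by
          apply mul_lt_mul_of_pos_right (by linarith) (by positivity)
      _ = k ^ 3 := by ring
      _ ≤ k ^ 400 := pow_le_pow_right₀ (by linarith) (by norm_num)
  -- the tip of the second is not before the end of the first
  have hA : e₁ ≤ m + n₂ := by
    by_contra hc
    push Not at hc
    have a1 := hsep n₂ (by omega)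
    have a2 := h1.top (m + n₂) (by omega)
    have a3 := h1.hi
    have a4 := h2.lo
    have a5 : k ^ 400 * k ^ D ≤ 2 * (k ^ 2 * k ^ D) := by
      calc k ^ 400 * k ^ D ≤ k ^ 400 * ‖fld k y n₂‖ := mul_le_mul_of_nonneg_left a4 (by positivity)
        _ ≤ _ := a1
        _ ≤ _ := by linarith
    have a6 : 2 * k ^ 2 * k ^ D < k ^ 400 * k ^ D := mul_lt_mul_of_pos_right hkk hX0
    linarith
  -- compare at the end of the first
  obtain ⟨j, hj⟩ : ∃ j, e₁ = m + (j + 1) := ⟨e₁ - m - 1, by omega⟩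
  have hj1 : σ₂ < j + 1 := by omega
  have b1 := hsep j (by omega)
  have b2 : nn (fld k y (j + 1)) ≤ 8 * k * nn (fld k y j) := by
    rw [fld_succ]
    exact (nn_stp_le _ _).trans (mul_le_mul_of_nonneg_right (abs_V_le (by linarith) _) (nn_nonneg _))
  have b3 : nn (fld k x (m + j)) ≤ 8 * k * nn (fld k x (m + (j + 1))) := by
    have := nn_le_stp (V k ((T k)^[m + j] x).2) (fld k x (m + j))
    rw [← fld_succ] at this
    exact this.trans (mul_le_mul_of_nonneg_right (abs_V_le (by linarith) _) (nn_nonneg _))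
  rw [← hj] at b3
  set P := ‖fld k y (j + 1)‖ with hP
  set Q := ‖fld k x e₁‖ with hQ
  have hP0 : 0 ≤ P := norm_nonneg _
  have hQ0 : 0 ≤ Q := norm_nonneg _
  have c1 : P ≤ 16 * k * ‖fld k y j‖ := by
    have p1 := norm_le_nn (fld k y (j + 1))
    have p2 := nn_le_norm (fld k y j)
    nlinarith
  have c2 : ‖fld k x (m + j)‖ ≤ 16 * k * Q := by
    have p1 := norm_le_nn (fld k x (m + j))
    have p2 := nn_le_norm (fld k x e₁)
    nlinarith
  have c3 : k ^ 400 * P ≤ 512 * k ^ 2 * Q := by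
    calc k ^ 400 * P ≤ k ^ 400 * (16 * k * ‖fld k y j‖) := mul_le_mul_of_nonneg_left c1 (by positivity)
      _ = 16 * k * (k ^ 400 * ‖fld k y j‖) := by ring
      _ ≤ 16 * k * (2 * ‖fld k x (m + j)‖) := mul_le_mul_of_nonneg_left b1 (by positivity)
      _ ≤ 16 * k * (2 * (16 * k * Q)) := by gcongr
      _ = _ := by ring
  have c4 : k ^ 3 * P ≤ Q := by
    have p1 : 512 * k ^ 2 * k ^ 3 ≤ k ^ 400 := by
      have p0 : (100:ℝ) ^ 2 ≤ k ^ 2 := pow_le_pow_left₀ (by norm_num) hk 2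
      calc 512 * k ^ 2 * k ^ 3 ≤ k ^ 2 * k ^ 2 * k ^ 3 := by
            have : (512:ℝ) ≤ k ^ 2 := by linarith
            gcongr
        _ = k ^ 7 := by ring
        _ ≤ k ^ 400 := pow_le_pow_right₀ (by linarith) (by norm_num)
    have p2 : 512 * k ^ 2 * (k ^ 3 * P) ≤ 512 * k ^ 2 * Q := by
      calc 512 * k ^ 2 * (k ^ 3 * P) = (512 * k ^ 2 * k ^ 3) * P := by ring
        _ ≤ k ^ 400 * P := mul_le_mul_of_nonneg_right p1 hP0
        _ ≤ _ := c3
    exact le_of_mul_le_mul_left p2 (by positivity)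
  -- lower bound of P
  have hlow : ‖fld k y n₂‖ ^ 101 ≤ P ^ 102 := by
    rcases Nat.lt_or_ge (j + 1) n₂ with h3 | h3
    · exact (h2.mid (j + 1) hj1 (by have := h2.ne; omega)).le
    · have : j + 1 = n₂ := by omega
      rw [hP, this]
      apply pow_le_pow_right₀ _ (by norm_num)
      exact (one_le_pow₀ (by linarith)).trans h2.lo
  have f1 : (k ^ D) ^ 101 ≤ P ^ 102 := (pow_le_pow_left₀ (by positivity) h2.lo 101).trans hlow
  have f2 : Q ^ 102 ≤ (k ^ 2 * k ^ D) ^ 101 :=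
    h1.de.trans (pow_le_pow_left₀ (norm_nonneg _) h1.hi 101)
  have f3 : (k ^ 3 * P) ^ 102 ≤ Q ^ 102 := pow_le_pow_left₀ (by positivity) c4 102
  have f4 : k ^ 306 * (k ^ D) ^ 101 ≤ k ^ 202 * (k ^ D) ^ 101 := by
    calc k ^ 306 * (k ^ D) ^ 101 ≤ k ^ 306 * P ^ 102 := mul_le_mul_of_nonneg_left f1 (by positivity)
      _ = (k ^ 3 * P) ^ 102 := by rw [mul_pow, ← pow_mul]
      _ ≤ (k ^ 2 * k ^ D) ^ 101 := f3.trans f2
      _ = k ^ 202 * (k ^ D) ^ 101 := by rw [mul_pow, ← pow_mul]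
  have f5 : k ^ 306 ≤ k ^ 202 := le_of_mul_le_mul_right f4 (by positivity)
  have f6 : k ^ 202 < k ^ 306 := pow_lt_pow_right₀ (by linarith) (by norm_num)
  linarith

/-- the pair `(v, D)` has an event whose window `(v + σ, v + e) ⊆ [0, N]` contains the extremum `t` of
type `Q` (peak or valley) and prominence `D / 1000` -/
def Wit (Q : (ℕ → ℝ) → ℕ → ℕ → ℕ → ℝ → Prop) (k : ℝ) (z : Tor) (N : ℕ) (p : ℕ × ℕ) (t : ℕ) : Prop :=
  ∃ σ n e, EV k ((T k)^[p.1] z) p.2 σ n e ∧ p.1 + e ≤ N ∧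
    Q (ff k z) (p.1 + σ) (p.1 + e) t ((p.2 : ℝ) / 1000)

theorem count_Wit {Q : (ℕ → ℝ) → ℕ → ℕ → ℕ → ℝ → Prop} {k : ℝ} (hk : 100 ≤ k) {z : Tor} {N : ℕ}
    (hQin : ∀ f a b t x, Q f a b t x → a < t ∧ t < b)
    (hQmono : ∀ f a b a' b' t x, Q f a b t x → a' ≤ a → b ≤ b' → Q f a' b' t x)
    (hQsum : ∀ (S : Finset ℕ) (x : ℕ → ℝ), (∀ t ∈ S, 0 ≤ x t) → (∀ t ∈ S, Q (ff k z) 0 N t (x t)) →
      ∑ t ∈ S, ⌊x t⌋₊ ≤ cr (ff k z) N)
    {P : Finset (ℕ × ℕ)} (hP : ∀ p ∈ P, 1000 ≤ p.2 ∧ ∃ t, Wit Q k z N p t) :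
    #P ≤ 2 * 1000 * 1000 * cr (ff k z) N := by
  classical
  have hP2 : ∀ p ∈ P, ∃ t, Wit Q k z N p t := fun p hp => (hP p hp).2
  choose! τ hτ using hP2
  refine count_pairs (τ := τ) (by norm_num) (fun p hp => (hP p hp).1) ?_ ?_
  · intro t D
    set S := {p ∈ P | τ p = t ∧ p.2 = D} with hS
    rcases S.eq_empty_or_nonempty with h0 | h0
    · rw [h0]; simp
    obtain ⟨p0, hp0, hmin⟩ := S.exists_min_image (fun p => p.1) h0
    have hsub : S ⊆ (Finset.Ico p0.1 (p0.1 + 1000)).image (fun v => (v, D)) := by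
      intro p hp
      have hle := hmin p hp
      rw [hS, Finset.mem_filter] at hp hp0
      rw [Finset.mem_image]
      refine ⟨p.1, ?_, by rw [← hp.2.2]⟩
      rw [Finset.mem_Ico]
      refine ⟨hle, ?_⟩
      by_contra hc
      push Not at hc
      obtain ⟨σ, n, e, w1, w2, w3⟩ := hτ p hp.1
      obtain ⟨σ', n', e', w1', w2', w3'⟩ := hτ p0 hp0.1
      rw [hp.2.1] at w3
      rw [hp0.2.1] at w3'
      rw [hp.2.2] at w1
      rw [hp0.2.2] at w1'
      exact w1'.mult hk w1 hc (hQin _ _ _ _ _ w3').2 (hQin _ _ _ _ _ w3).1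
    calc #S ≤ #((Finset.Ico p0.1 (p0.1 + 1000)).image (fun v => (v, D))) := Finset.card_le_card hsub
      _ ≤ #(Finset.Ico p0.1 (p0.1 + 1000)) := Finset.card_image_le
      _ = 1000 := by rw [Nat.card_Ico]; omega
  · intro x hx
    have h1 := hQsum (P.image τ) (fun t => (x t : ℝ) / 1000) (fun t _ => by positivity) (by
      intro t ht
      obtain ⟨p, hp, hpt, hxt⟩ := hx t ht
      obtain ⟨σ, n, e, w1, w2, w3⟩ := hτ p hp
      rw [hpt] at w3
      rw [hxt]
      exact hQmono _ _ _ _ _ _ _ w3 (Nat.zero_le _) w2)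
    refine le_trans (le_of_eq ?_) h1
    apply Finset.sum_congr rfl
    intro t _
    have : ((x t : ℝ) / 1000) = ((x t : ℝ) / ((1000 : ℕ) : ℝ)) := by norm_num
    rw [this, Nat.floor_div_natCast, Nat.floor_natCast]

/-- **V2 (SINGLE COVER)** -/
theorem v2 : Skel.V2 := by
  classical
  refine ⟨10000, 4000000, 100, fun k hk N J z => ?_⟩
  rw [← Finset.card_sigma]
  set Sg := (range J).sigma (fun D => {v ∈ range N | (T k)^[v] z ∈ Skel.RD k (10000 + D) (N - v)})
    with hSg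
  set P : Finset (ℕ × ℕ) := Sg.image (fun s => (s.2, 10000 + s.1)) with hP
  have hcard : #Sg = #P := by
    rw [hP, Finset.card_image_of_injective]
    rintro ⟨a, b⟩ ⟨c, d⟩ h
    simp only [Prod.mk.injEq, add_right_inj] at h
    obtain ⟨rfl, rfl⟩ := h
    rfl
  rw [hcard]
  have hPW : ∀ p ∈ P, 1000 ≤ p.2 ∧ ((∃ t, Wit Pk k z N p t) ∨ ∃ t, Wit Vl k z N p t) := by
    intro p hp
    rw [hP, Finset.mem_image] at hp
    obtain ⟨⟨D, v⟩, hs, rfl⟩ := hp
    rw [hSg, Finset.mem_sigma, Finset.mem_filter] at hs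
    obtain ⟨-, hv, hR⟩ := hs
    simp only at hv hR ⊢
    rw [Finset.mem_range] at hv
    refine ⟨by omega, ?_⟩
    obtain ⟨σ, n, e, he, hev⟩ := exists_ev (by linarith) (by omega) hR
    rcases hev.turn hk (by omega) with ⟨t, ht⟩ | ⟨t, ht⟩
    · exact Or.inl ⟨t, σ, n, e, hev, by simp only; omega, ht⟩
    · exact Or.inr ⟨t, σ, n, e, hev, by simp only; omega, ht⟩
  have hcr : cr (ff k z) N = cross k N z := rfl
  have c1 := count_Wit (Q := Pk) hk (z := z) (N := N)
    (fun f a b t x h => by obtain ⟨u, w, h1, h2, h3, h4, -⟩ := h; omega)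
    (fun f a b a' b' t x h h1 h2 => h.mono h1 h2)
    (fun S x hx hS => sum_Pk (ff_nonneg hk z) hx hS)
    (P := {p ∈ P | ∃ t, Wit Pk k z N p t})
    (fun p hp => by rw [Finset.mem_filter] at hp; exact ⟨(hPW p hp.1).1, hp.2⟩)
  have c2 := count_Wit (Q := Vl) hk (z := z) (N := N)
    (fun f a b t x h => by obtain ⟨u, w, h1, h2, h3, h4, -⟩ := h; omega)
    (fun f a b a' b' t x h h1 h2 => h.mono h1 h2)
    (fun S x hx hS => sum_Vl (ff_nonneg hk z) hx hS)
    (P := {p ∈ P | ∃ t, Wit Vl k z N p t})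
    (fun p hp => by rw [Finset.mem_filter] at hp; exact ⟨(hPW p hp.1).1, hp.2⟩)
  have hun : P ⊆ {p ∈ P | ∃ t, Wit Pk k z N p t} ∪ {p ∈ P | ∃ t, Wit Vl k z N p t} := by
    intro p hp
    rw [Finset.mem_union, Finset.mem_filter, Finset.mem_filter]
    rcases (hPW p hp).2 with h | h
    · exact Or.inl ⟨hp, h⟩
    · exact Or.inr ⟨hp, h⟩
  have c3 := (Finset.card_le_card hun).trans (Finset.card_union_le _ _)
  rw [hcr] at c1 c2
  omega

end Crest.Agent.R128.V2X
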