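import Crest.Agent.R128.ProdT
import Crest.Agent.R128.Lam0V
import Crest.Agent.R128.Skel
/-!
Row 128, V4 (double cover) from CORE2, without V3 (helper815): classification of the first violation
(379) + product of strips (`Prod.prod_of_core`) + sum over the classes.
-/
set_option autoImplicit false
open MeasureTheory Set
open scoped ENNReal NNReal
namespace Crest.Agent.R128.V4F

open Crest.Agent.R128.Lam0 Crest.Agent.R128.Core Crest.Agent.R128.BVP Crest.Agent.R128.Prod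
open Crest.Agent.R128.Skel (Rc C1 LG RD rho bw e Val)

/-- class `k ^ D` of the points with a first violation at a lag `≤ M` -/
def B (k : ℝ) (M D : ℕ) : Set Tor := {z | Cln k 1000 z ∧ ∃ n' ≤ M, 1000 < n' ∧
  (∀ i j, 1000 ≤ i → i ≤ j → j < n' → ‖fld k z i‖ ^ 99 ≤ ‖fld k z j‖ ^ 100) ∧
  (∀ j, 1000 ≤ j → j < n' → ∃ i, 1000 ≤ i ∧ i ≤ j ∧ (j : ℝ) ^ 400 ≤ ‖fld k z i‖) ∧
  ((∃ i, 1000 ≤ i ∧ i < n' ∧ ‖fld k z n'‖ ^ 100 < ‖fld k z i‖ ^ 99) ∨
    (∀ i, 1000 ≤ i → i < n' → ‖fld k z i‖ ≤ (n' : ℝ) ^ 400)) ∧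
  (∃ i < n', k ^ D ≤ ‖fld k z i‖) ∧ ∀ i < n', ‖fld k z i‖ ≤ k * k ^ D}

/-- the relaxed class -/
def Qs (k : ℝ) (M D : ℕ) : Set Tor := DDset k M (D - 1) ∪ DDset k M D ∪ LGset k D

theorem measurable_Qs (k : ℝ) (M D : ℕ) : MeasurableSet (Qs k M D) :=
  ((measurable_DDset k M (D - 1)).union (measurable_DDset k M D)).union (measurable_LGset k D)

theorem cl_of_Cln {k : ℝ} {L : ℕ} {a b : ℝ} (hcl : Cln k L (pr (a, b))) :
    ∀ m ∈ Finset.Icc 1 L, k ^ (2 / 3 : ℝ) ≤ |Vk k (xorb k a b m)| := by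
  intro m hm
  rw [Finset.mem_Icc] at hm
  have h1 := hcl (m - 1) (by omega)
  unfold pr at h1
  rw [xorb_T] at h1
  simp only [V_eq_Vk] at h1
  rwa [Nat.sub_add_cancel hm.1] at h1

theorem adm_of_B {k : ℝ} (hk9 : (10:ℝ) ^ 9 ≤ k) {M D : ℕ} (hD : 1 ≤ D) {a b : ℝ}
    (h : pr (a, b) ∈ B k M D) : ∃ n', Adm k (k ^ D) a b n' ∧ ∀ l s : ℝ,
      (∀ m ≤ n', nf k a b m ≤ 2 * nf k l s m ∧ nf k l s m ≤ 2 * nf k a b m) →
        pr (l, s) ∈ Qs k M D := by
  obtain ⟨hcl, n', hM, hn', v2, v3, hbad, hlo, hhi⟩ := h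
  have hfl : ∀ m, ‖fld k (pr (a, b)) m‖ = nf k a b m := fun m => norm_fld_pk k a b m
  simp only [hfl] at v2 v3 hbad hlo hhi
  have hsv : SV k 1000 a b n' := ⟨cl_of_Cln hcl, v2, v3⟩
  refine ⟨n', ⟨hsv, hlo, hhi⟩, fun l s hcmp => ?_⟩
  exact classify hk9 hM hn' hsv hbad hlo hhi hD hcmp

/-- every drawdown or long violation is in some class `≥ D1` -/
theorem cover {k : ℝ} (hk9 : (10:ℝ) ^ 9 ≤ k) {L0 M D1 : ℕ} (hkL : (L0 : ℝ) ≤ k) (hL0 : 1000 ≤ L0)
    (hLD : 2 * (D1 + 2) ≤ L0) {z : Tor} (hz : z ∈ Rc k L0 M) : ∃ i, z ∈ B k M (D1 + i) := by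
  obtain ⟨hC1, -, hval⟩ := hz
  have hk6 : (10:ℝ) ^ 6 ≤ k := le_trans (by norm_num) hk9
  have hk0 : (0:ℝ) < k := lt_of_lt_of_le (by norm_num) hk6
  have hk1 : (1:ℝ) ≤ k := le_trans (by norm_num) hk6
  have hcl0 : Cln k L0 z := by
    intro m hm
    by_contra hcon
    exact hC1 ⟨m, hm, not_le.1 hcon⟩
  have hcl : Cln k 1000 z := fun m hm => hcl0 m (by omega)
  have hbad : ∃ n ≤ M, ¬ Vld k 1000 z n :=
    ⟨M, le_rfl, fun h => hval ⟨fun m hm _ => hcl0 m hm, h.v2, h.v3⟩⟩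
  obtain ⟨a, b, hab⟩ : ∃ a b : ℝ, pr (a, b) = z := ⟨(Prod.sec z).1, (Prod.sec z).2, Prod.pr_sec z⟩
  subst hab
  have hfl : ∀ m, ‖fld k (pr (a, b)) m‖ = nf k a b m := fun m => norm_fld_pk k a b m
  obtain ⟨n', hM, hn', hsv, hbad'⟩ := first_failure hk6 (a := a) (b := b) hcl hbad
  obtain ⟨j, hlo, hhi⟩ := exists_class hk6 hn' hsv
  have clL := cl_of_Cln hcl0
  have hgr : ∀ m ≤ L0, (k ^ (2 / 3 : ℝ) - 1) ^ m ≤ nf k a b m := by
    intro m hm
    rw [nf_clean hk6 clL hm]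
    exact (clean_growth hk6 clL m hm).2
  have hb1 : k ^ (1 / 2 : ℝ) ≤ k ^ (2 / 3 : ℝ) - 1 := by
    have e1 : k ^ (2 / 3 : ℝ) = k ^ (1 / 2 : ℝ) * k ^ (1 / 6 : ℝ) := by
      rw [← Real.rpow_add hk0]; norm_num
    have e2 : (10 : ℝ) ≤ k ^ (1 / 6 : ℝ) := by
      have : ((10:ℝ) ^ 6) ^ (1 / 6 : ℝ) ≤ k ^ (1 / 6 : ℝ) :=
        Real.rpow_le_rpow (by positivity) hk6 (by norm_num)
      rwa [← Real.rpow_natCast, ← Real.rpow_mul (by norm_num), show ((6 : ℕ) : ℝ) * (1 / 6) = 1 by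
        norm_num, Real.rpow_one] at this
    have e3 : 1 ≤ k ^ (1 / 2 : ℝ) := Real.one_le_rpow hk1 (by norm_num)
    rw [e1]
    nlinarith
  have hhalf1 : 1 ≤ k ^ (1 / 2 : ℝ) := Real.one_le_rpow hk1 (by norm_num)
  have hnf1 : ∀ m ≤ L0, 1 ≤ nf k a b m := fun m hm =>
    (one_le_pow₀ (hhalf1.trans hb1)).trans (hgr m hm)
  have hnL : L0 < n' := by
    by_contra hcon
    push Not at hcon
    rcases hbad' with ⟨i, hi, hin, hlt⟩ | h
    · have h1 := nf_clean_step hk6 clL hin hcon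
      have h2 := hnf1 i (by omega)
      have h3 : nf k a b i ≤ nf k a b n' := by linarith
      have h4 : nf k a b i ^ 99 ≤ nf k a b i ^ 100 := pow_le_pow_right₀ h2 (by norm_num)
      have h5 : nf k a b i ^ 100 ≤ nf k a b n' ^ 100 := pow_le_pow_left₀ (by linarith) h3 100
      linarith
    · have h1 := h 1000 le_rfl hn'
      have h2 := nf_L_big hk6 (cl_of_Cln hcl)
      have h3 : (n' : ℝ) ≤ k := le_trans (by exact_mod_cast hcon) hkL
      have h4 : (n' : ℝ) ^ 400 ≤ k ^ 400 := pow_le_pow_left₀ (by positivity) h3 400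
      have h5 : k ^ 400 < k ^ 601 := pow_lt_pow_right₀ (by linarith) (by norm_num)
      linarith
  have hjD : D1 ≤ j + 600 := by
    by_contra hcon
    push Not at hcon
    have h1 := hhi L0 hnL
    have h2 : (k ^ (1 / 2 : ℝ)) ^ (2 * (D1 + 2)) ≤ nf k a b L0 :=
      calc (k ^ (1 / 2 : ℝ)) ^ (2 * (D1 + 2)) ≤ (k ^ (1 / 2 : ℝ)) ^ L0 :=
            pow_le_pow_right₀ hhalf1 hLD
        _ ≤ (k ^ (2 / 3 : ℝ) - 1) ^ L0 := pow_le_pow_left₀ (by linarith) hb1 L0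
        _ ≤ _ := hgr L0 le_rfl
    have h3 : (k ^ (1 / 2 : ℝ)) ^ (2 * (D1 + 2)) = k ^ (D1 + 2) := by
      rw [pow_mul, ← Real.rpow_natCast (k ^ (1 / 2 : ℝ)) 2, ← Real.rpow_mul hk0.le]
      norm_num
    have h4 : k * k ^ (j + 600) < k ^ (D1 + 2) := by
      rw [← pow_succ']
      exact pow_lt_pow_right₀ (by linarith) (by omega)
    linarith
  refine ⟨j + 600 - D1, hcl, n', hM, hn', ?_, ?_, ?_, ?_, ?_⟩
  · simp only [hfl]; exact hsv.v2
  · simp only [hfl]; exact hsv.v3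
  · simp only [hfl]; exact hbad'
  · simp only [hfl]; rw [show D1 + (j + 600 - D1) = j + 600 by omega]; exact hlo
  · simp only [hfl]; rw [show D1 + (j + 600 - D1) = j + 600 by omega]; exact hhi

/-- sum over the classes -/
theorem sum_le {k : ℝ} (hk6 : (10:ℝ) ^ 6 ≤ k) (hk400 : (2:ℝ) ^ 400 ≤ k) {M D0 D1 : ℕ}
    (h1 : D0 + 1 ≤ D1) (h2 : 600 ≤ D1) :
    ∑' i : ℕ, volume (Qs k M (D1 + i)) ≤ 2 * (ENNReal.ofReal (e k) + rho k D0 M) := by
  have hk0 : (0:ℝ) < k := lt_of_lt_of_le (by norm_num) hk6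
  have hk1 : (1:ℝ) ≤ k := le_trans (by norm_num) hk6
  have a1 : ∑' i : ℕ, volume (DDset k M (D1 + i - 1)) ≤ rho k D0 M := by
    have := ENNReal.tsum_comp_le_tsum_of_injective (f := fun i : ℕ => D1 - 1 - D0 + i)
      (fun i j hij => by simpa using hij) (fun D => volume (RD k (D0 + D) M))
    refine le_trans (le_of_eq ?_) this
    congr 1
    funext i
    rw [show D0 + (D1 - 1 - D0 + i) = D1 + i - 1 by omega]
    rfl
  have a2 : ∑' i : ℕ, volume (DDset k M (D1 + i)) ≤ rho k D0 M := by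
    have := ENNReal.tsum_comp_le_tsum_of_injective (f := fun i : ℕ => D1 - D0 + i)
      (fun i j hij => by simpa using hij) (fun D => volume (RD k (D0 + D) M))
    refine le_trans (le_of_eq ?_) this
    congr 1
    funext i
    rw [show D0 + (D1 - D0 + i) = D1 + i by omega]
    rfl
  have a3 : ∑' i : ℕ, volume (LGset k (D1 + i)) ≤ ENNReal.ofReal (e k) := by
    have b1 : ∀ i : ℕ, volume (LGset k (D1 + i)) ≤
        ENNReal.ofReal (8000 * (1 / k ^ (3 / 2 : ℝ)) * (1 / 2) ^ i) := by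
      intro i
      have := vol_LGset hk6 hk400 (j := D1 - 600 + i)
      rw [show D1 - 600 + i + 600 = D1 + i by omega] at this
      refine this.trans (ENNReal.ofReal_le_ofReal ?_)
      have : ((1:ℝ) / 2) ^ (D1 - 600 + i) ≤ (1 / 2) ^ i :=
        pow_le_pow_of_le_one (by norm_num) (by norm_num) (by omega)
      gcongr
    refine (ENNReal.tsum_le_tsum b1).trans ?_
    rw [← ENNReal.ofReal_tsum_of_nonneg (fun j => by positivity)
      ((summable_geometric_of_lt_one (by norm_num) (by norm_num)).mul_left _), tsum_mul_left,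
      tsum_geometric_of_lt_one (by norm_num) (by norm_num)]
    apply ENNReal.ofReal_le_ofReal
    unfold e
    have c1 : k ^ (-(1 : ℝ) / 4) = k ^ (5 / 4 : ℝ) / k ^ (3 / 2 : ℝ) := by
      rw [← Real.rpow_sub hk0]; norm_num
    rw [c1]
    have c2 : (16000 : ℝ) ≤ k ^ (5 / 4 : ℝ) := by
      calc (16000 : ℝ) ≤ k := le_trans (by norm_num) hk6
        _ = k ^ (1 : ℝ) := (Real.rpow_one k).symm
        _ ≤ k ^ (5 / 4 : ℝ) := Real.rpow_le_rpow_of_exponent_le hk1 (by norm_num)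
    have c3 : (0:ℝ) < k ^ (3 / 2 : ℝ) := by positivity
    rw [le_div_iff₀ c3]
    have : 8000 * (1 / k ^ (3 / 2 : ℝ)) * (1 - 1 / 2)⁻¹ * k ^ (3 / 2 : ℝ) = 16000 := by
      field_simp
      norm_num
    linarith
  calc ∑' i : ℕ, volume (Qs k M (D1 + i))
      ≤ ∑' i : ℕ, (volume (DDset k M (D1 + i - 1)) + volume (DDset k M (D1 + i)) +
          volume (LGset k (D1 + i))) := by
        refine ENNReal.tsum_le_tsum fun i => (measure_union_le _ _).trans ?_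
        gcongr
        exact measure_union_le _ _
    _ = ∑' i : ℕ, volume (DDset k M (D1 + i - 1)) + ∑' i : ℕ, volume (DDset k M (D1 + i)) +
          ∑' i : ℕ, volume (LGset k (D1 + i)) := by
        rw [ENNReal.tsum_add, ENNReal.tsum_add]
    _ ≤ rho k D0 M + rho k D0 M + ENNReal.ofReal (e k) := by gcongr
    _ ≤ 2 * (ENNReal.ofReal (e k) + rho k D0 M) := by
        rw [mul_add, two_mul, two_mul]
        calc rho k D0 M + rho k D0 M + ENNReal.ofReal (e k)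
            ≤ rho k D0 M + rho k D0 M + (ENNReal.ofReal (e k) + ENNReal.ofReal (e k)) := by
              gcongr; exact le_add_self
          _ = _ := by ring

/-- **V4** from CORE2. -/
theorem v4_of_core (hC : CoreStmt2) : Skel.V4 := by
  obtain ⟨K0, hK⟩ := prod_of_core hC
  intro D0
  set D1 : ℕ := max (D0 + 1) 600 with hD1
  refine ⟨max 1000 (2 * (D1 + 2)), fun L0 hL0 => ⟨4 * 10 ^ 7,
    max K0 (max ((10:ℝ) ^ 9) (max ((2:ℝ) ^ 400) L0)), fun k hk M M' => ?_⟩⟩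
  have hkK : K0 ≤ k := (le_max_left _ _).trans hk
  have hk' := (le_max_right _ _).trans hk
  have hk9 : (10:ℝ) ^ 9 ≤ k := (le_max_left _ _).trans hk'
  have hk'' := (le_max_right _ _).trans hk'
  have hk400 : (2:ℝ) ^ 400 ≤ k := (le_max_left _ _).trans hk''
  have hkL : (L0 : ℝ) ≤ k := (le_max_right _ _).trans hk''
  have hk6 : (10:ℝ) ^ 6 ≤ k := le_trans (by norm_num) hk9
  have hk1 : (1:ℝ) ≤ k := le_trans (by norm_num) hk6
  have h1000 : 1000 ≤ L0 := (le_max_left _ _).trans hL0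
  have hLD : 2 * (D1 + 2) ≤ L0 := (le_max_right _ _).trans hL0
  have hDa : D0 + 1 ≤ D1 := le_max_left _ _
  have hDb : 600 ≤ D1 := le_max_right _ _
  have hsub : Rc k L0 M ∩ bw (Rc k L0 M') ⊆
      ⋃ i, ⋃ j, (B k M (D1 + i) ∩ Prod.swap ⁻¹' B k M' (D1 + j)) := by
    rintro z ⟨h1, h2⟩
    obtain ⟨i, hi⟩ := cover hk9 hkL h1000 hLD h1
    obtain ⟨j, hj⟩ := cover hk9 hkL h1000 hLD (z := z.swap) h2
    exact mem_iUnion.2 ⟨i, mem_iUnion.2 ⟨j, hi, hj⟩⟩
  calc volume (Rc k L0 M ∩ bw (Rc k L0 M'))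
      ≤ ∑' i, ∑' j, volume (B k M (D1 + i) ∩ Prod.swap ⁻¹' B k M' (D1 + j)) := by
        refine (measure_mono hsub).trans ((measure_iUnion_le _).trans ?_)
        exact ENNReal.tsum_le_tsum fun i => measure_iUnion_le _
    _ ≤ ∑' i, ∑' j, 10 ^ 7 * (volume (Qs k M (D1 + i)) * volume (Qs k M' (D1 + j))) := by
        refine ENNReal.tsum_le_tsum fun i => ENNReal.tsum_le_tsum fun j => ?_
        exact hK k hkK _ _ (pow_le_pow_right₀ hk1 (by omega)) (pow_le_pow_right₀ hk1 (by omega))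
          _ _ _ _ (measurable_Qs k M (D1 + i)) (measurable_Qs k M' (D1 + j))
          (fun a b h => adm_of_B hk9 (by omega) h) (fun a b h => adm_of_B hk9 (by omega) h)
    _ = 10 ^ 7 * ((∑' i, volume (Qs k M (D1 + i))) * ∑' j, volume (Qs k M' (D1 + j))) := by
        simp_rw [ENNReal.tsum_mul_left, ENNReal.tsum_mul_right]
    _ ≤ 10 ^ 7 * ((2 * (ENNReal.ofReal (e k) + rho k D0 M)) *
          (2 * (ENNReal.ofReal (e k) + rho k D0 M'))) := by
        gcongr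
        · exact sum_le hk6 hk400 hDa hDb
        · exact sum_le hk6 hk400 hDa hDb
    _ = ((4 * 10 ^ 7 : ℝ≥0) : ℝ≥0∞) * ((ENNReal.ofReal (e k) + rho k D0 M) *
          (ENNReal.ofReal (e k) + rho k D0 M')) := by
        push_cast
        ring

end Crest.Agent.R128.V4F
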