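import Crest.Agent.R128.Sh438E
import Crest.Agent.R128.CoreA
import Crest.Agent.R128.CoreAsm
import Crest.Agent.R128.V4Of

/-! Row 128: `Skel.V4`, assembled from the shadowing half (`Sh438.shadow_stmt`), the coherence half
(helper516's `CoreA.coh_stmt`), helper756's assembly and helper287's `V4Of`. -/

namespace Crest.Agent.R128.V4Fin438

theorem coreStmt2 : Core.CoreStmt2 := Core.coreStmt2_of Sh438.shadow_stmt CoreA.coh_stmt

theorem v4 : Skel.V4 := V4Of.v4_of_core coreStmt2

end Crest.Agent.R128.V4Fin438
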