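import Mathlib
import Crest.Agent.R128.V5FinX
import Crest.Agent.R128.LocG
import Crest.Agent.R128.GMeas

/-!
# Row 128, V5-FINAL, plug-in of `Good.G` (helper422)
-/

set_option autoImplicit false
open MeasureTheory

namespace Crest.Agent.R128.V5FinX

open Crest.Agent.R128

/-- the local hull bound for 398's good events, from `LocA` and `LocB` (284's `LocG.hloc`) -/
theorem locH (hB : Loc.LocB) (hA : ∃ L1 : ℕ, ∀ L, L1 ≤ L → Good.LocA L) : LocH Good.G 80 := by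
  obtain ⟨L1, hA⟩ := hA
  refine ⟨L1, fun L hL => ?_⟩
  obtain ⟨C1, -, hA'⟩ := (LocG.locA_iff L).1 (hA L hL)
  obtain ⟨c₀, h0, h1, H⟩ := LocG.hloc (C1 := C1) hB
  obtain ⟨k1, H⟩ := H L hA'
  exact ⟨1 - c₀, by linarith, by linarith, k1, fun k hk c n g m _ hg => H k hk n g hg c m⟩

/-- **V5** -/
theorem v5_good {R0 a : ℕ} (hB : Loc.LocB) (hA : ∃ L1 : ℕ, ∀ L, L1 ≤ L → Good.LocA L)
    (hbr : BridgeD Good.G R0 a) : Skel.V5 :=
  v5_of (fun k L n => GMeas.measurableSet_G k L n) (locH hB hA) hbr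

end Crest.Agent.R128.V5FinX
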