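import Mathlib
import Crest.Agent.R128.V5End
import Crest.Agent.R128.Bridge882C
import Crest.Agent.R128.GMeas
import Crest.Agent.R128.GoodMono
import Crest.Agent.R128.LocB2

/-!
Row 128: `Skel.V5` from `Loc.RA` and `Good.LocA L₀` for ONE `L₀` (helper862; glue of 284 LocG,
365 GMeas, 366 GoodMono, 548 LocB2, 882 Bridge882C, 862 V5End).
-/

set_option autoImplicit false
open MeasureTheory
open Crest.Agent.R128

namespace Crest.Agent.R128.V5Glue862

theorem many_mono {η : ℝ} {G G' : ℕ → Set Tor} (h : ∀ n, G n ⊆ G' n) (P : Finset ℕ) :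
    PayArea.Many η G P ⊆ PayArea.Many η G' P := by
  rintro z ⟨s, h1, h2, h3⟩
  exact ⟨s, h1, h2, fun i hi => h i (h3 i hi)⟩

theorem v5_of_LocB {L₀ : ℕ} (h1 : 1 ≤ L₀) (hB : Loc.LocB) (hA : Good.LocA L₀) : Skel.V5 := by
  obtain ⟨C1, -, hA'⟩ := (LocG.locA_iff L₀).1 hA
  obtain ⟨η, θ, hη, -, hθ0, hθ1, H⟩ := LocG.area C1 hB
  obtain ⟨ka, Ha⟩ := H L₀ hA'
  refine V5End.v5_of (S := 86) (by norm_num) ⟨η, θ, hη, hθ0, hθ1, L₀, fun L hL => ?_⟩
    Bridge882.br_all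
  obtain ⟨kb, Hb⟩ := GoodMono.G_subset h1 hL
  refine ⟨max ka kb, fun k hk g hg P hP => ?_⟩
  refine (measure_mono (Set.inter_subset_inter_right _ (many_mono
    (Hb k ((le_max_right _ _).trans hk)) P))).trans ?_
  exact Ha k ((le_max_left _ _).trans hk) (fun n => GMeas.measurableSet_G k L₀ n) g hg P hP

theorem v5_of_RA {L₀ : ℕ} (h1 : 1 ≤ L₀) (hRA : Loc.RA) (hA : Good.LocA L₀) : Skel.V5 :=
  v5_of_LocB h1 (Loc.locB_of_RA hRA) hA

end Crest.Agent.R128.V5Glue862
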