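import Crest.Agent.R128.V5FinX
import Crest.Agent.R128.LocG
import Crest.Agent.R128.GMeas

/-!
# Row 128, V5 from its four leaves (helper924): composition test of the landed statements
-/

set_option autoImplicit false

namespace Crest.Agent.R128.V5Glue924

open Crest.Agent.R128

/-- LOC in 422's form from `LocA` and `LocB` -/
theorem locH (hB : Loc.LocB) (hA : ∃ L1 : ℕ, ∀ L, L1 ≤ L → Good.LocA L) :
    V5FinX.LocH Good.G 80 := by
  obtain ⟨L1, hA⟩ := hA
  refine ⟨L1, fun L hL => ?_⟩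
  obtain ⟨C1, -, hA'⟩ := (LocG.locA_iff L).1 (hA L hL)
  obtain ⟨c₀, h0, h1, h⟩ := LocG.hloc (C1 := C1) hB
  obtain ⟨k1, hk1⟩ := h L hA'
  exact ⟨1 - c₀, by linarith, by linarith, k1, fun k hk c n g m _ hg => hk1 k hk n g hg c m⟩

theorem v5 (hB : Loc.LocB) (hA : ∃ L1 : ℕ, ∀ L, L1 ≤ L → Good.LocA L) {R0 a : ℕ}
    (hbr : V5FinX.BridgeD Good.G R0 a) : Skel.V5 :=
  V5FinX.v5_of (fun k L n => GMeas.measurableSet_G k L n) (locH hB hA) hbr

end Crest.Agent.R128.V5Glue924
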