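import Crest.Agent.R128.Skel
import Crest.Agent.R128.LocG

/-!
# Row 128, V5: final counting (helper200, second implementer; helper183 is the owner)

`Bridge` (root contour run of fresh levels ⇒ `Good.VF`) + `Good.LocA` + `Loc.LocB` + measurability
of `Good.G` ⇒ `Skel.V5`.
-/

set_option autoImplicit false
open MeasureTheory Filter Topology Finset
open scoped ENNReal NNReal
open Crest.AnalysisR.StandardFamily

namespace Crest.Agent.R128.V5H

open Crest.Agent.R128.Acc Crest.Agent.R128.AccRoot Crest.Agent.R128.Close Crest.Agent.R128.Skel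

/-- a run of `2 b + 1` consecutive fresh levels of the root contour around the depth `r` gives a
doubly very fresh level of depth `bz t - lv * κ` (in nats; it lies in `(r κ - κ, r κ]`). -/
def Bridge (b : ℕ) : Prop := ∃ L1 : ℕ, ∀ L0, L1 ≤ L0 → ∃ Q1 : ℕ, ∃ k₁ : ℝ, ∀ k, k₁ ≤ k →
  ∀ (N : ℕ) (z : Tor) (t r : ℕ), Q1 ≤ r → r + b ≤ mt (bz k z) (Real.log k) N t →
    (∀ r', r ≤ r' + b → r' ≤ r + b → ¬ nf k L0 N z t (lv k z t r')) →
    Good.VF k L0 (bz k z t - (lv k z t r : ℕ) * Real.log k) ((T k)^[t] z)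

/-- the depth index of the `j`-th grid point -/
noncomputable def ri (x : ℝ) (j : ℕ) : ℕ := ⌈x * j⌉₊ + 1

theorem ri_lower {x : ℝ} (hx : 80 ≤ x) (j : ℕ) : 80 * j + 1 ≤ ri x j := by
  unfold ri
  have h1 : ((80 * j : ℕ) : ℝ) ≤ x * j := by
    push_cast
    exact mul_le_mul_of_nonneg_right hx (Nat.cast_nonneg j)
  have h2 : 80 * j ≤ ⌈x * j⌉₊ := by
    exact_mod_cast h1.trans (Nat.le_ceil _)
  omega

theorem ri_upper {x : ℝ} (hx : x ≤ 81) (j : ℕ) : ri x j ≤ 81 * j + 1 := by
  unfold ri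
  have h2 : ⌈x * j⌉₊ ≤ 81 * j := by
    apply Nat.ceil_le.mpr
    push_cast
    exact mul_le_mul_of_nonneg_right hx (Nat.cast_nonneg j)
  omega

theorem ri_lt {x : ℝ} (hx : 80 ≤ x) {i j : ℕ} (h : i < j) : ri x i < ri x j := by
  unfold ri
  have h1 : x * i + 1 ≤ x * j := by
    have h3 : (i : ℝ) + 1 ≤ j := by exact_mod_cast h
    have h4 : x * ((i : ℝ) + 1) ≤ x * j := mul_le_mul_of_nonneg_left h3 (by linarith)
    linarith
  have h2 : ⌈x * i⌉₊ + 1 ≤ ⌈x * j⌉₊ := by
    have h5 : ((⌈x * i⌉₊ : ℕ) : ℝ) < x * i + 1 := Nat.ceil_lt_add_one (by positivity)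
    have h6 : ((⌈x * i⌉₊ : ℕ) : ℝ) < (⌈x * j⌉₊ : ℕ) :=
      h5.trans_le (h1.trans (Nat.le_ceil _))
    exact_mod_cast h6
  omega

open Classical in
/-- counting: the grid points whose window is not completely fresh -/
theorem card_bad_le {x : ℝ} (hx : 80 ≤ x) (b : ℕ) (J I : Finset ℕ) (p : ℕ → Prop)
    (hI : ∀ j ∈ J, ∀ r', ri x j ≤ r' + b → r' ≤ ri x j + b → r' ∈ I) :
    #{j ∈ J | ∃ r', ri x j ≤ r' + b ∧ r' ≤ ri x j + b ∧ p r'} ≤ (2 * b + 1) * #{r ∈ I | p r} := by
  have h1 : ({j ∈ J | ∃ r', ri x j ≤ r' + b ∧ r' ≤ ri x j + b ∧ p r'} : Finset ℕ) ⊆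
      ({r ∈ I | p r} : Finset ℕ).biUnion
        (fun r' => ({j ∈ J | ri x j ≤ r' + b ∧ r' ≤ ri x j + b} : Finset ℕ)) := by
    intro j hj
    rw [mem_filter] at hj
    obtain ⟨hj, r', h2, h3, h4⟩ := hj
    rw [mem_biUnion]
    exact ⟨r', mem_filter.mpr ⟨hI j hj r' h2 h3, h4⟩, mem_filter.mpr ⟨hj, h2, h3⟩⟩
  refine (card_le_card h1).trans ?_
  rw [mul_comm]
  refine card_biUnion_le_card_mul _ _ _ fun r' _ => ?_
  have h2 : (({j ∈ J | ri x j ≤ r' + b ∧ r' ≤ ri x j + b} : Finset ℕ)).image (ri x) ⊆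
      Icc (r' - b) (r' + b) := by
    intro s hs
    rw [mem_image] at hs
    obtain ⟨j, hj, rfl⟩ := hs
    rw [mem_filter] at hj
    rw [mem_Icc]
    omega
  have h3 := card_le_card h2
  rw [card_image_of_injOn] at h3
  · refine h3.trans ?_
    rw [Nat.card_Icc]
    omega
  · intro i _ j _ hij
    rcases Nat.lt_trichotomy i j with h | h | h
    · exact absurd hij (ri_lt hx h).ne
    · exact h
    · exact absurd hij (ri_lt hx h).ne'

theorem v5_of {b : ℕ} (hA : ∃ L1 : ℕ, ∀ L, L1 ≤ L → Good.LocA L) (hB : Loc.LocB)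
    (hM : ∃ L1 : ℕ, ∀ L, L1 ≤ L → ∃ k₁ : ℝ, ∀ k, k₁ ≤ k → ∀ n, MeasurableSet (Good.G k L n))
    (hBr : Bridge b) : V5 := by
  classical
  obtain ⟨La, hA⟩ := hA
  obtain ⟨Lm, hM⟩ := hM
  obtain ⟨Lb, hBr⟩ := hBr
  refine ⟨max La (max Lm Lb), fun L0 hL0 => ?_⟩
  obtain ⟨C1, -, hAC⟩ := (LocG.locA_iff L0).mp (hA L0 (by omega))
  obtain ⟨km, hM⟩ := hM L0 (by omega)
  obtain ⟨Qb, kb, hBr⟩ := hBr L0 (by omega)
  obtain ⟨η, θ, hη0, -, hθ0, hθ1, harea⟩ := LocG.area C1 hB
  obtain ⟨ka, harea⟩ := harea L0 hAC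
  -- the fraction parameter
  obtain ⟨R, hR⟩ := exists_nat_gt (8 * (2 * b + 1) / η)
  have hRpos : 0 < R := by
    rcases Nat.eq_zero_or_pos R with h | h
    · rw [h] at hR
      have : (0 : ℝ) ≤ 8 * (2 * b + 1) / η := by positivity
      simp only [Nat.cast_zero] at hR
      linarith
    · exact h
  refine ⟨R, 1000 * (b + 1) + Qb, 2, θ ^ (1 / 8 : ℝ), by norm_num, Real.rpow_pos_of_pos hθ0 _,
    Real.rpow_lt_one hθ0.le hθ1 (by norm_num), max (max ka km) (max kb 2), fun k hk Q hQ => ?_⟩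
  have hQ1 : 1000 ≤ Q := by omega
  have hka : ka ≤ k := (le_max_left _ _).trans ((le_max_left _ _).trans hk)
  have hkm : km ≤ k := (le_max_right _ _).trans ((le_max_left _ _).trans hk)
  have hkb : kb ≤ k := (le_max_left _ _).trans ((le_max_right _ _).trans hk)
  have hk2 : (2 : ℝ) ≤ k := (le_max_right _ _).trans ((le_max_right _ _).trans hk)
  set κ := Real.log k with hκ
  have hl2 : 0 < Real.log 2 := Real.log_pos (by norm_num)
  have hκ2 : Real.log 2 ≤ κ := Real.log_le_log (by norm_num) hk2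
  have hκ0 : 0 < κ := hl2.trans_le hκ2
  set g := ⌈80 * κ / Real.log 2⌉₊ with hg
  have hg1 : 80 * κ ≤ g * Real.log 2 := by
    have := Nat.le_ceil (80 * κ / Real.log 2)
    rwa [div_le_iff₀ hl2] at this
  have hg2 : g * Real.log 2 ≤ 81 * κ := by
    have := (Nat.ceil_lt_add_one (a := 80 * κ / Real.log 2) (by positivity)).le
    rw [← hg] at this
    have h1 : (g : ℝ) * Real.log 2 ≤ (80 * κ / Real.log 2 + 1) * Real.log 2 :=
      mul_le_mul_of_nonneg_right this hl2.le
    have h2 : (80 * κ / Real.log 2 + 1) * Real.log 2 = 80 * κ + Real.log 2 := by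
      field_simp
    linarith
  set x := g * Real.log 2 / κ with hx
  have hx1 : 80 ≤ x := by rw [hx, le_div_iff₀ hκ0]; exact hg1
  have hx2 : x ≤ 81 := by rw [hx, div_le_iff₀ hκ0]; exact hg2
  have hkg : k ^ 80 ≤ 2 ^ g := by
    have h1 : Real.log (k ^ 80) ≤ Real.log (2 ^ g) := by
      rw [Real.log_pow, Real.log_pow]
      push_cast
      exact hg1
    exact (Real.log_le_log_iff (by positivity) (by positivity)).mp h1
  -- the grid
  set J : Finset ℕ := Ico (Q / 80 + b + 1) (Q / 6) with hJ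
  set P : Finset ℕ := J.image (fun j => g * j) with hP
  have hgpos : 0 < g := by
    rw [hg]
    exact Nat.ceil_pos.mpr (by positivity)
  have hPcard : P.card = J.card := by
    rw [hP]
    apply card_image_of_injective
    intro i j hij
    exact Nat.eq_of_mul_eq_mul_left hgpos hij
  have hJcard : J.card = Q / 6 - (Q / 80 + b + 1) := by rw [hJ, Nat.card_Ico]
  have hJQ : Q ≤ 8 * J.card := by
    rw [hJcard]
    omega
  have hsep : ∀ i ∈ P, ∀ j ∈ P, i < j → i + g ≤ j := by
    intro i hi j hj hij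
    rw [hP, mem_image] at hi hj
    obtain ⟨a, -, rfl⟩ := hi
    obtain ⟨c, -, rfl⟩ := hj
    have h1 : a < c := lt_of_mul_lt_mul_left hij (Nat.zero_le g)
    calc g * a + g = g * (a + 1) := by ring
      _ ≤ g * c := Nat.mul_le_mul_left g h1
  have h0 := harea k hka (hM k hkm) g hkg P hsep
  have hsub : {y : Tor | ∃ z t N, (T k)^[t] z = y ∧ FBR k L0 R N z t Q} ⊆
      {z : Tor | |V k z.2| ≤ 2} ∩ PayArea.Many η (Good.G k L0) P := by
    rintro y ⟨z, t, N, rfl, hmt, hfb⟩
    have hcomp : Comp (bz k z) (Real.log k) N t (⌈bz k z t / Real.log k⌉₊ - 1) :=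
      comp_sub (κ := Real.log k) hκ0 le_rfl (by omega)
    have hV : |V k ((T k)^[t] z).2| < 2 :=
      top_zero (V := dg k z) (rr_pos k z) (rr_h1 k z) hcomp.Top
    refine ⟨hV.le, ?_⟩
    set p : ℕ → Prop := fun r => nf k L0 N z t (lv k z t r) with hp
    set Bad : Finset ℕ := {j ∈ J | ∃ r', ri x j ≤ r' + b ∧ r' ≤ ri x j + b ∧ p r'} with hBad
    have hbad : Bad.card ≤ (2 * b + 1) * #{r ∈ Ico Q (16 * Q) | p r} := by
      refine card_bad_le hx1 b J (Ico Q (16 * Q)) p fun j hj r' h1 h2 => ?_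
      have h3 := ri_lower hx1 j
      have h4 := ri_upper hx2 j
      rw [hJ, mem_Ico] at hj
      rw [mem_Ico]
      omega
    have hsubJ : Bad ⊆ J := filter_subset _ _
    refine PayArea.mem_Many_of_card ((J \ Bad).image (fun j => g * j)) ?_ ?_
    · intro i hi
      rw [mem_image] at hi
      obtain ⟨j, hj, rfl⟩ := hi
      rw [Finset.mem_sdiff] at hj
      obtain ⟨hj, hjb⟩ := hj
      have h3 := ri_lower hx1 j
      have h4 := ri_upper hx2 j
      have hj' := hj
      rw [hJ, mem_Ico] at hj'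
      have hfresh : ∀ r', ri x j ≤ r' + b → r' ≤ ri x j + b →
          ¬ nf k L0 N z t (lv k z t r') := by
        intro r' h5 h6 h7
        exact hjb (mem_filter.mpr ⟨hj, r', h5, h6, h7⟩)
      have hVF := hBr k hkb N z t (ri x j) (by omega) (by omega) hfresh
      refine ⟨hV, _, ?_, ?_, hVF⟩
      · -- lower
        have hr : ri x j ≤ ⌈bz k z t / Real.log k⌉₊ := le_trans (by omega) (mt_le (N := N))
        have e1 : ((lv k z t (ri x j) : ℕ) : ℝ) = (⌈bz k z t / Real.log k⌉₊ : ℝ) - (ri x j : ℝ) := by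
          unfold lv
          rw [Nat.cast_sub hr]
        rw [e1]
        have hb0 : 0 ≤ bz k z t / Real.log k := by
          by_contra hc
          push Not at hc
          rw [Nat.ceil_eq_zero.mpr hc.le] at hr
          omega
        have h5 := Nat.ceil_lt_add_one hb0
        have h6 : x * j ≤ (ri x j : ℝ) - 1 := by
          unfold ri
          push_cast
          have := Nat.le_ceil (x * j)
          linarith
        have h7 : ((g * j : ℕ) : ℝ) * Real.log 2 = x * j * κ := by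
          rw [hx]
          push_cast
          field_simp
        rw [h7]
        have h8 : ((⌈bz k z t / Real.log k⌉₊ : ℕ) : ℝ) * Real.log k < bz k z t + Real.log k := by
          have := mul_lt_mul_of_pos_right h5 hκ0
          rw [← hκ] at this ⊢
          have e2 : (bz k z t / κ + 1) * κ = bz k z t + κ := by field_simp
          linarith
        have h9 : x * j * κ ≤ ((ri x j : ℝ) - 1) * κ := mul_le_mul_of_nonneg_right h6 hκ0.le
        rw [← hκ] at h8 ⊢
        nlinarith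
      · -- upper
        have hr : ri x j ≤ ⌈bz k z t / Real.log k⌉₊ := le_trans (by omega) (mt_le (N := N))
        have e1 : ((lv k z t (ri x j) : ℕ) : ℝ) = (⌈bz k z t / Real.log k⌉₊ : ℝ) - (ri x j : ℝ) := by
          unfold lv
          rw [Nat.cast_sub hr]
        rw [e1]
        have h5 := Nat.le_ceil (bz k z t / Real.log k)
        have h6 : (ri x j : ℝ) ≤ x * j + 2 := by
          unfold ri
          push_cast
          have := (Nat.ceil_lt_add_one (a := x * j) (by positivity)).le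
          linarith
        have h7 : ((g * j : ℕ) : ℝ) * Real.log 2 = x * j * κ := by
          rw [hx]
          push_cast
          field_simp
        rw [h7]
        have h8 : bz k z t ≤ ((⌈bz k z t / Real.log k⌉₊ : ℕ) : ℝ) * Real.log k := by
          rwa [div_le_iff₀ hκ0] at h5
        have h9 : (ri x j : ℝ) * κ ≤ (x * j + 2) * κ := mul_le_mul_of_nonneg_right h6 hκ0.le
        rw [← hκ] at h8 ⊢
        nlinarith
    · have h1 : (J \ Bad).image (fun j => g * j) ⊆ P := image_subset_image sdiff_subset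
      rw [inter_eq_left.mpr h1, hPcard, card_image_of_injective _ (fun i j hij =>
        Nat.eq_of_mul_eq_mul_left hgpos hij), card_sdiff_of_subset hsubJ,
        Nat.cast_sub (card_le_card hsubJ)]
      have h2 : (Bad.card : ℝ) ≤ (2 * b + 1) * (#{r ∈ Ico Q (16 * Q) | p r} : ℝ) := by
        exact_mod_cast hbad
      have h3 : (R : ℝ) * (#{r ∈ Ico Q (16 * Q) | p r} : ℝ) ≤ Q := by
        have : R * #{r ∈ Ico Q (16 * Q) | p r} ≤ Q := by
          refine le_of_lt ?_
          convert hfb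
        exact_mod_cast this
      have h4 : (Q : ℝ) ≤ 8 * (J.card : ℝ) := by exact_mod_cast hJQ
      have h5 : 8 * (2 * (b : ℝ) + 1) ≤ η * R := by
        rw [div_lt_iff₀ hη0] at hR
        linarith
      have hR0 : (0 : ℝ) < R := by exact_mod_cast hRpos
      set u : ℝ := (#{r ∈ Ico Q (16 * Q) | p r} : ℝ) with hu
      have hu0 : 0 ≤ u := Nat.cast_nonneg _
      -- (2b+1) u ≤ η J
      have h6 : (2 * (b : ℝ) + 1) * u ≤ η * J.card := by
        have h7 : 8 * ((2 * (b : ℝ) + 1) * u) ≤ η * (R * u) := by nlinarith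
        have h8 : η * (R * u) ≤ η * Q := mul_le_mul_of_nonneg_left h3 hη0.le
        have h9 : η * (Q : ℝ) ≤ η * (8 * J.card) := mul_le_mul_of_nonneg_left h4 hη0.le
        linarith
      linarith
  refine (measure_mono hsub).trans (h0.trans (ENNReal.ofReal_le_ofReal ?_))
  refine mul_le_mul_of_nonneg_left ?_ (by positivity)
  rw [hPcard, ← Real.rpow_natCast, ← Real.rpow_natCast, ← Real.rpow_mul hθ0.le]
  refine Real.rpow_le_rpow_of_exponent_ge hθ0 hθ1.le ?_
  have h4 : (Q : ℝ) ≤ 8 * (J.card : ℝ) := by exact_mod_cast hJQ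
  linarith

end Crest.Agent.R128.V5H
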