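import Mathlib
import Crest.Agent.R128.CleanCont
import Crest.Agent.R128.Rev
import Crest.Agent.R128.Lam0U
import Crest.Agent.R128.Good
import Crest.Agent.R128.FootU

/-!
Row 128, node V5 (helper196): validity of the reversed point at the foot gives the numeric data
`CleanNum.Clean` of helper816 (`δ = 1/60`, `K = 3`, `A = 8k`, `c0 = 3`).

`Y` = torus point `(x_0, x_1)`, `n` = foot; `zf k Y n` = field along the digits of `Y` which equals
`(1, 0)` at time `n`; its size at time `m ≤ n` is the size of the `(0,1)` field of the reversed point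
`((T k)^[n] Y).swap` at time `n - m`.
-/

set_option autoImplicit false

open Finset
open Crest.Agent.R128 Crest.Agent.R128.TreeSum Crest.Agent.R128.Lam0 Crest.Agent.R128.Good

namespace Crest.Agent.R128.VClean

/-! ### the forward estimates for the field of the reversed point -/

/-- growth along regular digits, with the ratio -/
theorem base2 {k : ℝ} {L : ℕ} {z : Tor} {B : ℝ} (hB : 1 ≤ B)
    (h : ∀ m, m < L → B + 1 ≤ |V k ((T k)^[m] z).2|) :
    ∀ m ≤ L, B ^ m ≤ |(fld k z m).2| ∧ |(fld k z m).1| ≤ |(fld k z m).2| ∧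
      (m < L → B * |(fld k z m).2| ≤ |(fld k z (m + 1)).2|) := by
  have step : ∀ m, m < L → |(fld k z m).1| ≤ |(fld k z m).2| →
      B * |(fld k z m).2| ≤ |(fld k z (m + 1)).2| := by
    intro m hm h2
    have h3 := h m hm
    rw [fld_succ]
    have e2 : (stp (V k ((T k)^[m] z).2) (fld k z m)).2 =
        V k ((T k)^[m] z).2 * (fld k z m).2 - (fld k z m).1 := rfl
    rw [e2]
    have h4 : |V k ((T k)^[m] z).2 * (fld k z m).2| - |(fld k z m).1| ≤
        |V k ((T k)^[m] z).2 * (fld k z m).2 - (fld k z m).1| := abs_sub_abs_le_abs_sub _ _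
    rw [abs_mul] at h4
    have h5 : (B + 1) * |(fld k z m).2| ≤ |V k ((T k)^[m] z).2| * |(fld k z m).2| :=
      mul_le_mul_of_nonneg_right h3 (abs_nonneg _)
    nlinarith
  have main : ∀ m ≤ L, B ^ m ≤ |(fld k z m).2| ∧ |(fld k z m).1| ≤ |(fld k z m).2| := by
    intro m
    induction m with
    | zero =>
      intro _
      rw [fld_zero]
      simp
    | succ m ih =>
      intro hm
      obtain ⟨h1, h2⟩ := ih (by omega)
      have h6 := step m (by omega) h2
      have e1 : (fld k z (m + 1)).1 = (fld k z m).2 := by rw [fld_succ]; rfl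
      refine ⟨?_, ?_⟩
      · calc B ^ (m + 1) = B * B ^ m := by ring
          _ ≤ B * |(fld k z m).2| := mul_le_mul_of_nonneg_left h1 (by linarith)
          _ ≤ _ := h6
      · rw [e1]
        calc |(fld k z m).2| = 1 * |(fld k z m).2| := (one_mul _).symm
          _ ≤ B * |(fld k z m).2| := mul_le_mul_of_nonneg_right hB (abs_nonneg _)
          _ ≤ _ := h6
  intro m hm
  obtain ⟨h1, h2⟩ := main m hm
  exact ⟨h1, h2, fun hlt => step m hlt h2⟩

/-- size of the field of the point `z` -/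
noncomputable def F (k : ℝ) (z : Tor) (m : ℕ) : ℝ := nn (fld k z m)

theorem pow_two_thirds {k : ℝ} (hk : (2 : ℝ) ^ 120 ≤ k) : (2 : ℝ) ^ 61 ≤ k ^ ((2 : ℝ) / 3) := by
  have h1 : ((2 : ℝ) ^ 120) ^ ((2 : ℝ) / 3) ≤ k ^ ((2 : ℝ) / 3) :=
    Real.rpow_le_rpow (by positivity) hk (by norm_num)
  have h2 : ((2 : ℝ) ^ 120) ^ ((2 : ℝ) / 3) = 2 ^ 80 := by
    rw [← Real.rpow_natCast 2 120, ← Real.rpow_mul (by norm_num), ← Real.rpow_natCast 2 80]
    norm_num
  rw [h2] at h1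
  refine le_trans ?_ h1
  norm_num

section
variable {k : ℝ} {L : ℕ} {z : Tor} {n : ℕ}

theorem reg (h : CVal k L z n) (hk : (2 : ℝ) ^ 120 ≤ k) :
    ∀ m, m < min L n → (2 : ℝ) ^ 60 + 1 ≤ |V k ((T k)^[m] z).2| := by
  intro m hm
  have h1 := h.cl m (by omega) (by omega)
  have h2 := pow_two_thirds hk
  have h3 : (2 : ℝ) ^ 60 + 1 ≤ 2 ^ 61 := by norm_num
  linarith

theorem early (h : CVal k L z n) (hk : (2 : ℝ) ^ 120 ≤ k) {m : ℕ} (hm : m ≤ L) (hn : m ≤ n) :
    ((2 : ℝ) ^ 60) ^ m ≤ F k z m := by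
  have h1 := (base2 (B := (2 : ℝ) ^ 60) (by norm_num) (reg h hk) m (by omega)).1
  exact h1.trans (abs_snd_le _)

theorem mono_step (h : CVal k L z n) (hk : (2 : ℝ) ^ 120 ≤ k) {m : ℕ} (hm : m < L) (hn : m < n) :
    F k z m ≤ F k z (m + 1) := by
  obtain ⟨_, h2, h3⟩ := base2 (B := (2 : ℝ) ^ 60) (by norm_num) (reg h hk) m (by omega)
  have h4 := h3 (by omega)
  have h5 := nn_le_add (fld k z m)
  have h6 := abs_snd_le (fld k z (m + 1))
  have h7 : (2 : ℝ) * |(fld k z m).2| ≤ 2 ^ 60 * |(fld k z m).2| :=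
    mul_le_mul_of_nonneg_right (by norm_num) (abs_nonneg _)
  unfold F
  linarith

theorem mono (h : CVal k L z n) (hk : (2 : ℝ) ^ 120 ≤ k) {i j : ℕ} (hij : i ≤ j) (hj : j ≤ L)
    (hn : j ≤ n) : F k z i ≤ F k z j := by
  induction j, hij using Nat.le_induction with
  | base => exact le_rfl
  | succ j hij ih => exact (ih (by omega) (by omega)).trans (mono_step h hk (by omega) (by omega))

/-- late times: the field is huge -/
theorem late (h : CVal k L z n) (hk : (2 : ℝ) ^ 120 ≤ k) (hL : 1000 ≤ L) {m : ℕ} (hm : L ≤ m) (hn : m ≤ n) :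
    (2 : ℝ) ^ 200 ≤ ‖fld k z m‖ := by
  have h1 := h.v2 L m le_rfl hm hn
  have h2 : (2 : ℝ) ^ 300 ≤ ‖fld k z L‖ := by
    have h3 := (base2 (B := (2 : ℝ) ^ 60) (by norm_num) (reg h hk) L (by omega)).1
    have h4 : |(fld k z L).2| ≤ ‖fld k z L‖ := by simpa using norm_snd_le (fld k z L)
    refine le_trans ?_ (h3.trans h4)
    rw [← pow_mul]
    exact pow_le_pow_right₀ (by norm_num) (by omega)
  have h5 : ((2 : ℝ) ^ 300) ^ 99 ≤ ‖fld k z m‖ ^ 100 :=
    (pow_le_pow_left₀ (by positivity) h2 99).trans h1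
  have h6 : ((2 : ℝ) ^ 200) ^ 100 ≤ ‖fld k z m‖ ^ 100 := by
    refine le_trans ?_ h5
    rw [← pow_mul, ← pow_mul]
    exact pow_le_pow_right₀ (by norm_num) (by norm_num)
  exact le_of_pow_le_pow_left₀ (by norm_num) (norm_nonneg _) h6

theorem one (h : CVal k L z n) (hk : (2 : ℝ) ^ 120 ≤ k) (hL : 1000 ≤ L) {m : ℕ} (hn : m ≤ n) : 1 ≤ F k z m := by
  rcases le_total m L with hm | hm
  · exact (one_le_pow₀ (by norm_num)).trans (early h hk hm hn)
  · have h1 := late h hk hL hm hn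
    have h2 := norm_le_nn (fld k z m)
    unfold F
    have h3 : (1 : ℝ) ≤ 2 ^ 200 := by norm_num
    linarith

theorem val_late (h : CVal k L z n) (hk : (2 : ℝ) ^ 120 ≤ k) (hL : 1000 ≤ L) {i j : ℕ} (hi : L ≤ i) (hij : i ≤ j)
    (hj : j ≤ n) : F k z i ^ (1 - 1 / 60 : ℝ) ≤ F k z j := by
  have h1 := h.v2 i j hi hij hj
  have h2 := norm_le_nn (fld k z j)
  have h3 := nn_le_norm (fld k z i)
  have h4 := late h hk hL hi (hij.trans hj)
  have hF : 0 ≤ F k z i := nn_nonneg _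
  set a := ‖fld k z i‖ with ha
  set b := ‖fld k z j‖ with hb
  have hb0 : 0 ≤ b := norm_nonneg _
  have ha0 : 0 < a := lt_of_lt_of_le (by positivity) h4
  -- `a ^ (99/100) ≤ b`
  have h5 : a ^ (99 / 100 : ℝ) ≤ b := by
    have e1 : (a ^ 99) ^ (1 / 100 : ℝ) ≤ (b ^ 100) ^ (1 / 100 : ℝ) :=
      Real.rpow_le_rpow (by positivity) h1 (by norm_num)
    rw [← Real.rpow_natCast a 99, ← Real.rpow_natCast b 100, ← Real.rpow_mul ha0.le,
      ← Real.rpow_mul hb0] at e1
    norm_num at e1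
    convert e1 using 2
  -- `F i ≤ 2 a`
  have h6 : F k z i ^ (1 - 1 / 60 : ℝ) ≤ (2 * a) ^ (1 - 1 / 60 : ℝ) :=
    Real.rpow_le_rpow hF h3 (by norm_num)
  have h7 : (2 * a) ^ (1 - 1 / 60 : ℝ) ≤ a ^ (99 / 100 : ℝ) := by
    rw [Real.mul_rpow (by norm_num) ha0.le]
    have e1 : a ^ (99 / 100 : ℝ) = a ^ (1 / 150 : ℝ) * a ^ (1 - 1 / 60 : ℝ) := by
      rw [← Real.rpow_add ha0]; norm_num
    rw [e1]
    apply mul_le_mul_of_nonneg_right _ (Real.rpow_nonneg ha0.le _)
    calc (2 : ℝ) ^ (1 - 1 / 60 : ℝ) ≤ 2 ^ (200 / 150 : ℝ) :=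
          Real.rpow_le_rpow_of_exponent_le (by norm_num) (by norm_num)
      _ = ((2 : ℝ) ^ 200) ^ (1 / 150 : ℝ) := by
          rw [← Real.rpow_natCast 2 200, ← Real.rpow_mul (by norm_num)]
          norm_num
      _ ≤ a ^ (1 / 150 : ℝ) := Real.rpow_le_rpow (by positivity) h4 (by norm_num)
  exact h6.trans (h7.trans (h5.trans h2))

theorem val (h : CVal k L z n) (hk : (2 : ℝ) ^ 120 ≤ k) (hL : 1000 ≤ L) {i j : ℕ} (hij : i ≤ j)
    (hj : j ≤ n) : F k z i ^ (1 - 1 / 60 : ℝ) ≤ F k z j := by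
  have hle : ∀ m, m ≤ n → F k z m ^ (1 - 1 / 60 : ℝ) ≤ F k z m := by
    intro m hm
    calc F k z m ^ (1 - 1 / 60 : ℝ) ≤ F k z m ^ (1 : ℝ) :=
          Real.rpow_le_rpow_of_exponent_le (one h hk hL hm) (by norm_num)
      _ = F k z m := Real.rpow_one _
  rcases le_total j L with h1 | h1
  · exact (hle i (hij.trans hj)).trans (mono h hk hij h1 hj)
  · rcases le_total i L with h2 | h2
    · have h3 : F k z i ≤ F k z L := mono h hk h2 le_rfl (h1.trans hj)
      have h4 : F k z i ^ (1 - 1 / 60 : ℝ) ≤ F k z L ^ (1 - 1 / 60 : ℝ) :=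
        Real.rpow_le_rpow (nn_nonneg _) h3 (by norm_num)
      exact h4.trans (val_late h hk hL le_rfl h1 hj)
    · exact val_late h hk hL h2 hij hj

theorem term (h : CVal k L z n) (hk : (2 : ℝ) ^ 120 ≤ k) (hL : 1000 ≤ L) {m : ℕ} (hn : m ≤ n) :
    F k z m ^ (-(1 / 60) : ℝ) ≤ (1 / 2 : ℝ) ^ m + 1 / (((m : ℝ) + 1) * (m + 2)) := by
  have hF0 : 0 < F k z m := lt_of_lt_of_le one_pos (one h hk hL hn)
  rcases le_total m L with hm | hm
  · have h1 := early h hk hm hn
    have h2 : F k z m ^ (-(1 / 60) : ℝ) ≤ (((2 : ℝ) ^ 60) ^ m) ^ (-(1 / 60) : ℝ) :=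
      Real.rpow_le_rpow_of_nonpos (by positivity) h1 (by norm_num)
    have h3 : (((2 : ℝ) ^ 60) ^ m) ^ (-(1 / 60) : ℝ) = (1 / 2 : ℝ) ^ m := by
      have e2 : (1 / 2 : ℝ) ^ m = (2 : ℝ) ^ (-(m : ℝ)) := by
        rw [Real.rpow_neg (by norm_num), Real.rpow_natCast, one_div, inv_pow]
      rw [e2, ← pow_mul, ← Real.rpow_natCast 2 (60 * m), ← Real.rpow_mul (by norm_num)]
      congr 1
      push_cast
      ring
    rw [h3] at h2
    have h4 : 0 ≤ 1 / (((m : ℝ) + 1) * (m + 2)) := by positivity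
    linarith
  · obtain ⟨i, hi1, hi2, hi3⟩ := h.v3 m hm hn
    have h1 := h.v2 i m hi1 hi2 hn
    have hm0 : (0 : ℝ) < m := by
      have : 0 < m := by omega
      exact_mod_cast this
    have h2 : ((m : ℝ) ^ 400) ^ 99 ≤ ‖fld k z m‖ ^ 100 :=
      (pow_le_pow_left₀ (by positivity) hi3 99).trans h1
    have h3 : (m : ℝ) ^ 396 ≤ ‖fld k z m‖ := by
      have e1 : ((m : ℝ) ^ 396) ^ 100 ≤ ‖fld k z m‖ ^ 100 := by
        refine le_trans (le_of_eq ?_) h2
        rw [← pow_mul, ← pow_mul]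
      exact le_of_pow_le_pow_left₀ (by norm_num) (norm_nonneg _) e1
    have h4 : (m : ℝ) ^ 396 ≤ F k z m := h3.trans (norm_le_nn _)
    have h5 : F k z m ^ (-(1 / 60) : ℝ) ≤ ((m : ℝ) ^ 396) ^ (-(1 / 60) : ℝ) :=
      Real.rpow_le_rpow_of_nonpos (by positivity) h4 (by norm_num)
    have hm1 : (1000 : ℝ) ≤ m := by exact_mod_cast hL.trans hm
    have h6 : ((m : ℝ) ^ 396) ^ (-(1 / 60) : ℝ) ≤ ((m : ℝ) ^ 3)⁻¹ := by
      rw [← Real.rpow_natCast (m : ℝ) 396, ← Real.rpow_mul hm0.le, ← Real.rpow_natCast (m : ℝ) 3,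
        ← Real.rpow_neg hm0.le]
      apply Real.rpow_le_rpow_of_exponent_le (by linarith)
      norm_num
    have h7 : ((m : ℝ) ^ 3)⁻¹ ≤ 1 / (((m : ℝ) + 1) * (m + 2)) := by
      rw [one_div]
      apply inv_anti₀ (by positivity)
      nlinarith [sq_nonneg (m : ℝ), mul_le_mul_of_nonneg_right hm1 (sq_nonneg (m : ℝ))]
    have h8 : (0 : ℝ) ≤ (1 / 2 : ℝ) ^ m := by positivity
    linarith

theorem sum_bound (n : ℕ) :
    ∑ m ∈ range (n + 1), ((1 / 2 : ℝ) ^ m + 1 / (((m : ℝ) + 1) * (m + 2))) ≤ 3 := by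
  have h : ∀ n : ℕ, ∑ m ∈ range (n + 1), ((1 / 2 : ℝ) ^ m + 1 / (((m : ℝ) + 1) * (m + 2))) =
      2 - (1 / 2 : ℝ) ^ n + (1 - 1 / ((n : ℝ) + 2)) := by
    intro n
    induction n with
    | zero => norm_num
    | succ n ih =>
      rw [sum_range_succ, ih]
      push_cast
      have h1 : ((n : ℝ) + 2) ≠ 0 := by positivity
      have h2 : ((n : ℝ) + 1 + 2) ≠ 0 := by positivity
      have h3 : ((n : ℝ) + 1 + 1) ≠ 0 := by positivity
      rw [pow_succ]
      field_simp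
      ring
  rw [h]
  have h1 : (0 : ℝ) ≤ (1 / 2 : ℝ) ^ n := by positivity
  have h2 : (0 : ℝ) ≤ 1 / ((n : ℝ) + 2) := by positivity
  linarith

theorem dur (h : CVal k L z n) (hk : (2 : ℝ) ^ 120 ≤ k) (hL : 1000 ≤ L) :
    ∑ m ∈ range (n + 1), F k z m ^ (-(1 / 60) : ℝ) ≤ 3 :=
  (sum_le_sum fun m hm => term h hk hL (by have := mem_range.1 hm; omega)).trans (sum_bound n)

end

/-! ### the reversed field -/

/-- the field along the digits of `Y` which is `(1,0)` at time `n` -/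
noncomputable def zf (k : ℝ) (Y : Tor) (n m : ℕ) : ℝ × ℝ := act (Mn k m Y * (Mn k n Y)⁻¹) (1, 0)

theorem isField_zf (k : ℝ) (Y : Tor) (n : ℕ) :
    IsField (fun m => V k ((T k)^[m] Y).2) (zf k Y n) := by
  intro m
  unfold zf
  rw [Mn_succ', Matrix.mul_assoc, act_mul, Lam0.act_Am]

theorem zf_self (k : ℝ) (Y : Tor) (n : ℕ) : zf k Y n n = (1, 0) := by
  unfold zf
  rw [Matrix.mul_nonsing_inv]
  · simp [act]
  · rw [Rev.det_Mn']; exact isUnit_one

theorem nn_zf (k : ℝ) (Y : Tor) {n m : ℕ} (hm : m ≤ n) :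
    nn (zf k Y n m) = F k (((T k)^[n] Y).swap) (n - m) := by
  have h1 : Mn k n Y = Mn k (n - m) ((T k)^[m] Y) * Mn k m Y := by
    have := Mn_add k (n - m) m Y
    rwa [Nat.sub_add_cancel hm] at this
  have h2 : Mn k m Y * (Mn k n Y)⁻¹ = (Mn k (n - m) ((T k)^[m] Y))⁻¹ := by
    rw [h1, Matrix.mul_inv_rev, ← Matrix.mul_assoc, Matrix.mul_nonsing_inv, Matrix.one_mul]
    rw [Rev.det_Mn']; exact isUnit_one
  have h3 := Rev.nn_act_Mn_rev' k m (n - m) Y (0, 1)
  rw [Nat.add_sub_cancel' hm] at h3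
  unfold zf F fld
  rw [h2, h3]
  rfl

/-! ### main theorem -/

/-- **(A0)**: validity of the reversed point at the foot and a bounded field there -/
theorem clean_of_CVal {k : ℝ} (hk : (2 : ℝ) ^ 120 ≤ k) {L : ℕ} (hL : 1000 ≤ L) {Y : Tor} {n : ℕ}
    (hn : 1 ≤ n) (hv : CVal k L (((T k)^[n] Y).swap) n) {x : ℝ × ℝ} (hx1 : |x.1| = 1) (hx2 : |x.2| ≤ 1)
    (hx : |(act (Mn k n Y) x).2| ≤ 1) :
    CleanNum.Clean (fun m => V k ((T k)^[m] Y).2) (fld k Y) (zf k Y n) n (1 / 60) 3 (8 * k) 3 where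
  hw := isField_fld k Y
  hz := isField_zf k Y n
  w0 := by
    rw [fld_zero]
    unfold nn
    positivity
  A1 := by
    have : (1 : ℝ) ≤ 2 ^ 120 := by norm_num
    linarith
  hA := fun j => abs_V_le (by
    have : (4 : ℝ) ≤ 2 ^ 120 := by norm_num
    linarith) _
  δ0 := by norm_num
  δ1 := le_rfl
  K1 := by norm_num
  c1 := by norm_num
  one := fun m hm => by
    rw [nn_zf k Y hm]
    exact one hv hk hL (Nat.sub_le _ _)
  val := fun i j hij hj => by
    rw [nn_zf k Y hj, nn_zf k Y (hij.trans hj)]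
    exact val hv hk hL (by omega) (Nat.sub_le _ _)
  dur := by
    have h1 := dur hv hk hL
    rw [← Finset.sum_range_reflect] at h1
    refine le_trans (le_of_eq ?_) h1
    refine Finset.sum_congr rfl fun m hm => ?_
    have hm' : m ≤ n := by have := mem_range.1 hm; omega
    rw [nn_zf k Y hm']
    congr 2
  tr := by
    -- the field of `x`
    have hX : IsField (fun m => V k ((T k)^[m] Y).2) (fun m => act (Mn k m Y) x) := by
      intro m
      show act (Mn k (m + 1) Y) x = _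
      rw [Mn_succ', act_mul, act_Am]
    have h1 : wr (act (Mn k n Y) x) (zf k Y n n) = wr (act (Mn k 0 Y) x) (zf k Y n 0) :=
      hX.wr_eq (isField_zf k Y n) (Nat.zero_le n)
    have h2 : act (Mn k 0 Y) x = x := by
      simp [act]
    rw [zf_self, h2] at h1
    set z := zf k Y n 0 with hz
    have h3 : |wr (act (Mn k n Y) x) ((1 : ℝ), (0 : ℝ))| ≤ 1 := by
      unfold wr
      simpa using hx
    rw [h1] at h3
    have h4 : |wr (fld k Y 0) z| = |z.1| := by
      rw [fld_zero]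
      unfold wr
      simp
    have h5 : |z.2| ≤ |z.1| + 1 := by
      unfold wr at h3
      have e1 : |x.1 * z.2| ≤ |x.1 * z.2 - x.2 * z.1| + |x.2 * z.1| := by
        have := abs_add_le (x.1 * z.2 - x.2 * z.1) (x.2 * z.1)
        simpa using this
      rw [abs_mul, abs_mul, hx1, one_mul] at e1
      have e2 : |x.2| * |z.1| ≤ 1 * |z.1| := mul_le_mul_of_nonneg_right hx2 (abs_nonneg _)
      linarith
    have h6 : (2 : ℝ) ^ 60 ≤ nn z := by
      rw [hz, nn_zf k Y (Nat.zero_le n), Nat.sub_zero]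
      rcases le_total n L with h | h
      · refine le_trans ?_ (early hv hk h le_rfl)
        exact le_self_pow₀ (by norm_num) (by omega)
      · refine le_trans ?_ ((late hv hk hL h le_rfl).trans (norm_le_nn _))
        norm_num
    have h7 : nn (fld k Y 0) = 1 := by
      rw [fld_zero]
      unfold nn
      simp
    rw [h4, h7, one_mul]
    have h8 := nn_le_add z
    have h9 : (4 : ℝ) ≤ 2 ^ 60 := by norm_num
    linarith

/-- the tip quantity `X` is the size of the field at the foot -/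
theorem abs_wr_zf (k : ℝ) (Y : Tor) (n : ℕ) :
    |wr (fld k Y 0) (zf k Y n 0)| = |(fld k Y n).2| := by
  have h := (isField_fld k Y).wr_eq (isField_zf k Y n) (Nat.zero_le n)
  rw [← h, zf_self]
  unfold wr
  simp

/-! ### the form of `Good.Side` -/

open Crest.Agent.R128.AlignMn Crest.Agent.R128.DictY Crest.Agent.R128.CleanDisc

theorem wf_eq_fld (k c t : ℝ) (m : ℕ) : wf k c t m = fld k (pr (c, t)) m := by
  unfold wf fld act
  simp

theorem wf_eq_fld' (k c t : ℝ) : wf k c t = fld k (pr (c, t)) := funext (wf_eq_fld k c t)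

theorem iter_zt (k c t : ℝ) {w : ℕ} (hw : 1 ≤ w) :
    (T k)^[w] (zt k c t) = (T k)^[w - 1] (pr (c, t)) := by
  obtain ⟨n, rfl⟩ : ∃ n, w = n + 1 := ⟨w - 1, by omega⟩
  rw [Function.iterate_succ_apply, T_zt]
  rfl

theorem ap_zt (k c t : ℝ) (n : ℕ) : ap k (zt k c t) (n + 1) = ra k c t n := by
  unfold ap dz ra
  rw [Two.Tz_natCast, iter_zt k c t (by omega)]
  rfl

/-- the tip field of a side is a field of the cocycle -/
theorem act_Mn_x {k c t : ℝ} {x : ℕ → ℝ}
    (hx : ∀ n, x (n + 2) = ap k (zt k c t) (n + 1) * x (n + 1) - x n) (n : ℕ) :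
    act (Mn k n (pr (c, t))) (x 0, x 1) = (x n, x (n + 1)) := by
  induction n with
  | zero => simp [act]
  | succ n ih =>
    rw [Mn_succ', act_mul, ih, Lam0.act_Am, hx n, ap_zt]
    unfold stp ra
    rfl

theorem isField_x {k c t : ℝ} {x : ℕ → ℝ}
    (hx : ∀ n, x (n + 2) = ap k (zt k c t) (n + 1) * x (n + 1) - x n) :
    IsField (ra k c t) (fun n => (x n, x (n + 1))) := by
  intro n
  unfold stp
  show (x (n + 1), x (n + 2)) = _
  rw [hx n, ap_zt]

/-- **one side of a very fresh level is numerically clean** -/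
theorem side_clean {k ρ : ℝ} (hk : (2 : ℝ) ^ 120 ≤ k) {L : ℕ} (hL : 1000 ≤ L) (hρ : 0 ≤ ρ)
    {c t : ℝ} {x : ℕ → ℝ} {w M : ℕ} (h : Side k L ρ (zt k c t) x w M) :
    CleanNum.Clean (ra k c t) (wf k c t) (zf k (pr (c, t)) (w - 1)) (w - 1) (1 / 60) 3 (8 * k)
      3 := by
  have hw := h.hw
  have hval := h.val
  rw [iter_zt k c t (by omega)] at hval
  have h1 := clean_of_CVal hk hL (Y := pr (c, t)) (n := w - 1) (by omega) hval (x := (x 0, x 1))
    h.x0 h.x1 (by
      rw [act_Mn_x h.xrec]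
      have e : w - 1 + 1 = w := by omega
      show |x (w - 1 + 1)| ≤ 1
      rw [e]
      calc |x w| ≤ max |x (w - 1)| |x w| := le_max_right _ _
        _ ≤ Real.exp (-ρ) := h.hi
        _ ≤ 1 := by rw [Real.exp_le_one_iff]; linarith)
  rw [wf_eq_fld']
  exact h1

/-- `X = |Q_w|` -/
theorem side_X (k c t : ℝ) (n : ℕ) :
    |wr (wf k c t 0) (zf k (pr (c, t)) n 0)| = |(wf k c t n).2| := by
  rw [wf_eq_fld']
  exact abs_wr_zf k _ n

/-- Wronskian of the tip field with the field of `(0,1)` -/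
theorem wr_x {k c t : ℝ} {x : ℕ → ℝ}
    (hx : ∀ n, x (n + 2) = ap k (zt k c t) (n + 1) * x (n + 1) - x n) (n : ℕ) :
    x n * (wf k c t n).2 - x (n + 1) * (wf k c t n).1 = x 0 := by
  have h1 := (isField_x hx).wr_eq (isField_wf k c t) (Nat.zero_le n)
  unfold wr at h1
  simp only [wf_zero] at h1
  rw [h1]
  ring

end Crest.Agent.R128.VClean
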