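import Mathlib
import Crest.Agent.R128.BaseVF
import Crest.Agent.R128.LocA4
import Crest.Agent.R128.LocGlue365

/-!
Row 128, node V5 / LocA (helper816): `VFBase L LocA.Base` (365's packaging, 595's `Base`), and FOOT.
-/

set_option autoImplicit false

open Finset Metric Topology

namespace Crest.Agent.R128.VFBase

open Crest.Agent.R128 Crest.Agent.R128.Cell Crest.Agent.R128.CellB Crest.Agent.R128.CellDy
open Crest.Agent.R128.TreeSum Crest.Agent.R128.Disp Crest.Agent.R128.CleanNum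
open Crest.Agent.R128.CleanDisc Crest.Agent.R128.CleanCont Crest.Agent.R128.CleanStart
open Crest.Agent.R128.StartNum Crest.Agent.R128.BaseNum Crest.Agent.R128.DictY
open Crest.Agent.R128.SideSize Crest.Agent.R128.BaseVF

variable {k ρ c t : ℝ} {L n w M : ℕ} {x : ℕ → ℝ}

/-- all sizes before the foot, on the real disc -/
theorem old_size (s : Bool) {t0 : ℝ} (hk : (2:ℝ) ^ 400 ≤ k) (hL : 20 ≤ L)
    (hρ1 : n * Real.log 2 ≤ ρ) (hρ2 : ρ ≤ n * Real.log 2 + 2 * Real.log k)
    (h : Good.Side k L ρ (zt k c (sd k c s t0)) x w M) {i : ℕ} (hi : i ≤ w - 1) {u : ℝ}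
    (hu : |u - t0| ≤ 2 * (1 / (k ^ 60 * 2 ^ n))) :
    ‖Loc.D k c s i (u : ℂ)‖ ≤ k ^ 74 * 2 ^ n := by
  have hlog2 : 0 ≤ Real.log 2 := Real.log_nonneg (by norm_num)
  have hρ : 0 ≤ ρ := le_trans (by positivity) hρ1
  have hk4 := four_le hk
  have hcl := clean hk hL hρ h
  have hX := (XX_eq hk hL h).2
  have hup := size_up hk hL hρ h hρ2
  rw [← hX] at hup
  have hk200 := two200 hk
  have hE : nn (EF k c (sd k c s t0) w (w - 1)) = 1 := by
    rw [EF_last hk hL h]; unfold nn; simp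
  clear hk
  have hk0 : 0 < k := by linarith
  have hk1 : 1 ≤ k := by linarith
  have hn0 : (0:ℝ) < 2 ^ n := by positivity
  have hρ0 := rho0_ge hk4
  have hXpos : 0 < XX (wf k c (sd k c s t0)) (EF k c (sd k c s t0) w) := hcl.Xpos
  set X := XX (wf k c (sd k c s t0)) (EF k c (sd k c s t0) w) with hXdef
  have hrad : ‖Loc.sdC k c s (u : ℂ) - ((sd k c s t0 : ℝ) : ℂ)‖ ≤
      rho0 k (8 * k) 3 4 / X * nn (EF k c (sd k c s t0) w (w - 1)) ^ (1 - 15 * (1 / 60 : ℝ)) := by
    rw [hE, Real.one_rpow, mul_one, norm_sdC_sub, ← Complex.ofReal_sub, Complex.norm_real,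
      Real.norm_eq_abs]
    refine hu.trans ?_
    rw [le_div_iff₀ hXpos]
    refine le_trans ?_ hρ0
    rw [le_div_iff₀ (by positivity)]
    calc 2 * (1 / (k ^ 60 * 2 ^ n)) * X * (2 ^ 58 * k ^ 9)
        ≤ 2 * (1 / (k ^ 60 * 2 ^ n)) * (2 * k ^ 8 * 2 ^ n) * (2 ^ 58 * k ^ 9) := by gcongr
      _ = 2 ^ 60 * k ^ 17 / k ^ 60 := by field_simp
      _ ≤ 1 := by
          rw [div_le_one (by positivity)]
          have h60 : (2:ℝ) ^ 60 ≤ k := le_trans (by norm_num) hk200
          calc 2 ^ 60 * k ^ 17 ≤ k * k ^ 17 := by gcongr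
            _ = k ^ 18 := by ring
            _ ≤ k ^ 60 := pow_le_pow_right₀ hk1 (by norm_num)
  obtain ⟨_, _, _, _, _, _, _, g1, _⟩ := fields hcl hk1 le_rfl hrad i hi
  have hR := hcl.R_le' (m := i) (e := w - 1) hi le_rfl
  have hXe : |wr (wf k c (sd k c s t0) 0) (EF k c (sd k c s t0) w 0)| = X := rfl
  rw [hXe, hE, Real.one_rpow, mul_one] at hR
  have hC1 := C1_le hk4
  have hC0 : 0 ≤ C1 (8 * k) 3 4 := by unfold C1; positivity
  have hR2 : nn (wf k c (sd k c s t0) i) ≤ 2 ^ 8 * k ^ 2 * (2 * k ^ 8 * 2 ^ n) := by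
    refine hR.trans ?_
    gcongr
  have hf : |(wf k c (sd k c s t0) i).1| ≤ nn (wf k c (sd k c s t0) i) := abs_fst_le _
  have hD : ‖Loc.D k c s i (u : ℂ)‖ ≤ 2 * nn (wf k c (sd k c s t0) i) := by
    unfold Loc.D
    calc ‖yd k c i (Loc.sdC k c s (u : ℂ))‖
        = ‖(yd k c i (Loc.sdC k c s (u : ℂ)) - ((wf k c (sd k c s t0) i).1 : ℂ)) +
          ((wf k c (sd k c s t0) i).1 : ℂ)‖ := by ring_nf
      _ ≤ ‖yd k c i (Loc.sdC k c s (u : ℂ)) - ((wf k c (sd k c s t0) i).1 : ℂ)‖ +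
          ‖((wf k c (sd k c s t0) i).1 : ℂ)‖ := norm_add_le _ _
      _ ≤ 1 / 10 * nn (wf k c (sd k c s t0) i) + |(wf k c (sd k c s t0) i).1| := by
          rw [Complex.norm_real, Real.norm_eq_abs]
          linarith
      _ ≤ 2 * nn (wf k c (sd k c s t0) i) := by
          have := nn_nonneg (wf k c (sd k c s t0) i)
          linarith
  refine hD.trans ?_
  calc 2 * nn (wf k c (sd k c s t0) i) ≤ 2 * (2 ^ 8 * k ^ 2 * (2 * k ^ 8 * 2 ^ n)) := by gcongr
    _ = 2 ^ 10 * (k ^ 10 * 2 ^ n) := by ring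
    _ ≤ k * (k ^ 10 * 2 ^ n) := by
        have : (2:ℝ) ^ 10 ≤ k := le_trans (by norm_num) hk200
        gcongr
    _ = k ^ 11 * 2 ^ n := by ring
    _ ≤ k ^ 74 * 2 ^ n := by
        have : k ^ 11 ≤ k ^ 74 := pow_le_pow_right₀ hk1 (by norm_num)
        gcongr

/-- **Very fresh points have `LocA.Base` data on both sides.** -/
theorem vfBase (L : ℕ) (hL : 20 ≤ L) : LocGlue365.VFBase L LocA.Base := by
  refine ⟨2 ^ 400, fun k hk c t0 n hG => ?_⟩
  obtain ⟨ρ, hρ1, hρ2, hs⟩ := sides_of_G hG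
  choose x w M hside using hs
  choose r0 hr0 using fun s => base_side s hk hL hρ1 hρ2 (hside s)
  have hw1 : ∀ s, 1 ≤ w s := fun s => by have := (hside s).hw; omega
  refine ⟨fun s => w s - 1, M, r0, fun s => ?_, ?_, ?_⟩
  · obtain ⟨b1, b2, b3, b4, b5, b6, b7, b8, b9⟩ := hr0 s
    have e : w s - 1 + 1 = w s := Nat.sub_add_cancel (hw1 s)
    have hk0 : 0 < k := lt_of_lt_of_le (by norm_num) (four_le hk)
    refine
      { r0_pos := b1
        r_pos := by positivity
        close := by rw [e]; exact b2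
        prev := by rw [e]; exact b3
        ne := by rw [e]; exact b4
        small := by rw [e]; exact b5
        old := by rw [e]; exact b6
        lower := by rw [e]; exact b7
        dig := by rw [e]; exact b8
        big := by rw [e]; exact b9 }
  · obtain ⟨q0, q1, q2, hq⟩ := content_side hk hL hρ1 hρ2 (hside true) (hside false) t0
    refine ⟨q0, q1, q2, fun z hz => ?_⟩
    have e1 : w true - 1 + 1 = w true := Nat.sub_add_cancel (hw1 true)
    have e2 : w false - 1 + 1 = w false := Nat.sub_add_cancel (hw1 false)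
    simp only [e1, e2]
    exact hq z hz
  · intro s i hi u hu
    exact old_size s hk hL hρ1 hρ2 (hside s) hi hu

end Crest.Agent.R128.VFBase
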