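import Mathlib
import Crest.Agent.R128.VClean

/-!
Row 128, node V5 (helper196): sizes of the field of `(0,1)` at the foot of one side of a very fresh
level (`Good.Side`), and along the run.
-/

set_option autoImplicit false

open Finset
open Crest.Agent.R128 Crest.Agent.R128.TreeSum Crest.Agent.R128.Lam0 Crest.Agent.R128.Good
open Crest.Agent.R128.AlignMn Crest.Agent.R128.DictY Crest.Agent.R128.CleanDisc
open Crest.Agent.R128.VClean

namespace Crest.Agent.R128.VSizes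

variable {k ρ c t : ℝ} {L : ℕ} {x : ℕ → ℝ} {w M : ℕ}

/-- the growth factor of a regular digit -/
noncomputable def bb (k : ℝ) : ℝ := k ^ ((2 : ℝ) / 3) - 1

theorem bb_ge {k : ℝ} (hk : (2 : ℝ) ^ 120 ≤ k) : (2 : ℝ) ^ 60 ≤ bb k := by
  have h1 := pow_two_thirds hk
  have h2 : (2 : ℝ) ^ 60 + 1 ≤ 2 ^ 61 := by norm_num
  unfold bb
  linarith

theorem bb_le {k : ℝ} (hk : 1 ≤ k) : bb k ≤ k := by
  have h1 : k ^ ((2 : ℝ) / 3) ≤ k ^ (1 : ℝ) := Real.rpow_le_rpow_of_exponent_le hk (by norm_num)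
  rw [Real.rpow_one] at h1
  unfold bb
  linarith

/-- `k ^ (1/2) ≤ bb k` -/
theorem sqrt_le_bb {k : ℝ} (hk : (2 : ℝ) ^ 120 ≤ k) : k ^ ((1 : ℝ) / 2) ≤ bb k := by
  have hk1 : (1 : ℝ) ≤ k := le_trans (by norm_num) hk
  have hk0 : 0 < k := by linarith
  have e : k ^ ((2 : ℝ) / 3) = k ^ ((1 : ℝ) / 2) * k ^ ((1 : ℝ) / 6) := by
    rw [← Real.rpow_add hk0]; norm_num
  have h1 : (2 : ℝ) ≤ k ^ ((1 : ℝ) / 6) := by
    have h2 : ((2 : ℝ) ^ 120) ^ ((1 : ℝ) / 6) ≤ k ^ ((1 : ℝ) / 6) :=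
      Real.rpow_le_rpow (by positivity) hk (by norm_num)
    have h3 : ((2 : ℝ) ^ 120) ^ ((1 : ℝ) / 6) = 2 ^ 20 := by
      rw [← Real.rpow_natCast 2 120, ← Real.rpow_mul (by norm_num), ← Real.rpow_natCast 2 20]
      norm_num
    rw [h3] at h2
    refine le_trans ?_ h2
    norm_num
  have h4 : 1 ≤ k ^ ((1 : ℝ) / 2) := Real.one_le_rpow hk1 (by norm_num)
  unfold bb
  rw [e]
  nlinarith

/-- regular digits of the side before the foot -/
theorem digits_before (h : Side k L ρ (zt k c t) x w M) {j : ℕ} (hj1 : w - 1 - L ≤ j)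
    (hj : j < w - 1) : bb k + 1 ≤ |ra k c t j| := by
  have hw := h.hw
  have hval := h.val
  rw [iter_zt k c t (by omega)] at hval
  have h1 := hval.cl (w - 1 - 1 - j) (by omega) (by omega)
  rw [Rev.digit_rev k (by omega)] at h1
  have e : w - 1 - (w - 1 - 1 - j) = j + 1 := by omega
  rw [e, Rev.fst_iter_succ] at h1
  unfold bb ra
  linarith

/-- regular digits of the side after the foot -/
theorem digits_after (h : Side k L ρ (zt k c t) x w M) {j : ℕ} (hj1 : w - 1 ≤ j)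
    (hj : j < w + M) : bb k + 1 ≤ |ra k c t j| := by
  have hw := h.hw
  have h1 := h.run (j + 1) (by omega) (by omega)
  rw [ap_zt] at h1
  unfold bb
  linarith

theorem cone_foot (hk : (2 : ℝ) ^ 120 ≤ k) (hL : 1000 ≤ L) (hρ : 0 ≤ ρ)
    (h : Side k L ρ (zt k c t) x w M) :
    (∀ m ≤ w - 1, nn (wf k c t m) ≤ nn (wf k c t (w - 1))) ∧
      ∀ m, w - 1 - 5 ≤ m → m ≤ w - 1 → |(wf k c t m).1| ≤ |(wf k c t m).2| := by
  have hw := h.hw
  have hk1 : (1 : ℝ) ≤ k := le_trans (by norm_num) hk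
  have hk0 : 0 < k := by linarith
  have hb := bb_ge hk
  have hb1 : 1 ≤ bb k := le_trans (by norm_num) hb
  have hs := sqrt_le_bb hk
  have hs0 : 0 ≤ k ^ ((1 : ℝ) / 2) := Real.rpow_nonneg hk0.le _
  have hz : nn (zf k (pr (c, t)) (w - 1) (w - 1)) = 1 := by
    rw [zf_self]; unfold nn; simp
  have hC : CleanNum.C1 (8 * k) 3 3 ≤ 200 * k ^ 2 := by
    unfold CleanNum.C1
    nlinarith
  have hClean := side_clean hk hL hρ h
  have hC0 := CleanNum.C1_pos hClean
  refine FootU.record hClean (b := bb k) (r := 5) (i0 := 16) hb1 (by omega)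
    (fun j hj1 hj2 => digits_before h (by omega) hj2) ?_ ?_ ?_ ?_
  · rw [zf_self]; simp
  · rw [zf_self]; simp
  · rw [hz, mul_one]
    have h1 : (k ^ ((1 : ℝ) / 2)) ^ 5 ≤ bb k ^ 5 := pow_le_pow_left₀ hs0 hs 5
    have h2 : ((k ^ ((1 : ℝ) / 2)) ^ 5) ^ (1 - 4 * (1 / 60) : ℝ) ≤
        (bb k ^ 5) ^ (1 - 4 * (1 / 60) : ℝ) :=
      Real.rpow_le_rpow (by positivity) h1 (by norm_num)
    refine le_trans ?_ h2
    have e : ((k ^ ((1 : ℝ) / 2)) ^ 5) ^ (1 - 4 * (1 / 60) : ℝ) = k ^ (2 : ℝ) * k ^ ((1 : ℝ) / 3) := by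
      rw [← Real.rpow_natCast (k ^ ((1 : ℝ) / 2)) 5, ← Real.rpow_mul hk0.le,
        ← Real.rpow_mul hk0.le, ← Real.rpow_add hk0]
      norm_num
    rw [e, Real.rpow_two]
    have h3 : (200 : ℝ) ≤ k ^ ((1 : ℝ) / 3) := by
      have h2 : ((2 : ℝ) ^ 120) ^ ((1 : ℝ) / 3) ≤ k ^ ((1 : ℝ) / 3) :=
        Real.rpow_le_rpow (by positivity) hk (by norm_num)
      have h3 : ((2 : ℝ) ^ 120) ^ ((1 : ℝ) / 3) = 2 ^ 40 := by
        rw [← Real.rpow_natCast 2 120, ← Real.rpow_mul (by norm_num), ← Real.rpow_natCast 2 40]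
        norm_num
      rw [h3] at h2
      refine le_trans ?_ h2
      norm_num
    have h4 : k ^ 2 * 200 ≤ k ^ 2 * k ^ ((1 : ℝ) / 3) := mul_le_mul_of_nonneg_left h3 (by positivity)
    linarith
  · rw [hz, mul_one]
    have h1 : (k ^ ((1 : ℝ) / 2)) ^ 16 ≤ bb k ^ 16 := pow_le_pow_left₀ hs0 hs 16
    have e : (k ^ ((1 : ℝ) / 2)) ^ 16 = k ^ 8 := by
      rw [← Real.rpow_natCast (k ^ ((1 : ℝ) / 2)) 16, ← Real.rpow_mul hk0.le,
        ← Real.rpow_natCast k 8]
      norm_num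
    rw [e] at h1
    refine lt_of_lt_of_le ?_ h1
    calc 2 * CleanNum.C1 (8 * k) 3 3 * (8 * k) ^ 5 ≤ 2 * (200 * k ^ 2) * (8 * k) ^ 5 := by gcongr
      _ = 13107200 * k ^ 7 := by ring
      _ < k * k ^ 7 := by
          apply mul_lt_mul_of_pos_right _ (by positivity)
          refine lt_of_lt_of_le ?_ hk
          norm_num
      _ = k ^ 8 := by ring

/-- growth at the foot: `(k^(2/3) - 1) |Q_(w-1)| ≤ |Q_w|` -/
theorem foot_ratio (hk : (2 : ℝ) ^ 120 ≤ k) (hL : 1000 ≤ L) (hρ : 0 ≤ ρ)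
    (h : Side k L ρ (zt k c t) x w M) :
    bb k * |(wf k c t (w - 1)).1| ≤ |(wf k c t (w - 1)).2| := by
  have hw := h.hw
  have hb1 : 1 ≤ bb k := le_trans (by norm_num) (bb_ge hk)
  obtain ⟨m, hm⟩ : ∃ m, w - 1 = m + 1 := ⟨w - 2, by omega⟩
  have h1 := (cone_foot hk hL hρ h).2 m (by omega) (by omega)
  have h2 := FootU.forw_step (isField_wf k c t) hb1 (m := m) (digits_before h (by omega) (by omega)) h1
  have e : (wf k c t (m + 1)).1 = (wf k c t m).2 := by
    rw [isField_wf k c t m]; rfl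
  rw [hm, e]
  exact h2.1

theorem foot_half (hk : (2 : ℝ) ^ 120 ≤ k) (hL : 1000 ≤ L) (hρ : 0 ≤ ρ)
    (h : Side k L ρ (zt k c t) x w M) :
    2 * |(wf k c t (w - 1)).1| ≤ |(wf k c t (w - 1)).2| := by
  refine le_trans ?_ (foot_ratio hk hL hρ h)
  exact mul_le_mul_of_nonneg_right (le_trans (by norm_num) (bb_ge hk)) (abs_nonneg _)

/-- growth along the run -/
theorem run_growth (hk : (2 : ℝ) ^ 120 ≤ k) (hL : 1000 ≤ L) (hρ : 0 ≤ ρ)
    (h : Side k L ρ (zt k c t) x w M) {s : ℕ} (hs : s ≤ M + 1) :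
    bb k ^ s * |(wf k c t (w - 1)).2| ≤ |(wf k c t (w - 1 + s)).2| ∧
      |(wf k c t (w - 1 + s)).1| ≤ |(wf k c t (w - 1 + s)).2| := by
  have hw := h.hw
  have hb1 : 1 ≤ bb k := le_trans (by norm_num) (bb_ge hk)
  exact FootU.forw_pow (isField_wf k c t) hb1
    ((cone_foot hk hL hρ h).2 (w - 1) (by omega) le_rfl) s
    (fun j hj1 hj2 => digits_after h hj1 (by omega))

/-- `exp ρ ≤ 1.1 |Q_w|` -/
theorem size_lower (hk : (2 : ℝ) ^ 120 ≤ k) (hL : 1000 ≤ L) (hρ : 0 ≤ ρ)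
    (h : Side k L ρ (zt k c t) x w M) :
    Real.exp ρ ≤ 11 / 10 * |(wf k c t (w - 1)).2| := by
  have hw := h.hw
  have h1 := wr_x h.xrec (w - 1)
  have e : w - 1 + 1 = w := by omega
  rw [e] at h1
  have h2 : |x 0| = 1 := h.x0
  have h3 := h.hi
  have h4 : |x (w - 1)| ≤ Real.exp (-ρ) := (le_max_left _ _).trans h3
  have h5 : |x w| ≤ Real.exp (-ρ) := (le_max_right _ _).trans h3
  have h6 := foot_ratio hk hL hρ h
  have h7 : (10 : ℝ) * |(wf k c t (w - 1)).1| ≤ bb k * |(wf k c t (w - 1)).1| :=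
    mul_le_mul_of_nonneg_right (le_trans (by norm_num) (bb_ge hk)) (abs_nonneg _)
  set q1 := |(wf k c t (w - 1)).1| with hq1
  set q2 := |(wf k c t (w - 1)).2| with hq2
  have h8 : (1 : ℝ) ≤ |x (w - 1)| * q2 + |x w| * q1 := by
    rw [← h2, ← h1]
    refine (abs_sub _ _).trans ?_
    rw [abs_mul, abs_mul]
  have h9 : |x (w - 1)| * q2 ≤ Real.exp (-ρ) * q2 := mul_le_mul_of_nonneg_right h4 (abs_nonneg _)
  have h10 : |x w| * q1 ≤ Real.exp (-ρ) * q1 := mul_le_mul_of_nonneg_right h5 (abs_nonneg _)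
  have h11 : (1 : ℝ) ≤ Real.exp (-ρ) * (11 / 10 * q2) := by
    have h12 : Real.exp (-ρ) * q1 ≤ Real.exp (-ρ) * (q2 / 10) :=
      mul_le_mul_of_nonneg_left (by linarith) (Real.exp_pos _).le
    nlinarith
  rw [Real.exp_neg] at h11
  have h13 := Real.exp_pos ρ
  rwa [inv_mul_eq_div, le_div_iff₀ h13, one_mul] at h11

/-- the tip field decreases at the foot -/
theorem x_ratio (hk : (2 : ℝ) ^ 120 ≤ k) {a : ℝ} (ha : a ≤ 70)
    (h : Side k L ρ (zt k c t) x w M)
    (hlo : Real.exp (-ρ - a * Real.log k) ≤ max |x (w - 1)| |x w|) :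
    |x w| < |x (w - 1)| ∧ bb k * |x w| ≤ |x (w - 1)| := by
  have hw := h.hw
  have hk1 : (1 : ℝ) < k := lt_of_lt_of_le (by norm_num) hk
  have hlog : 0 < Real.log k := Real.log_pos hk1
  have hb1 : 1 ≤ bb k := le_trans (by norm_num) (bb_ge hk)
  have hfin := h.fin
  have hf := isField_x h.xrec
  -- comparison of the two exponentials
  have hexp : k ^ 10 * Real.exp (-ρ - 80 * Real.log k) ≤ Real.exp (-ρ - a * Real.log k) := by
    have e : k ^ 10 = Real.exp (10 * Real.log k) := by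
      rw [mul_comm, Real.exp_mul, Real.exp_log (by linarith)]
      norm_cast
    rw [e, ← Real.exp_add]
    apply Real.exp_le_exp.2
    nlinarith
  have hk10 : k ≤ k ^ 10 := le_self_pow₀ hk1.le (by norm_num)
  have hE := Real.exp_pos (-ρ - 80 * Real.log k)
  have hlt : Real.exp (-ρ - 80 * Real.log k) < Real.exp (-ρ - a * Real.log k) := by
    refine lt_of_lt_of_le ?_ hexp
    nlinarith
  -- (1)
  have h1 : |x w| < |x (w - 1)| := by
    by_contra hc
    push Not at hc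
    have e : w - 1 + 1 = w := by omega
    have h2 := (FootU.forw_pow hf hb1 (n := w - 1) (by simpa [e] using hc) M
      (fun j hj1 hj2 => digits_after h hj1 (by omega))).1
    simp only [e] at h2
    have e2 : w - 1 + M + 1 = w + M := by omega
    rw [e2] at h2
    have h3 : |x w| ≤ bb k ^ M * |x w| := by
      have := one_le_pow₀ hb1 (n := M)
      nlinarith [abs_nonneg (x w)]
    have h4 : |x (w + M)| ≤ Real.exp (-ρ - 80 * Real.log k) := (le_max_right _ _).trans hfin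
    rw [max_eq_right hc] at hlo
    linarith
  refine ⟨h1, ?_⟩
  rw [max_eq_left h1.le] at hlo
  have hM : 1 ≤ M := by
    by_contra hc
    have hM0 : M = 0 := by omega
    rw [hM0, Nat.add_zero] at hfin
    have := (le_max_left _ _).trans hfin
    linarith
  rcases le_or_gt |x w| |x (w + 1)| with h2 | h2
  · -- growth in the run: `x w` is very small
    have h3 := (FootU.forw_pow hf hb1 (n := w) (by simpa using h2) (M - 1)
      (fun j hj1 hj2 => digits_after h (by omega) (by omega))).1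
    simp only at h3
    have e2 : w + (M - 1) + 1 = w + M := by omega
    rw [e2] at h3
    have h4 : |x (w + M)| ≤ Real.exp (-ρ - 80 * Real.log k) := (le_max_right _ _).trans hfin
    have h5 : |x (w + 1)| ≤ bb k ^ (M - 1) * |x (w + 1)| := by
      have := one_le_pow₀ hb1 (n := M - 1)
      nlinarith [abs_nonneg (x (w + 1))]
    have h6 : |x w| ≤ Real.exp (-ρ - 80 * Real.log k) := by linarith
    calc bb k * |x w| ≤ k ^ 10 * Real.exp (-ρ - 80 * Real.log k) := by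
          apply mul_le_mul ((bb_le hk1.le).trans hk10) h6 (abs_nonneg _) (by positivity)
      _ ≤ _ := hexp.trans hlo
  · have h3 := h.xrec (w - 1)
    have e1 : w - 1 + 2 = w + 1 := by omega
    have e2 : w - 1 + 1 = w := by omega
    rw [e1, e2] at h3
    have h4 := h.run w le_rfl (by omega)
    have h5 : x (w - 1) = ap k (zt k c t) w * x w - x (w + 1) := by rw [h3]; ring
    have h6 : |ap k (zt k c t) w * x w| - |x (w + 1)| ≤ |x (w - 1)| := by
      rw [h5]; exact abs_sub_abs_le_abs_sub _ _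
    rw [abs_mul] at h6
    have h7 : (bb k + 1) * |x w| ≤ |ap k (zt k c t) w| * |x w| := by
      apply mul_le_mul_of_nonneg_right _ (abs_nonneg _)
      unfold bb
      linarith
    linarith

/-- `|Q_w| ≤ 1.1 exp (ρ + a log k)` -/
theorem size_upper (hk : (2 : ℝ) ^ 120 ≤ k) (hL : 1000 ≤ L) (hρ : 0 ≤ ρ) {a : ℝ} (ha : a ≤ 70)
    (h : Side k L ρ (zt k c t) x w M)
    (hlo : Real.exp (-ρ - a * Real.log k) ≤ max |x (w - 1)| |x w|) :
    |(wf k c t (w - 1)).2| ≤ 11 / 10 * Real.exp (ρ + a * Real.log k) := by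
  have hw := h.hw
  obtain ⟨hx1, _⟩ := x_ratio hk ha h hlo
  have h1 := wr_x h.xrec (w - 1)
  have e : w - 1 + 1 = w := by omega
  rw [e] at h1
  have h2 : |x 0| = 1 := h.x0
  rw [max_eq_left hx1.le] at hlo
  have h6 := foot_ratio hk hL hρ h
  have h7 : (100 : ℝ) * |(wf k c t (w - 1)).1| ≤ bb k * |(wf k c t (w - 1)).1| :=
    mul_le_mul_of_nonneg_right (le_trans (by norm_num) (bb_ge hk)) (abs_nonneg _)
  set q1 := |(wf k c t (w - 1)).1| with hq1
  set q2 := |(wf k c t (w - 1)).2| with hq2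
  have hq10 : 0 ≤ q1 := abs_nonneg _
  have hq20 : 0 ≤ q2 := abs_nonneg _
  have h8 : |x (w - 1)| * q2 - |x w| * q1 ≤ 1 := by
    rw [← h2, ← h1]
    refine le_trans (le_of_eq ?_) (abs_sub_abs_le_abs_sub _ _)
    rw [abs_mul, abs_mul]
  have h9 : |x w| * q1 ≤ |x (w - 1)| * (q2 / 100) :=
    mul_le_mul hx1.le (by linarith) hq10 (abs_nonneg _)
  have h10 : |x (w - 1)| * q2 ≤ 11 / 10 := by nlinarith [mul_nonneg (abs_nonneg (x (w - 1))) hq20]
  have h11 : Real.exp (-ρ - a * Real.log k) * q2 ≤ 11 / 10 :=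
    (mul_le_mul_of_nonneg_right hlo hq20).trans h10
  have e2 : Real.exp (-ρ - a * Real.log k) = (Real.exp (ρ + a * Real.log k))⁻¹ := by
    rw [← Real.exp_neg]; congr 1; ring
  rw [e2, inv_mul_eq_div, div_le_iff₀ (Real.exp_pos _)] at h11
  exact h11

/-- `exp (ρ + 80 log k) ≤ 2 |Q_(w+M)|` -/
theorem size_end (hk : (2 : ℝ) ^ 120 ≤ k) (hL : 1000 ≤ L) (hρ : 0 ≤ ρ)
    (h : Side k L ρ (zt k c t) x w M) :
    Real.exp (ρ + 80 * Real.log k) ≤ 2 * |(wf k c t (w - 1 + M)).2| := by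
  have hw := h.hw
  have h1 := wr_x h.xrec (w - 1 + M)
  have e : w - 1 + M + 1 = w + M := by omega
  have e' : w - 1 + M = w + M - 1 := by omega
  rw [e] at h1
  have h2 : |x 0| = 1 := h.x0
  have h3 := h.fin
  rw [← e'] at h3
  have h4 : |x (w - 1 + M)| ≤ Real.exp (-ρ - 80 * Real.log k) := (le_max_left _ _).trans h3
  have h5 : |x (w + M)| ≤ Real.exp (-ρ - 80 * Real.log k) := (le_max_right _ _).trans h3
  have h6 := (run_growth hk hL hρ h (s := M) (by omega)).2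
  set q1 := |(wf k c t (w - 1 + M)).1| with hq1
  set q2 := |(wf k c t (w - 1 + M)).2| with hq2
  have hq10 : 0 ≤ q1 := abs_nonneg _
  have hq20 : 0 ≤ q2 := abs_nonneg _
  have h8 : (1 : ℝ) ≤ |x (w - 1 + M)| * q2 + |x (w + M)| * q1 := by
    rw [← h2, ← h1]
    refine (abs_sub _ _).trans ?_
    rw [abs_mul, abs_mul]
  have h9 : |x (w - 1 + M)| * q2 ≤ Real.exp (-ρ - 80 * Real.log k) * q2 :=
    mul_le_mul_of_nonneg_right h4 hq20
  have h10 : |x (w + M)| * q1 ≤ Real.exp (-ρ - 80 * Real.log k) * q2 :=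
    mul_le_mul h5 h6 hq10 (Real.exp_pos _).le
  have h11 : (1 : ℝ) ≤ Real.exp (-ρ - 80 * Real.log k) * (2 * q2) := by linarith
  have e2 : Real.exp (-ρ - 80 * Real.log k) = (Real.exp (ρ + 80 * Real.log k))⁻¹ := by
    rw [← Real.exp_neg]; congr 1; ring
  rw [e2, inv_mul_eq_div, le_div_iff₀ (Real.exp_pos _), one_mul] at h11
  exact h11

end Crest.Agent.R128.VSizes
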