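import Crest.Agent.R128.SideStart
import Crest.Agent.R128.VSizes
import Crest.Agent.R128.LocSize
import Crest.Agent.R128.LocA4

/-!
# Row 128, V5: a very fresh point gives 595's `LocA.Base` on both sides, the old content and the
old sizes (helper9)
-/

set_option autoImplicit false

open MeasureTheory Metric Set
open Crest.Agent.R128 Crest.Agent.R128.Cell Crest.Agent.R128.CellB Crest.Agent.R128.CellDy
open Crest.Agent.R128.TreeSum Crest.Agent.R128.Disp Crest.Agent.R128.CleanNum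
open Crest.Agent.R128.CleanDisc Crest.Agent.R128.CleanCont
open Crest.Agent.R128.AlignMn Crest.Agent.R128.DictY

namespace Crest.Agent.R128.VFBase9

variable {k c t t0 ρ : ℝ} {L w M n : ℕ} {x : ℕ → ℝ}

/-- the field seen from the foot -/
noncomputable abbrev EE (k c t : ℝ) (w : ℕ) : ℕ → ℝ × ℝ := VClean.zf k (pr (c, t)) (w - 1)

theorem foot_of_side (hk : (2 : ℝ) ^ 200 ≤ k) (hL : 1000 ≤ L) (hρ : 0 ≤ ρ)
    (h : Good.Side k L ρ (zt k c t) x w M) : SideStart.Foot k c t w M (EE k c t w) := by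
  have hk' : (2 : ℝ) ^ 120 ≤ k := le_trans (by norm_num) hk
  have h1 := VClean.side_clean hk' hL hρ h
  have hw := h.hw
  refine ⟨by omega, ⟨h1.hw, h1.hz, h1.w0, h1.A1, h1.hA, h1.δ0, h1.δ1, h1.K1, by norm_num, h1.one,
    h1.val, h1.dur, ?_⟩, ?_, VClean.side_X k c t (w - 1), VSizes.foot_half hk' hL hρ h, ?_⟩
  · refine h1.tr.trans ?_
    exact mul_le_mul_of_nonneg_right (by norm_num) (abs_nonneg _)
  · change nn (VClean.zf k (pr (c, t)) (w - 1) (w - 1)) = 1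
    rw [VClean.zf_self]
    unfold nn
    norm_num
  · intro j hj
    have h2 := h.run (w + j) (by omega) (by omega)
    rw [← ap_eq, Complex.norm_real, Real.norm_eq_abs]
    exact h2

theorem wf2 (k c t : ℝ) {w : ℕ} (hw : 1 ≤ w) (j : ℕ) :
    |(wf k c t (w - 1 + j)).2| = ‖yd k c (w + j) (t : ℂ)‖ := by
  have e : w + j = w - 1 + j + 1 := by omega
  rw [e, ← wf_snd, Complex.norm_real, Real.norm_eq_abs]

/-- the sizes at the foot and at the end of the run -/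
structure Sz (k c t : ℝ) (n w M : ℕ) : Prop where
  lo : (2 : ℝ) ^ n ≤ 11 / 10 * ‖yd k c w (t : ℂ)‖
  up : ‖yd k c w (t : ℂ)‖ ≤ 11 / 10 * (k ^ 5 * 2 ^ n)
  fin : k ^ 80 * 2 ^ n ≤ 2 * ‖yd k c (w + M) (t : ℂ)‖

theorem sizes (hk : (2 : ℝ) ^ 200 ≤ k) (hL : 1000 ≤ L) (hρ1 : n * Real.log 2 ≤ ρ)
    (hρ2 : ρ ≤ n * Real.log 2 + 2 * Real.log k)
    (h : Good.Side k L ρ (zt k c t) x w M) : Sz k c t n w M := by
  have hk' : (2 : ℝ) ^ 120 ≤ k := le_trans (by norm_num) hk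
  have hk0 : 0 < k := lt_of_lt_of_le (by positivity) hk
  have hl2 : 0 < Real.log 2 := Real.log_pos (by norm_num)
  have hρ : 0 ≤ ρ := le_trans (by positivity) hρ1
  have hw := h.hw
  have e0 : Real.exp (n * Real.log 2) = 2 ^ n := by
    rw [Real.exp_nat_mul, Real.exp_log (by norm_num)]
  have ek (m : ℕ) : Real.exp (m * Real.log k) = k ^ m := by
    rw [Real.exp_nat_mul, Real.exp_log hk0]
  have h1 := VSizes.size_lower hk' hL hρ h
  have h2 := VSizes.size_upper hk' hL hρ (a := 3) (by norm_num) h h.lo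
  have h3 := VSizes.size_end hk' hL hρ h
  have w0 := wf2 k c t (w := w) (by omega) 0
  rw [add_zero, add_zero] at w0
  rw [w0] at h1 h2
  rw [wf2 k c t (by omega)] at h3
  refine ⟨?_, ?_, ?_⟩
  · rw [← e0]
    exact (Real.exp_le_exp.2 hρ1).trans h1
  · refine h2.trans ?_
    have : Real.exp (ρ + 3 * Real.log k) ≤ k ^ 5 * 2 ^ n := by
      rw [← e0, ← ek 5, ← Real.exp_add]
      apply Real.exp_le_exp.2
      push_cast
      linarith
    linarith
  · refine le_trans ?_ h3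
    rw [← e0, ← ek 80, ← Real.exp_add]
    apply Real.exp_le_exp.2
    push_cast
    linarith

theorem rho0_le (hk : 4 ≤ k) : rho0 k (8 * k) 3 4 ≤ 1 / (640 * k) := by
  have h0 := CL_ge (k := k) (by linarith)
  have h3 : 1 ≤ C2 (8 * k) 3 4 := by
    have h4 : 1 ≤ CleanNum.C1 (8 * k) 3 4 := by
      unfold CleanNum.C1
      nlinarith [sq_nonneg (8 * k)]
    unfold C2
    have h5 : 1 ≤ CleanNum.C1 (8 * k) 3 4 ^ 3 := one_le_pow₀ h4
    have h6 : 1 ≤ CleanNum.C1 (8 * k) 3 4 ^ 3 * 3 ^ 2 := by nlinarith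
    nlinarith
  unfold rho0
  apply one_div_le_one_div_of_le (by positivity)
  calc 640 * k = 80 * 1 * (8 * k) * 1 := by ring
    _ ≤ 80 * CL k * (8 * k + 1) * C2 (8 * k) 3 4 := by
        gcongr
        linarith

/-- **the base data of one side** -/
theorem base_side {s : Bool} {E : ℕ → ℝ × ℝ} (hk : (10 : ℝ) ^ 200 ≤ k)
    (F : SideStart.Foot k c (SideStart.tt k c s t0) w M E)
    (S : Sz k c (SideStart.tt k c s t0) n w M) :
    LocA.Base k c s (w - 1) M t0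
      (SideStart.r0 k (XX (wf k c (SideStart.tt k c s t0)) E)) (1 / (k ^ 60 * 2 ^ n)) := by
  have hk2 : (2 : ℝ) ^ 200 ≤ k := le_trans (by norm_num) hk
  have hk4 : (4 : ℝ) ≤ k := le_trans (by norm_num) hk
  have hk0 : 0 < k := by linarith
  have h2n : (0 : ℝ) < 2 ^ n := by positivity
  set X := ‖yd k c w ((SideStart.tt k c s t0 : ℝ) : ℂ)‖ with hX
  have hXX : XX (wf k c (SideStart.tt k c s t0)) E = X := F.yd_w.symm
  have hX0 : 0 < X := by rw [← hXX]; exact F.X_pos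
  have hXr : X * (1 / (k ^ 60 * 2 ^ n)) ≤ 11 / 10 * (1 / k ^ 55) := by
    calc X * (1 / (k ^ 60 * 2 ^ n)) ≤ 11 / 10 * (k ^ 5 * 2 ^ n) * (1 / (k ^ 60 * 2 ^ n)) :=
          mul_le_mul_of_nonneg_right S.up (by positivity)
      _ = 11 / 10 * (1 / k ^ 55) := by
          field_simp
  have hρ : X * (1 / (k ^ 60 * 2 ^ n)) ≤ 1 / k ^ 40 := by
    refine hXr.trans ?_
    rw [mul_one_div, div_le_div_iff₀ (by positivity) (by positivity)]
    calc 11 / 10 * k ^ 40 ≤ k * k ^ 40 := by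
          gcongr
          linarith
      _ = k ^ 41 := by ring
      _ ≤ k ^ 55 := pow_le_pow_right₀ (by linarith) (by norm_num)
      _ = 1 * k ^ 55 := by ring
  have D := F.sd (s := s) hk2 (ρ := 1 / (k ^ 60 * 2 ^ n)) hρ
  have hw1 := F.w1
  have ew : w - 1 + 1 = w := by omega
  rw [hXX] at *
  have hD : ‖LocA.Ds k c s w (t0 : ℂ)‖ = X := SideStart.norm_Ds_tt k c s w t0
  have hD' : ‖Loc.D k c s w (t0 : ℂ)‖ = X := by rw [← LocA.norm_Ds, hD]
  refine ⟨D.r_pos, by positivity, ?_, ?_, ?_, ?_, ?_, ?_, ?_, ?_⟩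
  · intro u hu
    have h1 := D.start.na.close u hu
    rw [LocA.norm_Ds_sub, LocA.norm_Ds] at h1
    exact h1
  · intro u hu
    have h1 := D.prev u hu
    rw [LocA.norm_Ds, LocA.norm_Ds] at h1
    rw [ew]
    exact h1
  · rw [ew]
    intro h0
    rw [h0, norm_zero] at hD'
    linarith
  · rw [ew, hD', SideStart.X_mul_r0 hX0]
    have h1 := rho0_le hk4
    have h2 : 10 ^ 11 * k * (rho0 k (8 * k) 3 4 / 5000) ≤ 31250 := by
      calc 10 ^ 11 * k * (rho0 k (8 * k) 3 4 / 5000) ≤ 10 ^ 11 * k * (1 / (640 * k) / 5000) := by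
            gcongr
        _ = 31250 := by
            field_simp
            norm_num
    refine h2.trans ?_
    exact le_trans (by norm_num) (SideStart.pow35 hk2)
  · rw [ew]
    have h1 := D.old
    rw [hD] at h1
    rw [hD']
    exact h1
  · rw [ew, hD']
    have h1 := S.lo
    rw [← hX] at h1
    have h2 : 10 / 11 * 2 ^ n ≤ X := by linarith
    calc (1 : ℝ) ≤ k * (20 / 11) := by linarith
      _ = k ^ 61 * (10 / 11 * 2 ^ n * (2 * (1 / (k ^ 60 * 2 ^ n)))) := by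
          field_simp
          norm_num
      _ ≤ k ^ 61 * (X * (2 * (1 / (k ^ 60 * 2 ^ n)))) := by gcongr
  · intro j hj
    have h1 := D.run j hj.le
    rw [ew]
    exact h1
  · have h1 := S.fin
    have e1 : ‖Loc.D k c s (w - 1 + 1 + M) (t0 : ℂ)‖ =
        ‖yd k c (w + M) ((SideStart.tt k c s t0 : ℝ) : ℂ)‖ := by
      rw [ew, ← LocA.norm_Ds, SideStart.norm_Ds_tt]
    rw [e1]
    have h2 : k ^ (-(7 / 20) : ℝ) ≤ 1 :=
      Real.rpow_le_one_of_one_le_of_nonpos (by linarith) (by norm_num)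
    refine h2.trans ?_
    set Z := ‖yd k c (w + M) ((SideStart.tt k c s t0 : ℝ) : ℂ)‖
    calc (1 : ℝ) ≤ k ^ 20 := one_le_pow₀ (by linarith)
      _ = (k ^ 80 * 2 ^ n / 2) * (2 * (1 / (k ^ 60 * 2 ^ n))) := by
          field_simp
      _ ≤ Z * (2 * (1 / (k ^ 60 * 2 ^ n))) := by
          gcongr
          linarith

/-- **the old sizes** -/
theorem old_size {s : Bool} {E : ℕ → ℝ × ℝ} (hk : (10 : ℝ) ^ 200 ≤ k)
    (F : SideStart.Foot k c (SideStart.tt k c s t0) w M E)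
    (S : Sz k c (SideStart.tt k c s t0) n w M) {u : ℝ}
    (hu : |u - t0| ≤ 2 * (1 / (k ^ 60 * 2 ^ n))) :
    ∀ i ≤ w - 1, ‖Loc.D k c s i (u : ℂ)‖ ≤ k ^ 74 * 2 ^ n := by
  have hk4 : (4 : ℝ) ≤ k := le_trans (by norm_num) hk
  have hk0 : 0 < k := by linarith
  have h2n : (0 : ℝ) < 2 ^ n := by positivity
  set X := ‖yd k c w ((SideStart.tt k c s t0 : ℝ) : ℂ)‖ with hX
  have hXX : XX (wf k c (SideStart.tt k c s t0)) E = X := F.yd_w.symm
  have hX0 : 0 < X := by rw [← hXX]; exact F.X_pos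
  have hbp : LocSize.bp k c s t0 = SideStart.tt k c s t0 := rfl
  have hc : Clean (ra k c (LocSize.bp k c s t0)) (wf k c (LocSize.bp k c s t0)) E (w - 1) (1 / 60) 3
      (8 * k) 4 := F.clean
  have hρ := StartNum.rho0_ge hk4
  have h1 : ‖(u : ℂ) - t0‖ ≤ rho0 k (8 * k) 3 4 / XX (wf k c (LocSize.bp k c s t0)) E := by
    rw [hbp, hXX, le_div_iff₀ hX0, ← Complex.ofReal_sub, Complex.norm_real, Real.norm_eq_abs]
    refine le_trans ?_ hρ
    calc |u - t0| * X ≤ 2 * (1 / (k ^ 60 * 2 ^ n)) * (11 / 10 * (k ^ 5 * 2 ^ n)) :=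
          mul_le_mul hu S.up hX0.le (by positivity)
      _ = 22 / 10 * (1 / k ^ 55) := by
          field_simp
          norm_num
      _ ≤ 1 / (2 ^ 58 * k ^ 9) := by
          rw [mul_one_div, div_le_div_iff₀ (by positivity) (by positivity)]
          have h3 : (22 / 10 * 2 ^ 58 : ℝ) ≤ k := le_trans (by norm_num) hk
          calc 22 / 10 * (2 ^ 58 * k ^ 9) = (22 / 10 * 2 ^ 58) * k ^ 9 := by ring
            _ ≤ k * k ^ 9 := by gcongr
            _ = k ^ 10 := by ring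
            _ ≤ k ^ 55 := pow_le_pow_right₀ (by linarith) (by norm_num)
            _ = 1 * k ^ 55 := by ring
  have h2 := LocSize.foot_loc s hc (by linarith) h1
  intro i hi
  refine (h2 i (by omega)).trans ?_
  rw [hbp, hXX]
  have hC1 : CleanNum.C1 (8 * k) 3 4 ≤ k ^ 3 := by
    unfold CleanNum.C1
    have h5 : (200 : ℝ) ≤ k := le_trans (by norm_num) hk
    have h6 : 1 ≤ k ^ 2 := one_le_pow₀ (by linarith)
    nlinarith
  calc 2 * (CleanNum.C1 (8 * k) 3 4 * X) ≤ 2 * (k ^ 3 * (11 / 10 * (k ^ 5 * 2 ^ n))) := by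
        gcongr
        exact S.up
    _ = 22 / 10 * k ^ 8 * 2 ^ n := by ring
    _ ≤ k * k ^ 8 * 2 ^ n := by
        gcongr
        linarith
    _ = k ^ 9 * 2 ^ n := by ring
    _ ≤ k ^ 74 * 2 ^ n := by
        have : k ^ 9 ≤ k ^ 74 := pow_le_pow_right₀ (by linarith) (by norm_num)
        gcongr

/-- **the old content** -/
theorem old_content {w' M' : ℕ} {E E' : ℕ → ℝ × ℝ} (hk : (10 : ℝ) ^ 200 ≤ k)
    (F : SideStart.Foot k c (SideStart.tt k c true t0) w M E)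
    (F' : SideStart.Foot k c (SideStart.tt k c false t0) w' M' E')
    (S : Sz k c (SideStart.tt k c true t0) n w M)
    (S' : Sz k c (SideStart.tt k c false t0) n w' M') :
    ∃ p0 p1 p2 : ℝ, ∀ z ∈ ball (t0 : ℂ) (2 * (1 / (k ^ 60 * 2 ^ n))),
      ‖Loc.cont k c true (w - 1 + 1) (w' - 1 + 1) z -
        (p0 + p1 * (z - t0) + p2 * (z - t0) ^ 2)‖ ≤ (1 / (k ^ 60 * 2 ^ n)) ^ 2 / k ^ 18 := by
  have hk2 : (2 : ℝ) ^ 200 ≤ k := le_trans (by norm_num) hk
  have hk4 : (4 : ℝ) ≤ k := le_trans (by norm_num) hk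
  have hk0 : 0 < k := by linarith
  have h2n : (0 : ℝ) < 2 ^ n := by positivity
  have hw1 := F.w1
  have hw1' := F'.w1
  have ew : w - 1 + 1 = w := by omega
  have ew' : w' - 1 + 1 = w' := by omega
  rw [ew, ew']
  have key : ∀ {X : ℝ}, X ≤ 11 / 10 * (k ^ 5 * 2 ^ n) →
      2 ^ 59 * k ^ 9 * (2 * (1 / (k ^ 60 * 2 ^ n))) * X ≤ 1 := by
    intro X hX
    calc 2 ^ 59 * k ^ 9 * (2 * (1 / (k ^ 60 * 2 ^ n))) * X ≤
        2 ^ 59 * k ^ 9 * (2 * (1 / (k ^ 60 * 2 ^ n))) * (11 / 10 * (k ^ 5 * 2 ^ n)) := by gcongr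
      _ = 2 ^ 60 * 11 / 10 * (1 / k ^ 46) := by
          field_simp
      _ ≤ 1 := by
          rw [mul_one_div, div_le_one (by positivity)]
          calc (2 ^ 60 * 11 / 10 : ℝ) ≤ k := le_trans (by norm_num) hk
            _ ≤ k ^ 46 := le_self_pow₀ (by linarith) (by norm_num)
  have hX := SideStart.norm_Ds_tt k c true w t0
  have hX' := SideStart.norm_Ds_tt k c false w' t0
  have u1 : ‖LocA.Ds k c true w (t0 : ℂ)‖ ≤ 11 / 10 * (k ^ 5 * 2 ^ n) := by rw [hX]; exact S.up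
  have u2 : ‖LocA.Ds k c false w' (t0 : ℂ)‖ ≤ 11 / 10 * (k ^ 5 * 2 ^ n) := by rw [hX']; exact S'.up
  obtain ⟨q0, q1, q2, hq⟩ := SideStart.content F F' hk2 (r := 2 * (1 / (k ^ 60 * 2 ^ n)))
    (by positivity) (key u1) (key u2) t0
  refine ⟨q0, q1, q2, fun z hz => ?_⟩
  refine (hq z (ball_subset_closedBall hz)).trans ?_
  have h3 : ‖LocA.Ds k c true w (t0 : ℂ)‖ + ‖LocA.Ds k c false w' (t0 : ℂ)‖ ≤
      3 * (k ^ 5 * 2 ^ n) := by
    have : 0 ≤ k ^ 5 * 2 ^ n := by positivity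
    linarith
  calc k ^ 32 * (2 * (1 / (k ^ 60 * 2 ^ n))) ^ 3 *
        (‖LocA.Ds k c true w (t0 : ℂ)‖ + ‖LocA.Ds k c false w' (t0 : ℂ)‖) ≤
      k ^ 32 * (2 * (1 / (k ^ 60 * 2 ^ n))) ^ 3 * (3 * (k ^ 5 * 2 ^ n)) := by gcongr
    _ = (1 / (k ^ 60 * 2 ^ n)) ^ 2 * (24 / k ^ 23) := by
        field_simp
        norm_num
    _ ≤ (1 / (k ^ 60 * 2 ^ n)) ^ 2 * (1 / k ^ 18) := by
        refine mul_le_mul_of_nonneg_left ?_ (by positivity)
        rw [div_le_div_iff₀ (by positivity) (by positivity)]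
        have h5 : (24 : ℝ) ≤ k := le_trans (by norm_num) hk
        calc 24 * k ^ 18 ≤ k * k ^ 18 := by gcongr
          _ = k ^ 19 := by ring
          _ ≤ k ^ 23 := pow_le_pow_right₀ (by linarith) (by norm_num)
          _ = 1 * k ^ 23 := by ring
    _ = (1 / (k ^ 60 * 2 ^ n)) ^ 2 / k ^ 18 := by ring

/-- **VFBase**, literally 365's Prop for `B := LocA.Base` -/
theorem vfBase (hL : 1000 ≤ L) :
    ∃ k1 : ℝ, ∀ k : ℝ, k1 ≤ k → ∀ (c t0 : ℝ) (n : ℕ), zt k c t0 ∈ Good.G k L n →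
      ∃ (n0 M : Bool → ℕ) (r0 : Bool → ℝ),
        (∀ s, LocA.Base k c s (n0 s) (M s) t0 (r0 s) (1 / (k ^ 60 * 2 ^ n))) ∧
        (∃ p0 p1 p2 : ℝ, ∀ z ∈ ball (t0 : ℂ) (2 * (1 / (k ^ 60 * 2 ^ n))),
          ‖Loc.cont k c true (n0 true + 1) (n0 false + 1) z -
            (p0 + p1 * (z - t0) + p2 * (z - t0) ^ 2)‖ ≤ (1 / (k ^ 60 * 2 ^ n)) ^ 2 / k ^ 18) ∧
        ∀ s, ∀ i ≤ n0 s, ∀ u : ℝ, |u - t0| ≤ 2 * (1 / (k ^ 60 * 2 ^ n)) →
          ‖Loc.D k c s i u‖ ≤ k ^ 74 * 2 ^ n := by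
  refine ⟨10 ^ 200, fun k hk c t0 n hG => ?_⟩
  have hk2 : (2 : ℝ) ^ 200 ≤ k := le_trans (by norm_num) hk
  obtain ⟨_, ρ, hρ1, hρ2, xp, xm, w, M, w', M', hp, hm, _, _⟩ := hG
  have hl2 : 0 < Real.log 2 := Real.log_pos (by norm_num)
  have hρ : 0 ≤ ρ := le_trans (by positivity) hρ1
  rw [Rev_zt] at hm
  have F : SideStart.Foot k c (SideStart.tt k c true t0) w M (EE k c t0 w) :=
    foot_of_side hk2 hL hρ hp
  have F' : SideStart.Foot k c (SideStart.tt k c false t0) w' M' (EE k c (tb k c t0) w') :=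
    foot_of_side hk2 hL hρ hm
  have S : Sz k c (SideStart.tt k c true t0) n w M := sizes hk2 hL hρ1 hρ2 hp
  have S' : Sz k c (SideStart.tt k c false t0) n w' M' := sizes hk2 hL hρ1 hρ2 hm
  refine ⟨fun s => if s then w - 1 else w' - 1, fun s => if s then M else M',
    fun s => if s then SideStart.r0 k (XX (wf k c (SideStart.tt k c true t0)) (EE k c t0 w))
      else SideStart.r0 k (XX (wf k c (SideStart.tt k c false t0)) (EE k c (tb k c t0) w')),
    ?_, ?_, ?_⟩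
  · intro s
    cases s with
    | true => simpa using base_side hk F S
    | false => simpa using base_side hk F' S'
  · simpa using old_content hk F F' S S'
  · intro s i hi u hu
    cases s with
    | true => exact old_size hk F S hu i (by simpa using hi)
    | false => exact old_size hk F' S' hu i (by simpa using hi)

end Crest.Agent.R128.VFBase9
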