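import Mathlib
import Crest.Agent.R128.Good
import Crest.Agent.R128.ValNorm
import Crest.Agent.R128.CleanDisc
import Crest.Agent.R128.Rev

/-!
# Row 128, V5: one side of a very fresh level gives the hypotheses of `CleanNum.Clean` (helper978)

`qd a w m = Q_w P_m - P_w Q_m` : the Dirichlet field at the foot `w`.
-/

set_option autoImplicit false
open Finset
open Crest.Agent.R128 Crest.Agent.R128.TreeSum Crest.Agent.R128.AlignMn Crest.Agent.R128.DictY
open Crest.Agent.R128.Lam0 Crest.Agent.R128.ValNorm Crest.Agent.R128.Good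

namespace Crest.Agent.R128.VFSide

/-- the field which vanishes at `w` and is `1` at `w - 1` -/
noncomputable def qd (a : ℕ → ℝ) (w m : ℕ) : ℝ :=
  Align.Q a w * Align.P a m - Align.P a w * Align.Q a m

theorem qd_self (a : ℕ → ℝ) (w : ℕ) : qd a w w = 0 := by unfold qd; ring

theorem qd_pred (a : ℕ → ℝ) (w : ℕ) : qd a (w + 1) w = 1 := by
  unfold qd
  linear_combination Align.wronskian a w

theorem qd_rec (a : ℕ → ℝ) (w m : ℕ) :
    qd a w (m + 2) = a (m + 1) * qd a w (m + 1) - qd a w m := by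
  unfold qd
  rw [Align.P_add_two, Align.Q_add_two]
  ring

theorem qd_zero (a : ℕ → ℝ) (w : ℕ) : qd a w 0 = Align.Q a w := by unfold qd; simp

theorem qd_one (a : ℕ → ℝ) (w : ℕ) : qd a w 1 = -Align.P a w := by unfold qd; simp

/-- the pair field -/
noncomputable def zf (a : ℕ → ℝ) (w m : ℕ) : ℝ × ℝ := (qd a w m, qd a w (m + 1))

theorem zf_isField (a : ℕ → ℝ) (w : ℕ) : IsField (fun m => a (m + 1)) (zf a w) := by
  intro m
  unfold zf stp
  rw [qd_rec]

theorem ap_nat (k : ℝ) (y : Tor) (n : ℕ) : ap k y n = V k ((T k)^[n] y).2 := by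
  unfold ap dz
  rw [Two.Tz_natCast]

/-- the reversed field is the Dirichlet field -/
theorem fld_rev (k : ℝ) (y : Tor) (w : ℕ) : ∀ j, j + 1 ≤ w →
    fld k (((T k)^[w] y).swap) j = (qd (ap k y) w (w - j), qd (ap k y) w (w - 1 - j)) := by
  intro j
  induction j with
  | zero =>
    intro hj
    obtain ⟨v, rfl⟩ : ∃ v, w = v + 1 := ⟨w - 1, by omega⟩
    rw [fld_zero]
    simp only [Nat.sub_zero, Nat.add_sub_cancel]
    rw [qd_self, qd_pred]
  | succ j ih =>
    intro hj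
    rw [fld_succ, ih (by omega)]
    unfold stp
    simp only
    rw [Rev.digit_rev k (by omega : j ≤ w)]
    have e1 : w - j = (w - 1 - j) + 1 := by omega
    have e2 : w - 1 - j = (w - 1 - (j + 1)) + 1 := by omega
    have e3 : w - (j + 1) = w - 1 - j := by omega
    have h1 := qd_rec (ap k y) w (w - 1 - (j + 1))
    rw [e3]
    ext
    · rfl
    · show V k ((T k)^[w - j] y).1 * qd (ap k y) w (w - 1 - j) - qd (ap k y) w (w - j) = _
      have h2 : V k ((T k)^[w - j] y).1 = ap k y (w - 1 - j) := by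
        rw [e1, Rev.fst_iter_succ, ap_nat]
      rw [h2]
      have e4 : w - 1 - (j + 1) + 2 = w - j := by omega
      have e5 : w - 1 - (j + 1) + 1 = w - 1 - j := by omega
      rw [e4, e5] at h1
      linarith

theorem norm_fld_rev (k : ℝ) (y : Tor) {w m : ℕ} (hm : m + 1 ≤ w) :
    W k (((T k)^[w] y).swap) (w - 1 - m) = ‖zf (ap k y) w m‖ := by
  unfold W
  rw [fld_rev k y w (w - 1 - m) (by omega)]
  have e1 : w - (w - 1 - m) = m + 1 := by omega
  have e2 : w - 1 - (w - 1 - m) = m := by omega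
  rw [e1, e2]
  unfold zf
  rw [Prod.norm_def, Prod.norm_def]
  exact max_comm _ _

theorem norm_le_nn (v : ℝ × ℝ) : ‖v‖ ≤ nn v := by
  rw [Prod.norm_def]
  exact max_le (abs_fst_le v) (abs_snd_le v)

theorem nn_le (v : ℝ × ℝ) : nn v ≤ 3 / 2 * ‖v‖ := by
  unfold nn
  rw [Real.sqrt_le_left (by positivity)]
  have h1 : |v.1| ≤ ‖v‖ := by simpa using norm_fst_le v
  have h2 : |v.2| ≤ ‖v‖ := by simpa using norm_snd_le v
  have h3 : v.1 ^ 2 ≤ ‖v‖ ^ 2 := by
    rw [← sq_abs v.1]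
    exact pow_le_pow_left₀ (abs_nonneg _) h1 2
  have h4 : v.2 ^ 2 ≤ ‖v‖ ^ 2 := by
    rw [← sq_abs v.2]
    exact pow_le_pow_left₀ (abs_nonneg _) h2 2
  nlinarith [sq_nonneg ‖v‖]

section side

variable {k ρ : ℝ} {L w M : ℕ} {y : Tor} {x : ℕ → ℝ}

/-- `CVal` gives `ValD` with `d = 1/100` -/
theorem valD {n : ℕ} {z : Tor} (h : CVal k L z n) (hLn : L ≤ n) : ValD k (1 / 100) L n z where
  c1 := fun m hm => h.cl m hm (hm.trans_le hLn)
  c2 := by
    intro i j hi hij hj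
    have h1 := h.v2 i j hi hij hj
    have hi0 : 0 ≤ W k z i := W_nonneg _ _ _
    have hj0 : 0 ≤ W k z j := W_nonneg _ _ _
    have e1 : W k z i ^ (1 - 1 / 100 : ℝ) = (W k z i ^ 99) ^ (1 / 100 : ℝ) := by
      rw [← Real.rpow_natCast (W k z i) 99, ← Real.rpow_mul hi0]
      norm_num
    have e2 : W k z j = (W k z j ^ 100) ^ (1 / 100 : ℝ) := by
      rw [← Real.rpow_natCast (W k z j) 100, ← Real.rpow_mul hj0]
      norm_num
    rw [e1, e2]
    exact Real.rpow_le_rpow (pow_nonneg hi0 99) h1 (by norm_num)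
  c3 := by
    intro j hL hj
    obtain ⟨i, h1, h2, h3⟩ := h.v3 j hL hj
    refine ⟨i, h2, ?_⟩
    have hj0 : (0:ℝ) ≤ j := Nat.cast_nonneg j
    have e : ((j : ℝ) ^ 400) ^ (1 / 100 / 4 : ℝ) = (j : ℝ) := by
      rw [← Real.rpow_natCast (j:ℝ) 400, ← Real.rpow_mul hj0]
      have : (((400 : ℕ) : ℝ) * (1 / 100 / 4 : ℝ)) = 1 := by norm_num
      rw [this, Real.rpow_one]
    have h4 : ((j : ℝ) ^ 400) ^ (1 / 100 / 4 : ℝ) ≤ W k z i ^ (1 / 100 / 4 : ℝ) :=
      Real.rpow_le_rpow (pow_nonneg hj0 400) h3 (by norm_num)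
    rw [e] at h4
    exact h4

/-- lower bounds of the reversed field: `W_1 ≥ 10^40` and everything after -/
theorem W_big {n : ℕ} {z : Tor} (h : ValD k (1 / 100) L n z) (hk : (10 : ℝ) ^ 100 ≤ k)
    (hL : 10 ≤ L) {m : ℕ} (h1 : 1 ≤ m) (hm : m ≤ n) : (10 : ℝ) ^ 49 ≤ W k z m := by
  have hk100 : (100 : ℝ) ≤ k := le_trans (by norm_num) hk
  have h2 := h.W_clean hk100 (m := 1) (by omega)
  rw [pow_one] at h2
  have h3 : (10 : ℝ) ^ 50 ≤ k ^ (1 / 2 : ℝ) := by
    calc (10 : ℝ) ^ 50 = ((10 : ℝ) ^ 100) ^ (1 / 2 : ℝ) := by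
          rw [← Real.rpow_natCast, ← Real.rpow_natCast, ← Real.rpow_mul (by norm_num)]
          norm_num
      _ ≤ _ := Real.rpow_le_rpow (by positivity) hk (by norm_num)
  have h4 := h.all hk100 (by norm_num) (by norm_num) h1 hm
  have h5 : ((10 : ℝ) ^ 50) ^ (1 - 1 / 100 : ℝ) ≤ W k z 1 ^ (1 - 1 / 100 : ℝ) :=
    Real.rpow_le_rpow (by positivity) (h3.trans h2) (by norm_num)
  have h6 : (10 : ℝ) ^ 49 ≤ ((10 : ℝ) ^ 50) ^ (1 - 1 / 100 : ℝ) := by
    rw [← Real.rpow_natCast 10 50, ← Real.rpow_natCast 10 49, ← Real.rpow_mul (by norm_num)]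
    exact Real.rpow_le_rpow_of_exponent_le (by norm_num) (by norm_num)
  linarith

/-- `∑ W^(-1/60) ≤ 4` -/
theorem sum_W {n : ℕ} {z : Tor} (h : ValD k (1 / 100) L n z) (hc : CVal k L z n)
    (hk : (10 : ℝ) ^ 100 ≤ k) (hL : 10 ≤ L) :
    ∑ j ∈ range (n + 1), W k z j ^ (-(1 / 60 : ℝ)) ≤ 4 := by
  have hk100 : (100 : ℝ) ≤ k := le_trans (by norm_num) hk
  have hk0 : (0 : ℝ) < k := by linarith
  have hpt : ∀ j ∈ range (n + 1), W k z j ^ (-(1 / 60 : ℝ)) ≤
      (1 / 2 : ℝ) ^ j + 2 * (1 / ((j : ℝ) + 1) - 1 / ((j : ℝ) + 2)) := by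
    intro j hj
    rw [mem_range] at hj
    have hj2 : 0 ≤ 2 * (1 / ((j : ℝ) + 1) - 1 / ((j : ℝ) + 2)) := by
      have hj0 : (0 : ℝ) ≤ j := Nat.cast_nonneg j
      have : 1 / ((j : ℝ) + 2) ≤ 1 / ((j : ℝ) + 1) :=
        one_div_le_one_div_of_le (by linarith) (by linarith)
      linarith
    rcases Nat.lt_or_ge j L with hjL | hjL
    · have h1 := h.W_clean hk100 hjL.le
      have h2 : W k z j ^ (-(1 / 60 : ℝ)) ≤ ((k ^ (1/2 : ℝ)) ^ j) ^ (-(1 / 60 : ℝ)) :=
        Real.rpow_le_rpow_of_nonpos (by positivity) h1 (by norm_num)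
      have h3 : ((k ^ (1/2 : ℝ)) ^ j) ^ (-(1 / 60 : ℝ)) = (k ^ (-(1 / 120) : ℝ)) ^ j := by
        rw [← Real.rpow_natCast, ← Real.rpow_natCast, ← Real.rpow_mul hk0.le,
          ← Real.rpow_mul hk0.le, ← Real.rpow_mul hk0.le]
        congr 1
        ring
      have h4 : k ^ (-(1 / 120) : ℝ) ≤ 1 / 2 := by
        have h5 : ((10 : ℝ) ^ 100) ^ (1 / 120 : ℝ) ≤ k ^ (1 / 120 : ℝ) :=
          Real.rpow_le_rpow (by positivity) hk (by norm_num)
        have h6 : (2 : ℝ) ≤ ((10 : ℝ) ^ 100) ^ (1 / 120 : ℝ) := by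
          have h7 : (2 : ℝ) = ((2 : ℝ) ^ 120) ^ (1 / 120 : ℝ) := by
            rw [← Real.rpow_natCast, ← Real.rpow_mul (by norm_num)]
            norm_num
          rw [h7]
          refine Real.rpow_le_rpow (by positivity) ?_ (by norm_num)
          norm_num
        rw [Real.rpow_neg hk0.le, inv_eq_one_div]
        exact one_div_le_one_div_of_le (by norm_num) (h6.trans h5)
      have h8 : (k ^ (-(1 / 120) : ℝ)) ^ j ≤ (1 / 2 : ℝ) ^ j :=
        pow_le_pow_left₀ (by positivity) h4 j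
      rw [h3] at h2
      linarith
    · obtain ⟨i, hi1, hi2, hi3⟩ := hc.v3 j hjL (by omega)
      have h1 := h.all hk100 (by norm_num) (by norm_num) hi2 (by omega : j ≤ n)
      have hj1 : (10 : ℝ) ≤ j := by exact_mod_cast hL.trans hjL
      have hj0 : (0 : ℝ) < j := by linarith
      have h2 : (j : ℝ) ^ (396 : ℝ) ≤ W k z j := by
        refine le_trans ?_ h1
        calc (j : ℝ) ^ (396 : ℝ) = ((j : ℝ) ^ 400) ^ (1 - 1 / 100 : ℝ) := by
              rw [← Real.rpow_natCast, ← Real.rpow_mul hj0.le]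
              norm_num
          _ ≤ _ := Real.rpow_le_rpow (by positivity) hi3 (by norm_num)
      have h3 : W k z j ^ (-(1 / 60 : ℝ)) ≤ ((j : ℝ) ^ (396 : ℝ)) ^ (-(1 / 60 : ℝ)) :=
        Real.rpow_le_rpow_of_nonpos (by positivity) h2 (by norm_num)
      have h4 : ((j : ℝ) ^ (396 : ℝ)) ^ (-(1 / 60 : ℝ)) ≤ (j : ℝ) ^ (-2 : ℝ) := by
        rw [← Real.rpow_mul hj0.le]
        exact Real.rpow_le_rpow_of_exponent_le (by linarith) (by norm_num)
      have h5 : (j : ℝ) ^ (-2 : ℝ) = 1 / (j : ℝ) ^ 2 := by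
        rw [Real.rpow_neg hj0.le, one_div]
        norm_cast
      have h6 : 1 / (j : ℝ) ^ 2 ≤ 2 * (1 / ((j : ℝ) + 1) - 1 / ((j : ℝ) + 2)) := by
        have e : 2 * (1 / ((j : ℝ) + 1) - 1 / ((j : ℝ) + 2)) = 2 / (((j : ℝ) + 1) * ((j : ℝ) + 2)) := by
          field_simp
          ring
        rw [e, div_le_div_iff₀ (by positivity) (by positivity)]
        nlinarith
      have h7 : (0 : ℝ) ≤ (1 / 2 : ℝ) ^ j := by positivity
      linarith
  refine (Finset.sum_le_sum hpt).trans ?_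
  rw [Finset.sum_add_distrib, ← Finset.mul_sum]
  have s1 : ∑ j ∈ range (n + 1), (1 / 2 : ℝ) ^ j ≤ 2 := by
    have : ∑ j ∈ range (n + 1), (1 / 2 : ℝ) ^ j = 2 - 2 * (1 / 2 : ℝ) ^ (n + 1) := by
      induction n + 1 with
      | zero => norm_num
      | succ m ih => rw [Finset.sum_range_succ, ih, pow_succ]; ring
    rw [this]
    have : (0 : ℝ) ≤ (1 / 2 : ℝ) ^ (n + 1) := by positivity
    linarith
  have s2 : ∑ j ∈ range (n + 1), (1 / ((j : ℝ) + 1) - 1 / ((j : ℝ) + 2)) ≤ 1 := by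
    have : ∑ j ∈ range (n + 1), (1 / ((j : ℝ) + 1) - 1 / ((j : ℝ) + 2)) =
        1 - 1 / (((n + 1 : ℕ) : ℝ) + 1) := by
      induction n + 1 with
      | zero => norm_num
      | succ m ih =>
        rw [Finset.sum_range_succ, ih]
        push_cast
        have : (m : ℝ) + 1 + 1 = m + 2 := by ring
        rw [this]
        ring
    rw [this]
    have : (0 : ℝ) ≤ 1 / (((n + 1 : ℕ) : ℝ) + 1) := by positivity
    linarith
  linarith

theorem ra_eq (k c t : ℝ) (m : ℕ) : CleanDisc.ra k c t m = ap k (zt k c t) (m + 1) := by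
  rw [ap_nat, Function.iterate_succ_apply, T_zt]
  rfl

theorem wf_eq (k c t : ℝ) (m : ℕ) : CleanDisc.wf k c t m =
    (Align.Q (ap k (zt k c t)) m, Align.Q (ap k (zt k c t)) (m + 1)) := by
  have h1 := (CleanDisc.wf_fst k c t m).trans (Qp_eq k c t m).symm
  have h2 := (CleanDisc.wf_snd k c t m).trans (Qp_eq k c t (m + 1)).symm
  ext
  · exact_mod_cast h1
  · exact_mod_cast h2

theorem side_x (S : Side k L ρ y x w M) (n : ℕ) :
    x n = x 0 * Align.P (ap k y) n + x 1 * Align.Q (ap k y) n := by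
  have h := Align.eq_sol (a := ap k y) (s := x) (N := n) (fun m _ => S.xrec m) n le_rfl
  rw [h, Align.sol_eq]

/-- the numbers `(Q_w, P_w)` : `1 ≤ 4 |Q_w|` and `|P_w| ≤ 2 |Q_w|` -/
theorem side_PQ (S : Side k L ρ y x w M) (hk : (10 : ℝ) ^ 100 ≤ k) (hρ : 2 ≤ ρ) :
    1 ≤ 4 * |Align.Q (ap k y) w| ∧ |Align.P (ap k y) w| ≤ 2 * |Align.Q (ap k y) w| := by
  have hk100 : (100 : ℝ) ≤ k := le_trans (by norm_num) hk
  have hw := S.hw
  have hV := valD S.val (by omega)
  have h1 := hV.one_le hk100 (by norm_num) (m := w - 1 - 0) (by omega)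
  rw [norm_fld_rev k y (by omega : 0 + 1 ≤ w)] at h1
  unfold zf at h1
  rw [qd_zero, qd_one, Prod.norm_def, Real.norm_eq_abs, Real.norm_eq_abs, abs_neg] at h1
  have h2 : |x w| ≤ 1 / 4 := by
    have h3 : |x w| ≤ Real.exp (-ρ) := (le_max_right _ _).trans S.hi
    have h4 : Real.exp (-ρ) ≤ Real.exp (-2) := Real.exp_le_exp.mpr (by linarith)
    have h5 : Real.exp (-2) ≤ 1 / 4 := by
      rw [Real.exp_neg, inv_eq_one_div]
      apply one_div_le_one_div_of_le (by norm_num)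
      have h6 := Real.add_one_le_exp (1 : ℝ)
      have h7 : Real.exp 2 = Real.exp 1 * Real.exp 1 := by rw [← Real.exp_add]; norm_num
      rw [h7]
      nlinarith
    linarith
  have hx := side_x S w
  have h3 : |Align.P (ap k y) w| ≤ |x w| + |Align.Q (ap k y) w| := by
    have e : x 0 * Align.P (ap k y) w = x w - x 1 * Align.Q (ap k y) w := by linarith
    have e2 : |Align.P (ap k y) w| = |x 0 * Align.P (ap k y) w| := by rw [abs_mul, S.x0, one_mul]
    rw [e2, e]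
    refine (abs_sub _ _).trans ?_
    rw [abs_mul]
    have := mul_le_mul_of_nonneg_right S.x1 (abs_nonneg (Align.Q (ap k y) w))
    linarith
  have h4 : 1 ≤ 4 * |Align.Q (ap k y) w| := by
    by_contra hc
    push Not at hc
    rcases le_max_iff.mp h1 with h5 | h5 <;> linarith
  exact ⟨h4, by linarith⟩

/-- **Clean data of one side.** -/
theorem clean {c t : ℝ} (hk : (10 : ℝ) ^ 100 ≤ k) (hL : 10 ≤ L) (hρ : 2 ≤ ρ)
    (S : Side k L ρ (zt k c t) x w M) :
    CleanNum.Clean (CleanDisc.ra k c t) (CleanDisc.wf k c t) (zf (ap k (zt k c t)) w) (w - 1)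
      (1 / 60) 4 (8 * k) 3 := by
  have hk100 : (100 : ℝ) ≤ k := le_trans (by norm_num) hk
  have hw := S.hw
  have hV := valD S.val (by omega)
  set a := ap k (zt k c t) with ha
  have hra : CleanDisc.ra k c t = fun m => a (m + 1) := by
    funext m
    exact ra_eq k c t m
  have hnorm : ∀ m ≤ w - 1, ‖zf a w m‖ = W k (((T k)^[w] (zt k c t)).swap) (w - 1 - m) :=
    fun m hm => (norm_fld_rev k (zt k c t) (by omega : m + 1 ≤ w)).symm
  have hone : ∀ m ≤ w - 1, 1 ≤ nn (zf a w m) := by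
    intro m hm
    refine le_trans ?_ (norm_le_nn _)
    rw [hnorm m hm]
    exact hV.one_le hk100 (by norm_num) (by omega)
  refine ⟨CleanDisc.isField_wf k c t, ?_, ?_, by linarith, ?_, by norm_num, le_rfl, by norm_num,
    by norm_num, hone, ?_, ?_, ?_⟩
  · rw [hra]
    exact zf_isField a w
  · rw [CleanDisc.nn_wf_zero]
    norm_num
  · intro j
    exact abs_V_le (by linarith) _
  · intro i j hij hj
    have hi : i ≤ w - 1 := hij.trans hj
    rcases Nat.eq_or_lt_of_le hj with hjw | hjw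
    · -- j = w - 1
      have e : nn (zf a w j) = 1 := by
        unfold zf
        obtain ⟨v, hv⟩ : ∃ v, w = v + 1 := ⟨w - 1, by omega⟩
        have hjv : j = v := by omega
        rw [hjv, hv, qd_pred, qd_self]
        unfold nn
        simp
      rw [e, Real.one_rpow]
      exact hone i hi
    · have h1 := hV.all hk100 (by norm_num) (by norm_num) (i := w - 1 - j) (j := w - 1 - i)
        (by omega) (by omega)
      rw [← hnorm i hi, ← hnorm j hj] at h1
      have h2 : (10 : ℝ) ^ 49 ≤ ‖zf a w j‖ := by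
        rw [hnorm j hj]
        exact W_big hV hk hL (by omega) (by omega)
      have h3 : nn (zf a w j) ≤ 3 / 2 * ‖zf a w j‖ := nn_le _
      have h0 : 0 < ‖zf a w j‖ := lt_of_lt_of_le (by positivity) h2
      have h4 : nn (zf a w j) ^ (1 - 1 / 60 : ℝ) ≤ ‖zf a w j‖ ^ (1 - 1 / 100 : ℝ) := by
        have h5 : nn (zf a w j) ^ (1 - 1 / 60 : ℝ) ≤ (3 / 2 * ‖zf a w j‖) ^ (1 - 1 / 60 : ℝ) :=
          Real.rpow_le_rpow (nn_nonneg _) h3 (by norm_num)
        have h6 : (3 / 2 : ℝ) ^ (1 - 1 / 60 : ℝ) ≤ ‖zf a w j‖ ^ (1 / 150 : ℝ) := by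
          have h7 : (3 / 2 : ℝ) ^ (1 - 1 / 60 : ℝ) ≤ (3 / 2 : ℝ) ^ (1 : ℝ) :=
            Real.rpow_le_rpow_of_exponent_le (by norm_num) (by norm_num)
          have h8 : (3 / 2 : ℝ) ≤ ((10 : ℝ) ^ 49) ^ (1 / 150 : ℝ) := by
            have h9 : (3 / 2 : ℝ) = ((3 / 2 : ℝ) ^ 150) ^ (1 / 150 : ℝ) := by
              rw [← Real.rpow_natCast, ← Real.rpow_mul (by norm_num)]
              norm_num
            rw [h9]
            refine Real.rpow_le_rpow (by positivity) ?_ (by norm_num)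
            norm_num
          rw [Real.rpow_one] at h7
          exact (h7.trans h8).trans (Real.rpow_le_rpow (by positivity) h2 (by norm_num))
        calc nn (zf a w j) ^ (1 - 1 / 60 : ℝ) ≤ (3 / 2 * ‖zf a w j‖) ^ (1 - 1 / 60 : ℝ) := h5
          _ = (3 / 2 : ℝ) ^ (1 - 1 / 60 : ℝ) * ‖zf a w j‖ ^ (1 - 1 / 60 : ℝ) := by
              rw [Real.mul_rpow (by norm_num) h0.le]
          _ ≤ ‖zf a w j‖ ^ (1 / 150 : ℝ) * ‖zf a w j‖ ^ (1 - 1 / 60 : ℝ) :=
              mul_le_mul_of_nonneg_right h6 (by positivity)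
          _ = _ := by
              rw [← Real.rpow_add h0]
              norm_num
      exact (h4.trans h1).trans (norm_le_nn _)
  · -- duration
    have h1 := sum_W hV S.val hk hL
    have e : w - 1 + 1 = w := by omega
    rw [e] at h1 ⊢
    calc ∑ m ∈ range w, nn (zf a w m) ^ (-(1 / 60) : ℝ)
        ≤ ∑ m ∈ range w, W k (((T k)^[w] (zt k c t)).swap) (w - 1 - m) ^ (-(1 / 60) : ℝ) := by
          refine Finset.sum_le_sum fun m hm => ?_
          rw [mem_range] at hm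
          rw [← hnorm m (by omega)]
          have h0 : 0 < ‖zf a w m‖ := by
            rw [hnorm m (by omega)]
            exact lt_of_lt_of_le one_pos (hV.one_le hk100 (by norm_num) (by omega))
          exact Real.rpow_le_rpow_of_nonpos h0 (norm_le_nn _) (by norm_num)
      _ = ∑ m ∈ range w, W k (((T k)^[w] (zt k c t)).swap) m ^ (-(1 / 60) : ℝ) :=
          Finset.sum_range_reflect (fun m => W k (((T k)^[w] (zt k c t)).swap) m ^ (-(1 / 60) : ℝ)) w
      _ ≤ 4 := h1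
  · -- transversality
    obtain ⟨h1, h2⟩ := side_PQ S hk hρ
    rw [CleanDisc.nn_wf_zero, one_mul, CleanDisc.wf_zero]
    unfold zf wr
    rw [qd_zero, qd_one]
    simp only [zero_mul, one_mul, zero_sub, abs_neg]
    have h3 := nn_le_add (Align.Q a w, -Align.P a w)
    simp only [abs_neg] at h3
    linarith

end side

end Crest.Agent.R128.VFSide
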