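import Mathlib
import Crest.Agent.R128.VFSide
import Crest.Agent.R128.CleanStart

/-!
# Row 128, V5: sizes on one side of a very fresh level (helper978)

`Q = Align.Q (ap k (zt k c t))` (`= D` of the side).  Contraction of the tip field on the run, growth
of `Q` on the run, size of `Q` at the foot and at the end of the run, position of an index.
-/

set_option autoImplicit false
open Finset
open Crest.Agent.R128 Crest.Agent.R128.TreeSum Crest.Agent.R128.AlignMn Crest.Agent.R128.DictY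
open Crest.Agent.R128.Lam0 Crest.Agent.R128.ValNorm Crest.Agent.R128.Good
open Crest.Agent.R128.VFSide

namespace Crest.Agent.R128.VFSize

/-- **Contraction on a regular run** (abstract): digits `≥ β` on `[w, w+M]`, all `≤ A - 1`; a field
which is much smaller at the end of the run contracts at each of the first steps. -/
theorem contr {a x : ℕ → ℝ} (hx : ∀ n, x (n + 2) = a (n + 1) * x (n + 1) - x n) {w M : ℕ}
    (hw : 1 ≤ w) {β A E : ℝ} (hβ : 2 ≤ β) (hA1 : 1 ≤ A) (hA : ∀ n, |a n| + 1 ≤ A)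
    (hrun : ∀ n, w ≤ n → n ≤ w + M → β ≤ |a n|)
    (hend : |x (w + M)| < E) {p : ℕ} (hp : p + 1 ≤ M)
    (hE : E * A ^ p ≤ max |x (w - 1)| |x w|) :
    ∀ i ≤ p, |x (w + i)| < |x (w + i - 1)| := by
  have hA0 : 0 < A := by linarith
  -- if not contracted at `n` then it grows until the end
  have grow : ∀ n, w ≤ n → n ≤ w + M → |x (n - 1)| ≤ |x n| → ∀ m, n ≤ m → m ≤ w + M →
      |x (m - 1)| ≤ |x m| ∧ |x n| ≤ |x m| := by
    intro n hn hnM h m hm
    induction m, hm using Nat.le_induction with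
    | base => intro _; exact ⟨h, le_rfl⟩
    | succ m hm ih =>
      intro hmM
      obtain ⟨h1, h2⟩ := ih (by omega)
      obtain ⟨v, rfl⟩ : ∃ v, m = v + 1 := ⟨m - 1, by omega⟩
      have h3 := hx v
      have h4 := hrun (v + 1) (by omega) (by omega)
      have h5 : |a (v + 1) * x (v + 1)| ≤ |x (v + 2)| + |x v| := by
        have : a (v + 1) * x (v + 1) = x (v + 2) + x v := by rw [h3]; ring
        rw [this]
        exact abs_add_le _ _
      rw [abs_mul] at h5
      have h6 := mul_le_mul_of_nonneg_right (hβ.trans h4) (abs_nonneg (x (v + 1)))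
      simp only [Nat.add_sub_cancel] at h1 ⊢
      have h7 : |x (v + 1)| ≤ |x (v + 2)| := by linarith
      exact ⟨h7, h2.trans h7⟩
  -- size bound
  intro i hi
  induction i using Nat.strong_induction_on with
  | _ i ih =>
    by_contra hc
    push Not at hc
    have h1 := (grow (w + i) (by omega) (by omega) hc (w + M) (by omega) le_rfl).2
    -- `max |x (w-1)| |x w| ≤ A ^ i * |x (w+i)|`
    have key : ∀ j ≤ i, max |x (w + i - j - 1)| |x (w + i - j)| ≤ A ^ j * |x (w + i)| := by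
      intro j
      induction j with
      | zero =>
        intro _
        simp only [Nat.sub_zero, pow_zero, one_mul]
        exact max_le hc le_rfl
      | succ j ihj =>
        intro hj
        have h2 := ihj (by omega)
        obtain ⟨v, hv⟩ : ∃ v, w + i - (j + 1) - 1 = v := ⟨_, rfl⟩
        have e1 : w + i - j - 1 = v + 1 := by omega
        have e2 : w + i - j = v + 2 := by omega
        have e3 : w + i - (j + 1) = v + 1 := by omega
        rw [e1, e2] at h2
        rw [hv, e3]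
        have b1 : |x (v + 1)| ≤ A ^ j * |x (w + i)| := (le_max_left _ _).trans h2
        have b2 : |x (v + 2)| ≤ A ^ j * |x (w + i)| := (le_max_right _ _).trans h2
        have b0 : 0 ≤ A ^ j * |x (w + i)| := by positivity
        have h3 : |x v| ≤ |a (v + 1)| * |x (v + 1)| + |x (v + 2)| := by
          have : x v = a (v + 1) * x (v + 1) - x (v + 2) := by rw [hx v]; ring
          rw [this]
          refine (abs_sub _ _).trans ?_
          rw [abs_mul]
        have h4 : |a (v + 1)| * |x (v + 1)| ≤ |a (v + 1)| * (A ^ j * |x (w + i)|) :=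
          mul_le_mul_of_nonneg_left b1 (abs_nonneg _)
        have h5 : (|a (v + 1)| + 1) * (A ^ j * |x (w + i)|) ≤ A * (A ^ j * |x (w + i)|) :=
          mul_le_mul_of_nonneg_right (hA _) b0
        have e : A ^ (j + 1) * |x (w + i)| = A * (A ^ j * |x (w + i)|) := by ring
        rw [e]
        refine max_le (by linarith) ?_
        have h6 : 1 * (A ^ j * |x (w + i)|) ≤ A * (A ^ j * |x (w + i)|) :=
          mul_le_mul_of_nonneg_right hA1 b0
        linarith
    have h2 := key i le_rfl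
    have e1 : w + i - i - 1 = w - 1 := by omega
    have e2 : w + i - i = w := by omega
    rw [e1, e2] at h2
    have h3 : A ^ i ≤ A ^ p := pow_le_pow_right₀ hA1 hi
    have h4 : A ^ i * |x (w + i)| ≤ A ^ p * |x (w + M)| :=
      mul_le_mul h3 h1 (abs_nonneg _) (by positivity)
    have h5 : A ^ p * |x (w + M)| < A ^ p * E := mul_lt_mul_of_pos_left hend (by positivity)
    linarith

section side

variable {k ρ : ℝ} {L w M : ℕ} {x : ℕ → ℝ} {c t : ℝ}

theorem kpos (hk : (10 : ℝ) ^ 100 ≤ k) : 0 < k := lt_of_lt_of_le (by positivity) hk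

theorem beta (hk : (10 : ℝ) ^ 100 ≤ k) : (10 : ℝ) ^ 50 ≤ k ^ ((2 : ℝ) / 3) := by
  calc (10 : ℝ) ^ 50 ≤ ((10 : ℝ) ^ 100) ^ ((2 : ℝ) / 3) := by
        rw [← Real.rpow_natCast 10 50, ← Real.rpow_natCast 10 100, ← Real.rpow_mul (by norm_num)]
        exact Real.rpow_le_rpow_of_exponent_le (by norm_num) (by norm_num)
    _ ≤ _ := Real.rpow_le_rpow (by positivity) hk (by norm_num)

theorem exp_log_mul (hk : (10 : ℝ) ^ 100 ≤ k) (ρ : ℝ) (n : ℕ) :
    Real.exp (ρ + n * Real.log k) = Real.exp ρ * k ^ n := by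
  rw [Real.exp_add, ← Real.log_pow, Real.exp_log (pow_pos (kpos hk) n)]

theorem exp_log_mul' (hk : (10 : ℝ) ^ 100 ≤ k) (ρ : ℝ) (n : ℕ) :
    Real.exp (-ρ - n * Real.log k) = Real.exp (-ρ) / k ^ n := by
  rw [Real.exp_sub, ← Real.log_pow, Real.exp_log (pow_pos (kpos hk) n)]

/-- the tip field contracts during the first 60 steps of the run, and `60 < M` -/
theorem contr_side (hk : (10 : ℝ) ^ 100 ≤ k) (S : Side k L ρ (zt k c t) x w M) :
    61 ≤ M ∧ ∀ i ≤ 60, |x (w + i)| < |x (w + i - 1)| := by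
  have hk0 := kpos hk
  have hw := S.hw
  have hA : ∀ n, |ap k (zt k c t) n| + 1 ≤ 8 * k := by
    intro n
    rw [ap_nat]
    have := abs_V_le (k := k) (le_trans (by norm_num) hk) ((T k)^[n] (zt k c t))
    linarith
  have hk1 : (1 : ℝ) ≤ k := le_trans (by norm_num) hk
  have e3 := exp_log_mul' hk ρ 3
  have e80 := exp_log_mul' hk ρ 80
  push_cast at e3 e80
  have hlo := S.lo
  have hfin := S.fin
  rw [e3] at hlo
  rw [e80] at hfin
  have hpos : 0 < Real.exp (-ρ) := Real.exp_pos _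
  -- `E = exp(-ρ) / k^79`
  have hlt : Real.exp (-ρ) / k ^ 80 < Real.exp (-ρ) / k ^ 79 := by
    apply div_lt_div_of_pos_left hpos (by positivity)
    exact pow_lt_pow_right₀ (lt_of_lt_of_le (by norm_num) hk) (by norm_num)
  have h8 : (8 * k) ^ 60 * k ^ 3 ≤ k ^ 79 := by
    have h9 : (8 : ℝ) ^ 60 ≤ k := le_trans (by norm_num) hk
    calc (8 * k) ^ 60 * k ^ 3 = 8 ^ 60 * k ^ 63 := by ring
      _ ≤ k * k ^ 63 := by gcongr
      _ = k ^ 64 := by ring
      _ ≤ k ^ 79 := pow_le_pow_right₀ hk1 (by norm_num)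
  have hE : ∀ p ≤ 60, Real.exp (-ρ) / k ^ 79 * (8 * k) ^ p ≤ max |x (w - 1)| |x w| := by
    intro p hp
    refine le_trans ?_ hlo
    have h10 : (8 * k) ^ p ≤ (8 * k) ^ 60 := pow_le_pow_right₀ (by linarith) hp
    rw [div_mul_eq_mul_div, div_le_div_iff₀ (by positivity) (by positivity)]
    calc Real.exp (-ρ) * (8 * k) ^ p * k ^ 3 ≤ Real.exp (-ρ) * (8 * k) ^ 60 * k ^ 3 := by gcongr
      _ = Real.exp (-ρ) * ((8 * k) ^ 60 * k ^ 3) := by ring
      _ ≤ Real.exp (-ρ) * k ^ 79 := by gcongr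
  have hM : 61 ≤ M := by
    by_contra hc
    push Not at hc
    -- crude backward bound: `max |x (w-1)| |x w| ≤ (8k)^M * max at the end`
    have key : ∀ j ≤ M, max |x (w + M - j - 1)| |x (w + M - j)| ≤
        (8 * k) ^ j * (Real.exp (-ρ) / k ^ 80) := by
      intro j
      induction j with
      | zero =>
        intro _
        simp only [Nat.sub_zero, pow_zero, one_mul]
        exact hfin
      | succ j ihj =>
        intro hj
        have h2 := ihj (by omega)
        obtain ⟨v, hv⟩ : ∃ v, w + M - (j + 1) - 1 = v := ⟨_, rfl⟩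
        have e1 : w + M - j - 1 = v + 1 := by omega
        have e2 : w + M - j = v + 2 := by omega
        have e3 : w + M - (j + 1) = v + 1 := by omega
        rw [e1, e2] at h2
        rw [hv, e3]
        have b1 := (le_max_left _ _).trans h2
        have b2 := (le_max_right _ _).trans h2
        have b0 : 0 ≤ (8 * k) ^ j * (Real.exp (-ρ) / k ^ 80) := by positivity
        have h3 : |x v| ≤ |ap k (zt k c t) (v + 1)| * |x (v + 1)| + |x (v + 2)| := by
          have : x v = ap k (zt k c t) (v + 1) * x (v + 1) - x (v + 2) := by rw [S.xrec v]; ring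
          rw [this]
          refine (abs_sub _ _).trans ?_
          rw [abs_mul]
        have h4 := mul_le_mul_of_nonneg_left b1 (abs_nonneg (ap k (zt k c t) (v + 1)))
        have h5 := mul_le_mul_of_nonneg_right (hA (v + 1)) b0
        have e : (8 * k) ^ (j + 1) * (Real.exp (-ρ) / k ^ 80) =
            (8 * k) * ((8 * k) ^ j * (Real.exp (-ρ) / k ^ 80)) := by ring
        rw [e]
        refine max_le (by linarith) ?_
        have h6 : 1 * ((8 * k) ^ j * (Real.exp (-ρ) / k ^ 80)) ≤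
            (8 * k) * ((8 * k) ^ j * (Real.exp (-ρ) / k ^ 80)) :=
          mul_le_mul_of_nonneg_right (by linarith) b0
        linarith
    have h2 := key M le_rfl
    have e1 : w + M - M - 1 = w - 1 := by omega
    have e2 : w + M - M = w := by omega
    rw [e1, e2] at h2
    have h3 := hE M (by omega)
    have h4 : (8 * k) ^ M * (Real.exp (-ρ) / k ^ 80) < (8 * k) ^ M * (Real.exp (-ρ) / k ^ 79) :=
      mul_lt_mul_of_pos_left hlt (by positivity)
    linarith
  refine ⟨hM, ?_⟩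
  exact contr S.xrec (by omega) (β := k ^ ((2 : ℝ) / 3)) (A := 8 * k)
    (E := Real.exp (-ρ) / k ^ 79) (p := 60) (le_trans (by norm_num) (beta hk)) (by linarith) hA
    S.run (lt_of_le_of_lt ((le_max_right _ _).trans hfin) hlt) (by omega) (hE 60 le_rfl)

/-- quantitative contraction -/
theorem contr_quant (hk : (10 : ℝ) ^ 100 ≤ k) (S : Side k L ρ (zt k c t) x w M) {i : ℕ}
    (hi : i < 60) : (k ^ ((2 : ℝ) / 3) - 1) * |x (w + i)| ≤ |x (w + i - 1)| := by
  obtain ⟨hM, h⟩ := contr_side hk S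
  have hw := S.hw
  have h1 := h (i + 1) (by omega)
  obtain ⟨v, hv⟩ : ∃ v, w + i - 1 = v := ⟨_, rfl⟩
  have e1 : w + i = v + 1 := by omega
  have e2 : w + (i + 1) = v + 2 := by omega
  rw [e2] at h1
  have e3 : v + 2 - 1 = v + 1 := by omega
  rw [e3] at h1
  rw [hv, e1]
  have h2 := S.run (v + 1) (by omega) (by omega)
  have h3 : |ap k (zt k c t) (v + 1) * x (v + 1)| ≤ |x (v + 2)| + |x v| := by
    have : ap k (zt k c t) (v + 1) * x (v + 1) = x (v + 2) + x v := by rw [S.xrec v]; ring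
    rw [this]
    exact abs_add_le _ _
  rw [abs_mul] at h3
  have h4 := mul_le_mul_of_nonneg_right h2 (abs_nonneg (x (v + 1)))
  linarith

/-- `Q` is in the cone at the foot: `2 |Q_(w-1)| ≤ |Q_w|` -/
theorem cone_foot (hk : (10 : ℝ) ^ 100 ≤ k) (hL : 100 ≤ L) (hρ : 2 ≤ ρ)
    (S : Side k L ρ (zt k c t) x w M) :
    2 * |Align.Q (ap k (zt k c t)) (w - 1)| ≤ |Align.Q (ap k (zt k c t)) w| := by
  have hk0 := kpos hk
  have hk1 : (1 : ℝ) ≤ k := le_trans (by norm_num) hk
  have hw := S.hw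
  have C := VFSide.clean hk (by omega) hρ S
  have hb := beta hk
  set b := k ^ ((2 : ℝ) / 3) with hbdef
  -- digits before the foot are regular
  have hdig : ∀ m, w - 1 - 80 ≤ m → m < w - 1 → b ≤ |CleanDisc.ra k c t m| := by
    intro m h1 h2
    rw [VFSide.ra_eq, VFSide.ap_nat]
    have h3 := S.val.cl (w - 1 - (m + 1)) (by omega) (by omega)
    rw [Rev.digit_rev k (by omega : w - 1 - (m + 1) ≤ w)] at h3
    have e1 : w - (w - 1 - (m + 1)) = (m + 1) + 1 := by omega
    rw [e1, Rev.fst_iter_succ] at h3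
    exact h3
  have hz : nn (VFSide.zf (ap k (zt k c t)) w (w - 1 - 80 + 40)) ≤ (8 * k) ^ 40 := by
    -- 40 steps before `w - 1`
    have hF := C.hz
    have step : ∀ j ≤ 40, nn (VFSide.zf (ap k (zt k c t)) w (w - 1 - j)) ≤ (8 * k) ^ j := by
      intro j
      induction j with
      | zero =>
        intro _
        simp only [Nat.sub_zero, pow_zero]
        obtain ⟨v, hv⟩ : ∃ v, w = v + 1 := ⟨w - 1, by omega⟩
        rw [hv, Nat.add_sub_cancel]
        unfold VFSide.zf
        rw [VFSide.qd_pred, VFSide.qd_self]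
        unfold nn
        simp
      | succ j ih =>
        intro hj
        have h1 := ih (by omega)
        have h2 := C.Z_le_succ (w - 1 - (j + 1))
        have e1 : w - 1 - (j + 1) + 1 = w - 1 - j := by omega
        rw [e1] at h2
        calc _ ≤ 8 * k * nn (VFSide.zf (ap k (zt k c t)) w (w - 1 - j)) := h2
          _ ≤ 8 * k * (8 * k) ^ j := mul_le_mul_of_nonneg_left h1 (by linarith)
          _ = _ := by ring
    have e : w - 1 - 80 + 40 = w - 1 - 40 := by omega
    rw [e]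
    exact step 40 le_rfl
  have hbig : 2 * CleanNum.C1 (8 * k) 4 3 *
      nn (VFSide.zf (ap k (zt k c t)) w (w - 1 - 80 + 40)) ^ (4 * (1 / 60 : ℝ)) < (b - 1) ^ 40 := by
    have h1 : nn (VFSide.zf (ap k (zt k c t)) w (w - 1 - 80 + 40)) ^ (4 * (1 / 60 : ℝ)) ≤
        k ^ (3 : ℝ) := by
      have h2 : (8 * k) ^ 40 ≤ k ^ (45 : ℝ) := by
        have h9 : (8 : ℝ) ^ 40 ≤ k := le_trans (by norm_num) hk
        have e45 : k ^ (45 : ℝ) = k ^ 45 := by norm_cast
        rw [e45]
        calc (8 * k) ^ 40 = 8 ^ 40 * k ^ 40 := by ring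
          _ ≤ k * k ^ 40 := by gcongr
          _ = k ^ 41 := by ring
          _ ≤ k ^ 45 := pow_le_pow_right₀ hk1 (by norm_num)
      calc _ ≤ (k ^ (45 : ℝ)) ^ (4 * (1 / 60 : ℝ)) :=
            Real.rpow_le_rpow (nn_nonneg _) (hz.trans h2) (by norm_num)
        _ = k ^ (3 : ℝ) := by
            rw [← Real.rpow_mul hk0.le]
            norm_num
    have h3 : k ^ (3 : ℝ) = k ^ 3 := by norm_cast
    have h4 : CleanNum.C1 (8 * k) 4 3 ≤ k ^ 3 := by
      unfold CleanNum.C1
      have h5 : (1000 : ℝ) ≤ k := le_trans (by norm_num) hk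
      have h6 : 1000 * k ^ 2 ≤ k * k ^ 2 := mul_le_mul_of_nonneg_right h5 (by positivity)
      have h7 : (1 : ℝ) ≤ k ^ 2 := one_le_pow₀ hk1
      nlinarith
    have h5 : k ^ (1 / 2 : ℝ) ≤ b - 1 := by
      have h6 : k ^ (2 / 3 : ℝ) = k ^ (1 / 2 : ℝ) * k ^ (1 / 6 : ℝ) := by
        rw [← Real.rpow_add hk0]
        norm_num
      have h7 : (2 : ℝ) ≤ k ^ (1 / 6 : ℝ) := by
        calc (2 : ℝ) = ((2 : ℝ) ^ 6) ^ (1 / 6 : ℝ) := by
              rw [← Real.rpow_natCast, ← Real.rpow_mul (by norm_num)]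
              norm_num
          _ ≤ _ := Real.rpow_le_rpow (by positivity) (le_trans (by norm_num) hk) (by norm_num)
      have h8 : (1 : ℝ) ≤ k ^ (1 / 2 : ℝ) := Real.one_le_rpow hk1 (by norm_num)
      rw [hbdef, h6]
      nlinarith
    have h6 : k ^ 20 ≤ (b - 1) ^ 40 := by
      calc k ^ 20 = (k ^ (1 / 2 : ℝ)) ^ 40 := by
            rw [← Real.rpow_natCast (k ^ (1 / 2 : ℝ)) 40, ← Real.rpow_mul hk0.le,
              ← Real.rpow_natCast k 20]
            norm_num
        _ ≤ _ := pow_le_pow_left₀ (by positivity) h5 40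
    have h7 : (1 : ℝ) ≤ CleanNum.C1 (8 * k) 4 3 := CleanNum.C1_pos C
    calc _ ≤ 2 * k ^ 3 * k ^ 3 := by
          rw [h3] at h1
          exact mul_le_mul (by linarith) h1 (Real.rpow_nonneg (nn_nonneg _) _) (by positivity)
      _ = 2 * k ^ 6 := by ring
      _ < k * k ^ 6 := by
          have : (2 : ℝ) < k := lt_of_lt_of_le (by norm_num) hk
          have h8 : 0 < k ^ 6 := by positivity
          exact mul_lt_mul_of_pos_right this h8
      _ = k ^ 7 := by ring
      _ ≤ k ^ 20 := pow_le_pow_right₀ hk1 (by norm_num)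
      _ ≤ _ := h6
  have h1 := CleanStart.cone' C (b := b) (le_trans (by norm_num) hb) (m0 := w - 1 - 80) (s0 := 40)
    (by omega) hdig hbig (w - 1) (by omega) le_rfl
  rw [VFSide.wf_eq] at h1
  simp only at h1
  have e : w - 1 + 1 = w := by omega
  rw [e] at h1
  have h2 : (2 : ℝ) ≤ b - 1 := by linarith [show (10 : ℝ) ^ 50 ≥ 3 by norm_num]
  exact (mul_le_mul_of_nonneg_right h2 (abs_nonneg _)).trans h1

/-- Wronskian of the tip field with `Q` -/
theorem wr_xQ (S : Side k L ρ (zt k c t) x w M) (n : ℕ) :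
    x n * Align.Q (ap k (zt k c t)) (n + 1) - x (n + 1) * Align.Q (ap k (zt k c t)) n = x 0 := by
  rw [VFSide.side_x S n, VFSide.side_x S (n + 1)]
  linear_combination x 0 * Align.wronskian (ap k (zt k c t)) n

/-- **size of `Q` at the foot** -/
theorem size_foot (hk : (10 : ℝ) ^ 100 ≤ k) (hL : 100 ≤ L) (hρ : 2 ≤ ρ)
    (S : Side k L ρ (zt k c t) x w M) :
    Real.exp ρ / 2 ≤ |Align.Q (ap k (zt k c t)) w| ∧
      |Align.Q (ap k (zt k c t)) w| ≤ 2 * (Real.exp ρ * k ^ 3) := by
  have hk0 := kpos hk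
  have hw := S.hw
  have hc := cone_foot hk hL hρ S
  set Q := Align.Q (ap k (zt k c t)) with hQ
  have h1 := wr_xQ S (w - 1)
  have e : w - 1 + 1 = w := by omega
  rw [e, ← hQ] at h1
  have hx := (contr_side hk S).2 0 (by norm_num)
  simp only [Nat.add_zero] at hx
  have hmax : max |x (w - 1)| |x w| = |x (w - 1)| := max_eq_left hx.le
  have hlo := S.lo
  have hhi := S.hi
  rw [hmax] at hlo hhi
  have e3 := exp_log_mul' hk ρ 3
  push_cast at e3
  rw [e3] at hlo
  have hexp : Real.exp (-ρ) = 1 / Real.exp ρ := by rw [Real.exp_neg, one_div]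
  have hE := Real.exp_pos ρ
  have hx1 : 0 < |x (w - 1)| := lt_of_lt_of_le (by positivity) hlo
  have hQ0 := abs_nonneg (Q w)
  have hQ1 := abs_nonneg (Q (w - 1))
  constructor
  · have h2 : 1 ≤ |x (w - 1)| * |Q w| + |x w| * |Q (w - 1)| := by
      rw [← S.x0, ← h1, ← abs_mul, ← abs_mul]
      exact abs_sub _ _
    have h3 : |x w| * |Q (w - 1)| ≤ |x (w - 1)| * (|Q w| / 2) :=
      mul_le_mul hx.le (by linarith) hQ1 hx1.le
    have h4 : |x (w - 1)| * |Q w| ≤ 1 / Real.exp ρ * |Q w| := by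
      rw [← hexp]
      exact mul_le_mul_of_nonneg_right hhi hQ0
    have h5 : 1 ≤ 3 / 2 * (1 / Real.exp ρ * |Q w|) := by linarith
    have h6 : 1 / Real.exp ρ * |Q w| = |Q w| / Real.exp ρ := by ring
    rw [h6, ← mul_div_assoc, le_div_iff₀ hE] at h5
    linarith
  · have h2 : |x (w - 1)| * |Q w| ≤ 1 + |x w| * |Q (w - 1)| := by
      have : x (w - 1) * Q w = x 0 + x w * Q (w - 1) := by linarith
      rw [← abs_mul, this]
      refine (abs_add_le _ _).trans ?_
      rw [S.x0, abs_mul]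
    have h3 : |x w| * |Q (w - 1)| ≤ |x (w - 1)| * (|Q w| / 2) :=
      mul_le_mul hx.le (by linarith) hQ1 hx1.le
    have h4 : |x (w - 1)| * |Q w| ≤ 2 := by linarith
    have h5 : Real.exp (-ρ) / k ^ 3 * |Q w| ≤ 2 :=
      (mul_le_mul_of_nonneg_right hlo hQ0).trans h4
    rw [hexp, div_div, one_div_mul_eq_div, div_le_iff₀ (by positivity)] at h5
    linarith

/-- **growth of `Q` on the run** -/
theorem growth (hk : (10 : ℝ) ^ 100 ≤ k) (hL : 100 ≤ L) (hρ : 2 ≤ ρ)
    (S : Side k L ρ (zt k c t) x w M) : ∀ m, w ≤ m → m ≤ w + M →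
    (k ^ ((2 : ℝ) / 3) - 1) * |Align.Q (ap k (zt k c t)) m| ≤
      |Align.Q (ap k (zt k c t)) (m + 1)| ∧
    |Align.Q (ap k (zt k c t)) (m - 1)| ≤ |Align.Q (ap k (zt k c t)) m| := by
  have hb := beta hk
  have hw := S.hw
  have hc := cone_foot hk hL hρ S
  set Q := Align.Q (ap k (zt k c t)) with hQ
  intro m hm
  induction m, hm using Nat.le_induction with
  | base =>
    intro _
    have h0 : |Q (w - 1)| ≤ |Q w| := by
      have := abs_nonneg (Q (w - 1))
      linarith
    refine ⟨?_, h0⟩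
    obtain ⟨v, hv⟩ : ∃ v, w = v + 1 := ⟨w - 1, by omega⟩
    have h1 := S.run w le_rfl (by omega)
    rw [hv] at h0 h1 ⊢
    simp only [Nat.add_sub_cancel] at h0
    have e2 : Q (v + 1 + 1) = ap k (zt k c t) (v + 1) * Q (v + 1) - Q v := Align.Q_add_two _ v
    have h4 : |ap k (zt k c t) (v + 1) * Q (v + 1)| ≤ |Q (v + 1 + 1)| + |Q v| := by
      have : ap k (zt k c t) (v + 1) * Q (v + 1) = Q (v + 1 + 1) + Q v := by rw [e2]; ring
      rw [this]
      exact abs_add_le _ _
    rw [abs_mul] at h4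
    have h5 := mul_le_mul_of_nonneg_right h1 (abs_nonneg (Q (v + 1)))
    linarith
  | succ m hm ih =>
    intro hmM
    obtain ⟨h1, h2⟩ := ih (by omega)
    have h0 : |Q m| ≤ |Q (m + 1)| := by
      have h3 : 1 * |Q m| ≤ (k ^ ((2 : ℝ) / 3) - 1) * |Q m| :=
        mul_le_mul_of_nonneg_right (by linarith [show (10 : ℝ) ^ 50 ≥ 2 by norm_num])
          (abs_nonneg _)
      linarith
    rw [Nat.add_sub_cancel]
    refine ⟨?_, h0⟩
    have h3 := S.run (m + 1) (by omega) hmM
    have e2 : Q (m + 1 + 1) = ap k (zt k c t) (m + 1) * Q (m + 1) - Q m := Align.Q_add_two _ m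
    have h4 : |ap k (zt k c t) (m + 1) * Q (m + 1)| ≤ |Q (m + 1 + 1)| + |Q m| := by
      have : ap k (zt k c t) (m + 1) * Q (m + 1) = Q (m + 1 + 1) + Q m := by rw [e2]; ring
      rw [this]
      exact abs_add_le _ _
    rw [abs_mul] at h4
    have h5 := mul_le_mul_of_nonneg_right h3 (abs_nonneg (Q (m + 1)))
    linarith

/-- **size of `Q` at the end of the run** -/
theorem size_end (hk : (10 : ℝ) ^ 100 ≤ k) (hL : 100 ≤ L) (hρ : 2 ≤ ρ)
    (S : Side k L ρ (zt k c t) x w M) :
    Real.exp ρ * k ^ 80 / 2 ≤ |Align.Q (ap k (zt k c t)) (w + M)| := by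
  have hk0 := kpos hk
  have hw := S.hw
  have hg := (growth hk hL hρ S (w + M) (by omega) le_rfl).2
  set Q := Align.Q (ap k (zt k c t)) with hQ
  have h1 := wr_xQ S (w + M - 1)
  have e : w + M - 1 + 1 = w + M := by omega
  rw [e, ← hQ] at h1
  have hfin := S.fin
  have e80 := exp_log_mul' hk ρ 80
  push_cast at e80
  rw [e80] at hfin
  have hexp : Real.exp (-ρ) = 1 / Real.exp ρ := by rw [Real.exp_neg, one_div]
  have hE := Real.exp_pos ρ
  set E := Real.exp (-ρ) / k ^ 80 with hEd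
  have b1 : |x (w + M - 1)| ≤ E := (le_max_left _ _).trans hfin
  have b2 : |x (w + M)| ≤ E := (le_max_right _ _).trans hfin
  have hE0 : 0 < E := by positivity
  have h2 : 1 ≤ |x (w + M - 1)| * |Q (w + M)| + |x (w + M)| * |Q (w + M - 1)| := by
    rw [← S.x0, ← h1, ← abs_mul, ← abs_mul]
    exact abs_sub _ _
  have h3 : |x (w + M - 1)| * |Q (w + M)| ≤ E * |Q (w + M)| :=
    mul_le_mul_of_nonneg_right b1 (abs_nonneg _)
  have h4 : |x (w + M)| * |Q (w + M - 1)| ≤ E * |Q (w + M)| :=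
    mul_le_mul b2 hg (abs_nonneg _) hE0.le
  have h5 : 1 ≤ 2 * (E * |Q (w + M)|) := by linarith
  have h6 : E * |Q (w + M)| = |Q (w + M)| / (Real.exp ρ * k ^ 80) := by
    rw [hEd, hexp]
    field_simp
  rw [h6, ← mul_div_assoc, le_div_iff₀ (by positivity)] at h5
  linarith

/-- **before the foot**: `|Q_m| ≤ 1000 k² |Q_w|` for `m ≤ w` -/
theorem before (hk : (10 : ℝ) ^ 100 ≤ k) (hL : 100 ≤ L) (hρ : 2 ≤ ρ)
    (S : Side k L ρ (zt k c t) x w M) {m : ℕ} (hm : m ≤ w) :
    |Align.Q (ap k (zt k c t)) m| ≤ 1000 * k ^ 2 * |Align.Q (ap k (zt k c t)) w| := by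
  have hk0 := kpos hk
  have hk1 : (1 : ℝ) ≤ k := le_trans (by norm_num) hk
  have hw := S.hw
  have C := VFSide.clean hk (by omega) hρ S
  set Q := Align.Q (ap k (zt k c t)) with hQ
  have hk2 : (1 : ℝ) ≤ k ^ 2 := one_le_pow₀ hk1
  rcases Nat.eq_or_lt_of_le hm with h | h
  · rw [h]
    have : 1 * |Q w| ≤ 1000 * k ^ 2 * |Q w| := mul_le_mul_of_nonneg_right (by linarith) (abs_nonneg _)
    linarith
  · have h1 := C.R_le (m := m) (by omega)
    have h2 : nn (VFSide.zf (ap k (zt k c t)) w m) ^ (-(1 - 3 * (1 / 60)) : ℝ) ≤ 1 :=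
      Real.rpow_le_one_of_one_le_of_nonpos (C.one m (by omega)) (by norm_num)
    have h3 : |Q m| ≤ nn (CleanDisc.wf k c t m) := by
      rw [VFSide.wf_eq]
      exact abs_fst_le (Q m, Q (m + 1))
    have h4 : |wr (CleanDisc.wf k c t 0) (VFSide.zf (ap k (zt k c t)) w 0)| = |Q w| := by
      rw [CleanDisc.wf_zero]
      unfold VFSide.zf wr
      rw [VFSide.qd_zero, VFSide.qd_one]
      simp only [zero_mul, one_mul, zero_sub, abs_neg]
      rfl
    rw [h4] at h1
    have h5 : 0 ≤ CleanNum.C1 (8 * k) 4 3 * |Q w| := by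
      have := CleanNum.C1_pos C
      have := abs_nonneg (Q w)
      positivity
    have h6 : CleanNum.C1 (8 * k) 4 3 * |Q w| *
        nn (VFSide.zf (ap k (zt k c t)) w m) ^ (-(1 - 3 * (1 / 60)) : ℝ) ≤
        CleanNum.C1 (8 * k) 4 3 * |Q w| * 1 := mul_le_mul_of_nonneg_left h2 h5
    have h7 : CleanNum.C1 (8 * k) 4 3 ≤ 1000 * k ^ 2 := by
      unfold CleanNum.C1
      nlinarith
    have h8 : CleanNum.C1 (8 * k) 4 3 * |Q w| ≤ 1000 * k ^ 2 * |Q w| :=
      mul_le_mul_of_nonneg_right h7 (abs_nonneg _)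
    linarith

/-- **position of an index**: if `|Q_p|` is large then `p` is after the foot; if all `|Q_j|`, `j ≤ p`, are
not too large then `p + 4` is before the end of the run. -/
theorem index (hk : (10 : ℝ) ^ 100 ≤ k) (hL : 100 ≤ L) (hρ : 2 ≤ ρ)
    (S : Side k L ρ (zt k c t) x w M) {p : ℕ} :
    (k ^ 6 * Real.exp ρ ≤ |Align.Q (ap k (zt k c t)) p| → w < p) ∧
      ((∀ j ≤ p, |Align.Q (ap k (zt k c t)) j| ≤ Real.exp ρ * k ^ 79) → p < w + M) := by
  have hk0 := kpos hk
  have hk1 : (1 : ℝ) ≤ k := le_trans (by norm_num) hk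
  have hE := Real.exp_pos ρ
  constructor
  · intro h
    by_contra hc
    push Not at hc
    have h1 := before hk hL hρ S hc
    have h2 := (size_foot hk hL hρ S).2
    have h3 : 1000 * k ^ 2 * |Align.Q (ap k (zt k c t)) w| ≤
        1000 * k ^ 2 * (2 * (Real.exp ρ * k ^ 3)) := mul_le_mul_of_nonneg_left h2 (by positivity)
    have h4 : 1000 * k ^ 2 * (2 * (Real.exp ρ * k ^ 3)) = 2000 * (k ^ 5 * Real.exp ρ) := by ring
    have h5 : 2000 * (k ^ 5 * Real.exp ρ) < k * (k ^ 5 * Real.exp ρ) :=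
      mul_lt_mul_of_pos_right (lt_of_lt_of_le (by norm_num) hk) (by positivity)
    have h6 : k * (k ^ 5 * Real.exp ρ) = k ^ 6 * Real.exp ρ := by ring
    linarith
  · intro h
    by_contra hc
    push Not at hc
    have h1 := h (w + M) hc
    have h2 := size_end hk hL hρ S
    have h3 : Real.exp ρ * k ^ 80 / 2 = (k / 2) * (Real.exp ρ * k ^ 79) := by ring
    have h4 : 1 * (Real.exp ρ * k ^ 79) < (k / 2) * (Real.exp ρ * k ^ 79) :=
      mul_lt_mul_of_pos_right (by linarith [show (10 : ℝ) ^ 100 > 2 by norm_num]) (by positivity)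
    linarith

end side

end Crest.Agent.R128.VFSize
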