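import Crest.Agent.R128.Skel
import Crest.Agent.R128.Good

/-! # Row 128, V5: `Skel.Val k 1000 L z n` implies `Good.CVal k L z n` (helper393)

Also the comparison of the exponents (`P = 1000` implies `P = 100`), and the consequence
`Skel.Fresh → CVal` on both sides. -/

set_option autoImplicit false

namespace Crest.Agent.R128.ValC

open Crest.Agent.R128 Crest.Agent.R128.Lam0

/-- at every tested time the field is at least `j ^ 3996` (so `≥ j ^ 400 ≥ 1`) -/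
theorem le_fld {k : ℝ} {L : ℕ} {z : Tor} {n : ℕ} (h : Skel.Val k 1000 L z n) {j : ℕ}
    (hj : 1000 ≤ j) (hjn : j ≤ n) : (j : ℝ) ^ 3996 ≤ ‖fld k z j‖ := by
  obtain ⟨i, hi, hij, hv⟩ := h.v3 j hj hjn
  have h2 := h.v2 i j hi hij hjn
  have hj0 : (0 : ℝ) ≤ (j : ℝ) := Nat.cast_nonneg j
  by_contra hc
  push Not at hc
  have a1 : ((j : ℝ) ^ (4 * 1000)) ^ (1000 - 1) ≤ ‖fld k z i‖ ^ (1000 - 1) :=
    pow_le_pow_left₀ (by positivity) hv _
  have a2 : ‖fld k z j‖ ^ 1000 < ((j : ℝ) ^ 3996) ^ 1000 :=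
    pow_lt_pow_left₀ hc (norm_nonneg _) (by norm_num)
  have a3 : ((j : ℝ) ^ 3996) ^ 1000 = ((j : ℝ) ^ (4 * 1000)) ^ (1000 - 1) := by
    rw [← pow_mul, ← pow_mul]
  have := (a1.trans h2).trans_lt a2
  rw [a3] at this
  exact lt_irrefl _ this

theorem one_le_fld {k : ℝ} {L : ℕ} {z : Tor} {n : ℕ} (h : Skel.Val k 1000 L z n) {j : ℕ}
    (hj : 1000 ≤ j) (hjn : j ≤ n) : 1 ≤ ‖fld k z j‖ := by
  have h1 : (1 : ℝ) ≤ (j : ℝ) := by exact_mod_cast (by omega : 1 ≤ j)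
  exact (one_le_pow₀ h1).trans (le_fld h hj hjn)

theorem cval_of_val {k : ℝ} {L : ℕ} (hL : 1000 ≤ L) {z : Tor} {n : ℕ}
    (h : Skel.Val k 1000 L z n) : Good.CVal k L z n := by
  refine ⟨h.cl, fun i j hi hij hjn => ?_, fun j hj hjn => ⟨j, hj, le_rfl, ?_⟩⟩
  · have h2 : ‖fld k z i‖ ^ 999 ≤ ‖fld k z j‖ ^ 1000 := h.v2 i j (hL.trans hi) hij hjn
    have hx1 : 1 ≤ ‖fld k z i‖ := one_le_fld h (hL.trans hi) (hij.trans hjn)
    by_contra hc
    push Not at hc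
    have a2 : (‖fld k z j‖ ^ 100) ^ 10 < (‖fld k z i‖ ^ 99) ^ 10 :=
      pow_lt_pow_left₀ hc (pow_nonneg (norm_nonneg _) _) (by norm_num)
    rw [← pow_mul, ← pow_mul] at a2
    have a3 : ‖fld k z i‖ ^ (99 * 10) ≤ ‖fld k z i‖ ^ 999 := pow_le_pow_right₀ hx1 (by norm_num)
    have a4 : ‖fld k z j‖ ^ (100 * 10) < ‖fld k z j‖ ^ 1000 := a2.trans_le (a3.trans h2)
    norm_num at a4
  · have h1 : (1 : ℝ) ≤ (j : ℝ) := by exact_mod_cast (by omega : 1 ≤ j)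
    have h3 : (j : ℝ) ^ 400 ≤ (j : ℝ) ^ 3996 := pow_le_pow_right₀ h1 (by norm_num)
    exact h3.trans (le_fld h (hL.trans hj) hjn)

/-- both sides of a fresh pair of feet are `CVal` -/
theorem cval_of_fresh {k : ℝ} {L : ℕ} (hL : 1000 ≤ L) {z : Tor} {i j t : ℕ}
    (h : Skel.Fresh k L z i j t) :
    Good.CVal k L ((T k)^[i] z) (t - i) ∧ Good.CVal k L ((T k)^[j] z).swap (j - t) :=
  ⟨cval_of_val hL h.1, cval_of_val hL h.2⟩

/-- `Val` is antitone in `n` -/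
theorem val_mono {k : ℝ} {P L : ℕ} {z : Tor} {n n' : ℕ} (h : Skel.Val k P L z n)
    (hn : n' ≤ n) : Skel.Val k P L z n' :=
  ⟨fun m hm hmn => h.cl m hm (hmn.trans_le hn), fun i j hi hij hj => h.v2 i j hi hij (hj.trans hn),
    fun j hj hjn => h.v3 j hj (hjn.trans hn)⟩

theorem cval_mono {k : ℝ} {L : ℕ} {z : Tor} {n n' : ℕ} (h : Good.CVal k L z n)
    (hn : n' ≤ n) : Good.CVal k L z n' :=
  ⟨fun m hm hmn => h.cl m hm (hmn.trans_le hn), fun i j hi hij hj => h.v2 i j hi hij (hj.trans hn),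
    fun j hj hjn => h.v3 j hj (hjn.trans hn)⟩

end Crest.Agent.R128.ValC
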