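import Mathlib
import Crest.Agent.R128.Skel
import Crest.Agent.R128.Good

/-!
# Row 128: `Skel.Val k 1000 L0` (fresh) implies `Good.CVal k L0` (helper892)
-/

set_option autoImplicit false

namespace Crest.Agent.R128.ValCVal

open Crest.Agent.R128.Acc Crest.Agent.R128.Lam0

/-- norms of a clean start are at least `1` from index `1000` on, and at least `j ^ 3996` -/
theorem norm_ge {k : ℝ} {L0 : ℕ} {z : Tor} {n : ℕ} (h : Skel.Val k 1000 L0 z n) {j : ℕ}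
    (hj : 1000 ≤ j) (hjn : j ≤ n) : (j : ℝ) ^ 3996 ≤ ‖fld k z j‖ := by
  obtain ⟨i, hi1, hi2, hi3⟩ := h.v3 j hj hjn
  have h1 := h.v2 i j hi1 hi2 hjn
  simp only [Nat.reduceSub, Nat.reduceMul] at h1 hi3
  have h2 : ((j : ℝ) ^ 3996) ^ 1000 ≤ ‖fld k z j‖ ^ 1000 := by
    calc ((j : ℝ) ^ 3996) ^ 1000 = ((j : ℝ) ^ 4000) ^ 999 := by rw [← pow_mul, ← pow_mul]
      _ ≤ ‖fld k z i‖ ^ 999 := pow_le_pow_left₀ (pow_nonneg (Nat.cast_nonneg _) _) hi3 _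
      _ ≤ _ := h1
  exact le_of_pow_le_pow_left₀ (by norm_num) (norm_nonneg _) h2

theorem one_le {k : ℝ} {L0 : ℕ} {z : Tor} {n : ℕ} (h : Skel.Val k 1000 L0 z n) {j : ℕ}
    (hj : 1000 ≤ j) (hjn : j ≤ n) : 1 ≤ ‖fld k z j‖ := by
  refine le_trans ?_ (norm_ge h hj hjn)
  exact one_le_pow₀ (by exact_mod_cast (by omega : 1 ≤ j))

/-- **fresh implies `CVal`** -/
theorem cval_of_val {k : ℝ} {L0 : ℕ} {z : Tor} {n : ℕ} (hL : 1000 ≤ L0) (h : Skel.Val k 1000 L0 z n) :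
    Good.CVal k L0 z n := by
  refine ⟨h.cl, fun i j hi hij hjn => ?_, fun j hj hjn => ?_⟩
  · have h1 := h.v2 i j (hL.trans hi) hij hjn
    simp only [Nat.reduceSub] at h1
    have hge := one_le h (hL.trans hi) (hij.trans hjn)
    have h2 : (‖fld k z i‖ ^ 99) ^ 10 ≤ (‖fld k z j‖ ^ 100) ^ 10 := by
      calc (‖fld k z i‖ ^ 99) ^ 10 = ‖fld k z i‖ ^ 990 := by rw [← pow_mul]
        _ ≤ ‖fld k z i‖ ^ 999 := pow_le_pow_right₀ hge (by norm_num)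
        _ ≤ ‖fld k z j‖ ^ 1000 := h1
        _ = (‖fld k z j‖ ^ 100) ^ 10 := by rw [← pow_mul]
    exact le_of_pow_le_pow_left₀ (by norm_num) (pow_nonneg (norm_nonneg _) _) h2
  · refine ⟨j, hj, le_rfl, ?_⟩
    refine le_trans ?_ (norm_ge h (hL.trans hj) hjn)
    exact pow_le_pow_right₀ (by exact_mod_cast (by omega : 1 ≤ j)) (by norm_num)

end Crest.Agent.R128.ValCVal
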