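import Mathlib

/-!
# Row 128, node P4 (roughness): window matrix algebra

`M = (α β; γ δ)` = transfer matrix of a window `i → j`, `b = V(x_i)` the digit that is added on the
left, `a = V(x_{j+1})` the digit that is added on the right, `M' = B(a) M B(b)`,
`B(x) = (0 1; -1 x)`.  If `M` and `M'` are both `≤ X` (window aligned before and after) then the
alignment equation `γ/b - β/a + δ = O(X/(|a||b|))` holds.
-/

set_option autoImplicit false

namespace Crest.Agent.R128.WinStep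

open Matrix

/-- one step matrix -/
def B (x : ℝ) : Matrix (Fin 2) (Fin 2) ℝ := !![0, 1; -1, x]

theorem step_entries (M : Matrix (Fin 2) (Fin 2) ℝ) (a b : ℝ) :
    (B a * M * B b) 0 0 = - M 1 1 ∧
    (B a * M * B b) 0 1 = M 1 0 + b * M 1 1 ∧
    (B a * M * B b) 1 0 = M 0 1 - a * M 1 1 ∧
    (B a * M * B b) 1 1 = - M 0 0 + a * M 1 0 - b * M 0 1 + a * b * M 1 1 := by
  refine ⟨?_, ?_, ?_, ?_⟩ <;>
    · simp only [B, Matrix.mul_apply, Fin.sum_univ_two, Matrix.of_apply, Matrix.cons_val', Matrix.cons_val_zero,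
        Matrix.cons_val_one, Matrix.cons_val_fin_one, Matrix.empty_val']
      ring

section real

variable {α β γ δ a b X : ℝ}

theorem delta_le_a (ha : a ≠ 0) (hβ : |β| ≤ X) (h10 : |β - a * δ| ≤ X) : |δ| ≤ 2 * X / |a| := by
  have ha' : 0 < |a| := abs_pos.mpr ha
  rw [le_div_iff₀ ha']
  have h1 : a * δ = β - (β - a * δ) := by ring
  have h2 := abs_sub β (β - a * δ)
  rw [← h1, abs_mul] at h2
  linarith

theorem delta_le_b (hb : b ≠ 0) (hγ : |γ| ≤ X) (h01 : |γ + b * δ| ≤ X) : |δ| ≤ 2 * X / |b| := by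
  have hb' : 0 < |b| := abs_pos.mpr hb
  rw [le_div_iff₀ hb']
  have h1 : b * δ = (γ + b * δ) - γ := by ring
  have h2 := abs_sub (γ + b * δ) γ
  rw [← h1, abs_mul] at h2
  linarith

/-- THE ALIGNMENT EQUATION. -/
theorem align (ha : a ≠ 0) (hb : b ≠ 0) (hα : |α| ≤ X)
    (h11 : |-α + a * γ - b * β + a * b * δ| ≤ X) :
    |γ / b - β / a + δ| ≤ 2 * X / (|a| * |b|) := by
  have hab : 0 < |a| * |b| := mul_pos (abs_pos.mpr ha) (abs_pos.mpr hb)
  rw [le_div_iff₀ hab]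
  have h1 : (γ / b - β / a + δ) * (a * b) = (-α + a * γ - b * β + a * b * δ) + α := by
    field_simp; ring
  have h2 := abs_add_le (-α + a * γ - b * β + a * b * δ) α
  rw [← h1, abs_mul, abs_mul] at h2
  linarith

theorem betagamma (hdet : α * δ - β * γ = 1) (hα : |α| ≤ X) (hδ : |δ| ≤ 2 * X / |a|) :
    |β * γ + 1| ≤ 2 * X ^ 2 / |a| := by
  have h1 : β * γ + 1 = α * δ := by linarith
  rw [h1, abs_mul]
  have hX : 0 ≤ X := le_trans (abs_nonneg _) hα
  calc |α| * |δ| ≤ X * (2 * X / |a|) := mul_le_mul hα hδ (abs_nonneg _) hX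
    _ = 2 * X ^ 2 / |a| := by ring

/-- transport of the off-diagonal entries -/
theorem beta_next (ha : a ≠ 0) (hb : b ≠ 0)
    (hal : |γ / b - β / a + δ| ≤ 2 * X / (|a| * |b|)) :
    |(γ + b * δ) - b / a * β| ≤ 2 * X / |a| := by
  have hb' : 0 < |b| := abs_pos.mpr hb
  have ha' : 0 < |a| := abs_pos.mpr ha
  have h1 : (γ + b * δ) - b / a * β = b * (γ / b - β / a + δ) := by field_simp; ring
  rw [h1, abs_mul]
  calc |b| * |γ / b - β / a + δ| ≤ |b| * (2 * X / (|a| * |b|)) :=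
        mul_le_mul_of_nonneg_left hal hb'.le
    _ = 2 * X / |a| := by field_simp

theorem gamma_next (ha : a ≠ 0) (hb : b ≠ 0)
    (hal : |γ / b - β / a + δ| ≤ 2 * X / (|a| * |b|)) :
    |(β - a * δ) - a / b * γ| ≤ 2 * X / |b| := by
  have hb' : 0 < |b| := abs_pos.mpr hb
  have ha' : 0 < |a| := abs_pos.mpr ha
  have h1 : (β - a * δ) - a / b * γ = -(a * (γ / b - β / a + δ)) := by field_simp; ring
  rw [h1, abs_neg, abs_mul]
  calc |a| * |γ / b - β / a + δ| ≤ |a| * (2 * X / (|a| * |b|)) :=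
        mul_le_mul_of_nonneg_left hal ha'.le
    _ = 2 * X / |b| := by field_simp

/-- normalised form used by `rough1`: coordinate on the side of `b` (the slower side),
`sb = K/b`, `sa = K/a` (think `K = 2πk`, `sb ≈ sec 2πQ`, `sa ≈ sec 2πP`): if `γ ≠ 0`,
`| K δ/γ + (1/γ²) sa + sb |` is small. -/
theorem align_normalised {K : ℝ} (hK : 0 < K) (ha : a ≠ 0) (hb : b ≠ 0) (hγ : γ ≠ 0)
    (hal : |γ / b - β / a + δ| ≤ 2 * X / (|a| * |b|))
    (hbg : |β * γ + 1| ≤ 2 * X ^ 2 / |a|) :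
    |K * δ / γ + (1 / γ ^ 2) * (K / a) + K / b|
      ≤ 2 * K * X / (|γ| * |a| * |b|) + 2 * K * X ^ 2 / (γ ^ 2 * |a| ^ 2) := by
  have ha' : 0 < |a| := abs_pos.mpr ha
  have hb' : 0 < |b| := abs_pos.mpr hb
  have hγ' : 0 < |γ| := abs_pos.mpr hγ
  have h1 : K * δ / γ + (1 / γ ^ 2) * (K / a) + K / b
      = K / γ * (γ / b - β / a + δ) + K / (γ ^ 2 * a) * (β * γ + 1) := by
    field_simp; ring
  rw [h1]
  refine (abs_add_le _ _).trans (add_le_add ?_ ?_)
  · rw [abs_mul, abs_div, abs_of_pos hK]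
    calc K / |γ| * |γ / b - β / a + δ| ≤ K / |γ| * (2 * X / (|a| * |b|)) :=
          mul_le_mul_of_nonneg_left hal (by positivity)
      _ = 2 * K * X / (|γ| * |a| * |b|) := by field_simp
  · rw [abs_mul, abs_div, abs_of_pos hK, abs_mul, abs_pow, sq_abs]
    calc K / (γ ^ 2 * |a|) * |β * γ + 1| ≤ K / (γ ^ 2 * |a|) * (2 * X ^ 2 / |a|) :=
          mul_le_mul_of_nonneg_left hbg (by positivity)
      _ = 2 * K * X ^ 2 / (γ ^ 2 * |a| ^ 2) := by field_simp

end real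

/-- Everything at once from the matrices. -/
theorem window {M : Matrix (Fin 2) (Fin 2) ℝ} {a b X : ℝ} (hdet : M.det = 1)
    (ha : a ≠ 0) (hb : b ≠ 0) (hM : ∀ i j, |M i j| ≤ X) (hM' : ∀ i j, |(B a * M * B b) i j| ≤ X) :
    |M 1 1| ≤ 2 * X / |a| ∧ |M 1 1| ≤ 2 * X / |b| ∧
    |M 1 0 / b - M 0 1 / a + M 1 1| ≤ 2 * X / (|a| * |b|) ∧
    |M 0 1 * M 1 0 + 1| ≤ 2 * X ^ 2 / |a| ∧
    |(B a * M * B b) 0 1 - b / a * M 0 1| ≤ 2 * X / |a| ∧
    |(B a * M * B b) 1 0 - a / b * M 1 0| ≤ 2 * X / |b| := by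
  obtain ⟨e00, e01, e10, e11⟩ := step_entries M a b
  have h01 := hM' 0 1
  have h10 := hM' 1 0
  have h11 := hM' 1 1
  rw [e01] at h01
  rw [e10] at h10
  rw [e11] at h11
  have hdet' : M 0 0 * M 1 1 - M 0 1 * M 1 0 = 1 := by
    rw [Matrix.det_fin_two] at hdet; exact hdet
  have hda := delta_le_a ha (hM 0 1) h10
  have hdb := delta_le_b hb (hM 1 0) h01
  have hal := align ha hb (hM 0 0) h11
  refine ⟨hda, hdb, hal, betagamma hdet' (hM 0 0) hda, ?_, ?_⟩
  · rw [e01]; exact beta_next ha hb hal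
  · rw [e10]; exact gamma_next ha hb hal

end Crest.Agent.R128.WinStep
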